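import Vale.Agent.Lib.P154.PChain.BK.L

set_option linter.all false

namespace Vale.Agent.Lib.P154.PChain.BK.S0

open Vale.Agent.Lib.P154.Chain

noncomputable def pc0 : PT := (PT.nd (nat_lit 4968288) (PT.nd (nat_lit 4805892) (PT.nd (nat_lit 4724694) (PT.nd (nat_lit 4684134) (PT.nd (nat_lit 4684056) (PT.nd (nat_lit 4643496) PT.nil (PT.lf (nat_lit 76) (nat_lit 3) (nat_lit 1) (nat_lit 1) (nat_lit 138) (nat_lit 114) (nat_lit 138))) (PT.lf (nat_lit 152) (nat_lit 6) (nat_lit 2) (nat_lit 3) (nat_lit 137) (nat_lit 115) (nat_lit 138))) (PT.nd (nat_lit 40482) (PT.lf (nat_lit 152) (nat_lit 6) (nat_lit 2) (nat_lit 1) (nat_lit 138) (nat_lit 115) (nat_lit 137)) (PT.lf (nat_lit 228) (nat_lit 6) (nat_lit 3) (nat_lit 3) (nat_lit 136) (nat_lit 116) (nat_lit 138)))) (PT.nd (nat_lit 40560) (PT.nd (nat_lit 78) (PT.lf (nat_lit 304) (nat_lit 3) (nat_lit 4) (nat_lit 1) (nat_lit 137) (nat_lit 116) (nat_lit 137))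 (PT.lf (nat_lit 228) (nat_lit 6) (nat_lit 3) (nat_lit 1) (nat_lit 138) (nat_lit 116) (nat_lit 136))) (PT.nd (nat_lit 78) (PT.lf (nat_lit 380) (nat_lit 6) (nat_lit 5) (nat_lit 3) (nat_lit 136) (nat_lit 117) (nat_lit 137)) (PT.nd (nat_lit 40482) (PT.lf (nat_lit 380) (nat_lit 6) (nat_lit 5) (nat_lit 1) (nat_lit 137) (nat_lit 117) (nat_lit 136)) (PT.lf (nat_lit 456) (nat_lit 6) (nat_lit 6) (nat_lit 3) (nat_lit 135) (nat_lit 118) (nat_lit 137)))))) (PT.nd (nat_lit 81198) (PT.nd (nat_lit 40560) (PT.nd (nat_lit 78) (PT.lf (nat_lit 532) (nat_lit 3) (nat_lit 7) (nat_lit 1) (nat_lit 136) (nat_lit 118) (nat_lit 136)) (PT.lf (nat_lit 456) (nat_lit 6) (nat_lit 6) (nat_lit 1) (nat_lit 137) (nat_lit 118) (nat_lit 135))) (PT.nd (nat_lit 78) (PT.lf (nat_lit 608) (nat_lit 6) (nat_lit 8) (nat_lit 3) (nat_lit 135) (nat_lit 119) (nat_lit 136)) (PT.nd (nat_lit 40482) (PT.lf (nat_lit 608) (nat_lit 6) (nat_lit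 8) (nat_lit 1) (nat_lit 136) (nat_lit 119) (nat_lit 135)) (PT.lf (nat_lit 684) (nat_lit 6) (nat_lit 9) (nat_lit 3) (nat_lit 134) (nat_lit 120) (nat_lit 136))))) (PT.nd (nat_lit 40560) (PT.nd (nat_lit 78) (PT.lf (nat_lit 760) (nat_lit 3) (nat_lit 10) (nat_lit 1) (nat_lit 135) (nat_lit 120) (nat_lit 135)) (PT.lf (nat_lit 684) (nat_lit 6) (nat_lit 9) (nat_lit 1) (nat_lit 136) (nat_lit 120) (nat_lit 134))) (PT.nd (nat_lit 78) (PT.lf (nat_lit 836) (nat_lit 6) (nat_lit 11) (nat_lit 3) (nat_lit 134) (nat_lit 121) (nat_lit 135)) (PT.nd (nat_lit 40482) (PT.lf (nat_lit 836) (nat_lit 6) (nat_lit 11) (nat_lit 1) (nat_lit 135) (nat_lit 121) (nat_lit 134)) (PT.lf (nat_lit 912) (nat_lit 6) (nat_lit 12) (nat_lit 3) (nat_lit 133) (nat_lit 122) (nat_lit 135))))))) (PT.nd (nat_lit 121758) (PT.nd (nat_lit 40716) (PT.nd (nat_lit 40482) (PT.nd (nat_lit 78) (PT.lf (nat_lit 988) (nat_lit 3) (nat_lit 13) (nat_lit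 1) (nat_lit 134) (nat_lit 122) (nat_lit 134)) (PT.lf (nat_lit 912) (nat_lit 6) (nat_lit 12) (nat_lit 1) (nat_lit 135) (nat_lit 122) (nat_lit 133))) (PT.nd (nat_lit 78) (PT.lf (nat_lit 1064) (nat_lit 6) (nat_lit 14) (nat_lit 3) (nat_lit 132) (nat_lit 123) (nat_lit 135)) (PT.nd (nat_lit 78) (PT.lf (nat_lit 1140) (nat_lit 6) (nat_lit 15) (nat_lit 3) (nat_lit 133) (nat_lit 123) (nat_lit 134)) (PT.lf (nat_lit 1140) (nat_lit 6) (nat_lit 15) (nat_lit 1) (nat_lit 134) (nat_lit 123) (nat_lit 133))))) (PT.nd (nat_lit 40482) (PT.nd (nat_lit 40404) (PT.lf (nat_lit 1064) (nat_lit 6) (nat_lit 14) (nat_lit 1) (nat_lit 135) (nat_lit 123) (nat_lit 132)) (PT.lf (nat_lit 1216) (nat_lit 6) (nat_lit 16) (nat_lit 3) (nat_lit 132) (nat_lit 124) (nat_lit 134))) (PT.nd (nat_lit 78) (PT.lf (nat_lit 1292) (nat_lit 3) (nat_lit 17) (nat_lit 1) (nat_lit 133) (nat_lit 124) (nat_lit 133)) (PT.nd (nat_lit 40404) (PT.lf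 (nat_lit 1216) (nat_lit 6) (nat_lit 16) (nat_lit 1) (nat_lit 134) (nat_lit 124) (nat_lit 132)) (PT.lf (nat_lit 1368) (nat_lit 6) (nat_lit 18) (nat_lit 3) (nat_lit 131) (nat_lit 125) (nat_lit 134)))))) (PT.nd (nat_lit 40638) (PT.nd (nat_lit 156) (PT.nd (nat_lit 78) (PT.lf (nat_lit 1444) (nat_lit 6) (nat_lit 19) (nat_lit 3) (nat_lit 132) (nat_lit 125) (nat_lit 133)) (PT.lf (nat_lit 1444) (nat_lit 6) (nat_lit 19) (nat_lit 1) (nat_lit 133) (nat_lit 125) (nat_lit 132))) (PT.nd (nat_lit 40326) (PT.lf (nat_lit 1368) (nat_lit 6) (nat_lit 18) (nat_lit 1) (nat_lit 134) (nat_lit 125) (nat_lit 131)) (PT.nd (nat_lit 78) (PT.lf (nat_lit 1672) (nat_lit 6) (nat_lit 22) (nat_lit 3) (nat_lit 130) (nat_lit 126) (nat_lit 134)) (PT.lf (nat_lit 1748) (nat_lit 6) (nat_lit 23) (nat_lit 3) (nat_lit 131) (nat_lit 126) (nat_lit 133))))) (PT.nd (nat_lit 156) (PT.nd (nat_lit 78) (PT.lf (nat_lit 1824) (nat_lit 3)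 (nat_lit 24) (nat_lit 1) (nat_lit 132) (nat_lit 126) (nat_lit 132)) (PT.lf (nat_lit 1748) (nat_lit 6) (nat_lit 23) (nat_lit 1) (nat_lit 133) (nat_lit 126) (nat_lit 131))) (PT.nd (nat_lit 40248) (PT.lf (nat_lit 1672) (nat_lit 6) (nat_lit 22) (nat_lit 1) (nat_lit 134) (nat_lit 126) (nat_lit 130)) (PT.nd (nat_lit 78) (PT.lf (nat_lit 1596) (nat_lit 6) (nat_lit 21) (nat_lit 3) (nat_lit 129) (nat_lit 127) (nat_lit 134)) (PT.lf (nat_lit 1976) (nat_lit 6) (nat_lit 26) (nat_lit 3) (nat_lit 130) (nat_lit 127) (nat_lit 133))))))))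
noncomputable def pc1 : PT := (PT.nd (nat_lit 121524) (PT.nd (nat_lit 40794) (PT.nd (nat_lit 40404) (PT.nd (nat_lit 156) (PT.nd (nat_lit 78) (PT.lf (nat_lit 2052) (nat_lit 6) (nat_lit 27) (nat_lit 3) (nat_lit 131) (nat_lit 127) (nat_lit 132)) (PT.lf (nat_lit 2052) (nat_lit 6) (nat_lit 27) (nat_lit 1) (nat_lit 132) (nat_lit 127) (nat_lit 131))) (PT.nd (nat_lit 78) (PT.lf (nat_lit 1976) (nat_lit 6) (nat_lit 26) (nat_lit 1) (nat_lit 133) (nat_lit 127) (nat_lit 130)) (PT.lf (nat_lit 1596) (nat_lit 6) (nat_lit 21) (nat_lit 1) (nat_lit 134) (nat_lit 127) (nat_lit 129)))) (PT.nd (nat_lit 156) (PT.nd (nat_lit 78) (PT.lf (nat_lit 1520) (nat_lit 3) (nat_lit 20) (nat_lit 3) (nat_lit 128) (nat_lit 128) (nat_lit 134)) (PT.lf (nat_lit 1900) (nat_lit 6) (nat_lit 25) (nat_lit 3) (nat_lit 129) (nat_lit 128) (nat_lit 133))) (PT.nd (nat_lit 78) (PT.lf (nat_lit 2204) (nat_lit 6) (nat_lit 29) (nat_lit 3)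 (nat_lit 130) (nat_lit 128) (nat_lit 132)) (PT.nd (nat_lit 78) (PT.lf (nat_lit 2280) (nat_lit 3) (nat_lit 30) (nat_lit 1) (nat_lit 131) (nat_lit 128) (nat_lit 131)) (PT.lf (nat_lit 2204) (nat_lit 6) (nat_lit 29) (nat_lit 1) (nat_lit 132) (nat_lit 128) (nat_lit 130)))))) (PT.nd (nat_lit 40404) (PT.nd (nat_lit 40170) (PT.nd (nat_lit 78) (PT.lf (nat_lit 1900) (nat_lit 6) (nat_lit 25) (nat_lit 1) (nat_lit 133) (nat_lit 128) (nat_lit 129)) (PT.lf (nat_lit 1520) (nat_lit 3) (nat_lit 20) (nat_lit 0) (nat_lit 134) (nat_lit 128) (nat_lit 128))) (PT.nd (nat_lit 78) (PT.lf (nat_lit 1596) (nat_lit 6) (nat_lit 21) (nat_lit 5) (nat_lit 127) (nat_lit 129) (nat_lit 134)) (PT.nd (nat_lit 78) (PT.lf (nat_lit 1900) (nat_lit 6) (nat_lit 25) (nat_lit 5) (nat_lit 128) (nat_lit 129) (nat_lit 133)) (PT.lf (nat_lit 2128) (nat_lit 3) (nat_lit 28) (nat_lit 3) (nat_lit 129) (nat_lit 129) (nat_lit 132))))) (PT.nd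 (nat_lit 156) (PT.nd (nat_lit 78) (PT.lf (nat_lit 2356) (nat_lit 6) (nat_lit 31) (nat_lit 3) (nat_lit 130) (nat_lit 129) (nat_lit 131)) (PT.lf (nat_lit 2356) (nat_lit 6) (nat_lit 31) (nat_lit 1) (nat_lit 131) (nat_lit 129) (nat_lit 130))) (PT.nd (nat_lit 78) (PT.lf (nat_lit 2128) (nat_lit 3) (nat_lit 28) (nat_lit 0) (nat_lit 132) (nat_lit 129) (nat_lit 129)) (PT.nd (nat_lit 78) (PT.lf (nat_lit 1900) (nat_lit 6) (nat_lit 25) (nat_lit 0) (nat_lit 133) (nat_lit 129) (nat_lit 128)) (PT.lf (nat_lit 1596) (nat_lit 6) (nat_lit 21) (nat_lit 0) (nat_lit 134) (nat_lit 129) (nat_lit 127))))))) (PT.nd (nat_lit 40638) (PT.nd (nat_lit 390) (PT.nd (nat_lit 156) (PT.nd (nat_lit 78) (PT.lf (nat_lit 1672) (nat_lit 6) (nat_lit 22) (nat_lit 5) (nat_lit 126) (nat_lit 130) (nat_lit 134)) (PT.lf (nat_lit 1976) (nat_lit 6) (nat_lit 26) (nat_lit 5) (nat_lit 127) (nat_lit 130) (nat_lit 133))) (PT.nd (nat_lit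 78) (PT.lf (nat_lit 2204) (nat_lit 6) (nat_lit 29) (nat_lit 5) (nat_lit 128) (nat_lit 130) (nat_lit 132)) (PT.nd (nat_lit 78) (PT.lf (nat_lit 2356) (nat_lit 6) (nat_lit 31) (nat_lit 5) (nat_lit 129) (nat_lit 130) (nat_lit 131)) (PT.lf (nat_lit 2432) (nat_lit 1) (nat_lit 32) (nat_lit 0) (nat_lit 130) (nat_lit 130) (nat_lit 130))))) (PT.nd (nat_lit 156) (PT.nd (nat_lit 78) (PT.lf (nat_lit 2356) (nat_lit 6) (nat_lit 31) (nat_lit 0) (nat_lit 131) (nat_lit 130) (nat_lit 129)) (PT.lf (nat_lit 2204) (nat_lit 6) (nat_lit 29) (nat_lit 0) (nat_lit 132) (nat_lit 130) (nat_lit 128))) (PT.nd (nat_lit 78) (PT.lf (nat_lit 1976) (nat_lit 6) (nat_lit 26) (nat_lit 0) (nat_lit 133) (nat_lit 130) (nat_lit 127)) (PT.nd (nat_lit 39936) (PT.lf (nat_lit 1672) (nat_lit 6) (nat_lit 22) (nat_lit 0) (nat_lit 134) (nat_lit 130) (nat_lit 126)) (PT.lf (nat_lit 1368) (nat_lit 6) (nat_lit 18) (nat_lit 5) (nat_lit 125)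 (nat_lit 131) (nat_lit 134)))))) (PT.nd (nat_lit 390) (PT.nd (nat_lit 156) (PT.nd (nat_lit 78) (PT.lf (nat_lit 1748) (nat_lit 6) (nat_lit 23) (nat_lit 5) (nat_lit 126) (nat_lit 131) (nat_lit 133)) (PT.lf (nat_lit 2052) (nat_lit 6) (nat_lit 27) (nat_lit 5) (nat_lit 127) (nat_lit 131) (nat_lit 132))) (PT.nd (nat_lit 78) (PT.lf (nat_lit 2280) (nat_lit 3) (nat_lit 30) (nat_lit 4) (nat_lit 128) (nat_lit 131) (nat_lit 131)) (PT.nd (nat_lit 78) (PT.lf (nat_lit 2356) (nat_lit 6) (nat_lit 31) (nat_lit 4) (nat_lit 129) (nat_lit 131) (nat_lit 130)) (PT.lf (nat_lit 2356) (nat_lit 6) (nat_lit 31) (nat_lit 2) (nat_lit 130) (nat_lit 131) (nat_lit 129))))) (PT.nd (nat_lit 156) (PT.nd (nat_lit 78) (PT.lf (nat_lit 2280) (nat_lit 3) (nat_lit 30) (nat_lit 0) (nat_lit 131) (nat_lit 131) (nat_lit 128)) (PT.lf (nat_lit 2052) (nat_lit 6) (nat_lit 27) (nat_lit 0) (nat_lit 132) (nat_lit 131) (nat_lit 127))) (PT.nd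 (nat_lit 78) (PT.lf (nat_lit 1748) (nat_lit 6) (nat_lit 23) (nat_lit 0) (nat_lit 133) (nat_lit 131) (nat_lit 126)) (PT.nd (nat_lit 39780) (PT.lf (nat_lit 1368) (nat_lit 6) (nat_lit 18) (nat_lit 0) (nat_lit 134) (nat_lit 131) (nat_lit 125)) (PT.lf (nat_lit 1064) (nat_lit 6) (nat_lit 14) (nat_lit 5) (nat_lit 123) (nat_lit 132) (nat_lit 135))))))))
noncomputable def pc2 : PT := (PT.nd (nat_lit 41028) (PT.nd (nat_lit 702) (PT.nd (nat_lit 312) (PT.nd (nat_lit 156) (PT.nd (nat_lit 78) (PT.lf (nat_lit 1216) (nat_lit 6) (nat_lit 16) (nat_lit 5) (nat_lit 124) (nat_lit 132) (nat_lit 134)) (PT.lf (nat_lit 1444) (nat_lit 6) (nat_lit 19) (nat_lit 5) (nat_lit 125) (nat_lit 132) (nat_lit 133))) (PT.nd (nat_lit 78) (PT.lf (nat_lit 1824) (nat_lit 3) (nat_lit 24) (nat_lit 4) (nat_lit 126) (nat_lit 132) (nat_lit 132)) (PT.lf (nat_lit 2052) (nat_lit 6) (nat_lit 27) (nat_lit 4) (nat_lit 127) (nat_lit 132)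 (nat_lit 131)))) (PT.nd (nat_lit 156) (PT.nd (nat_lit 78) (PT.lf (nat_lit 2204) (nat_lit 6) (nat_lit 29) (nat_lit 4) (nat_lit 128) (nat_lit 132) (nat_lit 130)) (PT.lf (nat_lit 2128) (nat_lit 3) (nat_lit 28) (nat_lit 2) (nat_lit 129) (nat_lit 132) (nat_lit 129))) (PT.nd (nat_lit 78) (PT.lf (nat_lit 2204) (nat_lit 6) (nat_lit 29) (nat_lit 2) (nat_lit 130) (nat_lit 132) (nat_lit 128)) (PT.nd (nat_lit 78) (PT.lf (nat_lit 2052) (nat_lit 6) (nat_lit 27) (nat_lit 2) (nat_lit 131) (nat_lit 132) (nat_lit 127)) (PT.lf (nat_lit 1824) (nat_lit 3) (nat_lit 24) (nat_lit 0) (nat_lit 132) (nat_lit 132) (nat_lit 126)))))) (PT.nd (nat_lit 39936) (PT.nd (nat_lit 156) (PT.nd (nat_lit 78) (PT.lf (nat_lit 1444) (nat_lit 6) (nat_lit 19) (nat_lit 0) (nat_lit 133) (nat_lit 132) (nat_lit 125)) (PT.lf (nat_lit 1216) (nat_lit 6) (nat_lit 16) (nat_lit 0) (nat_lit 134) (nat_lit 132) (nat_lit 124))) (PT.nd (nat_lit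 39624) (PT.lf (nat_lit 1064) (nat_lit 6) (nat_lit 14) (nat_lit 0) (nat_lit 135) (nat_lit 132) (nat_lit 123)) (PT.nd (nat_lit 78) (PT.lf (nat_lit 912) (nat_lit 6) (nat_lit 12) (nat_lit 5) (nat_lit 122) (nat_lit 133) (nat_lit 135)) (PT.lf (nat_lit 1140) (nat_lit 6) (nat_lit 15) (nat_lit 5) (nat_lit 123) (nat_lit 133) (nat_lit 134))))) (PT.nd (nat_lit 156) (PT.nd (nat_lit 78) (PT.lf (nat_lit 1292) (nat_lit 3) (nat_lit 17) (nat_lit 4) (nat_lit 124) (nat_lit 133) (nat_lit 133)) (PT.lf (nat_lit 1444) (nat_lit 6) (nat_lit 19) (nat_lit 4) (nat_lit 125) (nat_lit 133) (nat_lit 132))) (PT.nd (nat_lit 78) (PT.lf (nat_lit 1748) (nat_lit 6) (nat_lit 23) (nat_lit 4) (nat_lit 126) (nat_lit 133) (nat_lit 131)) (PT.nd (nat_lit 78) (PT.lf (nat_lit 1976) (nat_lit 6) (nat_lit 26) (nat_lit 4) (nat_lit 127) (nat_lit 133) (nat_lit 130)) (PT.lf (nat_lit 1900) (nat_lit 6) (nat_lit 25) (nat_lit 4) (nat_lit 128)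 (nat_lit 133) (nat_lit 129))))))) (PT.nd (nat_lit 40170) (PT.nd (nat_lit 390) (PT.nd (nat_lit 156) (PT.nd (nat_lit 78) (PT.lf (nat_lit 1900) (nat_lit 6) (nat_lit 25) (nat_lit 2) (nat_lit 129) (nat_lit 133) (nat_lit 128)) (PT.lf (nat_lit 1976) (nat_lit 6) (nat_lit 26) (nat_lit 2) (nat_lit 130) (nat_lit 133) (nat_lit 127))) (PT.nd (nat_lit 78) (PT.lf (nat_lit 1748) (nat_lit 6) (nat_lit 23) (nat_lit 2) (nat_lit 131) (nat_lit 133) (nat_lit 126)) (PT.nd (nat_lit 78) (PT.lf (nat_lit 1444) (nat_lit 6) (nat_lit 19) (nat_lit 2) (nat_lit 132) (nat_lit 133) (nat_lit 125)) (PT.lf (nat_lit 1292) (nat_lit 3) (nat_lit 17) (nat_lit 0) (nat_lit 133) (nat_lit 133) (nat_lit 124))))) (PT.nd (nat_lit 39546) (PT.nd (nat_lit 78) (PT.lf (nat_lit 1140) (nat_lit 6) (nat_lit 15) (nat_lit 0) (nat_lit 134) (nat_lit 133) (nat_lit 123)) (PT.lf (nat_lit 912) (nat_lit 6) (nat_lit 12) (nat_lit 0) (nat_lit 135) (nat_lit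 133) (nat_lit 122))) (PT.nd (nat_lit 78) (PT.lf (nat_lit 684) (nat_lit 6) (nat_lit 9) (nat_lit 5) (nat_lit 120) (nat_lit 134) (nat_lit 136)) (PT.nd (nat_lit 78) (PT.lf (nat_lit 836) (nat_lit 6) (nat_lit 11) (nat_lit 5) (nat_lit 121) (nat_lit 134) (nat_lit 135)) (PT.lf (nat_lit 988) (nat_lit 3) (nat_lit 13) (nat_lit 4) (nat_lit 122) (nat_lit 134) (nat_lit 134)))))) (PT.nd (nat_lit 390) (PT.nd (nat_lit 156) (PT.nd (nat_lit 78) (PT.lf (nat_lit 1140) (nat_lit 6) (nat_lit 15) (nat_lit 4) (nat_lit 123) (nat_lit 134) (nat_lit 133)) (PT.lf (nat_lit 1216) (nat_lit 6) (nat_lit 16) (nat_lit 4) (nat_lit 124) (nat_lit 134) (nat_lit 132))) (PT.nd (nat_lit 78) (PT.lf (nat_lit 1368) (nat_lit 6) (nat_lit 18) (nat_lit 4) (nat_lit 125) (nat_lit 134) (nat_lit 131)) (PT.nd (nat_lit 78) (PT.lf (nat_lit 1672) (nat_lit 6) (nat_lit 22) (nat_lit 4) (nat_lit 126) (nat_lit 134) (nat_lit 130)) (PT.lf (nat_lit 1596)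 (nat_lit 6) (nat_lit 21) (nat_lit 4) (nat_lit 127) (nat_lit 134) (nat_lit 129))))) (PT.nd (nat_lit 156) (PT.nd (nat_lit 78) (PT.lf (nat_lit 1520) (nat_lit 3) (nat_lit 20) (nat_lit 2) (nat_lit 128) (nat_lit 134) (nat_lit 128)) (PT.lf (nat_lit 1596) (nat_lit 6) (nat_lit 21) (nat_lit 2) (nat_lit 129) (nat_lit 134) (nat_lit 127))) (PT.nd (nat_lit 78) (PT.lf (nat_lit 1672) (nat_lit 6) (nat_lit 22) (nat_lit 2) (nat_lit 130) (nat_lit 134) (nat_lit 126)) (PT.nd (nat_lit 78) (PT.lf (nat_lit 1368) (nat_lit 6) (nat_lit 18) (nat_lit 2) (nat_lit 131) (nat_lit 134) (nat_lit 125)) (PT.lf (nat_lit 1216) (nat_lit 6) (nat_lit 16) (nat_lit 2) (nat_lit 132) (nat_lit 134) (nat_lit 124))))))))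
noncomputable def pc3 : PT := (PT.nd (nat_lit 80262) (PT.nd (nat_lit 40560) (PT.nd (nat_lit 39546) (PT.nd (nat_lit 156) (PT.nd (nat_lit 78) (PT.lf (nat_lit 1140) (nat_lit 6) (nat_lit 15) (nat_lit 2) (nat_lit 133) (nat_lit 134) (nat_lit 123)) (PT.lf (nat_lit 988) (nat_lit 3) (nat_lit 13) (nat_lit 0) (nat_lit 134) (nat_lit 134) (nat_lit 122))) (PT.nd (nat_lit 78) (PT.lf (nat_lit 836) (nat_lit 6) (nat_lit 11) (nat_lit 0) (nat_lit 135) (nat_lit 134) (nat_lit 121)) (PT.nd (nat_lit 39234) (PT.lf (nat_lit 684) (nat_lit 6) (nat_lit 9) (nat_lit 0) (nat_lit 136) (nat_lit 134) (nat_lit 120)) (PT.lf (nat_lit 456) (nat_lit 6) (nat_lit 6) (nat_lit 5) (nat_lit 118) (nat_lit 135) (nat_lit 137))))) (PT.nd (nat_lit 156) (PT.nd (nat_lit 78) (PT.lf (nat_lit 608) (nat_lit 6) (nat_lit 8) (nat_lit 5) (nat_lit 119) (nat_lit 135) (nat_lit 136)) (PT.lf (nat_lit 760) (nat_lit 3) (nat_lit 10) (nat_lit 4) (nat_lit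 120) (nat_lit 135) (nat_lit 135))) (PT.nd (nat_lit 78) (PT.lf (nat_lit 836) (nat_lit 6) (nat_lit 11) (nat_lit 4) (nat_lit 121) (nat_lit 135) (nat_lit 134)) (PT.nd (nat_lit 78) (PT.lf (nat_lit 912) (nat_lit 6) (nat_lit 12) (nat_lit 4) (nat_lit 122) (nat_lit 135) (nat_lit 133)) (PT.lf (nat_lit 1064) (nat_lit 6) (nat_lit 14) (nat_lit 4) (nat_lit 123) (nat_lit 135) (nat_lit 132)))))) (PT.nd (nat_lit 390) (PT.nd (nat_lit 156) (PT.nd (nat_lit 78) (PT.lf (nat_lit 1064) (nat_lit 6) (nat_lit 14) (nat_lit 2) (nat_lit 132) (nat_lit 135) (nat_lit 123)) (PT.lf (nat_lit 912) (nat_lit 6) (nat_lit 12) (nat_lit 2) (nat_lit 133) (nat_lit 135) (nat_lit 122))) (PT.nd (nat_lit 78) (PT.lf (nat_lit 836) (nat_lit 6) (nat_lit 11) (nat_lit 2) (nat_lit 134) (nat_lit 135) (nat_lit 121)) (PT.nd (nat_lit 78) (PT.lf (nat_lit 760) (nat_lit 3) (nat_lit 10) (nat_lit 0) (nat_lit 135) (nat_lit 135) (nat_lit 120)) (PT.lf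 (nat_lit 608) (nat_lit 6) (nat_lit 8) (nat_lit 0) (nat_lit 136) (nat_lit 135) (nat_lit 119))))) (PT.nd (nat_lit 39078) (PT.nd (nat_lit 39000) (PT.lf (nat_lit 456) (nat_lit 6) (nat_lit 6) (nat_lit 0) (nat_lit 137) (nat_lit 135) (nat_lit 118)) (PT.lf (nat_lit 228) (nat_lit 6) (nat_lit 3) (nat_lit 5) (nat_lit 116) (nat_lit 136) (nat_lit 138))) (PT.nd (nat_lit 78) (PT.lf (nat_lit 380) (nat_lit 6) (nat_lit 5) (nat_lit 5) (nat_lit 117) (nat_lit 136) (nat_lit 137)) (PT.nd (nat_lit 78) (PT.lf (nat_lit 532) (nat_lit 3) (nat_lit 7) (nat_lit 4) (nat_lit 118) (nat_lit 136) (nat_lit 136)) (PT.lf (nat_lit 608) (nat_lit 6) (nat_lit 8) (nat_lit 4) (nat_lit 119) (nat_lit 136) (nat_lit 135))))))) (PT.nd (nat_lit 41808) (PT.nd (nat_lit 1404) (PT.nd (nat_lit 1170) (PT.nd (nat_lit 1092) (PT.lf (nat_lit 684) (nat_lit 6) (nat_lit 9) (nat_lit 4) (nat_lit 120) (nat_lit 136) (nat_lit 134)) (PT.lf (nat_lit 684)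 (nat_lit 6) (nat_lit 9) (nat_lit 2) (nat_lit 134) (nat_lit 136) (nat_lit 120))) (PT.nd (nat_lit 78) (PT.lf (nat_lit 608) (nat_lit 6) (nat_lit 8) (nat_lit 2) (nat_lit 135) (nat_lit 136) (nat_lit 119)) (PT.nd (nat_lit 78) (PT.lf (nat_lit 532) (nat_lit 3) (nat_lit 7) (nat_lit 0) (nat_lit 136) (nat_lit 136) (nat_lit 118)) (PT.lf (nat_lit 380) (nat_lit 6) (nat_lit 5) (nat_lit 0) (nat_lit 137) (nat_lit 136) (nat_lit 117))))) (PT.nd (nat_lit 38922) (PT.nd (nat_lit 38844) (PT.lf (nat_lit 228) (nat_lit 6) (nat_lit 3) (nat_lit 0) (nat_lit 138) (nat_lit 136) (nat_lit 116)) (PT.lf (nat_lit 152) (nat_lit 6) (nat_lit 2) (nat_lit 5) (nat_lit 115) (nat_lit 137) (nat_lit 138))) (PT.nd (nat_lit 78) (PT.lf (nat_lit 304) (nat_lit 3) (nat_lit 4) (nat_lit 4) (nat_lit 116) (nat_lit 137) (nat_lit 137)) (PT.nd (nat_lit 78) (PT.lf (nat_lit 380) (nat_lit 6) (nat_lit 5) (nat_lit 4) (nat_lit 117) (nat_lit 137) (nat_lit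 136)) (PT.lf (nat_lit 456) (nat_lit 6) (nat_lit 6) (nat_lit 4) (nat_lit 118) (nat_lit 137) (nat_lit 135)))))) (PT.nd (nat_lit 39078) (PT.nd (nat_lit 156) (PT.nd (nat_lit 78) (PT.lf (nat_lit 456) (nat_lit 6) (nat_lit 6) (nat_lit 2) (nat_lit 135) (nat_lit 137) (nat_lit 118)) (PT.lf (nat_lit 380) (nat_lit 6) (nat_lit 5) (nat_lit 2) (nat_lit 136) (nat_lit 137) (nat_lit 117))) (PT.nd (nat_lit 78) (PT.lf (nat_lit 304) (nat_lit 3) (nat_lit 4) (nat_lit 0) (nat_lit 137) (nat_lit 137) (nat_lit 116)) (PT.nd (nat_lit 38766) (PT.lf (nat_lit 152) (nat_lit 6) (nat_lit 2) (nat_lit 0) (nat_lit 138) (nat_lit 137) (nat_lit 115)) (PT.lf (nat_lit 76) (nat_lit 3) (nat_lit 1) (nat_lit 4) (nat_lit 114) (nat_lit 138) (nat_lit 138))))) (PT.nd (nat_lit 1638) (PT.nd (nat_lit 78) (PT.lf (nat_lit 152) (nat_lit 6) (nat_lit 2) (nat_lit 4) (nat_lit 115) (nat_lit 138) (nat_lit 137)) (PT.lf (nat_lit 228) (nat_lit 6) (nat_lit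 3) (nat_lit 4) (nat_lit 116) (nat_lit 138) (nat_lit 136))) (PT.nd (nat_lit 78) (PT.lf (nat_lit 228) (nat_lit 6) (nat_lit 3) (nat_lit 2) (nat_lit 136) (nat_lit 138) (nat_lit 116)) (PT.nd (nat_lit 78) (PT.lf (nat_lit 152) (nat_lit 6) (nat_lit 2) (nat_lit 2) (nat_lit 137) (nat_lit 138) (nat_lit 115)) (PT.lf (nat_lit 76) (nat_lit 3) (nat_lit 1) (nat_lit 0) (nat_lit 138) (nat_lit 138) (nat_lit 114))))))))
noncomputable def xc0 : XT := (XT.nd (nat_lit 364572) (nat_lit 0) (nat_lit 0) (XT.nd (nat_lit 121680) (nat_lit 0) (nat_lit 0) (XT.nd (nat_lit 80964) (nat_lit 0) (nat_lit 0) (XT.nd (nat_lit 40560) (nat_lit 0) (nat_lit 0) (XT.nd (nat_lit 40482) (nat_lit 0) (nat_lit 0) (XT.lf (nat_lit 0) (nat_lit 272667333492179) (nat_lit 76) (nat_lit 39837598678562) (nat_lit 76) (nat_lit 39837598678562) (nat_lit 1) (nat_lit 4) (nat_lit 2) (nat_lit 5) (nat_lit 2) (nat_lit 4) (nat_lit 356) (nat_lit 212) (nat_lit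 212)) (XT.lf (nat_lit 0) (nat_lit 206175617077673) (nat_lit 76) (nat_lit 30122980417191) (nat_lit 76) (nat_lit 30122980417191) (nat_lit 1) (nat_lit 4) (nat_lit 2) (nat_lit 5) (nat_lit 2) (nat_lit 4) (nat_lit 354) (nat_lit 213) (nat_lit 213))) (XT.nd (nat_lit 78) (nat_lit 0) (nat_lit 0) (XT.lf (nat_lit 0) (nat_lit 474203995216144) (nat_lit 76) (nat_lit 69282814867658) (nat_lit 76) (nat_lit 69282813469581) (nat_lit 1) (nat_lit 4) (nat_lit 2) (nat_lit 5) (nat_lit 2) (nat_lit 4) (nat_lit 355) (nat_lit 213) (nat_lit 212)) (XT.lf (nat_lit 0) (nat_lit 545334663982876) (nat_lit 76) (nat_lit 79675200276311) (nat_lit 76) (nat_lit 79675197662516) (nat_lit 1) (nat_lit 4) (nat_lit 2) (nat_lit 5) (nat_lit 2) (nat_lit 4) (nat_lit 356) (nat_lit 213) (nat_lit 211)))) (XT.nd (nat_lit 156) (nat_lit 0) (nat_lit 0) (XT.nd (nat_lit 78) (nat_lit 0) (nat_lit 0) (XT.lf (nat_lit 0) (nat_lit 155898317719980) (nat_lit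 76) (nat_lit 22777338207063) (nat_lit 76) (nat_lit 22777338207063) (nat_lit 1) (nat_lit 4) (nat_lit 2) (nat_lit 5) (nat_lit 2) (nat_lit 4) (nat_lit 352) (nat_lit 214) (nat_lit 214)) (XT.lf (nat_lit 0) (nat_lit 358566218084075) (nat_lit 76) (nat_lit 52387831770581) (nat_lit 76) (nat_lit 52387830162792) (nat_lit 1) (nat_lit 4) (nat_lit 2) (nat_lit 5) (nat_lit 2) (nat_lit 4) (nat_lit 353) (nat_lit 214) (nat_lit 213))) (XT.nd (nat_lit 78) (nat_lit 0) (nat_lit 0) (XT.lf (nat_lit 0) (nat_lit 412351230703642) (nat_lit 76) (nat_lit 60245964191448) (nat_lit 76) (nat_lit 60245961185583) (nat_lit 1) (nat_lit 4) (nat_lit 2) (nat_lit 5) (nat_lit 2) (nat_lit 4) (nat_lit 354) (nat_lit 214) (nat_lit 212)) (XT.nd (nat_lit 78) (nat_lit 0) (nat_lit 0) (XT.lf (nat_lit 0) (nat_lit 474203988762958) (nat_lit 76) (nat_lit 69282819745833) (nat_lit 76) (nat_lit 69282815524249) (nat_lit 1) (nat_lit 4) (nat_lit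 2) (nat_lit 5) (nat_lit 2) (nat_lit 4) (nat_lit 355) (nat_lit 214) (nat_lit 211)) (XT.lf (nat_lit 0) (nat_lit 545334654919705) (nat_lit 76) (nat_lit 79675206477192) (nat_lit 76) (nat_lit 79675201198461) (nat_lit 1) (nat_lit 4) (nat_lit 2) (nat_lit 5) (nat_lit 2) (nat_lit 4) (nat_lit 356) (nat_lit 214) (nat_lit 210)))))) (XT.nd (nat_lit 202254) (nat_lit 0) (nat_lit 0) (XT.nd (nat_lit 156) (nat_lit 0) (nat_lit 0) (XT.nd (nat_lit 78) (nat_lit 0) (nat_lit 0) (XT.lf (nat_lit 0) (nat_lit 358566210662911) (nat_lit 76) (nat_lit 52387837380483) (nat_lit 76) (nat_lit 52387832525661) (nat_lit 1) (nat_lit 4) (nat_lit 2) (nat_lit 5) (nat_lit 2) (nat_lit 4) (nat_lit 353) (nat_lit 215) (nat_lit 212)) (XT.lf (nat_lit 0) (nat_lit 412351220280995) (nat_lit 76) (nat_lit 60245971322461) (nat_lit 76) (nat_lit 60245965251920) (nat_lit 1) (nat_lit 4) (nat_lit 2) (nat_lit 5) (nat_lit 2) (nat_lit 4) (nat_lit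 354) (nat_lit 215) (nat_lit 211))) (XT.nd (nat_lit 202020) (nat_lit 0) (nat_lit 0) (XT.lf (nat_lit 0) (nat_lit 474203975730327) (nat_lit 76) (nat_lit 69282828199551) (nat_lit 76) (nat_lit 69282821071863) (nat_lit 1) (nat_lit 4) (nat_lit 2) (nat_lit 5) (nat_lit 2) (nat_lit 4) (nat_lit 355) (nat_lit 215) (nat_lit 210)) (XT.lf (nat_lit 0) (nat_lit 29138078922425) (nat_lit 76) (nat_lit 4257479085176) (nat_lit 76) (nat_lit 4257479085176) (nat_lit 1) (nat_lit 4) (nat_lit 2) (nat_lit 5) (nat_lit 2) (nat_lit 4) (nat_lit 340) (nat_lit 220) (nat_lit 220)))) (XT.nd (nat_lit 40404) (nat_lit 0) (nat_lit 0) (XT.nd (nat_lit 1716) (nat_lit 0) (nat_lit 0) (XT.lf (nat_lit 0) (nat_lit 67017783516826) (nat_lit 76) (nat_lit 9792095250701) (nat_lit 76) (nat_lit 9792091531789) (nat_lit 1) (nat_lit 4) (nat_lit 2) (nat_lit 5) (nat_lit 2) (nat_lit 4) (nat_lit 341) (nat_lit 220) (nat_lit 219)) (XT.lf (nat_lit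 0) (nat_lit 1450601383694594) (nat_lit 76) (nat_lit 211937446439428) (nat_lit 76) (nat_lit 211937419073208) (nat_lit 1) (nat_lit 4) (nat_lit 2) (nat_lit 5) (nat_lit 2) (nat_lit 4) (nat_lit 363) (nat_lit 220) (nat_lit 197))) (XT.nd (nat_lit 78) (nat_lit 0) (nat_lit 0) (XT.lf (nat_lit 0) (nat_lit 22032389024741) (nat_lit 76) (nat_lit 3219365132813) (nat_lit 76) (nat_lit 3219365132813) (nat_lit 1) (nat_lit 4) (nat_lit 2) (nat_lit 5) (nat_lit 2) (nat_lit 4) (nat_lit 338) (nat_lit 221) (nat_lit 221)) (XT.nd (nat_lit 78) (nat_lit 0) (nat_lit 0) (XT.lf (nat_lit 0) (nat_lit 50674727051440) (nat_lit 76) (nat_lit 7404417163486) (nat_lit 76) (nat_lit 7404412886737) (nat_lit 1) (nat_lit 4) (nat_lit 2) (nat_lit 5) (nat_lit 2) (nat_lit 4) (nat_lit 339) (nat_lit 221) (nat_lit 220)) (XT.lf (nat_lit 0) (nat_lit 58276148663248) (nat_lit 76) (nat_lit 8514967100214) (nat_lit 76) (nat_lit 8514959104552)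 (nat_lit 1) (nat_lit 4) (nat_lit 2) (nat_lit 5) (nat_lit 2) (nat_lit 4) (nat_lit 340) (nat_lit 221) (nat_lit 219))))))) (XT.nd (nat_lit 80730) (nat_lit 0) (nat_lit 0) (XT.nd (nat_lit 40326) (nat_lit 0) (nat_lit 0) (XT.nd (nat_lit 1716) (nat_lit 0) (nat_lit 0) (XT.nd (nat_lit 1638) (nat_lit 0) (nat_lit 0) (XT.lf (nat_lit 0) (nat_lit 67017766351222) (nat_lit 76) (nat_lit 9792108226746) (nat_lit 76) (nat_lit 9792096997248) (nat_lit 1) (nat_lit 4) (nat_lit 2) (nat_lit 5) (nat_lit 2) (nat_lit 4) (nat_lit 341) (nat_lit 221) (nat_lit 218)) (XT.lf (nat_lit 0) (nat_lit 1261392373498445) (nat_lit 76) (nat_lit 184293507622961) (nat_lit 76) (nat_lit 184293475979993) (nat_lit 1) (nat_lit 4) (nat_lit 2) (nat_lit 5) (nat_lit 2) (nat_lit 4) (nat_lit 362) (nat_lit 221) (nat_lit 197))) (XT.nd (nat_lit 38532) (nat_lit 0) (nat_lit 0) (XT.lf (nat_lit 0) (nat_lit 1450601315761415) (nat_lit 76) (nat_lit 211937485143791)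 (nat_lit 76) (nat_lit 211937453351419) (nat_lit 1) (nat_lit 4) (nat_lit 2) (nat_lit 5) (nat_lit 2) (nat_lit 4) (nat_lit 363) (nat_lit 221) (nat_lit 196)) (XT.lf (nat_lit 0) (nat_lit 16659438882386) (nat_lit 76) (nat_lit 2434416734388) (nat_lit 76) (nat_lit 2434416734388) (nat_lit 1) (nat_lit 4) (nat_lit 2) (nat_lit 5) (nat_lit 2) (nat_lit 4) (nat_lit 336) (nat_lit 222) (nat_lit 222)))) (XT.nd (nat_lit 156) (nat_lit 0) (nat_lit 0) (XT.nd (nat_lit 78) (nat_lit 0) (nat_lit 0) (XT.lf (nat_lit 0) (nat_lit 38316976568204) (nat_lit 76) (nat_lit 5599017450810) (nat_lit 76) (nat_lit 5599012532549) (nat_lit 1) (nat_lit 4) (nat_lit 2) (nat_lit 5) (nat_lit 2) (nat_lit 4) (nat_lit 337) (nat_lit 222) (nat_lit 221)) (XT.lf (nat_lit 0) (nat_lit 44064767490639) (nat_lit 76) (nat_lit 6438740534967) (nat_lit 76) (nat_lit 6438731339957) (nat_lit 1) (nat_lit 4) (nat_lit 2) (nat_lit 5) (nat_lit 2) (nat_lit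 4) (nat_lit 338) (nat_lit 222) (nat_lit 220))) (XT.nd (nat_lit 78) (nat_lit 0) (nat_lit 0) (XT.lf (nat_lit 0) (nat_lit 50674707310996) (nat_lit 76) (nat_lit 7404432085937) (nat_lit 76) (nat_lit 7404419172015) (nat_lit 1) (nat_lit 4) (nat_lit 2) (nat_lit 5) (nat_lit 2) (nat_lit 4) (nat_lit 339) (nat_lit 222) (nat_lit 219)) (XT.nd (nat_lit 78) (nat_lit 0) (nat_lit 0) (XT.lf (nat_lit 0) (nat_lit 58276120938801) (nat_lit 76) (nat_lit 8514986068849) (nat_lit 76) (nat_lit 8514969921090) (nat_lit 1) (nat_lit 4) (nat_lit 2) (nat_lit 5) (nat_lit 2) (nat_lit 4) (nat_lit 340) (nat_lit 222) (nat_lit 218)) (XT.lf (nat_lit 0) (nat_lit 67017731684165) (nat_lit 76) (nat_lit 9792130713802) (nat_lit 76) (nat_lit 9792111754011) (nat_lit 1) (nat_lit 4) (nat_lit 2) (nat_lit 5) (nat_lit 2) (nat_lit 4) (nat_lit 341) (nat_lit 222) (nat_lit 217)))))) (XT.nd (nat_lit 312) (nat_lit 0) (nat_lit 0) (XT.nd (nat_lit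 156) (nat_lit 0) (nat_lit 0) (XT.nd (nat_lit 78) (nat_lit 0) (nat_lit 0) (XT.lf (nat_lit 0) (nat_lit 12596684774429) (nat_lit 76) (nat_lit 1840900100238) (nat_lit 76) (nat_lit 1840900100238) (nat_lit 1) (nat_lit 4) (nat_lit 2) (nat_lit 5) (nat_lit 2) (nat_lit 4) (nat_lit 334) (nat_lit 223) (nat_lit 223)) (XT.lf (nat_lit 0) (nat_lit 28972682190711) (nat_lit 76) (nat_lit 4233908036523) (nat_lit 76) (nat_lit 4233902380523) (nat_lit 1) (nat_lit 4) (nat_lit 2) (nat_lit 5) (nat_lit 2) (nat_lit 4) (nat_lit 335) (nat_lit 223) (nat_lit 222))) (XT.nd (nat_lit 78) (nat_lit 0) (nat_lit 0) (XT.lf (nat_lit 0) (nat_lit 33318865622103) (nat_lit 76) (nat_lit 4868845278517) (nat_lit 76) (nat_lit 4868834704255) (nat_lit 1) (nat_lit 4) (nat_lit 2) (nat_lit 5) (nat_lit 2) (nat_lit 4) (nat_lit 336) (nat_lit 223) (nat_lit 221)) (XT.lf (nat_lit 0) (nat_lit 38316953866692) (nat_lit 76) (nat_lit 5599034611629)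 (nat_lit 76) (nat_lit 5599019760618) (nat_lit 1) (nat_lit 4) (nat_lit 2) (nat_lit 5) (nat_lit 2) (nat_lit 4) (nat_lit 337) (nat_lit 223) (nat_lit 220)))) (XT.nd (nat_lit 156) (nat_lit 0) (nat_lit 0) (XT.nd (nat_lit 78) (nat_lit 0) (nat_lit 0) (XT.lf (nat_lit 0) (nat_lit 44064735607526) (nat_lit 76) (nat_lit 6438762348898) (nat_lit 76) (nat_lit 6438743778975) (nat_lit 1) (nat_lit 4) (nat_lit 2) (nat_lit 5) (nat_lit 2) (nat_lit 4) (nat_lit 338) (nat_lit 223) (nat_lit 219)) (XT.lf (nat_lit 0) (nat_lit 50674667443880) (nat_lit 76) (nat_lit 7404457946052) (nat_lit 76) (nat_lit 7404436142292) (nat_lit 1) (nat_lit 4) (nat_lit 2) (nat_lit 5) (nat_lit 2) (nat_lit 4) (nat_lit 339) (nat_lit 223) (nat_lit 218))) (XT.nd (nat_lit 78) (nat_lit 0) (nat_lit 0) (XT.lf (nat_lit 0) (nat_lit 58276074129075) (nat_lit 76) (nat_lit 8515015447385) (nat_lit 76) (nat_lit 8514990831593) (nat_lit 1) (nat_lit 4)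 (nat_lit 2) (nat_lit 5) (nat_lit 2) (nat_lit 4) (nat_lit 340) (nat_lit 223) (nat_lit 217)) (XT.nd (nat_lit 39936) (nat_lit 0) (nat_lit 0) (XT.lf (nat_lit 0) (nat_lit 67017678837386) (nat_lit 76) (nat_lit 9792163151834) (nat_lit 76) (nat_lit 9792136090798) (nat_lit 1) (nat_lit 4) (nat_lit 2) (nat_lit 5) (nat_lit 2) (nat_lit 4) (nat_lit 341) (nat_lit 223) (nat_lit 216)) (XT.lf (nat_lit 0) (nat_lit 9524622318332) (nat_lit 76) (nat_lit 1392135951336) (nat_lit 76) (nat_lit 1392135951336) (nat_lit 1) (nat_lit 4) (nat_lit 2) (nat_lit 5) (nat_lit 2) (nat_lit 4) (nat_lit 332) (nat_lit 224) (nat_lit 224))))))))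
noncomputable def xc1 : XT := (XT.nd (nat_lit 41106) (nat_lit 0) (nat_lit 0) (XT.nd (nat_lit 40404) (nat_lit 0) (nat_lit 0) (XT.nd (nat_lit 312) (nat_lit 0) (nat_lit 0) (XT.nd (nat_lit 156) (nat_lit 0) (nat_lit 0) (XT.nd (nat_lit 78) (nat_lit 0) (nat_lit 0) (XT.lf (nat_lit 0) (nat_lit 21906984623118) (nat_lit 76) (nat_lit 3201726164944) (nat_lit 76) (nat_lit 3201719660544) (nat_lit 1) (nat_lit 4) (nat_lit 2) (nat_lit 5) (nat_lit 2) (nat_lit 4) (nat_lit 333) (nat_lit 224) (nat_lit 223)) (XT.lf (nat_lit 0) (nat_lit 25193355584789) (nat_lit 76) (nat_lit 3681813781679) (nat_lit 76) (nat_lit 3681801621278) (nat_lit 1) (nat_lit 4) (nat_lit 2) (nat_lit 5) (nat_lit 2) (nat_lit 4) (nat_lit 334) (nat_lit 224) (nat_lit 222))) (XT.nd (nat_lit 78) (nat_lit 0) (nat_lit 0) (XT.lf (nat_lit 0) (nat_lit 28972656083972) (nat_lit 76) (nat_lit 4233927771465) (nat_lit 76) (nat_lit 4233910692803) (nat_lit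 1) (nat_lit 4) (nat_lit 2) (nat_lit 5) (nat_lit 2) (nat_lit 4) (nat_lit 335) (nat_lit 224) (nat_lit 221)) (XT.lf (nat_lit 0) (nat_lit 33318828956522) (nat_lit 76) (nat_lit 4868870364538) (nat_lit 76) (nat_lit 4868849009126) (nat_lit 1) (nat_lit 4) (nat_lit 2) (nat_lit 5) (nat_lit 2) (nat_lit 4) (nat_lit 336) (nat_lit 224) (nat_lit 220)))) (XT.nd (nat_lit 156) (nat_lit 0) (nat_lit 0) (XT.nd (nat_lit 78) (nat_lit 0) (nat_lit 0) (XT.lf (nat_lit 0) (nat_lit 38316908019509) (nat_lit 76) (nat_lit 5599064350761) (nat_lit 76) (nat_lit 5599039276437) (nat_lit 1) (nat_lit 4) (nat_lit 2) (nat_lit 5) (nat_lit 2) (nat_lit 4) (nat_lit 337) (nat_lit 224) (nat_lit 219)) (XT.lf (nat_lit 0) (nat_lit 44064681776341) (nat_lit 76) (nat_lit 6438796134214) (nat_lit 76) (nat_lit 6438767826053) (nat_lit 1) (nat_lit 4) (nat_lit 2) (nat_lit 5) (nat_lit 2) (nat_lit 4) (nat_lit 338) (nat_lit 224) (nat_lit 218)))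 (XT.nd (nat_lit 78) (nat_lit 0) (nat_lit 0) (XT.lf (nat_lit 0) (nat_lit 50674606670085) (nat_lit 76) (nat_lit 7404495249789) (nat_lit 76) (nat_lit 7404464129597) (nat_lit 1) (nat_lit 4) (nat_lit 2) (nat_lit 5) (nat_lit 2) (nat_lit 4) (nat_lit 339) (nat_lit 224) (nat_lit 217)) (XT.nd (nat_lit 78) (nat_lit 0) (nat_lit 0) (XT.lf (nat_lit 0) (nat_lit 58276007318227) (nat_lit 76) (nat_lit 8515055810618) (nat_lit 76) (nat_lit 8515022245180) (nat_lit 1) (nat_lit 4) (nat_lit 2) (nat_lit 5) (nat_lit 2) (nat_lit 4) (nat_lit 340) (nat_lit 224) (nat_lit 216)) (XT.lf (nat_lit 0) (nat_lit 67017606776928) (nat_lit 76) (nat_lit 9792206175499) (nat_lit 76) (nat_lit 9792170483762) (nat_lit 1) (nat_lit 4) (nat_lit 2) (nat_lit 5) (nat_lit 2) (nat_lit 4) (nat_lit 341) (nat_lit 224) (nat_lit 215)))))) (XT.nd (nat_lit 312) (nat_lit 0) (nat_lit 0) (XT.nd (nat_lit 156) (nat_lit 0) (nat_lit 0) (XT.nd (nat_lit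 78) (nat_lit 0) (nat_lit 0) (XT.lf (nat_lit 0) (nat_lit 7201659581197) (nat_lit 76) (nat_lit 1052828431796) (nat_lit 76) (nat_lit 1052828431796) (nat_lit 1) (nat_lit 4) (nat_lit 2) (nat_lit 5) (nat_lit 2) (nat_lit 4) (nat_lit 330) (nat_lit 225) (nat_lit 225)) (XT.lf (nat_lit 0) (nat_lit 16564223321349) (nat_lit 76) (nat_lit 2421290891533) (nat_lit 76) (nat_lit 2421283411472) (nat_lit 1) (nat_lit 4) (nat_lit 2) (nat_lit 5) (nat_lit 2) (nat_lit 4) (nat_lit 331) (nat_lit 225) (nat_lit 224))) (XT.nd (nat_lit 78) (nat_lit 0) (nat_lit 0) (XT.lf (nat_lit 0) (nat_lit 19049228577986) (nat_lit 76) (nat_lit 2784287521055) (nat_lit 76) (nat_lit 2784273536593) (nat_lit 1) (nat_lit 4) (nat_lit 2) (nat_lit 5) (nat_lit 2) (nat_lit 4) (nat_lit 332) (nat_lit 225) (nat_lit 223)) (XT.lf (nat_lit 0) (nat_lit 21906954600369) (nat_lit 76) (nat_lit 3201748860128) (nat_lit 76) (nat_lit 3201729219666) (nat_lit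 1) (nat_lit 4) (nat_lit 2) (nat_lit 5) (nat_lit 2) (nat_lit 4) (nat_lit 333) (nat_lit 225) (nat_lit 222)))) (XT.nd (nat_lit 156) (nat_lit 0) (nat_lit 0) (XT.nd (nat_lit 78) (nat_lit 0) (nat_lit 0) (XT.lf (nat_lit 0) (nat_lit 25193313419371) (nat_lit 76) (nat_lit 3681842630602) (nat_lit 76) (nat_lit 3681818071879) (nat_lit 1) (nat_lit 4) (nat_lit 2) (nat_lit 5) (nat_lit 2) (nat_lit 4) (nat_lit 334) (nat_lit 225) (nat_lit 221)) (XT.lf (nat_lit 0) (nat_lit 28972603359712) (nat_lit 76) (nat_lit 4233961971467) (nat_lit 76) (nat_lit 4233933135994) (nat_lit 1) (nat_lit 4) (nat_lit 2) (nat_lit 5) (nat_lit 2) (nat_lit 4) (nat_lit 335) (nat_lit 225) (nat_lit 220))) (XT.nd (nat_lit 78) (nat_lit 0) (nat_lit 0) (XT.lf (nat_lit 0) (nat_lit 33318767050660) (nat_lit 76) (nat_lit 4868909217651) (nat_lit 76) (nat_lit 4868876663266) (nat_lit 1) (nat_lit 4) (nat_lit 2) (nat_lit 5) (nat_lit 2) (nat_lit 4)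 (nat_lit 336) (nat_lit 225) (nat_lit 219)) (XT.nd (nat_lit 78) (nat_lit 0) (nat_lit 0) (XT.lf (nat_lit 0) (nat_lit 38316838129645) (nat_lit 76) (nat_lit 5599107250058) (nat_lit 76) (nat_lit 5599071461837) (nat_lit 1) (nat_lit 4) (nat_lit 2) (nat_lit 5) (nat_lit 2) (nat_lit 4) (nat_lit 337) (nat_lit 225) (nat_lit 218)) (XT.lf (nat_lit 0) (nat_lit 44064604943866) (nat_lit 76) (nat_lit 6438842551932) (nat_lit 76) (nat_lit 6438803951679) (nat_lit 1) (nat_lit 4) (nat_lit 2) (nat_lit 5) (nat_lit 2) (nat_lit 4) (nat_lit 338) (nat_lit 225) (nat_lit 217))))))) (XT.nd (nat_lit 40014) (nat_lit 0) (nat_lit 0) (XT.nd (nat_lit 624) (nat_lit 0) (nat_lit 0) (XT.nd (nat_lit 156) (nat_lit 0) (nat_lit 0) (XT.nd (nat_lit 78) (nat_lit 0) (nat_lit 0) (XT.lf (nat_lit 0) (nat_lit 50674523800557) (nat_lit 76) (nat_lit 7404544727004) (nat_lit 76) (nat_lit 7404503681505) (nat_lit 1) (nat_lit 4) (nat_lit 2) (nat_lit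 5) (nat_lit 2) (nat_lit 4) (nat_lit 339) (nat_lit 225) (nat_lit 216)) (XT.lf (nat_lit 0) (nat_lit 58275919199089) (nat_lit 76) (nat_lit 8515107948264) (nat_lit 76) (nat_lit 8515064776466) (nat_lit 1) (nat_lit 4) (nat_lit 2) (nat_lit 5) (nat_lit 2) (nat_lit 4) (nat_lit 340) (nat_lit 225) (nat_lit 215))) (XT.nd (nat_lit 78) (nat_lit 0) (nat_lit 0) (XT.lf (nat_lit 0) (nat_lit 67017514092911) (nat_lit 76) (nat_lit 9792260626564) (nat_lit 76) (nat_lit 9792215605809) (nat_lit 1) (nat_lit 4) (nat_lit 2) (nat_lit 5) (nat_lit 2) (nat_lit 4) (nat_lit 341) (nat_lit 225) (nat_lit 214)) (XT.lf (nat_lit 0) (nat_lit 77070339686466) (nat_lit 76) (nat_lit 11260990531697) (nat_lit 76) (nat_lit 11260943903154) (nat_lit 1) (nat_lit 4) (nat_lit 2) (nat_lit 5) (nat_lit 2) (nat_lit 4) (nat_lit 342) (nat_lit 225) (nat_lit 213)))) (XT.nd (nat_lit 39156) (nat_lit 0) (nat_lit 0) (XT.nd (nat_lit 78) (nat_lit 0)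 (nat_lit 0) (XT.lf (nat_lit 0) (nat_lit 155017203417310) (nat_lit 76) (nat_lit 22649197081608) (nat_lit 76) (nat_lit 22649145063509) (nat_lit 1) (nat_lit 4) (nat_lit 2) (nat_lit 5) (nat_lit 2) (nat_lit 4) (nat_lit 347) (nat_lit 225) (nat_lit 208)) (XT.lf (nat_lit 0) (nat_lit 178269950111467) (nat_lit 76) (nat_lit 26046483823216) (nat_lit 76) (nat_lit 26046431110026) (nat_lit 1) (nat_lit 4) (nat_lit 2) (nat_lit 5) (nat_lit 2) (nat_lit 4) (nat_lit 348) (nat_lit 225) (nat_lit 207))) (XT.nd (nat_lit 78) (nat_lit 0) (nat_lit 0) (XT.lf (nat_lit 0) (nat_lit 5445117527915) (nat_lit 76) (nat_lit 796289246856) (nat_lit 76) (nat_lit 796289246856) (nat_lit 1) (nat_lit 4) (nat_lit 2) (nat_lit 5) (nat_lit 2) (nat_lit 4) (nat_lit 328) (nat_lit 226) (nat_lit 226)) (XT.nd (nat_lit 78) (nat_lit 0) (nat_lit 0) (XT.lf (nat_lit 0) (nat_lit 12524237541490) (nat_lit 76) (nat_lit 1831218590932) (nat_lit 76)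 (nat_lit 1831209988862) (nat_lit 1) (nat_lit 4) (nat_lit 2) (nat_lit 5) (nat_lit 2) (nat_lit 4) (nat_lit 329) (nat_lit 226) (nat_lit 225)) (XT.lf (nat_lit 0) (nat_lit 14403300694913) (nat_lit 76) (nat_lit 2105674824732) (nat_lit 76) (nat_lit 2105658742602) (nat_lit 1) (nat_lit 4) (nat_lit 2) (nat_lit 5) (nat_lit 2) (nat_lit 4) (nat_lit 330) (nat_lit 226) (nat_lit 224)))))) (XT.nd (nat_lit 390) (nat_lit 0) (nat_lit 0) (XT.nd (nat_lit 156) (nat_lit 0) (nat_lit 0) (XT.nd (nat_lit 78) (nat_lit 0) (nat_lit 0) (XT.lf (nat_lit 0) (nat_lit 16564188795188) (nat_lit 76) (nat_lit 2421316990994) (nat_lit 76) (nat_lit 2421294404462) (nat_lit 1) (nat_lit 4) (nat_lit 2) (nat_lit 5) (nat_lit 2) (nat_lit 4) (nat_lit 331) (nat_lit 226) (nat_lit 223)) (XT.lf (nat_lit 0) (nat_lit 19049180087755) (nat_lit 76) (nat_lit 2784320697317) (nat_lit 76) (nat_lit 2784292454785) (nat_lit 1) (nat_lit 4) (nat_lit 2)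 (nat_lit 5) (nat_lit 2) (nat_lit 4) (nat_lit 332) (nat_lit 226) (nat_lit 222))) (XT.nd (nat_lit 78) (nat_lit 0) (nat_lit 0) (XT.lf (nat_lit 0) (nat_lit 21906893967469) (nat_lit 76) (nat_lit 3201788190129) (nat_lit 76) (nat_lit 3201755029336) (nat_lit 1) (nat_lit 4) (nat_lit 2) (nat_lit 5) (nat_lit 2) (nat_lit 4) (nat_lit 333) (nat_lit 226) (nat_lit 221)) (XT.nd (nat_lit 78) (nat_lit 0) (nat_lit 0) (XT.lf (nat_lit 0) (nat_lit 25193242227629) (nat_lit 76) (nat_lit 3681887311683) (nat_lit 76) (nat_lit 3681849874140) (nat_lit 1) (nat_lit 4) (nat_lit 2) (nat_lit 5) (nat_lit 2) (nat_lit 4) (nat_lit 334) (nat_lit 226) (nat_lit 220)) (XT.lf (nat_lit 0) (nat_lit 28972522986368) (nat_lit 76) (nat_lit 4234011305659) (nat_lit 76) (nat_lit 4233970149204) (nat_lit 1) (nat_lit 4) (nat_lit 2) (nat_lit 5) (nat_lit 2) (nat_lit 4) (nat_lit 335) (nat_lit 226) (nat_lit 219))))) (XT.nd (nat_lit 156) (nat_lit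 0) (nat_lit 0) (XT.nd (nat_lit 78) (nat_lit 0) (nat_lit 0) (XT.lf (nat_lit 0) (nat_lit 33318678693313) (nat_lit 76) (nat_lit 4868962598027) (nat_lit 76) (nat_lit 4868918207736) (nat_lit 1) (nat_lit 4) (nat_lit 2) (nat_lit 5) (nat_lit 2) (nat_lit 4) (nat_lit 336) (nat_lit 226) (nat_lit 218)) (XT.lf (nat_lit 0) (nat_lit 38316742829689) (nat_lit 76) (nat_lit 5599164148855) (nat_lit 76) (nat_lit 5599116946532) (nat_lit 1) (nat_lit 4) (nat_lit 2) (nat_lit 5) (nat_lit 2) (nat_lit 4) (nat_lit 337) (nat_lit 226) (nat_lit 217))) (XT.nd (nat_lit 78) (nat_lit 0) (nat_lit 0) (XT.lf (nat_lit 0) (nat_lit 44064503606857) (nat_lit 76) (nat_lit 6438902510225) (nat_lit 76) (nat_lit 6438852862657) (nat_lit 1) (nat_lit 4) (nat_lit 2) (nat_lit 5) (nat_lit 2) (nat_lit 4) (nat_lit 338) (nat_lit 226) (nat_lit 216)) (XT.nd (nat_lit 78) (nat_lit 0) (nat_lit 0) (XT.lf (nat_lit 0) (nat_lit 50674417213938) (nat_lit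 76) (nat_lit 7404607345728) (nat_lit 76) (nat_lit 7404555571860) (nat_lit 1) (nat_lit 4) (nat_lit 2) (nat_lit 5) (nat_lit 2) (nat_lit 4) (nat_lit 339) (nat_lit 226) (nat_lit 215)) (XT.lf (nat_lit 0) (nat_lit 58275808047590) (nat_lit 76) (nat_lit 8515172880408) (nat_lit 76) (nat_lit 8515119257583) (nat_lit 1) (nat_lit 4) (nat_lit 2) (nat_lit 5) (nat_lit 2) (nat_lit 4) (nat_lit 340) (nat_lit 226) (nat_lit 214))))))))
noncomputable def xc2 : XT := (XT.nd (nat_lit 40482) (nat_lit 0) (nat_lit 0) (XT.nd (nat_lit 39780) (nat_lit 0) (nat_lit 0) (XT.nd (nat_lit 546) (nat_lit 0) (nat_lit 0) (XT.nd (nat_lit 390) (nat_lit 0) (nat_lit 0) (XT.nd (nat_lit 78) (nat_lit 0) (nat_lit 0) (XT.lf (nat_lit 0) (nat_lit 67017398971952) (nat_lit 76) (nat_lit 9792327570377) (nat_lit 76) (nat_lit 9792272339763) (nat_lit 1) (nat_lit 4) (nat_lit 2) (nat_lit 5) (nat_lit 2) (nat_lit 4) (nat_lit 341) (nat_lit 226) (nat_lit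 213)) (XT.lf (nat_lit 0) (nat_lit 77070221113803) (nat_lit 76) (nat_lit 11261059224786) (nat_lit 76) (nat_lit 11261002596096) (nat_lit 1) (nat_lit 4) (nat_lit 2) (nat_lit 5) (nat_lit 2) (nat_lit 4) (nat_lit 342) (nat_lit 226) (nat_lit 212))) (XT.nd (nat_lit 78) (nat_lit 0) (nat_lit 0) (XT.lf (nat_lit 0) (nat_lit 134797292047681) (nat_lit 76) (nat_lit 19695110010800) (nat_lit 76) (nat_lit 19695049390630) (nat_lit 1) (nat_lit 4) (nat_lit 2) (nat_lit 5) (nat_lit 2) (nat_lit 4) (nat_lit 346) (nat_lit 226) (nat_lit 208)) (XT.lf (nat_lit 0) (nat_lit 155017073273998) (nat_lit 76) (nat_lit 22649271638546) (nat_lit 76) (nat_lit 22649210323285) (nat_lit 1) (nat_lit 4) (nat_lit 2) (nat_lit 5) (nat_lit 2) (nat_lit 4) (nat_lit 347) (nat_lit 226) (nat_lit 207)))) (XT.nd (nat_lit 39000) (nat_lit 0) (nat_lit 0) (XT.nd (nat_lit 38922) (nat_lit 0) (nat_lit 0) (XT.lf (nat_lit 0) (nat_lit 178269818475888)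 (nat_lit 76) (nat_lit 26046559136414) (nat_lit 76) (nat_lit 26046497216726) (nat_lit 1) (nat_lit 4) (nat_lit 2) (nat_lit 5) (nat_lit 2) (nat_lit 4) (nat_lit 348) (nat_lit 226) (nat_lit 206)) (XT.lf (nat_lit 0) (nat_lit 4116863614221) (nat_lit 76) (nat_lit 602338721061) (nat_lit 76) (nat_lit 602338721061) (nat_lit 1) (nat_lit 4) (nat_lit 2) (nat_lit 5) (nat_lit 2) (nat_lit 4) (nat_lit 326) (nat_lit 227) (nat_lit 227))) (XT.nd (nat_lit 78) (nat_lit 0) (nat_lit 0) (XT.lf (nat_lit 0) (nat_lit 9469323624086) (nat_lit 76) (nat_lit 1385095380077) (nat_lit 76) (nat_lit 1385085487697) (nat_lit 1) (nat_lit 4) (nat_lit 2) (nat_lit 5) (nat_lit 2) (nat_lit 4) (nat_lit 327) (nat_lit 227) (nat_lit 226)) (XT.nd (nat_lit 78) (nat_lit 0) (nat_lit 0) (XT.lf (nat_lit 0) (nat_lit 10890213818227) (nat_lit 76) (nat_lit 1592599149024) (nat_lit 76) (nat_lit 1592580654573) (nat_lit 1) (nat_lit 4) (nat_lit 2)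 (nat_lit 5) (nat_lit 2) (nat_lit 4) (nat_lit 328) (nat_lit 227) (nat_lit 225)) (XT.lf (nat_lit 0) (nat_lit 12524197836405) (nat_lit 76) (nat_lit 1831248605312) (nat_lit 76) (nat_lit 1831222630801) (nat_lit 1) (nat_lit 4) (nat_lit 2) (nat_lit 5) (nat_lit 2) (nat_lit 4) (nat_lit 329) (nat_lit 227) (nat_lit 224)))))) (XT.nd (nat_lit 312) (nat_lit 0) (nat_lit 0) (XT.nd (nat_lit 156) (nat_lit 0) (nat_lit 0) (XT.nd (nat_lit 78) (nat_lit 0) (nat_lit 0) (XT.lf (nat_lit 0) (nat_lit 14403244931148) (nat_lit 76) (nat_lit 2105712977433) (nat_lit 76) (nat_lit 2105680498522) (nat_lit 1) (nat_lit 4) (nat_lit 2) (nat_lit 5) (nat_lit 2) (nat_lit 4) (nat_lit 330) (nat_lit 227) (nat_lit 223)) (XT.lf (nat_lit 0) (nat_lit 16564119067354) (nat_lit 76) (nat_lit 2421362220496) (nat_lit 76) (nat_lit 2421324085584) (nat_lit 1) (nat_lit 4) (nat_lit 2) (nat_lit 5) (nat_lit 2) (nat_lit 4) (nat_lit 331) (nat_lit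 227) (nat_lit 222))) (XT.nd (nat_lit 78) (nat_lit 0) (nat_lit 0) (XT.lf (nat_lit 0) (nat_lit 19049098217252) (nat_lit 76) (nat_lit 2784372080559) (nat_lit 76) (nat_lit 2784329027385) (nat_lit 1) (nat_lit 4) (nat_lit 2) (nat_lit 5) (nat_lit 2) (nat_lit 4) (nat_lit 332) (nat_lit 227) (nat_lit 221)) (XT.lf (nat_lit 0) (nat_lit 21906801538123) (nat_lit 76) (nat_lit 3201844924450) (nat_lit 76) (nat_lit 3201797594528) (nat_lit 1) (nat_lit 4) (nat_lit 2) (nat_lit 5) (nat_lit 2) (nat_lit 4) (nat_lit 333) (nat_lit 227) (nat_lit 220)))) (XT.nd (nat_lit 156) (nat_lit 0) (nat_lit 0) (XT.nd (nat_lit 78) (nat_lit 0) (nat_lit 0) (XT.lf (nat_lit 0) (nat_lit 25193140616681) (nat_lit 76) (nat_lit 3681948699115) (nat_lit 76) (nat_lit 3681897650280) (nat_lit 1) (nat_lit 4) (nat_lit 2) (nat_lit 5) (nat_lit 2) (nat_lit 4) (nat_lit 334) (nat_lit 227) (nat_lit 219)) (XT.lf (nat_lit 0) (nat_lit 28972413391418)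 (nat_lit 76) (nat_lit 4234076739275) (nat_lit 76) (nat_lit 4234022456604) (nat_lit 1) (nat_lit 4) (nat_lit 2) (nat_lit 5) (nat_lit 2) (nat_lit 4) (nat_lit 335) (nat_lit 227) (nat_lit 218))) (XT.nd (nat_lit 78) (nat_lit 0) (nat_lit 0) (XT.lf (nat_lit 0) (nat_lit 33318562155753) (nat_lit 76) (nat_lit 4869031550064) (nat_lit 76) (nat_lit 4868974455361) (nat_lit 1) (nat_lit 4) (nat_lit 2) (nat_lit 5) (nat_lit 2) (nat_lit 4) (nat_lit 336) (nat_lit 227) (nat_lit 217)) (XT.nd (nat_lit 78) (nat_lit 0) (nat_lit 0) (XT.lf (nat_lit 0) (nat_lit 38316620255076) (nat_lit 76) (nat_lit 5599236160389) (nat_lit 76) (nat_lit 5599176620440) (nat_lit 1) (nat_lit 4) (nat_lit 2) (nat_lit 5) (nat_lit 2) (nat_lit 4) (nat_lit 337) (nat_lit 227) (nat_lit 216)) (XT.lf (nat_lit 0) (nat_lit 44064375782633) (nat_lit 76) (nat_lit 6438977182190) (nat_lit 76) (nat_lit 6438915515942) (nat_lit 1) (nat_lit 4) (nat_lit 2)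 (nat_lit 5) (nat_lit 2) (nat_lit 4) (nat_lit 338) (nat_lit 227) (nat_lit 215))))))) (XT.nd (nat_lit 39546) (nat_lit 0) (nat_lit 0) (XT.nd (nat_lit 468) (nat_lit 0) (nat_lit 0) (XT.nd (nat_lit 156) (nat_lit 0) (nat_lit 0) (XT.nd (nat_lit 78) (nat_lit 0) (nat_lit 0) (XT.lf (nat_lit 0) (nat_lit 50674284824835) (nat_lit 76) (nat_lit 7404684331113) (nat_lit 76) (nat_lit 7404620815907) (nat_lit 1) (nat_lit 4) (nat_lit 2) (nat_lit 5) (nat_lit 2) (nat_lit 4) (nat_lit 339) (nat_lit 227) (nat_lit 214)) (XT.lf (nat_lit 0) (nat_lit 58275671689027) (nat_lit 76) (nat_lit 8515251877461) (nat_lit 76) (nat_lit 8515186754467) (nat_lit 1) (nat_lit 4) (nat_lit 2) (nat_lit 5) (nat_lit 2) (nat_lit 4) (nat_lit 340) (nat_lit 227) (nat_lit 213))) (XT.nd (nat_lit 78) (nat_lit 0) (nat_lit 0) (XT.lf (nat_lit 0) (nat_lit 67017259161685) (nat_lit 76) (nat_lit 9792408316706) (nat_lit 76) (nat_lit 9792341795636) (nat_lit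 1) (nat_lit 4) (nat_lit 2) (nat_lit 5) (nat_lit 2) (nat_lit 4) (nat_lit 341) (nat_lit 227) (nat_lit 212)) (XT.lf (nat_lit 0) (nat_lit 77070078302054) (nat_lit 76) (nat_lit 11261141492227) (nat_lit 76) (nat_lit 11261073755437) (nat_lit 1) (nat_lit 4) (nat_lit 2) (nat_lit 5) (nat_lit 2) (nat_lit 4) (nat_lit 342) (nat_lit 227) (nat_lit 211)))) (XT.nd (nat_lit 156) (nat_lit 0) (nat_lit 0) (XT.nd (nat_lit 78) (nat_lit 0) (nat_lit 0) (XT.lf (nat_lit 0) (nat_lit 117214720716832) (nat_lit 76) (nat_lit 17126361179198) (nat_lit 76) (nat_lit 17126290666648) (nat_lit 1) (nat_lit 4) (nat_lit 2) (nat_lit 5) (nat_lit 2) (nat_lit 4) (nat_lit 345) (nat_lit 227) (nat_lit 208)) (XT.lf (nat_lit 0) (nat_lit 134797140666766) (nat_lit 76) (nat_lit 19695196620977) (nat_lit 76) (nat_lit 19695125413336) (nat_lit 1) (nat_lit 4) (nat_lit 2) (nat_lit 5) (nat_lit 2) (nat_lit 4) (nat_lit 346) (nat_lit 227) (nat_lit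 207))) (XT.nd (nat_lit 78) (nat_lit 0) (nat_lit 0) (XT.lf (nat_lit 0) (nat_lit 155016920400816) (nat_lit 76) (nat_lit 22649359004984) (nat_lit 76) (nat_lit 22649287192916) (nat_lit 1) (nat_lit 4) (nat_lit 2) (nat_lit 5) (nat_lit 2) (nat_lit 4) (nat_lit 347) (nat_lit 227) (nat_lit 206)) (XT.nd (nat_lit 38766) (nat_lit 0) (nat_lit 0) (XT.lf (nat_lit 0) (nat_lit 178269664305082) (nat_lit 76) (nat_lit 26046647160470) (nat_lit 76) (nat_lit 26046574822814) (nat_lit 1) (nat_lit 4) (nat_lit 2) (nat_lit 5) (nat_lit 2) (nat_lit 4) (nat_lit 348) (nat_lit 227) (nat_lit 205)) (XT.lf (nat_lit 0) (nat_lit 3112448700489) (nat_lit 76) (nat_lit 455718706670) (nat_lit 76) (nat_lit 455718706670) (nat_lit 1) (nat_lit 4) (nat_lit 2) (nat_lit 5) (nat_lit 2) (nat_lit 4) (nat_lit 324) (nat_lit 228) (nat_lit 228)))))) (XT.nd (nat_lit 390) (nat_lit 0) (nat_lit 0) (XT.nd (nat_lit 156) (nat_lit 0) (nat_lit 0) (XT.nd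 (nat_lit 78) (nat_lit 0) (nat_lit 0) (XT.lf (nat_lit 0) (nat_lit 7159249919208) (nat_lit 76) (nat_lit 1047826795222) (nat_lit 76) (nat_lit 1047815418984) (nat_lit 1) (nat_lit 4) (nat_lit 2) (nat_lit 5) (nat_lit 2) (nat_lit 4) (nat_lit 325) (nat_lit 228) (nat_lit 227)) (XT.lf (nat_lit 0) (nat_lit 8233702805198) (nat_lit 76) (nat_lit 1204701195730) (nat_lit 76) (nat_lit 1204679927112) (nat_lit 1) (nat_lit 4) (nat_lit 2) (nat_lit 5) (nat_lit 2) (nat_lit 4) (nat_lit 326) (nat_lit 228) (nat_lit 226))) (XT.nd (nat_lit 78) (nat_lit 0) (nat_lit 0) (XT.lf (nat_lit 0) (nat_lit 9469277963237) (nat_lit 76) (nat_lit 1385129896614) (nat_lit 76) (nat_lit 1385100025926) (nat_lit 1) (nat_lit 4) (nat_lit 2) (nat_lit 5) (nat_lit 2) (nat_lit 4) (nat_lit 327) (nat_lit 228) (nat_lit 225)) (XT.nd (nat_lit 78) (nat_lit 0) (nat_lit 0) (XT.lf (nat_lit 0) (nat_lit 10890149689898) (nat_lit 76) (nat_lit 1592643024630)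 (nat_lit 76) (nat_lit 1592605673882) (nat_lit 1) (nat_lit 4) (nat_lit 2) (nat_lit 5) (nat_lit 2) (nat_lit 4) (nat_lit 328) (nat_lit 228) (nat_lit 224)) (XT.lf (nat_lit 0) (nat_lit 12524117649396) (nat_lit 76) (nat_lit 1831300619239) (nat_lit 76) (nat_lit 1831256764090) (nat_lit 1) (nat_lit 4) (nat_lit 2) (nat_lit 5) (nat_lit 2) (nat_lit 4) (nat_lit 329) (nat_lit 228) (nat_lit 223))))) (XT.nd (nat_lit 156) (nat_lit 0) (nat_lit 0) (XT.nd (nat_lit 78) (nat_lit 0) (nat_lit 0) (XT.lf (nat_lit 0) (nat_lit 14403150780069) (nat_lit 76) (nat_lit 2105772068162) (nat_lit 76) (nat_lit 2105722557012) (nat_lit 1) (nat_lit 4) (nat_lit 2) (nat_lit 5) (nat_lit 2) (nat_lit 4) (nat_lit 330) (nat_lit 228) (nat_lit 222)) (XT.lf (nat_lit 0) (nat_lit 16564012773606) (nat_lit 76) (nat_lit 2421427464965) (nat_lit 76) (nat_lit 2421373035554) (nat_lit 1) (nat_lit 4) (nat_lit 2) (nat_lit 5) (nat_lit 2) (nat_lit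 4) (nat_lit 331) (nat_lit 228) (nat_lit 221))) (XT.nd (nat_lit 78) (nat_lit 0) (nat_lit 0) (XT.lf (nat_lit 0) (nat_lit 19048981364662) (nat_lit 76) (nat_lit 2784442676106) (nat_lit 76) (nat_lit 2784383969946) (nat_lit 1) (nat_lit 4) (nat_lit 2) (nat_lit 5) (nat_lit 2) (nat_lit 4) (nat_lit 332) (nat_lit 228) (nat_lit 220)) (XT.nd (nat_lit 78) (nat_lit 0) (nat_lit 0) (XT.lf (nat_lit 0) (nat_lit 21906675503931) (nat_lit 76) (nat_lit 3201920173109) (nat_lit 76) (nat_lit 3201857748037) (nat_lit 1) (nat_lit 4) (nat_lit 2) (nat_lit 5) (nat_lit 2) (nat_lit 4) (nat_lit 333) (nat_lit 228) (nat_lit 219)) (XT.lf (nat_lit 0) (nat_lit 25193006598487) (nat_lit 76) (nat_lit 3682027993958) (nat_lit 76) (nat_lit 3681962335049) (nat_lit 1) (nat_lit 4) (nat_lit 2) (nat_lit 5) (nat_lit 2) (nat_lit 4) (nat_lit 334) (nat_lit 228) (nat_lit 218))))))))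
noncomputable def xc3 : XT := (XT.nd (nat_lit 40014) (nat_lit 0) (nat_lit 0) (XT.nd (nat_lit 780) (nat_lit 0) (nat_lit 0) (XT.nd (nat_lit 312) (nat_lit 0) (nat_lit 0) (XT.nd (nat_lit 156) (nat_lit 0) (nat_lit 0) (XT.nd (nat_lit 78) (nat_lit 0) (nat_lit 0) (XT.lf (nat_lit 0) (nat_lit 28972272430613) (nat_lit 76) (nat_lit 4234159552539) (nat_lit 76) (nat_lit 4234091081598) (nat_lit 1) (nat_lit 4) (nat_lit 2) (nat_lit 5) (nat_lit 2) (nat_lit 4) (nat_lit 335) (nat_lit 228) (nat_lit 217)) (XT.lf (nat_lit 0) (nat_lit 33318415157896) (nat_lit 76) (nat_lit 4869117422824) (nat_lit 76) (nat_lit 4869046506638) (nat_lit 1) (nat_lit 4) (nat_lit 2) (nat_lit 5) (nat_lit 2) (nat_lit 4) (nat_lit 336) (nat_lit 228) (nat_lit 216))) (XT.nd (nat_lit 78) (nat_lit 0) (nat_lit 0) (XT.lf (nat_lit 0) (nat_lit 38316468007608) (nat_lit 76) (nat_lit 5599324693581) (nat_lit 76) (nat_lit 5599251651095) (nat_lit 1)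 (nat_lit 4) (nat_lit 2) (nat_lit 5) (nat_lit 2) (nat_lit 4) (nat_lit 337) (nat_lit 228) (nat_lit 215)) (XT.lf (nat_lit 0) (nat_lit 44064218970286) (nat_lit 76) (nat_lit 6439068028801) (nat_lit 76) (nat_lit 6438993137358) (nat_lit 1) (nat_lit 4) (nat_lit 2) (nat_lit 5) (nat_lit 2) (nat_lit 4) (nat_lit 338) (nat_lit 228) (nat_lit 214)))) (XT.nd (nat_lit 156) (nat_lit 0) (nat_lit 0) (XT.nd (nat_lit 78) (nat_lit 0) (nat_lit 0) (XT.lf (nat_lit 0) (nat_lit 50674124043028) (nat_lit 76) (nat_lit 7404777189392) (nat_lit 76) (nat_lit 7404700690161) (nat_lit 1) (nat_lit 4) (nat_lit 2) (nat_lit 5) (nat_lit 2) (nat_lit 4) (nat_lit 339) (nat_lit 228) (nat_lit 213)) (XT.lf (nat_lit 0) (nat_lit 58275507455516) (nat_lit 76) (nat_lit 8515346485017) (nat_lit 76) (nat_lit 8515268587709) (nat_lit 1) (nat_lit 4) (nat_lit 2) (nat_lit 5) (nat_lit 2) (nat_lit 4) (nat_lit 340) (nat_lit 228) (nat_lit 212))) (XT.nd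 (nat_lit 78) (nat_lit 0) (nat_lit 0) (XT.lf (nat_lit 0) (nat_lit 67017091926691) (nat_lit 76) (nat_lit 9792504445373) (nat_lit 76) (nat_lit 9792425332346) (nat_lit 1) (nat_lit 4) (nat_lit 2) (nat_lit 5) (nat_lit 2) (nat_lit 4) (nat_lit 341) (nat_lit 228) (nat_lit 211)) (XT.nd (nat_lit 156) (nat_lit 0) (nat_lit 0) (XT.lf (nat_lit 0) (nat_lit 77069908457076) (nat_lit 76) (nat_lit 11261238943598) (nat_lit 76) (nat_lit 11261158773424) (nat_lit 1) (nat_lit 4) (nat_lit 2) (nat_lit 5) (nat_lit 2) (nat_lit 4) (nat_lit 342) (nat_lit 228) (nat_lit 210)) (XT.lf (nat_lit 0) (nat_lit 101925482594376) (nat_lit 76) (nat_lit 14892692457490) (nat_lit 76) (nat_lit 14892610568703) (nat_lit 1) (nat_lit 4) (nat_lit 2) (nat_lit 5) (nat_lit 2) (nat_lit 4) (nat_lit 344) (nat_lit 228) (nat_lit 208)))))) (XT.nd (nat_lit 38844) (nat_lit 0) (nat_lit 0) (XT.nd (nat_lit 156) (nat_lit 0) (nat_lit 0) (XT.nd (nat_lit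 78) (nat_lit 0) (nat_lit 0) (XT.lf (nat_lit 0) (nat_lit 117214544912672) (nat_lit 76) (nat_lit 17126461650602) (nat_lit 76) (nat_lit 17126379066724) (nat_lit 1) (nat_lit 4) (nat_lit 2) (nat_lit 5) (nat_lit 2) (nat_lit 4) (nat_lit 345) (nat_lit 228) (nat_lit 207)) (XT.lf (nat_lit 0) (nat_lit 134796963370339) (nat_lit 76) (nat_lit 19695297848642) (nat_lit 76) (nat_lit 19695214660337) (nat_lit 1) (nat_lit 4) (nat_lit 2) (nat_lit 5) (nat_lit 2) (nat_lit 4) (nat_lit 346) (nat_lit 228) (nat_lit 206))) (XT.nd (nat_lit 78) (nat_lit 0) (nat_lit 0) (XT.lf (nat_lit 0) (nat_lit 155016741806765) (nat_lit 76) (nat_lit 22649460890267) (nat_lit 76) (nat_lit 22649377176372) (nat_lit 1) (nat_lit 4) (nat_lit 2) (nat_lit 5) (nat_lit 2) (nat_lit 4) (nat_lit 347) (nat_lit 228) (nat_lit 205)) (XT.lf (nat_lit 0) (nat_lit 178269484582663) (nat_lit 76) (nat_lit 26046749617595) (nat_lit 76) (nat_lit 26046665446667)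 (nat_lit 1) (nat_lit 4) (nat_lit 2) (nat_lit 5) (nat_lit 2) (nat_lit 4) (nat_lit 348) (nat_lit 228) (nat_lit 204)))) (XT.nd (nat_lit 156) (nat_lit 0) (nat_lit 0) (XT.nd (nat_lit 78) (nat_lit 0) (nat_lit 0) (XT.lf (nat_lit 0) (nat_lit 2352892976552) (nat_lit 76) (nat_lit 344892525864) (nat_lit 76) (nat_lit 344892525864) (nat_lit 1) (nat_lit 4) (nat_lit 2) (nat_lit 5) (nat_lit 2) (nat_lit 4) (nat_lit 322) (nat_lit 229) (nat_lit 229)) (XT.lf (nat_lit 0) (nat_lit 5412364440367) (nat_lit 76) (nat_lit 792877644851) (nat_lit 76) (nat_lit 792864562178) (nat_lit 1) (nat_lit 4) (nat_lit 2) (nat_lit 5) (nat_lit 2) (nat_lit 4) (nat_lit 323) (nat_lit 229) (nat_lit 228))) (XT.nd (nat_lit 78) (nat_lit 0) (nat_lit 0) (XT.lf (nat_lit 0) (nat_lit 6224869314247) (nat_lit 76) (nat_lit 911464729988) (nat_lit 76) (nat_lit 911440271077) (nat_lit 1) (nat_lit 4) (nat_lit 2) (nat_lit 5) (nat_lit 2) (nat_lit 4)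 (nat_lit 324) (nat_lit 229) (nat_lit 227)) (XT.nd (nat_lit 78) (nat_lit 0) (nat_lit 0) (XT.lf (nat_lit 0) (nat_lit 7159197409233) (nat_lit 76) (nat_lit 1047866489239) (nat_lit 76) (nat_lit 1047832137948) (nat_lit 1) (nat_lit 4) (nat_lit 2) (nat_lit 5) (nat_lit 2) (nat_lit 4) (nat_lit 325) (nat_lit 229) (nat_lit 226)) (XT.lf (nat_lit 0) (nat_lit 8233629057618) (nat_lit 76) (nat_lit 1204751652677) (nat_lit 76) (nat_lit 1204708699317) (nat_lit 1) (nat_lit 4) (nat_lit 2) (nat_lit 5) (nat_lit 2) (nat_lit 4) (nat_lit 326) (nat_lit 229) (nat_lit 225))))))) (XT.nd (nat_lit 702) (nat_lit 0) (nat_lit 0) (XT.nd (nat_lit 312) (nat_lit 0) (nat_lit 0) (XT.nd (nat_lit 156) (nat_lit 0) (nat_lit 0) (XT.nd (nat_lit 78) (nat_lit 0) (nat_lit 0) (XT.lf (nat_lit 0) (nat_lit 9469185748176) (nat_lit 76) (nat_lit 1385189712631) (nat_lit 76) (nat_lit 1385139279209) (nat_lit 1) (nat_lit 4) (nat_lit 2) (nat_lit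 5) (nat_lit 2) (nat_lit 4) (nat_lit 327) (nat_lit 229) (nat_lit 224)) (XT.lf (nat_lit 0) (nat_lit 10890041416157) (nat_lit 76) (nat_lit 1592710978968) (nat_lit 76) (nat_lit 1592654041146) (nat_lit 1) (nat_lit 4) (nat_lit 2) (nat_lit 5) (nat_lit 2) (nat_lit 4) (nat_lit 328) (nat_lit 229) (nat_lit 223))) (XT.nd (nat_lit 78) (nat_lit 0) (nat_lit 0) (XT.lf (nat_lit 0) (nat_lit 12523995411586) (nat_lit 76) (nat_lit 1831375650378) (nat_lit 76) (nat_lit 1831313056556) (nat_lit 1) (nat_lit 4) (nat_lit 2) (nat_lit 5) (nat_lit 2) (nat_lit 4) (nat_lit 329) (nat_lit 229) (nat_lit 222)) (XT.lf (nat_lit 0) (nat_lit 14403016399591) (nat_lit 76) (nat_lit 2105853253041) (nat_lit 76) (nat_lit 2105785740957) (nat_lit 1) (nat_lit 4) (nat_lit 2) (nat_lit 5) (nat_lit 2) (nat_lit 4) (nat_lit 330) (nat_lit 229) (nat_lit 221)))) (XT.nd (nat_lit 156) (nat_lit 0) (nat_lit 0) (XT.nd (nat_lit 78) (nat_lit 0) (nat_lit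 0) (XT.lf (nat_lit 0) (nat_lit 16563867834285) (nat_lit 76) (nat_lit 2421514000922) (nat_lit 76) (nat_lit 2421442212089) (nat_lit 1) (nat_lit 4) (nat_lit 2) (nat_lit 5) (nat_lit 2) (nat_lit 4) (nat_lit 331) (nat_lit 229) (nat_lit 220)) (XT.lf (nat_lit 0) (nat_lit 19048827243738) (nat_lit 76) (nat_lit 2784533865176) (nat_lit 76) (nat_lit 2784458357430) (nat_lit 1) (nat_lit 4) (nat_lit 2) (nat_lit 5) (nat_lit 2) (nat_lit 4) (nat_lit 332) (nat_lit 229) (nat_lit 219))) (XT.nd (nat_lit 78) (nat_lit 0) (nat_lit 0) (XT.lf (nat_lit 0) (nat_lit 21906513399006) (nat_lit 76) (nat_lit 3202015408362) (nat_lit 76) (nat_lit 3201936666780) (nat_lit 1) (nat_lit 4) (nat_lit 2) (nat_lit 5) (nat_lit 2) (nat_lit 4) (nat_lit 333) (nat_lit 229) (nat_lit 218)) (XT.nd (nat_lit 78) (nat_lit 0) (nat_lit 0) (XT.lf (nat_lit 0) (nat_lit 25192837550951) (nat_lit 76) (nat_lit 3682126747632) (nat_lit 76) (nat_lit 3682045194018)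 (nat_lit 1) (nat_lit 4) (nat_lit 2) (nat_lit 5) (nat_lit 2) (nat_lit 4) (nat_lit 334) (nat_lit 229) (nat_lit 217)) (XT.lf (nat_lit 0) (nat_lit 28972097346025) (nat_lit 76) (nat_lit 4234261365709) (nat_lit 76) (nat_lit 4234177366850) (nat_lit 1) (nat_lit 4) (nat_lit 2) (nat_lit 5) (nat_lit 2) (nat_lit 4) (nat_lit 335) (nat_lit 229) (nat_lit 216)))))) (XT.nd (nat_lit 390) (nat_lit 0) (nat_lit 0) (XT.nd (nat_lit 156) (nat_lit 0) (nat_lit 0) (XT.nd (nat_lit 78) (nat_lit 0) (nat_lit 0) (XT.lf (nat_lit 0) (nat_lit 33318234823697) (nat_lit 76) (nat_lit 4869221896427) (nat_lit 76) (nat_lit 4869135771267) (nat_lit 1) (nat_lit 4) (nat_lit 2) (nat_lit 5) (nat_lit 2) (nat_lit 4) (nat_lit 336) (nat_lit 229) (nat_lit 215)) (XT.lf (nat_lit 0) (nat_lit 38316283108529) (nat_lit 76) (nat_lit 5599431480602) (nat_lit 76) (nat_lit 5599343506486) (nat_lit 1) (nat_lit 4) (nat_lit 2) (nat_lit 5) (nat_lit 2)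 (nat_lit 4) (nat_lit 337) (nat_lit 229) (nat_lit 214))) (XT.nd (nat_lit 78) (nat_lit 0) (nat_lit 0) (XT.lf (nat_lit 0) (nat_lit 44064030101748) (nat_lit 76) (nat_lit 6439176827491) (nat_lit 76) (nat_lit 6439087245587) (nat_lit 1) (nat_lit 4) (nat_lit 2) (nat_lit 5) (nat_lit 2) (nat_lit 4) (nat_lit 338) (nat_lit 229) (nat_lit 213)) (XT.nd (nat_lit 78) (nat_lit 0) (nat_lit 0) (XT.lf (nat_lit 0) (nat_lit 50673931722785) (nat_lit 76) (nat_lit 7404887737359) (nat_lit 76) (nat_lit 7404796757378) (nat_lit 1) (nat_lit 4) (nat_lit 2) (nat_lit 5) (nat_lit 2) (nat_lit 4) (nat_lit 339) (nat_lit 229) (nat_lit 212)) (XT.lf (nat_lit 0) (nat_lit 58275312133791) (nat_lit 76) (nat_lit 8515458554094) (nat_lit 76) (nat_lit 8515366358394) (nat_lit 1) (nat_lit 4) (nat_lit 2) (nat_lit 5) (nat_lit 2) (nat_lit 4) (nat_lit 340) (nat_lit 229) (nat_lit 211))))) (XT.nd (nat_lit 234) (nat_lit 0) (nat_lit 0) (XT.nd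 (nat_lit 78) (nat_lit 0) (nat_lit 0) (XT.lf (nat_lit 0) (nat_lit 67016893994982) (nat_lit 76) (nat_lit 9792617837155) (nat_lit 76) (nat_lit 9792524584308) (nat_lit 1) (nat_lit 4) (nat_lit 2) (nat_lit 5) (nat_lit 2) (nat_lit 4) (nat_lit 341) (nat_lit 229) (nat_lit 210)) (XT.lf (nat_lit 0) (nat_lit 77069708255815) (nat_lit 76) (nat_lit 11261353485558) (nat_lit 76) (nat_lit 11261259313453) (nat_lit 1) (nat_lit 4) (nat_lit 2) (nat_lit 5) (nat_lit 2) (nat_lit 4) (nat_lit 342) (nat_lit 229) (nat_lit 209))) (XT.nd (nat_lit 78) (nat_lit 0) (nat_lit 0) (XT.lf (nat_lit 0) (nat_lit 101925278703485) (nat_lit 76) (nat_lit 14892808869304) (nat_lit 76) (nat_lit 14892713202753) (nat_lit 1) (nat_lit 4) (nat_lit 2) (nat_lit 5) (nat_lit 2) (nat_lit 4) (nat_lit 344) (nat_lit 229) (nat_lit 207)) (XT.nd (nat_lit 78) (nat_lit 0) (nat_lit 0) (XT.lf (nat_lit 0) (nat_lit 117214339529514) (nat_lit 76) (nat_lit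 17126578818677) (nat_lit 76) (nat_lit 17126482547699) (nat_lit 1) (nat_lit 4) (nat_lit 2) (nat_lit 5) (nat_lit 2) (nat_lit 4) (nat_lit 345) (nat_lit 229) (nat_lit 206)) (XT.lf (nat_lit 0) (nat_lit 134796756689557) (nat_lit 76) (nat_lit 19695415674335) (nat_lit 76) (nat_lit 19695318877768) (nat_lit 1) (nat_lit 4) (nat_lit 2) (nat_lit 5) (nat_lit 2) (nat_lit 4) (nat_lit 346) (nat_lit 229) (nat_lit 205))))))))
noncomputable def xc4 : XT := (XT.nd (nat_lit 39780) (nat_lit 0) (nat_lit 0) (XT.nd (nat_lit 39078) (nat_lit 0) (nat_lit 0) (XT.nd (nat_lit 38688) (nat_lit 0) (nat_lit 0) (XT.nd (nat_lit 38532) (nat_lit 0) (nat_lit 0) (XT.nd (nat_lit 78) (nat_lit 0) (nat_lit 0) (XT.lf (nat_lit 0) (nat_lit 155016533997615) (nat_lit 76) (nat_lit 22649579287802) (nat_lit 76) (nat_lit 22649482034201) (nat_lit 1) (nat_lit 4) (nat_lit 2) (nat_lit 5) (nat_lit 2) (nat_lit 4) (nat_lit 347) (nat_lit 229) (nat_lit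 204)) (XT.lf (nat_lit 0) (nat_lit 178269275792324) (nat_lit 76) (nat_lit 26046868512384) (nat_lit 76) (nat_lit 26046770861362) (nat_lit 1) (nat_lit 4) (nat_lit 2) (nat_lit 5) (nat_lit 2) (nat_lit 4) (nat_lit 348) (nat_lit 229) (nat_lit 203))) (XT.nd (nat_lit 78) (nat_lit 0) (nat_lit 0) (XT.lf (nat_lit 0) (nat_lit 1778474916222) (nat_lit 76) (nat_lit 261137567840) (nat_lit 76) (nat_lit 261137567840) (nat_lit 1) (nat_lit 4) (nat_lit 2) (nat_lit 5) (nat_lit 2) (nat_lit 4) (nat_lit 320) (nat_lit 230) (nat_lit 230)) (XT.lf (nat_lit 0) (nat_lit 4091309490753) (nat_lit 76) (nat_lit 600184966699) (nat_lit 76) (nat_lit 600169921625) (nat_lit 1) (nat_lit 4) (nat_lit 2) (nat_lit 5) (nat_lit 2) (nat_lit 4) (nat_lit 321) (nat_lit 230) (nat_lit 229)))) (XT.nd (nat_lit 156) (nat_lit 0) (nat_lit 0) (XT.nd (nat_lit 78) (nat_lit 0) (nat_lit 0) (XT.lf (nat_lit 0) (nat_lit 4705753653364) (nat_lit 76) (nat_lit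 689816465874) (nat_lit 76) (nat_lit 689788338127) (nat_lit 1) (nat_lit 4) (nat_lit 2) (nat_lit 5) (nat_lit 2) (nat_lit 4) (nat_lit 322) (nat_lit 230) (nat_lit 228)) (XT.lf (nat_lit 0) (nat_lit 5412304053895) (nat_lit 76) (nat_lit 792923292971) (nat_lit 76) (nat_lit 792883788987) (nat_lit 1) (nat_lit 4) (nat_lit 2) (nat_lit 5) (nat_lit 2) (nat_lit 4) (nat_lit 323) (nat_lit 230) (nat_lit 227))) (XT.nd (nat_lit 78) (nat_lit 0) (nat_lit 0) (XT.lf (nat_lit 0) (nat_lit 6224784504530) (nat_lit 76) (nat_lit 911522755477) (nat_lit 76) (nat_lit 911473359112) (nat_lit 1) (nat_lit 4) (nat_lit 2) (nat_lit 5) (nat_lit 2) (nat_lit 4) (nat_lit 324) (nat_lit 230) (nat_lit 226)) (XT.nd (nat_lit 78) (nat_lit 0) (nat_lit 0) (XT.lf (nat_lit 0) (nat_lit 7159091361913) (nat_lit 76) (nat_lit 1047935277658) (nat_lit 76) (nat_lit 1047877279224) (nat_lit 1) (nat_lit 4) (nat_lit 2) (nat_lit 5) (nat_lit 2) (nat_lit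 4) (nat_lit 325) (nat_lit 230) (nat_lit 225)) (XT.lf (nat_lit 0) (nat_lit 8233504542817) (nat_lit 76) (nat_lit 1204829800166) (nat_lit 76) (nat_lit 1204764321671) (nat_lit 1) (nat_lit 4) (nat_lit 2) (nat_lit 5) (nat_lit 2) (nat_lit 4) (nat_lit 326) (nat_lit 230) (nat_lit 224)))))) (XT.nd (nat_lit 312) (nat_lit 0) (nat_lit 0) (XT.nd (nat_lit 156) (nat_lit 0) (nat_lit 0) (XT.nd (nat_lit 78) (nat_lit 0) (nat_lit 0) (XT.lf (nat_lit 0) (nat_lit 9469045174695) (nat_lit 76) (nat_lit 1385275998441) (nat_lit 76) (nat_lit 1385204015545) (nat_lit 1) (nat_lit 4) (nat_lit 2) (nat_lit 5) (nat_lit 2) (nat_lit 4) (nat_lit 327) (nat_lit 230) (nat_lit 223)) (XT.lf (nat_lit 0) (nat_lit 10889886878606) (nat_lit 76) (nat_lit 1592804341579) (nat_lit 76) (nat_lit 1592726702682) (nat_lit 1) (nat_lit 4) (nat_lit 2) (nat_lit 5) (nat_lit 2) (nat_lit 4) (nat_lit 328) (nat_lit 230) (nat_lit 222))) (XT.nd (nat_lit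 78) (nat_lit 0) (nat_lit 0) (XT.lf (nat_lit 0) (nat_lit 12523828731366) (nat_lit 76) (nat_lit 1831475166730) (nat_lit 76) (nat_lit 1831392609572) (nat_lit 1) (nat_lit 4) (nat_lit 2) (nat_lit 5) (nat_lit 2) (nat_lit 4) (nat_lit 329) (nat_lit 230) (nat_lit 221)) (XT.lf (nat_lit 0) (nat_lit 14402839160528) (nat_lit 76) (nat_lit 2105958120471) (nat_lit 76) (nat_lit 2105871286564) (nat_lit 1) (nat_lit 4) (nat_lit 2) (nat_lit 5) (nat_lit 2) (nat_lit 4) (nat_lit 330) (nat_lit 230) (nat_lit 220)))) (XT.nd (nat_lit 156) (nat_lit 0) (nat_lit 0) (XT.nd (nat_lit 78) (nat_lit 0) (nat_lit 0) (XT.lf (nat_lit 0) (nat_lit 16563681413620) (nat_lit 76) (nat_lit 2421623521464) (nat_lit 76) (nat_lit 2421532968644) (nat_lit 1) (nat_lit 4) (nat_lit 2) (nat_lit 5) (nat_lit 2) (nat_lit 4) (nat_lit 331) (nat_lit 230) (nat_lit 219)) (XT.lf (nat_lit 0) (nat_lit 19048632839072) (nat_lit 76) (nat_lit 2784647431901)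 (nat_lit 76) (nat_lit 2784553645245) (nat_lit 1) (nat_lit 4) (nat_lit 2) (nat_lit 5) (nat_lit 2) (nat_lit 4) (nat_lit 332) (nat_lit 230) (nat_lit 218))) (XT.nd (nat_lit 78) (nat_lit 0) (nat_lit 0) (XT.lf (nat_lit 0) (nat_lit 21906312051729) (nat_lit 76) (nat_lit 3202132493508) (nat_lit 76) (nat_lit 3202035894821) (nat_lit 1) (nat_lit 4) (nat_lit 2) (nat_lit 5) (nat_lit 2) (nat_lit 4) (nat_lit 333) (nat_lit 230) (nat_lit 217)) (XT.nd (nat_lit 78) (nat_lit 0) (nat_lit 0) (XT.lf (nat_lit 0) (nat_lit 25192630166622) (nat_lit 76) (nat_lit 3682246892275) (nat_lit 76) (nat_lit 3682147848342) (nat_lit 1) (nat_lit 4) (nat_lit 2) (nat_lit 5) (nat_lit 2) (nat_lit 4) (nat_lit 334) (nat_lit 230) (nat_lit 216)) (XT.lf (nat_lit 0) (nat_lit 28971884712085) (nat_lit 76) (nat_lit 4234384170784) (nat_lit 76) (nat_lit 4234283000551) (nat_lit 1) (nat_lit 4) (nat_lit 2) (nat_lit 5) (nat_lit 2) (nat_lit 4)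 (nat_lit 335) (nat_lit 230) (nat_lit 215))))))) (XT.nd (nat_lit 702) (nat_lit 0) (nat_lit 0) (XT.nd (nat_lit 312) (nat_lit 0) (nat_lit 0) (XT.nd (nat_lit 156) (nat_lit 0) (nat_lit 0) (XT.nd (nat_lit 78) (nat_lit 0) (nat_lit 0) (XT.lf (nat_lit 0) (nat_lit 33318017624878) (nat_lit 76) (nat_lit 4869347014920) (nat_lit 76) (nat_lit 4869243995730) (nat_lit 1) (nat_lit 4) (nat_lit 2) (nat_lit 5) (nat_lit 2) (nat_lit 4) (nat_lit 336) (nat_lit 230) (nat_lit 214)) (XT.lf (nat_lit 0) (nat_lit 38316061940250) (nat_lit 76) (nat_lit 5599558610763) (nat_lit 76) (nat_lit 5599453983785) (nat_lit 1) (nat_lit 4) (nat_lit 2) (nat_lit 5) (nat_lit 2) (nat_lit 4) (nat_lit 337) (nat_lit 230) (nat_lit 213))) (XT.nd (nat_lit 78) (nat_lit 0) (nat_lit 0) (XT.lf (nat_lit 0) (nat_lit 44063805481765) (nat_lit 76) (nat_lit 6439305706929) (nat_lit 76) (nat_lit 6439199681874) (nat_lit 1) (nat_lit 4) (nat_lit 2) (nat_lit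 5) (nat_lit 2) (nat_lit 4) (nat_lit 338) (nat_lit 230) (nat_lit 212)) (XT.lf (nat_lit 0) (nat_lit 50673704101320) (nat_lit 76) (nat_lit 7405018137908) (nat_lit 76) (nat_lit 7404910897134) (nat_lit 1) (nat_lit 4) (nat_lit 2) (nat_lit 5) (nat_lit 2) (nat_lit 4) (nat_lit 339) (nat_lit 230) (nat_lit 211)))) (XT.nd (nat_lit 156) (nat_lit 0) (nat_lit 0) (XT.nd (nat_lit 78) (nat_lit 0) (nat_lit 0) (XT.lf (nat_lit 0) (nat_lit 58275081902342) (nat_lit 76) (nat_lit 8515590277348) (nat_lit 76) (nat_lit 8515481979427) (nat_lit 1) (nat_lit 4) (nat_lit 2) (nat_lit 5) (nat_lit 2) (nat_lit 4) (nat_lit 340) (nat_lit 230) (nat_lit 210)) (XT.lf (nat_lit 0) (nat_lit 67016661493981) (nat_lit 76) (nat_lit 9792750710587) (nat_lit 76) (nat_lit 9792641493408) (nat_lit 1) (nat_lit 4) (nat_lit 2) (nat_lit 5) (nat_lit 2) (nat_lit 4) (nat_lit 341) (nat_lit 230) (nat_lit 209))) (XT.nd (nat_lit 78) (nat_lit 0) (nat_lit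 0) (XT.lf (nat_lit 0) (nat_lit 77069473781291) (nat_lit 76) (nat_lit 11261487359144) (nat_lit 76) (nat_lit 11261377342610) (nat_lit 1) (nat_lit 4) (nat_lit 2) (nat_lit 5) (nat_lit 2) (nat_lit 4) (nat_lit 342) (nat_lit 230) (nat_lit 208)) (XT.nd (nat_lit 78) (nat_lit 0) (nat_lit 0) (XT.lf (nat_lit 0) (nat_lit 88630204222067) (nat_lit 76) (nat_lit 12950536374840) (nat_lit 76) (nat_lit 12950425663215) (nat_lit 1) (nat_lit 4) (nat_lit 2) (nat_lit 5) (nat_lit 2) (nat_lit 4) (nat_lit 343) (nat_lit 230) (nat_lit 207)) (XT.lf (nat_lit 0) (nat_lit 101925041020586) (nat_lit 76) (nat_lit 14892944368851) (nat_lit 76) (nat_lit 14892833052799) (nat_lit 1) (nat_lit 4) (nat_lit 2) (nat_lit 5) (nat_lit 2) (nat_lit 4) (nat_lit 344) (nat_lit 230) (nat_lit 206)))))) (XT.nd (nat_lit 38532) (nat_lit 0) (nat_lit 0) (XT.nd (nat_lit 156) (nat_lit 0) (nat_lit 0) (XT.nd (nat_lit 78) (nat_lit 0) (nat_lit 0) (XT.lf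 (nat_lit 0) (nat_lit 117214100548992) (nat_lit 76) (nat_lit 17126714975843) (nat_lit 76) (nat_lit 17126603134201) (nat_lit 1) (nat_lit 4) (nat_lit 2) (nat_lit 5) (nat_lit 2) (nat_lit 4) (nat_lit 345) (nat_lit 230) (nat_lit 205)) (XT.lf (nat_lit 0) (nat_lit 134796516580667) (nat_lit 76) (nat_lit 19695552403342) (nat_lit 76) (nat_lit 19695440104667) (nat_lit 1) (nat_lit 4) (nat_lit 2) (nat_lit 5) (nat_lit 2) (nat_lit 4) (nat_lit 346) (nat_lit 230) (nat_lit 204))) (XT.nd (nat_lit 78) (nat_lit 0) (nat_lit 0) (XT.lf (nat_lit 0) (nat_lit 155016292907535) (nat_lit 76) (nat_lit 22649716514062) (nat_lit 76) (nat_lit 22649603817967) (nat_lit 1) (nat_lit 4) (nat_lit 2) (nat_lit 5) (nat_lit 2) (nat_lit 4) (nat_lit 347) (nat_lit 230) (nat_lit 203)) (XT.lf (nat_lit 0) (nat_lit 178269033849035) (nat_lit 76) (nat_lit 26047006171039) (nat_lit 76) (nat_lit 26046893129360) (nat_lit 1) (nat_lit 4) (nat_lit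 2) (nat_lit 5) (nat_lit 2) (nat_lit 4) (nat_lit 348) (nat_lit 230) (nat_lit 202)))) (XT.nd (nat_lit 156) (nat_lit 0) (nat_lit 0) (XT.nd (nat_lit 78) (nat_lit 0) (nat_lit 0) (XT.lf (nat_lit 0) (nat_lit 1344034806349) (nat_lit 76) (nat_lit 197859177001) (nat_lit 76) (nat_lit 197859177001) (nat_lit 1) (nat_lit 4) (nat_lit 2) (nat_lit 5) (nat_lit 2) (nat_lit 4) (nat_lit 318) (nat_lit 231) (nat_lit 231)) (XT.lf (nat_lit 0) (nat_lit 3092219815561) (nat_lit 76) (nat_lit 454579951870) (nat_lit 76) (nat_lit 454562650035) (nat_lit 1) (nat_lit 4) (nat_lit 2) (nat_lit 5) (nat_lit 2) (nat_lit 4) (nat_lit 319) (nat_lit 231) (nat_lit 230))) (XT.nd (nat_lit 78) (nat_lit 0) (nat_lit 0) (XT.lf (nat_lit 0) (nat_lit 3556912687743) (nat_lit 76) (nat_lit 522311261947) (nat_lit 76) (nat_lit 522278915037) (nat_lit 1) (nat_lit 4) (nat_lit 2) (nat_lit 5) (nat_lit 2) (nat_lit 4) (nat_lit 320) (nat_lit 231) (nat_lit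 229)) (XT.nd (nat_lit 78) (nat_lit 0) (nat_lit 0) (XT.lf (nat_lit 0) (nat_lit 4091240046310) (nat_lit 76) (nat_lit 600237462037) (nat_lit 76) (nat_lit 600192032455) (nat_lit 1) (nat_lit 4) (nat_lit 2) (nat_lit 5) (nat_lit 2) (nat_lit 4) (nat_lit 321) (nat_lit 231) (nat_lit 228)) (XT.lf (nat_lit 0) (nat_lit 4705656122190) (nat_lit 76) (nat_lit 689883195187) (nat_lit 76) (nat_lit 689826389367) (nat_lit 1) (nat_lit 4) (nat_lit 2) (nat_lit 5) (nat_lit 2) (nat_lit 4) (nat_lit 322) (nat_lit 231) (nat_lit 227))))))))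
noncomputable def xc5 : XT := (XT.nd (nat_lit 1404) (nat_lit 0) (nat_lit 0) (XT.nd (nat_lit 702) (nat_lit 0) (nat_lit 0) (XT.nd (nat_lit 312) (nat_lit 0) (nat_lit 0) (XT.nd (nat_lit 156) (nat_lit 0) (nat_lit 0) (XT.nd (nat_lit 78) (nat_lit 0) (nat_lit 0) (XT.lf (nat_lit 0) (nat_lit 5412182099477) (nat_lit 76) (nat_lit 793002399653) (nat_lit 76) (nat_lit 792935701453) (nat_lit 1) (nat_lit 4) (nat_lit 2) (nat_lit 5) (nat_lit 2) (nat_lit 4) (nat_lit 323) (nat_lit 231) (nat_lit 226)) (XT.lf (nat_lit 0) (nat_lit 6224641312508) (nat_lit 76) (nat_lit 911612625089) (nat_lit 76) (nat_lit 911537324819) (nat_lit 1) (nat_lit 4) (nat_lit 2) (nat_lit 5) (nat_lit 2) (nat_lit 4) (nat_lit 324) (nat_lit 231) (nat_lit 225))) (XT.nd (nat_lit 78) (nat_lit 0) (nat_lit 0) (XT.lf (nat_lit 0) (nat_lit 7158929702409) (nat_lit 76) (nat_lit 1048034506340) (nat_lit 76) (nat_lit 1047951726009) (nat_lit 1) (nat_lit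 4) (nat_lit 2) (nat_lit 5) (nat_lit 2) (nat_lit 4) (nat_lit 325) (nat_lit 231) (nat_lit 224)) (XT.lf (nat_lit 0) (nat_lit 8233326824633) (nat_lit 76) (nat_lit 1204937167169) (nat_lit 76) (nat_lit 1204847882438) (nat_lit 1) (nat_lit 4) (nat_lit 2) (nat_lit 5) (nat_lit 2) (nat_lit 4) (nat_lit 326) (nat_lit 231) (nat_lit 223)))) (XT.nd (nat_lit 156) (nat_lit 0) (nat_lit 0) (XT.nd (nat_lit 78) (nat_lit 0) (nat_lit 0) (XT.lf (nat_lit 0) (nat_lit 9468853492443) (nat_lit 76) (nat_lit 1385390442245) (nat_lit 76) (nat_lit 1385295501513) (nat_lit 1) (nat_lit 4) (nat_lit 2) (nat_lit 5) (nat_lit 2) (nat_lit 4) (nat_lit 327) (nat_lit 231) (nat_lit 222)) (XT.lf (nat_lit 0) (nat_lit 10889683053685) (nat_lit 76) (nat_lit 1592924939123) (nat_lit 76) (nat_lit 1592825080130) (nat_lit 1) (nat_lit 4) (nat_lit 2) (nat_lit 5) (nat_lit 2) (nat_lit 4) (nat_lit 328) (nat_lit 231) (nat_lit 221))) (XT.nd (nat_lit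 78) (nat_lit 0) (nat_lit 0) (XT.lf (nat_lit 0) (nat_lit 12523614347602) (nat_lit 76) (nat_lit 1831601115352) (nat_lit 76) (nat_lit 1831496979610) (nat_lit 1) (nat_lit 4) (nat_lit 2) (nat_lit 5) (nat_lit 2) (nat_lit 4) (nat_lit 329) (nat_lit 231) (nat_lit 220)) (XT.nd (nat_lit 78) (nat_lit 0) (nat_lit 0) (XT.lf (nat_lit 0) (nat_lit 14402615595162) (nat_lit 76) (nat_lit 2106088722205) (nat_lit 76) (nat_lit 2105980867551) (nat_lit 1) (nat_lit 4) (nat_lit 2) (nat_lit 5) (nat_lit 2) (nat_lit 4) (nat_lit 330) (nat_lit 231) (nat_lit 219)) (XT.lf (nat_lit 0) (nat_lit 16563449864252) (nat_lit 76) (nat_lit 2421758169382) (nat_lit 76) (nat_lit 2421647080891) (nat_lit 1) (nat_lit 4) (nat_lit 2) (nat_lit 5) (nat_lit 2) (nat_lit 4) (nat_lit 331) (nat_lit 231) (nat_lit 218)))))) (XT.nd (nat_lit 312) (nat_lit 0) (nat_lit 0) (XT.nd (nat_lit 156) (nat_lit 0) (nat_lit 0) (XT.nd (nat_lit 78) (nat_lit 0)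 (nat_lit 0) (XT.lf (nat_lit 0) (nat_lit 19048394347094) (nat_lit 76) (nat_lit 2784785598240) (nat_lit 76) (nat_lit 2784671697717) (nat_lit 1) (nat_lit 4) (nat_lit 2) (nat_lit 5) (nat_lit 2) (nat_lit 4) (nat_lit 332) (nat_lit 231) (nat_lit 217)) (XT.lf (nat_lit 0) (nat_lit 21906067522698) (nat_lit 76) (nat_lit 3202273719344) (nat_lit 76) (nat_lit 3202157373576) (nat_lit 1) (nat_lit 4) (nat_lit 2) (nat_lit 5) (nat_lit 2) (nat_lit 4) (nat_lit 333) (nat_lit 231) (nat_lit 216))) (XT.nd (nat_lit 78) (nat_lit 0) (nat_lit 0) (XT.lf (nat_lit 0) (nat_lit 25192380387980) (nat_lit 76) (nat_lit 3682390778542) (nat_lit 76) (nat_lit 3682272306473) (nat_lit 1) (nat_lit 4) (nat_lit 2) (nat_lit 5) (nat_lit 2) (nat_lit 4) (nat_lit 334) (nat_lit 231) (nat_lit 215)) (XT.lf (nat_lit 0) (nat_lit 28971630368564) (nat_lit 76) (nat_lit 4234530370470) (nat_lit 76) (nat_lit 4234410049445) (nat_lit 1) (nat_lit 4)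 (nat_lit 2) (nat_lit 5) (nat_lit 2) (nat_lit 4) (nat_lit 335) (nat_lit 231) (nat_lit 214)))) (XT.nd (nat_lit 156) (nat_lit 0) (nat_lit 0) (XT.nd (nat_lit 78) (nat_lit 0) (nat_lit 0) (XT.lf (nat_lit 0) (nat_lit 33317759311897) (nat_lit 76) (nat_lit 4869495226274) (nat_lit 76) (nat_lit 4869373297461) (nat_lit 1) (nat_lit 4) (nat_lit 2) (nat_lit 5) (nat_lit 2) (nat_lit 4) (nat_lit 336) (nat_lit 231) (nat_lit 213)) (XT.lf (nat_lit 0) (nat_lit 38315800175565) (nat_lit 76) (nat_lit 5599708571395) (nat_lit 76) (nat_lit 5599585244505) (nat_lit 1) (nat_lit 4) (nat_lit 2) (nat_lit 5) (nat_lit 2) (nat_lit 4) (nat_lit 337) (nat_lit 231) (nat_lit 212))) (XT.nd (nat_lit 78) (nat_lit 0) (nat_lit 0) (XT.lf (nat_lit 0) (nat_lit 44063540715598) (nat_lit 76) (nat_lit 6439457188671) (nat_lit 76) (nat_lit 6439332646062) (nat_lit 1) (nat_lit 4) (nat_lit 2) (nat_lit 5) (nat_lit 2) (nat_lit 4) (nat_lit 338)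 (nat_lit 231) (nat_lit 211)) (XT.nd (nat_lit 78) (nat_lit 0) (nat_lit 0) (XT.lf (nat_lit 0) (nat_lit 50673436725168) (nat_lit 76) (nat_lit 7405170942354) (nat_lit 76) (nat_lit 7405045342598) (nat_lit 1) (nat_lit 4) (nat_lit 2) (nat_lit 5) (nat_lit 2) (nat_lit 4) (nat_lit 339) (nat_lit 231) (nat_lit 210)) (XT.lf (nat_lit 0) (nat_lit 58274812256638) (nat_lit 76) (nat_lit 8515744231972) (nat_lit 76) (nat_lit 8515617712958) (nat_lit 1) (nat_lit 4) (nat_lit 2) (nat_lit 5) (nat_lit 2) (nat_lit 4) (nat_lit 340) (nat_lit 231) (nat_lit 209))))))) (XT.nd (nat_lit 38766) (nat_lit 0) (nat_lit 0) (XT.nd (nat_lit 312) (nat_lit 0) (nat_lit 0) (XT.nd (nat_lit 156) (nat_lit 0) (nat_lit 0) (XT.nd (nat_lit 78) (nat_lit 0) (nat_lit 0) (XT.lf (nat_lit 0) (nat_lit 67016389874754) (nat_lit 76) (nat_lit 9792905665366) (nat_lit 76) (nat_lit 9792778346997) (nat_lit 1) (nat_lit 4) (nat_lit 2) (nat_lit 5) (nat_lit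 2) (nat_lit 4) (nat_lit 341) (nat_lit 231) (nat_lit 208)) (XT.lf (nat_lit 0) (nat_lit 77069200445957) (nat_lit 76) (nat_lit 11261643183624) (nat_lit 76) (nat_lit 11261515170163) (nat_lit 1) (nat_lit 4) (nat_lit 2) (nat_lit 5) (nat_lit 2) (nat_lit 4) (nat_lit 342) (nat_lit 231) (nat_lit 207))) (XT.nd (nat_lit 78) (nat_lit 0) (nat_lit 0) (XT.lf (nat_lit 0) (nat_lit 88629929394467) (nat_lit 76) (nat_lit 12950692955580) (nat_lit 76) (nat_lit 12950564337693) (nat_lit 1) (nat_lit 4) (nat_lit 2) (nat_lit 5) (nat_lit 2) (nat_lit 4) (nat_lit 343) (nat_lit 231) (nat_lit 206)) (XT.lf (nat_lit 0) (nat_lit 101924764895362) (nat_lit 76) (nat_lit 14893101607209) (nat_lit 76) (nat_lit 14892972463733) (nat_lit 1) (nat_lit 4) (nat_lit 2) (nat_lit 5) (nat_lit 2) (nat_lit 4) (nat_lit 344) (nat_lit 231) (nat_lit 205)))) (XT.nd (nat_lit 156) (nat_lit 0) (nat_lit 0) (XT.nd (nat_lit 78) (nat_lit 0) (nat_lit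 0) (XT.lf (nat_lit 0) (nat_lit 117213823295399) (nat_lit 76) (nat_lit 17126872786042) (nat_lit 76) (nat_lit 17126743185532) (nat_lit 1) (nat_lit 4) (nat_lit 2) (nat_lit 5) (nat_lit 2) (nat_lit 4) (nat_lit 345) (nat_lit 231) (nat_lit 204)) (XT.lf (nat_lit 0) (nat_lit 134796238345885) (nat_lit 76) (nat_lit 19695710710796) (nat_lit 76) (nat_lit 19695580712865) (nat_lit 1) (nat_lit 4) (nat_lit 2) (nat_lit 5) (nat_lit 2) (nat_lit 4) (nat_lit 346) (nat_lit 231) (nat_lit 203))) (XT.nd (nat_lit 78) (nat_lit 0) (nat_lit 0) (XT.lf (nat_lit 0) (nat_lit 155016013819544) (nat_lit 76) (nat_lit 22649875253911) (nat_lit 76) (nat_lit 22649744910396) (nat_lit 1) (nat_lit 4) (nat_lit 2) (nat_lit 5) (nat_lit 2) (nat_lit 4) (nat_lit 347) (nat_lit 231) (nat_lit 202)) (XT.nd (nat_lit 38142) (nat_lit 0) (nat_lit 0) (XT.lf (nat_lit 0) (nat_lit 178268754019124) (nat_lit 76) (nat_lit 26047165286882) (nat_lit 76)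 (nat_lit 26047034642861) (nat_lit 1) (nat_lit 4) (nat_lit 2) (nat_lit 5) (nat_lit 2) (nat_lit 4) (nat_lit 348) (nat_lit 231) (nat_lit 201)) (XT.lf (nat_lit 0) (nat_lit 1015423507600) (nat_lit 76) (nat_lit 150071871310) (nat_lit 76) (nat_lit 150071871310) (nat_lit 1) (nat_lit 4) (nat_lit 2) (nat_lit 5) (nat_lit 2) (nat_lit 4) (nat_lit 316) (nat_lit 232) (nat_lit 232)))))) (XT.nd (nat_lit 390) (nat_lit 0) (nat_lit 0) (XT.nd (nat_lit 156) (nat_lit 0) (nat_lit 0) (XT.nd (nat_lit 78) (nat_lit 0) (nat_lit 0) (XT.lf (nat_lit 0) (nat_lit 2336554792580) (nat_lit 76) (nat_lit 344594725495) (nat_lit 76) (nat_lit 344574828385) (nat_lit 1) (nat_lit 4) (nat_lit 2) (nat_lit 5) (nat_lit 2) (nat_lit 4) (nat_lit 317) (nat_lit 232) (nat_lit 231)) (XT.lf (nat_lit 0) (nat_lit 2688026896292) (nat_lit 76) (nat_lit 395759899209) (nat_lit 76) (nat_lit 395722700264) (nat_lit 1) (nat_lit 4) (nat_lit 2) (nat_lit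 5) (nat_lit 2) (nat_lit 4) (nat_lit 318) (nat_lit 232) (nat_lit 230))) (XT.nd (nat_lit 78) (nat_lit 0) (nat_lit 0) (XT.lf (nat_lit 0) (nat_lit 3092139954452) (nat_lit 76) (nat_lit 454640321509) (nat_lit 76) (nat_lit 454588077489) (nat_lit 1) (nat_lit 4) (nat_lit 2) (nat_lit 5) (nat_lit 2) (nat_lit 4) (nat_lit 319) (nat_lit 232) (nat_lit 229)) (XT.nd (nat_lit 78) (nat_lit 0) (nat_lit 0) (XT.lf (nat_lit 0) (nat_lit 3556800526894) (nat_lit 76) (nat_lit 522388000656) (nat_lit 76) (nat_lit 522322673964) (nat_lit 1) (nat_lit 4) (nat_lit 2) (nat_lit 5) (nat_lit 2) (nat_lit 4) (nat_lit 320) (nat_lit 232) (nat_lit 228)) (XT.lf (nat_lit 0) (nat_lit 4091099798730) (nat_lit 76) (nat_lit 600328434721) (nat_lit 76) (nat_lit 600251731791) (nat_lit 1) (nat_lit 4) (nat_lit 2) (nat_lit 5) (nat_lit 2) (nat_lit 4) (nat_lit 321) (nat_lit 232) (nat_lit 227))))) (XT.nd (nat_lit 156) (nat_lit 0) (nat_lit 0)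 (XT.nd (nat_lit 78) (nat_lit 0) (nat_lit 0) (XT.lf (nat_lit 0) (nat_lit 4705491451365) (nat_lit 76) (nat_lit 689986545241) (nat_lit 76) (nat_lit 689899949930) (nat_lit 1) (nat_lit 4) (nat_lit 2) (nat_lit 5) (nat_lit 2) (nat_lit 4) (nat_lit 322) (nat_lit 232) (nat_lit 226)) (XT.lf (nat_lit 0) (nat_lit 5411996191048) (nat_lit 76) (nat_lit 793116512637) (nat_lit 76) (nat_lit 793021315257) (nat_lit 1) (nat_lit 4) (nat_lit 2) (nat_lit 5) (nat_lit 2) (nat_lit 4) (nat_lit 323) (nat_lit 232) (nat_lit 225))) (XT.nd (nat_lit 78) (nat_lit 0) (nat_lit 0) (XT.lf (nat_lit 0) (nat_lit 6224436936598) (nat_lit 76) (nat_lit 911736097142) (nat_lit 76) (nat_lit 911633419702) (nat_lit 1) (nat_lit 4) (nat_lit 2) (nat_lit 5) (nat_lit 2) (nat_lit 4) (nat_lit 324) (nat_lit 232) (nat_lit 224)) (XT.nd (nat_lit 78) (nat_lit 0) (nat_lit 0) (XT.lf (nat_lit 0) (nat_lit 7158709267819) (nat_lit 76) (nat_lit 1048166116714)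 (nat_lit 76) (nat_lit 1048056934873) (nat_lit 1) (nat_lit 4) (nat_lit 2) (nat_lit 5) (nat_lit 2) (nat_lit 4) (nat_lit 325) (nat_lit 232) (nat_lit 223)) (XT.lf (nat_lit 0) (nat_lit 8233092425974) (nat_lit 76) (nat_lit 1205075854345) (nat_lit 76) (nat_lit 1204961016502) (nat_lit 1) (nat_lit 4) (nat_lit 2) (nat_lit 5) (nat_lit 2) (nat_lit 4) (nat_lit 326) (nat_lit 232) (nat_lit 222))))))))
noncomputable def xc6 : XT := (XT.nd (nat_lit 39624) (nat_lit 0) (nat_lit 0) (XT.nd (nat_lit 702) (nat_lit 0) (nat_lit 0) (XT.nd (nat_lit 312) (nat_lit 0) (nat_lit 0) (XT.nd (nat_lit 156) (nat_lit 0) (nat_lit 0) (XT.nd (nat_lit 78) (nat_lit 0) (nat_lit 0) (XT.lf (nat_lit 0) (nat_lit 9468606951114) (nat_lit 76) (nat_lit 1385535283161) (nat_lit 76) (nat_lit 1385415527057) (nat_lit 1) (nat_lit 4) (nat_lit 2) (nat_lit 5) (nat_lit 2) (nat_lit 4) (nat_lit 327) (nat_lit 232) (nat_lit 221)) (XT.lf (nat_lit 0)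 (nat_lit 10889425953514) (nat_lit 76) (nat_lit 1593075131117) (nat_lit 76) (nat_lit 1592951098265) (nat_lit 1) (nat_lit 4) (nat_lit 2) (nat_lit 5) (nat_lit 2) (nat_lit 4) (nat_lit 328) (nat_lit 232) (nat_lit 220))) (XT.nd (nat_lit 78) (nat_lit 0) (nat_lit 0) (XT.lf (nat_lit 0) (nat_lit 12523348065829) (nat_lit 76) (nat_lit 1831755960458) (nat_lit 76) (nat_lit 1831628208693) (nat_lit 1) (nat_lit 4) (nat_lit 2) (nat_lit 5) (nat_lit 2) (nat_lit 4) (nat_lit 329) (nat_lit 232) (nat_lit 219)) (XT.lf (nat_lit 0) (nat_lit 14402341329387) (nat_lit 76) (nat_lit 2106247613495) (nat_lit 76) (nat_lit 2106116627893) (nat_lit 1) (nat_lit 4) (nat_lit 2) (nat_lit 5) (nat_lit 2) (nat_lit 4) (nat_lit 330) (nat_lit 232) (nat_lit 218)))) (XT.nd (nat_lit 156) (nat_lit 0) (nat_lit 0) (XT.nd (nat_lit 78) (nat_lit 0) (nat_lit 0) (XT.lf (nat_lit 0) (nat_lit 16563168655867) (nat_lit 76) (nat_lit 2421920579092)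 (nat_lit 76) (nat_lit 2421786781459) (nat_lit 1) (nat_lit 4) (nat_lit 2) (nat_lit 5) (nat_lit 2) (nat_lit 4) (nat_lit 331) (nat_lit 232) (nat_lit 217)) (XT.lf (nat_lit 0) (nat_lit 19048107101656) (nat_lit 76) (nat_lit 2784951067447) (nat_lit 76) (nat_lit 2784814824568) (nat_lit 1) (nat_lit 4) (nat_lit 2) (nat_lit 5) (nat_lit 2) (nat_lit 4) (nat_lit 332) (nat_lit 232) (nat_lit 216))) (XT.nd (nat_lit 78) (nat_lit 0) (nat_lit 0) (XT.lf (nat_lit 0) (nat_lit 21905775027649) (nat_lit 76) (nat_lit 3202441848983) (nat_lit 76) (nat_lit 3202303479804) (nat_lit 1) (nat_lit 4) (nat_lit 2) (nat_lit 5) (nat_lit 2) (nat_lit 4) (nat_lit 333) (nat_lit 232) (nat_lit 215)) (XT.nd (nat_lit 78) (nat_lit 0) (nat_lit 0) (XT.lf (nat_lit 0) (nat_lit 25192083328052) (nat_lit 76) (nat_lit 3682561221599) (nat_lit 76) (nat_lit 3682421003464) (nat_lit 1) (nat_lit 4) (nat_lit 2) (nat_lit 5) (nat_lit 2) (nat_lit 4)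 (nat_lit 334) (nat_lit 232) (nat_lit 214)) (XT.lf (nat_lit 0) (nat_lit 28971329339176) (nat_lit 76) (nat_lit 4234702825196) (nat_lit 76) (nat_lit 4234560999272) (nat_lit 1) (nat_lit 4) (nat_lit 2) (nat_lit 5) (nat_lit 2) (nat_lit 4) (nat_lit 335) (nat_lit 232) (nat_lit 213)))))) (XT.nd (nat_lit 312) (nat_lit 0) (nat_lit 0) (XT.nd (nat_lit 156) (nat_lit 0) (nat_lit 0) (XT.nd (nat_lit 78) (nat_lit 0) (nat_lit 0) (XT.lf (nat_lit 0) (nat_lit 33317454830805) (nat_lit 76) (nat_lit 4869669430277) (nat_lit 76) (nat_lit 4869526206277) (nat_lit 1) (nat_lit 4) (nat_lit 2) (nat_lit 5) (nat_lit 2) (nat_lit 4) (nat_lit 336) (nat_lit 232) (nat_lit 212)) (XT.lf (nat_lit 0) (nat_lit 38315492692991) (nat_lit 76) (nat_lit 5599884296509) (nat_lit 76) (nat_lit 5599739856789) (nat_lit 1) (nat_lit 4) (nat_lit 2) (nat_lit 5) (nat_lit 2) (nat_lit 4) (nat_lit 337) (nat_lit 232) (nat_lit 211))) (XT.nd (nat_lit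 78) (nat_lit 0) (nat_lit 0) (XT.lf (nat_lit 0) (nat_lit 44063230623039) (nat_lit 76) (nat_lit 6439634236490) (nat_lit 76) (nat_lit 6439488739623) (nat_lit 1) (nat_lit 4) (nat_lit 2) (nat_lit 5) (nat_lit 2) (nat_lit 4) (nat_lit 338) (nat_lit 232) (nat_lit 210)) (XT.lf (nat_lit 0) (nat_lit 50673124363058) (nat_lit 76) (nat_lit 7405349140351) (nat_lit 76) (nat_lit 7405202724226) (nat_lit 1) (nat_lit 4) (nat_lit 2) (nat_lit 5) (nat_lit 2) (nat_lit 4) (nat_lit 339) (nat_lit 232) (nat_lit 209)))) (XT.nd (nat_lit 156) (nat_lit 0) (nat_lit 0) (XT.nd (nat_lit 78) (nat_lit 0) (nat_lit 0) (XT.lf (nat_lit 0) (nat_lit 58274497921005) (nat_lit 76) (nat_lit 8515923430124) (nat_lit 76) (nat_lit 8515776214644) (nat_lit 1) (nat_lit 4) (nat_lit 2) (nat_lit 5) (nat_lit 2) (nat_lit 4) (nat_lit 340) (nat_lit 232) (nat_lit 208)) (XT.lf (nat_lit 0) (nat_lit 67016073823014) (nat_lit 76) (nat_lit 9793085733217)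 (nat_lit 76) (nat_lit 9792937822647) (nat_lit 1) (nat_lit 4) (nat_lit 2) (nat_lit 5) (nat_lit 2) (nat_lit 4) (nat_lit 341) (nat_lit 232) (nat_lit 207))) (XT.nd (nat_lit 234) (nat_lit 0) (nat_lit 0) (XT.lf (nat_lit 0) (nat_lit 77068882901950) (nat_lit 76) (nat_lit 11261824007736) (nat_lit 76) (nat_lit 11261675492738) (nat_lit 1) (nat_lit 4) (nat_lit 2) (nat_lit 5) (nat_lit 2) (nat_lit 4) (nat_lit 342) (nat_lit 232) (nat_lit 206)) (XT.nd (nat_lit 78) (nat_lit 0) (nat_lit 0) (XT.lf (nat_lit 0) (nat_lit 117213502344210) (nat_lit 76) (nat_lit 17127055336868) (nat_lit 76) (nat_lit 17126905441826) (nat_lit 1) (nat_lit 4) (nat_lit 2) (nat_lit 5) (nat_lit 2) (nat_lit 4) (nat_lit 345) (nat_lit 232) (nat_lit 203)) (XT.lf (nat_lit 0) (nat_lit 134795916541487) (nat_lit 76) (nat_lit 19695893694016) (nat_lit 76) (nat_lit 19695743453391) (nat_lit 1) (nat_lit 4) (nat_lit 2) (nat_lit 5) (nat_lit 2) (nat_lit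 4) (nat_lit 346) (nat_lit 232) (nat_lit 202))))))) (XT.nd (nat_lit 702) (nat_lit 0) (nat_lit 0) (XT.nd (nat_lit 312) (nat_lit 0) (nat_lit 0) (XT.nd (nat_lit 156) (nat_lit 0) (nat_lit 0) (XT.nd (nat_lit 78) (nat_lit 0) (nat_lit 0) (XT.lf (nat_lit 0) (nat_lit 766817170071) (nat_lit 76) (nat_lit 114007088874) (nat_lit 76) (nat_lit 114007088874) (nat_lit 1) (nat_lit 4) (nat_lit 2) (nat_lit 5) (nat_lit 2) (nat_lit 4) (nat_lit 314) (nat_lit 233) (nat_lit 233)) (XT.lf (nat_lit 0) (nat_lit 1764922325028) (nat_lit 76) (nat_lit 261560139117) (nat_lit 76) (nat_lit 261537257440) (nat_lit 1) (nat_lit 4) (nat_lit 2) (nat_lit 5) (nat_lit 2) (nat_lit 4) (nat_lit 315) (nat_lit 233) (nat_lit 232))) (XT.nd (nat_lit 78) (nat_lit 0) (nat_lit 0) (XT.lf (nat_lit 0) (nat_lit 2030797891332) (nat_lit 76) (nat_lit 300191519607) (nat_lit 76) (nat_lit 300148740820) (nat_lit 1) (nat_lit 4) (nat_lit 2) (nat_lit 5)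 (nat_lit 2) (nat_lit 4) (nat_lit 316) (nat_lit 233) (nat_lit 231)) (XT.lf (nat_lit 0) (nat_lit 2336462952305) (nat_lit 76) (nat_lit 344664150579) (nat_lit 76) (nat_lit 344604069957) (nat_lit 1) (nat_lit 4) (nat_lit 2) (nat_lit 5) (nat_lit 2) (nat_lit 4) (nat_lit 317) (nat_lit 233) (nat_lit 230)))) (XT.nd (nat_lit 156) (nat_lit 0) (nat_lit 0) (XT.nd (nat_lit 78) (nat_lit 0) (nat_lit 0) (XT.lf (nat_lit 0) (nat_lit 2687897911315) (nat_lit 76) (nat_lit 395848148725) (nat_lit 76) (nat_lit 395773023029) (nat_lit 1) (nat_lit 4) (nat_lit 2) (nat_lit 5) (nat_lit 2) (nat_lit 4) (nat_lit 318) (nat_lit 233) (nat_lit 229)) (XT.lf (nat_lit 0) (nat_lit 3091978669734) (nat_lit 76) (nat_lit 454744940096) (nat_lit 76) (nat_lit 454656731727) (nat_lit 1) (nat_lit 4) (nat_lit 2) (nat_lit 5) (nat_lit 2) (nat_lit 4) (nat_lit 319) (nat_lit 233) (nat_lit 228))) (XT.nd (nat_lit 78) (nat_lit 0) (nat_lit 0) (XT.lf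 (nat_lit 0) (nat_lit 3556611155445) (nat_lit 76) (nat_lit 522506853218) (nat_lit 76) (nat_lit 522407268611) (nat_lit 1) (nat_lit 4) (nat_lit 2) (nat_lit 5) (nat_lit 2) (nat_lit 4) (nat_lit 320) (nat_lit 233) (nat_lit 227)) (XT.nd (nat_lit 78) (nat_lit 0) (nat_lit 0) (XT.lf (nat_lit 0) (nat_lit 4090886004036) (nat_lit 76) (nat_lit 600459664653) (nat_lit 76) (nat_lit 600350187666) (nat_lit 1) (nat_lit 4) (nat_lit 2) (nat_lit 5) (nat_lit 2) (nat_lit 4) (nat_lit 321) (nat_lit 233) (nat_lit 226)) (XT.lf (nat_lit 0) (nat_lit 4705256419068) (nat_lit 76) (nat_lit 690128538102) (nat_lit 76) (nat_lit 690010459045) (nat_lit 1) (nat_lit 4) (nat_lit 2) (nat_lit 5) (nat_lit 2) (nat_lit 4) (nat_lit 322) (nat_lit 233) (nat_lit 225)))))) (XT.nd (nat_lit 390) (nat_lit 0) (nat_lit 0) (XT.nd (nat_lit 156) (nat_lit 0) (nat_lit 0) (XT.nd (nat_lit 78) (nat_lit 0) (nat_lit 0) (XT.lf (nat_lit 0) (nat_lit 5411742691269)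 (nat_lit 76) (nat_lit 793267864568) (nat_lit 76) (nat_lit 793142305450) (nat_lit 1) (nat_lit 4) (nat_lit 2) (nat_lit 5) (nat_lit 2) (nat_lit 4) (nat_lit 323) (nat_lit 233) (nat_lit 224)) (XT.lf (nat_lit 0) (nat_lit 6224167378139) (nat_lit 76) (nat_lit 911895587394) (nat_lit 76) (nat_lit 911763523876) (nat_lit 1) (nat_lit 4) (nat_lit 2) (nat_lit 5) (nat_lit 2) (nat_lit 4) (nat_lit 324) (nat_lit 233) (nat_lit 223))) (XT.nd (nat_lit 78) (nat_lit 0) (nat_lit 0) (XT.lf (nat_lit 0) (nat_lit 7158425745291) (nat_lit 76) (nat_lit 1048332683768) (nat_lit 76) (nat_lit 1048194964249) (nat_lit 1) (nat_lit 4) (nat_lit 2) (nat_lit 5) (nat_lit 2) (nat_lit 4) (nat_lit 325) (nat_lit 233) (nat_lit 222)) (XT.nd (nat_lit 78) (nat_lit 0) (nat_lit 0) (XT.lf (nat_lit 0) (nat_lit 8232796760777) (nat_lit 76) (nat_lit 1205248575138) (nat_lit 76) (nat_lit 1205105937357) (nat_lit 1) (nat_lit 4) (nat_lit 2) (nat_lit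 5) (nat_lit 2) (nat_lit 4) (nat_lit 326) (nat_lit 233) (nat_lit 221)) (XT.lf (nat_lit 0) (nat_lit 9468300727075) (nat_lit 76) (nat_lit 1385713355032) (nat_lit 76) (nat_lit 1385566440503) (nat_lit 1) (nat_lit 4) (nat_lit 2) (nat_lit 5) (nat_lit 2) (nat_lit 4) (nat_lit 327) (nat_lit 233) (nat_lit 220))))) (XT.nd (nat_lit 156) (nat_lit 0) (nat_lit 0) (XT.nd (nat_lit 78) (nat_lit 0) (nat_lit 0) (XT.lf (nat_lit 0) (nat_lit 10889110547873) (nat_lit 76) (nat_lit 1593257856101) (nat_lit 76) (nat_lit 1593107222659) (nat_lit 1) (nat_lit 4) (nat_lit 2) (nat_lit 5) (nat_lit 2) (nat_lit 4) (nat_lit 328) (nat_lit 233) (nat_lit 219)) (XT.lf (nat_lit 0) (nat_lit 12523024676186) (nat_lit 76) (nat_lit 1831942731625) (nat_lit 76) (nat_lit 1831788864347) (nat_lit 1) (nat_lit 4) (nat_lit 2) (nat_lit 5) (nat_lit 2) (nat_lit 4) (nat_lit 329) (nat_lit 233) (nat_lit 218))) (XT.nd (nat_lit 78) (nat_lit 0) (nat_lit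 0) (XT.lf (nat_lit 0) (nat_lit 14402010997133) (nat_lit 76) (nat_lit 2106437903083) (nat_lit 76) (nat_lit 2106281223773) (nat_lit 1) (nat_lit 4) (nat_lit 2) (nat_lit 5) (nat_lit 2) (nat_lit 4) (nat_lit 330) (nat_lit 233) (nat_lit 217)) (XT.nd (nat_lit 78) (nat_lit 0) (nat_lit 0) (XT.lf (nat_lit 0) (nat_lit 16562832286561) (nat_lit 76) (nat_lit 2422113928177) (nat_lit 76) (nat_lit 2421954803622) (nat_lit 1) (nat_lit 4) (nat_lit 2) (nat_lit 5) (nat_lit 2) (nat_lit 4) (nat_lit 331) (nat_lit 233) (nat_lit 216)) (XT.lf (nat_lit 0) (nat_lit 19047765482738) (nat_lit 76) (nat_lit 2785147076963) (nat_lit 76) (nat_lit 2784985826108) (nat_lit 1) (nat_lit 4) (nat_lit 2) (nat_lit 5) (nat_lit 2) (nat_lit 4) (nat_lit 332) (nat_lit 233) (nat_lit 215))))))))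
noncomputable def xc7 : XT := (XT.nd (nat_lit 39624) (nat_lit 0) (nat_lit 0) (XT.nd (nat_lit 702) (nat_lit 0) (nat_lit 0) (XT.nd (nat_lit 312) (nat_lit 0) (nat_lit 0) (XT.nd (nat_lit 156) (nat_lit 0) (nat_lit 0) (XT.nd (nat_lit 78) (nat_lit 0) (nat_lit 0) (XT.lf (nat_lit 0) (nat_lit 21905428843853) (nat_lit 76) (nat_lit 3202640171918) (nat_lit 76) (nat_lit 3202477072106) (nat_lit 1) (nat_lit 4) (nat_lit 2) (nat_lit 5) (nat_lit 2) (nat_lit 4) (nat_lit 333) (nat_lit 233) (nat_lit 214)) (XT.lf (nat_lit 0) (nat_lit 25191733174796) (nat_lit 76) (nat_lit 3682761556203) (nat_lit 76) (nat_lit 3682596848603) (nat_lit 1) (nat_lit 4) (nat_lit 2) (nat_lit 5) (nat_lit 2) (nat_lit 4) (nat_lit 334) (nat_lit 233) (nat_lit 213))) (XT.nd (nat_lit 78) (nat_lit 0) (nat_lit 0) (XT.lf (nat_lit 0) (nat_lit 28970975734216) (nat_lit 76) (nat_lit 4234904909076) (nat_lit 76) (nat_lit 4234738803399) (nat_lit 1)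 (nat_lit 4) (nat_lit 2) (nat_lit 5) (nat_lit 2) (nat_lit 4) (nat_lit 335) (nat_lit 233) (nat_lit 212)) (XT.lf (nat_lit 0) (nat_lit 33317098224362) (nat_lit 76) (nat_lit 4869873035268) (nat_lit 76) (nat_lit 4869705713872) (nat_lit 1) (nat_lit 4) (nat_lit 2) (nat_lit 5) (nat_lit 2) (nat_lit 4) (nat_lit 336) (nat_lit 233) (nat_lit 211)))) (XT.nd (nat_lit 156) (nat_lit 0) (nat_lit 0) (XT.nd (nat_lit 78) (nat_lit 0) (nat_lit 0) (XT.lf (nat_lit 0) (nat_lit 38315133476564) (nat_lit 76) (nat_lit 5600089224204) (nat_lit 76) (nat_lit 5599920845661) (nat_lit 1) (nat_lit 4) (nat_lit 2) (nat_lit 5) (nat_lit 2) (nat_lit 4) (nat_lit 337) (nat_lit 233) (nat_lit 210)) (XT.lf (nat_lit 0) (nat_lit 44062869137060) (nat_lit 76) (nat_lit 6439840314364) (nat_lit 76) (nat_lit 6439671016562) (nat_lit 1) (nat_lit 4) (nat_lit 2) (nat_lit 5) (nat_lit 2) (nat_lit 4) (nat_lit 338) (nat_lit 233) (nat_lit 209))) (XT.nd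 (nat_lit 78) (nat_lit 0) (nat_lit 0) (XT.lf (nat_lit 0) (nat_lit 50672760903556) (nat_lit 76) (nat_lit 7405556218379) (nat_lit 76) (nat_lit 7405386121223) (nat_lit 1) (nat_lit 4) (nat_lit 2) (nat_lit 5) (nat_lit 2) (nat_lit 4) (nat_lit 339) (nat_lit 233) (nat_lit 208)) (XT.nd (nat_lit 78) (nat_lit 0) (nat_lit 0) (XT.lf (nat_lit 0) (nat_lit 58274132745396) (nat_lit 76) (nat_lit 8516131377852) (nat_lit 76) (nat_lit 8515960585605) (nat_lit 1) (nat_lit 4) (nat_lit 2) (nat_lit 5) (nat_lit 2) (nat_lit 4) (nat_lit 340) (nat_lit 233) (nat_lit 207)) (XT.lf (nat_lit 0) (nat_lit 67015707155138) (nat_lit 76) (nat_lit 9793294437207) (nat_lit 76) (nat_lit 9793123040532) (nat_lit 1) (nat_lit 4) (nat_lit 2) (nat_lit 5) (nat_lit 2) (nat_lit 4) (nat_lit 341) (nat_lit 233) (nat_lit 206)))))) (XT.nd (nat_lit 38532) (nat_lit 0) (nat_lit 0) (XT.nd (nat_lit 38376) (nat_lit 0) (nat_lit 0) (XT.nd (nat_lit 38298)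 (nat_lit 0) (nat_lit 0) (XT.lf (nat_lit 0) (nat_lit 77068514936450) (nat_lit 76) (nat_lit 11262033369343) (nat_lit 76) (nat_lit 11261861447079) (nat_lit 1) (nat_lit 4) (nat_lit 2) (nat_lit 5) (nat_lit 2) (nat_lit 4) (nat_lit 342) (nat_lit 233) (nat_lit 205)) (XT.lf (nat_lit 0) (nat_lit 578686729574) (nat_lit 76) (nat_lit 86816611085) (nat_lit 76) (nat_lit 86816611085) (nat_lit 1) (nat_lit 4) (nat_lit 2) (nat_lit 5) (nat_lit 2) (nat_lit 4) (nat_lit 312) (nat_lit 234) (nat_lit 234))) (XT.nd (nat_lit 78) (nat_lit 0) (nat_lit 0) (XT.lf (nat_lit 0) (nat_lit 1332408736967) (nat_lit 76) (nat_lit 198923615407) (nat_lit 76) (nat_lit 198897301479) (nat_lit 1) (nat_lit 4) (nat_lit 2) (nat_lit 5) (nat_lit 2) (nat_lit 4) (nat_lit 313) (nat_lit 234) (nat_lit 233)) (XT.lf (nat_lit 0) (nat_lit 1533577847693) (nat_lit 76) (nat_lit 228069121285) (nat_lit 76) (nat_lit 228019925680) (nat_lit 1) (nat_lit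 4) (nat_lit 2) (nat_lit 5) (nat_lit 2) (nat_lit 4) (nat_lit 314) (nat_lit 234) (nat_lit 232)))) (XT.nd (nat_lit 156) (nat_lit 0) (nat_lit 0) (XT.nd (nat_lit 78) (nat_lit 0) (nat_lit 0) (XT.lf (nat_lit 0) (nat_lit 1764816708712) (nat_lit 76) (nat_lit 261639977963) (nat_lit 76) (nat_lit 261570885248) (nat_lit 1) (nat_lit 4) (nat_lit 2) (nat_lit 5) (nat_lit 2) (nat_lit 4) (nat_lit 315) (nat_lit 234) (nat_lit 231)) (XT.lf (nat_lit 0) (nat_lit 2030649558608) (nat_lit 76) (nat_lit 300293006551) (nat_lit 76) (nat_lit 300206612000) (nat_lit 1) (nat_lit 4) (nat_lit 2) (nat_lit 5) (nat_lit 2) (nat_lit 4) (nat_lit 316) (nat_lit 234) (nat_lit 230))) (XT.nd (nat_lit 78) (nat_lit 0) (nat_lit 0) (XT.lf (nat_lit 0) (nat_lit 2336277474879) (nat_lit 76) (nat_lit 344784461955) (nat_lit 76) (nat_lit 344683022330) (nat_lit 1) (nat_lit 4) (nat_lit 2) (nat_lit 5) (nat_lit 2) (nat_lit 4) (nat_lit 317) (nat_lit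 234) (nat_lit 229)) (XT.nd (nat_lit 78) (nat_lit 0) (nat_lit 0) (XT.lf (nat_lit 0) (nat_lit 2687680134149) (nat_lit 76) (nat_lit 395984829172) (nat_lit 76) (nat_lit 395870306874) (nat_lit 1) (nat_lit 4) (nat_lit 2) (nat_lit 5) (nat_lit 2) (nat_lit 4) (nat_lit 318) (nat_lit 234) (nat_lit 228)) (XT.lf (nat_lit 0) (nat_lit 3091732805837) (nat_lit 76) (nat_lit 454895854517) (nat_lit 76) (nat_lit 454769955982) (nat_lit 1) (nat_lit 4) (nat_lit 2) (nat_lit 5) (nat_lit 2) (nat_lit 4) (nat_lit 319) (nat_lit 234) (nat_lit 227))))))) (XT.nd (nat_lit 702) (nat_lit 0) (nat_lit 0) (XT.nd (nat_lit 312) (nat_lit 0) (nat_lit 0) (XT.nd (nat_lit 156) (nat_lit 0) (nat_lit 0) (XT.nd (nat_lit 78) (nat_lit 0) (nat_lit 0) (XT.lf (nat_lit 0) (nat_lit 3556340868303) (nat_lit 76) (nat_lit 522670145008) (nat_lit 76) (nat_lit 522534354093) (nat_lit 1) (nat_lit 4) (nat_lit 2) (nat_lit 5) (nat_lit 2) (nat_lit 4) (nat_lit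 320) (nat_lit 234) (nat_lit 226)) (XT.lf (nat_lit 0) (nat_lit 4090594479290) (nat_lit 76) (nat_lit 600633719373) (nat_lit 76) (nat_lit 600489326388) (nat_lit 1) (nat_lit 4) (nat_lit 2) (nat_lit 5) (nat_lit 2) (nat_lit 4) (nat_lit 321) (nat_lit 234) (nat_lit 225))) (XT.nd (nat_lit 78) (nat_lit 0) (nat_lit 0) (XT.lf (nat_lit 0) (nat_lit 4704946426841) (nat_lit 76) (nat_lit 690311951892) (nat_lit 76) (nat_lit 690160078845) (nat_lit 1) (nat_lit 4) (nat_lit 2) (nat_lit 5) (nat_lit 2) (nat_lit 4) (nat_lit 322) (nat_lit 234) (nat_lit 224)) (XT.lf (nat_lit 0) (nat_lit 5411416640362) (nat_lit 76) (nat_lit 793459416679) (nat_lit 76) (nat_lit 793301039232) (nat_lit 1) (nat_lit 4) (nat_lit 2) (nat_lit 5) (nat_lit 2) (nat_lit 4) (nat_lit 323) (nat_lit 234) (nat_lit 223)))) (XT.nd (nat_lit 156) (nat_lit 0) (nat_lit 0) (XT.nd (nat_lit 78) (nat_lit 0) (nat_lit 0) (XT.lf (nat_lit 0) (nat_lit 6223827363163)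 (nat_lit 76) (nat_lit 912094216307) (nat_lit 76) (nat_lit 911930182859) (nat_lit 1) (nat_lit 4) (nat_lit 2) (nat_lit 5) (nat_lit 2) (nat_lit 4) (nat_lit 324) (nat_lit 234) (nat_lit 222)) (XT.lf (nat_lit 0) (nat_lit 7158073587646) (nat_lit 76) (nat_lit 1048537466420) (nat_lit 76) (nat_lit 1048368514711) (nat_lit 1) (nat_lit 4) (nat_lit 2) (nat_lit 5) (nat_lit 2) (nat_lit 4) (nat_lit 325) (nat_lit 234) (nat_lit 221))) (XT.nd (nat_lit 78) (nat_lit 0) (nat_lit 0) (XT.lf (nat_lit 0) (nat_lit 8232434044289) (nat_lit 76) (nat_lit 1205458708869) (nat_lit 76) (nat_lit 1205285480411) (nat_lit 1) (nat_lit 4) (nat_lit 2) (nat_lit 5) (nat_lit 2) (nat_lit 4) (nat_lit 326) (nat_lit 234) (nat_lit 220)) (XT.nd (nat_lit 78) (nat_lit 0) (nat_lit 0) (XT.lf (nat_lit 0) (nat_lit 9467928828985) (nat_lit 76) (nat_lit 1385928141875) (nat_lit 76) (nat_lit 1385751194505) (nat_lit 1) (nat_lit 4) (nat_lit 2) (nat_lit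 5) (nat_lit 2) (nat_lit 4) (nat_lit 327) (nat_lit 234) (nat_lit 219)) (XT.lf (nat_lit 0) (nat_lit 10888730665781) (nat_lit 76) (nat_lit 1593476689127) (nat_lit 76) (nat_lit 1593296507920) (nat_lit 1) (nat_lit 4) (nat_lit 2) (nat_lit 5) (nat_lit 2) (nat_lit 4) (nat_lit 328) (nat_lit 234) (nat_lit 218)))))) (XT.nd (nat_lit 390) (nat_lit 0) (nat_lit 0) (XT.nd (nat_lit 156) (nat_lit 0) (nat_lit 0) (XT.nd (nat_lit 78) (nat_lit 0) (nat_lit 0) (XT.lf (nat_lit 0) (nat_lit 12522637851483) (nat_lit 76) (nat_lit 1832165083072) (nat_lit 76) (nat_lit 1831982089834) (nat_lit 1) (nat_lit 4) (nat_lit 2) (nat_lit 5) (nat_lit 2) (nat_lit 4) (nat_lit 329) (nat_lit 234) (nat_lit 217)) (XT.lf (nat_lit 0) (nat_lit 14401618135379) (nat_lit 76) (nat_lit 2106663314027) (nat_lit 76) (nat_lit 2106477875543) (nat_lit 1) (nat_lit 4) (nat_lit 2) (nat_lit 5) (nat_lit 2) (nat_lit 4) (nat_lit 330) (nat_lit 234) (nat_lit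 216))) (XT.nd (nat_lit 78) (nat_lit 0) (nat_lit 0) (XT.lf (nat_lit 0) (nat_lit 16562434175195) (nat_lit 76) (nat_lit 2422341999552) (nat_lit 76) (nat_lit 2422154434769) (nat_lit 1) (nat_lit 4) (nat_lit 2) (nat_lit 5) (nat_lit 2) (nat_lit 4) (nat_lit 331) (nat_lit 234) (nat_lit 215)) (XT.nd (nat_lit 78) (nat_lit 0) (nat_lit 0) (XT.lf (nat_lit 0) (nat_lit 19047362806494) (nat_lit 76) (nat_lit 2785377461757) (nat_lit 76) (nat_lit 2785188048017) (nat_lit 1) (nat_lit 4) (nat_lit 2) (nat_lit 5) (nat_lit 2) (nat_lit 4) (nat_lit 332) (nat_lit 234) (nat_lit 214)) (XT.lf (nat_lit 0) (nat_lit 21905022198148) (nat_lit 76) (nat_lit 3202872568381) (nat_lit 76) (nat_lit 3202681546852) (nat_lit 1) (nat_lit 4) (nat_lit 2) (nat_lit 5) (nat_lit 2) (nat_lit 4) (nat_lit 333) (nat_lit 234) (nat_lit 213))))) (XT.nd (nat_lit 156) (nat_lit 0) (nat_lit 0) (XT.nd (nat_lit 78) (nat_lit 0) (nat_lit 0) (XT.lf (nat_lit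 0) (nat_lit 25191323077387) (nat_lit 76) (nat_lit 3682995701943) (nat_lit 76) (nat_lit 3682803282337) (nat_lit 1) (nat_lit 4) (nat_lit 2) (nat_lit 5) (nat_lit 2) (nat_lit 4) (nat_lit 334) (nat_lit 234) (nat_lit 212)) (XT.lf (nat_lit 0) (nat_lit 28970562635325) (nat_lit 76) (nat_lit 4235140575927) (nat_lit 76) (nat_lit 4234946940602) (nat_lit 1) (nat_lit 4) (nat_lit 2) (nat_lit 5) (nat_lit 2) (nat_lit 4) (nat_lit 335) (nat_lit 234) (nat_lit 211))) (XT.nd (nat_lit 78) (nat_lit 0) (nat_lit 0) (XT.lf (nat_lit 0) (nat_lit 33316682515487) (nat_lit 76) (nat_lit 4870110024823) (nat_lit 76) (nat_lit 4869915332352) (nat_lit 1) (nat_lit 4) (nat_lit 2) (nat_lit 5) (nat_lit 2) (nat_lit 4) (nat_lit 336) (nat_lit 234) (nat_lit 210)) (XT.nd (nat_lit 78) (nat_lit 0) (nat_lit 0) (XT.lf (nat_lit 0) (nat_lit 38314715498137) (nat_lit 76) (nat_lit 5600327363937) (nat_lit 76) (nat_lit 5600131752208) (nat_lit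 1) (nat_lit 4) (nat_lit 2) (nat_lit 5) (nat_lit 2) (nat_lit 4) (nat_lit 337) (nat_lit 234) (nat_lit 209)) (XT.lf (nat_lit 0) (nat_lit 44062449185110) (nat_lit 76) (nat_lit 6440079454251) (nat_lit 76) (nat_lit 6439883043167) (nat_lit 1) (nat_lit 4) (nat_lit 2) (nat_lit 5) (nat_lit 2) (nat_lit 4) (nat_lit 338) (nat_lit 234) (nat_lit 208))))))))
noncomputable def xc8 : XT := (XT.nd (nat_lit 39312) (nat_lit 0) (nat_lit 0) (XT.nd (nat_lit 38610) (nat_lit 0) (nat_lit 0) (XT.nd (nat_lit 1248) (nat_lit 0) (nat_lit 0) (XT.nd (nat_lit 156) (nat_lit 0) (nat_lit 0) (XT.nd (nat_lit 78) (nat_lit 0) (nat_lit 0) (XT.lf (nat_lit 0) (nat_lit 50672339235499) (nat_lit 76) (nat_lit 7405796227967) (nat_lit 76) (nat_lit 7405599121791) (nat_lit 1) (nat_lit 4) (nat_lit 2) (nat_lit 5) (nat_lit 2) (nat_lit 4) (nat_lit 339) (nat_lit 234) (nat_lit 207)) (XT.lf (nat_lit 0) (nat_lit 58273709585072) (nat_lit 76) (nat_lit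 8516372143701) (nat_lit 76) (nat_lit 8516174433097) (nat_lit 1) (nat_lit 4) (nat_lit 2) (nat_lit 5) (nat_lit 2) (nat_lit 4) (nat_lit 340) (nat_lit 234) (nat_lit 206))) (XT.nd (nat_lit 78) (nat_lit 0) (nat_lit 0) (XT.lf (nat_lit 0) (nat_lit 67015282697190) (nat_lit 76) (nat_lit 9793535860673) (nat_lit 76) (nat_lit 9793337624481) (nat_lit 1) (nat_lit 4) (nat_lit 2) (nat_lit 5) (nat_lit 2) (nat_lit 4) (nat_lit 341) (nat_lit 234) (nat_lit 205)) (XT.lf (nat_lit 0) (nat_lit 77068089350134) (nat_lit 76) (nat_lit 11262275364651) (nat_lit 76) (nat_lit 11262076671425) (nat_lit 1) (nat_lit 4) (nat_lit 2) (nat_lit 5) (nat_lit 2) (nat_lit 4) (nat_lit 342) (nat_lit 234) (nat_lit 204)))) (XT.nd (nat_lit 37128) (nat_lit 0) (nat_lit 0) (XT.nd (nat_lit 78) (nat_lit 0) (nat_lit 0) (XT.lf (nat_lit 0) (nat_lit 474200996394364) (nat_lit 76) (nat_lit 69284525651441) (nat_lit 76) (nat_lit 69284324406528) (nat_lit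 1) (nat_lit 4) (nat_lit 2) (nat_lit 5) (nat_lit 2) (nat_lit 4) (nat_lit 355) (nat_lit 234) (nat_lit 191)) (XT.lf (nat_lit 0) (nat_lit 545331646214354) (nat_lit 76) (nat_lit 79676920662047) (nat_lit 76) (nat_lit 79676719352542) (nat_lit 1) (nat_lit 4) (nat_lit 2) (nat_lit 5) (nat_lit 2) (nat_lit 4) (nat_lit 356) (nat_lit 234) (nat_lit 190))) (XT.nd (nat_lit 78) (nat_lit 0) (nat_lit 0) (XT.lf (nat_lit 0) (nat_lit 436262505735) (nat_lit 76) (nat_lit 66348334415) (nat_lit 76) (nat_lit 66348334415) (nat_lit 1) (nat_lit 4) (nat_lit 2) (nat_lit 5) (nat_lit 2) (nat_lit 4) (nat_lit 310) (nat_lit 235) (nat_lit 235)) (XT.nd (nat_lit 78) (nat_lit 0) (nat_lit 0) (XT.lf (nat_lit 0) (nat_lit 1005047410978) (nat_lit 76) (nat_lit 151733390552) (nat_lit 76) (nat_lit 151703129535) (nat_lit 1) (nat_lit 4) (nat_lit 2) (nat_lit 5) (nat_lit 2) (nat_lit 4) (nat_lit 311) (nat_lit 235) (nat_lit 234)) (XT.lf (nat_lit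 0) (nat_lit 1157308492834) (nat_lit 76) (nat_lit 173696407237) (nat_lit 76) (nat_lit 173639832291) (nat_lit 1) (nat_lit 4) (nat_lit 2) (nat_lit 5) (nat_lit 2) (nat_lit 4) (nat_lit 312) (nat_lit 235) (nat_lit 233)))))) (XT.nd (nat_lit 312) (nat_lit 0) (nat_lit 0) (XT.nd (nat_lit 156) (nat_lit 0) (nat_lit 0) (XT.nd (nat_lit 78) (nat_lit 0) (nat_lit 0) (XT.lf (nat_lit 0) (nat_lit 1332287278203) (nat_lit 76) (nat_lit 199015430081) (nat_lit 76) (nat_lit 198935973458) (nat_lit 1) (nat_lit 4) (nat_lit 2) (nat_lit 5) (nat_lit 2) (nat_lit 4) (nat_lit 313) (nat_lit 235) (nat_lit 232)) (XT.lf (nat_lit 0) (nat_lit 1533407265061) (nat_lit 76) (nat_lit 228185831270) (nat_lit 76) (nat_lit 228086477537) (nat_lit 1) (nat_lit 4) (nat_lit 2) (nat_lit 5) (nat_lit 2) (nat_lit 4) (nat_lit 314) (nat_lit 235) (nat_lit 231))) (XT.nd (nat_lit 78) (nat_lit 0) (nat_lit 0) (XT.lf (nat_lit 0) (nat_lit 1764603409672)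 (nat_lit 76) (nat_lit 261778336045) (nat_lit 76) (nat_lit 261661680476) (nat_lit 1) (nat_lit 4) (nat_lit 2) (nat_lit 5) (nat_lit 2) (nat_lit 4) (nat_lit 315) (nat_lit 235) (nat_lit 230)) (XT.lf (nat_lit 0) (nat_lit 2030399114867) (nat_lit 76) (nat_lit 300450189064) (nat_lit 76) (nat_lit 300318488422) (nat_lit 1) (nat_lit 4) (nat_lit 2) (nat_lit 5) (nat_lit 2) (nat_lit 4) (nat_lit 316) (nat_lit 235) (nat_lit 229)))) (XT.nd (nat_lit 156) (nat_lit 0) (nat_lit 0) (XT.nd (nat_lit 78) (nat_lit 0) (nat_lit 0) (XT.lf (nat_lit 0) (nat_lit 2335994731397) (nat_lit 76) (nat_lit 344958013539) (nat_lit 76) (nat_lit 344813230223) (nat_lit 1) (nat_lit 4) (nat_lit 2) (nat_lit 5) (nat_lit 2) (nat_lit 4) (nat_lit 317) (nat_lit 235) (nat_lit 228)) (XT.lf (nat_lit 0) (nat_lit 2687369303936) (nat_lit 76) (nat_lit 396172614730) (nat_lit 76) (nat_lit 396016455178) (nat_lit 1) (nat_lit 4) (nat_lit 2) (nat_lit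 5) (nat_lit 2) (nat_lit 4) (nat_lit 318) (nat_lit 235) (nat_lit 227))) (XT.nd (nat_lit 78) (nat_lit 0) (nat_lit 0) (XT.lf (nat_lit 0) (nat_lit 3091397552379) (nat_lit 76) (nat_lit 455096017445) (nat_lit 76) (nat_lit 454929965512) (nat_lit 1) (nat_lit 4) (nat_lit 2) (nat_lit 5) (nat_lit 2) (nat_lit 4) (nat_lit 319) (nat_lit 235) (nat_lit 226)) (XT.nd (nat_lit 78) (nat_lit 0) (nat_lit 0) (XT.lf (nat_lit 0) (nat_lit 3555984377242) (nat_lit 76) (nat_lit 522881070867) (nat_lit 76) (nat_lit 522706416864) (nat_lit 1) (nat_lit 4) (nat_lit 2) (nat_lit 5) (nat_lit 2) (nat_lit 4) (nat_lit 320) (nat_lit 235) (nat_lit 225)) (XT.lf (nat_lit 0) (nat_lit 4090219520747) (nat_lit 76) (nat_lit 600854004301) (nat_lit 76) (nat_lit 600671870237) (nat_lit 1) (nat_lit 4) (nat_lit 2) (nat_lit 5) (nat_lit 2) (nat_lit 4) (nat_lit 321) (nat_lit 235) (nat_lit 224))))))) (XT.nd (nat_lit 702) (nat_lit 0) (nat_lit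 0) (XT.nd (nat_lit 312) (nat_lit 0) (nat_lit 0) (XT.nd (nat_lit 156) (nat_lit 0) (nat_lit 0) (XT.nd (nat_lit 78) (nat_lit 0) (nat_lit 0) (XT.lf (nat_lit 0) (nat_lit 4704555409618) (nat_lit 76) (nat_lit 690540375141) (nat_lit 76) (nat_lit 690351736676) (nat_lit 1) (nat_lit 4) (nat_lit 2) (nat_lit 5) (nat_lit 2) (nat_lit 4) (nat_lit 322) (nat_lit 235) (nat_lit 223)) (XT.lf (nat_lit 0) (nat_lit 5411011659070) (nat_lit 76) (nat_lit 793694916729) (nat_lit 76) (nat_lit 793500622264) (nat_lit 1) (nat_lit 4) (nat_lit 2) (nat_lit 5) (nat_lit 2) (nat_lit 4) (nat_lit 323) (nat_lit 235) (nat_lit 222))) (XT.nd (nat_lit 78) (nat_lit 0) (nat_lit 0) (XT.lf (nat_lit 0) (nat_lit 6223410239202) (nat_lit 76) (nat_lit 912335870097) (nat_lit 76) (nat_lit 912136657371) (nat_lit 1) (nat_lit 4) (nat_lit 2) (nat_lit 5) (nat_lit 2) (nat_lit 4) (nat_lit 324) (nat_lit 235) (nat_lit 221)) (XT.lf (nat_lit 0) (nat_lit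 7157645904842) (nat_lit 76) (nat_lit 1048784471289) (nat_lit 76) (nat_lit 1048580981813) (nat_lit 1) (nat_lit 4) (nat_lit 2) (nat_lit 5) (nat_lit 2) (nat_lit 4) (nat_lit 325) (nat_lit 235) (nat_lit 220)))) (XT.nd (nat_lit 156) (nat_lit 0) (nat_lit 0) (XT.nd (nat_lit 78) (nat_lit 0) (nat_lit 0) (XT.lf (nat_lit 0) (nat_lit 8231997179884) (nat_lit 76) (nat_lit 1205710366849) (nat_lit 76) (nat_lit 1205503158461) (nat_lit 1) (nat_lit 4) (nat_lit 2) (nat_lit 5) (nat_lit 2) (nat_lit 4) (nat_lit 326) (nat_lit 235) (nat_lit 219)) (XT.lf (nat_lit 0) (nat_lit 9467483980578) (nat_lit 76) (nat_lit 1386183846039) (nat_lit 76) (nat_lit 1385973403815) (nat_lit 1) (nat_lit 4) (nat_lit 2) (nat_lit 5) (nat_lit 2) (nat_lit 4) (nat_lit 327) (nat_lit 235) (nat_lit 218))) (XT.nd (nat_lit 78) (nat_lit 0) (nat_lit 0) (XT.lf (nat_lit 0) (nat_lit 10888278874763) (nat_lit 76) (nat_lit 1593735911712) (nat_lit 76)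 (nat_lit 1593522657456) (nat_lit 1) (nat_lit 4) (nat_lit 2) (nat_lit 5) (nat_lit 2) (nat_lit 4) (nat_lit 328) (nat_lit 235) (nat_lit 217)) (XT.nd (nat_lit 78) (nat_lit 0) (nat_lit 0) (XT.lf (nat_lit 0) (nat_lit 12522180023413) (nat_lit 76) (nat_lit 1832427365154) (nat_lit 76) (nat_lit 1832211665653) (nat_lit 1) (nat_lit 4) (nat_lit 2) (nat_lit 5) (nat_lit 2) (nat_lit 4) (nat_lit 329) (nat_lit 235) (nat_lit 216)) (XT.lf (nat_lit 0) (nat_lit 14401155057698) (nat_lit 76) (nat_lit 2106928256540) (nat_lit 76) (nat_lit 2106710430739) (nat_lit 1) (nat_lit 4) (nat_lit 2) (nat_lit 5) (nat_lit 2) (nat_lit 4) (nat_lit 330) (nat_lit 235) (nat_lit 215)))))) (XT.nd (nat_lit 312) (nat_lit 0) (nat_lit 0) (XT.nd (nat_lit 156) (nat_lit 0) (nat_lit 0) (XT.nd (nat_lit 78) (nat_lit 0) (nat_lit 0) (XT.lf (nat_lit 0) (nat_lit 16561966532635) (nat_lit 76) (nat_lit 2422609255485) (nat_lit 76) (nat_lit 2422389580726)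 (nat_lit 1) (nat_lit 4) (nat_lit 2) (nat_lit 5) (nat_lit 2) (nat_lit 4) (nat_lit 331) (nat_lit 235) (nat_lit 214)) (XT.lf (nat_lit 0) (nat_lit 19046891194474) (nat_lit 76) (nat_lit 2785646729358) (nat_lit 76) (nat_lit 2785425446812) (nat_lit 1) (nat_lit 4) (nat_lit 2) (nat_lit 5) (nat_lit 2) (nat_lit 4) (nat_lit 332) (nat_lit 235) (nat_lit 213))) (XT.nd (nat_lit 78) (nat_lit 0) (nat_lit 0) (XT.lf (nat_lit 0) (nat_lit 21904547134424) (nat_lit 76) (nat_lit 3203143585258) (nat_lit 76) (nat_lit 3202920904635) (nat_lit 1) (nat_lit 4) (nat_lit 2) (nat_lit 5) (nat_lit 2) (nat_lit 4) (nat_lit 333) (nat_lit 235) (nat_lit 212)) (XT.lf (nat_lit 0) (nat_lit 25190845012180) (nat_lit 76) (nat_lit 3683268239931) (nat_lit 76) (nat_lit 3683044343589) (nat_lit 1) (nat_lit 4) (nat_lit 2) (nat_lit 5) (nat_lit 2) (nat_lit 4) (nat_lit 334) (nat_lit 235) (nat_lit 211)))) (XT.nd (nat_lit 156) (nat_lit 0) (nat_lit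 0) (XT.nd (nat_lit 78) (nat_lit 0) (nat_lit 0) (XT.lf (nat_lit 0) (nat_lit 28970081960134) (nat_lit 76) (nat_lit 4235414436620) (nat_lit 76) (nat_lit 4235189483130) (nat_lit 1) (nat_lit 4) (nat_lit 2) (nat_lit 5) (nat_lit 2) (nat_lit 4) (nat_lit 335) (nat_lit 235) (nat_lit 210)) (XT.lf (nat_lit 0) (nat_lit 33316199570744) (nat_lit 76) (nat_lit 4870385035694) (nat_lit 76) (nat_lit 4870159162947) (nat_lit 1) (nat_lit 4) (nat_lit 2) (nat_lit 5) (nat_lit 2) (nat_lit 4) (nat_lit 336) (nat_lit 235) (nat_lit 209))) (XT.nd (nat_lit 78) (nat_lit 0) (nat_lit 0) (XT.lf (nat_lit 0) (nat_lit 38314230579871) (nat_lit 76) (nat_lit 5600603374963) (nat_lit 76) (nat_lit 5600376702861) (nat_lit 1) (nat_lit 4) (nat_lit 2) (nat_lit 5) (nat_lit 2) (nat_lit 4) (nat_lit 337) (nat_lit 235) (nat_lit 208)) (XT.nd (nat_lit 78) (nat_lit 0) (nat_lit 0) (XT.lf (nat_lit 0) (nat_lit 44061962550737) (nat_lit 76) (nat_lit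 6440356334977) (nat_lit 76) (nat_lit 6440128967783) (nat_lit 1) (nat_lit 4) (nat_lit 2) (nat_lit 5) (nat_lit 2) (nat_lit 4) (nat_lit 338) (nat_lit 235) (nat_lit 207)) (XT.lf (nat_lit 0) (nat_lit 50671851108859) (nat_lit 76) (nat_lit 7406073864953) (nat_lit 76) (nat_lit 7405845893332) (nat_lit 1) (nat_lit 4) (nat_lit 2) (nat_lit 5) (nat_lit 2) (nat_lit 4) (nat_lit 339) (nat_lit 235) (nat_lit 206))))))))
noncomputable def xc9 : XT := (XT.nd (nat_lit 39156) (nat_lit 0) (nat_lit 0) (XT.nd (nat_lit 38454) (nat_lit 0) (nat_lit 0) (XT.nd (nat_lit 1248) (nat_lit 0) (nat_lit 0) (XT.nd (nat_lit 1092) (nat_lit 0) (nat_lit 0) (XT.nd (nat_lit 78) (nat_lit 0) (nat_lit 0) (XT.lf (nat_lit 0) (nat_lit 58273220160808) (nat_lit 76) (nat_lit 8516650438305) (nat_lit 76) (nat_lit 8516421941095) (nat_lit 1) (nat_lit 4) (nat_lit 2) (nat_lit 5) (nat_lit 2) (nat_lit 4) (nat_lit 340) (nat_lit 235) (nat_lit 205))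 (XT.lf (nat_lit 0) (nat_lit 67014792144558) (nat_lit 76) (nat_lit 9793814727119) (nat_lit 76) (nat_lit 9793585772875) (nat_lit 1) (nat_lit 4) (nat_lit 2) (nat_lit 5) (nat_lit 2) (nat_lit 4) (nat_lit 341) (nat_lit 235) (nat_lit 204))) (XT.nd (nat_lit 78) (nat_lit 0) (nat_lit 0) (XT.lf (nat_lit 0) (nat_lit 412347760269841) (nat_lit 76) (nat_lit 60247942635044) (nat_lit 76) (nat_lit 60247711129114) (nat_lit 1) (nat_lit 4) (nat_lit 2) (nat_lit 5) (nat_lit 2) (nat_lit 4) (nat_lit 354) (nat_lit 235) (nat_lit 191)) (XT.lf (nat_lit 0) (nat_lit 474200499382415) (nat_lit 76) (nat_lit 69284807791381) (nat_lit 76) (nat_lit 69284576220859) (nat_lit 1) (nat_lit 4) (nat_lit 2) (nat_lit 5) (nat_lit 2) (nat_lit 4) (nat_lit 355) (nat_lit 235) (nat_lit 190)))) (XT.nd (nat_lit 36972) (nat_lit 0) (nat_lit 0) (XT.nd (nat_lit 36894) (nat_lit 0) (nat_lit 0) (XT.lf (nat_lit 0) (nat_lit 545331149063735) (nat_lit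 76) (nat_lit 79677202872264) (nat_lit 76) (nat_lit 79676971245573) (nat_lit 1) (nat_lit 4) (nat_lit 2) (nat_lit 5) (nat_lit 2) (nat_lit 4) (nat_lit 356) (nat_lit 235) (nat_lit 189)) (XT.lf (nat_lit 0) (nat_lit 328373160782) (nat_lit 76) (nat_lit 50976752189) (nat_lit 76) (nat_lit 50976752189) (nat_lit 1) (nat_lit 4) (nat_lit 2) (nat_lit 5) (nat_lit 2) (nat_lit 4) (nat_lit 308) (nat_lit 236) (nat_lit 236))) (XT.nd (nat_lit 78) (nat_lit 0) (nat_lit 0) (XT.lf (nat_lit 0) (nat_lit 757148464755) (nat_lit 76) (nat_lit 116248584643) (nat_lit 76) (nat_lit 116213784473) (nat_lit 1) (nat_lit 4) (nat_lit 2) (nat_lit 5) (nat_lit 2) (nat_lit 4) (nat_lit 309) (nat_lit 236) (nat_lit 235)) (XT.nd (nat_lit 78) (nat_lit 0) (nat_lit 0) (XT.lf (nat_lit 0) (nat_lit 872450300208) (nat_lit 76) (nat_lit 132769331657) (nat_lit 76) (nat_lit 132704270469) (nat_lit 1) (nat_lit 4) (nat_lit 2) (nat_lit 5) (nat_lit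 2) (nat_lit 4) (nat_lit 310) (nat_lit 236) (nat_lit 234)) (XT.lf (nat_lit 0) (nat_lit 1004907733400) (nat_lit 76) (nat_lit 151838977428) (nat_lit 76) (nat_lit 151747602311) (nat_lit 1) (nat_lit 4) (nat_lit 2) (nat_lit 5) (nat_lit 2) (nat_lit 4) (nat_lit 311) (nat_lit 236) (nat_lit 233)))))) (XT.nd (nat_lit 312) (nat_lit 0) (nat_lit 0) (XT.nd (nat_lit 156) (nat_lit 0) (nat_lit 0) (XT.nd (nat_lit 78) (nat_lit 0) (nat_lit 0) (XT.lf (nat_lit 0) (nat_lit 1157112322806) (nat_lit 76) (nat_lit 173830623720) (nat_lit 76) (nat_lit 173716366927) (nat_lit 1) (nat_lit 4) (nat_lit 2) (nat_lit 5) (nat_lit 2) (nat_lit 4) (nat_lit 312) (nat_lit 236) (nat_lit 232)) (XT.lf (nat_lit 0) (nat_lit 1332041984308) (nat_lit 76) (nat_lit 199174541875) (nat_lit 76) (nat_lit 199040387971) (nat_lit 1) (nat_lit 4) (nat_lit 2) (nat_lit 5) (nat_lit 2) (nat_lit 4) (nat_lit 313) (nat_lit 236) (nat_lit 231))) (XT.nd (nat_lit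 78) (nat_lit 0) (nat_lit 0) (XT.lf (nat_lit 0) (nat_lit 1533119254758) (nat_lit 76) (nat_lit 228366591160) (nat_lit 76) (nat_lit 228215135421) (nat_lit 1) (nat_lit 4) (nat_lit 2) (nat_lit 5) (nat_lit 2) (nat_lit 4) (nat_lit 314) (nat_lit 236) (nat_lit 230)) (XT.lf (nat_lit 0) (nat_lit 1764278254668) (nat_lit 76) (nat_lit 261977920367) (nat_lit 76) (nat_lit 261811419554) (nat_lit 1) (nat_lit 4) (nat_lit 2) (nat_lit 5) (nat_lit 2) (nat_lit 4) (nat_lit 315) (nat_lit 236) (nat_lit 229)))) (XT.nd (nat_lit 156) (nat_lit 0) (nat_lit 0) (XT.nd (nat_lit 78) (nat_lit 0) (nat_lit 0) (XT.lf (nat_lit 0) (nat_lit 2030041660121) (nat_lit 76) (nat_lit 300666142457) (nat_lit 76) (nat_lit 300486558971) (nat_lit 1) (nat_lit 4) (nat_lit 2) (nat_lit 5) (nat_lit 2) (nat_lit 4) (nat_lit 316) (nat_lit 236) (nat_lit 228)) (XT.lf (nat_lit 0) (nat_lit 2335609189921) (nat_lit 76) (nat_lit 345188200906) (nat_lit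 76) (nat_lit 344997241183) (nat_lit 1) (nat_lit 4) (nat_lit 2) (nat_lit 5) (nat_lit 2) (nat_lit 4) (nat_lit 317) (nat_lit 236) (nat_lit 227))) (XT.nd (nat_lit 78) (nat_lit 0) (nat_lit 0) (XT.lf (nat_lit 0) (nat_lit 2686959339215) (nat_lit 76) (nat_lit 396415179468) (nat_lit 76) (nat_lit 396214327364) (nat_lit 1) (nat_lit 4) (nat_lit 2) (nat_lit 5) (nat_lit 2) (nat_lit 4) (nat_lit 318) (nat_lit 236) (nat_lit 226)) (XT.nd (nat_lit 78) (nat_lit 0) (nat_lit 0) (XT.lf (nat_lit 0) (nat_lit 3090966350055) (nat_lit 76) (nat_lit 455349345112) (nat_lit 76) (nat_lit 455139890939) (nat_lit 1) (nat_lit 4) (nat_lit 2) (nat_lit 5) (nat_lit 2) (nat_lit 4) (nat_lit 319) (nat_lit 236) (nat_lit 225)) (XT.lf (nat_lit 0) (nat_lit 3555534707436) (nat_lit 76) (nat_lit 523143757603) (nat_lit 76) (nat_lit 522926823369) (nat_lit 1) (nat_lit 4) (nat_lit 2) (nat_lit 5) (nat_lit 2) (nat_lit 4) (nat_lit 320) (nat_lit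 236) (nat_lit 224))))))) (XT.nd (nat_lit 702) (nat_lit 0) (nat_lit 0) (XT.nd (nat_lit 312) (nat_lit 0) (nat_lit 0) (XT.nd (nat_lit 156) (nat_lit 0) (nat_lit 0) (XT.nd (nat_lit 78) (nat_lit 0) (nat_lit 0) (XT.lf (nat_lit 0) (nat_lit 4089753792262) (nat_lit 76) (nat_lit 601124829359) (nat_lit 76) (nat_lit 600901390724) (nat_lit 1) (nat_lit 4) (nat_lit 2) (nat_lit 5) (nat_lit 2) (nat_lit 4) (nat_lit 321) (nat_lit 236) (nat_lit 223)) (XT.lf (nat_lit 0) (nat_lit 4704075717063) (nat_lit 76) (nat_lit 690818277000) (nat_lit 76) (nat_lit 690589182364) (nat_lit 1) (nat_lit 4) (nat_lit 2) (nat_lit 5) (nat_lit 2) (nat_lit 4) (nat_lit 322) (nat_lit 236) (nat_lit 222))) (XT.nd (nat_lit 78) (nat_lit 0) (nat_lit 0) (XT.lf (nat_lit 0) (nat_lit 5410519823846) (nat_lit 76) (nat_lit 793978972328) (nat_lit 76) (nat_lit 793744959431) (nat_lit 1) (nat_lit 4) (nat_lit 2) (nat_lit 5) (nat_lit 2) (nat_lit 4)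 (nat_lit 323) (nat_lit 236) (nat_lit 221)) (XT.lf (nat_lit 0) (nat_lit 6222907845136) (nat_lit 76) (nat_lit 912625276774) (nat_lit 76) (nat_lit 912386987129) (nat_lit 1) (nat_lit 4) (nat_lit 2) (nat_lit 5) (nat_lit 2) (nat_lit 4) (nat_lit 324) (nat_lit 236) (nat_lit 220)))) (XT.nd (nat_lit 156) (nat_lit 0) (nat_lit 0) (XT.nd (nat_lit 78) (nat_lit 0) (nat_lit 0) (XT.lf (nat_lit 0) (nat_lit 7157134329174) (nat_lit 76) (nat_lit 1049078531078) (nat_lit 76) (nat_lit 1048836522520) (nat_lit 1) (nat_lit 4) (nat_lit 2) (nat_lit 5) (nat_lit 2) (nat_lit 4) (nat_lit 325) (nat_lit 236) (nat_lit 219)) (XT.lf (nat_lit 0) (nat_lit 8231477620213) (nat_lit 76) (nat_lit 1206008472822) (nat_lit 76) (nat_lit 1205763230427) (nat_lit 1) (nat_lit 4) (nat_lit 2) (nat_lit 5) (nat_lit 2) (nat_lit 4) (nat_lit 326) (nat_lit 236) (nat_lit 218))) (XT.nd (nat_lit 78) (nat_lit 0) (nat_lit 0) (XT.lf (nat_lit 0) (nat_lit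 9466957478297) (nat_lit 76) (nat_lit 1386485470433) (nat_lit 76) (nat_lit 1386237416006) (nat_lit 1) (nat_lit 4) (nat_lit 2) (nat_lit 5) (nat_lit 2) (nat_lit 4) (nat_lit 327) (nat_lit 236) (nat_lit 217)) (XT.nd (nat_lit 78) (nat_lit 0) (nat_lit 0) (XT.lf (nat_lit 0) (nat_lit 10887746335429) (nat_lit 76) (nat_lit 1594040595603) (nat_lit 76) (nat_lit 1593790095931) (nat_lit 1) (nat_lit 4) (nat_lit 2) (nat_lit 5) (nat_lit 2) (nat_lit 4) (nat_lit 328) (nat_lit 236) (nat_lit 216)) (XT.lf (nat_lit 0) (nat_lit 12521642234469) (nat_lit 76) (nat_lit 1832734709476) (nat_lit 76) (nat_lit 1832482083504) (nat_lit 1) (nat_lit 4) (nat_lit 2) (nat_lit 5) (nat_lit 2) (nat_lit 4) (nat_lit 329) (nat_lit 236) (nat_lit 215)))))) (XT.nd (nat_lit 390) (nat_lit 0) (nat_lit 0) (XT.nd (nat_lit 156) (nat_lit 0) (nat_lit 0) (XT.nd (nat_lit 78) (nat_lit 0) (nat_lit 0) (XT.lf (nat_lit 0) (nat_lit 14400612703874)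 (nat_lit 76) (nat_lit 2107237914281) (nat_lit 76) (nat_lit 2106983439353) (nat_lit 1) (nat_lit 4) (nat_lit 2) (nat_lit 5) (nat_lit 2) (nat_lit 4) (nat_lit 330) (nat_lit 236) (nat_lit 214)) (XT.lf (nat_lit 0) (nat_lit 16561420209352) (nat_lit 76) (nat_lit 2422920924894) (nat_lit 76) (nat_lit 2422664842177) (nat_lit 1) (nat_lit 4) (nat_lit 2) (nat_lit 5) (nat_lit 2) (nat_lit 4) (nat_lit 331) (nat_lit 236) (nat_lit 213))) (XT.nd (nat_lit 78) (nat_lit 0) (nat_lit 0) (XT.lf (nat_lit 0) (nat_lit 19046341419486) (nat_lit 76) (nat_lit 2785960148045) (nat_lit 76) (nat_lit 2785702667251) (nat_lit 1) (nat_lit 4) (nat_lit 2) (nat_lit 5) (nat_lit 2) (nat_lit 4) (nat_lit 332) (nat_lit 236) (nat_lit 212)) (XT.nd (nat_lit 78) (nat_lit 0) (nat_lit 0) (XT.lf (nat_lit 0) (nat_lit 21903994357954) (nat_lit 76) (nat_lit 3203458525055) (nat_lit 76) (nat_lit 3203199828543) (nat_lit 1) (nat_lit 4) (nat_lit 2)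 (nat_lit 5) (nat_lit 2) (nat_lit 4) (nat_lit 333) (nat_lit 236) (nat_lit 211)) (XT.lf (nat_lit 0) (nat_lit 25190289625726) (nat_lit 76) (nat_lit 3683584502433) (nat_lit 76) (nat_lit 3683324748773) (nat_lit 1) (nat_lit 4) (nat_lit 2) (nat_lit 5) (nat_lit 2) (nat_lit 4) (nat_lit 334) (nat_lit 236) (nat_lit 210))))) (XT.nd (nat_lit 156) (nat_lit 0) (nat_lit 0) (XT.nd (nat_lit 78) (nat_lit 0) (nat_lit 0) (XT.lf (nat_lit 0) (nat_lit 28969524304128) (nat_lit 76) (nat_lit 4235731849299) (nat_lit 76) (nat_lit 4235471176381) (nat_lit 1) (nat_lit 4) (nat_lit 2) (nat_lit 5) (nat_lit 2) (nat_lit 4) (nat_lit 335) (nat_lit 236) (nat_lit 209)) (XT.lf (nat_lit 0) (nat_lit 33315639941215) (nat_lit 76) (nat_lit 4870703448529) (nat_lit 76) (nat_lit 4870441976256) (nat_lit 1) (nat_lit 4) (nat_lit 2) (nat_lit 5) (nat_lit 2) (nat_lit 4) (nat_lit 336) (nat_lit 236) (nat_lit 208))) (XT.nd (nat_lit 78) (nat_lit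 0) (nat_lit 0) (XT.lf (nat_lit 0) (nat_lit 38313669234235) (nat_lit 76) (nat_lit 5600922657497) (nat_lit 76) (nat_lit 5600660490133) (nat_lit 1) (nat_lit 4) (nat_lit 2) (nat_lit 5) (nat_lit 2) (nat_lit 4) (nat_lit 337) (nat_lit 236) (nat_lit 207)) (XT.nd (nat_lit 78) (nat_lit 0) (nat_lit 0) (XT.lf (nat_lit 0) (nat_lit 44061399712834) (nat_lit 76) (nat_lit 6440676373772) (nat_lit 76) (nat_lit 6440413601981) (nat_lit 1) (nat_lit 4) (nat_lit 2) (nat_lit 5) (nat_lit 2) (nat_lit 4) (nat_lit 338) (nat_lit 236) (nat_lit 206)) (XT.lf (nat_lit 0) (nat_lit 50671286973332) (nat_lit 76) (nat_lit 7406394561366) (nat_lit 76) (nat_lit 7406131263986) (nat_lit 1) (nat_lit 4) (nat_lit 2) (nat_lit 5) (nat_lit 2) (nat_lit 4) (nat_lit 339) (nat_lit 236) (nat_lit 205))))))))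
noncomputable def xc10 : XT := (XT.nd (nat_lit 38922) (nat_lit 0) (nat_lit 0) (XT.nd (nat_lit 38220) (nat_lit 0) (nat_lit 0) (XT.nd (nat_lit 1170) (nat_lit 0) (nat_lit 0) (XT.nd (nat_lit 1014) (nat_lit 0) (nat_lit 0) (XT.nd (nat_lit 78) (nat_lit 0) (nat_lit 0) (XT.lf (nat_lit 0) (nat_lit 58272654896913) (nat_lit 76) (nat_lit 8516971706560) (nat_lit 76) (nat_lit 8516707952146) (nat_lit 1) (nat_lit 4) (nat_lit 2) (nat_lit 5) (nat_lit 2) (nat_lit 4) (nat_lit 340) (nat_lit 236) (nat_lit 204)) (XT.lf (nat_lit 0) (nat_lit 67014225899473) (nat_lit 76) (nat_lit 9794136492628) (nat_lit 76) (nat_lit 9793872340793) (nat_lit 1) (nat_lit 4) (nat_lit 2) (nat_lit 5) (nat_lit 2) (nat_lit 4) (nat_lit 341) (nat_lit 236) (nat_lit 203))) (XT.nd (nat_lit 78) (nat_lit 0) (nat_lit 0) (XT.lf (nat_lit 0) (nat_lit 358562197875286) (nat_lit 76) (nat_lit 52390123632863) (nat_lit 76) (nat_lit 52389857326762) (nat_lit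 1) (nat_lit 4) (nat_lit 2) (nat_lit 5) (nat_lit 2) (nat_lit 4) (nat_lit 353) (nat_lit 236) (nat_lit 191)) (XT.lf (nat_lit 0) (nat_lit 412347188546629) (nat_lit 76) (nat_lit 60248267176793) (nat_lit 76) (nat_lit 60248000806100) (nat_lit 1) (nat_lit 4) (nat_lit 2) (nat_lit 5) (nat_lit 2) (nat_lit 4) (nat_lit 354) (nat_lit 236) (nat_lit 190)))) (XT.nd (nat_lit 36816) (nat_lit 0) (nat_lit 0) (XT.nd (nat_lit 78) (nat_lit 0) (nat_lit 0) (XT.lf (nat_lit 0) (nat_lit 474199927520533) (nat_lit 76) (nat_lit 69285132403407) (nat_lit 76) (nat_lit 69284865976547) (nat_lit 1) (nat_lit 4) (nat_lit 2) (nat_lit 5) (nat_lit 2) (nat_lit 4) (nat_lit 355) (nat_lit 236) (nat_lit 189)) (XT.lf (nat_lit 0) (nat_lit 545330577081270) (nat_lit 76) (nat_lit 79677527545398) (nat_lit 76) (nat_lit 79677261069698) (nat_lit 1) (nat_lit 4) (nat_lit 2) (nat_lit 5) (nat_lit 2) (nat_lit 4) (nat_lit 356) (nat_lit 236) (nat_lit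 188))) (XT.nd (nat_lit 78) (nat_lit 0) (nat_lit 0) (XT.lf (nat_lit 0) (nat_lit 246567720296) (nat_lit 76) (nat_lit 39474809526) (nat_lit 76) (nat_lit 39474809526) (nat_lit 1) (nat_lit 4) (nat_lit 2) (nat_lit 5) (nat_lit 2) (nat_lit 4) (nat_lit 306) (nat_lit 237) (nat_lit 237)) (XT.nd (nat_lit 78) (nat_lit 0) (nat_lit 0) (XT.lf (nat_lit 0) (nat_lit 569279480880) (nat_lit 76) (nat_lit 89644424709) (nat_lit 76) (nat_lit 89604404513) (nat_lit 1) (nat_lit 4) (nat_lit 2) (nat_lit 5) (nat_lit 2) (nat_lit 4) (nat_lit 307) (nat_lit 237) (nat_lit 236)) (XT.lf (nat_lit 0) (nat_lit 656660403612) (nat_lit 76) (nat_lit 102037066630) (nat_lit 76) (nat_lit 101962246264) (nat_lit 1) (nat_lit 4) (nat_lit 2) (nat_lit 5) (nat_lit 2) (nat_lit 4) (nat_lit 308) (nat_lit 237) (nat_lit 235)))))) (XT.nd (nat_lit 312) (nat_lit 0) (nat_lit 0) (XT.nd (nat_lit 156) (nat_lit 0) (nat_lit 0) (XT.nd (nat_lit 78) (nat_lit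 0) (nat_lit 0) (XT.lf (nat_lit 0) (nat_lit 756987835539) (nat_lit 76) (nat_lit 116370009550) (nat_lit 76) (nat_lit 116264928166) (nat_lit 1) (nat_lit 4) (nat_lit 2) (nat_lit 5) (nat_lit 2) (nat_lit 4) (nat_lit 309) (nat_lit 237) (nat_lit 234)) (XT.lf (nat_lit 0) (nat_lit 872224704676) (nat_lit 76) (nat_lit 132923680612) (nat_lit 76) (nat_lit 132792285300) (nat_lit 1) (nat_lit 4) (nat_lit 2) (nat_lit 5) (nat_lit 2) (nat_lit 4) (nat_lit 310) (nat_lit 237) (nat_lit 233))) (XT.nd (nat_lit 78) (nat_lit 0) (nat_lit 0) (XT.lf (nat_lit 0) (nat_lit 1004625645420) (nat_lit 76) (nat_lit 152021955990) (nat_lit 76) (nat_lit 151867679001) (nat_lit 1) (nat_lit 4) (nat_lit 2) (nat_lit 5) (nat_lit 2) (nat_lit 4) (nat_lit 311) (nat_lit 237) (nat_lit 232)) (XT.lf (nat_lit 0) (nat_lit 1156781110959) (nat_lit 76) (nat_lit 174038497594) (nat_lit 76) (nat_lit 173864323494) (nat_lit 1) (nat_lit 4) (nat_lit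 2) (nat_lit 5) (nat_lit 2) (nat_lit 4) (nat_lit 312) (nat_lit 237) (nat_lit 231)))) (XT.nd (nat_lit 156) (nat_lit 0) (nat_lit 0) (XT.nd (nat_lit 78) (nat_lit 0) (nat_lit 0) (XT.lf (nat_lit 0) (nat_lit 1331668056053) (nat_lit 76) (nat_lit 199404063845) (nat_lit 76) (nat_lit 199212587910) (nat_lit 1) (nat_lit 4) (nat_lit 2) (nat_lit 5) (nat_lit 2) (nat_lit 4) (nat_lit 313) (nat_lit 237) (nat_lit 230)) (XT.lf (nat_lit 0) (nat_lit 1532708181802) (nat_lit 76) (nat_lit 228614937562) (nat_lit 76) (nat_lit 228408416553) (nat_lit 1) (nat_lit 4) (nat_lit 2) (nat_lit 5) (nat_lit 2) (nat_lit 4) (nat_lit 314) (nat_lit 237) (nat_lit 229))) (XT.nd (nat_lit 78) (nat_lit 0) (nat_lit 0) (XT.lf (nat_lit 0) (nat_lit 1763834881970) (nat_lit 76) (nat_lit 262242635839) (nat_lit 76) (nat_lit 262023032158) (nat_lit 1) (nat_lit 4) (nat_lit 2) (nat_lit 5) (nat_lit 2) (nat_lit 4) (nat_lit 315) (nat_lit 237) (nat_lit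 228)) (XT.nd (nat_lit 78) (nat_lit 0) (nat_lit 0) (XT.lf (nat_lit 0) (nat_lit 2029570200693) (nat_lit 76) (nat_lit 300945091904) (nat_lit 76) (nat_lit 300714111985) (nat_lit 1) (nat_lit 4) (nat_lit 2) (nat_lit 5) (nat_lit 2) (nat_lit 4) (nat_lit 316) (nat_lit 237) (nat_lit 227)) (XT.lf (nat_lit 0) (nat_lit 2335113307248) (nat_lit 76) (nat_lit 345479527723) (nat_lit 76) (nat_lit 345238655424) (nat_lit 1) (nat_lit 4) (nat_lit 2) (nat_lit 5) (nat_lit 2) (nat_lit 4) (nat_lit 317) (nat_lit 237) (nat_lit 226))))))) (XT.nd (nat_lit 702) (nat_lit 0) (nat_lit 0) (XT.nd (nat_lit 312) (nat_lit 0) (nat_lit 0) (XT.nd (nat_lit 156) (nat_lit 0) (nat_lit 0) (XT.nd (nat_lit 78) (nat_lit 0) (nat_lit 0) (XT.lf (nat_lit 0) (nat_lit 2686442218938) (nat_lit 76) (nat_lit 396717269215) (nat_lit 76) (nat_lit 396467794845) (nat_lit 1) (nat_lit 4) (nat_lit 2) (nat_lit 5) (nat_lit 2) (nat_lit 4) (nat_lit 318) (nat_lit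 237) (nat_lit 225)) (XT.lf (nat_lit 0) (nat_lit 3090430762297) (nat_lit 76) (nat_lit 455660793929) (nat_lit 76) (nat_lit 455403839499) (nat_lit 1) (nat_lit 4) (nat_lit 2) (nat_lit 5) (nat_lit 2) (nat_lit 4) (nat_lit 319) (nat_lit 237) (nat_lit 224))) (XT.nd (nat_lit 78) (nat_lit 0) (nat_lit 0) (XT.lf (nat_lit 0) (nat_lit 3554983060997) (nat_lit 76) (nat_lit 523463344741) (nat_lit 76) (nat_lit 523199885910) (nat_lit 1) (nat_lit 4) (nat_lit 2) (nat_lit 5) (nat_lit 2) (nat_lit 4) (nat_lit 320) (nat_lit 237) (nat_lit 223)) (XT.lf (nat_lit 0) (nat_lit 4089188181754) (nat_lit 76) (nat_lit 601451493298) (nat_lit 76) (nat_lit 601182378466) (nat_lit 1) (nat_lit 4) (nat_lit 2) (nat_lit 5) (nat_lit 2) (nat_lit 4) (nat_lit 321) (nat_lit 237) (nat_lit 222)))) (XT.nd (nat_lit 156) (nat_lit 0) (nat_lit 0) (XT.nd (nat_lit 78) (nat_lit 0) (nat_lit 0) (XT.lf (nat_lit 0) (nat_lit 4703497963887) (nat_lit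 76) (nat_lit 691151094679) (nat_lit 76) (nat_lit 690877061586) (nat_lit 1) (nat_lit 4) (nat_lit 2) (nat_lit 5) (nat_lit 2) (nat_lit 4) (nat_lit 322) (nat_lit 237) (nat_lit 221)) (XT.lf (nat_lit 0) (nat_lit 5409931511828) (nat_lit 76) (nat_lit 794317141086) (nat_lit 76) (nat_lit 794038831244) (nat_lit 1) (nat_lit 4) (nat_lit 2) (nat_lit 5) (nat_lit 2) (nat_lit 4) (nat_lit 323) (nat_lit 237) (nat_lit 220))) (XT.nd (nat_lit 78) (nat_lit 0) (nat_lit 0) (XT.lf (nat_lit 0) (nat_lit 6222310351515) (nat_lit 76) (nat_lit 912968098644) (nat_lit 76) (nat_lit 912686069890) (nat_lit 1) (nat_lit 4) (nat_lit 2) (nat_lit 5) (nat_lit 2) (nat_lit 4) (nat_lit 324) (nat_lit 237) (nat_lit 219)) (XT.nd (nat_lit 78) (nat_lit 0) (nat_lit 0) (XT.lf (nat_lit 0) (nat_lit 7156528851551) (nat_lit 76) (nat_lit 1049425399131) (nat_lit 76) (nat_lit 1049140136540) (nat_lit 1) (nat_lit 4) (nat_lit 2) (nat_lit 5) (nat_lit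 2) (nat_lit 4) (nat_lit 325) (nat_lit 237) (nat_lit 218)) (XT.lf (nat_lit 0) (nat_lit 8230865199980) (nat_lit 76) (nat_lit 1206358859296) (nat_lit 76) (nat_lit 1206070784673) (nat_lit 1) (nat_lit 4) (nat_lit 2) (nat_lit 5) (nat_lit 2) (nat_lit 4) (nat_lit 326) (nat_lit 237) (nat_lit 217)))))) (XT.nd (nat_lit 390) (nat_lit 0) (nat_lit 0) (XT.nd (nat_lit 156) (nat_lit 0) (nat_lit 0) (XT.nd (nat_lit 78) (nat_lit 0) (nat_lit 0) (XT.lf (nat_lit 0) (nat_lit 9466339021011) (nat_lit 76) (nat_lit 1386838916403) (nat_lit 76) (nat_lit 1386548396536) (nat_lit 1) (nat_lit 4) (nat_lit 2) (nat_lit 5) (nat_lit 2) (nat_lit 4) (nat_lit 327) (nat_lit 237) (nat_lit 216)) (XT.lf (nat_lit 0) (nat_lit 10887122628533) (nat_lit 76) (nat_lit 1594396702005) (nat_lit 76) (nat_lit 1594104055837) (nat_lit 1) (nat_lit 4) (nat_lit 2) (nat_lit 5) (nat_lit 2) (nat_lit 4) (nat_lit 328) (nat_lit 237) (nat_lit 215))) (XT.nd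 (nat_lit 78) (nat_lit 0) (nat_lit 0) (XT.lf (nat_lit 0) (nat_lit 12521013962693) (nat_lit 76) (nat_lit 1833093129297) (nat_lit 76) (nat_lit 1832798634173) (nat_lit 1) (nat_lit 4) (nat_lit 2) (nat_lit 5) (nat_lit 2) (nat_lit 4) (nat_lit 329) (nat_lit 237) (nat_lit 214)) (XT.nd (nat_lit 78) (nat_lit 0) (nat_lit 0) (XT.lf (nat_lit 0) (nat_lit 14399980462638) (nat_lit 76) (nat_lit 2107598345770) (nat_lit 76) (nat_lit 2107302242858) (nat_lit 1) (nat_lit 4) (nat_lit 2) (nat_lit 5) (nat_lit 2) (nat_lit 4) (nat_lit 330) (nat_lit 237) (nat_lit 213)) (XT.lf (nat_lit 0) (nat_lit 16560784516411) (nat_lit 76) (nat_lit 2423283105660) (nat_lit 76) (nat_lit 2422985604671) (nat_lit 1) (nat_lit 4) (nat_lit 2) (nat_lit 5) (nat_lit 2) (nat_lit 4) (nat_lit 331) (nat_lit 237) (nat_lit 212))))) (XT.nd (nat_lit 156) (nat_lit 0) (nat_lit 0) (XT.nd (nat_lit 78) (nat_lit 0) (nat_lit 0) (XT.lf (nat_lit 0) (nat_lit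 19045702725064) (nat_lit 76) (nat_lit 2786323849921) (nat_lit 76) (nat_lit 2786025133213) (nat_lit 1) (nat_lit 4) (nat_lit 2) (nat_lit 5) (nat_lit 2) (nat_lit 4) (nat_lit 332) (nat_lit 237) (nat_lit 211)) (XT.lf (nat_lit 0) (nat_lit 21903353053548) (nat_lit 76) (nat_lit 3203823549637) (nat_lit 76) (nat_lit 3203523775781) (nat_lit 1) (nat_lit 4) (nat_lit 2) (nat_lit 5) (nat_lit 2) (nat_lit 4) (nat_lit 333) (nat_lit 237) (nat_lit 210))) (XT.nd (nat_lit 78) (nat_lit 0) (nat_lit 0) (XT.lf (nat_lit 0) (nat_lit 25189646051768) (nat_lit 76) (nat_lit 3683950677192) (nat_lit 76) (nat_lit 3683649984078) (nat_lit 1) (nat_lit 4) (nat_lit 2) (nat_lit 5) (nat_lit 2) (nat_lit 4) (nat_lit 334) (nat_lit 237) (nat_lit 209)) (XT.nd (nat_lit 78) (nat_lit 0) (nat_lit 0) (XT.lf (nat_lit 0) (nat_lit 28968878756647) (nat_lit 76) (nat_lit 4236099024214) (nat_lit 76) (nat_lit 4235797531745) (nat_lit 1) (nat_lit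 4) (nat_lit 2) (nat_lit 5) (nat_lit 2) (nat_lit 4) (nat_lit 335) (nat_lit 237) (nat_lit 208)) (XT.lf (nat_lit 0) (nat_lit 33314992677627) (nat_lit 76) (nat_lit 4871071493143) (nat_lit 76) (nat_lit 4870769305583) (nat_lit 1) (nat_lit 4) (nat_lit 2) (nat_lit 5) (nat_lit 2) (nat_lit 4) (nat_lit 336) (nat_lit 237) (nat_lit 207))))))))
noncomputable def xc11 : XT := (XT.nd (nat_lit 38766) (nat_lit 0) (nat_lit 0) (XT.nd (nat_lit 38064) (nat_lit 0) (nat_lit 0) (XT.nd (nat_lit 312) (nat_lit 0) (nat_lit 0) (XT.nd (nat_lit 156) (nat_lit 0) (nat_lit 0) (XT.nd (nat_lit 78) (nat_lit 0) (nat_lit 0) (XT.lf (nat_lit 0) (nat_lit 38313020478380) (nat_lit 76) (nat_lit 5601291458372) (nat_lit 76) (nat_lit 5600988666385) (nat_lit 1) (nat_lit 4) (nat_lit 2) (nat_lit 5) (nat_lit 2) (nat_lit 4) (nat_lit 337) (nat_lit 237) (nat_lit 206)) (XT.lf (nat_lit 0) (nat_lit 44060749659355) (nat_lit 76) (nat_lit 6441045832265)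 (nat_lit 76) (nat_lit 6440742514689) (nat_lit 1) (nat_lit 4) (nat_lit 2) (nat_lit 5) (nat_lit 2) (nat_lit 4) (nat_lit 338) (nat_lit 237) (nat_lit 205))) (XT.nd (nat_lit 78) (nat_lit 0) (nat_lit 0) (XT.lf (nat_lit 0) (nat_lit 50670635791485) (nat_lit 76) (nat_lit 7406764591701) (nat_lit 76) (nat_lit 7406460817091) (nat_lit 1) (nat_lit 4) (nat_lit 2) (nat_lit 5) (nat_lit 2) (nat_lit 4) (nat_lit 339) (nat_lit 237) (nat_lit 204)) (XT.lf (nat_lit 0) (nat_lit 58272002733876) (nat_lit 76) (nat_lit 8517342234148) (nat_lit 76) (nat_lit 8517038062118) (nat_lit 1) (nat_lit 4) (nat_lit 2) (nat_lit 5) (nat_lit 2) (nat_lit 4) (nat_lit 340) (nat_lit 237) (nat_lit 203)))) (XT.nd (nat_lit 1014) (nat_lit 0) (nat_lit 0) (XT.nd (nat_lit 936) (nat_lit 0) (nat_lit 0) (XT.lf (nat_lit 0) (nat_lit 67013572883228) (nat_lit 76) (nat_lit 9794507452611) (nat_lit 76) (nat_lit 9794202934997) (nat_lit 1) (nat_lit 4)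 (nat_lit 2) (nat_lit 5) (nat_lit 2) (nat_lit 4) (nat_lit 341) (nat_lit 237) (nat_lit 202)) (XT.lf (nat_lit 0) (nat_lit 358561540234122) (nat_lit 76) (nat_lit 52390496936692) (nat_lit 76) (nat_lit 52390190545803) (nat_lit 1) (nat_lit 4) (nat_lit 2) (nat_lit 5) (nat_lit 2) (nat_lit 4) (nat_lit 353) (nat_lit 237) (nat_lit 190))) (XT.nd (nat_lit 78) (nat_lit 0) (nat_lit 0) (XT.lf (nat_lit 0) (nat_lit 412346530766795) (nat_lit 76) (nat_lit 60248640550898) (nat_lit 76) (nat_lit 60248334103842) (nat_lit 1) (nat_lit 4) (nat_lit 2) (nat_lit 5) (nat_lit 2) (nat_lit 4) (nat_lit 354) (nat_lit 237) (nat_lit 189)) (XT.nd (nat_lit 78) (nat_lit 0) (nat_lit 0) (XT.lf (nat_lit 0) (nat_lit 474199269620116) (nat_lit 76) (nat_lit 69285505838621) (nat_lit 76) (nat_lit 69285199342725) (nat_lit 1) (nat_lit 4) (nat_lit 2) (nat_lit 5) (nat_lit 2) (nat_lit 4) (nat_lit 355) (nat_lit 237) (nat_lit 188)) (XT.lf (nat_lit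 0) (nat_lit 545329919075998) (nat_lit 76) (nat_lit 79677901033752) (nat_lit 76) (nat_lit 79677594495385) (nat_lit 1) (nat_lit 4) (nat_lit 2) (nat_lit 5) (nat_lit 2) (nat_lit 4) (nat_lit 356) (nat_lit 237) (nat_lit 187)))))) (XT.nd (nat_lit 312) (nat_lit 0) (nat_lit 0) (XT.nd (nat_lit 156) (nat_lit 0) (nat_lit 0) (XT.nd (nat_lit 78) (nat_lit 0) (nat_lit 0) (XT.lf (nat_lit 0) (nat_lit 184451619661) (nat_lit 76) (nat_lit 30917047597) (nat_lit 76) (nat_lit 30917047597) (nat_lit 1) (nat_lit 4) (nat_lit 2) (nat_lit 5) (nat_lit 2) (nat_lit 4) (nat_lit 304) (nat_lit 238) (nat_lit 238)) (XT.lf (nat_lit 0) (nat_lit 426738508049) (nat_lit 76) (nat_lit 69789426690) (nat_lit 76) (nat_lit 69743403465) (nat_lit 1) (nat_lit 4) (nat_lit 2) (nat_lit 5) (nat_lit 2) (nat_lit 4) (nat_lit 305) (nat_lit 238) (nat_lit 237))) (XT.nd (nat_lit 78) (nat_lit 0) (nat_lit 0) (XT.lf (nat_lit 0) (nat_lit 493036634947)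 (nat_lit 76) (nat_lit 79045715641) (nat_lit 76) (nat_lit 78959672220) (nat_lit 1) (nat_lit 4) (nat_lit 2) (nat_lit 5) (nat_lit 2) (nat_lit 4) (nat_lit 306) (nat_lit 238) (nat_lit 236)) (XT.lf (nat_lit 0) (nat_lit 569094757282) (nat_lit 76) (nat_lit 89784063351) (nat_lit 76) (nat_lit 89663219759) (nat_lit 1) (nat_lit 4) (nat_lit 2) (nat_lit 5) (nat_lit 2) (nat_lit 4) (nat_lit 307) (nat_lit 238) (nat_lit 235)))) (XT.nd (nat_lit 156) (nat_lit 0) (nat_lit 0) (XT.nd (nat_lit 78) (nat_lit 0) (nat_lit 0) (XT.lf (nat_lit 0) (nat_lit 656400968751) (nat_lit 76) (nat_lit 102214567928) (nat_lit 76) (nat_lit 102063463319) (nat_lit 1) (nat_lit 4) (nat_lit 2) (nat_lit 5) (nat_lit 2) (nat_lit 4) (nat_lit 308) (nat_lit 238) (nat_lit 234)) (XT.lf (nat_lit 0) (nat_lit 756663434363) (nat_lit 76) (nat_lit 116580434897) (nat_lit 76) (nat_lit 116403016359) (nat_lit 1) (nat_lit 4) (nat_lit 2) (nat_lit 5) (nat_lit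 2) (nat_lit 4) (nat_lit 309) (nat_lit 238) (nat_lit 233))) (XT.nd (nat_lit 78) (nat_lit 0) (nat_lit 0) (XT.lf (nat_lit 0) (nat_lit 871843811051) (nat_lit 76) (nat_lit 133162735567) (nat_lit 76) (nat_lit 132962435352) (nat_lit 1) (nat_lit 4) (nat_lit 2) (nat_lit 5) (nat_lit 2) (nat_lit 4) (nat_lit 310) (nat_lit 238) (nat_lit 232)) (XT.nd (nat_lit 78) (nat_lit 0) (nat_lit 0) (XT.lf (nat_lit 0) (nat_lit 1004195627927) (nat_lit 76) (nat_lit 152285906256) (nat_lit 76) (nat_lit 152065708931) (nat_lit 1) (nat_lit 4) (nat_lit 2) (nat_lit 5) (nat_lit 2) (nat_lit 4) (nat_lit 311) (nat_lit 238) (nat_lit 231)) (XT.lf (nat_lit 0) (nat_lit 1156308377058) (nat_lit 76) (nat_lit 174324095956) (nat_lit 76) (nat_lit 174086596796) (nat_lit 1) (nat_lit 4) (nat_lit 2) (nat_lit 5) (nat_lit 2) (nat_lit 4) (nat_lit 312) (nat_lit 238) (nat_lit 230))))))) (XT.nd (nat_lit 702) (nat_lit 0) (nat_lit 0) (XT.nd (nat_lit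 312) (nat_lit 0) (nat_lit 0) (XT.nd (nat_lit 156) (nat_lit 0) (nat_lit 0) (XT.nd (nat_lit 78) (nat_lit 0) (nat_lit 0) (XT.lf (nat_lit 0) (nat_lit 1331158177450) (nat_lit 76) (nat_lit 199708486639) (nat_lit 76) (nat_lit 199455942405) (nat_lit 1) (nat_lit 4) (nat_lit 2) (nat_lit 5) (nat_lit 2) (nat_lit 4) (nat_lit 313) (nat_lit 238) (nat_lit 229)) (XT.lf (nat_lit 0) (nat_lit 1532166003459) (nat_lit 76) (nat_lit 228935729427) (nat_lit 76) (nat_lit 228670102520) (nat_lit 1) (nat_lit 4) (nat_lit 2) (nat_lit 5) (nat_lit 2) (nat_lit 4) (nat_lit 314) (nat_lit 238) (nat_lit 228))) (XT.nd (nat_lit 78) (nat_lit 0) (nat_lit 0) (XT.lf (nat_lit 0) (nat_lit 1763264616896) (nat_lit 76) (nat_lit 262577661679) (nat_lit 76) (nat_lit 262300658535) (nat_lit 1) (nat_lit 4) (nat_lit 2) (nat_lit 5) (nat_lit 2) (nat_lit 4) (nat_lit 315) (nat_lit 238) (nat_lit 227)) (XT.lf (nat_lit 0) (nat_lit 2028975512374)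 (nat_lit 76) (nat_lit 301292495113) (nat_lit 76) (nat_lit 301005599589) (nat_lit 1) (nat_lit 4) (nat_lit 2) (nat_lit 5) (nat_lit 2) (nat_lit 4) (nat_lit 316) (nat_lit 238) (nat_lit 226)))) (XT.nd (nat_lit 156) (nat_lit 0) (nat_lit 0) (XT.nd (nat_lit 78) (nat_lit 0) (nat_lit 0) (XT.lf (nat_lit 0) (nat_lit 2334497381326) (nat_lit 76) (nat_lit 345837693862) (nat_lit 76) (nat_lit 345542196268) (nat_lit 1) (nat_lit 4) (nat_lit 2) (nat_lit 5) (nat_lit 2) (nat_lit 4) (nat_lit 317) (nat_lit 238) (nat_lit 225)) (XT.lf (nat_lit 0) (nat_lit 2685807825534) (nat_lit 76) (nat_lit 397084794423) (nat_lit 76) (nat_lit 396781816768) (nat_lit 1) (nat_lit 4) (nat_lit 2) (nat_lit 5) (nat_lit 2) (nat_lit 4) (nat_lit 318) (nat_lit 238) (nat_lit 224))) (XT.nd (nat_lit 78) (nat_lit 0) (nat_lit 0) (XT.lf (nat_lit 0) (nat_lit 3089780310213) (nat_lit 76) (nat_lit 456036457459) (nat_lit 76) (nat_lit 455726975403)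 (nat_lit 1) (nat_lit 4) (nat_lit 2) (nat_lit 5) (nat_lit 2) (nat_lit 4) (nat_lit 319) (nat_lit 238) (nat_lit 223)) (XT.nd (nat_lit 78) (nat_lit 0) (nat_lit 0) (XT.lf (nat_lit 0) (nat_lit 3554318644845) (nat_lit 76) (nat_lit 523846085072) (nat_lit 76) (nat_lit 523530947015) (nat_lit 1) (nat_lit 4) (nat_lit 2) (nat_lit 5) (nat_lit 2) (nat_lit 4) (nat_lit 320) (nat_lit 238) (nat_lit 222)) (XT.lf (nat_lit 0) (nat_lit 4088511622933) (nat_lit 76) (nat_lit 601840387369) (nat_lit 76) (nat_lit 601520331051) (nat_lit 1) (nat_lit 4) (nat_lit 2) (nat_lit 5) (nat_lit 2) (nat_lit 4) (nat_lit 321) (nat_lit 238) (nat_lit 221)))))) (XT.nd (nat_lit 390) (nat_lit 0) (nat_lit 0) (XT.nd (nat_lit 156) (nat_lit 0) (nat_lit 0) (XT.nd (nat_lit 78) (nat_lit 0) (nat_lit 0) (XT.lf (nat_lit 0) (nat_lit 4702810846222) (nat_lit 76) (nat_lit 691545339828) (nat_lit 76) (nat_lit 691221006761) (nat_lit 1) (nat_lit 4)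 (nat_lit 2) (nat_lit 5) (nat_lit 2) (nat_lit 4) (nat_lit 322) (nat_lit 238) (nat_lit 220)) (XT.lf (nat_lit 0) (nat_lit 5409235212561) (nat_lit 76) (nat_lit 794716039347) (nat_lit 76) (nat_lit 794387987367) (nat_lit 1) (nat_lit 4) (nat_lit 2) (nat_lit 5) (nat_lit 2) (nat_lit 4) (nat_lit 323) (nat_lit 238) (nat_lit 219))) (XT.nd (nat_lit 78) (nat_lit 0) (nat_lit 0) (XT.lf (nat_lit 0) (nat_lit 6221606068246) (nat_lit 76) (nat_lit 913371043089) (nat_lit 76) (nat_lit 913039757273) (nat_lit 1) (nat_lit 4) (nat_lit 2) (nat_lit 5) (nat_lit 2) (nat_lit 4) (nat_lit 324) (nat_lit 238) (nat_lit 218)) (XT.nd (nat_lit 78) (nat_lit 0) (nat_lit 0) (XT.lf (nat_lit 0) (nat_lit 7155817625672) (nat_lit 76) (nat_lit 1049831861997) (nat_lit 76) (nat_lit 1049497764149) (nat_lit 1) (nat_lit 4) (nat_lit 2) (nat_lit 5) (nat_lit 2) (nat_lit 4) (nat_lit 325) (nat_lit 238) (nat_lit 217)) (XT.lf (nat_lit 0) (nat_lit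 8230147937049) (nat_lit 76) (nat_lit 1206768381658) (nat_lit 76) (nat_lit 1206431838565) (nat_lit 1) (nat_lit 4) (nat_lit 2) (nat_lit 5) (nat_lit 2) (nat_lit 4) (nat_lit 326) (nat_lit 238) (nat_lit 216))))) (XT.nd (nat_lit 156) (nat_lit 0) (nat_lit 0) (XT.nd (nat_lit 78) (nat_lit 0) (nat_lit 0) (XT.lf (nat_lit 0) (nat_lit 9465616508469) (nat_lit 76) (nat_lit 1387251099197) (nat_lit 76) (nat_lit 1386912429804) (nat_lit 1) (nat_lit 4) (nat_lit 2) (nat_lit 5) (nat_lit 2) (nat_lit 4) (nat_lit 327) (nat_lit 238) (nat_lit 215)) (XT.lf (nat_lit 0) (nat_lit 10886395551112) (nat_lit 76) (nat_lit 1594811198218) (nat_lit 76) (nat_lit 1594470679868) (nat_lit 1) (nat_lit 4) (nat_lit 2) (nat_lit 5) (nat_lit 2) (nat_lit 4) (nat_lit 328) (nat_lit 238) (nat_lit 214))) (XT.nd (nat_lit 78) (nat_lit 0) (nat_lit 0) (XT.lf (nat_lit 0) (nat_lit 12520282915812) (nat_lit 76) (nat_lit 1833509637178) (nat_lit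 76) (nat_lit 1833167511040) (nat_lit 1) (nat_lit 4) (nat_lit 2) (nat_lit 5) (nat_lit 2) (nat_lit 4) (nat_lit 329) (nat_lit 238) (nat_lit 213)) (XT.nd (nat_lit 78) (nat_lit 0) (nat_lit 0) (XT.lf (nat_lit 0) (nat_lit 14399245964053) (nat_lit 76) (nat_lit 2108016602929) (nat_lit 76) (nat_lit 2107673078714) (nat_lit 1) (nat_lit 4) (nat_lit 2) (nat_lit 5) (nat_lit 2) (nat_lit 4) (nat_lit 330) (nat_lit 238) (nat_lit 212)) (XT.lf (nat_lit 0) (nat_lit 16560047016344) (nat_lit 76) (nat_lit 2423702883929) (nat_lit 76) (nat_lit 2423358143995) (nat_lit 1) (nat_lit 4) (nat_lit 2) (nat_lit 5) (nat_lit 2) (nat_lit 4) (nat_lit 331) (nat_lit 238) (nat_lit 211))))))))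
noncomputable def xc12 : XT := (XT.nd (nat_lit 38610) (nat_lit 0) (nat_lit 0) (XT.nd (nat_lit 702) (nat_lit 0) (nat_lit 0) (XT.nd (nat_lit 312) (nat_lit 0) (nat_lit 0) (XT.nd (nat_lit 156) (nat_lit 0) (nat_lit 0) (XT.nd (nat_lit 78) (nat_lit 0) (nat_lit 0) (XT.lf (nat_lit 0) (nat_lit 19044962615012) (nat_lit 76) (nat_lit 2786744950895) (nat_lit 76) (nat_lit 2786399153814) (nat_lit 1) (nat_lit 4) (nat_lit 2) (nat_lit 5) (nat_lit 2) (nat_lit 4) (nat_lit 332) (nat_lit 238) (nat_lit 210)) (XT.lf (nat_lit 0) (nat_lit 21902610673944) (nat_lit 76) (nat_lit 3204245800788) (nat_lit 76) (nat_lit 3203899084449) (nat_lit 1) (nat_lit 4) (nat_lit 2) (nat_lit 5) (nat_lit 2) (nat_lit 4) (nat_lit 333) (nat_lit 238) (nat_lit 209))) (XT.nd (nat_lit 78) (nat_lit 0) (nat_lit 0) (XT.lf (nat_lit 0) (nat_lit 25188901698641) (nat_lit 76) (nat_lit 3684373928499) (nat_lit 76) (nat_lit 3684026412805) (nat_lit 1)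 (nat_lit 4) (nat_lit 2) (nat_lit 5) (nat_lit 2) (nat_lit 4) (nat_lit 334) (nat_lit 238) (nat_lit 208)) (XT.lf (nat_lit 0) (nat_lit 28968132687413) (nat_lit 76) (nat_lit 4236523145220) (nat_lit 76) (nat_lit 4236174934435) (nat_lit 1) (nat_lit 4) (nat_lit 2) (nat_lit 5) (nat_lit 2) (nat_lit 4) (nat_lit 335) (nat_lit 238) (nat_lit 207)))) (XT.nd (nat_lit 156) (nat_lit 0) (nat_lit 0) (XT.nd (nat_lit 78) (nat_lit 0) (nat_lit 0) (XT.lf (nat_lit 0) (nat_lit 33314245116126) (nat_lit 76) (nat_lit 4871496370410) (nat_lit 76) (nat_lit 4871147555198) (nat_lit 1) (nat_lit 4) (nat_lit 2) (nat_lit 5) (nat_lit 2) (nat_lit 4) (nat_lit 336) (nat_lit 238) (nat_lit 206)) (XT.lf (nat_lit 0) (nat_lit 38312271619255) (nat_lit 76) (nat_lit 5601716993257) (nat_lit 76) (nat_lit 5601367652456) (nat_lit 1) (nat_lit 4) (nat_lit 2) (nat_lit 5) (nat_lit 2) (nat_lit 4) (nat_lit 337) (nat_lit 238) (nat_lit 205))) (XT.nd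 (nat_lit 78) (nat_lit 0) (nat_lit 0) (XT.lf (nat_lit 0) (nat_lit 44059999671862) (nat_lit 76) (nat_lit 6441471938992) (nat_lit 76) (nat_lit 6441122141157) (nat_lit 1) (nat_lit 4) (nat_lit 2) (nat_lit 5) (nat_lit 2) (nat_lit 4) (nat_lit 338) (nat_lit 238) (nat_lit 204)) (XT.nd (nat_lit 78) (nat_lit 0) (nat_lit 0) (XT.lf (nat_lit 0) (nat_lit 50669884822802) (nat_lit 76) (nat_lit 7407191195682) (nat_lit 76) (nat_lit 7406841000426) (nat_lit 1) (nat_lit 4) (nat_lit 2) (nat_lit 5) (nat_lit 2) (nat_lit 4) (nat_lit 339) (nat_lit 238) (nat_lit 203)) (XT.lf (nat_lit 0) (nat_lit 58271250911985) (nat_lit 76) (nat_lit 8517769270523) (nat_lit 76) (nat_lit 8517418729684) (nat_lit 1) (nat_lit 4) (nat_lit 2) (nat_lit 5) (nat_lit 2) (nat_lit 4) (nat_lit 340) (nat_lit 238) (nat_lit 202)))))) (XT.nd (nat_lit 1170) (nat_lit 0) (nat_lit 0) (XT.nd (nat_lit 1014) (nat_lit 0) (nat_lit 0) (XT.nd (nat_lit 936)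 (nat_lit 0) (nat_lit 0) (XT.lf (nat_lit 0) (nat_lit 67012820319416) (nat_lit 76) (nat_lit 9794934864981) (nat_lit 76) (nat_lit 9794584023635) (nat_lit 1) (nat_lit 4) (nat_lit 2) (nat_lit 5) (nat_lit 2) (nat_lit 4) (nat_lit 341) (nat_lit 238) (nat_lit 201)) (XT.lf (nat_lit 0) (nat_lit 358560783648643) (nat_lit 76) (nat_lit 52390926387189) (nat_lit 76) (nat_lit 52390573916908) (nat_lit 1) (nat_lit 4) (nat_lit 2) (nat_lit 5) (nat_lit 2) (nat_lit 4) (nat_lit 353) (nat_lit 238) (nat_lit 189))) (XT.nd (nat_lit 78) (nat_lit 0) (nat_lit 0) (XT.lf (nat_lit 0) (nat_lit 412345774060732) (nat_lit 76) (nat_lit 60249070062505) (nat_lit 76) (nat_lit 60248717543383) (nat_lit 1) (nat_lit 4) (nat_lit 2) (nat_lit 5) (nat_lit 2) (nat_lit 4) (nat_lit 354) (nat_lit 238) (nat_lit 188)) (XT.lf (nat_lit 0) (nat_lit 474198512809199) (nat_lit 76) (nat_lit 69285935403367) (nat_lit 76) (nat_lit 69285582841775) (nat_lit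 1) (nat_lit 4) (nat_lit 2) (nat_lit 5) (nat_lit 2) (nat_lit 4) (nat_lit 355) (nat_lit 238) (nat_lit 187)))) (XT.nd (nat_lit 36504) (nat_lit 0) (nat_lit 0) (XT.nd (nat_lit 36426) (nat_lit 0) (nat_lit 0) (XT.lf (nat_lit 0) (nat_lit 545329162173903) (nat_lit 76) (nat_lit 79678330644706) (nat_lit 76) (nat_lit 79677978046183) (nat_lit 1) (nat_lit 4) (nat_lit 2) (nat_lit 5) (nat_lit 2) (nat_lit 4) (nat_lit 356) (nat_lit 238) (nat_lit 186)) (XT.lf (nat_lit 0) (nat_lit 137184573439) (nat_lit 76) (nat_lit 24606413161) (nat_lit 76) (nat_lit 24606413161) (nat_lit 1) (nat_lit 4) (nat_lit 2) (nat_lit 5) (nat_lit 2) (nat_lit 4) (nat_lit 302) (nat_lit 239) (nat_lit 239))) (XT.nd (nat_lit 78) (nat_lit 0) (nat_lit 0) (XT.lf (nat_lit 0) (nat_lit 318399269162) (nat_lit 76) (nat_lit 55077000070) (nat_lit 76) (nat_lit 55024073361) (nat_lit 1) (nat_lit 4) (nat_lit 2) (nat_lit 5) (nat_lit 2) (nat_lit 4) (nat_lit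 303) (nat_lit 239) (nat_lit 238)) (XT.nd (nat_lit 78) (nat_lit 0) (nat_lit 0) (XT.lf (nat_lit 0) (nat_lit 368789612830) (nat_lit 76) (nat_lit 61944606270) (nat_lit 76) (nat_lit 61845656335) (nat_lit 1) (nat_lit 4) (nat_lit 2) (nat_lit 5) (nat_lit 2) (nat_lit 4) (nat_lit 304) (nat_lit 239) (nat_lit 237)) (XT.lf (nat_lit 0) (nat_lit 426526075912) (nat_lit 76) (nat_lit 69950011129) (nat_lit 76) (nat_lit 69811040999) (nat_lit 1) (nat_lit 4) (nat_lit 2) (nat_lit 5) (nat_lit 2) (nat_lit 4) (nat_lit 305) (nat_lit 239) (nat_lit 236))))))) (XT.nd (nat_lit 702) (nat_lit 0) (nat_lit 0) (XT.nd (nat_lit 312) (nat_lit 0) (nat_lit 0) (XT.nd (nat_lit 156) (nat_lit 0) (nat_lit 0) (XT.nd (nat_lit 78) (nat_lit 0) (nat_lit 0) (XT.lf (nat_lit 0) (nat_lit 492738284857) (nat_lit 76) (nat_lit 79249842134) (nat_lit 76) (nat_lit 79076071833) (nat_lit 1) (nat_lit 4) (nat_lit 2) (nat_lit 5) (nat_lit 2) (nat_lit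 4) (nat_lit 306) (nat_lit 239) (nat_lit 235)) (XT.lf (nat_lit 0) (nat_lit 568721695929) (nat_lit 76) (nat_lit 90026052500) (nat_lit 76) (nat_lit 89822021182) (nat_lit 1) (nat_lit 4) (nat_lit 2) (nat_lit 5) (nat_lit 2) (nat_lit 4) (nat_lit 307) (nat_lit 239) (nat_lit 234))) (XT.nd (nat_lit 78) (nat_lit 0) (nat_lit 0) (XT.lf (nat_lit 0) (nat_lit 655962941083) (nat_lit 76) (nat_lit 102489481126) (nat_lit 76) (nat_lit 102259135879) (nat_lit 1) (nat_lit 4) (nat_lit 2) (nat_lit 5) (nat_lit 2) (nat_lit 4) (nat_lit 308) (nat_lit 239) (nat_lit 233)) (XT.lf (nat_lit 0) (nat_lit 756168914245) (nat_lit 76) (nat_lit 116883977702) (nat_lit 76) (nat_lit 116630750778) (nat_lit 1) (nat_lit 4) (nat_lit 2) (nat_lit 5) (nat_lit 2) (nat_lit 4) (nat_lit 309) (nat_lit 239) (nat_lit 232)))) (XT.nd (nat_lit 156) (nat_lit 0) (nat_lit 0) (XT.nd (nat_lit 78) (nat_lit 0) (nat_lit 0) (XT.lf (nat_lit 0) (nat_lit 871300167066)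 (nat_lit 76) (nat_lit 133491173683) (nat_lit 76) (nat_lit 133218049649) (nat_lit 1) (nat_lit 4) (nat_lit 2) (nat_lit 5) (nat_lit 2) (nat_lit 4) (nat_lit 310) (nat_lit 239) (nat_lit 231)) (XT.lf (nat_lit 0) (nat_lit 1003609267534) (nat_lit 76) (nat_lit 152635992468) (nat_lit 76) (nat_lit 152345566599) (nat_lit 1) (nat_lit 4) (nat_lit 2) (nat_lit 5) (nat_lit 2) (nat_lit 4) (nat_lit 311) (nat_lit 239) (nat_lit 230))) (XT.nd (nat_lit 78) (nat_lit 0) (nat_lit 0) (XT.lf (nat_lit 0) (nat_lit 1155684871964) (nat_lit 76) (nat_lit 174693006600) (nat_lit 76) (nat_lit 174387535657) (nat_lit 1) (nat_lit 4) (nat_lit 2) (nat_lit 5) (nat_lit 2) (nat_lit 4) (nat_lit 312) (nat_lit 239) (nat_lit 229)) (XT.nd (nat_lit 78) (nat_lit 0) (nat_lit 0) (XT.lf (nat_lit 0) (nat_lit 1330502372615) (nat_lit 76) (nat_lit 200093766354) (nat_lit 76) (nat_lit 199775212738) (nat_lit 1) (nat_lit 4) (nat_lit 2) (nat_lit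 5) (nat_lit 2) (nat_lit 4) (nat_lit 313) (nat_lit 239) (nat_lit 228)) (XT.lf (nat_lit 0) (nat_lit 1531482111892) (nat_lit 76) (nat_lit 229335243117) (nat_lit 76) (nat_lit 229005313264) (nat_lit 1) (nat_lit 4) (nat_lit 2) (nat_lit 5) (nat_lit 2) (nat_lit 4) (nat_lit 314) (nat_lit 239) (nat_lit 227)))))) (XT.nd (nat_lit 312) (nat_lit 0) (nat_lit 0) (XT.nd (nat_lit 156) (nat_lit 0) (nat_lit 0) (XT.nd (nat_lit 78) (nat_lit 0) (nat_lit 0) (XT.lf (nat_lit 0) (nat_lit 1762556302086) (nat_lit 76) (nat_lit 262989552739) (nat_lit 76) (nat_lit 262649730505) (nat_lit 1) (nat_lit 4) (nat_lit 2) (nat_lit 5) (nat_lit 2) (nat_lit 4) (nat_lit 315) (nat_lit 239) (nat_lit 226)) (XT.lf (nat_lit 0) (nat_lit 2028245959960) (nat_lit 76) (nat_lit 301715149103) (nat_lit 76) (nat_lit 301366724799) (nat_lit 1) (nat_lit 4) (nat_lit 2) (nat_lit 5) (nat_lit 2) (nat_lit 4) (nat_lit 316) (nat_lit 239) (nat_lit 225)))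 (XT.nd (nat_lit 78) (nat_lit 0) (nat_lit 0) (XT.lf (nat_lit 0) (nat_lit 2333749361430) (nat_lit 76) (nat_lit 346269706922) (nat_lit 76) (nat_lit 345913802557) (nat_lit 1) (nat_lit 4) (nat_lit 2) (nat_lit 5) (nat_lit 2) (nat_lit 4) (nat_lit 317) (nat_lit 239) (nat_lit 224)) (XT.lf (nat_lit 0) (nat_lit 2685043746959) (nat_lit 76) (nat_lit 397524945803) (nat_lit 76) (nat_lit 397162537038) (nat_lit 1) (nat_lit 4) (nat_lit 2) (nat_lit 5) (nat_lit 2) (nat_lit 4) (nat_lit 318) (nat_lit 239) (nat_lit 223)))) (XT.nd (nat_lit 156) (nat_lit 0) (nat_lit 0) (XT.nd (nat_lit 78) (nat_lit 0) (nat_lit 0) (XT.lf (nat_lit 0) (nat_lit 3089002267568) (nat_lit 76) (nat_lit 456483685640) (nat_lit 76) (nat_lit 456115620875) (nat_lit 1) (nat_lit 4) (nat_lit 2) (nat_lit 5) (nat_lit 2) (nat_lit 4) (nat_lit 319) (nat_lit 239) (nat_lit 222)) (XT.lf (nat_lit 0) (nat_lit 3553528459531) (nat_lit 76) (nat_lit 524299466994)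 (nat_lit 76) (nat_lit 523926483967) (nat_lit 1) (nat_lit 4) (nat_lit 2) (nat_lit 5) (nat_lit 2) (nat_lit 4) (nat_lit 320) (nat_lit 239) (nat_lit 221))) (XT.nd (nat_lit 78) (nat_lit 0) (nat_lit 0) (XT.lf (nat_lit 0) (nat_lit 4087710878776) (nat_lit 76) (nat_lit 602299120369) (nat_lit 76) (nat_lit 601921860593) (nat_lit 1) (nat_lit 4) (nat_lit 2) (nat_lit 5) (nat_lit 2) (nat_lit 4) (nat_lit 321) (nat_lit 239) (nat_lit 220)) (XT.nd (nat_lit 78) (nat_lit 0) (nat_lit 0) (XT.lf (nat_lit 0) (nat_lit 4702000920464) (nat_lit 76) (nat_lit 692008725940) (nat_lit 76) (nat_lit 691627747252) (nat_lit 1) (nat_lit 4) (nat_lit 2) (nat_lit 5) (nat_lit 2) (nat_lit 4) (nat_lit 322) (nat_lit 239) (nat_lit 219)) (XT.lf (nat_lit 0) (nat_lit 5408417302800) (nat_lit 76) (nat_lit 795183471642) (nat_lit 76) (nat_lit 794799259117) (nat_lit 1) (nat_lit 4) (nat_lit 2) (nat_lit 5) (nat_lit 2) (nat_lit 4) (nat_lit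 323) (nat_lit 239) (nat_lit 218))))))))
noncomputable def xc13 : XT := (XT.nd (nat_lit 38766) (nat_lit 0) (nat_lit 0) (XT.nd (nat_lit 702) (nat_lit 0) (nat_lit 0) (XT.nd (nat_lit 312) (nat_lit 0) (nat_lit 0) (XT.nd (nat_lit 156) (nat_lit 0) (nat_lit 0) (XT.nd (nat_lit 78) (nat_lit 0) (nat_lit 0) (XT.lf (nat_lit 0) (nat_lit 6220781215875) (nat_lit 76) (nat_lit 913841993805) (nat_lit 76) (nat_lit 913454969248) (nat_lit 1) (nat_lit 4) (nat_lit 2) (nat_lit 5) (nat_lit 2) (nat_lit 4) (nat_lit 324) (nat_lit 239) (nat_lit 217)) (XT.lf (nat_lit 0) (nat_lit 7154986736248) (nat_lit 76) (nat_lit 1050305872210) (nat_lit 76) (nat_lit 1049916402408) (nat_lit 1) (nat_lit 4) (nat_lit 2) (nat_lit 5) (nat_lit 2) (nat_lit 4) (nat_lit 325) (nat_lit 239) (nat_lit 216))) (XT.nd (nat_lit 78) (nat_lit 0) (nat_lit 0) (XT.lf (nat_lit 0) (nat_lit 8229311798014) (nat_lit 76) (nat_lit 1207245052303) (nat_lit 76)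 (nat_lit 1206853456201) (nat_lit 1) (nat_lit 4) (nat_lit 2) (nat_lit 5) (nat_lit 2) (nat_lit 4) (nat_lit 326) (nat_lit 239) (nat_lit 215)) (XT.lf (nat_lit 0) (nat_lit 9464775804555) (nat_lit 76) (nat_lit 1387730083261) (nat_lit 76) (nat_lit 1387336638202) (nat_lit 1) (nat_lit 4) (nat_lit 2) (nat_lit 5) (nat_lit 2) (nat_lit 4) (nat_lit 327) (nat_lit 239) (nat_lit 214)))) (XT.nd (nat_lit 156) (nat_lit 0) (nat_lit 0) (XT.nd (nat_lit 78) (nat_lit 0) (nat_lit 0) (XT.lf (nat_lit 0) (nat_lit 10885550877738) (nat_lit 76) (nat_lit 1595292193950) (nat_lit 76) (nat_lit 1594897141103) (nat_lit 1) (nat_lit 4) (nat_lit 2) (nat_lit 5) (nat_lit 2) (nat_lit 4) (nat_lit 328) (nat_lit 239) (nat_lit 213)) (XT.lf (nat_lit 0) (nat_lit 12519434790734) (nat_lit 76) (nat_lit 1833992382187) (nat_lit 76) (nat_lit 1833595931264) (nat_lit 1) (nat_lit 4) (nat_lit 2) (nat_lit 5) (nat_lit 2) (nat_lit 4) (nat_lit 329)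 (nat_lit 239) (nat_lit 212))) (XT.nd (nat_lit 78) (nat_lit 0) (nat_lit 0) (XT.lf (nat_lit 0) (nat_lit 14398394837493) (nat_lit 76) (nat_lit 2108500869048) (nat_lit 76) (nat_lit 2108103202406) (nat_lit 1) (nat_lit 4) (nat_lit 2) (nat_lit 5) (nat_lit 2) (nat_lit 4) (nat_lit 330) (nat_lit 239) (nat_lit 211)) (XT.nd (nat_lit 78) (nat_lit 0) (nat_lit 0) (XT.lf (nat_lit 0) (nat_lit 16559193279800) (nat_lit 76) (nat_lit 2424188472754) (nat_lit 76) (nat_lit 2423789748964) (nat_lit 1) (nat_lit 4) (nat_lit 2) (nat_lit 5) (nat_lit 2) (nat_lit 4) (nat_lit 331) (nat_lit 239) (nat_lit 210)) (XT.lf (nat_lit 0) (nat_lit 19044106608916) (nat_lit 76) (nat_lit 2787231689897) (nat_lit 76) (nat_lit 2786832046849) (nat_lit 1) (nat_lit 4) (nat_lit 2) (nat_lit 5) (nat_lit 2) (nat_lit 4) (nat_lit 332) (nat_lit 239) (nat_lit 209)))))) (XT.nd (nat_lit 312) (nat_lit 0) (nat_lit 0) (XT.nd (nat_lit 156) (nat_lit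 0) (nat_lit 0) (XT.nd (nat_lit 78) (nat_lit 0) (nat_lit 0) (XT.lf (nat_lit 0) (nat_lit 21901752694325) (nat_lit 76) (nat_lit 3204733539946) (nat_lit 76) (nat_lit 3204333097543) (nat_lit 1) (nat_lit 4) (nat_lit 2) (nat_lit 5) (nat_lit 2) (nat_lit 4) (nat_lit 333) (nat_lit 239) (nat_lit 208)) (XT.lf (nat_lit 0) (nat_lit 25188042002915) (nat_lit 76) (nat_lit 3684862537356) (nat_lit 76) (nat_lit 3684461399861) (nat_lit 1) (nat_lit 4) (nat_lit 2) (nat_lit 5) (nat_lit 2) (nat_lit 4) (nat_lit 334) (nat_lit 239) (nat_lit 207))) (XT.nd (nat_lit 78) (nat_lit 0) (nat_lit 0) (XT.lf (nat_lit 0) (nat_lit 28967271499420) (nat_lit 76) (nat_lit 4237012510338) (nat_lit 76) (nat_lit 4236610768416) (nat_lit 1) (nat_lit 4) (nat_lit 2) (nat_lit 5) (nat_lit 2) (nat_lit 4) (nat_lit 335) (nat_lit 239) (nat_lit 206)) (XT.lf (nat_lit 0) (nat_lit 33313382630509) (nat_lit 76) (nat_lit 4871986393146) (nat_lit 76)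 (nat_lit 4871584125635) (nat_lit 1) (nat_lit 4) (nat_lit 2) (nat_lit 5) (nat_lit 2) (nat_lit 4) (nat_lit 336) (nat_lit 239) (nat_lit 205)))) (XT.nd (nat_lit 156) (nat_lit 0) (nat_lit 0) (XT.nd (nat_lit 78) (nat_lit 0) (nat_lit 0) (XT.lf (nat_lit 0) (nat_lit 38311408005270) (nat_lit 76) (nat_lit 5602207587835) (nat_lit 76) (nat_lit 5601804863291) (nat_lit 1) (nat_lit 4) (nat_lit 2) (nat_lit 5) (nat_lit 2) (nat_lit 4) (nat_lit 337) (nat_lit 239) (nat_lit 204)) (XT.lf (nat_lit 0) (nat_lit 44059135076688) (nat_lit 76) (nat_lit 6441963030823) (nat_lit 76) (nat_lit 6441559908858) (nat_lit 1) (nat_lit 4) (nat_lit 2) (nat_lit 5) (nat_lit 2) (nat_lit 4) (nat_lit 338) (nat_lit 239) (nat_lit 203))) (XT.nd (nat_lit 78) (nat_lit 0) (nat_lit 0) (XT.lf (nat_lit 0) (nat_lit 50669019374419) (nat_lit 76) (nat_lit 7407682719907) (nat_lit 76) (nat_lit 7407279252359) (nat_lit 1) (nat_lit 4) (nat_lit 2) (nat_lit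 5) (nat_lit 2) (nat_lit 4) (nat_lit 339) (nat_lit 239) (nat_lit 202)) (XT.nd (nat_lit 1092) (nat_lit 0) (nat_lit 0) (XT.lf (nat_lit 0) (nat_lit 58270384721681) (nat_lit 76) (nat_lit 8518261170744) (nat_lit 76) (nat_lit 8517857402689) (nat_lit 1) (nat_lit 4) (nat_lit 2) (nat_lit 5) (nat_lit 2) (nat_lit 4) (nat_lit 340) (nat_lit 239) (nat_lit 201)) (XT.lf (nat_lit 0) (nat_lit 412344903623323) (nat_lit 76) (nat_lit 60249564115101) (nat_lit 76) (nat_lit 60249158626801) (nat_lit 1) (nat_lit 4) (nat_lit 2) (nat_lit 5) (nat_lit 2) (nat_lit 4) (nat_lit 354) (nat_lit 239) (nat_lit 187))))))) (XT.nd (nat_lit 702) (nat_lit 0) (nat_lit 0) (XT.nd (nat_lit 312) (nat_lit 0) (nat_lit 0) (XT.nd (nat_lit 156) (nat_lit 0) (nat_lit 0) (XT.nd (nat_lit 78) (nat_lit 0) (nat_lit 0) (XT.lf (nat_lit 0) (nat_lit 101100793162) (nat_lit 76) (nat_lit 20018969407) (nat_lit 76) (nat_lit 20018969407) (nat_lit 1) (nat_lit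 4) (nat_lit 2) (nat_lit 5) (nat_lit 2) (nat_lit 4) (nat_lit 300) (nat_lit 240) (nat_lit 240)) (XT.lf (nat_lit 0) (nat_lit 235837787064) (nat_lit 76) (nat_lit 44298216906) (nat_lit 76) (nat_lit 44237351190) (nat_lit 1) (nat_lit 4) (nat_lit 2) (nat_lit 5) (nat_lit 2) (nat_lit 4) (nat_lit 301) (nat_lit 240) (nat_lit 239))) (XT.nd (nat_lit 78) (nat_lit 0) (nat_lit 0) (XT.lf (nat_lit 0) (nat_lit 274238476412) (nat_lit 76) (nat_lit 49339914059) (nat_lit 76) (nat_lit 49226121635) (nat_lit 1) (nat_lit 4) (nat_lit 2) (nat_lit 5) (nat_lit 2) (nat_lit 4) (nat_lit 302) (nat_lit 240) (nat_lit 238)) (XT.lf (nat_lit 0) (nat_lit 318154972204) (nat_lit 76) (nat_lit 55261672174) (nat_lit 76) (nat_lit 55101856525) (nat_lit 1) (nat_lit 4) (nat_lit 2) (nat_lit 5) (nat_lit 2) (nat_lit 4) (nat_lit 303) (nat_lit 240) (nat_lit 237)))) (XT.nd (nat_lit 156) (nat_lit 0) (nat_lit 0) (XT.nd (nat_lit 78) (nat_lit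 0) (nat_lit 0) (XT.lf (nat_lit 0) (nat_lit 368446510227) (nat_lit 76) (nat_lit 62179351737) (nat_lit 76) (nat_lit 61979515891) (nat_lit 1) (nat_lit 4) (nat_lit 2) (nat_lit 5) (nat_lit 2) (nat_lit 4) (nat_lit 304) (nat_lit 240) (nat_lit 236)) (XT.lf (nat_lit 0) (nat_lit 426097055356) (nat_lit 76) (nat_lit 70228298650) (nat_lit 76) (nat_lit 69993662634) (nat_lit 1) (nat_lit 4) (nat_lit 2) (nat_lit 5) (nat_lit 2) (nat_lit 4) (nat_lit 305) (nat_lit 240) (nat_lit 235))) (XT.nd (nat_lit 78) (nat_lit 0) (nat_lit 0) (XT.lf (nat_lit 0) (nat_lit 492234553038) (nat_lit 76) (nat_lit 79565992311) (nat_lit 76) (nat_lit 79301095278) (nat_lit 1) (nat_lit 4) (nat_lit 2) (nat_lit 5) (nat_lit 2) (nat_lit 4) (nat_lit 306) (nat_lit 240) (nat_lit 234)) (XT.nd (nat_lit 78) (nat_lit 0) (nat_lit 0) (XT.lf (nat_lit 0) (nat_lit 568152997794) (nat_lit 76) (nat_lit 90375126726) (nat_lit 76) (nat_lit 90083915764)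 (nat_lit 1) (nat_lit 4) (nat_lit 2) (nat_lit 5) (nat_lit 2) (nat_lit 4) (nat_lit 307) (nat_lit 240) (nat_lit 233)) (XT.lf (nat_lit 0) (nat_lit 655337750499) (nat_lit 76) (nat_lit 102867184960) (nat_lit 76) (nat_lit 102553092321) (nat_lit 1) (nat_lit 4) (nat_lit 2) (nat_lit 5) (nat_lit 2) (nat_lit 4) (nat_lit 308) (nat_lit 240) (nat_lit 232)))))) (XT.nd (nat_lit 390) (nat_lit 0) (nat_lit 0) (XT.nd (nat_lit 156) (nat_lit 0) (nat_lit 0) (XT.nd (nat_lit 78) (nat_lit 0) (nat_lit 0) (XT.lf (nat_lit 0) (nat_lit 755494599794) (nat_lit 76) (nat_lit 117286576847) (nat_lit 76) (nat_lit 116952587097) (nat_lit 1) (nat_lit 4) (nat_lit 2) (nat_lit 5) (nat_lit 2) (nat_lit 4) (nat_lit 309) (nat_lit 240) (nat_lit 231)) (XT.lf (nat_lit 0) (nat_lit 870583136207) (nat_lit 76) (nat_lit 133915420924) (nat_lit 76) (nat_lit 133564129340) (nat_lit 1) (nat_lit 4) (nat_lit 2) (nat_lit 5) (nat_lit 2) (nat_lit 4)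 (nat_lit 310) (nat_lit 240) (nat_lit 230))) (XT.nd (nat_lit 78) (nat_lit 0) (nat_lit 0) (XT.lf (nat_lit 0) (nat_lit 1002855091974) (nat_lit 76) (nat_lit 153079064141) (nat_lit 76) (nat_lit 152712727483) (nat_lit 1) (nat_lit 4) (nat_lit 2) (nat_lit 5) (nat_lit 2) (nat_lit 4) (nat_lit 311) (nat_lit 240) (nat_lit 229)) (XT.nd (nat_lit 78) (nat_lit 0) (nat_lit 0) (XT.lf (nat_lit 0) (nat_lit 1154898396663) (nat_lit 76) (nat_lit 175152447344) (nat_lit 76) (nat_lit 174773028013) (nat_lit 1) (nat_lit 4) (nat_lit 2) (nat_lit 5) (nat_lit 2) (nat_lit 4) (nat_lit 312) (nat_lit 240) (nat_lit 228)) (XT.lf (nat_lit 0) (nat_lit 1329687810583) (nat_lit 76) (nat_lit 200567441073) (nat_lit 76) (nat_lit 200176645504) (nat_lit 1) (nat_lit 4) (nat_lit 2) (nat_lit 5) (nat_lit 2) (nat_lit 4) (nat_lit 313) (nat_lit 240) (nat_lit 227))))) (XT.nd (nat_lit 156) (nat_lit 0) (nat_lit 0) (XT.nd (nat_lit 78) (nat_lit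 0) (nat_lit 0) (XT.lf (nat_lit 0) (nat_lit 1530643126616) (nat_lit 76) (nat_lit 229821295205) (nat_lit 76) (nat_lit 229420607256) (nat_lit 1) (nat_lit 4) (nat_lit 2) (nat_lit 5) (nat_lit 2) (nat_lit 4) (nat_lit 314) (nat_lit 240) (nat_lit 226)) (XT.lf (nat_lit 0) (nat_lit 1761696079205) (nat_lit 76) (nat_lit 263486367757) (nat_lit 76) (nat_lit 263077077738) (nat_lit 1) (nat_lit 4) (nat_lit 2) (nat_lit 5) (nat_lit 2) (nat_lit 4) (nat_lit 315) (nat_lit 240) (nat_lit 225))) (XT.nd (nat_lit 78) (nat_lit 0) (nat_lit 0) (XT.lf (nat_lit 0) (nat_lit 2027367269598) (nat_lit 76) (nat_lit 302221323191) (nat_lit 76) (nat_lit 301804553111) (nat_lit 1) (nat_lit 4) (nat_lit 2) (nat_lit 5) (nat_lit 2) (nat_lit 4) (nat_lit 316) (nat_lit 240) (nat_lit 224)) (XT.nd (nat_lit 78) (nat_lit 0) (nat_lit 0) (XT.lf (nat_lit 0) (nat_lit 2332854612388) (nat_lit 76) (nat_lit 346784019330) (nat_lit 76) (nat_lit 346360744850)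 (nat_lit 1) (nat_lit 4) (nat_lit 2) (nat_lit 5) (nat_lit 2) (nat_lit 4) (nat_lit 317) (nat_lit 240) (nat_lit 223)) (XT.lf (nat_lit 0) (nat_lit 2684135033848) (nat_lit 76) (nat_lit 398046335014) (nat_lit 76) (nat_lit 397617404532) (nat_lit 1) (nat_lit 4) (nat_lit 2) (nat_lit 5) (nat_lit 2) (nat_lit 4) (nat_lit 318) (nat_lit 240) (nat_lit 222))))))))
noncomputable def xc14 : XT := (XT.nd (nat_lit 1404) (nat_lit 0) (nat_lit 0) (XT.nd (nat_lit 702) (nat_lit 0) (nat_lit 0) (XT.nd (nat_lit 312) (nat_lit 0) (nat_lit 0) (XT.nd (nat_lit 156) (nat_lit 0) (nat_lit 0) (XT.nd (nat_lit 78) (nat_lit 0) (nat_lit 0) (XT.lf (nat_lit 0) (nat_lit 3088081411788) (nat_lit 76) (nat_lit 457011228590) (nat_lit 76) (nat_lit 456577379848) (nat_lit 1) (nat_lit 4) (nat_lit 2) (nat_lit 5) (nat_lit 2) (nat_lit 4) (nat_lit 319) (nat_lit 240) (nat_lit 221)) (XT.lf (nat_lit 0) (nat_lit 3552597044908) (nat_lit 76) (nat_lit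 524832361022) (nat_lit 76) (nat_lit 524394235531) (nat_lit 1) (nat_lit 4) (nat_lit 2) (nat_lit 5) (nat_lit 2) (nat_lit 4) (nat_lit 320) (nat_lit 240) (nat_lit 220))) (XT.nd (nat_lit 78) (nat_lit 0) (nat_lit 0) (XT.lf (nat_lit 0) (nat_lit 4086770282551) (nat_lit 76) (nat_lit 602836667509) (nat_lit 76) (nat_lit 602394823105) (nat_lit 1) (nat_lit 4) (nat_lit 2) (nat_lit 5) (nat_lit 2) (nat_lit 4) (nat_lit 321) (nat_lit 240) (nat_lit 219)) (XT.lf (nat_lit 0) (nat_lit 4701052340237) (nat_lit 76) (nat_lit 692550319264) (nat_lit 76) (nat_lit 692105241024) (nat_lit 1) (nat_lit 4) (nat_lit 2) (nat_lit 5) (nat_lit 2) (nat_lit 4) (nat_lit 322) (nat_lit 240) (nat_lit 218)))) (XT.nd (nat_lit 156) (nat_lit 0) (nat_lit 0) (XT.nd (nat_lit 78) (nat_lit 0) (nat_lit 0) (XT.lf (nat_lit 0) (nat_lit 5407461779963) (nat_lit 76) (nat_lit 795728583387) (nat_lit 76) (nat_lit 795280693115) (nat_lit 1) (nat_lit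 4) (nat_lit 2) (nat_lit 5) (nat_lit 2) (nat_lit 4) (nat_lit 323) (nat_lit 240) (nat_lit 217)) (XT.lf (nat_lit 0) (nat_lit 6219819655986) (nat_lit 76) (nat_lit 914390165047) (nat_lit 76) (nat_lit 913939829529) (nat_lit 1) (nat_lit 4) (nat_lit 2) (nat_lit 5) (nat_lit 2) (nat_lit 4) (nat_lit 324) (nat_lit 240) (nat_lit 216))) (XT.nd (nat_lit 78) (nat_lit 0) (nat_lit 0) (XT.lf (nat_lit 0) (nat_lit 7154019926748) (nat_lit 76) (nat_lit 1050856703883) (nat_lit 76) (nat_lit 1050404242065) (nat_lit 1) (nat_lit 4) (nat_lit 2) (nat_lit 5) (nat_lit 2) (nat_lit 4) (nat_lit 325) (nat_lit 240) (nat_lit 215)) (XT.nd (nat_lit 78) (nat_lit 0) (nat_lit 0) (XT.lf (nat_lit 0) (nat_lit 8228340423635) (nat_lit 76) (nat_lit 1207798197395) (nat_lit 76) (nat_lit 1207343886621) (nat_lit 1) (nat_lit 4) (nat_lit 2) (nat_lit 5) (nat_lit 2) (nat_lit 4) (nat_lit 326) (nat_lit 240) (nat_lit 214)) (XT.lf (nat_lit 0)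 (nat_lit 9463800460716) (nat_lit 76) (nat_lit 1388285240021) (nat_lit 76) (nat_lit 1387829321459) (nat_lit 1) (nat_lit 4) (nat_lit 2) (nat_lit 5) (nat_lit 2) (nat_lit 4) (nat_lit 327) (nat_lit 240) (nat_lit 213)))))) (XT.nd (nat_lit 312) (nat_lit 0) (nat_lit 0) (XT.nd (nat_lit 156) (nat_lit 0) (nat_lit 0) (XT.nd (nat_lit 78) (nat_lit 0) (nat_lit 0) (XT.lf (nat_lit 0) (nat_lit 10884572082194) (nat_lit 76) (nat_lit 1595849099987) (nat_lit 76) (nat_lit 1595391783348) (nat_lit 1) (nat_lit 4) (nat_lit 2) (nat_lit 5) (nat_lit 2) (nat_lit 4) (nat_lit 328) (nat_lit 240) (nat_lit 212)) (XT.lf (nat_lit 0) (nat_lit 12518452993708) (nat_lit 76) (nat_lit 1834550809335) (nat_lit 76) (nat_lit 1834092276977) (nat_lit 1) (nat_lit 4) (nat_lit 2) (nat_lit 5) (nat_lit 2) (nat_lit 4) (nat_lit 329) (nat_lit 240) (nat_lit 211))) (XT.nd (nat_lit 78) (nat_lit 0) (nat_lit 0) (XT.lf (nat_lit 0) (nat_lit 14397410430483)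 (nat_lit 76) (nat_lit 2109060618901) (nat_lit 76) (nat_lit 2108601029396) (nat_lit 1) (nat_lit 4) (nat_lit 2) (nat_lit 5) (nat_lit 2) (nat_lit 4) (nat_lit 330) (nat_lit 240) (nat_lit 210)) (XT.lf (nat_lit 0) (nat_lit 16558206603238) (nat_lit 76) (nat_lit 2424749372784) (nat_lit 76) (nat_lit 2424288864021) (nat_lit 1) (nat_lit 4) (nat_lit 2) (nat_lit 5) (nat_lit 2) (nat_lit 4) (nat_lit 331) (nat_lit 240) (nat_lit 209)))) (XT.nd (nat_lit 156) (nat_lit 0) (nat_lit 0) (XT.nd (nat_lit 78) (nat_lit 0) (nat_lit 0) (XT.lf (nat_lit 0) (nat_lit 19043117958831) (nat_lit 76) (nat_lit 2787793590083) (nat_lit 76) (nat_lit 2787332281964) (nat_lit 1) (nat_lit 4) (nat_lit 2) (nat_lit 5) (nat_lit 2) (nat_lit 4) (nat_lit 332) (nat_lit 240) (nat_lit 208)) (XT.lf (nat_lit 0) (nat_lit 21900762328133) (nat_lit 76) (nat_lit 3205296309831) (nat_lit 76) (nat_lit 3204834306621) (nat_lit 1) (nat_lit 4) (nat_lit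 2) (nat_lit 5) (nat_lit 2) (nat_lit 4) (nat_lit 333) (nat_lit 240) (nat_lit 207))) (XT.nd (nat_lit 78) (nat_lit 0) (nat_lit 0) (XT.lf (nat_lit 0) (nat_lit 25187050144456) (nat_lit 76) (nat_lit 3685426063502) (nat_lit 76) (nat_lit 3684963455865) (nat_lit 1) (nat_lit 4) (nat_lit 2) (nat_lit 5) (nat_lit 2) (nat_lit 4) (nat_lit 334) (nat_lit 240) (nat_lit 206)) (XT.nd (nat_lit 78) (nat_lit 0) (nat_lit 0) (XT.lf (nat_lit 0) (nat_lit 28966278343337) (nat_lit 76) (nat_lit 4237576694102) (nat_lit 76) (nat_lit 4237113560876) (nat_lit 1) (nat_lit 4) (nat_lit 2) (nat_lit 5) (nat_lit 2) (nat_lit 4) (nat_lit 335) (nat_lit 240) (nat_lit 205)) (XT.lf (nat_lit 0) (nat_lit 33312388346058) (nat_lit 76) (nat_lit 4872551148752) (nat_lit 76) (nat_lit 4872087558492) (nat_lit 1) (nat_lit 4) (nat_lit 2) (nat_lit 5) (nat_lit 2) (nat_lit 4) (nat_lit 336) (nat_lit 240) (nat_lit 204))))))) (XT.nd (nat_lit 37986)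 (nat_lit 0) (nat_lit 0) (XT.nd (nat_lit 37596) (nat_lit 0) (nat_lit 0) (XT.nd (nat_lit 156) (nat_lit 0) (nat_lit 0) (XT.nd (nat_lit 78) (nat_lit 0) (nat_lit 0) (XT.lf (nat_lit 0) (nat_lit 38310412739630) (nat_lit 76) (nat_lit 5602772840695) (nat_lit 76) (nat_lit 5602308853014) (nat_lit 1) (nat_lit 4) (nat_lit 2) (nat_lit 5) (nat_lit 2) (nat_lit 4) (nat_lit 337) (nat_lit 240) (nat_lit 203)) (XT.lf (nat_lit 0) (nat_lit 44058138957838) (nat_lit 76) (nat_lit 6442528716077) (nat_lit 76) (nat_lit 6442064382814) (nat_lit 1) (nat_lit 4) (nat_lit 2) (nat_lit 5) (nat_lit 2) (nat_lit 4) (nat_lit 338) (nat_lit 240) (nat_lit 202))) (XT.nd (nat_lit 78) (nat_lit 0) (nat_lit 0) (XT.lf (nat_lit 0) (nat_lit 50668022513649) (nat_lit 76) (nat_lit 7408248781157) (nat_lit 76) (nat_lit 7407784147386) (nat_lit 1) (nat_lit 4) (nat_lit 2) (nat_lit 5) (nat_lit 2) (nat_lit 4) (nat_lit 339) (nat_lit 240) (nat_lit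 201)) (XT.lf (nat_lit 0) (nat_lit 58269387215763) (nat_lit 76) (nat_lit 8518827558946) (nat_lit 76) (nat_lit 8518362663865) (nat_lit 1) (nat_lit 4) (nat_lit 2) (nat_lit 5) (nat_lit 2) (nat_lit 4) (nat_lit 340) (nat_lit 240) (nat_lit 200)))) (XT.nd (nat_lit 156) (nat_lit 0) (nat_lit 0) (XT.nd (nat_lit 78) (nat_lit 0) (nat_lit 0) (XT.lf (nat_lit 0) (nat_lit 73421703220) (nat_lit 76) (nat_lit 16762150751) (nat_lit 76) (nat_lit 16762150751) (nat_lit 1) (nat_lit 4) (nat_lit 2) (nat_lit 5) (nat_lit 2) (nat_lit 4) (nat_lit 298) (nat_lit 241) (nat_lit 241)) (XT.lf (nat_lit 0) (nat_lit 172671774615) (nat_lit 76) (nat_lit 36545722088) (nat_lit 76) (nat_lit 36475726516) (nat_lit 1) (nat_lit 4) (nat_lit 2) (nat_lit 5) (nat_lit 2) (nat_lit 4) (nat_lit 299) (nat_lit 241) (nat_lit 240))) (XT.nd (nat_lit 78) (nat_lit 0) (nat_lit 0) (XT.lf (nat_lit 0) (nat_lit 202051315289) (nat_lit 76) (nat_lit 40184089712)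 (nat_lit 76) (nat_lit 40053228424) (nat_lit 1) (nat_lit 4) (nat_lit 2) (nat_lit 5) (nat_lit 2) (nat_lit 4) (nat_lit 300) (nat_lit 241) (nat_lit 239)) (XT.nd (nat_lit 78) (nat_lit 0) (nat_lit 0) (XT.lf (nat_lit 0) (nat_lit 235556845562) (nat_lit 76) (nat_lit 44510589826) (nat_lit 76) (nat_lit 44326801829) (nat_lit 1) (nat_lit 4) (nat_lit 2) (nat_lit 5) (nat_lit 2) (nat_lit 4) (nat_lit 301) (nat_lit 241) (nat_lit 238)) (XT.lf (nat_lit 0) (nat_lit 273843908418) (nat_lit 76) (nat_lit 49609871346) (nat_lit 76) (nat_lit 49380060124) (nat_lit 1) (nat_lit 4) (nat_lit 2) (nat_lit 5) (nat_lit 2) (nat_lit 4) (nat_lit 302) (nat_lit 241) (nat_lit 237)))))) (XT.nd (nat_lit 390) (nat_lit 0) (nat_lit 0) (XT.nd (nat_lit 156) (nat_lit 0) (nat_lit 0) (XT.nd (nat_lit 78) (nat_lit 0) (nat_lit 0) (XT.lf (nat_lit 0) (nat_lit 317661598564) (nat_lit 76) (nat_lit 55581702824) (nat_lit 76) (nat_lit 55311871406)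 (nat_lit 1) (nat_lit 4) (nat_lit 2) (nat_lit 5) (nat_lit 2) (nat_lit 4) (nat_lit 303) (nat_lit 241) (nat_lit 236)) (XT.lf (nat_lit 0) (nat_lit 367867218635) (nat_lit 76) (nat_lit 62542924441) (nat_lit 76) (nat_lit 62238292852) (nat_lit 1) (nat_lit 4) (nat_lit 2) (nat_lit 5) (nat_lit 2) (nat_lit 4) (nat_lit 304) (nat_lit 241) (nat_lit 235))) (XT.nd (nat_lit 78) (nat_lit 0) (nat_lit 0) (XT.lf (nat_lit 0) (nat_lit 425443052500) (nat_lit 76) (nat_lit 70629734010) (nat_lit 76) (nat_lit 70294841404) (nat_lit 1) (nat_lit 4) (nat_lit 2) (nat_lit 5) (nat_lit 2) (nat_lit 4) (nat_lit 305) (nat_lit 241) (nat_lit 234)) (XT.nd (nat_lit 78) (nat_lit 0) (nat_lit 0) (XT.lf (nat_lit 0) (nat_lit 491515583867) (nat_lit 76) (nat_lit 80000351720) (nat_lit 76) (nat_lit 79639145185) (nat_lit 1) (nat_lit 4) (nat_lit 2) (nat_lit 5) (nat_lit 2) (nat_lit 4) (nat_lit 306) (nat_lit 241) (nat_lit 233)) (XT.lf (nat_lit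 0) (nat_lit 567377536175) (nat_lit 76) (nat_lit 90838115743) (nat_lit 76) (nat_lit 90454027531) (nat_lit 1) (nat_lit 4) (nat_lit 2) (nat_lit 5) (nat_lit 2) (nat_lit 4) (nat_lit 307) (nat_lit 241) (nat_lit 232))))) (XT.nd (nat_lit 156) (nat_lit 0) (nat_lit 0) (XT.nd (nat_lit 78) (nat_lit 0) (nat_lit 0) (XT.lf (nat_lit 0) (nat_lit 654513165012) (nat_lit 76) (nat_lit 103355069287) (nat_lit 76) (nat_lit 102951083965) (nat_lit 1) (nat_lit 4) (nat_lit 2) (nat_lit 5) (nat_lit 2) (nat_lit 4) (nat_lit 308) (nat_lit 241) (nat_lit 231)) (XT.lf (nat_lit 0) (nat_lit 754627297899) (nat_lit 76) (nat_lit 117796109270) (nat_lit 76) (nat_lit 117374822113) (nat_lit 1) (nat_lit 4) (nat_lit 2) (nat_lit 5) (nat_lit 2) (nat_lit 4) (nat_lit 309) (nat_lit 241) (nat_lit 230))) (XT.nd (nat_lit 78) (nat_lit 0) (nat_lit 0) (XT.lf (nat_lit 0) (nat_lit 869678689611) (nat_lit 76) (nat_lit 134443777780) (nat_lit 76)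 (nat_lit 134007445548) (nat_lit 1) (nat_lit 4) (nat_lit 2) (nat_lit 5) (nat_lit 2) (nat_lit 4) (nat_lit 310) (nat_lit 241) (nat_lit 229)) (XT.nd (nat_lit 78) (nat_lit 0) (nat_lit 0) (XT.lf (nat_lit 0) (nat_lit 1001918345637) (nat_lit 76) (nat_lit 153623790068) (nat_lit 76) (nat_lit 153174375164) (nat_lit 1) (nat_lit 4) (nat_lit 2) (nat_lit 5) (nat_lit 2) (nat_lit 4) (nat_lit 311) (nat_lit 241) (nat_lit 228)) (XT.lf (nat_lit 0) (nat_lit 1153933563594) (nat_lit 76) (nat_lit 175711407245) (nat_lit 76) (nat_lit 175250616104) (nat_lit 1) (nat_lit 4) (nat_lit 2) (nat_lit 5) (nat_lit 2) (nat_lit 4) (nat_lit 312) (nat_lit 241) (nat_lit 227))))))))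
noncomputable def xc15 : XT := (XT.nd (nat_lit 1404) (nat_lit 0) (nat_lit 0) (XT.nd (nat_lit 702) (nat_lit 0) (nat_lit 0) (XT.nd (nat_lit 312) (nat_lit 0) (nat_lit 0) (XT.nd (nat_lit 156) (nat_lit 0) (nat_lit 0) (XT.nd (nat_lit 78) (nat_lit 0) (nat_lit 0) (XT.lf (nat_lit 0) (nat_lit 1328698554270) (nat_lit 76) (nat_lit 201138778344) (nat_lit 76) (nat_lit 200668094822) (nat_lit 1) (nat_lit 4) (nat_lit 2) (nat_lit 5) (nat_lit 2) (nat_lit 4) (nat_lit 313) (nat_lit 241) (nat_lit 226)) (XT.lf (nat_lit 0) (nat_lit 1529632632699) (nat_lit 76) (nat_lit 230403395406) (nat_lit 76) (nat_lit 229924109814) (nat_lit 1) (nat_lit 4) (nat_lit 2) (nat_lit 5) (nat_lit 2) (nat_lit 4) (nat_lit 314) (nat_lit 241) (nat_lit 225))) (XT.nd (nat_lit 78) (nat_lit 0) (nat_lit 0) (XT.lf (nat_lit 0) (nat_lit 1760667117807) (nat_lit 76) (nat_lit 264077827027) (nat_lit 76) (nat_lit 263591061375) (nat_lit 1) (nat_lit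 4) (nat_lit 2) (nat_lit 5) (nat_lit 2) (nat_lit 4) (nat_lit 315) (nat_lit 241) (nat_lit 224)) (XT.lf (nat_lit 0) (nat_lit 2026322249520) (nat_lit 76) (nat_lit 302820920782) (nat_lit 76) (nat_lit 302327650729) (nat_lit 1) (nat_lit 4) (nat_lit 2) (nat_lit 5) (nat_lit 2) (nat_lit 4) (nat_lit 316) (nat_lit 241) (nat_lit 223)))) (XT.nd (nat_lit 156) (nat_lit 0) (nat_lit 0) (XT.nd (nat_lit 78) (nat_lit 0) (nat_lit 0) (XT.lf (nat_lit 0) (nat_lit 2331795628241) (nat_lit 76) (nat_lit 347390693723) (nat_lit 76) (nat_lit 346891767669) (nat_lit 1) (nat_lit 4) (nat_lit 2) (nat_lit 5) (nat_lit 2) (nat_lit 4) (nat_lit 317) (nat_lit 241) (nat_lit 222)) (XT.lf (nat_lit 0) (nat_lit 2683063907032) (nat_lit 76) (nat_lit 398659163146) (nat_lit 76) (nat_lit 398155318831) (nat_lit 1) (nat_lit 4) (nat_lit 2) (nat_lit 5) (nat_lit 2) (nat_lit 4) (nat_lit 318) (nat_lit 241) (nat_lit 221))) (XT.nd (nat_lit 78)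 (nat_lit 0) (nat_lit 0) (XT.lf (nat_lit 0) (nat_lit 3086999726130) (nat_lit 76) (nat_lit 457629407802) (nat_lit 76) (nat_lit 457121286737) (nat_lit 1) (nat_lit 4) (nat_lit 2) (nat_lit 5) (nat_lit 2) (nat_lit 4) (nat_lit 319) (nat_lit 241) (nat_lit 220)) (XT.nd (nat_lit 78) (nat_lit 0) (nat_lit 0) (XT.lf (nat_lit 0) (nat_lit 3551506177647) (nat_lit 76) (nat_lit 525455193345) (nat_lit 76) (nat_lit 524943353369) (nat_lit 1) (nat_lit 4) (nat_lit 2) (nat_lit 5) (nat_lit 2) (nat_lit 4) (nat_lit 320) (nat_lit 241) (nat_lit 219)) (XT.lf (nat_lit 0) (nat_lit 4085671431289) (nat_lit 76) (nat_lit 603463546016) (nat_lit 76) (nat_lit 602948472203) (nat_lit 1) (nat_lit 4) (nat_lit 2) (nat_lit 5) (nat_lit 2) (nat_lit 4) (nat_lit 321) (nat_lit 241) (nat_lit 218)))))) (XT.nd (nat_lit 312) (nat_lit 0) (nat_lit 0) (XT.nd (nat_lit 156) (nat_lit 0) (nat_lit 0) (XT.nd (nat_lit 78) (nat_lit 0) (nat_lit 0)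 (XT.lf (nat_lit 0) (nat_lit 4699946546364) (nat_lit 76) (nat_lit 693180716192) (nat_lit 76) (nat_lit 692662830347) (nat_lit 1) (nat_lit 4) (nat_lit 2) (nat_lit 5) (nat_lit 2) (nat_lit 4) (nat_lit 322) (nat_lit 241) (nat_lit 217)) (XT.lf (nat_lit 0) (nat_lit 5406349949038) (nat_lit 76) (nat_lit 796362039812) (nat_lit 76) (nat_lit 795841708721) (nat_lit 1) (nat_lit 4) (nat_lit 2) (nat_lit 5) (nat_lit 2) (nat_lit 4) (nat_lit 323) (nat_lit 241) (nat_lit 216))) (XT.nd (nat_lit 78) (nat_lit 0) (nat_lit 0) (XT.lf (nat_lit 0) (nat_lit 6218702575450) (nat_lit 76) (nat_lit 915026281902) (nat_lit 76) (nat_lit 914503824512) (nat_lit 1) (nat_lit 4) (nat_lit 2) (nat_lit 5) (nat_lit 2) (nat_lit 4) (nat_lit 324) (nat_lit 241) (nat_lit 215)) (XT.lf (nat_lit 0) (nat_lit 7152898281333) (nat_lit 76) (nat_lit 1051495134157) (nat_lit 76) (nat_lit 1050970827811) (nat_lit 1) (nat_lit 4) (nat_lit 2) (nat_lit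 5) (nat_lit 2) (nat_lit 4) (nat_lit 325) (nat_lit 241) (nat_lit 214)))) (XT.nd (nat_lit 156) (nat_lit 0) (nat_lit 0) (XT.nd (nat_lit 78) (nat_lit 0) (nat_lit 0) (XT.lf (nat_lit 0) (nat_lit 8227214808760) (nat_lit 76) (nat_lit 1208438639338) (nat_lit 76) (nat_lit 1207912725203) (nat_lit 1) (nat_lit 4) (nat_lit 2) (nat_lit 5) (nat_lit 2) (nat_lit 4) (nat_lit 326) (nat_lit 241) (nat_lit 213)) (XT.lf (nat_lit 0) (nat_lit 9462671394136) (nat_lit 76) (nat_lit 1388927431242) (nat_lit 76) (nat_lit 1388400119030) (nat_lit 1) (nat_lit 4) (nat_lit 2) (nat_lit 5) (nat_lit 2) (nat_lit 4) (nat_lit 327) (nat_lit 241) (nat_lit 212))) (XT.nd (nat_lit 78) (nat_lit 0) (nat_lit 0) (XT.lf (nat_lit 0) (nat_lit 10883440014133) (nat_lit 76) (nat_lit 1596492812318) (nat_lit 76) (nat_lit 1595964284387) (nat_lit 1) (nat_lit 4) (nat_lit 2) (nat_lit 5) (nat_lit 2) (nat_lit 4) (nat_lit 328) (nat_lit 241) (nat_lit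 211)) (XT.nd (nat_lit 78) (nat_lit 0) (nat_lit 0) (XT.lf (nat_lit 0) (nat_lit 12517318315662) (nat_lit 76) (nat_lit 1835195844371) (nat_lit 76) (nat_lit 1834666259293) (nat_lit 1) (nat_lit 4) (nat_lit 2) (nat_lit 5) (nat_lit 2) (nat_lit 4) (nat_lit 329) (nat_lit 241) (nat_lit 210)) (XT.lf (nat_lit 0) (nat_lit 14396273482885) (nat_lit 76) (nat_lit 2109706804115) (nat_lit 76) (nat_lit 2109176299778) (nat_lit 1) (nat_lit 4) (nat_lit 2) (nat_lit 5) (nat_lit 2) (nat_lit 4) (nat_lit 330) (nat_lit 241) (nat_lit 209))))))) (XT.nd (nat_lit 702) (nat_lit 0) (nat_lit 0) (XT.nd (nat_lit 312) (nat_lit 0) (nat_lit 0) (XT.nd (nat_lit 156) (nat_lit 0) (nat_lit 0) (XT.nd (nat_lit 78) (nat_lit 0) (nat_lit 0) (XT.lf (nat_lit 0) (nat_lit 16557067682117) (nat_lit 76) (nat_lit 2425396558153) (nat_lit 76) (nat_lit 2424865254461) (nat_lit 1) (nat_lit 4) (nat_lit 2) (nat_lit 5) (nat_lit 2) (nat_lit 4) (nat_lit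 331) (nat_lit 241) (nat_lit 208)) (XT.lf (nat_lit 0) (nat_lit 19041977321603) (nat_lit 76) (nat_lit 2788441645151) (nat_lit 76) (nat_lit 2787909646369) (nat_lit 1) (nat_lit 4) (nat_lit 2) (nat_lit 5) (nat_lit 2) (nat_lit 4) (nat_lit 332) (nat_lit 241) (nat_lit 207))) (XT.nd (nat_lit 78) (nat_lit 0) (nat_lit 0) (XT.lf (nat_lit 0) (nat_lit 21899620198638) (nat_lit 76) (nat_lit 3205945121160) (nat_lit 76) (nat_lit 3205412517950) (nat_lit 1) (nat_lit 4) (nat_lit 2) (nat_lit 5) (nat_lit 2) (nat_lit 4) (nat_lit 333) (nat_lit 241) (nat_lit 206)) (XT.lf (nat_lit 0) (nat_lit 25185906717337) (nat_lit 76) (nat_lit 3686075532448) (nat_lit 76) (nat_lit 3685542403650) (nat_lit 1) (nat_lit 4) (nat_lit 2) (nat_lit 5) (nat_lit 2) (nat_lit 4) (nat_lit 334) (nat_lit 241) (nat_lit 205)))) (XT.nd (nat_lit 156) (nat_lit 0) (nat_lit 0) (XT.nd (nat_lit 78) (nat_lit 0) (nat_lit 0) (XT.lf (nat_lit 0) (nat_lit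 28965133787850) (nat_lit 76) (nat_lit 4238226734890) (nat_lit 76) (nat_lit 4237693149058) (nat_lit 1) (nat_lit 4) (nat_lit 2) (nat_lit 5) (nat_lit 2) (nat_lit 4) (nat_lit 335) (nat_lit 241) (nat_lit 204)) (XT.lf (nat_lit 0) (nat_lit 33311242809382) (nat_lit 76) (nat_lit 4873201686794) (nat_lit 76) (nat_lit 4872667703541) (nat_lit 1) (nat_lit 4) (nat_lit 2) (nat_lit 5) (nat_lit 2) (nat_lit 4) (nat_lit 336) (nat_lit 241) (nat_lit 203))) (XT.nd (nat_lit 78) (nat_lit 0) (nat_lit 0) (XT.lf (nat_lit 0) (nat_lit 38309266349744) (nat_lit 76) (nat_lit 5603423811131) (nat_lit 76) (nat_lit 5602889482295) (nat_lit 1) (nat_lit 4) (nat_lit 2) (nat_lit 5) (nat_lit 2) (nat_lit 4) (nat_lit 337) (nat_lit 241) (nat_lit 202)) (XT.nd (nat_lit 78) (nat_lit 0) (nat_lit 0) (XT.lf (nat_lit 0) (nat_lit 44056991826033) (nat_lit 76) (nat_lit 6443180062509) (nat_lit 76) (nat_lit 6442645433166) (nat_lit 1) (nat_lit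 4) (nat_lit 2) (nat_lit 5) (nat_lit 2) (nat_lit 4) (nat_lit 338) (nat_lit 241) (nat_lit 201)) (XT.lf (nat_lit 0) (nat_lit 50666874736696) (nat_lit 76) (nat_lit 7408900454541) (nat_lit 76) (nat_lit 7408365563887) (nat_lit 1) (nat_lit 4) (nat_lit 2) (nat_lit 5) (nat_lit 2) (nat_lit 4) (nat_lit 339) (nat_lit 241) (nat_lit 200)))))) (XT.nd (nat_lit 37518) (nat_lit 0) (nat_lit 0) (XT.nd (nat_lit 37284) (nat_lit 0) (nat_lit 0) (XT.nd (nat_lit 37206) (nat_lit 0) (nat_lit 0) (XT.lf (nat_lit 0) (nat_lit 58268238877811) (nat_lit 76) (nat_lit 8519479516637) (nat_lit 76) (nat_lit 8518944398756) (nat_lit 1) (nat_lit 4) (nat_lit 2) (nat_lit 5) (nat_lit 2) (nat_lit 4) (nat_lit 340) (nat_lit 241) (nat_lit 199)) (XT.lf (nat_lit 0) (nat_lit 52038581450) (nat_lit 76) (nat_lit 14543268020) (nat_lit 76) (nat_lit 14543268020) (nat_lit 1) (nat_lit 4) (nat_lit 2) (nat_lit 5) (nat_lit 2) (nat_lit 4) (nat_lit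 296) (nat_lit 242) (nat_lit 242))) (XT.nd (nat_lit 78) (nat_lit 0) (nat_lit 0) (XT.lf (nat_lit 0) (nat_lit 124060873126) (nat_lit 76) (nat_lit 31141208112) (nat_lit 76) (nat_lit 31060713203) (nat_lit 1) (nat_lit 4) (nat_lit 2) (nat_lit 5) (nat_lit 2) (nat_lit 4) (nat_lit 297) (nat_lit 242) (nat_lit 241)) (XT.nd (nat_lit 78) (nat_lit 0) (nat_lit 0) (XT.lf (nat_lit 0) (nat_lit 146670594749) (nat_lit 76) (nat_lit 33692375035) (nat_lit 76) (nat_lit 33541884554) (nat_lit 1) (nat_lit 4) (nat_lit 2) (nat_lit 5) (nat_lit 2) (nat_lit 4) (nat_lit 298) (nat_lit 242) (nat_lit 240)) (XT.lf (nat_lit 0) (nat_lit 172348691888) (nat_lit 76) (nat_lit 36789950946) (nat_lit 76) (nat_lit 36578594750) (nat_lit 1) (nat_lit 4) (nat_lit 2) (nat_lit 5) (nat_lit 2) (nat_lit 4) (nat_lit 299) (nat_lit 242) (nat_lit 239))))) (XT.nd (nat_lit 156) (nat_lit 0) (nat_lit 0) (XT.nd (nat_lit 78) (nat_lit 0) (nat_lit 0)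 (XT.lf (nat_lit 0) (nat_lit 201597562096) (nat_lit 76) (nat_lit 40494540592) (nat_lit 76) (nat_lit 40230257686) (nat_lit 1) (nat_lit 4) (nat_lit 2) (nat_lit 5) (nat_lit 2) (nat_lit 4) (nat_lit 300) (nat_lit 242) (nat_lit 238)) (XT.lf (nat_lit 0) (nat_lit 234989465877) (nat_lit 76) (nat_lit 44878625073) (nat_lit 76) (nat_lit 44568318942) (nat_lit 1) (nat_lit 4) (nat_lit 2) (nat_lit 5) (nat_lit 2) (nat_lit 4) (nat_lit 301) (nat_lit 242) (nat_lit 237))) (XT.nd (nat_lit 78) (nat_lit 0) (nat_lit 0) (XT.lf (nat_lit 0) (nat_lit 273177723087) (nat_lit 76) (nat_lit 50027979956) (nat_lit 76) (nat_lit 49677653629) (nat_lit 1) (nat_lit 4) (nat_lit 2) (nat_lit 5) (nat_lit 2) (nat_lit 4) (nat_lit 302) (nat_lit 242) (nat_lit 236)) (XT.nd (nat_lit 78) (nat_lit 0) (nat_lit 0) (XT.lf (nat_lit 0) (nat_lit 316909495281) (nat_lit 76) (nat_lit 56043353488) (nat_lit 76) (nat_lit 55658226991) (nat_lit 1) (nat_lit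 4) (nat_lit 2) (nat_lit 5) (nat_lit 2) (nat_lit 4) (nat_lit 303) (nat_lit 242) (nat_lit 235)) (XT.lf (nat_lit 0) (nat_lit 367040404088) (nat_lit 76) (nat_lit 63042437761) (nat_lit 76) (nat_lit 62627050246) (nat_lit 1) (nat_lit 4) (nat_lit 2) (nat_lit 5) (nat_lit 2) (nat_lit 4) (nat_lit 304) (nat_lit 242) (nat_lit 234))))))))
noncomputable def xc16 : XT := (XT.nd (nat_lit 1404) (nat_lit 0) (nat_lit 0) (XT.nd (nat_lit 702) (nat_lit 0) (nat_lit 0) (XT.nd (nat_lit 312) (nat_lit 0) (nat_lit 0) (XT.nd (nat_lit 156) (nat_lit 0) (nat_lit 0) (XT.nd (nat_lit 78) (nat_lit 0) (nat_lit 0) (XT.lf (nat_lit 0) (nat_lit 424551271638) (nat_lit 76) (nat_lit 71162171379) (nat_lit 76) (nat_lit 70720469936) (nat_lit 1) (nat_lit 4) (nat_lit 2) (nat_lit 5) (nat_lit 2) (nat_lit 4) (nat_lit 305) (nat_lit 242) (nat_lit 233)) (XT.lf (nat_lit 0) (nat_lit 490567310557) (nat_lit 76) (nat_lit 80561418697) (nat_lit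 76) (nat_lit 80096835576) (nat_lit 1) (nat_lit 4) (nat_lit 2) (nat_lit 5) (nat_lit 2) (nat_lit 4) (nat_lit 306) (nat_lit 242) (nat_lit 232))) (XT.nd (nat_lit 78) (nat_lit 0) (nat_lit 0) (XT.lf (nat_lit 0) (nat_lit 566380138996) (nat_lit 76) (nat_lit 91424078030) (nat_lit 76) (nat_lit 90939597799) (nat_lit 1) (nat_lit 4) (nat_lit 2) (nat_lit 5) (nat_lit 2) (nat_lit 4) (nat_lit 307) (nat_lit 242) (nat_lit 231)) (XT.lf (nat_lit 0) (nat_lit 653473051426) (nat_lit 76) (nat_lit 103962679671) (nat_lit 76) (nat_lit 103460897605) (nat_lit 1) (nat_lit 4) (nat_lit 2) (nat_lit 5) (nat_lit 2) (nat_lit 4) (nat_lit 308) (nat_lit 242) (nat_lit 230)))) (XT.nd (nat_lit 156) (nat_lit 0) (nat_lit 0) (XT.nd (nat_lit 78) (nat_lit 0) (nat_lit 0) (XT.lf (nat_lit 0) (nat_lit 753550039612) (nat_lit 76) (nat_lit 118422544086) (nat_lit 76) (nat_lit 117905716946) (nat_lit 1) (nat_lit 4) (nat_lit 2) (nat_lit 5) (nat_lit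 2) (nat_lit 4) (nat_lit 309) (nat_lit 242) (nat_lit 229)) (XT.lf (nat_lit 0) (nat_lit 868569131583) (nat_lit 76) (nat_lit 135086581666) (nat_lit 76) (nat_lit 134556671853) (nat_lit 1) (nat_lit 4) (nat_lit 2) (nat_lit 5) (nat_lit 2) (nat_lit 4) (nat_lit 310) (nat_lit 242) (nat_lit 228))) (XT.nd (nat_lit 78) (nat_lit 0) (nat_lit 0) (XT.lf (nat_lit 0) (nat_lit 1000780700877) (nat_lit 76) (nat_lit 154280827929) (nat_lit 76) (nat_lit 153739541879) (nat_lit 1) (nat_lit 4) (nat_lit 2) (nat_lit 5) (nat_lit 2) (nat_lit 4) (nat_lit 311) (nat_lit 242) (nat_lit 227)) (XT.nd (nat_lit 78) (nat_lit 0) (nat_lit 0) (XT.lf (nat_lit 0) (nat_lit 1152771495590) (nat_lit 76) (nat_lit 176380822476) (nat_lit 76) (nat_lit 175829644046) (nat_lit 1) (nat_lit 4) (nat_lit 2) (nat_lit 5) (nat_lit 2) (nat_lit 4) (nat_lit 312) (nat_lit 242) (nat_lit 226)) (XT.lf (nat_lit 0) (nat_lit 1327515248663) (nat_lit 76) (nat_lit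 201818956504) (nat_lit 76) (nat_lit 201259176004) (nat_lit 1) (nat_lit 4) (nat_lit 2) (nat_lit 5) (nat_lit 2) (nat_lit 4) (nat_lit 313) (nat_lit 242) (nat_lit 225)))))) (XT.nd (nat_lit 312) (nat_lit 0) (nat_lit 0) (XT.nd (nat_lit 156) (nat_lit 0) (nat_lit 0) (XT.nd (nat_lit 78) (nat_lit 0) (nat_lit 0) (XT.lf (nat_lit 0) (nat_lit 1528430859610) (nat_lit 76) (nat_lit 231092932636) (nat_lit 76) (nat_lit 230525672075) (nat_lit 1) (nat_lit 4) (nat_lit 2) (nat_lit 5) (nat_lit 2) (nat_lit 4) (nat_lit 314) (nat_lit 242) (nat_lit 224)) (XT.lf (nat_lit 0) (nat_lit 1759449286038) (nat_lit 76) (nat_lit 264775502579) (nat_lit 76) (nat_lit 264201737617) (nat_lit 1) (nat_lit 4) (nat_lit 2) (nat_lit 5) (nat_lit 2) (nat_lit 4) (nat_lit 315) (nat_lit 242) (nat_lit 223))) (XT.nd (nat_lit 78) (nat_lit 0) (nat_lit 0) (XT.lf (nat_lit 0) (nat_lit 2025090453682) (nat_lit 76) (nat_lit 303525673135) (nat_lit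 76) (nat_lit 302946252173) (nat_lit 1) (nat_lit 4) (nat_lit 2) (nat_lit 5) (nat_lit 2) (nat_lit 4) (nat_lit 316) (nat_lit 242) (nat_lit 222)) (XT.lf (nat_lit 0) (nat_lit 2330551689734) (nat_lit 76) (nat_lit 348101599816) (nat_lit 76) (nat_lit 347517260592) (nat_lit 1) (nat_lit 4) (nat_lit 2) (nat_lit 5) (nat_lit 2) (nat_lit 4) (nat_lit 317) (nat_lit 242) (nat_lit 221)))) (XT.nd (nat_lit 156) (nat_lit 0) (nat_lit 0) (XT.nd (nat_lit 78) (nat_lit 0) (nat_lit 0) (XT.lf (nat_lit 0) (nat_lit 2681809409682) (nat_lit 76) (nat_lit 399375420318) (nat_lit 76) (nat_lit 398786804345) (nat_lit 1) (nat_lit 4) (nat_lit 2) (nat_lit 5) (nat_lit 2) (nat_lit 4) (nat_lit 318) (nat_lit 242) (nat_lit 220)) (XT.lf (nat_lit 0) (nat_lit 3085736047178) (nat_lit 76) (nat_lit 458350318084) (nat_lit 76) (nat_lit 457757983199) (nat_lit 1) (nat_lit 4) (nat_lit 2) (nat_lit 5) (nat_lit 2) (nat_lit 4) (nat_lit 319) (nat_lit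 242) (nat_lit 219))) (XT.nd (nat_lit 78) (nat_lit 0) (nat_lit 0) (XT.lf (nat_lit 0) (nat_lit 3550234514694) (nat_lit 76) (nat_lit 526180149812) (nat_lit 76) (nat_lit 525584581090) (nat_lit 1) (nat_lit 4) (nat_lit 2) (nat_lit 5) (nat_lit 2) (nat_lit 4) (nat_lit 320) (nat_lit 242) (nat_lit 218)) (XT.nd (nat_lit 78) (nat_lit 0) (nat_lit 0) (XT.lf (nat_lit 0) (nat_lit 4084392825725) (nat_lit 76) (nat_lit 604192020903) (nat_lit 76) (nat_lit 603593640150) (nat_lit 1) (nat_lit 4) (nat_lit 2) (nat_lit 5) (nat_lit 2) (nat_lit 4) (nat_lit 321) (nat_lit 242) (nat_lit 217)) (XT.lf (nat_lit 0) (nat_lit 4698661903748) (nat_lit 76) (nat_lit 693912250576) (nat_lit 76) (nat_lit 693311424577) (nat_lit 1) (nat_lit 4) (nat_lit 2) (nat_lit 5) (nat_lit 2) (nat_lit 4) (nat_lit 322) (nat_lit 242) (nat_lit 216))))))) (XT.nd (nat_lit 702) (nat_lit 0) (nat_lit 0) (XT.nd (nat_lit 312) (nat_lit 0) (nat_lit 0) (XT.nd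 (nat_lit 156) (nat_lit 0) (nat_lit 0) (XT.nd (nat_lit 78) (nat_lit 0) (nat_lit 0) (XT.lf (nat_lit 0) (nat_lit 5405060056810) (nat_lit 76) (nat_lit 797096234627) (nat_lit 76) (nat_lit 796493282328) (nat_lit 1) (nat_lit 4) (nat_lit 2) (nat_lit 5) (nat_lit 2) (nat_lit 4) (nat_lit 323) (nat_lit 242) (nat_lit 215)) (XT.lf (nat_lit 0) (nat_lit 6217408118343) (nat_lit 76) (nat_lit 915762790137) (nat_lit 76) (nat_lit 915157988882) (nat_lit 1) (nat_lit 4) (nat_lit 2) (nat_lit 5) (nat_lit 2) (nat_lit 4) (nat_lit 324) (nat_lit 242) (nat_lit 214))) (XT.nd (nat_lit 78) (nat_lit 0) (nat_lit 0) (XT.lf (nat_lit 0) (nat_lit 7151599854766) (nat_lit 76) (nat_lit 1052233654061) (nat_lit 76) (nat_lit 1051627245017) (nat_lit 1) (nat_lit 4) (nat_lit 2) (nat_lit 5) (nat_lit 2) (nat_lit 4) (nat_lit 325) (nat_lit 242) (nat_lit 213)) (XT.lf (nat_lit 0) (nat_lit 8225912930489) (nat_lit 76) (nat_lit 1209178908518)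 (nat_lit 76) (nat_lit 1208571101398) (nat_lit 1) (nat_lit 4) (nat_lit 2) (nat_lit 5) (nat_lit 2) (nat_lit 4) (nat_lit 326) (nat_lit 242) (nat_lit 212)))) (XT.nd (nat_lit 156) (nat_lit 0) (nat_lit 0) (XT.nd (nat_lit 78) (nat_lit 0) (nat_lit 0) (XT.lf (nat_lit 0) (nat_lit 9461366514383) (nat_lit 76) (nat_lit 1389669221532) (nat_lit 76) (nat_lit 1389060198693) (nat_lit 1) (nat_lit 4) (nat_lit 2) (nat_lit 5) (nat_lit 2) (nat_lit 4) (nat_lit 327) (nat_lit 242) (nat_lit 211)) (XT.lf (nat_lit 0) (nat_lit 10882132524395) (nat_lit 76) (nat_lit 1597235925313) (nat_lit 76) (nat_lit 1596625845327) (nat_lit 1) (nat_lit 4) (nat_lit 2) (nat_lit 5) (nat_lit 2) (nat_lit 4) (nat_lit 328) (nat_lit 242) (nat_lit 210))) (XT.nd (nat_lit 78) (nat_lit 0) (nat_lit 0) (XT.lf (nat_lit 0) (nat_lit 12516008556373) (nat_lit 76) (nat_lit 1835940107544) (nat_lit 76) (nat_lit 1835329108299) (nat_lit 1) (nat_lit 4) (nat_lit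 2) (nat_lit 5) (nat_lit 2) (nat_lit 4) (nat_lit 329) (nat_lit 242) (nat_lit 209)) (XT.nd (nat_lit 78) (nat_lit 0) (nat_lit 0) (XT.lf (nat_lit 0) (nat_lit 14394961750073) (nat_lit 76) (nat_lit 2110452067443) (nat_lit 76) (nat_lit 2109840268843) (nat_lit 1) (nat_lit 4) (nat_lit 2) (nat_lit 5) (nat_lit 2) (nat_lit 4) (nat_lit 330) (nat_lit 242) (nat_lit 208)) (XT.lf (nat_lit 0) (nat_lit 16555754233198) (nat_lit 76) (nat_lit 2426142691181) (nat_lit 76) (nat_lit 2425530197490) (nat_lit 1) (nat_lit 4) (nat_lit 2) (nat_lit 5) (nat_lit 2) (nat_lit 4) (nat_lit 331) (nat_lit 242) (nat_lit 207)))))) (XT.nd (nat_lit 312) (nat_lit 0) (nat_lit 0) (XT.nd (nat_lit 156) (nat_lit 0) (nat_lit 0) (XT.nd (nat_lit 78) (nat_lit 0) (nat_lit 0) (XT.lf (nat_lit 0) (nat_lit 19040662380417) (nat_lit 76) (nat_lit 2789188534440) (nat_lit 76) (nat_lit 2788575436322) (nat_lit 1) (nat_lit 4) (nat_lit 2) (nat_lit 5)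 (nat_lit 2) (nat_lit 4) (nat_lit 332) (nat_lit 242) (nat_lit 206)) (XT.lf (nat_lit 0) (nat_lit 21898303959828) (nat_lit 76) (nat_lit 3206692668067) (nat_lit 76) (nat_lit 3206079044359) (nat_lit 1) (nat_lit 4) (nat_lit 2) (nat_lit 5) (nat_lit 2) (nat_lit 4) (nat_lit 333) (nat_lit 242) (nat_lit 205))) (XT.nd (nat_lit 78) (nat_lit 0) (nat_lit 0) (XT.lf (nat_lit 0) (nat_lit 25184589350159) (nat_lit 76) (nat_lit 3686823651197) (nat_lit 76) (nat_lit 3686209570456) (nat_lit 1) (nat_lit 4) (nat_lit 2) (nat_lit 5) (nat_lit 2) (nat_lit 4) (nat_lit 334) (nat_lit 242) (nat_lit 204)) (XT.lf (nat_lit 0) (nat_lit 28963815439482) (nat_lit 76) (nat_lit 4238975350893) (nat_lit 76) (nat_lit 4238360872731) (nat_lit 1) (nat_lit 4) (nat_lit 2) (nat_lit 5) (nat_lit 2) (nat_lit 4) (nat_lit 335) (nat_lit 242) (nat_lit 203)))) (XT.nd (nat_lit 156) (nat_lit 0) (nat_lit 0) (XT.nd (nat_lit 78) (nat_lit 0) (nat_lit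 0) (XT.lf (nat_lit 0) (nat_lit 33309923607805) (nat_lit 76) (nat_lit 4873950735191) (nat_lit 76) (nat_lit 4873335911446) (nat_lit 1) (nat_lit 4) (nat_lit 2) (nat_lit 5) (nat_lit 2) (nat_lit 4) (nat_lit 336) (nat_lit 242) (nat_lit 202)) (XT.lf (nat_lit 0) (nat_lit 38307946406247) (nat_lit 76) (nat_lit 5604173235523) (nat_lit 76) (nat_lit 5603558111271) (nat_lit 1) (nat_lit 4) (nat_lit 2) (nat_lit 5) (nat_lit 2) (nat_lit 4) (nat_lit 337) (nat_lit 242) (nat_lit 201))) (XT.nd (nat_lit 78) (nat_lit 0) (nat_lit 0) (XT.lf (nat_lit 0) (nat_lit 44055671237387) (nat_lit 76) (nat_lit 6443929813853) (nat_lit 76) (nat_lit 6443314428291) (nat_lit 1) (nat_lit 4) (nat_lit 2) (nat_lit 5) (nat_lit 2) (nat_lit 4) (nat_lit 338) (nat_lit 242) (nat_lit 200)) (XT.nd (nat_lit 78) (nat_lit 0) (nat_lit 0) (XT.lf (nat_lit 0) (nat_lit 50665553587052) (nat_lit 76) (nat_lit 7409650490192) (nat_lit 76) (nat_lit 7409034877403)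 (nat_lit 1) (nat_lit 4) (nat_lit 2) (nat_lit 5) (nat_lit 2) (nat_lit 4) (nat_lit 339) (nat_lit 242) (nat_lit 199)) (XT.lf (nat_lit 0) (nat_lit 58266917240343) (nat_lit 76) (nat_lit 8520229799511) (nat_lit 76) (nat_lit 8519613989133) (nat_lit 1) (nat_lit 4) (nat_lit 2) (nat_lit 5) (nat_lit 2) (nat_lit 4) (nat_lit 340) (nat_lit 242) (nat_lit 198))))))))
noncomputable def xc17 : XT := (XT.nd (nat_lit 1404) (nat_lit 0) (nat_lit 0) (XT.nd (nat_lit 702) (nat_lit 0) (nat_lit 0) (XT.nd (nat_lit 312) (nat_lit 0) (nat_lit 0) (XT.nd (nat_lit 156) (nat_lit 0) (nat_lit 0) (XT.nd (nat_lit 78) (nat_lit 0) (nat_lit 0) (XT.lf (nat_lit 0) (nat_lit 35348053165) (nat_lit 76) (nat_lit 13145774977) (nat_lit 76) (nat_lit 13145774977) (nat_lit 1) (nat_lit 4) (nat_lit 2) (nat_lit 5) (nat_lit 2) (nat_lit 4) (nat_lit 294) (nat_lit 243) (nat_lit 243)) (XT.lf (nat_lit 0) (nat_lit 86328478438) (nat_lit 76) (nat_lit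 27580727862) (nat_lit 76) (nat_lit 27488158717) (nat_lit 1) (nat_lit 4) (nat_lit 2) (nat_lit 5) (nat_lit 2) (nat_lit 4) (nat_lit 295) (nat_lit 243) (nat_lit 242))) (XT.nd (nat_lit 78) (nat_lit 0) (nat_lit 0) (XT.lf (nat_lit 0) (nat_lit 103878429456) (nat_lit 76) (nat_lit 29279820604) (nat_lit 76) (nat_lit 29106756550) (nat_lit 1) (nat_lit 4) (nat_lit 2) (nat_lit 5) (nat_lit 2) (nat_lit 4) (nat_lit 296) (nat_lit 243) (nat_lit 241)) (XT.lf (nat_lit 0) (nat_lit 123689327990) (nat_lit 76) (nat_lit 31422071299) (nat_lit 76) (nat_lit 31179011672) (nat_lit 1) (nat_lit 4) (nat_lit 2) (nat_lit 5) (nat_lit 2) (nat_lit 4) (nat_lit 297) (nat_lit 243) (nat_lit 240)))) (XT.nd (nat_lit 156) (nat_lit 0) (nat_lit 0) (XT.nd (nat_lit 78) (nat_lit 0) (nat_lit 0) (XT.lf (nat_lit 0) (nat_lit 146148778577) (nat_lit 76) (nat_lit 34049393547) (nat_lit 76) (nat_lit 33745468206) (nat_lit 1) (nat_lit 4) (nat_lit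 2) (nat_lit 5) (nat_lit 2) (nat_lit 4) (nat_lit 298) (nat_lit 243) (nat_lit 239)) (XT.lf (nat_lit 0) (nat_lit 171696205250) (nat_lit 76) (nat_lit 37213191481) (nat_lit 76) (nat_lit 36856339430) (nat_lit 1) (nat_lit 4) (nat_lit 2) (nat_lit 5) (nat_lit 2) (nat_lit 4) (nat_lit 299) (nat_lit 243) (nat_lit 238))) (XT.nd (nat_lit 78) (nat_lit 0) (nat_lit 0) (XT.lf (nat_lit 0) (nat_lit 200831448965) (nat_lit 76) (nat_lit 40975365493) (nat_lit 76) (nat_lit 40572490217) (nat_lit 1) (nat_lit 4) (nat_lit 2) (nat_lit 5) (nat_lit 2) (nat_lit 4) (nat_lit 300) (nat_lit 243) (nat_lit 237)) (XT.nd (nat_lit 78) (nat_lit 0) (nat_lit 0) (XT.lf (nat_lit 0) (nat_lit 234124547101) (nat_lit 76) (nat_lit 45409523337) (nat_lit 76) (nat_lit 44966627865) (nat_lit 1) (nat_lit 4) (nat_lit 2) (nat_lit 5) (nat_lit 2) (nat_lit 4) (nat_lit 301) (nat_lit 243) (nat_lit 236)) (XT.lf (nat_lit 0) (nat_lit 272226886359) (nat_lit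 76) (nat_lit 50602420274) (nat_lit 76) (nat_lit 50124724632) (nat_lit 1) (nat_lit 4) (nat_lit 2) (nat_lit 5) (nat_lit 2) (nat_lit 4) (nat_lit 302) (nat_lit 243) (nat_lit 235)))))) (XT.nd (nat_lit 312) (nat_lit 0) (nat_lit 0) (XT.nd (nat_lit 156) (nat_lit 0) (nat_lit 0) (XT.nd (nat_lit 78) (nat_lit 0) (nat_lit 0) (XT.lf (nat_lit 0) (nat_lit 315883947290) (nat_lit 76) (nat_lit 56655656462) (nat_lit 76) (nat_lit 56147699802) (nat_lit 1) (nat_lit 4) (nat_lit 2) (nat_lit 5) (nat_lit 2) (nat_lit 4) (nat_lit 303) (nat_lit 243) (nat_lit 234)) (XT.lf (nat_lit 0) (nat_lit 365949889781) (nat_lit 76) (nat_lit 63687664784) (nat_lit 76) (nat_lit 63153394195) (nat_lit 1) (nat_lit 4) (nat_lit 2) (nat_lit 5) (nat_lit 2) (nat_lit 4) (nat_lit 304) (nat_lit 243) (nat_lit 233))) (XT.nd (nat_lit 78) (nat_lit 0) (nat_lit 0) (XT.lf (nat_lit 0) (nat_lit 423404264883) (nat_lit 76) (nat_lit 71836028010) (nat_lit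 76) (nat_lit 71278875744) (nat_lit 1) (nat_lit 4) (nat_lit 2) (nat_lit 5) (nat_lit 2) (nat_lit 4) (nat_lit 305) (nat_lit 243) (nat_lit 232)) (XT.lf (nat_lit 0) (nat_lit 489371179933) (nat_lit 76) (nat_lit 81260170638) (nat_lit 76) (nat_lit 80683121262) (nat_lit 1) (nat_lit 4) (nat_lit 2) (nat_lit 5) (nat_lit 2) (nat_lit 4) (nat_lit 306) (nat_lit 243) (nat_lit 231)))) (XT.nd (nat_lit 156) (nat_lit 0) (nat_lit 0) (XT.nd (nat_lit 78) (nat_lit 0) (nat_lit 0) (XT.lf (nat_lit 0) (nat_lit 565141291965) (nat_lit 76) (nat_lit 92144478068) (nat_lit 76) (nat_lit 91550126857) (nat_lit 1) (nat_lit 4) (nat_lit 2) (nat_lit 5) (nat_lit 2) (nat_lit 4) (nat_lit 307) (nat_lit 243) (nat_lit 230)) (XT.lf (nat_lit 0) (nat_lit 652197059694) (nat_lit 76) (nat_lit 104701904140) (nat_lit 76) (nat_lit 104092507856) (nat_lit 1) (nat_lit 4) (nat_lit 2) (nat_lit 5) (nat_lit 2) (nat_lit 4) (nat_lit 308) (nat_lit 243)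 (nat_lit 229))) (XT.nd (nat_lit 78) (nat_lit 0) (nat_lit 0) (XT.lf (nat_lit 0) (nat_lit 752241748138) (nat_lit 76) (nat_lit 119178137627) (nat_lit 76) (nat_lit 118555658669) (nat_lit 1) (nat_lit 4) (nat_lit 2) (nat_lit 5) (nat_lit 2) (nat_lit 4) (nat_lit 309) (nat_lit 243) (nat_lit 228)) (XT.nd (nat_lit 78) (nat_lit 0) (nat_lit 0) (XT.lf (nat_lit 0) (nat_lit 867232753378) (nat_lit 76) (nat_lit 135856409182) (nat_lit 76) (nat_lit 135222553987) (nat_lit 1) (nat_lit 4) (nat_lit 2) (nat_lit 5) (nat_lit 2) (nat_lit 4) (nat_lit 310) (nat_lit 243) (nat_lit 227)) (XT.lf (nat_lit 0) (nat_lit 999419899428) (nat_lit 76) (nat_lit 155063032814) (nat_lit 76) (nat_lit 154419285239) (nat_lit 1) (nat_lit 4) (nat_lit 2) (nat_lit 5) (nat_lit 2) (nat_lit 4) (nat_lit 311) (nat_lit 243) (nat_lit 226))))))) (XT.nd (nat_lit 702) (nat_lit 0) (nat_lit 0) (XT.nd (nat_lit 312) (nat_lit 0) (nat_lit 0) (XT.nd (nat_lit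 156) (nat_lit 0) (nat_lit 0) (XT.nd (nat_lit 78) (nat_lit 0) (nat_lit 0) (XT.lf (nat_lit 0) (nat_lit 1151389456538) (nat_lit 76) (nat_lit 177173790291) (nat_lit 76) (nat_lit 176521440646) (nat_lit 1) (nat_lit 4) (nat_lit 2) (nat_lit 5) (nat_lit 2) (nat_lit 4) (nat_lit 312) (nat_lit 243) (nat_lit 225)) (XT.lf (nat_lit 0) (nat_lit 1326114742128) (nat_lit 76) (nat_lit 202621283389) (nat_lit 76) (nat_lit 201961453683) (nat_lit 1) (nat_lit 4) (nat_lit 2) (nat_lit 5) (nat_lit 2) (nat_lit 4) (nat_lit 313) (nat_lit 243) (nat_lit 224))) (XT.nd (nat_lit 78) (nat_lit 0) (nat_lit 0) (XT.lf (nat_lit 0) (nat_lit 1527014294396) (nat_lit 76) (nat_lit 231903397842) (nat_lit 76) (nat_lit 231237063735) (nat_lit 1) (nat_lit 4) (nat_lit 2) (nat_lit 5) (nat_lit 2) (nat_lit 4) (nat_lit 314) (nat_lit 243) (nat_lit 223)) (XT.lf (nat_lit 0) (nat_lit 1758018756755) (nat_lit 76) (nat_lit 265593044585) (nat_lit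 76) (nat_lit 264921054478) (nat_lit 1) (nat_lit 4) (nat_lit 2) (nat_lit 5) (nat_lit 2) (nat_lit 4) (nat_lit 315) (nat_lit 243) (nat_lit 222)))) (XT.nd (nat_lit 156) (nat_lit 0) (nat_lit 0) (XT.nd (nat_lit 78) (nat_lit 0) (nat_lit 0) (XT.lf (nat_lit 0) (nat_lit 2023647781730) (nat_lit 76) (nat_lit 304349368882) (nat_lit 76) (nat_lit 303672460513) (nat_lit 1) (nat_lit 4) (nat_lit 2) (nat_lit 5) (nat_lit 2) (nat_lit 4) (nat_lit 316) (nat_lit 243) (nat_lit 221)) (XT.lf (nat_lit 0) (nat_lit 2329098458939) (nat_lit 76) (nat_lit 348930646641) (nat_lit 76) (nat_lit 348249461523) (nat_lit 1) (nat_lit 4) (nat_lit 2) (nat_lit 5) (nat_lit 2) (nat_lit 4) (nat_lit 317) (nat_lit 243) (nat_lit 220))) (XT.nd (nat_lit 78) (nat_lit 0) (nat_lit 0) (XT.lf (nat_lit 0) (nat_lit 2680346997285) (nat_lit 76) (nat_lit 400209120254) (nat_lit 76) (nat_lit 399524216224) (nat_lit 1) (nat_lit 4) (nat_lit 2) (nat_lit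 5) (nat_lit 2) (nat_lit 4) (nat_lit 318) (nat_lit 243) (nat_lit 219)) (XT.nd (nat_lit 78) (nat_lit 0) (nat_lit 0) (XT.lf (nat_lit 0) (nat_lit 3084265650779) (nat_lit 76) (nat_lit 459188064205) (nat_lit 76) (nat_lit 458499926339) (nat_lit 1) (nat_lit 4) (nat_lit 2) (nat_lit 5) (nat_lit 2) (nat_lit 4) (nat_lit 319) (nat_lit 243) (nat_lit 218)) (XT.lf (nat_lit 0) (nat_lit 3548757175684) (nat_lit 76) (nat_lit 527021414354) (nat_lit 76) (nat_lit 526330464455) (nat_lit 1) (nat_lit 4) (nat_lit 2) (nat_lit 5) (nat_lit 2) (nat_lit 4) (nat_lit 320) (nat_lit 243) (nat_lit 217)))))) (XT.nd (nat_lit 390) (nat_lit 0) (nat_lit 0) (XT.nd (nat_lit 156) (nat_lit 0) (nat_lit 0) (XT.nd (nat_lit 78) (nat_lit 0) (nat_lit 0) (XT.lf (nat_lit 0) (nat_lit 4082909449663) (nat_lit 76) (nat_lit 605036344942) (nat_lit 76) (nat_lit 604342949798) (nat_lit 1) (nat_lit 4) (nat_lit 2) (nat_lit 5) (nat_lit 2) (nat_lit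 4) (nat_lit 321) (nat_lit 243) (nat_lit 216)) (XT.lf (nat_lit 0) (nat_lit 4697173278075) (nat_lit 76) (nat_lit 694759235046) (nat_lit 76) (nat_lit 694063713602) (nat_lit 1) (nat_lit 4) (nat_lit 2) (nat_lit 5) (nat_lit 2) (nat_lit 4) (nat_lit 322) (nat_lit 243) (nat_lit 215))) (XT.nd (nat_lit 78) (nat_lit 0) (nat_lit 0) (XT.lf (nat_lit 0) (nat_lit 5403566866259) (nat_lit 76) (nat_lit 797945532516) (nat_lit 76) (nat_lit 797248162116) (nat_lit 1) (nat_lit 4) (nat_lit 2) (nat_lit 5) (nat_lit 2) (nat_lit 4) (nat_lit 323) (nat_lit 243) (nat_lit 214)) (XT.nd (nat_lit 78) (nat_lit 0) (nat_lit 0) (XT.lf (nat_lit 0) (nat_lit 6215910958331) (nat_lit 76) (nat_lit 916614099694) (nat_lit 76) (nat_lit 915915121506) (nat_lit 1) (nat_lit 4) (nat_lit 2) (nat_lit 5) (nat_lit 2) (nat_lit 4) (nat_lit 324) (nat_lit 243) (nat_lit 213)) (XT.lf (nat_lit 0) (nat_lit 7150099243050) (nat_lit 76) (nat_lit 1053086712895)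 (nat_lit 76) (nat_lit 1052386336629) (nat_lit 1) (nat_lit 4) (nat_lit 2) (nat_lit 5) (nat_lit 2) (nat_lit 4) (nat_lit 325) (nat_lit 243) (nat_lit 212))))) (XT.nd (nat_lit 156) (nat_lit 0) (nat_lit 0) (XT.nd (nat_lit 78) (nat_lit 0) (nat_lit 0) (XT.lf (nat_lit 0) (nat_lit 8224409317291) (nat_lit 76) (nat_lit 1210033488463) (nat_lit 76) (nat_lit 1209331896478) (nat_lit 1) (nat_lit 4) (nat_lit 2) (nat_lit 5) (nat_lit 2) (nat_lit 4) (nat_lit 326) (nat_lit 243) (nat_lit 211)) (XT.lf (nat_lit 0) (nat_lit 9459860291201) (nat_lit 76) (nat_lit 1390525124182) (nat_lit 76) (nat_lit 1389822475050) (nat_lit 1) (nat_lit 4) (nat_lit 2) (nat_lit 5) (nat_lit 2) (nat_lit 4) (nat_lit 327) (nat_lit 243) (nat_lit 210))) (XT.nd (nat_lit 78) (nat_lit 0) (nat_lit 0) (XT.lf (nat_lit 0) (nat_lit 10880624031661) (nat_lit 76) (nat_lit 1598092978141) (nat_lit 76) (nat_lit 1597389409751) (nat_lit 1) (nat_lit 4) (nat_lit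 2) (nat_lit 5) (nat_lit 2) (nat_lit 4) (nat_lit 328) (nat_lit 243) (nat_lit 209)) (XT.nd (nat_lit 78) (nat_lit 0) (nat_lit 0) (XT.lf (nat_lit 0) (nat_lit 12514498090116) (nat_lit 76) (nat_lit 1836798160527) (nat_lit 76) (nat_lit 1836093792782) (nat_lit 1) (nat_lit 4) (nat_lit 2) (nat_lit 5) (nat_lit 2) (nat_lit 4) (nat_lit 329) (nat_lit 243) (nat_lit 208)) (XT.lf (nat_lit 0) (nat_lit 14393449567709) (nat_lit 76) (nat_lit 2111310990125) (nat_lit 76) (nat_lit 2110605927289) (nat_lit 1) (nat_lit 4) (nat_lit 2) (nat_lit 5) (nat_lit 2) (nat_lit 4) (nat_lit 330) (nat_lit 243) (nat_lit 207))))))))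
noncomputable def xc18 : XT := (XT.nd (nat_lit 38142) (nat_lit 0) (nat_lit 0) (XT.nd (nat_lit 702) (nat_lit 0) (nat_lit 0) (XT.nd (nat_lit 312) (nat_lit 0) (nat_lit 0) (XT.nd (nat_lit 156) (nat_lit 0) (nat_lit 0) (XT.nd (nat_lit 78) (nat_lit 0) (nat_lit 0) (XT.lf (nat_lit 0) (nat_lit 16554240558566) (nat_lit 76) (nat_lit 2427002370123) (nat_lit 76) (nat_lit 2426296702860) (nat_lit 1) (nat_lit 4) (nat_lit 2) (nat_lit 5) (nat_lit 2) (nat_lit 4) (nat_lit 331) (nat_lit 243) (nat_lit 206)) (XT.lf (nat_lit 0) (nat_lit 19039147408162) (nat_lit 76) (nat_lit 2790048871001) (nat_lit 76) (nat_lit 2789342678149) (nat_lit 1) (nat_lit 4) (nat_lit 2) (nat_lit 5) (nat_lit 2) (nat_lit 4) (nat_lit 332) (nat_lit 243) (nat_lit 205))) (XT.nd (nat_lit 78) (nat_lit 0) (nat_lit 0) (XT.lf (nat_lit 0) (nat_lit 21896787859205) (nat_lit 76) (nat_lit 3207553576469) (nat_lit 76) (nat_lit 3206846926583) (nat_lit 1)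 (nat_lit 4) (nat_lit 2) (nat_lit 5) (nat_lit 2) (nat_lit 4) (nat_lit 333) (nat_lit 243) (nat_lit 204)) (XT.lf (nat_lit 0) (nat_lit 25183072268346) (nat_lit 76) (nat_lit 3687685056853) (nat_lit 76) (nat_lit 3686978009547) (nat_lit 1) (nat_lit 4) (nat_lit 2) (nat_lit 5) (nat_lit 2) (nat_lit 4) (nat_lit 334) (nat_lit 243) (nat_lit 203)))) (XT.nd (nat_lit 156) (nat_lit 0) (nat_lit 0) (XT.nd (nat_lit 78) (nat_lit 0) (nat_lit 0) (XT.lf (nat_lit 0) (nat_lit 28962297504461) (nat_lit 76) (nat_lit 4239837188943) (nat_lit 76) (nat_lit 4239129796054) (nat_lit 1) (nat_lit 4) (nat_lit 2) (nat_lit 5) (nat_lit 2) (nat_lit 4) (nat_lit 335) (nat_lit 243) (nat_lit 202)) (XT.lf (nat_lit 0) (nat_lit 33308404930863) (nat_lit 76) (nat_lit 4874812949237) (nat_lit 76) (nat_lit 4874105255840) (nat_lit 1) (nat_lit 4) (nat_lit 2) (nat_lit 5) (nat_lit 2) (nat_lit 4) (nat_lit 336) (nat_lit 243) (nat_lit 201))) (XT.nd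 (nat_lit 78) (nat_lit 0) (nat_lit 0) (XT.lf (nat_lit 0) (nat_lit 38306427084157) (nat_lit 76) (nat_lit 5605035776522) (nat_lit 76) (nat_lit 5604327821814) (nat_lit 1) (nat_lit 4) (nat_lit 2) (nat_lit 5) (nat_lit 2) (nat_lit 4) (nat_lit 337) (nat_lit 243) (nat_lit 200)) (XT.nd (nat_lit 78) (nat_lit 0) (nat_lit 0) (XT.lf (nat_lit 0) (nat_lit 44054151354299) (nat_lit 76) (nat_lit 6444792639158) (nat_lit 76) (nat_lit 6444084457224) (nat_lit 1) (nat_lit 4) (nat_lit 2) (nat_lit 5) (nat_lit 2) (nat_lit 4) (nat_lit 338) (nat_lit 243) (nat_lit 199)) (XT.lf (nat_lit 0) (nat_lit 50664033216139) (nat_lit 76) (nat_lit 7410513562720) (nat_lit 76) (nat_lit 7409805183197) (nat_lit 1) (nat_lit 4) (nat_lit 2) (nat_lit 5) (nat_lit 2) (nat_lit 4) (nat_lit 339) (nat_lit 243) (nat_lit 198)))))) (XT.nd (nat_lit 37050) (nat_lit 0) (nat_lit 0) (XT.nd (nat_lit 36894) (nat_lit 0) (nat_lit 0) (XT.nd (nat_lit 78)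 (nat_lit 0) (nat_lit 0) (XT.lf (nat_lit 0) (nat_lit 58265396445234) (nat_lit 76) (nat_lit 8521093087015) (nat_lit 76) (nat_lit 8520384535676) (nat_lit 1) (nat_lit 4) (nat_lit 2) (nat_lit 5) (nat_lit 2) (nat_lit 4) (nat_lit 340) (nat_lit 243) (nat_lit 197)) (XT.lf (nat_lit 0) (nat_lit 67006963365633) (nat_lit 76) (nat_lit 9798259941867) (nat_lit 76) (nat_lit 9797551241123) (nat_lit 1) (nat_lit 4) (nat_lit 2) (nat_lit 5) (nat_lit 2) (nat_lit 4) (nat_lit 341) (nat_lit 243) (nat_lit 196))) (XT.nd (nat_lit 78) (nat_lit 0) (nat_lit 0) (XT.lf (nat_lit 0) (nat_lit 22127527300) (nat_lit 76) (nat_lit 12411415706) (nat_lit 76) (nat_lit 12411415706) (nat_lit 1) (nat_lit 4) (nat_lit 2) (nat_lit 5) (nat_lit 2) (nat_lit 4) (nat_lit 292) (nat_lit 244) (nat_lit 244)) (XT.lf (nat_lit 0) (nat_lit 56675462373) (nat_lit 76) (nat_lit 25493518352) (nat_lit 76) (nat_lit 25387063835) (nat_lit 1) (nat_lit 4)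 (nat_lit 2) (nat_lit 5) (nat_lit 2) (nat_lit 4) (nat_lit 293) (nat_lit 244) (nat_lit 243)))) (XT.nd (nat_lit 156) (nat_lit 0) (nat_lit 0) (XT.nd (nat_lit 78) (nat_lit 0) (nat_lit 0) (XT.lf (nat_lit 0) (nat_lit 70467562869) (nat_lit 76) (nat_lit 26513827201) (nat_lit 76) (nat_lit 26314803540) (nat_lit 1) (nat_lit 4) (nat_lit 2) (nat_lit 5) (nat_lit 2) (nat_lit 4) (nat_lit 294) (nat_lit 244) (nat_lit 242)) (XT.lf (nat_lit 0) (nat_lit 85901201532) (nat_lit 76) (nat_lit 27903720527) (nat_lit 76) (nat_lit 27624201956) (nat_lit 1) (nat_lit 4) (nat_lit 2) (nat_lit 5) (nat_lit 2) (nat_lit 4) (nat_lit 295) (nat_lit 244) (nat_lit 241))) (XT.nd (nat_lit 78) (nat_lit 0) (nat_lit 0) (XT.lf (nat_lit 0) (nat_lit 103278340858) (nat_lit 76) (nat_lit 29690391893) (nat_lit 76) (nat_lit 29340877750) (nat_lit 1) (nat_lit 4) (nat_lit 2) (nat_lit 5) (nat_lit 2) (nat_lit 4) (nat_lit 296) (nat_lit 244) (nat_lit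 240)) (XT.nd (nat_lit 78) (nat_lit 0) (nat_lit 0) (XT.lf (nat_lit 0) (nat_lit 122938968356) (nat_lit 76) (nat_lit 31908797913) (nat_lit 76) (nat_lit 31498418054) (nat_lit 1) (nat_lit 4) (nat_lit 2) (nat_lit 5) (nat_lit 2) (nat_lit 4) (nat_lit 297) (nat_lit 244) (nat_lit 239)) (XT.lf (nat_lit 0) (nat_lit 145267748477) (nat_lit 76) (nat_lit 34602342184) (nat_lit 76) (nat_lit 34139035616) (nat_lit 1) (nat_lit 4) (nat_lit 2) (nat_lit 5) (nat_lit 2) (nat_lit 4) (nat_lit 298) (nat_lit 244) (nat_lit 238))))))) (XT.nd (nat_lit 702) (nat_lit 0) (nat_lit 0) (XT.nd (nat_lit 312) (nat_lit 0) (nat_lit 0) (XT.nd (nat_lit 156) (nat_lit 0) (nat_lit 0) (XT.nd (nat_lit 78) (nat_lit 0) (nat_lit 0) (XT.lf (nat_lit 0) (nat_lit 170701548658) (nat_lit 76) (nat_lit 37823724484) (nat_lit 76) (nat_lit 37314394691) (nat_lit 1) (nat_lit 4) (nat_lit 2) (nat_lit 5) (nat_lit 2) (nat_lit 4) (nat_lit 299) (nat_lit 244)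 (nat_lit 237)) (XT.lf (nat_lit 0) (nat_lit 199737986728) (nat_lit 76) (nat_lit 41635971859) (nat_lit 76) (nat_lit 41086621870) (nat_lit 1) (nat_lit 4) (nat_lit 2) (nat_lit 5) (nat_lit 2) (nat_lit 4) (nat_lit 300) (nat_lit 244) (nat_lit 236))) (XT.nd (nat_lit 78) (nat_lit 0) (nat_lit 0) (XT.lf (nat_lit 0) (nat_lit 232945166911) (nat_lit 76) (nat_lit 46113671757) (nat_lit 76) (nat_lit 45529521598) (nat_lit 1) (nat_lit 4) (nat_lit 2) (nat_lit 5) (nat_lit 2) (nat_lit 4) (nat_lit 301) (nat_lit 244) (nat_lit 235)) (XT.lf (nat_lit 0) (nat_lit 270972794905) (nat_lit 76) (nat_lit 51344431350) (nat_lit 76) (nat_lit 50730020174) (nat_lit 1) (nat_lit 4) (nat_lit 2) (nat_lit 5) (nat_lit 2) (nat_lit 4) (nat_lit 302) (nat_lit 244) (nat_lit 234)))) (XT.nd (nat_lit 156) (nat_lit 0) (nat_lit 0) (XT.nd (nat_lit 78) (nat_lit 0) (nat_lit 0) (XT.lf (nat_lit 0) (nat_lit 314564889521) (nat_lit 76) (nat_lit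 57430591587) (nat_lit 76) (nat_lit 56789866482) (nat_lit 1) (nat_lit 4) (nat_lit 2) (nat_lit 5) (nat_lit 2) (nat_lit 4) (nat_lit 303) (nat_lit 244) (nat_lit 233)) (XT.lf (nat_lit 0) (nat_lit 364574339564) (nat_lit 76) (nat_lit 64491229516) (nat_lit 76) (nat_lit 63827622734) (nat_lit 1) (nat_lit 4) (nat_lit 2) (nat_lit 5) (nat_lit 2) (nat_lit 4) (nat_lit 304) (nat_lit 244) (nat_lit 232))) (XT.nd (nat_lit 78) (nat_lit 0) (nat_lit 0) (XT.lf (nat_lit 0) (nat_lit 421979590798) (nat_lit 76) (nat_lit 72664488053) (nat_lit 76) (nat_lit 71980984161) (nat_lit 1) (nat_lit 4) (nat_lit 2) (nat_lit 5) (nat_lit 2) (nat_lit 4) (nat_lit 305) (nat_lit 244) (nat_lit 231)) (XT.nd (nat_lit 78) (nat_lit 0) (nat_lit 0) (XT.lf (nat_lit 0) (nat_lit 487903789441) (nat_lit 76) (nat_lit 82110278778) (nat_lit 76) (nat_lit 81409473051) (nat_lit 1) (nat_lit 4) (nat_lit 2) (nat_lit 5) (nat_lit 2) (nat_lit 4) (nat_lit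 306) (nat_lit 244) (nat_lit 230)) (XT.lf (nat_lit 0) (nat_lit 563636756771) (nat_lit 76) (nat_lit 93013410640) (nat_lit 76) (nat_lit 92297559838) (nat_lit 1) (nat_lit 4) (nat_lit 2) (nat_lit 5) (nat_lit 2) (nat_lit 4) (nat_lit 307) (nat_lit 244) (nat_lit 229)))))) (XT.nd (nat_lit 390) (nat_lit 0) (nat_lit 0) (XT.nd (nat_lit 156) (nat_lit 0) (nat_lit 0) (XT.nd (nat_lit 78) (nat_lit 0) (nat_lit 0) (XT.lf (nat_lit 0) (nat_lit 650660224758) (nat_lit 76) (nat_lit 105587205783) (nat_lit 76) (nat_lit 104858272309) (nat_lit 1) (nat_lit 4) (nat_lit 2) (nat_lit 5) (nat_lit 2) (nat_lit 4) (nat_lit 308) (nat_lit 244) (nat_lit 228)) (XT.lf (nat_lit 0) (nat_lit 750676826472) (nat_lit 76) (nat_lit 120077673244) (nat_lit 76) (nat_lit 119337363532) (nat_lit 1) (nat_lit 4) (nat_lit 2) (nat_lit 5) (nat_lit 2) (nat_lit 4) (nat_lit 309) (nat_lit 244) (nat_lit 227))) (XT.nd (nat_lit 78) (nat_lit 0) (nat_lit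 0) (XT.lf (nat_lit 0) (nat_lit 865643408467) (nat_lit 76) (nat_lit 136768322169) (nat_lit 76) (nat_lit 136018120077) (nat_lit 1) (nat_lit 4) (nat_lit 2) (nat_lit 5) (nat_lit 2) (nat_lit 4) (nat_lit 310) (nat_lit 244) (nat_lit 226)) (XT.nd (nat_lit 78) (nat_lit 0) (nat_lit 0) (XT.lf (nat_lit 0) (nat_lit 997809316914) (nat_lit 76) (nat_lit 155985708731) (nat_lit 76) (nat_lit 155226904569) (nat_lit 1) (nat_lit 4) (nat_lit 2) (nat_lit 5) (nat_lit 2) (nat_lit 4) (nat_lit 311) (nat_lit 244) (nat_lit 225)) (XT.lf (nat_lit 0) (nat_lit 1149760406542) (nat_lit 76) (nat_lit 178105825277) (nat_lit 76) (nat_lit 177339541055) (nat_lit 1) (nat_lit 4) (nat_lit 2) (nat_lit 5) (nat_lit 2) (nat_lit 4) (nat_lit 312) (nat_lit 244) (nat_lit 224))))) (XT.nd (nat_lit 156) (nat_lit 0) (nat_lit 0) (XT.nd (nat_lit 78) (nat_lit 0) (nat_lit 0) (XT.lf (nat_lit 0) (nat_lit 1324469633452) (nat_lit 76) (nat_lit 203561456696)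 (nat_lit 76) (nat_lit 202788668073) (nat_lit 1) (nat_lit 4) (nat_lit 2) (nat_lit 5) (nat_lit 2) (nat_lit 4) (nat_lit 313) (nat_lit 244) (nat_lit 223)) (XT.lf (nat_lit 0) (nat_lit 1525355221651) (nat_lit 76) (nat_lit 232850647951) (nat_lit 76) (nat_lit 232072203327) (nat_lit 1) (nat_lit 4) (nat_lit 2) (nat_lit 5) (nat_lit 2) (nat_lit 4) (nat_lit 314) (nat_lit 244) (nat_lit 222))) (XT.nd (nat_lit 78) (nat_lit 0) (nat_lit 0) (XT.lf (nat_lit 0) (nat_lit 1756347541341) (nat_lit 76) (nat_lit 266546448435) (nat_lit 76) (nat_lit 265763085549) (nat_lit 1) (nat_lit 4) (nat_lit 2) (nat_lit 5) (nat_lit 2) (nat_lit 4) (nat_lit 315) (nat_lit 244) (nat_lit 221)) (XT.nd (nat_lit 78) (nat_lit 0) (nat_lit 0) (XT.lf (nat_lit 0) (nat_lit 2021966007473) (nat_lit 76) (nat_lit 305308123809) (nat_lit 76) (nat_lit 304520484175) (nat_lit 1) (nat_lit 4) (nat_lit 2) (nat_lit 5) (nat_lit 2) (nat_lit 4) (nat_lit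 316) (nat_lit 244) (nat_lit 220)) (XT.lf (nat_lit 0) (nat_lit 2327407503080) (nat_lit 76) (nat_lit 349894054680) (nat_lit 76) (nat_lit 349102696134) (nat_lit 1) (nat_lit 4) (nat_lit 2) (nat_lit 5) (nat_lit 2) (nat_lit 4) (nat_lit 317) (nat_lit 244) (nat_lit 219))))))))
noncomputable def xc19 : XT := (XT.nd (nat_lit 1404) (nat_lit 0) (nat_lit 0) (XT.nd (nat_lit 702) (nat_lit 0) (nat_lit 0) (XT.nd (nat_lit 312) (nat_lit 0) (nat_lit 0) (XT.nd (nat_lit 156) (nat_lit 0) (nat_lit 0) (XT.nd (nat_lit 78) (nat_lit 0) (nat_lit 0) (XT.lf (nat_lit 0) (nat_lit 2678648057424) (nat_lit 76) (nat_lit 401176574477) (nat_lit 76) (nat_lit 400381982094) (nat_lit 1) (nat_lit 4) (nat_lit 2) (nat_lit 5) (nat_lit 2) (nat_lit 4) (nat_lit 318) (nat_lit 244) (nat_lit 218)) (XT.lf (nat_lit 0) (nat_lit 3082559768308) (nat_lit 76) (nat_lit 460159036849) (nat_lit 76) (nat_lit 459361632434) (nat_lit 1) (nat_lit 4) (nat_lit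 2) (nat_lit 5) (nat_lit 2) (nat_lit 4) (nat_lit 319) (nat_lit 244) (nat_lit 217))) (XT.nd (nat_lit 78) (nat_lit 0) (nat_lit 0) (XT.lf (nat_lit 0) (nat_lit 3547045256161) (nat_lit 76) (nat_lit 527995446494) (nat_lit 76) (nat_lit 527195596834) (nat_lit 1) (nat_lit 4) (nat_lit 2) (nat_lit 5) (nat_lit 2) (nat_lit 4) (nat_lit 320) (nat_lit 244) (nat_lit 216)) (XT.lf (nat_lit 0) (nat_lit 4081192280529) (nat_lit 76) (nat_lit 606013037514) (nat_lit 76) (nat_lit 605211061553) (nat_lit 1) (nat_lit 4) (nat_lit 2) (nat_lit 5) (nat_lit 2) (nat_lit 4) (nat_lit 321) (nat_lit 244) (nat_lit 215)))) (XT.nd (nat_lit 156) (nat_lit 0) (nat_lit 0) (XT.nd (nat_lit 78) (nat_lit 0) (nat_lit 0) (XT.lf (nat_lit 0) (nat_lit 4695451544062) (nat_lit 76) (nat_lit 695738241037) (nat_lit 76) (nat_lit 694934416119) (nat_lit 1) (nat_lit 4) (nat_lit 2) (nat_lit 5) (nat_lit 2) (nat_lit 4) (nat_lit 322) (nat_lit 244) (nat_lit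 214)) (XT.lf (nat_lit 0) (nat_lit 5401841162785) (nat_lit 76) (nat_lit 798926550175) (nat_lit 76) (nat_lit 798121117470) (nat_lit 1) (nat_lit 4) (nat_lit 2) (nat_lit 5) (nat_lit 2) (nat_lit 4) (nat_lit 323) (nat_lit 244) (nat_lit 213))) (XT.nd (nat_lit 78) (nat_lit 0) (nat_lit 0) (XT.lf (nat_lit 0) (nat_lit 6214181803154) (nat_lit 76) (nat_lit 917596866631) (nat_lit 76) (nat_lit 916790035848) (nat_lit 1) (nat_lit 4) (nat_lit 2) (nat_lit 5) (nat_lit 2) (nat_lit 4) (nat_lit 324) (nat_lit 244) (nat_lit 212)) (XT.nd (nat_lit 78) (nat_lit 0) (nat_lit 0) (XT.lf (nat_lit 0) (nat_lit 7148367086391) (nat_lit 76) (nat_lit 1054071000942) (nat_lit 76) (nat_lit 1053262954441) (nat_lit 1) (nat_lit 4) (nat_lit 2) (nat_lit 5) (nat_lit 2) (nat_lit 4) (nat_lit 325) (nat_lit 244) (nat_lit 211)) (XT.lf (nat_lit 0) (nat_lit 8222674550647) (nat_lit 76) (nat_lit 1211019099215) (nat_lit 76) (nat_lit 1210209995566)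 (nat_lit 1) (nat_lit 4) (nat_lit 2) (nat_lit 5) (nat_lit 2) (nat_lit 4) (nat_lit 326) (nat_lit 244) (nat_lit 210)))))) (XT.nd (nat_lit 312) (nat_lit 0) (nat_lit 0) (XT.nd (nat_lit 156) (nat_lit 0) (nat_lit 0) (XT.nd (nat_lit 78) (nat_lit 0) (nat_lit 0) (XT.lf (nat_lit 0) (nat_lit 9458123255005) (nat_lit 76) (nat_lit 1391511885111) (nat_lit 76) (nat_lit 1390701862205) (nat_lit 1) (nat_lit 4) (nat_lit 2) (nat_lit 5) (nat_lit 2) (nat_lit 4) (nat_lit 327) (nat_lit 244) (nat_lit 209)) (XT.lf (nat_lit 0) (nat_lit 10878885021942) (nat_lit 76) (nat_lit 1599080739225) (nat_lit 76) (nat_lit 1598269916964) (nat_lit 1) (nat_lit 4) (nat_lit 2) (nat_lit 5) (nat_lit 2) (nat_lit 4) (nat_lit 328) (nat_lit 244) (nat_lit 208))) (XT.nd (nat_lit 78) (nat_lit 0) (nat_lit 0) (XT.lf (nat_lit 0) (nat_lit 12512757364290) (nat_lit 76) (nat_lit 1837786791311) (nat_lit 76) (nat_lit 1836975273958) (nat_lit 1) (nat_lit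 4) (nat_lit 2) (nat_lit 5) (nat_lit 2) (nat_lit 4) (nat_lit 329) (nat_lit 244) (nat_lit 207)) (XT.lf (nat_lit 0) (nat_lit 14391707349616) (nat_lit 76) (nat_lit 2112300377170) (nat_lit 76) (nat_lit 2111488255390) (nat_lit 1) (nat_lit 4) (nat_lit 2) (nat_lit 5) (nat_lit 2) (nat_lit 4) (nat_lit 330) (nat_lit 244) (nat_lit 206)))) (XT.nd (nat_lit 156) (nat_lit 0) (nat_lit 0) (XT.nd (nat_lit 78) (nat_lit 0) (nat_lit 0) (XT.lf (nat_lit 0) (nat_lit 16552497042850) (nat_lit 76) (nat_lit 2427992414786) (nat_lit 76) (nat_lit 2427179767418) (nat_lit 1) (nat_lit 4) (nat_lit 2) (nat_lit 5) (nat_lit 2) (nat_lit 4) (nat_lit 331) (nat_lit 244) (nat_lit 205)) (XT.lf (nat_lit 0) (nat_lit 19037402764077) (nat_lit 76) (nat_lit 2791039487505) (nat_lit 76) (nat_lit 2790226383103) (nat_lit 1) (nat_lit 4) (nat_lit 2) (nat_lit 5) (nat_lit 2) (nat_lit 4) (nat_lit 332) (nat_lit 244) (nat_lit 204))) (XT.nd (nat_lit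 78) (nat_lit 0) (nat_lit 0) (XT.lf (nat_lit 0) (nat_lit 21895042233930) (nat_lit 76) (nat_lit 3208544690228) (nat_lit 76) (nat_lit 3207731188404) (nat_lit 1) (nat_lit 4) (nat_lit 2) (nat_lit 5) (nat_lit 2) (nat_lit 4) (nat_lit 333) (nat_lit 244) (nat_lit 203)) (XT.nd (nat_lit 78) (nat_lit 0) (nat_lit 0) (XT.lf (nat_lit 0) (nat_lit 25181325789863) (nat_lit 76) (nat_lit 3688676603006) (nat_lit 76) (nat_lit 3687862755600) (nat_lit 1) (nat_lit 4) (nat_lit 2) (nat_lit 5) (nat_lit 2) (nat_lit 4) (nat_lit 334) (nat_lit 244) (nat_lit 202)) (XT.lf (nat_lit 0) (nat_lit 28960550284057) (nat_lit 76) (nat_lit 4240829111092) (nat_lit 76) (nat_lit 4240014963178) (nat_lit 1) (nat_lit 4) (nat_lit 2) (nat_lit 5) (nat_lit 2) (nat_lit 4) (nat_lit 335) (nat_lit 244) (nat_lit 201))))))) (XT.nd (nat_lit 37206) (nat_lit 0) (nat_lit 0) (XT.nd (nat_lit 312) (nat_lit 0) (nat_lit 0) (XT.nd (nat_lit 156) (nat_lit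 0) (nat_lit 0) (XT.nd (nat_lit 78) (nat_lit 0) (nat_lit 0) (XT.lf (nat_lit 0) (nat_lit 33306657065311) (nat_lit 76) (nat_lit 4875805198337) (nat_lit 76) (nat_lit 4874990789113) (nat_lit 1) (nat_lit 4) (nat_lit 2) (nat_lit 5) (nat_lit 2) (nat_lit 4) (nat_lit 336) (nat_lit 244) (nat_lit 200)) (XT.lf (nat_lit 0) (nat_lit 38304678657607) (nat_lit 76) (nat_lit 5606028309929) (nat_lit 76) (nat_lit 5605213673478) (nat_lit 1) (nat_lit 4) (nat_lit 2) (nat_lit 5) (nat_lit 2) (nat_lit 4) (nat_lit 337) (nat_lit 244) (nat_lit 199))) (XT.nd (nat_lit 78) (nat_lit 0) (nat_lit 0) (XT.lf (nat_lit 0) (nat_lit 44052402439924) (nat_lit 76) (nat_lit 6445785419788) (nat_lit 76) (nat_lit 6444970585749) (nat_lit 1) (nat_lit 4) (nat_lit 2) (nat_lit 5) (nat_lit 2) (nat_lit 4) (nat_lit 338) (nat_lit 244) (nat_lit 198)) (XT.lf (nat_lit 0) (nat_lit 50662283877568) (nat_lit 76) (nat_lit 7411506558326) (nat_lit 76)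 (nat_lit 7410691552471) (nat_lit 1) (nat_lit 4) (nat_lit 2) (nat_lit 5) (nat_lit 2) (nat_lit 4) (nat_lit 339) (nat_lit 244) (nat_lit 197)))) (XT.nd (nat_lit 1794) (nat_lit 0) (nat_lit 0) (XT.nd (nat_lit 78) (nat_lit 0) (nat_lit 0) (XT.lf (nat_lit 0) (nat_lit 58263646737798) (nat_lit 76) (nat_lit 8522086269557) (nat_lit 76) (nat_lit 8521271114297) (nat_lit 1) (nat_lit 4) (nat_lit 2) (nat_lit 5) (nat_lit 2) (nat_lit 4) (nat_lit 340) (nat_lit 244) (nat_lit 196)) (XT.lf (nat_lit 0) (nat_lit 67005213337444) (nat_lit 76) (nat_lit 9799253286963) (nat_lit 76) (nat_lit 9798438001785) (nat_lit 1) (nat_lit 4) (nat_lit 2) (nat_lit 5) (nat_lit 2) (nat_lit 4) (nat_lit 341) (nat_lit 244) (nat_lit 195))) (XT.nd (nat_lit 34944) (nat_lit 0) (nat_lit 0) (XT.lf (nat_lit 0) (nat_lit 1450588437894186) (nat_lit 76) (nat_lit 211944794835337) (nat_lit 76) (nat_lit 211943978724057) (nat_lit 1) (nat_lit 4) (nat_lit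 2) (nat_lit 5) (nat_lit 2) (nat_lit 4) (nat_lit 363) (nat_lit 244) (nat_lit 173)) (XT.nd (nat_lit 78) (nat_lit 0) (nat_lit 0) (XT.lf (nat_lit 0) (nat_lit 11440808501) (nat_lit 76) (nat_lit 12226832775) (nat_lit 76) (nat_lit 12226832775) (nat_lit 1) (nat_lit 4) (nat_lit 2) (nat_lit 5) (nat_lit 2) (nat_lit 4) (nat_lit 290) (nat_lit 245) (nat_lit 245)) (XT.lf (nat_lit 0) (nat_lit 32963331573) (nat_lit 76) (nat_lit 24611066944) (nat_lit 76) (nat_lit 24488644250) (nat_lit 1) (nat_lit 4) (nat_lit 2) (nat_lit 5) (nat_lit 2) (nat_lit 4) (nat_lit 291) (nat_lit 245) (nat_lit 244)))))) (XT.nd (nat_lit 390) (nat_lit 0) (nat_lit 0) (XT.nd (nat_lit 156) (nat_lit 0) (nat_lit 0) (XT.nd (nat_lit 78) (nat_lit 0) (nat_lit 0) (XT.lf (nat_lit 0) (nat_lit 43992229620) (nat_lit 76) (nat_lit 25078450247) (nat_lit 76) (nat_lit 24849573036) (nat_lit 1) (nat_lit 4) (nat_lit 2) (nat_lit 5) (nat_lit 2) (nat_lit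 4) (nat_lit 292) (nat_lit 245) (nat_lit 243)) (XT.lf (nat_lit 0) (nat_lit 56184093930) (nat_lit 76) (nat_lit 25864959916) (nat_lit 76) (nat_lit 25543513560) (nat_lit 1) (nat_lit 4) (nat_lit 2) (nat_lit 5) (nat_lit 2) (nat_lit 4) (nat_lit 293) (nat_lit 245) (nat_lit 242))) (XT.nd (nat_lit 78) (nat_lit 0) (nat_lit 0) (XT.lf (nat_lit 0) (nat_lit 69777460981) (nat_lit 76) (nat_lit 26985984184) (nat_lit 76) (nat_lit 26584042919) (nat_lit 1) (nat_lit 4) (nat_lit 2) (nat_lit 5) (nat_lit 2) (nat_lit 4) (nat_lit 294) (nat_lit 245) (nat_lit 241)) (XT.nd (nat_lit 78) (nat_lit 0) (nat_lit 0) (XT.lf (nat_lit 0) (nat_lit 85038287953) (nat_lit 76) (nat_lit 28463456133) (nat_lit 76) (nat_lit 27991519296) (nat_lit 1) (nat_lit 4) (nat_lit 2) (nat_lit 5) (nat_lit 2) (nat_lit 4) (nat_lit 295) (nat_lit 245) (nat_lit 240)) (XT.lf (nat_lit 0) (nat_lit 102265156243) (nat_lit 76) (nat_lit 30326282824) (nat_lit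 76) (nat_lit 29793480272) (nat_lit 1) (nat_lit 4) (nat_lit 2) (nat_lit 5) (nat_lit 2) (nat_lit 4) (nat_lit 296) (nat_lit 245) (nat_lit 239))))) (XT.nd (nat_lit 156) (nat_lit 0) (nat_lit 0) (XT.nd (nat_lit 78) (nat_lit 0) (nat_lit 0) (XT.lf (nat_lit 0) (nat_lit 121795113275) (nat_lit 76) (nat_lit 32610910867) (nat_lit 76) (nat_lit 32025181605) (nat_lit 1) (nat_lit 4) (nat_lit 2) (nat_lit 5) (nat_lit 2) (nat_lit 4) (nat_lit 297) (nat_lit 245) (nat_lit 238)) (XT.lf (nat_lit 0) (nat_lit 144010266904) (nat_lit 76) (nat_lit 35362039504) (nat_lit 76) (nat_lit 34730287017) (nat_lit 1) (nat_lit 4) (nat_lit 2) (nat_lit 5) (nat_lit 2) (nat_lit 4) (nat_lit 298) (nat_lit 245) (nat_lit 237))) (XT.nd (nat_lit 78) (nat_lit 0) (nat_lit 0) (XT.lf (nat_lit 0) (nat_lit 169345261439) (nat_lit 76) (nat_lit 38633495167) (nat_lit 76) (nat_lit 37961722484) (nat_lit 1) (nat_lit 4) (nat_lit 2) (nat_lit 5) (nat_lit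 2) (nat_lit 4) (nat_lit 299) (nat_lit 245) (nat_lit 236)) (XT.nd (nat_lit 78) (nat_lit 0) (nat_lit 0) (XT.lf (nat_lit 0) (nat_lit 198295781557) (nat_lit 76) (nat_lit 42489284597) (nat_lit 76) (nat_lit 41782711743) (nat_lit 1) (nat_lit 4) (nat_lit 2) (nat_lit 5) (nat_lit 2) (nat_lit 4) (nat_lit 300) (nat_lit 245) (nat_lit 235)) (XT.lf (nat_lit 0) (nat_lit 231428250477) (nat_lit 76) (nat_lit 47004847151) (nat_lit 76) (nat_lit 46268013280) (nat_lit 1) (nat_lit 4) (nat_lit 2) (nat_lit 5) (nat_lit 2) (nat_lit 4) (nat_lit 301) (nat_lit 245) (nat_lit 234))))))))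
noncomputable def xc20 : XT := (XT.nd (nat_lit 1404) (nat_lit 0) (nat_lit 0) (XT.nd (nat_lit 702) (nat_lit 0) (nat_lit 0) (XT.nd (nat_lit 312) (nat_lit 0) (nat_lit 0) (XT.nd (nat_lit 156) (nat_lit 0) (nat_lit 0) (XT.nd (nat_lit 78) (nat_lit 0) (nat_lit 0) (XT.lf (nat_lit 0) (nat_lit 269390912156) (nat_lit 76) (nat_lit 52268530793) (nat_lit 76) (nat_lit 51505382994) (nat_lit 1) (nat_lit 4) (nat_lit 2) (nat_lit 5) (nat_lit 2) (nat_lit 4) (nat_lit 302) (nat_lit 245) (nat_lit 233)) (XT.lf (nat_lit 0) (nat_lit 312926514323) (nat_lit 76) (nat_lit 58383320638) (nat_lit 76) (nat_lit 57597291161) (nat_lit 1) (nat_lit 4) (nat_lit 2) (nat_lit 5) (nat_lit 2) (nat_lit 4) (nat_lit 303) (nat_lit 245) (nat_lit 232))) (XT.nd (nat_lit 78) (nat_lit 0) (nat_lit 0) (XT.lf (nat_lit 0) (nat_lit 362886840498) (nat_lit 76) (nat_lit 65468853877) (nat_lit 76) (nat_lit 64662927291) (nat_lit 1) (nat_lit 4) (nat_lit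 2) (nat_lit 5) (nat_lit 2) (nat_lit 4) (nat_lit 304) (nat_lit 245) (nat_lit 231)) (XT.lf (nat_lit 0) (nat_lit 420249375324) (nat_lit 76) (nat_lit 73663760511) (nat_lit 76) (nat_lit 72840532089) (nat_lit 1) (nat_lit 4) (nat_lit 2) (nat_lit 5) (nat_lit 2) (nat_lit 4) (nat_lit 305) (nat_lit 245) (nat_lit 230)))) (XT.nd (nat_lit 156) (nat_lit 0) (nat_lit 0) (XT.nd (nat_lit 78) (nat_lit 0) (nat_lit 0) (XT.lf (nat_lit 0) (nat_lit 486136429265) (nat_lit 76) (nat_lit 83128375667) (nat_lit 76) (nat_lit 82290102172) (nat_lit 1) (nat_lit 4) (nat_lit 2) (nat_lit 5) (nat_lit 2) (nat_lit 4) (nat_lit 306) (nat_lit 245) (nat_lit 229)) (XT.lf (nat_lit 0) (nat_lit 561837096855) (nat_lit 76) (nat_lit 94047876600) (nat_lit 76) (nat_lit 93196520431) (nat_lit 1) (nat_lit 4) (nat_lit 2) (nat_lit 5) (nat_lit 2) (nat_lit 4) (nat_lit 307) (nat_lit 245) (nat_lit 228))) (XT.nd (nat_lit 78) (nat_lit 0) (nat_lit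 0) (XT.lf (nat_lit 0) (nat_lit 648832478111) (nat_lit 76) (nat_lit 106635905718) (nat_lit 76) (nat_lit 105773173312) (nat_lit 1) (nat_lit 4) (nat_lit 2) (nat_lit 5) (nat_lit 2) (nat_lit 4) (nat_lit 308) (nat_lit 245) (nat_lit 227)) (XT.nd (nat_lit 78) (nat_lit 0) (nat_lit 0) (XT.lf (nat_lit 0) (nat_lit 748824656581) (nat_lit 76) (nat_lit 121138750549) (nat_lit 76) (nat_lit 120266125762) (nat_lit 1) (nat_lit 4) (nat_lit 2) (nat_lit 5) (nat_lit 2) (nat_lit 4) (nat_lit 309) (nat_lit 245) (nat_lit 226)) (XT.lf (nat_lit 0) (nat_lit 863770000972) (nat_lit 76) (nat_lit 137840162403) (nat_lit 76) (nat_lit 136958935547) (nat_lit 1) (nat_lit 4) (nat_lit 2) (nat_lit 5) (nat_lit 2) (nat_lit 4) (nat_lit 310) (nat_lit 245) (nat_lit 225)))))) (XT.nd (nat_lit 312) (nat_lit 0) (nat_lit 0) (XT.nd (nat_lit 156) (nat_lit 0) (nat_lit 0) (XT.nd (nat_lit 78) (nat_lit 0) (nat_lit 0) (XT.lf (nat_lit 0) (nat_lit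 995917441937) (nat_lit 76) (nat_lit 157066908035) (nat_lit 76) (nat_lit 156178201118) (nat_lit 1) (nat_lit 4) (nat_lit 2) (nat_lit 5) (nat_lit 2) (nat_lit 4) (nat_lit 311) (nat_lit 245) (nat_lit 224)) (XT.lf (nat_lit 0) (nat_lit 1147852472885) (nat_lit 76) (nat_lit 179195162903) (nat_lit 76) (nat_lit 178299951585) (nat_lit 1) (nat_lit 4) (nat_lit 2) (nat_lit 5) (nat_lit 2) (nat_lit 4) (nat_lit 312) (nat_lit 245) (nat_lit 223))) (XT.nd (nat_lit 78) (nat_lit 0) (nat_lit 0) (XT.lf (nat_lit 0) (nat_lit 1322547735726) (nat_lit 76) (nat_lit 204657871123) (nat_lit 76) (nat_lit 203757003805) (nat_lit 1) (nat_lit 4) (nat_lit 2) (nat_lit 5) (nat_lit 2) (nat_lit 4) (nat_lit 313) (nat_lit 245) (nat_lit 222)) (XT.lf (nat_lit 0) (nat_lit 1523421181256) (nat_lit 76) (nat_lit 233953216117) (nat_lit 76) (nat_lit 233047430538) (nat_lit 1) (nat_lit 4) (nat_lit 2) (nat_lit 5) (nat_lit 2) (nat_lit 4) (nat_lit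 314) (nat_lit 245) (nat_lit 221)))) (XT.nd (nat_lit 156) (nat_lit 0) (nat_lit 0) (XT.nd (nat_lit 78) (nat_lit 0) (nat_lit 0) (XT.lf (nat_lit 0) (nat_lit 1754402942104) (nat_lit 76) (nat_lit 267654367679) (nat_lit 76) (nat_lit 266744305351) (nat_lit 1) (nat_lit 4) (nat_lit 2) (nat_lit 5) (nat_lit 2) (nat_lit 4) (nat_lit 315) (nat_lit 245) (nat_lit 220)) (XT.lf (nat_lit 0) (nat_lit 2020012226633) (nat_lit 76) (nat_lit 306420696166) (nat_lit 76) (nat_lit 305506914925) (nat_lit 1) (nat_lit 4) (nat_lit 2) (nat_lit 5) (nat_lit 2) (nat_lit 4) (nat_lit 316) (nat_lit 245) (nat_lit 219))) (XT.nd (nat_lit 78) (nat_lit 0) (nat_lit 0) (XT.lf (nat_lit 0) (nat_lit 2325445738239) (nat_lit 76) (nat_lit 351010673221) (nat_lit 76) (nat_lit 350093658143) (nat_lit 1) (nat_lit 4) (nat_lit 2) (nat_lit 5) (nat_lit 2) (nat_lit 4) (nat_lit 317) (nat_lit 245) (nat_lit 218)) (XT.nd (nat_lit 78) (nat_lit 0) (nat_lit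 0) (XT.lf (nat_lit 0) (nat_lit 2676679349972) (nat_lit 76) (nat_lit 402296711439) (nat_lit 76) (nat_lit 401376884329) (nat_lit 1) (nat_lit 4) (nat_lit 2) (nat_lit 5) (nat_lit 2) (nat_lit 4) (nat_lit 318) (nat_lit 245) (nat_lit 217)) (XT.lf (nat_lit 0) (nat_lit 3080585023803) (nat_lit 76) (nat_lit 461282233307) (nat_lit 76) (nat_lit 460359960952) (nat_lit 1) (nat_lit 4) (nat_lit 2) (nat_lit 5) (nat_lit 2) (nat_lit 4) (nat_lit 319) (nat_lit 245) (nat_lit 216))))))) (XT.nd (nat_lit 702) (nat_lit 0) (nat_lit 0) (XT.nd (nat_lit 312) (nat_lit 0) (nat_lit 0) (XT.nd (nat_lit 156) (nat_lit 0) (nat_lit 0) (XT.nd (nat_lit 78) (nat_lit 0) (nat_lit 0) (XT.lf (nat_lit 0) (nat_lit 3545065262046) (nat_lit 76) (nat_lit 529121303383) (nat_lit 76) (nat_lit 528196904729) (nat_lit 1) (nat_lit 4) (nat_lit 2) (nat_lit 5) (nat_lit 2) (nat_lit 4) (nat_lit 320) (nat_lit 245) (nat_lit 215)) (XT.lf (nat_lit 0)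 (nat_lit 4079207721534) (nat_lit 76) (nat_lit 607141207822) (nat_lit 76) (nat_lit 606214960211) (nat_lit 1) (nat_lit 4) (nat_lit 2) (nat_lit 5) (nat_lit 2) (nat_lit 4) (nat_lit 321) (nat_lit 245) (nat_lit 214))) (XT.nd (nat_lit 78) (nat_lit 0) (nat_lit 0) (XT.lf (nat_lit 0) (nat_lit 4693463015607) (nat_lit 76) (nat_lit 696868423013) (nat_lit 76) (nat_lit 695940567614) (nat_lit 1) (nat_lit 4) (nat_lit 2) (nat_lit 5) (nat_lit 2) (nat_lit 4) (nat_lit 322) (nat_lit 245) (nat_lit 213)) (XT.lf (nat_lit 0) (nat_lit 5399849182627) (nat_lit 76) (nat_lit 800058481429) (nat_lit 76) (nat_lit 799129227953) (nat_lit 1) (nat_lit 4) (nat_lit 2) (nat_lit 5) (nat_lit 2) (nat_lit 4) (nat_lit 323) (nat_lit 245) (nat_lit 212)))) (XT.nd (nat_lit 156) (nat_lit 0) (nat_lit 0) (XT.nd (nat_lit 78) (nat_lit 0) (nat_lit 0) (XT.lf (nat_lit 0) (nat_lit 6212186821513) (nat_lit 76) (nat_lit 918730318995) (nat_lit 76)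 (nat_lit 917799849800) (nat_lit 1) (nat_lit 4) (nat_lit 2) (nat_lit 5) (nat_lit 2) (nat_lit 4) (nat_lit 324) (nat_lit 245) (nat_lit 211)) (XT.lf (nat_lit 0) (nat_lit 7146369494765) (nat_lit 76) (nat_lit 1055205776011) (nat_lit 76) (nat_lit 1054274249668) (nat_lit 1) (nat_lit 4) (nat_lit 2) (nat_lit 5) (nat_lit 2) (nat_lit 4) (nat_lit 325) (nat_lit 245) (nat_lit 210))) (XT.nd (nat_lit 78) (nat_lit 0) (nat_lit 0) (XT.lf (nat_lit 0) (nat_lit 8220674689470) (nat_lit 76) (nat_lit 1212155024462) (nat_lit 76) (nat_lit 1211222578861) (nat_lit 1) (nat_lit 4) (nat_lit 2) (nat_lit 5) (nat_lit 2) (nat_lit 4) (nat_lit 326) (nat_lit 245) (nat_lit 209)) (XT.nd (nat_lit 78) (nat_lit 0) (nat_lit 0) (XT.lf (nat_lit 0) (nat_lit 9456121420305) (nat_lit 76) (nat_lit 1392648810513) (nat_lit 76) (nat_lit 1391715565558) (nat_lit 1) (nat_lit 4) (nat_lit 2) (nat_lit 5) (nat_lit 2) (nat_lit 4) (nat_lit 327) (nat_lit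 245) (nat_lit 208)) (XT.lf (nat_lit 0) (nat_lit 10876881471135) (nat_lit 76) (nat_lit 1600218534327) (nat_lit 76) (nat_lit 1599284594280) (nat_lit 1) (nat_lit 4) (nat_lit 2) (nat_lit 5) (nat_lit 2) (nat_lit 4) (nat_lit 328) (nat_lit 245) (nat_lit 207)))))) (XT.nd (nat_lit 312) (nat_lit 0) (nat_lit 0) (XT.nd (nat_lit 156) (nat_lit 0) (nat_lit 0) (XT.nd (nat_lit 78) (nat_lit 0) (nat_lit 0) (XT.lf (nat_lit 0) (nat_lit 12510752321216) (nat_lit 76) (nat_lit 1838925342673) (nat_lit 76) (nat_lit 1837990798199) (nat_lit 1) (nat_lit 4) (nat_lit 2) (nat_lit 5) (nat_lit 2) (nat_lit 4) (nat_lit 329) (nat_lit 245) (nat_lit 206)) (XT.lf (nat_lit 0) (nat_lit 14389701008918) (nat_lit 76) (nat_lit 2113439586150) (nat_lit 76) (nat_lit 2112504516087) (nat_lit 1) (nat_lit 4) (nat_lit 2) (nat_lit 5) (nat_lit 2) (nat_lit 4) (nat_lit 330) (nat_lit 245) (nat_lit 205))) (XT.nd (nat_lit 78) (nat_lit 0) (nat_lit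 0) (XT.lf (nat_lit 0) (nat_lit 16550489573784) (nat_lit 76) (nat_lit 2429132195609) (nat_lit 76) (nat_lit 2428196668512) (nat_lit 1) (nat_lit 4) (nat_lit 2) (nat_lit 5) (nat_lit 2) (nat_lit 4) (nat_lit 331) (nat_lit 245) (nat_lit 204)) (XT.lf (nat_lit 0) (nat_lit 19035394313821) (nat_lit 76) (nat_lit 2792179765581) (nat_lit 76) (nat_lit 2791243841064) (nat_lit 1) (nat_lit 4) (nat_lit 2) (nat_lit 5) (nat_lit 2) (nat_lit 4) (nat_lit 332) (nat_lit 245) (nat_lit 203)))) (XT.nd (nat_lit 156) (nat_lit 0) (nat_lit 0) (XT.nd (nat_lit 78) (nat_lit 0) (nat_lit 0) (XT.lf (nat_lit 0) (nat_lit 21893032930466) (nat_lit 76) (nat_lit 3209685400698) (nat_lit 76) (nat_lit 3208749130597) (nat_lit 1) (nat_lit 4) (nat_lit 2) (nat_lit 5) (nat_lit 2) (nat_lit 4) (nat_lit 333) (nat_lit 245) (nat_lit 202)) (XT.lf (nat_lit 0) (nat_lit 25179315744478) (nat_lit 76) (nat_lit 3689817689472) (nat_lit 76) (nat_lit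 3688881118864) (nat_lit 1) (nat_lit 4) (nat_lit 2) (nat_lit 5) (nat_lit 2) (nat_lit 4) (nat_lit 334) (nat_lit 245) (nat_lit 201))) (XT.nd (nat_lit 78) (nat_lit 0) (nat_lit 0) (XT.lf (nat_lit 0) (nat_lit 28958539593524) (nat_lit 76) (nat_lit 4241970524510) (nat_lit 76) (nat_lit 4241033692591) (nat_lit 1) (nat_lit 4) (nat_lit 2) (nat_lit 5) (nat_lit 2) (nat_lit 4) (nat_lit 335) (nat_lit 245) (nat_lit 200)) (XT.nd (nat_lit 78) (nat_lit 0) (nat_lit 0) (XT.lf (nat_lit 0) (nat_lit 33304645813780) (nat_lit 76) (nat_lit 4876946896062) (nat_lit 76) (nat_lit 4876009836917) (nat_lit 1) (nat_lit 4) (nat_lit 2) (nat_lit 5) (nat_lit 2) (nat_lit 4) (nat_lit 336) (nat_lit 245) (nat_lit 199)) (XT.lf (nat_lit 0) (nat_lit 38302666918251) (nat_lit 76) (nat_lit 5607170254876) (nat_lit 76) (nat_lit 5606232998143) (nat_lit 1) (nat_lit 4) (nat_lit 2) (nat_lit 5) (nat_lit 2) (nat_lit 4) (nat_lit 337) (nat_lit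 245) (nat_lit 198))))))))
noncomputable def xc21 : XT := (XT.nd (nat_lit 37908) (nat_lit 0) (nat_lit 0) (XT.nd (nat_lit 37206) (nat_lit 0) (nat_lit 0) (XT.nd (nat_lit 36816) (nat_lit 0) (nat_lit 0) (XT.nd (nat_lit 156) (nat_lit 0) (nat_lit 0) (XT.nd (nat_lit 78) (nat_lit 0) (nat_lit 0) (XT.lf (nat_lit 0) (nat_lit 44050390276372) (nat_lit 76) (nat_lit 6446927579712) (nat_lit 76) (nat_lit 6445990151163) (nat_lit 1) (nat_lit 4) (nat_lit 2) (nat_lit 5) (nat_lit 2) (nat_lit 4) (nat_lit 338) (nat_lit 245) (nat_lit 197)) (XT.lf (nat_lit 0) (nat_lit 50660271345151) (nat_lit 76) (nat_lit 7412648905186) (nat_lit 76) (nat_lit 7411711327232) (nat_lit 1) (nat_lit 4) (nat_lit 2) (nat_lit 5) (nat_lit 2) (nat_lit 4) (nat_lit 339) (nat_lit 245) (nat_lit 196))) (XT.nd (nat_lit 36582) (nat_lit 0) (nat_lit 0) (XT.lf (nat_lit 0) (nat_lit 58261633884628) (nat_lit 76) (nat_lit 8523228778971) (nat_lit 76) (nat_lit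 8522291071099) (nat_lit 1) (nat_lit 4) (nat_lit 2) (nat_lit 5) (nat_lit 2) (nat_lit 4) (nat_lit 340) (nat_lit 245) (nat_lit 195)) (XT.lf (nat_lit 0) (nat_lit 2566496586) (nat_lit 76) (nat_lit 12513564469) (nat_lit 76) (nat_lit 12513564469) (nat_lit 1) (nat_lit 4) (nat_lit 2) (nat_lit 5) (nat_lit 2) (nat_lit 4) (nat_lit 288) (nat_lit 246) (nat_lit 246)))) (XT.nd (nat_lit 156) (nat_lit 0) (nat_lit 0) (XT.nd (nat_lit 78) (nat_lit 0) (nat_lit 0) (XT.lf (nat_lit 0) (nat_lit 13549834972) (nat_lit 76) (nat_lit 24743952574) (nat_lit 76) (nat_lit 24603166475) (nat_lit 1) (nat_lit 4) (nat_lit 2) (nat_lit 5) (nat_lit 2) (nat_lit 4) (nat_lit 289) (nat_lit 246) (nat_lit 245)) (XT.lf (nat_lit 0) (nat_lit 22579368275) (nat_lit 76) (nat_lit 24747627210) (nat_lit 76) (nat_lit 24484418418) (nat_lit 1) (nat_lit 4) (nat_lit 2) (nat_lit 5) (nat_lit 2) (nat_lit 4) (nat_lit 290) (nat_lit 246) (nat_lit 244)))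 (XT.nd (nat_lit 78) (nat_lit 0) (nat_lit 0) (XT.lf (nat_lit 0) (nat_lit 32398257864) (nat_lit 76) (nat_lit 25038224744) (nat_lit 76) (nat_lit 24668561434) (nat_lit 1) (nat_lit 4) (nat_lit 2) (nat_lit 5) (nat_lit 2) (nat_lit 4) (nat_lit 291) (nat_lit 246) (nat_lit 243)) (XT.nd (nat_lit 78) (nat_lit 0) (nat_lit 0) (XT.lf (nat_lit 0) (nat_lit 43198612449) (nat_lit 76) (nat_lit 25621430777) (nat_lit 76) (nat_lit 25159198323) (nat_lit 1) (nat_lit 4) (nat_lit 2) (nat_lit 5) (nat_lit 2) (nat_lit 4) (nat_lit 292) (nat_lit 246) (nat_lit 242)) (XT.lf (nat_lit 0) (nat_lit 55191743314) (nat_lit 76) (nat_lit 26508655864) (nat_lit 76) (nat_lit 25965928501) (nat_lit 1) (nat_lit 4) (nat_lit 2) (nat_lit 5) (nat_lit 2) (nat_lit 4) (nat_lit 293) (nat_lit 246) (nat_lit 241)))))) (XT.nd (nat_lit 312) (nat_lit 0) (nat_lit 0) (XT.nd (nat_lit 156) (nat_lit 0) (nat_lit 0) (XT.nd (nat_lit 78) (nat_lit 0) (nat_lit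 0) (XT.lf (nat_lit 0) (nat_lit 68612298674) (nat_lit 76) (nat_lit 27717258755) (nat_lit 76) (nat_lit 27104535820) (nat_lit 1) (nat_lit 4) (nat_lit 2) (nat_lit 5) (nat_lit 2) (nat_lit 4) (nat_lit 294) (nat_lit 246) (nat_lit 240)) (XT.lf (nat_lit 0) (nat_lit 83722854609) (nat_lit 76) (nat_lit 29270886030) (nat_lit 76) (nat_lit 28597297379) (nat_lit 1) (nat_lit 4) (nat_lit 2) (nat_lit 5) (nat_lit 2) (nat_lit 4) (nat_lit 295) (nat_lit 246) (nat_lit 239))) (XT.nd (nat_lit 78) (nat_lit 0) (nat_lit 0) (XT.lf (nat_lit 0) (nat_lit 100819052434) (nat_lit 76) (nat_lit 31199934743) (nat_lit 76) (nat_lit 30473419383) (nat_lit 1) (nat_lit 4) (nat_lit 2) (nat_lit 5) (nat_lit 2) (nat_lit 4) (nat_lit 296) (nat_lit 246) (nat_lit 238)) (XT.lf (nat_lit 0) (nat_lit 120235382974) (nat_lit 76) (nat_lit 33542147153) (nat_lit 76) (nat_lit 32769608567) (nat_lit 1) (nat_lit 4) (nat_lit 2) (nat_lit 5) (nat_lit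 2) (nat_lit 4) (nat_lit 297) (nat_lit 246) (nat_lit 237)))) (XT.nd (nat_lit 156) (nat_lit 0) (nat_lit 0) (XT.nd (nat_lit 78) (nat_lit 0) (nat_lit 0) (XT.lf (nat_lit 0) (nat_lit 142351730957) (nat_lit 76) (nat_lit 36343349153) (nat_lit 76) (nat_lit 35530790372) (nat_lit 1) (nat_lit 4) (nat_lit 2) (nat_lit 5) (nat_lit 2) (nat_lit 4) (nat_lit 298) (nat_lit 246) (nat_lit 236)) (XT.lf (nat_lit 0) (nat_lit 167600807540) (nat_lit 76) (nat_lit 39658346870) (nat_lit 76) (nat_lit 38810987919) (nat_lit 1) (nat_lit 4) (nat_lit 2) (nat_lit 5) (nat_lit 2) (nat_lit 4) (nat_lit 299) (nat_lit 246) (nat_lit 235))) (XT.nd (nat_lit 78) (nat_lit 0) (nat_lit 0) (XT.lf (nat_lit 0) (nat_lit 196476616394) (nat_lit 76) (nat_lit 43551998956) (nat_lit 76) (nat_lit 42674378986) (nat_lit 1) (nat_lit 4) (nat_lit 2) (nat_lit 5) (nat_lit 2) (nat_lit 4) (nat_lit 300) (nat_lit 246) (nat_lit 234)) (XT.nd (nat_lit 78) (nat_lit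 0) (nat_lit 0) (XT.lf (nat_lit 0) (nat_lit 229544118999) (nat_lit 76) (nat_lit 48100485558) (nat_lit 76) (nat_lit 47196551661) (nat_lit 1) (nat_lit 4) (nat_lit 2) (nat_lit 5) (nat_lit 2) (nat_lit 4) (nat_lit 301) (nat_lit 246) (nat_lit 233)) (XT.lf (nat_lit 0) (nat_lit 267450288229) (nat_lit 76) (nat_lit 53392798808) (nat_lit 76) (nat_lit 52465983234) (nat_lit 1) (nat_lit 4) (nat_lit 2) (nat_lit 5) (nat_lit 2) (nat_lit 4) (nat_lit 302) (nat_lit 246) (nat_lit 232))))))) (XT.nd (nat_lit 702) (nat_lit 0) (nat_lit 0) (XT.nd (nat_lit 312) (nat_lit 0) (nat_lit 0) (XT.nd (nat_lit 156) (nat_lit 0) (nat_lit 0) (XT.nd (nat_lit 78) (nat_lit 0) (nat_lit 0) (XT.lf (nat_lit 0) (nat_lit 310936766528) (nat_lit 76) (nat_lit 59532483964) (nat_lit 76) (nat_lit 58585771279) (nat_lit 1) (nat_lit 4) (nat_lit 2) (nat_lit 5) (nat_lit 2) (nat_lit 4) (nat_lit 303) (nat_lit 246) (nat_lit 231)) (XT.lf (nat_lit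 0) (nat_lit 360854376296) (nat_lit 76) (nat_lit 66639665300) (nat_lit 76) (nat_lit 65675650780) (nat_lit 1) (nat_lit 4) (nat_lit 2) (nat_lit 5) (nat_lit 2) (nat_lit 4) (nat_lit 304) (nat_lit 246) (nat_lit 230))) (XT.nd (nat_lit 78) (nat_lit 0) (nat_lit 0) (XT.lf (nat_lit 0) (nat_lit 418179766420) (nat_lit 76) (nat_lit 74853396365) (nat_lit 76) (nat_lit 73874336771) (nat_lit 1) (nat_lit 4) (nat_lit 2) (nat_lit 5) (nat_lit 2) (nat_lit 4) (nat_lit 305) (nat_lit 246) (nat_lit 229)) (XT.lf (nat_lit 0) (nat_lit 484034520621) (nat_lit 76) (nat_lit 84334380593) (nat_lit 76) (nat_lit 83342238326) (nat_lit 1) (nat_lit 4) (nat_lit 2) (nat_lit 5) (nat_lit 2) (nat_lit 4) (nat_lit 306) (nat_lit 246) (nat_lit 228)))) (XT.nd (nat_lit 156) (nat_lit 0) (nat_lit 0) (XT.nd (nat_lit 78) (nat_lit 0) (nat_lit 0) (XT.lf (nat_lit 0) (nat_lit 559707101479) (nat_lit 76) (nat_lit 95268115500) (nat_lit 76) (nat_lit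 94264596996) (nat_lit 1) (nat_lit 4) (nat_lit 2) (nat_lit 5) (nat_lit 2) (nat_lit 4) (nat_lit 307) (nat_lit 246) (nat_lit 227)) (XT.lf (nat_lit 0) (nat_lit 646678059491) (nat_lit 76) (nat_lit 107868521988) (nat_lit 76) (nat_lit 106855111103) (nat_lit 1) (nat_lit 4) (nat_lit 2) (nat_lit 5) (nat_lit 2) (nat_lit 4) (nat_lit 308) (nat_lit 246) (nat_lit 226))) (XT.nd (nat_lit 78) (nat_lit 0) (nat_lit 0) (XT.lf (nat_lit 0) (nat_lit 746649000357) (nat_lit 76) (nat_lit 122382129748) (nat_lit 76) (nat_lit 121360116794) (nat_lit 1) (nat_lit 4) (nat_lit 2) (nat_lit 5) (nat_lit 2) (nat_lit 4) (nat_lit 309) (nat_lit 246) (nat_lit 225)) (XT.nd (nat_lit 78) (nat_lit 0) (nat_lit 0) (XT.lf (nat_lit 0) (nat_lit 861575877267) (nat_lit 76) (nat_lit 139092900672) (nat_lit 76) (nat_lit 138063407657) (nat_lit 1) (nat_lit 4) (nat_lit 2) (nat_lit 5) (nat_lit 2) (nat_lit 4) (nat_lit 310) (nat_lit 246) (nat_lit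 224)) (XT.lf (nat_lit 0) (nat_lit 993707259552) (nat_lit 76) (nat_lit 158327784626) (nat_lit 76) (nat_lit 157291787209) (nat_lit 1) (nat_lit 4) (nat_lit 2) (nat_lit 5) (nat_lit 2) (nat_lit 4) (nat_lit 311) (nat_lit 246) (nat_lit 223)))))) (XT.nd (nat_lit 390) (nat_lit 0) (nat_lit 0) (XT.nd (nat_lit 156) (nat_lit 0) (nat_lit 0) (XT.nd (nat_lit 78) (nat_lit 0) (nat_lit 0) (XT.lf (nat_lit 0) (nat_lit 1145628326431) (nat_lit 76) (nat_lit 180463116294) (nat_lit 76) (nat_lit 179421462878) (nat_lit 1) (nat_lit 4) (nat_lit 2) (nat_lit 5) (nat_lit 2) (nat_lit 4) (nat_lit 312) (nat_lit 246) (nat_lit 222)) (XT.lf (nat_lit 0) (nat_lit 1320311446603) (nat_lit 76) (nat_lit 205931978254) (nat_lit 76) (nat_lit 204885406577) (nat_lit 1) (nat_lit 4) (nat_lit 2) (nat_lit 5) (nat_lit 2) (nat_lit 4) (nat_lit 313) (nat_lit 246) (nat_lit 221))) (XT.nd (nat_lit 78) (nat_lit 0) (nat_lit 0) (XT.lf (nat_lit 0)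 (nat_lit 1521174333290) (nat_lit 76) (nat_lit 235232674327) (nat_lit 76) (nat_lit 234181825900) (nat_lit 1) (nat_lit 4) (nat_lit 2) (nat_lit 5) (nat_lit 2) (nat_lit 4) (nat_lit 314) (nat_lit 246) (nat_lit 220)) (XT.nd (nat_lit 78) (nat_lit 0) (nat_lit 0) (XT.lf (nat_lit 0) (nat_lit 1752146912536) (nat_lit 76) (nat_lit 268938479001) (nat_lit 76) (nat_lit 267883911662) (nat_lit 1) (nat_lit 4) (nat_lit 2) (nat_lit 5) (nat_lit 2) (nat_lit 4) (nat_lit 315) (nat_lit 246) (nat_lit 219)) (XT.lf (nat_lit 0) (nat_lit 2017748213064) (nat_lit 76) (nat_lit 307708853671) (nat_lit 76) (nat_lit 306651052496) (nat_lit 1) (nat_lit 4) (nat_lit 2) (nat_lit 5) (nat_lit 2) (nat_lit 4) (nat_lit 316) (nat_lit 246) (nat_lit 218))))) (XT.nd (nat_lit 156) (nat_lit 0) (nat_lit 0) (XT.nd (nat_lit 78) (nat_lit 0) (nat_lit 0) (XT.lf (nat_lit 0) (nat_lit 2323174782059) (nat_lit 76) (nat_lit 352302349147) (nat_lit 76)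 (nat_lit 351241735939) (nat_lit 1) (nat_lit 4) (nat_lit 2) (nat_lit 5) (nat_lit 2) (nat_lit 4) (nat_lit 317) (nat_lit 246) (nat_lit 217)) (XT.lf (nat_lit 0) (nat_lit 2674402356740) (nat_lit 76) (nat_lit 403591446862) (nat_lit 76) (nat_lit 402528388409) (nat_lit 1) (nat_lit 4) (nat_lit 2) (nat_lit 5) (nat_lit 2) (nat_lit 4) (nat_lit 318) (nat_lit 246) (nat_lit 216))) (XT.nd (nat_lit 78) (nat_lit 0) (nat_lit 0) (XT.lf (nat_lit 0) (nat_lit 3078302780960) (nat_lit 76) (nat_lit 462579629162) (nat_lit 76) (nat_lit 461514444409) (nat_lit 1) (nat_lit 4) (nat_lit 2) (nat_lit 5) (nat_lit 2) (nat_lit 4) (nat_lit 319) (nat_lit 246) (nat_lit 215)) (XT.nd (nat_lit 78) (nat_lit 0) (nat_lit 0) (XT.lf (nat_lit 0) (nat_lit 3542778454323) (nat_lit 76) (nat_lit 530421012657) (nat_lit 76) (nat_lit 529353978947) (nat_lit 1) (nat_lit 4) (nat_lit 2) (nat_lit 5) (nat_lit 2) (nat_lit 4) (nat_lit 320) (nat_lit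 246) (nat_lit 214)) (XT.lf (nat_lit 0) (nat_lit 4076916944352) (nat_lit 76) (nat_lit 608442928764) (nat_lit 76) (nat_lit 607374287266) (nat_lit 1) (nat_lit 4) (nat_lit 2) (nat_lit 5) (nat_lit 2) (nat_lit 4) (nat_lit 321) (nat_lit 246) (nat_lit 213))))))))
noncomputable def xc22 : XT := (XT.nd (nat_lit 1404) (nat_lit 0) (nat_lit 0) (XT.nd (nat_lit 702) (nat_lit 0) (nat_lit 0) (XT.nd (nat_lit 312) (nat_lit 0) (nat_lit 0) (XT.nd (nat_lit 156) (nat_lit 0) (nat_lit 0) (XT.nd (nat_lit 78) (nat_lit 0) (nat_lit 0) (XT.lf (nat_lit 0) (nat_lit 4691168786720) (nat_lit 76) (nat_lit 698171893232) (nat_lit 76) (nat_lit 697101853658) (nat_lit 1) (nat_lit 4) (nat_lit 2) (nat_lit 5) (nat_lit 2) (nat_lit 4) (nat_lit 322) (nat_lit 246) (nat_lit 212)) (XT.lf (nat_lit 0) (nat_lit 5397551952258) (nat_lit 76) (nat_lit 801363472759) (nat_lit 76) (nat_lit 800292217465) (nat_lit 1) (nat_lit 4) (nat_lit 2) (nat_lit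 5) (nat_lit 2) (nat_lit 4) (nat_lit 323) (nat_lit 246) (nat_lit 211))) (XT.nd (nat_lit 78) (nat_lit 0) (nat_lit 0) (XT.lf (nat_lit 0) (nat_lit 6209886981160) (nat_lit 76) (nat_lit 920036633029) (nat_lit 76) (nat_lit 918964320589) (nat_lit 1) (nat_lit 4) (nat_lit 2) (nat_lit 5) (nat_lit 2) (nat_lit 4) (nat_lit 324) (nat_lit 246) (nat_lit 210)) (XT.lf (nat_lit 0) (nat_lit 7144067384860) (nat_lit 76) (nat_lit 1056513240223) (nat_lit 76) (nat_lit 1055440008524) (nat_lit 1) (nat_lit 4) (nat_lit 2) (nat_lit 5) (nat_lit 2) (nat_lit 4) (nat_lit 325) (nat_lit 246) (nat_lit 209)))) (XT.nd (nat_lit 156) (nat_lit 0) (nat_lit 0) (XT.nd (nat_lit 78) (nat_lit 0) (nat_lit 0) (XT.lf (nat_lit 0) (nat_lit 8218370606042) (nat_lit 76) (nat_lit 1213463488829) (nat_lit 76) (nat_lit 1212389457775) (nat_lit 1) (nat_lit 4) (nat_lit 2) (nat_lit 5) (nat_lit 2) (nat_lit 4) (nat_lit 326) (nat_lit 246) (nat_lit 208))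 (XT.lf (nat_lit 0) (nat_lit 9453815620770) (nat_lit 76) (nat_lit 1393958144580) (nat_lit 76) (nat_lit 1392883418435) (nat_lit 1) (nat_lit 4) (nat_lit 2) (nat_lit 5) (nat_lit 2) (nat_lit 4) (nat_lit 327) (nat_lit 246) (nat_lit 207))) (XT.nd (nat_lit 78) (nat_lit 0) (nat_lit 0) (XT.lf (nat_lit 0) (nat_lit 10874574179333) (nat_lit 76) (nat_lit 1601528624655) (nat_lit 76) (nat_lit 1600453294082) (nat_lit 1) (nat_lit 4) (nat_lit 2) (nat_lit 5) (nat_lit 2) (nat_lit 4) (nat_lit 328) (nat_lit 246) (nat_lit 206)) (XT.nd (nat_lit 78) (nat_lit 0) (nat_lit 0) (XT.lf (nat_lit 0) (nat_lit 12508443731790) (nat_lit 76) (nat_lit 1840236090619) (nat_lit 76) (nat_lit 1839160234458) (nat_lit 1) (nat_lit 4) (nat_lit 2) (nat_lit 5) (nat_lit 2) (nat_lit 4) (nat_lit 329) (nat_lit 246) (nat_lit 205)) (XT.lf (nat_lit 0) (nat_lit 14387391291124) (nat_lit 76) (nat_lit 2114750905938) (nat_lit 76) (nat_lit 2113674592743)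 (nat_lit 1) (nat_lit 4) (nat_lit 2) (nat_lit 5) (nat_lit 2) (nat_lit 4) (nat_lit 330) (nat_lit 246) (nat_lit 204)))))) (XT.nd (nat_lit 312) (nat_lit 0) (nat_lit 0) (XT.nd (nat_lit 156) (nat_lit 0) (nat_lit 0) (XT.nd (nat_lit 78) (nat_lit 0) (nat_lit 0) (XT.lf (nat_lit 0) (nat_lit 16548178874800) (nat_lit 76) (nat_lit 2430444012650) (nat_lit 76) (nat_lit 2429367302034) (nat_lit 1) (nat_lit 4) (nat_lit 2) (nat_lit 5) (nat_lit 2) (nat_lit 4) (nat_lit 331) (nat_lit 246) (nat_lit 203)) (XT.lf (nat_lit 0) (nat_lit 19033082761629) (nat_lit 76) (nat_lit 2793492015017) (nat_lit 76) (nat_lit 2792414958818) (nat_lit 1) (nat_lit 4) (nat_lit 2) (nat_lit 5) (nat_lit 2) (nat_lit 4) (nat_lit 332) (nat_lit 246) (nat_lit 202))) (XT.nd (nat_lit 78) (nat_lit 0) (nat_lit 0) (XT.lf (nat_lit 0) (nat_lit 21890720636353) (nat_lit 76) (nat_lit 3210998026129) (nat_lit 76) (nat_lit 3209920669423) (nat_lit 1) (nat_lit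 4) (nat_lit 2) (nat_lit 5) (nat_lit 2) (nat_lit 4) (nat_lit 333) (nat_lit 246) (nat_lit 201)) (XT.lf (nat_lit 0) (nat_lit 25177002805217) (nat_lit 76) (nat_lit 3691130641855) (nat_lit 76) (nat_lit 3690053023839) (nat_lit 1) (nat_lit 4) (nat_lit 2) (nat_lit 5) (nat_lit 2) (nat_lit 4) (nat_lit 334) (nat_lit 246) (nat_lit 200)))) (XT.nd (nat_lit 156) (nat_lit 0) (nat_lit 0) (XT.nd (nat_lit 78) (nat_lit 0) (nat_lit 0) (XT.lf (nat_lit 0) (nat_lit 28956226093264) (nat_lit 76) (nat_lit 4243283761199) (nat_lit 76) (nat_lit 4242205915956) (nat_lit 1) (nat_lit 4) (nat_lit 2) (nat_lit 5) (nat_lit 2) (nat_lit 4) (nat_lit 335) (nat_lit 246) (nat_lit 199)) (XT.lf (nat_lit 0) (nat_lit 33302331825695) (nat_lit 76) (nat_lit 4878260379975) (nat_lit 76) (nat_lit 4877182337143) (nat_lit 1) (nat_lit 4) (nat_lit 2) (nat_lit 5) (nat_lit 2) (nat_lit 4) (nat_lit 336) (nat_lit 246) (nat_lit 198))) (XT.nd (nat_lit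 78) (nat_lit 0) (nat_lit 0) (XT.lf (nat_lit 0) (nat_lit 38300352505971) (nat_lit 76) (nat_lit 5608483953765) (nat_lit 76) (nat_lit 5607405739118) (nat_lit 1) (nat_lit 4) (nat_lit 2) (nat_lit 5) (nat_lit 2) (nat_lit 4) (nat_lit 337) (nat_lit 246) (nat_lit 197)) (XT.nd (nat_lit 78) (nat_lit 0) (nat_lit 0) (XT.lf (nat_lit 0) (nat_lit 44048075495227) (nat_lit 76) (nat_lit 6448241465537) (nat_lit 76) (nat_lit 6447163101485) (nat_lit 1) (nat_lit 4) (nat_lit 2) (nat_lit 5) (nat_lit 2) (nat_lit 4) (nat_lit 338) (nat_lit 246) (nat_lit 196)) (XT.lf (nat_lit 0) (nat_lit 50657956243253) (nat_lit 76) (nat_lit 7413962953565) (nat_lit 76) (nat_lit 7412884459594) (nat_lit 1) (nat_lit 4) (nat_lit 2) (nat_lit 5) (nat_lit 2) (nat_lit 4) (nat_lit 339) (nat_lit 246) (nat_lit 195))))))) (XT.nd (nat_lit 36972) (nat_lit 0) (nat_lit 0) (XT.nd (nat_lit 36582) (nat_lit 0) (nat_lit 0) (XT.nd (nat_lit 36426) (nat_lit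 0) (nat_lit 76) (XT.nd (nat_lit 78) (nat_lit 0) (nat_lit 0) (XT.lf (nat_lit 0) (nat_lit 58259318503815) (nat_lit 76) (nat_lit 8524542968699) (nat_lit 76) (nat_lit 8523464361757) (nat_lit 1) (nat_lit 4) (nat_lit 2) (nat_lit 5) (nat_lit 2) (nat_lit 4) (nat_lit 340) (nat_lit 246) (nat_lit 194)) (XT.lf (nat_lit 0) (nat_lit 67000884582010) (nat_lit 76) (nat_lit 9801710250369) (nat_lit 76) (nat_lit 9800631545190) (nat_lit 1) (nat_lit 4) (nat_lit 2) (nat_lit 5) (nat_lit 2) (nat_lit 4) (nat_lit 341) (nat_lit 246) (nat_lit 193))) (XT.nd (nat_lit 78) (nat_lit 0) (nat_lit 0) (XT.lf (nat_lit 0) (nat_lit 8373580735) (nat_lit 152) (nat_lit 4606260627) (nat_lit 0) (nat_lit 8373580735) (nat_lit 2) (nat_lit 5) (nat_lit 4) (nat_lit 4) (nat_lit 2) (nat_lit 4) (nat_lit 286) (nat_lit 247) (nat_lit 247)) (XT.lf (nat_lit 0) (nat_lit 23046192122) (nat_lit 152) (nat_lit 2583368866) (nat_lit 0) (nat_lit 22884288109)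 (nat_lit 2) (nat_lit 5) (nat_lit 4) (nat_lit 4) (nat_lit 2) (nat_lit 4) (nat_lit 287) (nat_lit 247) (nat_lit 246)))) (XT.nd (nat_lit 156) (nat_lit 0) (nat_lit 0) (XT.nd (nat_lit 78) (nat_lit 0) (nat_lit 0) (XT.lf (nat_lit 0) (nat_lit 4785407136) (nat_lit 76) (nat_lit 25365184846) (nat_lit 76) (nat_lit 25062494735) (nat_lit 1) (nat_lit 4) (nat_lit 2) (nat_lit 5) (nat_lit 2) (nat_lit 4) (nat_lit 288) (nat_lit 247) (nat_lit 245)) (XT.lf (nat_lit 0) (nat_lit 12900000206) (nat_lit 76) (nat_lit 25235184043) (nat_lit 76) (nat_lit 24810071237) (nat_lit 1) (nat_lit 4) (nat_lit 2) (nat_lit 5) (nat_lit 2) (nat_lit 4) (nat_lit 289) (nat_lit 247) (nat_lit 244))) (XT.nd (nat_lit 78) (nat_lit 0) (nat_lit 0) (XT.lf (nat_lit 0) (nat_lit 21666708528) (nat_lit 76) (nat_lit 25372054819) (nat_lit 76) (nat_lit 24840487497) (nat_lit 1) (nat_lit 4) (nat_lit 2) (nat_lit 5) (nat_lit 2) (nat_lit 4) (nat_lit 290)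 (nat_lit 247) (nat_lit 243)) (XT.nd (nat_lit 78) (nat_lit 0) (nat_lit 0) (XT.lf (nat_lit 0) (nat_lit 31257054656) (nat_lit 76) (nat_lit 25778475083) (nat_lit 76) (nat_lit 25154338616) (nat_lit 1) (nat_lit 4) (nat_lit 2) (nat_lit 5) (nat_lit 2) (nat_lit 4) (nat_lit 291) (nat_lit 247) (nat_lit 242)) (XT.lf (nat_lit 0) (nat_lit 41858675795) (nat_lit 76) (nat_lit 26462396534) (nat_lit 76) (nat_lit 25757765158) (nat_lit 1) (nat_lit 4) (nat_lit 2) (nat_lit 5) (nat_lit 2) (nat_lit 4) (nat_lit 292) (nat_lit 247) (nat_lit 241)))))) (XT.nd (nat_lit 390) (nat_lit 0) (nat_lit 0) (XT.nd (nat_lit 156) (nat_lit 0) (nat_lit 0) (XT.nd (nat_lit 78) (nat_lit 0) (nat_lit 0) (XT.lf (nat_lit 0) (nat_lit 53678994970) (nat_lit 76) (nat_lit 27437200245) (nat_lit 76) (nat_lit 26662573296) (nat_lit 1) (nat_lit 4) (nat_lit 2) (nat_lit 5) (nat_lit 2) (nat_lit 4) (nat_lit 293) (nat_lit 247) (nat_lit 240)) (XT.lf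 (nat_lit 0) (nat_lit 66949279293) (nat_lit 76) (nat_lit 28721958462) (nat_lit 76) (nat_lit 27886465798) (nat_lit 1) (nat_lit 4) (nat_lit 2) (nat_lit 5) (nat_lit 2) (nat_lit 4) (nat_lit 294) (nat_lit 247) (nat_lit 239))) (XT.nd (nat_lit 78) (nat_lit 0) (nat_lit 0) (XT.lf (nat_lit 0) (nat_lit 81929164763) (nat_lit 76) (nat_lit 30341807759) (nat_lit 76) (nat_lit 29453388386) (nat_lit 1) (nat_lit 4) (nat_lit 2) (nat_lit 5) (nat_lit 2) (nat_lit 4) (nat_lit 295) (nat_lit 247) (nat_lit 238)) (XT.nd (nat_lit 78) (nat_lit 0) (nat_lit 0) (XT.lf (nat_lit 0) (nat_lit 98911736095) (nat_lit 76) (nat_lit 32328440839) (nat_lit 76) (nat_lit 31393998241) (nat_lit 1) (nat_lit 4) (nat_lit 2) (nat_lit 5) (nat_lit 2) (nat_lit 4) (nat_lit 296) (nat_lit 247) (nat_lit 237)) (XT.lf (nat_lit 0) (nat_lit 118229260990) (nat_lit 76) (nat_lit 34720726611) (nat_lit 76) (nat_lit 33746263817) (nat_lit 1) (nat_lit 4)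 (nat_lit 2) (nat_lit 5) (nat_lit 2) (nat_lit 4) (nat_lit 297) (nat_lit 247) (nat_lit 236))))) (XT.nd (nat_lit 156) (nat_lit 0) (nat_lit 0) (XT.nd (nat_lit 78) (nat_lit 0) (nat_lit 0) (XT.lf (nat_lit 0) (nat_lit 140259691020) (nat_lit 76) (nat_lit 37565470666) (nat_lit 76) (nat_lit 36556207701) (nat_lit 1) (nat_lit 4) (nat_lit 2) (nat_lit 5) (nat_lit 2) (nat_lit 4) (nat_lit 298) (nat_lit 247) (nat_lit 235)) (XT.lf (nat_lit 0) (nat_lit 165434056340) (nat_lit 76) (nat_lit 40918331039) (nat_lit 76) (nat_lit 39878807057) (nat_lit 1) (nat_lit 4) (nat_lit 2) (nat_lit 5) (nat_lit 2) (nat_lit 4) (nat_lit 299) (nat_lit 247) (nat_lit 234))) (XT.nd (nat_lit 78) (nat_lit 0) (nat_lit 0) (XT.lf (nat_lit 0) (nat_lit 194244898879) (nat_lit 76) (nat_lit 44844907173) (nat_lit 76) (nat_lit 43779069262) (nat_lit 1) (nat_lit 4) (nat_lit 2) (nat_lit 5) (nat_lit 2) (nat_lit 4) (nat_lit 300) (nat_lit 247) (nat_lit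 233)) (XT.nd (nat_lit 78) (nat_lit 0) (nat_lit 0) (XT.lf (nat_lit 0) (nat_lit 227255909035) (nat_lit 76) (nat_lit 49422023384) (nat_lit 76) (nat_lit 48333303796) (nat_lit 1) (nat_lit 4) (nat_lit 2) (nat_lit 5) (nat_lit 2) (nat_lit 4) (nat_lit 301) (nat_lit 247) (nat_lit 232)) (XT.lf (nat_lit 0) (nat_lit 265112954397) (nat_lit 76) (nat_lit 54739231944) (nat_lit 76) (nat_lit 53630615246) (nat_lit 1) (nat_lit 4) (nat_lit 2) (nat_lit 5) (nat_lit 2) (nat_lit 4) (nat_lit 302) (nat_lit 247) (nat_lit 231))))))))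
noncomputable def xc23 : XT := (XT.nd (nat_lit 1404) (nat_lit 0) (nat_lit 0) (XT.nd (nat_lit 702) (nat_lit 0) (nat_lit 0) (XT.nd (nat_lit 312) (nat_lit 0) (nat_lit 0) (XT.nd (nat_lit 156) (nat_lit 0) (nat_lit 0) (XT.nd (nat_lit 78) (nat_lit 0) (nat_lit 0) (XT.lf (nat_lit 0) (nat_lit 308556716289) (nat_lit 76) (nat_lit 60900565196) (nat_lit 76) (nat_lit 59774646663) (nat_lit 1) (nat_lit 4) (nat_lit 2) (nat_lit 5) (nat_lit 2) (nat_lit 4) (nat_lit 303) (nat_lit 247) (nat_lit 230)) (XT.lf (nat_lit 0) (nat_lit 358437181355) (nat_lit 76) (nat_lit 68026570964) (nat_lit 76) (nat_lit 66885607357) (nat_lit 1) (nat_lit 4) (nat_lit 2) (nat_lit 5) (nat_lit 2) (nat_lit 4) (nat_lit 304) (nat_lit 247) (nat_lit 229))) (XT.nd (nat_lit 78) (nat_lit 0) (nat_lit 0) (XT.lf (nat_lit 0) (nat_lit 415730271739) (nat_lit 76) (nat_lit 76256671100) (nat_lit 76) (nat_lit 75102624820) (nat_lit 1) (nat_lit 4) (nat_lit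 2) (nat_lit 5) (nat_lit 2) (nat_lit 4) (nat_lit 305) (nat_lit 247) (nat_lit 228)) (XT.lf (nat_lit 0) (nat_lit 481556939208) (nat_lit 76) (nat_lit 85751889303) (nat_lit 76) (nat_lit 84586466785) (nat_lit 1) (nat_lit 4) (nat_lit 2) (nat_lit 5) (nat_lit 2) (nat_lit 4) (nat_lit 306) (nat_lit 247) (nat_lit 227)))) (XT.nd (nat_lit 156) (nat_lit 0) (nat_lit 0) (XT.nd (nat_lit 78) (nat_lit 0) (nat_lit 0) (XT.lf (nat_lit 0) (nat_lit 557205096822) (nat_lit 76) (nat_lit 96698001580) (nat_lit 76) (nat_lit 95522686682) (nat_lit 1) (nat_lit 4) (nat_lit 2) (nat_lit 5) (nat_lit 2) (nat_lit 4) (nat_lit 307) (nat_lit 247) (nat_lit 226)) (XT.lf (nat_lit 0) (nat_lit 644154817230) (nat_lit 76) (nat_lit 109309170997) (nat_lit 76) (nat_lit 108125254030) (nat_lit 1) (nat_lit 4) (nat_lit 2) (nat_lit 5) (nat_lit 2) (nat_lit 4) (nat_lit 308) (nat_lit 247) (nat_lit 225))) (XT.nd (nat_lit 78) (nat_lit 0) (nat_lit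 0) (XT.lf (nat_lit 0) (nat_lit 744107290614) (nat_lit 76) (nat_lit 123832137827) (nat_lit 76) (nat_lit 122640740799) (nat_lit 1) (nat_lit 4) (nat_lit 2) (nat_lit 5) (nat_lit 2) (nat_lit 4) (nat_lit 309) (nat_lit 247) (nat_lit 224)) (XT.nd (nat_lit 78) (nat_lit 0) (nat_lit 0) (XT.lf (nat_lit 0) (nat_lit 859018108844) (nat_lit 76) (nat_lit 140551047072) (nat_lit 76) (nat_lit 139353145643) (nat_lit 1) (nat_lit 4) (nat_lit 2) (nat_lit 5) (nat_lit 2) (nat_lit 4) (nat_lit 310) (nat_lit 247) (nat_lit 223)) (XT.lf (nat_lit 0) (nat_lit 991135527060) (nat_lit 76) (nat_lit 159793007827) (nat_lit 76) (nat_lit 158589450397) (nat_lit 1) (nat_lit 4) (nat_lit 2) (nat_lit 5) (nat_lit 2) (nat_lit 4) (nat_lit 311) (nat_lit 247) (nat_lit 222)))))) (XT.nd (nat_lit 312) (nat_lit 0) (nat_lit 0) (XT.nd (nat_lit 156) (nat_lit 0) (nat_lit 0) (XT.nd (nat_lit 78) (nat_lit 0) (nat_lit 0) (XT.lf (nat_lit 0) (nat_lit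 1143044451270) (nat_lit 76) (nat_lit 181934493236) (nat_lit 76) (nat_lit 180726017545) (nat_lit 1) (nat_lit 4) (nat_lit 2) (nat_lit 5) (nat_lit 2) (nat_lit 4) (nat_lit 312) (nat_lit 247) (nat_lit 221)) (XT.lf (nat_lit 0) (nat_lit 1317717012600) (nat_lit 76) (nat_lit 207408706274) (nat_lit 76) (nat_lit 206195953834) (nat_lit 1) (nat_lit 4) (nat_lit 2) (nat_lit 5) (nat_lit 2) (nat_lit 4) (nat_lit 313) (nat_lit 247) (nat_lit 220))) (XT.nd (nat_lit 78) (nat_lit 0) (nat_lit 0) (XT.lf (nat_lit 0) (nat_lit 1518570717685) (nat_lit 76) (nat_lit 236714055459) (nat_lit 76) (nat_lit 235497584106) (nat_lit 1) (nat_lit 4) (nat_lit 2) (nat_lit 5) (nat_lit 2) (nat_lit 4) (nat_lit 314) (nat_lit 247) (nat_lit 219)) (XT.lf (nat_lit 0) (nat_lit 1749535312928) (nat_lit 76) (nat_lit 270423906316) (nat_lit 76) (nat_lit 269204201128) (nat_lit 1) (nat_lit 4) (nat_lit 2) (nat_lit 5) (nat_lit 2) (nat_lit 4) (nat_lit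 315) (nat_lit 247) (nat_lit 218)))) (XT.nd (nat_lit 156) (nat_lit 0) (nat_lit 0) (XT.nd (nat_lit 78) (nat_lit 0) (nat_lit 0) (XT.lf (nat_lit 0) (nat_lit 2015129670846) (nat_lit 76) (nat_lit 309197799408) (nat_lit 76) (nat_lit 307975282187) (nat_lit 1) (nat_lit 4) (nat_lit 2) (nat_lit 5) (nat_lit 2) (nat_lit 4) (nat_lit 316) (nat_lit 247) (nat_lit 217)) (XT.lf (nat_lit 0) (nat_lit 2320550202788) (nat_lit 76) (nat_lit 353794354380) (nat_lit 76) (nat_lit 352569391914) (nat_lit 1) (nat_lit 4) (nat_lit 2) (nat_lit 5) (nat_lit 2) (nat_lit 4) (nat_lit 317) (nat_lit 247) (nat_lit 216))) (XT.nd (nat_lit 78) (nat_lit 0) (nat_lit 0) (XT.lf (nat_lit 0) (nat_lit 2671772527859) (nat_lit 76) (nat_lit 405086112526) (nat_lit 76) (nat_lit 403859023760) (nat_lit 1) (nat_lit 4) (nat_lit 2) (nat_lit 5) (nat_lit 2) (nat_lit 4) (nat_lit 318) (nat_lit 247) (nat_lit 215)) (XT.nd (nat_lit 78) (nat_lit 0) (nat_lit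 0) (XT.lf (nat_lit 0) (nat_lit 3075668387200) (nat_lit 76) (nat_lit 464076608245) (nat_lit 76) (nat_lit 462847670522) (nat_lit 1) (nat_lit 4) (nat_lit 2) (nat_lit 5) (nat_lit 2) (nat_lit 4) (nat_lit 319) (nat_lit 247) (nat_lit 214)) (XT.lf (nat_lit 0) (nat_lit 3540140091103) (nat_lit 76) (nat_lit 531920003409) (nat_lit 76) (nat_lit 530689457898) (nat_lit 1) (nat_lit 4) (nat_lit 2) (nat_lit 5) (nat_lit 2) (nat_lit 4) (nat_lit 320) (nat_lit 247) (nat_lit 213))))))) (XT.nd (nat_lit 702) (nat_lit 0) (nat_lit 0) (XT.nd (nat_lit 312) (nat_lit 0) (nat_lit 0) (XT.nd (nat_lit 156) (nat_lit 0) (nat_lit 0) (XT.nd (nat_lit 78) (nat_lit 0) (nat_lit 0) (XT.lf (nat_lit 0) (nat_lit 4074275129427) (nat_lit 76) (nat_lit 609943668793) (nat_lit 76) (nat_lit 608711725205) (nat_lit 1) (nat_lit 4) (nat_lit 2) (nat_lit 5) (nat_lit 2) (nat_lit 4) (nat_lit 321) (nat_lit 247) (nat_lit 212)) (XT.lf (nat_lit 0)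 (nat_lit 4688523970314) (nat_lit 76) (nat_lit 699674154372) (nat_lit 76) (nat_lit 698440995065) (nat_lit 1) (nat_lit 4) (nat_lit 2) (nat_lit 5) (nat_lit 2) (nat_lit 4) (nat_lit 322) (nat_lit 247) (nat_lit 211))) (XT.nd (nat_lit 78) (nat_lit 0) (nat_lit 0) (XT.lf (nat_lit 0) (nat_lit 5394904525867) (nat_lit 76) (nat_lit 802867056603) (nat_lit 76) (nat_lit 801632840149) (nat_lit 1) (nat_lit 4) (nat_lit 2) (nat_lit 5) (nat_lit 2) (nat_lit 4) (nat_lit 323) (nat_lit 247) (nat_lit 210)) (XT.lf (nat_lit 0) (nat_lit 6207237285217) (nat_lit 76) (nat_lit 921541367051) (nat_lit 76) (nat_lit 920306231339) (nat_lit 1) (nat_lit 4) (nat_lit 2) (nat_lit 5) (nat_lit 2) (nat_lit 4) (nat_lit 324) (nat_lit 247) (nat_lit 209)))) (XT.nd (nat_lit 156) (nat_lit 0) (nat_lit 0) (XT.nd (nat_lit 78) (nat_lit 0) (nat_lit 0) (XT.lf (nat_lit 0) (nat_lit 7141415715395) (nat_lit 76) (nat_lit 1058018974400) (nat_lit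 76) (nat_lit 1056783039333) (nat_lit 1) (nat_lit 4) (nat_lit 2) (nat_lit 5) (nat_lit 2) (nat_lit 4) (nat_lit 325) (nat_lit 247) (nat_lit 208)) (XT.lf (nat_lit 0) (nat_lit 8215717220469) (nat_lit 76) (nat_lit 1214970092706) (nat_lit 76) (nat_lit 1213733462547) (nat_lit 1) (nat_lit 4) (nat_lit 2) (nat_lit 5) (nat_lit 2) (nat_lit 4) (nat_lit 326) (nat_lit 247) (nat_lit 207))) (XT.nd (nat_lit 78) (nat_lit 0) (nat_lit 0) (XT.lf (nat_lit 0) (nat_lit 9451160742930) (nat_lit 76) (nat_lit 1395465504717) (nat_lit 76) (nat_lit 1394228270132) (nat_lit 1) (nat_lit 4) (nat_lit 2) (nat_lit 5) (nat_lit 2) (nat_lit 4) (nat_lit 327) (nat_lit 247) (nat_lit 206)) (XT.nd (nat_lit 78) (nat_lit 0) (nat_lit 0) (XT.lf (nat_lit 0) (nat_lit 10871918003870) (nat_lit 76) (nat_lit 1603036642410) (nat_lit 76) (nat_lit 1601798882236) (nat_lit 1) (nat_lit 4) (nat_lit 2) (nat_lit 5) (nat_lit 2) (nat_lit 4) (nat_lit 328)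 (nat_lit 247) (nat_lit 205)) (XT.lf (nat_lit 0) (nat_lit 12505786427959) (nat_lit 76) (nat_lit 1841744680216) (nat_lit 76) (nat_lit 1840506463008) (nat_lit 1) (nat_lit 4) (nat_lit 2) (nat_lit 5) (nat_lit 2) (nat_lit 4) (nat_lit 329) (nat_lit 247) (nat_lit 204)))))) (XT.nd (nat_lit 390) (nat_lit 0) (nat_lit 0) (XT.nd (nat_lit 156) (nat_lit 0) (nat_lit 0) (XT.nd (nat_lit 78) (nat_lit 0) (nat_lit 0) (XT.lf (nat_lit 0) (nat_lit 14384733006103) (nat_lit 76) (nat_lit 2116259992789) (nat_lit 76) (nat_lit 2115021378160) (nat_lit 1) (nat_lit 4) (nat_lit 2) (nat_lit 5) (nat_lit 2) (nat_lit 4) (nat_lit 330) (nat_lit 247) (nat_lit 203)) (XT.lf (nat_lit 0) (nat_lit 16545519736570) (nat_lit 76) (nat_lit 2431953531895) (nat_lit 76) (nat_lit 2430714571683) (nat_lit 1) (nat_lit 4) (nat_lit 2) (nat_lit 5) (nat_lit 2) (nat_lit 4) (nat_lit 331) (nat_lit 247) (nat_lit 202))) (XT.nd (nat_lit 78) (nat_lit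 0) (nat_lit 0) (XT.lf (nat_lit 0) (nat_lit 19030422881478) (nat_lit 76) (nat_lit 2795001910258) (nat_lit 76) (nat_lit 2793762649538) (nat_lit 1) (nat_lit 4) (nat_lit 2) (nat_lit 5) (nat_lit 2) (nat_lit 4) (nat_lit 332) (nat_lit 247) (nat_lit 201)) (XT.nd (nat_lit 78) (nat_lit 0) (nat_lit 0) (XT.lf (nat_lit 0) (nat_lit 21888060111054) (nat_lit 76) (nat_lit 3212508248322) (nat_lit 76) (nat_lit 3211268726292) (nat_lit 1) (nat_lit 4) (nat_lit 2) (nat_lit 5) (nat_lit 2) (nat_lit 4) (nat_lit 333) (nat_lit 247) (nat_lit 200)) (XT.lf (nat_lit 0) (nat_lit 25174341718920) (nat_lit 76) (nat_lit 3692641148355) (nat_lit 76) (nat_lit 3691401399098) (nat_lit 1) (nat_lit 4) (nat_lit 2) (nat_lit 5) (nat_lit 2) (nat_lit 4) (nat_lit 334) (nat_lit 247) (nat_lit 199))))) (XT.nd (nat_lit 156) (nat_lit 0) (nat_lit 0) (XT.nd (nat_lit 78) (nat_lit 0) (nat_lit 0) (XT.lf (nat_lit 0) (nat_lit 28953564519143) (nat_lit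 76) (nat_lit 4244794514922) (nat_lit 76) (nat_lit 4243554568077) (nat_lit 1) (nat_lit 4) (nat_lit 2) (nat_lit 5) (nat_lit 2) (nat_lit 4) (nat_lit 335) (nat_lit 247) (nat_lit 198)) (XT.lf (nat_lit 0) (nat_lit 33299669827378) (nat_lit 76) (nat_lit 4879771348673) (nat_lit 76) (nat_lit 4878531230013) (nat_lit 1) (nat_lit 4) (nat_lit 2) (nat_lit 5) (nat_lit 2) (nat_lit 4) (nat_lit 336) (nat_lit 247) (nat_lit 197))) (XT.nd (nat_lit 78) (nat_lit 0) (nat_lit 0) (XT.lf (nat_lit 0) (nat_lit 38297690138788) (nat_lit 76) (nat_lit 5609995109400) (nat_lit 76) (nat_lit 5608754841335) (nat_lit 1) (nat_lit 4) (nat_lit 2) (nat_lit 5) (nat_lit 2) (nat_lit 4) (nat_lit 337) (nat_lit 247) (nat_lit 196)) (XT.nd (nat_lit 78) (nat_lit 0) (nat_lit 0) (XT.lf (nat_lit 0) (nat_lit 44045412807291) (nat_lit 76) (nat_lit 6449752783726) (nat_lit 76) (nat_lit 6448512385742) (nat_lit 1) (nat_lit 4) (nat_lit 2) (nat_lit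 5) (nat_lit 2) (nat_lit 4) (nat_lit 338) (nat_lit 247) (nat_lit 195)) (XT.lf (nat_lit 0) (nat_lit 50655293276402) (nat_lit 76) (nat_lit 7415474413103) (nat_lit 76) (nat_lit 7414233902148) (nat_lit 1) (nat_lit 4) (nat_lit 2) (nat_lit 5) (nat_lit 2) (nat_lit 4) (nat_lit 339) (nat_lit 247) (nat_lit 194))))))))
noncomputable def xc24 : XT := (XT.nd (nat_lit 37518) (nat_lit 0) (nat_lit 0) (XT.nd (nat_lit 36816) (nat_lit 0) (nat_lit 0) (XT.nd (nat_lit 36426) (nat_lit 0) (nat_lit 0) (XT.nd (nat_lit 36270) (nat_lit 0) (nat_lit 76) (XT.nd (nat_lit 78) (nat_lit 0) (nat_lit 0) (XT.lf (nat_lit 0) (nat_lit 58256655294429) (nat_lit 76) (nat_lit 8526054551152) (nat_lit 76) (nat_lit 8524813941960) (nat_lit 1) (nat_lit 4) (nat_lit 2) (nat_lit 5) (nat_lit 2) (nat_lit 4) (nat_lit 340) (nat_lit 247) (nat_lit 193)) (XT.lf (nat_lit 0) (nat_lit 66998221161724) (nat_lit 76) (nat_lit 9803221939702) (nat_lit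 76) (nat_lit 9801981245088) (nat_lit 1) (nat_lit 4) (nat_lit 2) (nat_lit 5) (nat_lit 2) (nat_lit 4) (nat_lit 341) (nat_lit 247) (nat_lit 192))) (XT.nd (nat_lit 78) (nat_lit 0) (nat_lit 0) (XT.lf (nat_lit 0) (nat_lit 2940562755) (nat_lit 152) (nat_lit 10813246100) (nat_lit 0) (nat_lit 2940562755) (nat_lit 2) (nat_lit 5) (nat_lit 4) (nat_lit 4) (nat_lit 2) (nat_lit 4) (nat_lit 284) (nat_lit 248) (nat_lit 248)) (XT.lf (nat_lit 0) (nat_lit 11118294234) (nat_lit 152) (nat_lit 15657780869) (nat_lit 0) (nat_lit 10932104619) (nat_lit 2) (nat_lit 5) (nat_lit 4) (nat_lit 4) (nat_lit 2) (nat_lit 4) (nat_lit 285) (nat_lit 248) (nat_lit 247)))) (XT.nd (nat_lit 156) (nat_lit 76) (nat_lit 0) (XT.nd (nat_lit 78) (nat_lit 0) (nat_lit 0) (XT.lf (nat_lit 0) (nat_lit 16752753538) (nat_lit 152) (nat_lit 9576659007) (nat_lit 0) (nat_lit 16404659910) (nat_lit 2) (nat_lit 5) (nat_lit 4) (nat_lit 4) (nat_lit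 2) (nat_lit 4) (nat_lit 286) (nat_lit 248) (nat_lit 246)) (XT.lf (nat_lit 0) (nat_lit 22894742844) (nat_lit 152) (nat_lit 3264148144) (nat_lit 0) (nat_lit 22405863117) (nat_lit 2) (nat_lit 5) (nat_lit 4) (nat_lit 4) (nat_lit 2) (nat_lit 4) (nat_lit 287) (nat_lit 248) (nat_lit 245))) (XT.nd (nat_lit 78) (nat_lit 0) (nat_lit 0) (XT.lf (nat_lit 0) (nat_lit 3735848427) (nat_lit 76) (nat_lit 26083276597) (nat_lit 76) (nat_lit 25471974176) (nat_lit 1) (nat_lit 4) (nat_lit 2) (nat_lit 5) (nat_lit 2) (nat_lit 4) (nat_lit 288) (nat_lit 248) (nat_lit 244)) (XT.nd (nat_lit 78) (nat_lit 0) (nat_lit 0) (XT.lf (nat_lit 0) (nat_lit 11587616517) (nat_lit 76) (nat_lit 26086471933) (nat_lit 76) (nat_lit 25368714996) (nat_lit 1) (nat_lit 4) (nat_lit 2) (nat_lit 5) (nat_lit 2) (nat_lit 4) (nat_lit 289) (nat_lit 248) (nat_lit 243)) (XT.lf (nat_lit 0) (nat_lit 20125781377) (nat_lit 76) (nat_lit 26339165440)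 (nat_lit 76) (nat_lit 25528839358) (nat_lit 1) (nat_lit 4) (nat_lit 2) (nat_lit 5) (nat_lit 2) (nat_lit 4) (nat_lit 290) (nat_lit 248) (nat_lit 242)))))) (XT.nd (nat_lit 312) (nat_lit 0) (nat_lit 0) (XT.nd (nat_lit 156) (nat_lit 0) (nat_lit 0) (XT.nd (nat_lit 78) (nat_lit 0) (nat_lit 0) (XT.lf (nat_lit 0) (nat_lit 29517394059) (nat_lit 76) (nat_lit 26846301122) (nat_lit 76) (nat_lit 25955480131) (nat_lit 1) (nat_lit 4) (nat_lit 2) (nat_lit 5) (nat_lit 2) (nat_lit 4) (nat_lit 291) (nat_lit 248) (nat_lit 241)) (XT.lf (nat_lit 0) (nat_lit 39946203508) (nat_lit 76) (nat_lit 27617801197) (nat_lit 76) (nat_lit 26656984633) (nat_lit 1) (nat_lit 4) (nat_lit 2) (nat_lit 5) (nat_lit 2) (nat_lit 4) (nat_lit 292) (nat_lit 248) (nat_lit 240))) (XT.nd (nat_lit 78) (nat_lit 0) (nat_lit 0) (XT.lf (nat_lit 0) (nat_lit 51616251646) (nat_lit 76) (nat_lit 28668760233) (nat_lit 76) (nat_lit 27647077954)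 (nat_lit 1) (nat_lit 4) (nat_lit 2) (nat_lit 5) (nat_lit 2) (nat_lit 4) (nat_lit 293) (nat_lit 248) (nat_lit 239)) (XT.lf (nat_lit 0) (nat_lit 64755865503) (nat_lit 76) (nat_lit 30019740472) (nat_lit 76) (nat_lit 28945131484) (nat_lit 1) (nat_lit 4) (nat_lit 2) (nat_lit 5) (nat_lit 2) (nat_lit 4) (nat_lit 294) (nat_lit 248) (nat_lit 238)))) (XT.nd (nat_lit 156) (nat_lit 0) (nat_lit 0) (XT.nd (nat_lit 78) (nat_lit 0) (nat_lit 0) (XT.lf (nat_lit 0) (nat_lit 79622124481) (nat_lit 76) (nat_lit 31697174136) (nat_lit 76) (nat_lit 30576541922) (nat_lit 1) (nat_lit 4) (nat_lit 2) (nat_lit 5) (nat_lit 2) (nat_lit 4) (nat_lit 295) (nat_lit 248) (nat_lit 237)) (XT.lf (nat_lit 0) (nat_lit 96505890168) (nat_lit 76) (nat_lit 33733880579) (nat_lit 76) (nat_lit 32573228169) (nat_lit 1) (nat_lit 4) (nat_lit 2) (nat_lit 5) (nat_lit 2) (nat_lit 4) (nat_lit 296) (nat_lit 248) (nat_lit 236))) (XT.nd (nat_lit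 78) (nat_lit 0) (nat_lit 0) (XT.lf (nat_lit 0) (nat_lit 115737497110) (nat_lit 76) (nat_lit 36169708405) (nat_lit 76) (nat_lit 34974255825) (nat_lit 1) (nat_lit 4) (nat_lit 2) (nat_lit 5) (nat_lit 2) (nat_lit 4) (nat_lit 297) (nat_lit 248) (nat_lit 235)) (XT.nd (nat_lit 78) (nat_lit 0) (nat_lit 0) (XT.lf (nat_lit 0) (nat_lit 137693215878) (nat_lit 76) (nat_lit 39052315116) (nat_lit 76) (nat_lit 37826601518) (nat_lit 1) (nat_lit 4) (nat_lit 2) (nat_lit 5) (nat_lit 2) (nat_lit 4) (nat_lit 298) (nat_lit 248) (nat_lit 234)) (XT.lf (nat_lit 0) (nat_lit 162802614882) (nat_lit 76) (nat_lit 42438099538) (nat_lit 76) (nat_lit 41186072012) (nat_lit 1) (nat_lit 4) (nat_lit 2) (nat_lit 5) (nat_lit 2) (nat_lit 4) (nat_lit 299) (nat_lit 248) (nat_lit 233))))))) (XT.nd (nat_lit 702) (nat_lit 0) (nat_lit 0) (XT.nd (nat_lit 312) (nat_lit 0) (nat_lit 0) (XT.nd (nat_lit 156) (nat_lit 0) (nat_lit 0) (XT.nd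 (nat_lit 78) (nat_lit 0) (nat_lit 0) (XT.lf (nat_lit 0) (nat_lit 191556964972) (nat_lit 76) (nat_lit 46393305279) (nat_lit 76) (nat_lit 45118396077) (nat_lit 1) (nat_lit 4) (nat_lit 2) (nat_lit 5) (nat_lit 2) (nat_lit 4) (nat_lit 300) (nat_lit 248) (nat_lit 232)) (XT.lf (nat_lit 0) (nat_lit 224518851260) (nat_lit 76) (nat_lit 50995316801) (nat_lit 76) (nat_lit 49700510488) (nat_lit 1) (nat_lit 4) (nat_lit 2) (nat_lit 5) (nat_lit 2) (nat_lit 4) (nat_lit 301) (nat_lit 248) (nat_lit 231))) (XT.nd (nat_lit 78) (nat_lit 0) (nat_lit 0) (XT.lf (nat_lit 0) (nat_lit 262333180215) (nat_lit 76) (nat_lit 56334173458) (nat_lit 76) (nat_lit 55022065310) (nat_lit 1) (nat_lit 4) (nat_lit 2) (nat_lit 5) (nat_lit 2) (nat_lit 4) (nat_lit 302) (nat_lit 248) (nat_lit 230)) (XT.lf (nat_lit 0) (nat_lit 305739797405) (nat_lit 76) (nat_lit 62514331142) (nat_lit 76) (nat_lit 61187177920) (nat_lit 1) (nat_lit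 4) (nat_lit 2) (nat_lit 5) (nat_lit 2) (nat_lit 4) (nat_lit 303) (nat_lit 248) (nat_lit 229)))) (XT.nd (nat_lit 156) (nat_lit 0) (nat_lit 0) (XT.nd (nat_lit 78) (nat_lit 0) (nat_lit 0) (XT.lf (nat_lit 0) (nat_lit 355587962730) (nat_lit 76) (nat_lit 69656705981) (nat_lit 76) (nat_lit 68316470086) (nat_lit 1) (nat_lit 4) (nat_lit 2) (nat_lit 5) (nat_lit 2) (nat_lit 4) (nat_lit 304) (nat_lit 248) (nat_lit 228)) (XT.lf (nat_lit 0) (nat_lit 412852966383) (nat_lit 76) (nat_lit 77901040092) (nat_lit 76) (nat_lit 76549427959) (nat_lit 1) (nat_lit 4) (nat_lit 2) (nat_lit 5) (nat_lit 2) (nat_lit 4) (nat_lit 305) (nat_lit 248) (nat_lit 227))) (XT.nd (nat_lit 78) (nat_lit 0) (nat_lit 0) (XT.lf (nat_lit 0) (nat_lit 478655210608) (nat_lit 76) (nat_lit 87408635663) (nat_lit 76) (nat_lit 86047131151) (nat_lit 1) (nat_lit 4) (nat_lit 2) (nat_lit 5) (nat_lit 2) (nat_lit 4) (nat_lit 306) (nat_lit 248)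 (nat_lit 226)) (XT.nd (nat_lit 78) (nat_lit 0) (nat_lit 0) (XT.lf (nat_lit 0) (nat_lit 554282130618) (nat_lit 76) (nat_lit 98365510870) (nat_lit 76) (nat_lit 96995404288) (nat_lit 1) (nat_lit 4) (nat_lit 2) (nat_lit 5) (nat_lit 2) (nat_lit 4) (nat_lit 307) (nat_lit 248) (nat_lit 225)) (XT.lf (nat_lit 0) (nat_lit 641213383545) (nat_lit 76) (nat_lit 110986039358) (nat_lit 76) (nat_lit 109608452714) (nat_lit 1) (nat_lit 4) (nat_lit 2) (nat_lit 5) (nat_lit 2) (nat_lit 4) (nat_lit 308) (nat_lit 248) (nat_lit 224)))))) (XT.nd (nat_lit 312) (nat_lit 0) (nat_lit 0) (XT.nd (nat_lit 156) (nat_lit 0) (nat_lit 0) (XT.nd (nat_lit 78) (nat_lit 0) (nat_lit 0) (XT.lf (nat_lit 0) (nat_lit 741149798249) (nat_lit 76) (nat_lit 125517144509) (nat_lit 76) (nat_lit 124133053465) (nat_lit 1) (nat_lit 4) (nat_lit 2) (nat_lit 5) (nat_lit 2) (nat_lit 4) (nat_lit 309) (nat_lit 248) (nat_lit 223)) (XT.lf (nat_lit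 0) (nat_lit 856046652410) (nat_lit 76) (nat_lit 142243130555) (nat_lit 76) (nat_lit 140853383510) (nat_lit 1) (nat_lit 4) (nat_lit 2) (nat_lit 5) (nat_lit 2) (nat_lit 4) (nat_lit 310) (nat_lit 248) (nat_lit 222))) (XT.nd (nat_lit 78) (nat_lit 0) (nat_lit 0) (XT.lf (nat_lit 0) (nat_lit 988151927957) (nat_lit 76) (nat_lit 161491245050) (nat_lit 76) (nat_lit 160096579744) (nat_lit 1) (nat_lit 4) (nat_lit 2) (nat_lit 5) (nat_lit 2) (nat_lit 4) (nat_lit 311) (nat_lit 248) (nat_lit 221)) (XT.lf (nat_lit 0) (nat_lit 1140050293324) (nat_lit 76) (nat_lit 183638081537) (nat_lit 76) (nat_lit 182239139482) (nat_lit 1) (nat_lit 4) (nat_lit 2) (nat_lit 5) (nat_lit 2) (nat_lit 4) (nat_lit 312) (nat_lit 248) (nat_lit 220)))) (XT.nd (nat_lit 156) (nat_lit 0) (nat_lit 0) (XT.nd (nat_lit 78) (nat_lit 0) (nat_lit 0) (XT.lf (nat_lit 0) (nat_lit 1314713673052) (nat_lit 76) (nat_lit 209116947687) (nat_lit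 76) (nat_lit 207714286720) (nat_lit 1) (nat_lit 4) (nat_lit 2) (nat_lit 5) (nat_lit 2) (nat_lit 4) (nat_lit 313) (nat_lit 248) (nat_lit 219)) (XT.lf (nat_lit 0) (nat_lit 1515559394135) (nat_lit 76) (nat_lit 238426343056) (nat_lit 76) (nat_lit 237020448252) (nat_lit 1) (nat_lit 4) (nat_lit 2) (nat_lit 5) (nat_lit 2) (nat_lit 4) (nat_lit 314) (nat_lit 248) (nat_lit 218))) (XT.nd (nat_lit 78) (nat_lit 0) (nat_lit 0) (XT.lf (nat_lit 0) (nat_lit 1746517046768) (nat_lit 76) (nat_lit 272139712334) (nat_lit 76) (nat_lit 270731005498) (nat_lit 1) (nat_lit 4) (nat_lit 2) (nat_lit 5) (nat_lit 2) (nat_lit 4) (nat_lit 315) (nat_lit 248) (nat_lit 217)) (XT.nd (nat_lit 78) (nat_lit 0) (nat_lit 0) (XT.lf (nat_lit 0) (nat_lit 2012105367633) (nat_lit 76) (nat_lit 310916664922) (nat_lit 76) (nat_lit 309505512841) (nat_lit 1) (nat_lit 4) (nat_lit 2) (nat_lit 5) (nat_lit 2) (nat_lit 4) (nat_lit 316) (nat_lit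 248) (nat_lit 216)) (XT.lf (nat_lit 0) (nat_lit 2317520649965) (nat_lit 76) (nat_lit 355515880326) (nat_lit 76) (nat_lit 354102601945) (nat_lit 1) (nat_lit 4) (nat_lit 2) (nat_lit 5) (nat_lit 2) (nat_lit 4) (nat_lit 317) (nat_lit 248) (nat_lit 215))))))))
noncomputable def xc25 : XT := (XT.nd (nat_lit 1404) (nat_lit 0) (nat_lit 0) (XT.nd (nat_lit 702) (nat_lit 0) (nat_lit 0) (XT.nd (nat_lit 312) (nat_lit 0) (nat_lit 0) (XT.nd (nat_lit 156) (nat_lit 0) (nat_lit 0) (XT.nd (nat_lit 78) (nat_lit 0) (nat_lit 0) (XT.lf (nat_lit 0) (nat_lit 2668738410156) (nat_lit 76) (nat_lit 406809951891) (nat_lit 76) (nat_lit 405394824553) (nat_lit 1) (nat_lit 4) (nat_lit 2) (nat_lit 5) (nat_lit 2) (nat_lit 4) (nat_lit 318) (nat_lit 248) (nat_lit 214)) (XT.lf (nat_lit 0) (nat_lit 3072630300037) (nat_lit 76) (nat_lit 465802459278) (nat_lit 76) (nat_lit 464385724152) (nat_lit 1) (nat_lit 4) (nat_lit 2) (nat_lit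 5) (nat_lit 2) (nat_lit 4) (nat_lit 319) (nat_lit 248) (nat_lit 213))) (XT.nd (nat_lit 78) (nat_lit 0) (nat_lit 0) (XT.lf (nat_lit 0) (nat_lit 3537098552236) (nat_lit 76) (nat_lit 533647603719) (nat_lit 76) (nat_lit 532229470516) (nat_lit 1) (nat_lit 4) (nat_lit 2) (nat_lit 5) (nat_lit 2) (nat_lit 4) (nat_lit 320) (nat_lit 248) (nat_lit 212)) (XT.lf (nat_lit 0) (nat_lit 4071230589078) (nat_lit 76) (nat_lit 611672790213) (nat_lit 76) (nat_lit 610253441291) (nat_lit 1) (nat_lit 4) (nat_lit 2) (nat_lit 5) (nat_lit 2) (nat_lit 4) (nat_lit 321) (nat_lit 248) (nat_lit 211)))) (XT.nd (nat_lit 156) (nat_lit 0) (nat_lit 0) (XT.nd (nat_lit 78) (nat_lit 0) (nat_lit 0) (XT.lf (nat_lit 0) (nat_lit 4685476819980) (nat_lit 76) (nat_lit 701404598497) (nat_lit 76) (nat_lit 699984192428) (nat_lit 1) (nat_lit 4) (nat_lit 2) (nat_lit 5) (nat_lit 2) (nat_lit 4) (nat_lit 322) (nat_lit 248) (nat_lit 210))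 (XT.lf (nat_lit 0) (nat_lit 5391855105982) (nat_lit 76) (nat_lit 804598650906) (nat_lit 76) (nat_lit 803177325579) (nat_lit 1) (nat_lit 4) (nat_lit 2) (nat_lit 5) (nat_lit 2) (nat_lit 4) (nat_lit 323) (nat_lit 248) (nat_lit 209))) (XT.nd (nat_lit 78) (nat_lit 0) (nat_lit 0) (XT.lf (nat_lit 0) (nat_lit 6204185891809) (nat_lit 76) (nat_lit 923273961510) (nat_lit 76) (nat_lit 921851836827) (nat_lit 1) (nat_lit 4) (nat_lit 2) (nat_lit 5) (nat_lit 2) (nat_lit 4) (nat_lit 324) (nat_lit 248) (nat_lit 208)) (XT.nd (nat_lit 78) (nat_lit 0) (nat_lit 0) (XT.lf (nat_lit 0) (nat_lit 7138362605879) (nat_lit 76) (nat_lit 1059752438558) (nat_lit 76) (nat_lit 1058329618785) (nat_lit 1) (nat_lit 4) (nat_lit 2) (nat_lit 5) (nat_lit 2) (nat_lit 4) (nat_lit 325) (nat_lit 248) (nat_lit 207)) (XT.lf (nat_lit 0) (nat_lit 8212662618686) (nat_lit 76) (nat_lit 1216704313124) (nat_lit 76) (nat_lit 1215280888924)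 (nat_lit 1) (nat_lit 4) (nat_lit 2) (nat_lit 5) (nat_lit 2) (nat_lit 4) (nat_lit 326) (nat_lit 248) (nat_lit 206)))))) (XT.nd (nat_lit 312) (nat_lit 0) (nat_lit 0) (XT.nd (nat_lit 156) (nat_lit 0) (nat_lit 0) (XT.nd (nat_lit 78) (nat_lit 0) (nat_lit 0) (XT.lf (nat_lit 0) (nat_lit 9448104843524) (nat_lit 76) (nat_lit 1397200382754) (nat_lit 76) (nat_lit 1395776432965) (nat_lit 1) (nat_lit 4) (nat_lit 2) (nat_lit 5) (nat_lit 2) (nat_lit 4) (nat_lit 327) (nat_lit 248) (nat_lit 205)) (XT.lf (nat_lit 0) (nat_lit 10868860976095) (nat_lit 76) (nat_lit 1604772092288) (nat_lit 76) (nat_lit 1603347685465) (nat_lit 1) (nat_lit 4) (nat_lit 2) (nat_lit 5) (nat_lit 2) (nat_lit 4) (nat_lit 328) (nat_lit 248) (nat_lit 204))) (XT.nd (nat_lit 78) (nat_lit 0) (nat_lit 0) (XT.lf (nat_lit 0) (nat_lit 12502728418994) (nat_lit 76) (nat_lit 1843480627348) (nat_lit 76) (nat_lit 1842055823104) (nat_lit 1) (nat_lit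 4) (nat_lit 2) (nat_lit 5) (nat_lit 2) (nat_lit 4) (nat_lit 329) (nat_lit 248) (nat_lit 203)) (XT.lf (nat_lit 0) (nat_lit 14381674143930) (nat_lit 76) (nat_lit 2117996372315) (nat_lit 76) (nat_lit 2116571222488) (nat_lit 1) (nat_lit 4) (nat_lit 2) (nat_lit 5) (nat_lit 2) (nat_lit 4) (nat_lit 330) (nat_lit 248) (nat_lit 202)))) (XT.nd (nat_lit 156) (nat_lit 0) (nat_lit 0) (XT.nd (nat_lit 78) (nat_lit 0) (nat_lit 0) (XT.lf (nat_lit 0) (nat_lit 16542460132477) (nat_lit 76) (nat_lit 2433690287417) (nat_lit 76) (nat_lit 2432264837083) (nat_lit 1) (nat_lit 4) (nat_lit 2) (nat_lit 5) (nat_lit 2) (nat_lit 4) (nat_lit 331) (nat_lit 248) (nat_lit 201)) (XT.lf (nat_lit 0) (nat_lit 19027362632237) (nat_lit 76) (nat_lit 2796738992732) (nat_lit 76) (nat_lit 2795313281087) (nat_lit 1) (nat_lit 4) (nat_lit 2) (nat_lit 5) (nat_lit 2) (nat_lit 4) (nat_lit 332) (nat_lit 248) (nat_lit 200))) (XT.nd (nat_lit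 78) (nat_lit 0) (nat_lit 0) (XT.lf (nat_lit 0) (nat_lit 21884999300815) (nat_lit 76) (nat_lit 3214245615103) (nat_lit 76) (nat_lit 3212819676231) (nat_lit 1) (nat_lit 4) (nat_lit 2) (nat_lit 5) (nat_lit 2) (nat_lit 4) (nat_lit 333) (nat_lit 248) (nat_lit 199)) (XT.nd (nat_lit 78) (nat_lit 0) (nat_lit 0) (XT.lf (nat_lit 0) (nat_lit 25171280420856) (nat_lit 76) (nat_lit 3694378762359) (nat_lit 76) (nat_lit 3692952625899) (nat_lit 1) (nat_lit 4) (nat_lit 2) (nat_lit 5) (nat_lit 2) (nat_lit 4) (nat_lit 334) (nat_lit 248) (nat_lit 198)) (XT.lf (nat_lit 0) (nat_lit 28950502796883) (nat_lit 76) (nat_lit 4246532343902) (nat_lit 76) (nat_lit 4245106035626) (nat_lit 1) (nat_lit 4) (nat_lit 2) (nat_lit 5) (nat_lit 2) (nat_lit 4) (nat_lit 335) (nat_lit 248) (nat_lit 197))))))) (XT.nd (nat_lit 36660) (nat_lit 0) (nat_lit 0) (XT.nd (nat_lit 312) (nat_lit 0) (nat_lit 0) (XT.nd (nat_lit 156) (nat_lit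 0) (nat_lit 0) (XT.nd (nat_lit 78) (nat_lit 0) (nat_lit 0) (XT.lf (nat_lit 0) (nat_lit 33296607736253) (nat_lit 76) (nat_lit 4881509364590) (nat_lit 76) (nat_lit 4880082906909) (nat_lit 1) (nat_lit 4) (nat_lit 2) (nat_lit 5) (nat_lit 2) (nat_lit 4) (nat_lit 336) (nat_lit 248) (nat_lit 196)) (XT.lf (nat_lit 0) (nat_lit 38294627726910) (nat_lit 76) (nat_lit 5611733287870) (nat_lit 76) (nat_lit 5610306700272) (nat_lit 1) (nat_lit 4) (nat_lit 2) (nat_lit 5) (nat_lit 2) (nat_lit 4) (nat_lit 337) (nat_lit 248) (nat_lit 195))) (XT.nd (nat_lit 78) (nat_lit 0) (nat_lit 0) (XT.lf (nat_lit 0) (nat_lit 44042350116498) (nat_lit 76) (nat_lit 6451491103546) (nat_lit 76) (nat_lit 6450064402976) (nat_lit 1) (nat_lit 4) (nat_lit 2) (nat_lit 5) (nat_lit 2) (nat_lit 4) (nat_lit 338) (nat_lit 248) (nat_lit 194)) (XT.lf (nat_lit 0) (nat_lit 50652230343073) (nat_lit 76) (nat_lit 7417212855837) (nat_lit 76)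 (nat_lit 7415786057030) (nat_lit 1) (nat_lit 4) (nat_lit 2) (nat_lit 5) (nat_lit 2) (nat_lit 4) (nat_lit 339) (nat_lit 248) (nat_lit 193)))) (XT.nd (nat_lit 36114) (nat_lit 0) (nat_lit 76) (XT.nd (nat_lit 78) (nat_lit 0) (nat_lit 0) (XT.lf (nat_lit 0) (nat_lit 58253592150200) (nat_lit 76) (nat_lit 8527793100766) (nat_lit 76) (nat_lit 8526366216537) (nat_lit 1) (nat_lit 4) (nat_lit 2) (nat_lit 5) (nat_lit 2) (nat_lit 4) (nat_lit 340) (nat_lit 248) (nat_lit 192)) (XT.lf (nat_lit 0) (nat_lit 66995157834104) (nat_lit 76) (nat_lit 9804960582257) (nat_lit 76) (nat_lit 9803533623747) (nat_lit 1) (nat_lit 4) (nat_lit 2) (nat_lit 5) (nat_lit 2) (nat_lit 4) (nat_lit 341) (nat_lit 248) (nat_lit 191))) (XT.nd (nat_lit 78) (nat_lit 152) (nat_lit 0) (XT.lf (nat_lit 0) (nat_lit 10010849884) (nat_lit 76) (nat_lit 1600046773) (nat_lit 76) (nat_lit 1600046773) (nat_lit 4) (nat_lit 4) (nat_lit 5) (nat_lit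 5) (nat_lit 5) (nat_lit 4) (nat_lit 282) (nat_lit 249) (nat_lit 249)) (XT.nd (nat_lit 78) (nat_lit 0) (nat_lit 0) (XT.lf (nat_lit 0) (nat_lit 1152899082) (nat_lit 152) (nat_lit 27599572138) (nat_lit 0) (nat_lit 938781025) (nat_lit 2) (nat_lit 5) (nat_lit 4) (nat_lit 4) (nat_lit 2) (nat_lit 4) (nat_lit 283) (nat_lit 249) (nat_lit 248)) (XT.lf (nat_lit 0) (nat_lit 5887556389) (nat_lit 152) (nat_lit 22045250618) (nat_lit 0) (nat_lit 5487248716) (nat_lit 2) (nat_lit 5) (nat_lit 4) (nat_lit 4) (nat_lit 2) (nat_lit 4) (nat_lit 284) (nat_lit 249) (nat_lit 247)))))) (XT.nd (nat_lit 390) (nat_lit 0) (nat_lit 0) (XT.nd (nat_lit 156) (nat_lit 76) (nat_lit 0) (XT.nd (nat_lit 78) (nat_lit 0) (nat_lit 0) (XT.lf (nat_lit 0) (nat_lit 10944127564) (nat_lit 152) (nat_lit 16440677039) (nat_lit 0) (nat_lit 10381915878) (nat_lit 2) (nat_lit 5) (nat_lit 4) (nat_lit 4) (nat_lit 2) (nat_lit 4) (nat_lit 285)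 (nat_lit 249) (nat_lit 246)) (XT.lf (nat_lit 0) (nat_lit 16421545522) (nat_lit 152) (nat_lit 10676196702) (nat_lit 0) (nat_lit 15718547738) (nat_lit 2) (nat_lit 5) (nat_lit 4) (nat_lit 4) (nat_lit 2) (nat_lit 4) (nat_lit 286) (nat_lit 249) (nat_lit 245))) (XT.nd (nat_lit 78) (nat_lit 76) (nat_lit 0) (XT.lf (nat_lit 0) (nat_lit 22426977136) (nat_lit 152) (nat_lit 4639026295) (nat_lit 0) (nat_lit 21601556658) (nat_lit 2) (nat_lit 5) (nat_lit 4) (nat_lit 4) (nat_lit 2) (nat_lit 4) (nat_lit 287) (nat_lit 249) (nat_lit 244)) (XT.nd (nat_lit 78) (nat_lit 0) (nat_lit 0) (XT.lf (nat_lit 0) (nat_lit 1963782203) (nat_lit 76) (nat_lit 27195453811) (nat_lit 76) (nat_lit 26263578816) (nat_lit 1) (nat_lit 4) (nat_lit 2) (nat_lit 5) (nat_lit 2) (nat_lit 4) (nat_lit 288) (nat_lit 249) (nat_lit 243)) (XT.lf (nat_lit 0) (nat_lit 9587006831) (nat_lit 76) (nat_lit 27314471878) (nat_lit 76) (nat_lit 26290027738)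 (nat_lit 1) (nat_lit 4) (nat_lit 2) (nat_lit 5) (nat_lit 2) (nat_lit 4) (nat_lit 289) (nat_lit 249) (nat_lit 242))))) (XT.nd (nat_lit 156) (nat_lit 0) (nat_lit 0) (XT.nd (nat_lit 78) (nat_lit 0) (nat_lit 0) (XT.lf (nat_lit 0) (nat_lit 17926438246) (nat_lit 76) (nat_lit 27667880802) (nat_lit 76) (nat_lit 26562941754) (nat_lit 1) (nat_lit 4) (nat_lit 2) (nat_lit 5) (nat_lit 2) (nat_lit 4) (nat_lit 290) (nat_lit 249) (nat_lit 241)) (XT.lf (nat_lit 0) (nat_lit 27145239237) (nat_lit 76) (nat_lit 28262595108) (nat_lit 76) (nat_lit 27087660487) (nat_lit 1) (nat_lit 4) (nat_lit 2) (nat_lit 5) (nat_lit 2) (nat_lit 4) (nat_lit 291) (nat_lit 249) (nat_lit 240))) (XT.nd (nat_lit 78) (nat_lit 0) (nat_lit 0) (XT.lf (nat_lit 0) (nat_lit 37423777650) (nat_lit 76) (nat_lit 29110250509) (nat_lit 76) (nat_lit 27874450172) (nat_lit 1) (nat_lit 4) (nat_lit 2) (nat_lit 5) (nat_lit 2) (nat_lit 4) (nat_lit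 292) (nat_lit 249) (nat_lit 239)) (XT.nd (nat_lit 78) (nat_lit 0) (nat_lit 0) (XT.lf (nat_lit 0) (nat_lit 48963155322) (nat_lit 76) (nat_lit 30227431567) (nat_lit 76) (nat_lit 28938704521) (nat_lit 1) (nat_lit 4) (nat_lit 2) (nat_lit 5) (nat_lit 2) (nat_lit 4) (nat_lit 293) (nat_lit 249) (nat_lit 238)) (XT.lf (nat_lit 0) (nat_lit 61989142687) (nat_lit 76) (nat_lit 31635996173) (nat_lit 76) (nat_lit 30301245902) (nat_lit 1) (nat_lit 4) (nat_lit 2) (nat_lit 5) (nat_lit 2) (nat_lit 4) (nat_lit 294) (nat_lit 249) (nat_lit 237))))))))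
noncomputable def xc26 : XT := (XT.nd (nat_lit 1404) (nat_lit 0) (nat_lit 0) (XT.nd (nat_lit 702) (nat_lit 0) (nat_lit 0) (XT.nd (nat_lit 312) (nat_lit 0) (nat_lit 0) (XT.nd (nat_lit 156) (nat_lit 0) (nat_lit 0) (XT.nd (nat_lit 78) (nat_lit 0) (nat_lit 0) (XT.lf (nat_lit 0) (nat_lit 76756596020) (nat_lit 76) (nat_lit 33363503199) (nat_lit 76) (nat_lit 31988732732) (nat_lit 1) (nat_lit 4) (nat_lit 2) (nat_lit 5) (nat_lit 2) (nat_lit 4) (nat_lit 295) (nat_lit 249) (nat_lit 236)) (XT.lf (nat_lit 0) (nat_lit 93554443754) (nat_lit 76) (nat_lit 35443751696) (nat_lit 76) (nat_lit 34034181059) (nat_lit 1) (nat_lit 4) (nat_lit 2) (nat_lit 5) (nat_lit 2) (nat_lit 4) (nat_lit 296) (nat_lit 249) (nat_lit 235))) (XT.nd (nat_lit 78) (nat_lit 0) (nat_lit 0) (XT.lf (nat_lit 0) (nat_lit 112711339433) (nat_lit 76) (nat_lit 37917442179) (nat_lit 76) (nat_lit 36477610524) (nat_lit 1) (nat_lit 4) (nat_lit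 2) (nat_lit 5) (nat_lit 2) (nat_lit 4) (nat_lit 297) (nat_lit 249) (nat_lit 234)) (XT.lf (nat_lit 0) (nat_lit 134602091885) (nat_lit 76) (nat_lit 40832972938) (nat_lit 76) (nat_lit 39366827355) (nat_lit 1) (nat_lit 4) (nat_lit 2) (nat_lit 5) (nat_lit 2) (nat_lit 4) (nat_lit 298) (nat_lit 249) (nat_lit 233)))) (XT.nd (nat_lit 156) (nat_lit 0) (nat_lit 0) (XT.nd (nat_lit 78) (nat_lit 0) (nat_lit 0) (XT.lf (nat_lit 0) (nat_lit 159654998440) (nat_lit 76) (nat_lit 44247386968) (nat_lit 76) (nat_lit 42758359708) (nat_lit 1) (nat_lit 4) (nat_lit 2) (nat_lit 5) (nat_lit 2) (nat_lit 4) (nat_lit 299) (nat_lit 249) (nat_lit 232)) (XT.lf (nat_lit 0) (nat_lit 188360224663) (nat_lit 76) (nat_lit 48227488020) (nat_lit 76) (nat_lit 46718563650) (nat_lit 1) (nat_lit 4) (nat_lit 2) (nat_lit 5) (nat_lit 2) (nat_lit 4) (nat_lit 300) (nat_lit 249) (nat_lit 231))) (XT.nd (nat_lit 78) (nat_lit 0) (nat_lit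 0) (XT.lf (nat_lit 0) (nat_lit 221279394543) (nat_lit 76) (nat_lit 52851147638) (nat_lit 76) (nat_lit 51324921433) (nat_lit 1) (nat_lit 4) (nat_lit 2) (nat_lit 5) (nat_lit 2) (nat_lit 4) (nat_lit 301) (nat_lit 249) (nat_lit 230)) (XT.nd (nat_lit 78) (nat_lit 0) (nat_lit 0) (XT.lf (nat_lit 0) (nat_lit 259056578797) (nat_lit 76) (nat_lit 58208828727) (nat_lit 76) (nat_lit 56667557448) (nat_lit 1) (nat_lit 4) (nat_lit 2) (nat_lit 5) (nat_lit 2) (nat_lit 4) (nat_lit 302) (nat_lit 249) (nat_lit 229)) (XT.lf (nat_lit 0) (nat_lit 302430896246) (nat_lit 76) (nat_lit 64405355482) (nat_lit 76) (nat_lit 62851001529) (nat_lit 1) (nat_lit 4) (nat_lit 2) (nat_lit 5) (nat_lit 2) (nat_lit 4) (nat_lit 303) (nat_lit 249) (nat_lit 228)))))) (XT.nd (nat_lit 312) (nat_lit 0) (nat_lit 0) (XT.nd (nat_lit 156) (nat_lit 0) (nat_lit 0) (XT.nd (nat_lit 78) (nat_lit 0) (nat_lit 0) (XT.lf (nat_lit 0) (nat_lit 352250974840)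 (nat_lit 76) (nat_lit 71561964296) (nat_lit 76) (nat_lit 69996234106) (nat_lit 1) (nat_lit 4) (nat_lit 2) (nat_lit 5) (nat_lit 2) (nat_lit 4) (nat_lit 304) (nat_lit 249) (nat_lit 227)) (XT.lf (nat_lit 0) (nat_lit 409491555248) (nat_lit 76) (nat_lit 79818675776) (nat_lit 76) (nat_lit 78243053206) (nat_lit 1) (nat_lit 4) (nat_lit 2) (nat_lit 5) (nat_lit 2) (nat_lit 4) (nat_lit 305) (nat_lit 249) (nat_lit 226))) (XT.nd (nat_lit 78) (nat_lit 0) (nat_lit 0) (XT.lf (nat_lit 0) (nat_lit 475272561869) (nat_lit 76) (nat_lit 89337034278) (nat_lit 76) (nat_lit 87752809638) (nat_lit 1) (nat_lit 4) (nat_lit 2) (nat_lit 5) (nat_lit 2) (nat_lit 4) (nat_lit 306) (nat_lit 249) (nat_lit 225)) (XT.lf (nat_lit 0) (nat_lit 550881014398) (nat_lit 76) (nat_lit 100303268554) (nat_lit 76) (nat_lit 98711563853) (nat_lit 1) (nat_lit 4) (nat_lit 2) (nat_lit 5) (nat_lit 2) (nat_lit 4) (nat_lit 307) (nat_lit 249)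 (nat_lit 224)))) (XT.nd (nat_lit 156) (nat_lit 0) (nat_lit 0) (XT.nd (nat_lit 78) (nat_lit 0) (nat_lit 0) (XT.lf (nat_lit 0) (nat_lit 637796208645) (nat_lit 76) (nat_lit 112931935363) (nat_lit 76) (nat_lit 111333726261) (nat_lit 1) (nat_lit 4) (nat_lit 2) (nat_lit 5) (nat_lit 2) (nat_lit 4) (nat_lit 308) (nat_lit 249) (nat_lit 223)) (XT.lf (nat_lit 0) (nat_lit 737718659280) (nat_lit 76) (nat_lit 127470117315) (nat_lit 76) (nat_lit 125866252213) (nat_lit 1) (nat_lit 4) (nat_lit 2) (nat_lit 5) (nat_lit 2) (nat_lit 4) (nat_lit 309) (nat_lit 249) (nat_lit 222))) (XT.nd (nat_lit 78) (nat_lit 0) (nat_lit 0) (XT.lf (nat_lit 0) (nat_lit 852603370772) (nat_lit 76) (nat_lit 144202257101) (nat_lit 76) (nat_lit 142593473738) (nat_lit 1) (nat_lit 4) (nat_lit 2) (nat_lit 5) (nat_lit 2) (nat_lit 4) (nat_lit 310) (nat_lit 249) (nat_lit 221)) (XT.nd (nat_lit 78) (nat_lit 0) (nat_lit 0) (XT.lf (nat_lit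 0) (nat_lit 984698087476) (nat_lit 76) (nat_lit 163455722674) (nat_lit 76) (nat_lit 161842662562) (nat_lit 1) (nat_lit 4) (nat_lit 2) (nat_lit 5) (nat_lit 2) (nat_lit 4) (nat_lit 311) (nat_lit 249) (nat_lit 220)) (XT.lf (nat_lit 0) (nat_lit 1136587271242) (nat_lit 76) (nat_lit 185607212273) (nat_lit 76) (nat_lit 183990433249) (nat_lit 1) (nat_lit 4) (nat_lit 2) (nat_lit 5) (nat_lit 2) (nat_lit 4) (nat_lit 312) (nat_lit 249) (nat_lit 219))))))) (XT.nd (nat_lit 702) (nat_lit 0) (nat_lit 0) (XT.nd (nat_lit 312) (nat_lit 0) (nat_lit 0) (XT.nd (nat_lit 156) (nat_lit 0) (nat_lit 0) (XT.nd (nat_lit 78) (nat_lit 0) (nat_lit 0) (XT.lf (nat_lit 0) (nat_lit 1311242666967) (nat_lit 76) (nat_lit 211090124607) (nat_lit 76) (nat_lit 209470111746) (nat_lit 1) (nat_lit 4) (nat_lit 2) (nat_lit 5) (nat_lit 2) (nat_lit 4) (nat_lit 313) (nat_lit 249) (nat_lit 218)) (XT.lf (nat_lit 0) (nat_lit 1512081445440)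 (nat_lit 76) (nat_lit 240403038397) (nat_lit 76) (nat_lit 238780213504) (nat_lit 1) (nat_lit 4) (nat_lit 2) (nat_lit 5) (nat_lit 2) (nat_lit 4) (nat_lit 314) (nat_lit 249) (nat_lit 217))) (XT.nd (nat_lit 78) (nat_lit 0) (nat_lit 0) (XT.lf (nat_lit 0) (nat_lit 1743033061020) (nat_lit 76) (nat_lit 274119467172) (nat_lit 76) (nat_lit 272494197033) (nat_lit 1) (nat_lit 4) (nat_lit 2) (nat_lit 5) (nat_lit 2) (nat_lit 4) (nat_lit 315) (nat_lit 249) (nat_lit 216)) (XT.lf (nat_lit 0) (nat_lit 2008616132275) (nat_lit 76) (nat_lit 312899080191) (nat_lit 76) (nat_lit 311271683753) (nat_lit 1) (nat_lit 4) (nat_lit 2) (nat_lit 5) (nat_lit 2) (nat_lit 4) (nat_lit 316) (nat_lit 249) (nat_lit 215)))) (XT.nd (nat_lit 156) (nat_lit 0) (nat_lit 0) (XT.nd (nat_lit 78) (nat_lit 0) (nat_lit 0) (XT.lf (nat_lit 0) (nat_lit 2314026849727) (nat_lit 76) (nat_lit 357500609014) (nat_lit 76) (nat_lit 355871363619)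 (nat_lit 1) (nat_lit 4) (nat_lit 2) (nat_lit 5) (nat_lit 2) (nat_lit 4) (nat_lit 317) (nat_lit 249) (nat_lit 214)) (XT.lf (nat_lit 0) (nat_lit 2665240640459) (nat_lit 76) (nat_lit 408796692248) (nat_lit 76) (nat_lit 407165839064) (nat_lit 1) (nat_lit 4) (nat_lit 2) (nat_lit 5) (nat_lit 2) (nat_lit 4) (nat_lit 318) (nat_lit 249) (nat_lit 213))) (XT.nd (nat_lit 78) (nat_lit 0) (nat_lit 0) (XT.lf (nat_lit 0) (nat_lit 3069129078635) (nat_lit 76) (nat_lit 467790948912) (nat_lit 76) (nat_lit 466158697652) (nat_lit 1) (nat_lit 4) (nat_lit 2) (nat_lit 5) (nat_lit 2) (nat_lit 4) (nat_lit 319) (nat_lit 249) (nat_lit 212)) (XT.nd (nat_lit 78) (nat_lit 0) (nat_lit 0) (XT.lf (nat_lit 0) (nat_lit 3533594329352) (nat_lit 76) (nat_lit 535637614463) (nat_lit 76) (nat_lit 534004147484) (nat_lit 1) (nat_lit 4) (nat_lit 2) (nat_lit 5) (nat_lit 2) (nat_lit 4) (nat_lit 320) (nat_lit 249) (nat_lit 211)) (XT.lf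 (nat_lit 0) (nat_lit 4067723756210) (nat_lit 76) (nat_lit 613664123662) (nat_lit 76) (nat_lit 612029599536) (nat_lit 1) (nat_lit 4) (nat_lit 2) (nat_lit 5) (nat_lit 2) (nat_lit 4) (nat_lit 321) (nat_lit 249) (nat_lit 210)))))) (XT.nd (nat_lit 390) (nat_lit 0) (nat_lit 0) (XT.nd (nat_lit 156) (nat_lit 0) (nat_lit 0) (XT.nd (nat_lit 78) (nat_lit 0) (nat_lit 0) (XT.lf (nat_lit 0) (nat_lit 4681967717560) (nat_lit 76) (nat_lit 703397082124) (nat_lit 76) (nat_lit 701761638740) (nat_lit 1) (nat_lit 4) (nat_lit 2) (nat_lit 5) (nat_lit 2) (nat_lit 4) (nat_lit 322) (nat_lit 249) (nat_lit 209)) (XT.lf (nat_lit 0) (nat_lit 5388344030039) (nat_lit 76) (nat_lit 806592134688) (nat_lit 76) (nat_lit 804955891949) (nat_lit 1) (nat_lit 4) (nat_lit 2) (nat_lit 5) (nat_lit 2) (nat_lit 4) (nat_lit 323) (nat_lit 249) (nat_lit 208))) (XT.nd (nat_lit 78) (nat_lit 0) (nat_lit 0) (XT.lf (nat_lit 0) (nat_lit 6200673099759)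 (nat_lit 76) (nat_lit 925268314991) (nat_lit 76) (nat_lit 923631377161) (nat_lit 1) (nat_lit 4) (nat_lit 2) (nat_lit 5) (nat_lit 2) (nat_lit 4) (nat_lit 324) (nat_lit 249) (nat_lit 207)) (XT.nd (nat_lit 78) (nat_lit 0) (nat_lit 0) (XT.lf (nat_lit 0) (nat_lit 7134848321562) (nat_lit 76) (nat_lit 1061747548300) (nat_lit 76) (nat_lit 1060110006042) (nat_lit 1) (nat_lit 4) (nat_lit 2) (nat_lit 5) (nat_lit 2) (nat_lit 4) (nat_lit 325) (nat_lit 249) (nat_lit 206)) (XT.lf (nat_lit 0) (nat_lit 8209147036746) (nat_lit 76) (nat_lit 1218700080485) (nat_lit 76) (nat_lit 1217062012638) (nat_lit 1) (nat_lit 4) (nat_lit 2) (nat_lit 5) (nat_lit 2) (nat_lit 4) (nat_lit 326) (nat_lit 249) (nat_lit 205))))) (XT.nd (nat_lit 156) (nat_lit 0) (nat_lit 0) (XT.nd (nat_lit 78) (nat_lit 0) (nat_lit 0) (XT.lf (nat_lit 0) (nat_lit 9444588133215) (nat_lit 76) (nat_lit 1399196721956) (nat_lit 76) (nat_lit 1397558197076)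 (nat_lit 1) (nat_lit 4) (nat_lit 2) (nat_lit 5) (nat_lit 2) (nat_lit 4) (nat_lit 327) (nat_lit 249) (nat_lit 204)) (XT.lf (nat_lit 0) (nat_lit 10865343284597) (nat_lit 76) (nat_lit 1606768928744) (nat_lit 76) (nat_lit 1605130006443) (nat_lit 1) (nat_lit 4) (nat_lit 2) (nat_lit 5) (nat_lit 2) (nat_lit 4) (nat_lit 328) (nat_lit 249) (nat_lit 203))) (XT.nd (nat_lit 78) (nat_lit 0) (nat_lit 0) (XT.lf (nat_lit 0) (nat_lit 12499209874287) (nat_lit 76) (nat_lit 1845477896199) (nat_lit 76) (nat_lit 1843838628314) (nat_lit 1) (nat_lit 4) (nat_lit 2) (nat_lit 5) (nat_lit 2) (nat_lit 4) (nat_lit 329) (nat_lit 249) (nat_lit 202)) (XT.nd (nat_lit 78) (nat_lit 0) (nat_lit 0) (XT.lf (nat_lit 0) (nat_lit 14378154857302) (nat_lit 76) (nat_lit 2119994017161) (nat_lit 76) (nat_lit 2118354448769) (nat_lit 1) (nat_lit 4) (nat_lit 2) (nat_lit 5) (nat_lit 2) (nat_lit 4) (nat_lit 330) (nat_lit 249) (nat_lit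 201)) (XT.lf (nat_lit 0) (nat_lit 16538940200701) (nat_lit 76) (nat_lit 2435688259215) (nat_lit 76) (nat_lit 2434048429513) (nat_lit 1) (nat_lit 4) (nat_lit 2) (nat_lit 5) (nat_lit 2) (nat_lit 4) (nat_lit 331) (nat_lit 249) (nat_lit 200))))))))
noncomputable def xc27 : XT := (XT.nd (nat_lit 37050) (nat_lit 0) (nat_lit 0) (XT.nd (nat_lit 702) (nat_lit 0) (nat_lit 0) (XT.nd (nat_lit 312) (nat_lit 0) (nat_lit 0) (XT.nd (nat_lit 156) (nat_lit 0) (nat_lit 0) (XT.nd (nat_lit 78) (nat_lit 0) (nat_lit 0) (XT.lf (nat_lit 0) (nat_lit 19023842139463) (nat_lit 76) (nat_lit 2798737248836) (nat_lit 76) (nat_lit 2797097191908) (nat_lit 1) (nat_lit 4) (nat_lit 2) (nat_lit 5) (nat_lit 2) (nat_lit 4) (nat_lit 332) (nat_lit 249) (nat_lit 199)) (XT.lf (nat_lit 0) (nat_lit 21881478320215) (nat_lit 76) (nat_lit 3216244118430) (nat_lit 76) (nat_lit 3214603863913) (nat_lit 1) (nat_lit 4) (nat_lit 2) (nat_lit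 5) (nat_lit 2) (nat_lit 4) (nat_lit 333) (nat_lit 249) (nat_lit 198))) (XT.nd (nat_lit 78) (nat_lit 0) (nat_lit 0) (XT.lf (nat_lit 0) (nat_lit 25167759016061) (nat_lit 76) (nat_lit 3696377480662) (nat_lit 76) (nat_lit 3694737054329) (nat_lit 1) (nat_lit 4) (nat_lit 2) (nat_lit 5) (nat_lit 2) (nat_lit 4) (nat_lit 334) (nat_lit 249) (nat_lit 197)) (XT.lf (nat_lit 0) (nat_lit 28946981023222) (nat_lit 76) (nat_lit 4248531249142) (nat_lit 76) (nat_lit 4246890673404) (nat_lit 1) (nat_lit 4) (nat_lit 2) (nat_lit 5) (nat_lit 2) (nat_lit 4) (nat_lit 335) (nat_lit 249) (nat_lit 196)))) (XT.nd (nat_lit 156) (nat_lit 0) (nat_lit 0) (XT.nd (nat_lit 78) (nat_lit 0) (nat_lit 0) (XT.lf (nat_lit 0) (nat_lit 33293085641840) (nat_lit 76) (nat_lit 4883508432383) (nat_lit 76) (nat_lit 4881867726727) (nat_lit 1) (nat_lit 4) (nat_lit 2) (nat_lit 5) (nat_lit 2) (nat_lit 4) (nat_lit 336) (nat_lit 249) (nat_lit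 195)) (XT.lf (nat_lit 0) (nat_lit 38291105353582) (nat_lit 76) (nat_lit 5613732497013) (nat_lit 76) (nat_lit 5612091678386) (nat_lit 1) (nat_lit 4) (nat_lit 2) (nat_lit 5) (nat_lit 2) (nat_lit 4) (nat_lit 337) (nat_lit 249) (nat_lit 194))) (XT.nd (nat_lit 78) (nat_lit 0) (nat_lit 0) (XT.lf (nat_lit 0) (nat_lit 44038827500634) (nat_lit 76) (nat_lit 6453490435603) (nat_lit 76) (nat_lit 6451849518739) (nat_lit 1) (nat_lit 4) (nat_lit 2) (nat_lit 5) (nat_lit 2) (nat_lit 4) (nat_lit 338) (nat_lit 249) (nat_lit 193)) (XT.nd (nat_lit 78) (nat_lit 0) (nat_lit 0) (XT.lf (nat_lit 0) (nat_lit 50648707516310) (nat_lit 76) (nat_lit 7419212294775) (nat_lit 76) (nat_lit 7417571292489) (nat_lit 1) (nat_lit 4) (nat_lit 2) (nat_lit 5) (nat_lit 2) (nat_lit 4) (nat_lit 339) (nat_lit 249) (nat_lit 192)) (XT.lf (nat_lit 0) (nat_lit 58250069140045) (nat_lit 76) (nat_lit 8529792632645) (nat_lit 76) (nat_lit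 8528151556078) (nat_lit 1) (nat_lit 4) (nat_lit 2) (nat_lit 5) (nat_lit 2) (nat_lit 4) (nat_lit 340) (nat_lit 249) (nat_lit 191)))))) (XT.nd (nat_lit 35958) (nat_lit 0) (nat_lit 76) (XT.nd (nat_lit 546) (nat_lit 0) (nat_lit 0) (XT.nd (nat_lit 468) (nat_lit 0) (nat_lit 0) (XT.lf (nat_lit 0) (nat_lit 66991634664478) (nat_lit 76) (nat_lit 9806960194953) (nat_lit 76) (nat_lit 9805319053794) (nat_lit 1) (nat_lit 4) (nat_lit 2) (nat_lit 5) (nat_lit 2) (nat_lit 4) (nat_lit 341) (nat_lit 249) (nat_lit 190)) (XT.lf (nat_lit 0) (nat_lit 154991212840936) (nat_lit 76) (nat_lit 22663952978269) (nat_lit 76) (nat_lit 22662311592662) (nat_lit 1) (nat_lit 4) (nat_lit 2) (nat_lit 5) (nat_lit 2) (nat_lit 4) (nat_lit 347) (nat_lit 249) (nat_lit 184))) (XT.nd (nat_lit 35334) (nat_lit 0) (nat_lit 304) (XT.lf (nat_lit 0) (nat_lit 178243948494052) (nat_lit 76) (nat_lit 26061245315326) (nat_lit 76) (nat_lit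 26059603905437) (nat_lit 1) (nat_lit 4) (nat_lit 2) (nat_lit 5) (nat_lit 2) (nat_lit 4) (nat_lit 348) (nat_lit 249) (nat_lit 183)) (XT.lf (nat_lit 0) (nat_lit 5125016675) (nat_lit 152) (nat_lit 347519853) (nat_lit 0) (nat_lit 5125016675) (nat_lit 5) (nat_lit 5) (nat_lit 7) (nat_lit 4) (nat_lit 5) (nat_lit 4) (nat_lit 280) (nat_lit 250) (nat_lit 250)))) (XT.nd (nat_lit 156) (nat_lit 152) (nat_lit 0) (XT.nd (nat_lit 78) (nat_lit 0) (nat_lit 0) (XT.lf (nat_lit 0) (nat_lit 9115589920) (nat_lit 76) (nat_lit 7390030080) (nat_lit 76) (nat_lit 7106858949) (nat_lit 4) (nat_lit 4) (nat_lit 5) (nat_lit 5) (nat_lit 5) (nat_lit 4) (nat_lit 281) (nat_lit 250) (nat_lit 249)) (XT.lf (nat_lit 0) (nat_lit 19626719589) (nat_lit 76) (nat_lit 3677451970) (nat_lit 76) (nat_lit 3148045073) (nat_lit 4) (nat_lit 4) (nat_lit 5) (nat_lit 5) (nat_lit 5) (nat_lit 4) (nat_lit 282) (nat_lit 250) (nat_lit 248))) (XT.nd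 (nat_lit 78) (nat_lit 0) (nat_lit 0) (XT.lf (nat_lit 0) (nat_lit 952607412) (nat_lit 152) (nat_lit 28499902734) (nat_lit 0) (nat_lit 306063974) (nat_lit 2) (nat_lit 5) (nat_lit 4) (nat_lit 4) (nat_lit 2) (nat_lit 4) (nat_lit 283) (nat_lit 250) (nat_lit 247)) (XT.nd (nat_lit 78) (nat_lit 0) (nat_lit 0) (XT.lf (nat_lit 0) (nat_lit 5506667171) (nat_lit 152) (nat_lit 23309718967) (nat_lit 0) (nat_lit 4698219720) (nat_lit 2) (nat_lit 5) (nat_lit 4) (nat_lit 4) (nat_lit 2) (nat_lit 4) (nat_lit 284) (nat_lit 250) (nat_lit 246)) (XT.lf (nat_lit 0) (nat_lit 10406197000) (nat_lit 152) (nat_lit 18021786913) (nat_lit 0) (nat_lit 9456963451) (nat_lit 2) (nat_lit 5) (nat_lit 4) (nat_lit 4) (nat_lit 2) (nat_lit 4) (nat_lit 285) (nat_lit 250) (nat_lit 245))))))) (XT.nd (nat_lit 702) (nat_lit 0) (nat_lit 0) (XT.nd (nat_lit 312) (nat_lit 0) (nat_lit 0) (XT.nd (nat_lit 156) (nat_lit 76) (nat_lit 0) (XT.nd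 (nat_lit 78) (nat_lit 0) (nat_lit 0) (XT.lf (nat_lit 0) (nat_lit 15747057266) (nat_lit 152) (nat_lit 12532647032) (nat_lit 0) (nat_lit 14675401023) (nat_lit 2) (nat_lit 5) (nat_lit 4) (nat_lit 4) (nat_lit 2) (nat_lit 4) (nat_lit 286) (nat_lit 250) (nat_lit 244)) (XT.lf (nat_lit 0) (nat_lit 21633743061) (nat_lit 152) (nat_lit 6734903109) (nat_lit 0) (nat_lit 20455632301) (nat_lit 2) (nat_lit 5) (nat_lit 4) (nat_lit 4) (nat_lit 2) (nat_lit 4) (nat_lit 287) (nat_lit 250) (nat_lit 243))) (XT.nd (nat_lit 78) (nat_lit 76) (nat_lit 0) (XT.lf (nat_lit 0) (nat_lit 28181428673) (nat_lit 152) (nat_lit 515121023) (nat_lit 0) (nat_lit 26910748767) (nat_lit 2) (nat_lit 5) (nat_lit 4) (nat_lit 4) (nat_lit 2) (nat_lit 4) (nat_lit 288) (nat_lit 250) (nat_lit 242)) (XT.lf (nat_lit 0) (nat_lit 6859028786) (nat_lit 76) (nat_lit 28943209962) (nat_lit 76) (nat_lit 27592035148) (nat_lit 1) (nat_lit 4) (nat_lit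 2) (nat_lit 5) (nat_lit 2) (nat_lit 4) (nat_lit 289) (nat_lit 250) (nat_lit 241)))) (XT.nd (nat_lit 156) (nat_lit 0) (nat_lit 0) (XT.nd (nat_lit 78) (nat_lit 0) (nat_lit 0) (XT.lf (nat_lit 0) (nat_lit 15025648509) (nat_lit 76) (nat_lit 29384197511) (nat_lit 76) (nat_lit 27963027124) (nat_lit 1) (nat_lit 4) (nat_lit 2) (nat_lit 5) (nat_lit 2) (nat_lit 4) (nat_lit 290) (nat_lit 250) (nat_lit 240)) (XT.lf (nat_lit 0) (nat_lit 24094178465) (nat_lit 76) (nat_lit 30055067142) (nat_lit 76) (nat_lit 28573031039) (nat_lit 1) (nat_lit 4) (nat_lit 2) (nat_lit 5) (nat_lit 2) (nat_lit 4) (nat_lit 291) (nat_lit 250) (nat_lit 239))) (XT.nd (nat_lit 78) (nat_lit 0) (nat_lit 0) (XT.lf (nat_lit 0) (nat_lit 34242046411) (nat_lit 76) (nat_lit 30968944564) (nat_lit 76) (nat_lit 29433981753) (nat_lit 1) (nat_lit 4) (nat_lit 2) (nat_lit 5) (nat_lit 2) (nat_lit 4) (nat_lit 292) (nat_lit 250) (nat_lit 238))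 (XT.nd (nat_lit 78) (nat_lit 0) (nat_lit 0) (XT.lf (nat_lit 0) (nat_lit 45667797591) (nat_lit 76) (nat_lit 32143709989) (nat_lit 76) (nat_lit 30562723953) (nat_lit 1) (nat_lit 4) (nat_lit 2) (nat_lit 5) (nat_lit 2) (nat_lit 4) (nat_lit 293) (nat_lit 250) (nat_lit 237)) (XT.lf (nat_lit 0) (nat_lit 58594979311) (nat_lit 76) (nat_lit 33602347958) (nat_lit 76) (nat_lit 31981341725) (nat_lit 1) (nat_lit 4) (nat_lit 2) (nat_lit 5) (nat_lit 2) (nat_lit 4) (nat_lit 294) (nat_lit 250) (nat_lit 236)))))) (XT.nd (nat_lit 390) (nat_lit 0) (nat_lit 0) (XT.nd (nat_lit 156) (nat_lit 0) (nat_lit 0) (XT.nd (nat_lit 78) (nat_lit 0) (nat_lit 0) (XT.lf (nat_lit 0) (nat_lit 73276514691) (nat_lit 76) (nat_lit 35373397039) (nat_lit 76) (nat_lit 33717590636) (nat_lit 1) (nat_lit 4) (nat_lit 2) (nat_lit 5) (nat_lit 2) (nat_lit 4) (nat_lit 295) (nat_lit 250) (nat_lit 235)) (XT.lf (nat_lit 0) (nat_lit 89999651162)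 (nat_lit 76) (nat_lit 37491508192) (nat_lit 76) (nat_lit 35805440772) (nat_lit 1) (nat_lit 4) (nat_lit 2) (nat_lit 5) (nat_lit 2) (nat_lit 4) (nat_lit 296) (nat_lit 250) (nat_lit 234))) (XT.nd (nat_lit 78) (nat_lit 0) (nat_lit 0) (XT.lf (nat_lit 0) (nat_lit 109091580525) (nat_lit 76) (nat_lit 39998122723) (nat_lit 76) (nat_lit 38285741374) (nat_lit 1) (nat_lit 4) (nat_lit 2) (nat_lit 5) (nat_lit 2) (nat_lit 4) (nat_lit 297) (nat_lit 250) (nat_lit 233)) (XT.nd (nat_lit 78) (nat_lit 0) (nat_lit 0) (XT.lf (nat_lit 0) (nat_lit 130925840529) (nat_lit 76) (nat_lit 42942283090) (nat_lit 76) (nat_lit 41207020064) (nat_lit 1) (nat_lit 4) (nat_lit 2) (nat_lit 5) (nat_lit 2) (nat_lit 4) (nat_lit 298) (nat_lit 250) (nat_lit 232)) (XT.lf (nat_lit 0) (nat_lit 155929623216) (nat_lit 76) (nat_lit 46381592431) (nat_lit 76) (nat_lit 44626432295) (nat_lit 1) (nat_lit 4) (nat_lit 2) (nat_lit 5) (nat_lit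 2) (nat_lit 4) (nat_lit 299) (nat_lit 250) (nat_lit 231))))) (XT.nd (nat_lit 156) (nat_lit 0) (nat_lit 0) (XT.nd (nat_lit 78) (nat_lit 0) (nat_lit 0) (XT.lf (nat_lit 0) (nat_lit 184592133032) (nat_lit 76) (nat_lit 50383341580) (nat_lit 76) (nat_lit 48610879609) (nat_lit 1) (nat_lit 4) (nat_lit 2) (nat_lit 5) (nat_lit 2) (nat_lit 4) (nat_lit 300) (nat_lit 250) (nat_lit 230)) (XT.lf (nat_lit 0) (nat_lit 217474158210) (nat_lit 76) (nat_lit 55025825629) (nat_lit 76) (nat_lit 53238318584) (nat_lit 1) (nat_lit 4) (nat_lit 2) (nat_lit 5) (nat_lit 2) (nat_lit 4) (nat_lit 301) (nat_lit 250) (nat_lit 229))) (XT.nd (nat_lit 78) (nat_lit 0) (nat_lit 0) (XT.lf (nat_lit 0) (nat_lit 255219042723) (nat_lit 76) (nat_lit 60399875789) (nat_lit 76) (nat_lit 58599286071) (nat_lit 1) (nat_lit 4) (nat_lit 2) (nat_lit 5) (nat_lit 2) (nat_lit 4) (nat_lit 302) (nat_lit 250) (nat_lit 228)) (XT.nd (nat_lit 78)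 (nat_lit 0) (nat_lit 0) (XT.lf (nat_lit 0) (nat_lit 298565273441) (nat_lit 76) (nat_lit 66610636519) (nat_lit 76) (nat_lit 64798670563) (nat_lit 1) (nat_lit 4) (nat_lit 2) (nat_lit 5) (nat_lit 2) (nat_lit 4) (nat_lit 303) (nat_lit 250) (nat_lit 227)) (XT.lf (nat_lit 0) (nat_lit 348360928791) (nat_lit 76) (nat_lit 73779622702) (nat_lit 76) (nat_lit 71957764366) (nat_lit 1) (nat_lit 4) (nat_lit 2) (nat_lit 5) (nat_lit 2) (nat_lit 4) (nat_lit 304) (nat_lit 250) (nat_lit 226))))))))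
noncomputable def xc28 : XT := (XT.nd (nat_lit 1404) (nat_lit 0) (nat_lit 0) (XT.nd (nat_lit 702) (nat_lit 0) (nat_lit 0) (XT.nd (nat_lit 312) (nat_lit 0) (nat_lit 0) (XT.nd (nat_lit 156) (nat_lit 0) (nat_lit 0) (XT.nd (nat_lit 78) (nat_lit 0) (nat_lit 0) (XT.lf (nat_lit 0) (nat_lit 405580271595) (nat_lit 76) (nat_lit 82047097112) (nat_lit 76) (nat_lit 80216636707) (nat_lit 1) (nat_lit 4) (nat_lit 2) (nat_lit 5) (nat_lit 2) (nat_lit 4) (nat_lit 305) (nat_lit 250) (nat_lit 225)) (XT.lf (nat_lit 0) (nat_lit 471342810735) (nat_lit 76) (nat_lit 91574814684) (nat_lit 76) (nat_lit 89736874217) (nat_lit 1) (nat_lit 4) (nat_lit 2) (nat_lit 5) (nat_lit 2) (nat_lit 4) (nat_lit 306) (nat_lit 250) (nat_lit 224))) (XT.nd (nat_lit 78) (nat_lit 0) (nat_lit 0) (XT.lf (nat_lit 0) (nat_lit 546935204584) (nat_lit 76) (nat_lit 102549187281) (nat_lit 76) (nat_lit 100704742414) (nat_lit 1) (nat_lit 4) (nat_lit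 2) (nat_lit 5) (nat_lit 2) (nat_lit 4) (nat_lit 307) (nat_lit 250) (nat_lit 223)) (XT.lf (nat_lit 0) (nat_lit 633836434761) (nat_lit 76) (nat_lit 115184930891) (nat_lit 76) (nat_lit 113334830023) (nat_lit 1) (nat_lit 4) (nat_lit 2) (nat_lit 5) (nat_lit 2) (nat_lit 4) (nat_lit 308) (nat_lit 250) (nat_lit 222)))) (XT.nd (nat_lit 156) (nat_lit 0) (nat_lit 0) (XT.nd (nat_lit 78) (nat_lit 0) (nat_lit 0) (XT.lf (nat_lit 0) (nat_lit 733746742727) (nat_lit 76) (nat_lit 129729266583) (nat_lit 76) (nat_lit 127874247454) (nat_lit 1) (nat_lit 4) (nat_lit 2) (nat_lit 5) (nat_lit 2) (nat_lit 4) (nat_lit 309) (nat_lit 250) (nat_lit 221)) (XT.lf (nat_lit 0) (nat_lit 848620895377) (nat_lit 76) (nat_lit 146466757448) (nat_lit 76) (nat_lit 144607461570) (nat_lit 1) (nat_lit 4) (nat_lit 2) (nat_lit 5) (nat_lit 2) (nat_lit 4) (nat_lit 310) (nat_lit 250) (nat_lit 220))) (XT.nd (nat_lit 78) (nat_lit 0) (nat_lit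 0) (XT.lf (nat_lit 0) (nat_lit 980706430479) (nat_lit 76) (nat_lit 165724876133) (nat_lit 76) (nat_lit 163861861342) (nat_lit 1) (nat_lit 4) (nat_lit 2) (nat_lit 5) (nat_lit 2) (nat_lit 4) (nat_lit 311) (nat_lit 250) (nat_lit 219)) (XT.nd (nat_lit 78) (nat_lit 0) (nat_lit 0) (XT.lf (nat_lit 0) (nat_lit 1132587630242) (nat_lit 76) (nat_lit 187880411916) (nat_lit 76) (nat_lit 186014163288) (nat_lit 1) (nat_lit 4) (nat_lit 2) (nat_lit 5) (nat_lit 2) (nat_lit 4) (nat_lit 312) (nat_lit 250) (nat_lit 218)) (XT.lf (nat_lit 0) (nat_lit 1307236083358) (nat_lit 76) (nat_lit 213366842671) (nat_lit 76) (nat_lit 211497782012) (nat_lit 1) (nat_lit 4) (nat_lit 2) (nat_lit 5) (nat_lit 2) (nat_lit 4) (nat_lit 313) (nat_lit 250) (nat_lit 217)))))) (XT.nd (nat_lit 312) (nat_lit 0) (nat_lit 0) (XT.nd (nat_lit 156) (nat_lit 0) (nat_lit 0) (XT.nd (nat_lit 78) (nat_lit 0) (nat_lit 0) (XT.lf (nat_lit 0) (nat_lit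 1508068824778) (nat_lit 76) (nat_lit 242682815956) (nat_lit 76) (nat_lit 240811310052) (nat_lit 1) (nat_lit 4) (nat_lit 2) (nat_lit 5) (nat_lit 2) (nat_lit 4) (nat_lit 314) (nat_lit 250) (nat_lit 216)) (XT.lf (nat_lit 0) (nat_lit 1739015190748) (nat_lit 76) (nat_lit 276401905163) (nat_lit 76) (nat_lit 274528272959) (nat_lit 1) (nat_lit 4) (nat_lit 2) (nat_lit 5) (nat_lit 2) (nat_lit 4) (nat_lit 315) (nat_lit 250) (nat_lit 215))) (XT.nd (nat_lit 78) (nat_lit 0) (nat_lit 0) (XT.lf (nat_lit 0) (nat_lit 2004593697123) (nat_lit 76) (nat_lit 315183831601) (nat_lit 76) (nat_lit 313308350440) (nat_lit 1) (nat_lit 4) (nat_lit 2) (nat_lit 5) (nat_lit 2) (nat_lit 4) (nat_lit 316) (nat_lit 250) (nat_lit 214)) (XT.lf (nat_lit 0) (nat_lit 2310000445115) (nat_lit 76) (nat_lit 359787372093) (nat_lit 76) (nat_lit 357910283143) (nat_lit 1) (nat_lit 4) (nat_lit 2) (nat_lit 5) (nat_lit 2) (nat_lit 4) (nat_lit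 317) (nat_lit 250) (nat_lit 213)))) (XT.nd (nat_lit 156) (nat_lit 0) (nat_lit 0) (XT.nd (nat_lit 78) (nat_lit 0) (nat_lit 0) (XT.lf (nat_lit 0) (nat_lit 2661210784142) (nat_lit 76) (nat_lit 411085204603) (nat_lit 76) (nat_lit 409206717577) (nat_lit 1) (nat_lit 4) (nat_lit 2) (nat_lit 5) (nat_lit 2) (nat_lit 4) (nat_lit 318) (nat_lit 250) (nat_lit 212)) (XT.lf (nat_lit 0) (nat_lit 3065096220837) (nat_lit 76) (nat_lit 470080982378) (nat_lit 76) (nat_lit 468201279633) (nat_lit 1) (nat_lit 4) (nat_lit 2) (nat_lit 5) (nat_lit 2) (nat_lit 4) (nat_lit 319) (nat_lit 250) (nat_lit 211))) (XT.nd (nat_lit 78) (nat_lit 0) (nat_lit 0) (XT.lf (nat_lit 0) (nat_lit 3529558861569) (nat_lit 76) (nat_lit 537928970634) (nat_lit 76) (nat_lit 536048210742) (nat_lit 1) (nat_lit 4) (nat_lit 2) (nat_lit 5) (nat_lit 2) (nat_lit 4) (nat_lit 320) (nat_lit 250) (nat_lit 210)) (XT.nd (nat_lit 78) (nat_lit 0) (nat_lit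 0) (XT.lf (nat_lit 0) (nat_lit 4063686018876) (nat_lit 76) (nat_lit 615956630011) (nat_lit 76) (nat_lit 614074950861) (nat_lit 1) (nat_lit 4) (nat_lit 2) (nat_lit 5) (nat_lit 2) (nat_lit 4) (nat_lit 321) (nat_lit 250) (nat_lit 209)) (XT.lf (nat_lit 0) (nat_lit 4677928006703) (nat_lit 76) (nat_lit 705690588628) (nat_lit 76) (nat_lit 703808110123) (nat_lit 1) (nat_lit 4) (nat_lit 2) (nat_lit 5) (nat_lit 2) (nat_lit 4) (nat_lit 322) (nat_lit 250) (nat_lit 208))))))) (XT.nd (nat_lit 702) (nat_lit 0) (nat_lit 0) (XT.nd (nat_lit 312) (nat_lit 0) (nat_lit 0) (XT.nd (nat_lit 156) (nat_lit 0) (nat_lit 0) (XT.nd (nat_lit 78) (nat_lit 0) (nat_lit 0) (XT.lf (nat_lit 0) (nat_lit 5384302603074) (nat_lit 76) (nat_lit 808886510892) (nat_lit 76) (nat_lit 807003337295) (nat_lit 1) (nat_lit 4) (nat_lit 2) (nat_lit 5) (nat_lit 2) (nat_lit 4) (nat_lit 323) (nat_lit 250) (nat_lit 207)) (XT.lf (nat_lit 0)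 (nat_lit 6196630180527) (nat_lit 76) (nat_lit 927563447455) (nat_lit 76) (nat_lit 925679669432) (nat_lit 1) (nat_lit 4) (nat_lit 2) (nat_lit 5) (nat_lit 2) (nat_lit 4) (nat_lit 324) (nat_lit 250) (nat_lit 206))) (XT.nd (nat_lit 78) (nat_lit 0) (nat_lit 0) (XT.lf (nat_lit 0) (nat_lit 7130804104707) (nat_lit 76) (nat_lit 1064043338383) (nat_lit 76) (nat_lit 1062159034770) (nat_lit 1) (nat_lit 4) (nat_lit 2) (nat_lit 5) (nat_lit 2) (nat_lit 4) (nat_lit 325) (nat_lit 250) (nat_lit 205)) (XT.lf (nat_lit 0) (nat_lit 8205101691522) (nat_lit 76) (nat_lit 1220996442409) (nat_lit 76) (nat_lit 1219111681762) (nat_lit 1) (nat_lit 4) (nat_lit 2) (nat_lit 5) (nat_lit 2) (nat_lit 4) (nat_lit 326) (nat_lit 250) (nat_lit 204)))) (XT.nd (nat_lit 156) (nat_lit 0) (nat_lit 0) (XT.nd (nat_lit 78) (nat_lit 0) (nat_lit 0) (XT.lf (nat_lit 0) (nat_lit 9440541806802) (nat_lit 76) (nat_lit 1401493581134) (nat_lit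 76) (nat_lit 1399608423067) (nat_lit 1) (nat_lit 4) (nat_lit 2) (nat_lit 5) (nat_lit 2) (nat_lit 4) (nat_lit 327) (nat_lit 250) (nat_lit 203)) (XT.lf (nat_lit 0) (nat_lit 10861296104975) (nat_lit 76) (nat_lit 1609066220317) (nat_lit 76) (nat_lit 1607180716666) (nat_lit 1) (nat_lit 4) (nat_lit 2) (nat_lit 5) (nat_lit 2) (nat_lit 4) (nat_lit 328) (nat_lit 250) (nat_lit 202))) (XT.nd (nat_lit 78) (nat_lit 0) (nat_lit 0) (XT.lf (nat_lit 0) (nat_lit 12495161952745) (nat_lit 76) (nat_lit 1847775563766) (nat_lit 76) (nat_lit 1845889759609) (nat_lit 1) (nat_lit 4) (nat_lit 2) (nat_lit 5) (nat_lit 2) (nat_lit 4) (nat_lit 329) (nat_lit 250) (nat_lit 201)) (XT.nd (nat_lit 78) (nat_lit 0) (nat_lit 0) (XT.lf (nat_lit 0) (nat_lit 14374106290612) (nat_lit 76) (nat_lit 2122292011681) (nat_lit 76) (nat_lit 2120405946213) (nat_lit 1) (nat_lit 4) (nat_lit 2) (nat_lit 5) (nat_lit 2) (nat_lit 4) (nat_lit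 330) (nat_lit 250) (nat_lit 200)) (XT.lf (nat_lit 0) (nat_lit 16534891073012) (nat_lit 76) (nat_lit 2437986538042) (nat_lit 76) (nat_lit 2436100245347) (nat_lit 1) (nat_lit 4) (nat_lit 2) (nat_lit 5) (nat_lit 2) (nat_lit 4) (nat_lit 331) (nat_lit 250) (nat_lit 199)))))) (XT.nd (nat_lit 312) (nat_lit 0) (nat_lit 0) (XT.nd (nat_lit 156) (nat_lit 0) (nat_lit 0) (XT.nd (nat_lit 78) (nat_lit 0) (nat_lit 0) (XT.lf (nat_lit 0) (nat_lit 19019792523949) (nat_lit 76) (nat_lit 2801035774886) (nat_lit 76) (nat_lit 2799149284603) (nat_lit 1) (nat_lit 4) (nat_lit 2) (nat_lit 5) (nat_lit 2) (nat_lit 4) (nat_lit 332) (nat_lit 250) (nat_lit 198)) (XT.lf (nat_lit 0) (nat_lit 21877428280506) (nat_lit 76) (nat_lit 3218542859456) (nat_lit 76) (nat_lit 3216656197357) (nat_lit 1) (nat_lit 4) (nat_lit 2) (nat_lit 5) (nat_lit 2) (nat_lit 4) (nat_lit 333) (nat_lit 250) (nat_lit 197))) (XT.nd (nat_lit 78) (nat_lit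 0) (nat_lit 0) (XT.lf (nat_lit 0) (nat_lit 25163708607486) (nat_lit 76) (nat_lit 3698676408624) (nat_lit 76) (nat_lit 3696789597120) (nat_lit 1) (nat_lit 4) (nat_lit 2) (nat_lit 5) (nat_lit 2) (nat_lit 4) (nat_lit 334) (nat_lit 250) (nat_lit 196)) (XT.lf (nat_lit 0) (nat_lit 28942930293895) (nat_lit 76) (nat_lit 4250830339657) (nat_lit 76) (nat_lit 4248943398236) (nat_lit 1) (nat_lit 4) (nat_lit 2) (nat_lit 5) (nat_lit 2) (nat_lit 4) (nat_lit 335) (nat_lit 250) (nat_lit 195)))) (XT.nd (nat_lit 156) (nat_lit 0) (nat_lit 0) (XT.nd (nat_lit 78) (nat_lit 0) (nat_lit 0) (XT.lf (nat_lit 0) (nat_lit 33289034633597) (nat_lit 76) (nat_lit 4885807664248) (nat_lit 76) (nat_lit 4883920609855) (nat_lit 1) (nat_lit 4) (nat_lit 2) (nat_lit 5) (nat_lit 2) (nat_lit 4) (nat_lit 336) (nat_lit 250) (nat_lit 194)) (XT.lf (nat_lit 0) (nat_lit 38287054102804) (nat_lit 76) (nat_lit 5616031851793) (nat_lit 76)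 (nat_lit 5614144699163) (nat_lit 1) (nat_lit 4) (nat_lit 2) (nat_lit 5) (nat_lit 2) (nat_lit 4) (nat_lit 337) (nat_lit 250) (nat_lit 193))) (XT.nd (nat_lit 78) (nat_lit 0) (nat_lit 0) (XT.lf (nat_lit 0) (nat_lit 44034776038956) (nat_lit 76) (nat_lit 6455789897263) (nat_lit 76) (nat_lit 6453902659211) (nat_lit 1) (nat_lit 4) (nat_lit 2) (nat_lit 5) (nat_lit 2) (nat_lit 4) (nat_lit 338) (nat_lit 250) (nat_lit 192)) (XT.nd (nat_lit 78) (nat_lit 0) (nat_lit 0) (XT.lf (nat_lit 0) (nat_lit 50644655871240) (nat_lit 76) (nat_lit 7421511849376) (nat_lit 76) (nat_lit 7419624537043) (nat_lit 1) (nat_lit 4) (nat_lit 2) (nat_lit 5) (nat_lit 2) (nat_lit 4) (nat_lit 339) (nat_lit 250) (nat_lit 191)) (XT.lf (nat_lit 0) (nat_lit 58246017335505) (nat_lit 76) (nat_lit 8532092268063) (nat_lit 76) (nat_lit 8530204891138) (nat_lit 1) (nat_lit 4) (nat_lit 2) (nat_lit 5) (nat_lit 2) (nat_lit 4) (nat_lit 340)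 (nat_lit 250) (nat_lit 190))))))))
noncomputable def xc29 : XT := (XT.nd (nat_lit 36816) (nat_lit 0) (nat_lit 0) (XT.nd (nat_lit 36114) (nat_lit 0) (nat_lit 0) (XT.nd (nat_lit 35724) (nat_lit 0) (nat_lit 228) (XT.nd (nat_lit 468) (nat_lit 0) (nat_lit 0) (XT.nd (nat_lit 390) (nat_lit 0) (nat_lit 0) (XT.lf (nat_lit 0) (nat_lit 66987582721268) (nat_lit 76) (nat_lit 9809259900648) (nat_lit 76) (nat_lit 9807372467556) (nat_lit 1) (nat_lit 4) (nat_lit 2) (nat_lit 5) (nat_lit 2) (nat_lit 4) (nat_lit 341) (nat_lit 250) (nat_lit 189)) (XT.lf (nat_lit 0) (nat_lit 134767390187654) (nat_lit 76) (nat_lit 19712085726726) (nat_lit 76) (nat_lit 19710198105354) (nat_lit 1) (nat_lit 4) (nat_lit 2) (nat_lit 5) (nat_lit 2) (nat_lit 4) (nat_lit 346) (nat_lit 250) (nat_lit 184))) (XT.nd (nat_lit 78) (nat_lit 0) (nat_lit 0) (XT.lf (nat_lit 0) (nat_lit 154987160372930) (nat_lit 76) (nat_lit 22666252949922)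 (nat_lit 76) (nat_lit 22664365304267) (nat_lit 1) (nat_lit 4) (nat_lit 2) (nat_lit 5) (nat_lit 2) (nat_lit 4) (nat_lit 347) (nat_lit 250) (nat_lit 183)) (XT.lf (nat_lit 0) (nat_lit 178239895973915) (nat_lit 76) (nat_lit 26063545313399) (nat_lit 76) (nat_lit 26061657646629) (nat_lit 1) (nat_lit 4) (nat_lit 2) (nat_lit 5) (nat_lit 2) (nat_lit 4) (nat_lit 348) (nat_lit 250) (nat_lit 182)))) (XT.nd (nat_lit 156) (nat_lit 76) (nat_lit 0) (XT.nd (nat_lit 78) (nat_lit 0) (nat_lit 0) (XT.lf (nat_lit 0) (nat_lit 33045287) (nat_lit 152) (nat_lit 8592522596) (nat_lit 0) (nat_lit 33045287) (nat_lit 5) (nat_lit 5) (nat_lit 7) (nat_lit 4) (nat_lit 5) (nat_lit 4) (nat_lit 278) (nat_lit 251) (nat_lit 251)) (XT.lf (nat_lit 0) (nat_lit 5067722344) (nat_lit 152) (nat_lit 9293946327) (nat_lit 0) (nat_lit 4742075543) (nat_lit 5) (nat_lit 5) (nat_lit 7) (nat_lit 4) (nat_lit 5) (nat_lit 4) (nat_lit 279) (nat_lit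 251) (nat_lit 250))) (XT.nd (nat_lit 78) (nat_lit 76) (nat_lit 0) (XT.lf (nat_lit 0) (nat_lit 10363576910) (nat_lit 152) (nat_lit 1108828468) (nat_lit 0) (nat_lit 9754758979) (nat_lit 5) (nat_lit 5) (nat_lit 7) (nat_lit 4) (nat_lit 5) (nat_lit 4) (nat_lit 280) (nat_lit 251) (nat_lit 249)) (XT.nd (nat_lit 78) (nat_lit 0) (nat_lit 0) (XT.lf (nat_lit 0) (nat_lit 8266382531) (nat_lit 76) (nat_lit 8133179560) (nat_lit 76) (nat_lit 7278125863) (nat_lit 4) (nat_lit 4) (nat_lit 5) (nat_lit 5) (nat_lit 5) (nat_lit 4) (nat_lit 281) (nat_lit 251) (nat_lit 248)) (XT.lf (nat_lit 0) (nat_lit 18434051174) (nat_lit 76) (nat_lit 4589459965) (nat_lit 76) (nat_lit 3520288210) (nat_lit 4) (nat_lit 4) (nat_lit 5) (nat_lit 5) (nat_lit 5) (nat_lit 4) (nat_lit 282) (nat_lit 251) (nat_lit 247)))))) (XT.nd (nat_lit 312) (nat_lit 76) (nat_lit 0) (XT.nd (nat_lit 156) (nat_lit 0) (nat_lit 0) (XT.nd (nat_lit 78)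 (nat_lit 76) (nat_lit 0) (XT.lf (nat_lit 0) (nat_lit 387607142) (nat_lit 152) (nat_lit 422006012) (nat_lit 76) (nat_lit 29076878898) (nat_lit 3) (nat_lit 5) (nat_lit 5) (nat_lit 5) (nat_lit 4) (nat_lit 4) (nat_lit 283) (nat_lit 251) (nat_lit 246)) (XT.lf (nat_lit 0) (nat_lit 4731005677) (nat_lit 152) (nat_lit 25444636846) (nat_lit 0) (nat_lit 3498600996) (nat_lit 2) (nat_lit 5) (nat_lit 4) (nat_lit 4) (nat_lit 2) (nat_lit 4) (nat_lit 284) (nat_lit 251) (nat_lit 245))) (XT.nd (nat_lit 78) (nat_lit 0) (nat_lit 0) (XT.lf (nat_lit 0) (nat_lit 9493977814) (nat_lit 152) (nat_lit 20432045249) (nat_lit 0) (nat_lit 8139150440) (nat_lit 2) (nat_lit 5) (nat_lit 4) (nat_lit 4) (nat_lit 2) (nat_lit 4) (nat_lit 285) (nat_lit 251) (nat_lit 244)) (XT.lf (nat_lit 0) (nat_lit 14716092261) (nat_lit 152) (nat_lit 15182331851) (nat_lit 0) (nat_lit 13254810370) (nat_lit 2) (nat_lit 5) (nat_lit 4) (nat_lit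 4) (nat_lit 2) (nat_lit 4) (nat_lit 286) (nat_lit 251) (nat_lit 243)))) (XT.nd (nat_lit 156) (nat_lit 76) (nat_lit 0) (XT.nd (nat_lit 78) (nat_lit 0) (nat_lit 0) (XT.lf (nat_lit 0) (nat_lit 20499520823) (nat_lit 152) (nat_lit 9592784871) (nat_lit 0) (nat_lit 18945669786) (nat_lit 2) (nat_lit 5) (nat_lit 4) (nat_lit 4) (nat_lit 2) (nat_lit 4) (nat_lit 287) (nat_lit 251) (nat_lit 242)) (XT.lf (nat_lit 0) (nat_lit 26957417535) (nat_lit 152) (nat_lit 3554043605) (nat_lit 0) (nat_lit 25323071590) (nat_lit 2) (nat_lit 5) (nat_lit 4) (nat_lit 4) (nat_lit 2) (nat_lit 4) (nat_lit 288) (nat_lit 251) (nat_lit 241))) (XT.nd (nat_lit 78) (nat_lit 0) (nat_lit 0) (XT.lf (nat_lit 0) (nat_lit 3350308897) (nat_lit 76) (nat_lit 31004552801) (nat_lit 76) (nat_lit 29300211283) (nat_lit 1) (nat_lit 4) (nat_lit 2) (nat_lit 5) (nat_lit 2) (nat_lit 4) (nat_lit 289) (nat_lit 251) (nat_lit 240)) (XT.nd (nat_lit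 78) (nat_lit 0) (nat_lit 0) (XT.lf (nat_lit 0) (nat_lit 11366657585) (nat_lit 76) (nat_lit 31521695675) (nat_lit 76) (nat_lit 29756488442) (nat_lit 1) (nat_lit 4) (nat_lit 2) (nat_lit 5) (nat_lit 2) (nat_lit 4) (nat_lit 290) (nat_lit 251) (nat_lit 239)) (XT.lf (nat_lit 0) (nat_lit 20304517074) (nat_lit 76) (nat_lit 32258787328) (nat_lit 76) (nat_lit 30440653386) (nat_lit 1) (nat_lit 4) (nat_lit 2) (nat_lit 5) (nat_lit 2) (nat_lit 4) (nat_lit 291) (nat_lit 251) (nat_lit 238))))))) (XT.nd (nat_lit 702) (nat_lit 0) (nat_lit 0) (XT.nd (nat_lit 312) (nat_lit 0) (nat_lit 0) (XT.nd (nat_lit 156) (nat_lit 0) (nat_lit 0) (XT.nd (nat_lit 78) (nat_lit 0) (nat_lit 0) (XT.lf (nat_lit 0) (nat_lit 30338758528) (nat_lit 76) (nat_lit 33230249117) (nat_lit 76) (nat_lit 31366091950) (nat_lit 1) (nat_lit 4) (nat_lit 2) (nat_lit 5) (nat_lit 2) (nat_lit 4) (nat_lit 292) (nat_lit 251) (nat_lit 237)) (XT.lf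 (nat_lit 0) (nat_lit 41665704063) (nat_lit 76) (nat_lit 34455087905) (nat_lit 76) (nat_lit 32550910542) (nat_lit 1) (nat_lit 4) (nat_lit 2) (nat_lit 5) (nat_lit 2) (nat_lit 4) (nat_lit 293) (nat_lit 251) (nat_lit 236))) (XT.nd (nat_lit 78) (nat_lit 0) (nat_lit 0) (XT.lf (nat_lit 0) (nat_lit 54506967831) (nat_lit 76) (nat_lit 35957267928) (nat_lit 76) (nat_lit 34018290394) (nat_lit 1) (nat_lit 4) (nat_lit 2) (nat_lit 5) (nat_lit 2) (nat_lit 4) (nat_lit 294) (nat_lit 251) (nat_lit 235)) (XT.lf (nat_lit 0) (nat_lit 69113791947) (nat_lit 76) (nat_lit 37766179665) (nat_lit 76) (nat_lit 35796941114) (nat_lit 1) (nat_lit 4) (nat_lit 2) (nat_lit 5) (nat_lit 2) (nat_lit 4) (nat_lit 295) (nat_lit 251) (nat_lit 234)))) (XT.nd (nat_lit 156) (nat_lit 0) (nat_lit 0) (XT.nd (nat_lit 78) (nat_lit 0) (nat_lit 0) (XT.lf (nat_lit 0) (nat_lit 85771962103) (nat_lit 76) (nat_lit 39917214867) (nat_lit 76)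 (nat_lit 37921662387) (nat_lit 1) (nat_lit 4) (nat_lit 2) (nat_lit 5) (nat_lit 2) (nat_lit 4) (nat_lit 296) (nat_lit 251) (nat_lit 233)) (XT.lf (nat_lit 0) (nat_lit 104807399018) (nat_lit 76) (nat_lit 42452459005) (nat_lit 76) (nat_lit 40434024849) (nat_lit 1) (nat_lit 4) (nat_lit 2) (nat_lit 5) (nat_lit 2) (nat_lit 4) (nat_lit 297) (nat_lit 251) (nat_lit 232))) (XT.nd (nat_lit 78) (nat_lit 0) (nat_lit 0) (XT.lf (nat_lit 0) (nat_lit 126592535153) (nat_lit 76) (nat_lit 45421514683) (nat_lit 76) (nat_lit 43383183417) (nat_lit 1) (nat_lit 4) (nat_lit 2) (nat_lit 5) (nat_lit 2) (nat_lit 4) (nat_lit 298) (nat_lit 251) (nat_lit 231)) (XT.nd (nat_lit 78) (nat_lit 0) (nat_lit 0) (XT.lf (nat_lit 0) (nat_lit 151553601433) (nat_lit 76) (nat_lit 48882472120) (nat_lit 76) (nat_lit 46826839018) (nat_lit 1) (nat_lit 4) (nat_lit 2) (nat_lit 5) (nat_lit 2) (nat_lit 4) (nat_lit 299) (nat_lit 251) (nat_lit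 230)) (XT.lf (nat_lit 0) (nat_lit 180178966547) (nat_lit 76) (nat_lit 52903045701) (nat_lit 76) (nat_lit 50832367525) (nat_lit 1) (nat_lit 4) (nat_lit 2) (nat_lit 5) (nat_lit 2) (nat_lit 4) (nat_lit 300) (nat_lit 251) (nat_lit 229)))))) (XT.nd (nat_lit 390) (nat_lit 0) (nat_lit 0) (XT.nd (nat_lit 156) (nat_lit 0) (nat_lit 0) (XT.nd (nat_lit 78) (nat_lit 0) (nat_lit 0) (XT.lf (nat_lit 0) (nat_lit 213028691985) (nat_lit 76) (nat_lit 57561898822) (nat_lit 76) (nat_lit 55478137973) (nat_lit 1) (nat_lit 4) (nat_lit 2) (nat_lit 5) (nat_lit 2) (nat_lit 4) (nat_lit 301) (nat_lit 251) (nat_lit 228)) (XT.lf (nat_lit 0) (nat_lit 250745489766) (nat_lit 76) (nat_lit 62950182956) (nat_lit 76) (nat_lit 60855045870) (nat_lit 1) (nat_lit 4) (nat_lit 2) (nat_lit 5) (nat_lit 2) (nat_lit 4) (nat_lit 302) (nat_lit 251) (nat_lit 227))) (XT.nd (nat_lit 78) (nat_lit 0) (nat_lit 0) (XT.lf (nat_lit 0) (nat_lit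 294067297240) (nat_lit 76) (nat_lit 69173321056) (nat_lit 76) (nat_lit 67068291589) (nat_lit 1) (nat_lit 4) (nat_lit 2) (nat_lit 5) (nat_lit 2) (nat_lit 4) (nat_lit 303) (nat_lit 251) (nat_lit 226)) (XT.nd (nat_lit 78) (nat_lit 0) (nat_lit 0) (XT.lf (nat_lit 0) (nat_lit 343841714986) (nat_lit 76) (nat_lit 76353070169) (nat_lit 76) (nat_lit 74239438632) (nat_lit 1) (nat_lit 4) (nat_lit 2) (nat_lit 5) (nat_lit 2) (nat_lit 4) (nat_lit 304) (nat_lit 251) (nat_lit 225)) (XT.lf (nat_lit 0) (nat_lit 401042590309) (nat_lit 76) (nat_lit 84629903649) (nat_lit 76) (nat_lit 82508792051) (nat_lit 1) (nat_lit 4) (nat_lit 2) (nat_lit 5) (nat_lit 2) (nat_lit 4) (nat_lit 305) (nat_lit 251) (nat_lit 224))))) (XT.nd (nat_lit 156) (nat_lit 0) (nat_lit 0) (XT.nd (nat_lit 78) (nat_lit 0) (nat_lit 0) (XT.lf (nat_lit 0) (nat_lit 466789070768) (nat_lit 76) (nat_lit 94165759541) (nat_lit 76) (nat_lit 92038143543)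 (nat_lit 1) (nat_lit 4) (nat_lit 2) (nat_lit 5) (nat_lit 2) (nat_lit 4) (nat_lit 306) (nat_lit 251) (nat_lit 223)) (XT.lf (nat_lit 0) (nat_lit 542367500548) (nat_lit 76) (nat_lit 105147208940) (nat_lit 76) (nat_lit 103013936941) (nat_lit 1) (nat_lit 4) (nat_lit 2) (nat_lit 5) (nat_lit 2) (nat_lit 4) (nat_lit 307) (nat_lit 251) (nat_lit 222))) (XT.nd (nat_lit 78) (nat_lit 0) (nat_lit 0) (XT.lf (nat_lit 0) (nat_lit 629256588057) (nat_lit 76) (nat_lit 117789106290) (nat_lit 76) (nat_lit 115650916030) (nat_lit 1) (nat_lit 4) (nat_lit 2) (nat_lit 5) (nat_lit 2) (nat_lit 4) (nat_lit 308) (nat_lit 251) (nat_lit 221)) (XT.nd (nat_lit 78) (nat_lit 0) (nat_lit 0) (XT.lf (nat_lit 0) (nat_lit 729156337180) (nat_lit 76) (nat_lit 132338793061) (nat_lit 76) (nat_lit 130196326052) (nat_lit 1) (nat_lit 4) (nat_lit 2) (nat_lit 5) (nat_lit 2) (nat_lit 4) (nat_lit 309) (nat_lit 251) (nat_lit 220)) (XT.lf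 (nat_lit 0) (nat_lit 844021308228) (nat_lit 76) (nat_lit 149080937037) (nat_lit 76) (nat_lit 146934751116) (nat_lit 1) (nat_lit 4) (nat_lit 2) (nat_lit 5) (nat_lit 2) (nat_lit 4) (nat_lit 310) (nat_lit 251) (nat_lit 219))))))))
noncomputable def xc30 : XT := (XT.nd (nat_lit 1404) (nat_lit 0) (nat_lit 0) (XT.nd (nat_lit 702) (nat_lit 0) (nat_lit 0) (XT.nd (nat_lit 312) (nat_lit 0) (nat_lit 0) (XT.nd (nat_lit 156) (nat_lit 0) (nat_lit 0) (XT.nd (nat_lit 78) (nat_lit 0) (nat_lit 0) (XT.lf (nat_lit 0) (nat_lit 976098859328) (nat_lit 76) (nat_lit 168343101905) (nat_lit 76) (nat_lit 166193682148) (nat_lit 1) (nat_lit 4) (nat_lit 2) (nat_lit 5) (nat_lit 2) (nat_lit 4) (nat_lit 311) (nat_lit 251) (nat_lit 218)) (XT.lf (nat_lit 0) (nat_lit 1127973116481) (nat_lit 76) (nat_lit 190502156109) (nat_lit 76) (nat_lit 188349924319) (nat_lit 1) (nat_lit 4) (nat_lit 2) (nat_lit 5) (nat_lit 2) (nat_lit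 4) (nat_lit 312) (nat_lit 251) (nat_lit 217))) (XT.nd (nat_lit 78) (nat_lit 0) (nat_lit 0) (XT.lf (nat_lit 0) (nat_lit 1302615532544) (nat_lit 76) (nat_lit 215991646361) (nat_lit 76) (nat_lit 213836969326) (nat_lit 1) (nat_lit 4) (nat_lit 2) (nat_lit 5) (nat_lit 2) (nat_lit 4) (nat_lit 313) (nat_lit 251) (nat_lit 216)) (XT.lf (nat_lit 0) (nat_lit 1503443024353) (nat_lit 76) (nat_lit 245310280078) (nat_lit 76) (nat_lit 243153476743) (nat_lit 1) (nat_lit 4) (nat_lit 2) (nat_lit 5) (nat_lit 2) (nat_lit 4) (nat_lit 314) (nat_lit 251) (nat_lit 215)))) (XT.nd (nat_lit 156) (nat_lit 0) (nat_lit 0) (XT.nd (nat_lit 78) (nat_lit 0) (nat_lit 0) (XT.lf (nat_lit 0) (nat_lit 1734384825444) (nat_lit 76) (nat_lit 279031682704) (nat_lit 76) (nat_lit 276873030412) (nat_lit 1) (nat_lit 4) (nat_lit 2) (nat_lit 5) (nat_lit 2) (nat_lit 4) (nat_lit 315) (nat_lit 251) (nat_lit 214)) (XT.lf (nat_lit 0) (nat_lit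 1999959362359) (nat_lit 76) (nat_lit 317815620811) (nat_lit 76) (nat_lit 315655360731) (nat_lit 1) (nat_lit 4) (nat_lit 2) (nat_lit 5) (nat_lit 2) (nat_lit 4) (nat_lit 316) (nat_lit 251) (nat_lit 213))) (XT.nd (nat_lit 78) (nat_lit 0) (nat_lit 0) (XT.lf (nat_lit 0) (nat_lit 2305362658647) (nat_lit 76) (nat_lit 362420910579) (nat_lit 76) (nat_lit 360259252422) (nat_lit 1) (nat_lit 4) (nat_lit 2) (nat_lit 5) (nat_lit 2) (nat_lit 4) (nat_lit 317) (nat_lit 251) (nat_lit 212)) (XT.nd (nat_lit 78) (nat_lit 0) (nat_lit 0) (XT.lf (nat_lit 0) (nat_lit 2656569996192) (nat_lit 76) (nat_lit 413720264200) (nat_lit 76) (nat_lit 411557390324) (nat_lit 1) (nat_lit 4) (nat_lit 2) (nat_lit 5) (nat_lit 2) (nat_lit 4) (nat_lit 318) (nat_lit 251) (nat_lit 211)) (XT.lf (nat_lit 0) (nat_lit 3060452822902) (nat_lit 76) (nat_lit 472717364679) (nat_lit 76) (nat_lit 470553433657) (nat_lit 1) (nat_lit 4) (nat_lit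 2) (nat_lit 5) (nat_lit 2) (nat_lit 4) (nat_lit 319) (nat_lit 251) (nat_lit 210)))))) (XT.nd (nat_lit 312) (nat_lit 0) (nat_lit 0) (XT.nd (nat_lit 156) (nat_lit 0) (nat_lit 0) (XT.nd (nat_lit 78) (nat_lit 0) (nat_lit 0) (XT.lf (nat_lit 0) (nat_lit 3524913194083) (nat_lit 76) (nat_lit 540566503113) (nat_lit 76) (nat_lit 538401652832) (nat_lit 1) (nat_lit 4) (nat_lit 2) (nat_lit 5) (nat_lit 2) (nat_lit 4) (nat_lit 320) (nat_lit 251) (nat_lit 209)) (XT.lf (nat_lit 0) (nat_lit 4059038377866) (nat_lit 76) (nat_lit 618595162645) (nat_lit 76) (nat_lit 616429513009) (nat_lit 1) (nat_lit 4) (nat_lit 2) (nat_lit 5) (nat_lit 2) (nat_lit 4) (nat_lit 321) (nat_lit 251) (nat_lit 208))) (XT.nd (nat_lit 78) (nat_lit 0) (nat_lit 0) (XT.lf (nat_lit 0) (nat_lit 4673278649586) (nat_lit 76) (nat_lit 708329990962) (nat_lit 76) (nat_lit 706163646235) (nat_lit 1) (nat_lit 4) (nat_lit 2) (nat_lit 5) (nat_lit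 2) (nat_lit 4) (nat_lit 322) (nat_lit 251) (nat_lit 207)) (XT.lf (nat_lit 0) (nat_lit 5379651753691) (nat_lit 76) (nat_lit 811526669486) (nat_lit 76) (nat_lit 809359720332) (nat_lit 1) (nat_lit 4) (nat_lit 2) (nat_lit 5) (nat_lit 2) (nat_lit 4) (nat_lit 323) (nat_lit 251) (nat_lit 206)))) (XT.nd (nat_lit 156) (nat_lit 0) (nat_lit 0) (XT.nd (nat_lit 78) (nat_lit 0) (nat_lit 0) (XT.lf (nat_lit 0) (nat_lit 6191978033520) (nat_lit 76) (nat_lit 930204263668) (nat_lit 76) (nat_lit 928036788925) (nat_lit 1) (nat_lit 4) (nat_lit 2) (nat_lit 5) (nat_lit 2) (nat_lit 4) (nat_lit 324) (nat_lit 251) (nat_lit 205)) (XT.lf (nat_lit 0) (nat_lit 7126150829332) (nat_lit 76) (nat_lit 1066684726437) (nat_lit 76) (nat_lit 1064516794660) (nat_lit 1) (nat_lit 4) (nat_lit 2) (nat_lit 5) (nat_lit 2) (nat_lit 4) (nat_lit 325) (nat_lit 251) (nat_lit 204))) (XT.nd (nat_lit 78) (nat_lit 0) (nat_lit 0) (XT.lf (nat_lit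 0) (nat_lit 8200447434957) (nat_lit 76) (nat_lit 1223638327717) (nat_lit 76) (nat_lit 1221469998519) (nat_lit 1) (nat_lit 4) (nat_lit 2) (nat_lit 5) (nat_lit 2) (nat_lit 4) (nat_lit 326) (nat_lit 251) (nat_lit 203)) (XT.nd (nat_lit 78) (nat_lit 0) (nat_lit 0) (XT.lf (nat_lit 0) (nat_lit 9435886697028) (nat_lit 76) (nat_lit 1404135898837) (nat_lit 76) (nat_lit 1401967224056) (nat_lit 1) (nat_lit 4) (nat_lit 2) (nat_lit 5) (nat_lit 2) (nat_lit 4) (nat_lit 327) (nat_lit 251) (nat_lit 202)) (XT.lf (nat_lit 0) (nat_lit 10856640253281) (nat_lit 76) (nat_lit 1611708914015) (nat_lit 76) (nat_lit 1609539938726) (nat_lit 1) (nat_lit 4) (nat_lit 2) (nat_lit 5) (nat_lit 2) (nat_lit 4) (nat_lit 328) (nat_lit 251) (nat_lit 201))))))) (XT.nd (nat_lit 702) (nat_lit 0) (nat_lit 0) (XT.nd (nat_lit 312) (nat_lit 0) (nat_lit 0) (XT.nd (nat_lit 156) (nat_lit 0) (nat_lit 0) (XT.nd (nat_lit 78) (nat_lit 0)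 (nat_lit 0) (XT.lf (nat_lit 0) (nat_lit 12490505455902) (nat_lit 76) (nat_lit 1850418584417) (nat_lit 76) (nat_lit 1848249347818) (nat_lit 1) (nat_lit 4) (nat_lit 2) (nat_lit 5) (nat_lit 2) (nat_lit 4) (nat_lit 329) (nat_lit 251) (nat_lit 200)) (XT.lf (nat_lit 0) (nat_lit 14369449232771) (nat_lit 76) (nat_lit 2124935316638) (nat_lit 76) (nat_lit 2122765852812) (nat_lit 1) (nat_lit 4) (nat_lit 2) (nat_lit 5) (nat_lit 2) (nat_lit 4) (nat_lit 330) (nat_lit 251) (nat_lit 199))) (XT.nd (nat_lit 78) (nat_lit 0) (nat_lit 0) (XT.lf (nat_lit 0) (nat_lit 16530233527346) (nat_lit 76) (nat_lit 2440630090221) (nat_lit 76) (nat_lit 2438460428808) (nat_lit 1) (nat_lit 4) (nat_lit 2) (nat_lit 5) (nat_lit 2) (nat_lit 4) (nat_lit 331) (nat_lit 251) (nat_lit 198)) (XT.lf (nat_lit 0) (nat_lit 19015134554088) (nat_lit 76) (nat_lit 2803679542042) (nat_lit 76) (nat_lit 2801509708812) (nat_lit 1) (nat_lit 4)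 (nat_lit 2) (nat_lit 5) (nat_lit 2) (nat_lit 4) (nat_lit 332) (nat_lit 251) (nat_lit 197)))) (XT.nd (nat_lit 156) (nat_lit 0) (nat_lit 0) (XT.nd (nat_lit 78) (nat_lit 0) (nat_lit 0) (XT.lf (nat_lit 0) (nat_lit 21872769941780) (nat_lit 76) (nat_lit 3221186813548) (nat_lit 76) (nat_lit 3219016830914) (nat_lit 1) (nat_lit 4) (nat_lit 2) (nat_lit 5) (nat_lit 2) (nat_lit 4) (nat_lit 333) (nat_lit 251) (nat_lit 196)) (XT.lf (nat_lit 0) (nat_lit 25159049948007) (nat_lit 76) (nat_lit 3701320525270) (nat_lit 76) (nat_lit 3699150412717) (nat_lit 1) (nat_lit 4) (nat_lit 2) (nat_lit 5) (nat_lit 2) (nat_lit 4) (nat_lit 334) (nat_lit 251) (nat_lit 195))) (XT.nd (nat_lit 78) (nat_lit 0) (nat_lit 0) (XT.lf (nat_lit 0) (nat_lit 28938271355500) (nat_lit 76) (nat_lit 4253474597653) (nat_lit 76) (nat_lit 4251304372129) (nat_lit 1) (nat_lit 4) (nat_lit 2) (nat_lit 5) (nat_lit 2) (nat_lit 4) (nat_lit 335)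 (nat_lit 251) (nat_lit 194)) (XT.nd (nat_lit 78) (nat_lit 0) (nat_lit 0) (XT.lf (nat_lit 0) (nat_lit 33284375452667) (nat_lit 76) (nat_lit 4888452045158) (nat_lit 76) (nat_lit 4886281721398) (nat_lit 1) (nat_lit 4) (nat_lit 2) (nat_lit 5) (nat_lit 2) (nat_lit 4) (nat_lit 336) (nat_lit 251) (nat_lit 193)) (XT.lf (nat_lit 0) (nat_lit 38282394710974) (nat_lit 76) (nat_lit 5618676339583) (nat_lit 76) (nat_lit 5616505930400) (nat_lit 1) (nat_lit 4) (nat_lit 2) (nat_lit 5) (nat_lit 2) (nat_lit 4) (nat_lit 337) (nat_lit 251) (nat_lit 192)))))) (XT.nd (nat_lit 546) (nat_lit 0) (nat_lit 0) (XT.nd (nat_lit 156) (nat_lit 0) (nat_lit 0) (XT.nd (nat_lit 78) (nat_lit 0) (nat_lit 0) (XT.lf (nat_lit 0) (nat_lit 44030116463735) (nat_lit 76) (nat_lit 6458434477994) (nat_lit 76) (nat_lit 6456263994530) (nat_lit 1) (nat_lit 4) (nat_lit 2) (nat_lit 5) (nat_lit 2) (nat_lit 4) (nat_lit 338) (nat_lit 251) (nat_lit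 191)) (XT.lf (nat_lit 0) (nat_lit 50639996136548) (nat_lit 76) (nat_lit 7424156510925) (nat_lit 76) (nat_lit 7421985962869) (nat_lit 1) (nat_lit 4) (nat_lit 2) (nat_lit 5) (nat_lit 2) (nat_lit 4) (nat_lit 339) (nat_lit 251) (nat_lit 190))) (XT.nd (nat_lit 78) (nat_lit 0) (nat_lit 0) (XT.lf (nat_lit 0) (nat_lit 58241357462142) (nat_lit 76) (nat_lit 8534736999888) (nat_lit 76) (nat_lit 8532566395666) (nat_lit 1) (nat_lit 4) (nat_lit 2) (nat_lit 5) (nat_lit 2) (nat_lit 4) (nat_lit 340) (nat_lit 251) (nat_lit 189)) (XT.nd (nat_lit 78) (nat_lit 0) (nat_lit 0) (XT.lf (nat_lit 0) (nat_lit 66982922727323) (nat_lit 76) (nat_lit 9811904693583) (nat_lit 76) (nat_lit 9809734040519) (nat_lit 1) (nat_lit 4) (nat_lit 2) (nat_lit 5) (nat_lit 2) (nat_lit 4) (nat_lit 341) (nat_lit 251) (nat_lit 188)) (XT.lf (nat_lit 0) (nat_lit 77035722556842) (nat_lit 76) (nat_lit 11280647655580) (nat_lit 76) (nat_lit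 11278476960046) (nat_lit 1) (nat_lit 4) (nat_lit 2) (nat_lit 5) (nat_lit 2) (nat_lit 4) (nat_lit 342) (nat_lit 251) (nat_lit 187))))) (XT.nd (nat_lit 156) (nat_lit 0) (nat_lit 0) (XT.nd (nat_lit 78) (nat_lit 0) (nat_lit 0) (XT.lf (nat_lit 0) (nat_lit 117180320880604) (nat_lit 76) (nat_lit 17145889687281) (nat_lit 76) (nat_lit 17143718894778) (nat_lit 1) (nat_lit 4) (nat_lit 2) (nat_lit 5) (nat_lit 2) (nat_lit 4) (nat_lit 345) (nat_lit 251) (nat_lit 184)) (XT.lf (nat_lit 0) (nat_lit 134762729789497) (nat_lit 76) (nat_lit 19714730724510) (nat_lit 76) (nat_lit 19712559907725) (nat_lit 1) (nat_lit 4) (nat_lit 2) (nat_lit 5) (nat_lit 2) (nat_lit 4) (nat_lit 346) (nat_lit 251) (nat_lit 183))) (XT.nd (nat_lit 78) (nat_lit 0) (nat_lit 0) (XT.lf (nat_lit 0) (nat_lit 154982499922641) (nat_lit 76) (nat_lit 22668897974126) (nat_lit 76) (nat_lit 22666727136225) (nat_lit 1) (nat_lit 4) (nat_lit 2)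 (nat_lit 5) (nat_lit 2) (nat_lit 4) (nat_lit 347) (nat_lit 251) (nat_lit 182)) (XT.nd (nat_lit 35022) (nat_lit 0) (nat_lit 532) (XT.lf (nat_lit 0) (nat_lit 178235235478295) (nat_lit 76) (nat_lit 26066190360576) (nat_lit 76) (nat_lit 26064019504314) (nat_lit 1) (nat_lit 4) (nat_lit 2) (nat_lit 5) (nat_lit 2) (nat_lit 4) (nat_lit 348) (nat_lit 251) (nat_lit 181)) (XT.lf (nat_lit 0) (nat_lit 3033566925) (nat_lit 152) (nat_lit 1102635779) (nat_lit 0) (nat_lit 3033566925) (nat_lit 8) (nat_lit 5) (nat_lit 10) (nat_lit 4) (nat_lit 8) (nat_lit 4) (nat_lit 276) (nat_lit 252) (nat_lit 252))))))))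
noncomputable def xc31 : XT := (XT.nd (nat_lit 1404) (nat_lit 0) (nat_lit 0) (XT.nd (nat_lit 702) (nat_lit 76) (nat_lit 0) (XT.nd (nat_lit 312) (nat_lit 228) (nat_lit 0) (XT.nd (nat_lit 156) (nat_lit 76) (nat_lit 0) (XT.nd (nat_lit 78) (nat_lit 76) (nat_lit 0) (XT.lf (nat_lit 0) (nat_lit 7026562682) (nat_lit 76) (nat_lit 4560357561) (nat_lit 76) (nat_lit 4129689667) (nat_lit 7) (nat_lit 4) (nat_lit 8) (nat_lit 5) (nat_lit 8) (nat_lit 4) (nat_lit 277) (nat_lit 252) (nat_lit 251)) (XT.lf (nat_lit 0) (nat_lit 233344983) (nat_lit 152) (nat_lit 303469999) (nat_lit 76) (nat_lit 16811776101) (nat_lit 6) (nat_lit 5) (nat_lit 8) (nat_lit 5) (nat_lit 7) (nat_lit 4) (nat_lit 278) (nat_lit 252) (nat_lit 250))) (XT.nd (nat_lit 78) (nat_lit 0) (nat_lit 0) (XT.lf (nat_lit 0) (nat_lit 4986194195) (nat_lit 152) (nat_lit 10183592163) (nat_lit 0) (nat_lit 4002882444) (nat_lit 5) (nat_lit 5) (nat_lit 7)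 (nat_lit 4) (nat_lit 5) (nat_lit 4) (nat_lit 279) (nat_lit 252) (nat_lit 249)) (XT.lf (nat_lit 0) (nat_lit 10097611160) (nat_lit 152) (nat_lit 2358290617) (nat_lit 0) (nat_lit 8868063643) (nat_lit 5) (nat_lit 5) (nat_lit 7) (nat_lit 4) (nat_lit 5) (nat_lit 4) (nat_lit 280) (nat_lit 252) (nat_lit 248)))) (XT.nd (nat_lit 156) (nat_lit 152) (nat_lit 0) (XT.nd (nat_lit 78) (nat_lit 0) (nat_lit 0) (XT.lf (nat_lit 0) (nat_lit 6551352828) (nat_lit 76) (nat_lit 9350847268) (nat_lit 76) (nat_lit 7907181694) (nat_lit 4) (nat_lit 4) (nat_lit 5) (nat_lit 5) (nat_lit 5) (nat_lit 4) (nat_lit 281) (nat_lit 252) (nat_lit 247)) (XT.lf (nat_lit 0) (nat_lit 16420359708) (nat_lit 76) (nat_lit 5953961165) (nat_lit 76) (nat_lit 4324105975) (nat_lit 4) (nat_lit 4) (nat_lit 5) (nat_lit 5) (nat_lit 5) (nat_lit 4) (nat_lit 282) (nat_lit 252) (nat_lit 246))) (XT.nd (nat_lit 78) (nat_lit 152) (nat_lit 0) (XT.lf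 (nat_lit 0) (nat_lit 27211349977) (nat_lit 76) (nat_lit 2322056934) (nat_lit 76) (nat_lit 530297732) (nat_lit 4) (nat_lit 4) (nat_lit 5) (nat_lit 5) (nat_lit 5) (nat_lit 4) (nat_lit 283) (nat_lit 252) (nat_lit 245)) (XT.nd (nat_lit 78) (nat_lit 0) (nat_lit 0) (XT.lf (nat_lit 0) (nat_lit 3545395921) (nat_lit 152) (nat_lit 28491774389) (nat_lit 0) (nat_lit 1864921746) (nat_lit 2) (nat_lit 5) (nat_lit 4) (nat_lit 4) (nat_lit 2) (nat_lit 4) (nat_lit 284) (nat_lit 252) (nat_lit 244)) (XT.lf (nat_lit 0) (nat_lit 8189622240) (nat_lit 152) (nat_lit 23718609275) (nat_lit 0) (nat_lit 6402693548) (nat_lit 2) (nat_lit 5) (nat_lit 4) (nat_lit 4) (nat_lit 2) (nat_lit 4) (nat_lit 285) (nat_lit 252) (nat_lit 243)))))) (XT.nd (nat_lit 312) (nat_lit 76) (nat_lit 0) (XT.nd (nat_lit 156) (nat_lit 0) (nat_lit 0) (XT.nd (nat_lit 78) (nat_lit 0) (nat_lit 0) (XT.lf (nat_lit 0) (nat_lit 13308479453) (nat_lit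 152) (nat_lit 18677092820) (nat_lit 0) (nat_lit 11428981616) (nat_lit 2) (nat_lit 5) (nat_lit 4) (nat_lit 4) (nat_lit 2) (nat_lit 4) (nat_lit 286) (nat_lit 252) (nat_lit 242)) (XT.lf (nat_lit 0) (nat_lit 19002119115) (nat_lit 152) (nat_lit 13268586659) (nat_lit 0) (nat_lit 17042126370) (nat_lit 2) (nat_lit 5) (nat_lit 4) (nat_lit 4) (nat_lit 2) (nat_lit 4) (nat_lit 287) (nat_lit 252) (nat_lit 241))) (XT.nd (nat_lit 78) (nat_lit 0) (nat_lit 0) (XT.lf (nat_lit 0) (nat_lit 25381938523) (nat_lit 152) (nat_lit 7387272192) (nat_lit 0) (nat_lit 23351950206) (nat_lit 2) (nat_lit 5) (nat_lit 4) (nat_lit 4) (nat_lit 2) (nat_lit 4) (nat_lit 288) (nat_lit 252) (nat_lit 240)) (XT.lf (nat_lit 0) (nat_lit 32572760232) (nat_lit 152) (nat_lit 918080224) (nat_lit 0) (nat_lit 30481906199) (nat_lit 2) (nat_lit 5) (nat_lit 4) (nat_lit 4) (nat_lit 2) (nat_lit 4) (nat_lit 289) (nat_lit 252) (nat_lit 239))))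 (XT.nd (nat_lit 156) (nat_lit 0) (nat_lit 0) (XT.nd (nat_lit 78) (nat_lit 0) (nat_lit 0) (XT.lf (nat_lit 0) (nat_lit 6877876520) (nat_lit 76) (nat_lit 34122195911) (nat_lit 76) (nat_lit 31978415168) (nat_lit 1) (nat_lit 4) (nat_lit 2) (nat_lit 5) (nat_lit 2) (nat_lit 4) (nat_lit 290) (nat_lit 252) (nat_lit 238)) (XT.lf (nat_lit 0) (nat_lit 15702109517) (nat_lit 76) (nat_lit 34916871931) (nat_lit 76) (nat_lit 32727067963) (nat_lit 1) (nat_lit 4) (nat_lit 2) (nat_lit 5) (nat_lit 2) (nat_lit 4) (nat_lit 291) (nat_lit 252) (nat_lit 237))) (XT.nd (nat_lit 78) (nat_lit 0) (nat_lit 0) (XT.lf (nat_lit 0) (nat_lit 25637545326) (nat_lit 76) (nat_lit 35938407083) (nat_lit 76) (nat_lit 33708582919) (nat_lit 1) (nat_lit 4) (nat_lit 2) (nat_lit 5) (nat_lit 2) (nat_lit 4) (nat_lit 292) (nat_lit 252) (nat_lit 236)) (XT.nd (nat_lit 78) (nat_lit 0) (nat_lit 0) (XT.lf (nat_lit 0) (nat_lit 36878572908)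 (nat_lit 76) (nat_lit 37206787925) (nat_lit 76) (nat_lit 34942163591) (nat_lit 1) (nat_lit 4) (nat_lit 2) (nat_lit 5) (nat_lit 2) (nat_lit 4) (nat_lit 293) (nat_lit 252) (nat_lit 235)) (XT.lf (nat_lit 0) (nat_lit 49645125412) (nat_lit 76) (nat_lit 38746830604) (nat_lit 76) (nat_lit 36451945252) (nat_lit 1) (nat_lit 4) (nat_lit 2) (nat_lit 5) (nat_lit 2) (nat_lit 4) (nat_lit 294) (nat_lit 252) (nat_lit 234))))))) (XT.nd (nat_lit 702) (nat_lit 0) (nat_lit 0) (XT.nd (nat_lit 312) (nat_lit 0) (nat_lit 0) (XT.nd (nat_lit 156) (nat_lit 0) (nat_lit 0) (XT.nd (nat_lit 78) (nat_lit 0) (nat_lit 0) (XT.lf (nat_lit 0) (nat_lit 64186983214) (nat_lit 76) (nat_lit 40588666389) (nat_lit 76) (nat_lit 38267467109) (nat_lit 1) (nat_lit 4) (nat_lit 2) (nat_lit 5) (nat_lit 2) (nat_lit 4) (nat_lit 295) (nat_lit 252) (nat_lit 233)) (XT.lf (nat_lit 0) (nat_lit 80788660921) (nat_lit 76) (nat_lit 42768331199)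 (nat_lit 76) (nat_lit 40424250242) (nat_lit 1) (nat_lit 4) (nat_lit 2) (nat_lit 5) (nat_lit 2) (nat_lit 4) (nat_lit 296) (nat_lit 252) (nat_lit 232))) (XT.nd (nat_lit 78) (nat_lit 0) (nat_lit 0) (XT.lf (nat_lit 0) (nat_lit 99774973967) (nat_lit 76) (nat_lit 45328470649) (nat_lit 76) (nat_lit 42964492581) (nat_lit 1) (nat_lit 4) (nat_lit 2) (nat_lit 5) (nat_lit 2) (nat_lit 4) (nat_lit 297) (nat_lit 252) (nat_lit 231)) (XT.lf (nat_lit 0) (nat_lit 121517393695) (nat_lit 76) (nat_lit 48319174423) (nat_lit 76) (nat_lit 45937894521) (nat_lit 1) (nat_lit 4) (nat_lit 2) (nat_lit 5) (nat_lit 2) (nat_lit 4) (nat_lit 298) (nat_lit 252) (nat_lit 230)))) (XT.nd (nat_lit 156) (nat_lit 0) (nat_lit 0) (XT.nd (nat_lit 78) (nat_lit 0) (nat_lit 0) (XT.lf (nat_lit 0) (nat_lit 146441315274) (nat_lit 76) (nat_lit 51798956292) (nat_lit 76) (nat_lit 49402631316) (nat_lit 1) (nat_lit 4) (nat_lit 2) (nat_lit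 5) (nat_lit 2) (nat_lit 4) (nat_lit 299) (nat_lit 252) (nat_lit 229)) (XT.lf (nat_lit 0) (nat_lit 175034380647) (nat_lit 76) (nat_lit 55835898944) (nat_lit 76) (nat_lit 53426491294) (nat_lit 1) (nat_lit 4) (nat_lit 2) (nat_lit 5) (nat_lit 2) (nat_lit 4) (nat_lit 300) (nat_lit 252) (nat_lit 228))) (XT.nd (nat_lit 78) (nat_lit 0) (nat_lit 0) (XT.lf (nat_lit 0) (nat_lit 207856019353) (nat_lit 76) (nat_lit 60508986039) (nat_lit 76) (nat_lit 58088202152) (nat_lit 1) (nat_lit 4) (nat_lit 2) (nat_lit 5) (nat_lit 2) (nat_lit 4) (nat_lit 301) (nat_lit 252) (nat_lit 227)) (XT.nd (nat_lit 78) (nat_lit 0) (nat_lit 0) (XT.lf (nat_lit 0) (nat_lit 245548393891) (nat_lit 76) (nat_lit 65909647543) (nat_lit 76) (nat_lit 63478971276) (nat_lit 1) (nat_lit 4) (nat_lit 2) (nat_lit 5) (nat_lit 2) (nat_lit 4) (nat_lit 302) (nat_lit 252) (nat_lit 226)) (XT.lf (nat_lit 0) (nat_lit 288848963760) (nat_lit 76) (nat_lit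 72143548572) (nat_lit 76) (nat_lit 69704270235) (nat_lit 1) (nat_lit 4) (nat_lit 2) (nat_lit 5) (nat_lit 2) (nat_lit 4) (nat_lit 303) (nat_lit 252) (nat_lit 225)))))) (XT.nd (nat_lit 390) (nat_lit 0) (nat_lit 0) (XT.nd (nat_lit 156) (nat_lit 0) (nat_lit 0) (XT.nd (nat_lit 78) (nat_lit 0) (nat_lit 0) (XT.lf (nat_lit 0) (nat_lit 338604914025) (nat_lit 76) (nat_lit 79332656755) (nat_lit 76) (nat_lit 76885898357) (nat_lit 1) (nat_lit 4) (nat_lit 2) (nat_lit 5) (nat_lit 2) (nat_lit 4) (nat_lit 304) (nat_lit 252) (nat_lit 224)) (XT.lf (nat_lit 0) (nat_lit 395789730668) (nat_lit 76) (nat_lit 87617628556) (nat_lit 76) (nat_lit 85164365758) (nat_lit 1) (nat_lit 4) (nat_lit 2) (nat_lit 5) (nat_lit 2) (nat_lit 4) (nat_lit 305) (nat_lit 252) (nat_lit 223))) (XT.nd (nat_lit 78) (nat_lit 0) (nat_lit 0) (XT.lf (nat_lit 0) (nat_lit 461522247058) (nat_lit 76) (nat_lit 97160561250) (nat_lit 76) (nat_lit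 94701642451) (nat_lit 1) (nat_lit 4) (nat_lit 2) (nat_lit 5) (nat_lit 2) (nat_lit 4) (nat_lit 306) (nat_lit 252) (nat_lit 222)) (XT.nd (nat_lit 78) (nat_lit 0) (nat_lit 0) (XT.lf (nat_lit 0) (nat_lit 537088534169) (nat_lit 76) (nat_lit 108148164389) (nat_lit 76) (nat_lit 105684327328) (nat_lit 1) (nat_lit 4) (nat_lit 2) (nat_lit 5) (nat_lit 2) (nat_lit 4) (nat_lit 307) (nat_lit 252) (nat_lit 221)) (XT.lf (nat_lit 0) (nat_lit 623967062835) (nat_lit 76) (nat_lit 120795412817) (nat_lit 76) (nat_lit 118327299007) (nat_lit 1) (nat_lit 4) (nat_lit 2) (nat_lit 5) (nat_lit 2) (nat_lit 4) (nat_lit 308) (nat_lit 252) (nat_lit 220))))) (XT.nd (nat_lit 156) (nat_lit 0) (nat_lit 0) (XT.nd (nat_lit 78) (nat_lit 0) (nat_lit 0) (XT.lf (nat_lit 0) (nat_lit 723857630357) (nat_lit 76) (nat_lit 135349752699) (nat_lit 76) (nat_lit 132877919978) (nat_lit 1) (nat_lit 4) (nat_lit 2) (nat_lit 5) (nat_lit 2)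 (nat_lit 4) (nat_lit 309) (nat_lit 252) (nat_lit 219)) (XT.lf (nat_lit 0) (nat_lit 838714617402) (nat_lit 76) (nat_lit 152095942860) (nat_lit 76) (nat_lit 149620876301) (nat_lit 1) (nat_lit 4) (nat_lit 2) (nat_lit 5) (nat_lit 2) (nat_lit 4) (nat_lit 310) (nat_lit 252) (nat_lit 218))) (XT.nd (nat_lit 78) (nat_lit 0) (nat_lit 0) (XT.lf (nat_lit 0) (nat_lit 970785225892) (nat_lit 76) (nat_lit 171361626149) (nat_lit 76) (nat_lit 168883747559) (nat_lit 1) (nat_lit 4) (nat_lit 2) (nat_lit 5) (nat_lit 2) (nat_lit 4) (nat_lit 311) (nat_lit 252) (nat_lit 217)) (XT.nd (nat_lit 78) (nat_lit 0) (nat_lit 0) (XT.lf (nat_lit 0) (nat_lit 1122653445992) (nat_lit 76) (nat_lit 193523739849) (nat_lit 76) (nat_lit 191043416014) (nat_lit 1) (nat_lit 4) (nat_lit 2) (nat_lit 5) (nat_lit 2) (nat_lit 4) (nat_lit 312) (nat_lit 252) (nat_lit 216)) (XT.lf (nat_lit 0) (nat_lit 1297290612445) (nat_lit 76) (nat_lit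 219015890532) (nat_lit 76) (nat_lit 216533440397) (nat_lit 1) (nat_lit 4) (nat_lit 2) (nat_lit 5) (nat_lit 2) (nat_lit 4) (nat_lit 313) (nat_lit 252) (nat_lit 215))))))))
noncomputable def xc32 : XT := (XT.nd (nat_lit 1404) (nat_lit 0) (nat_lit 0) (XT.nd (nat_lit 702) (nat_lit 0) (nat_lit 0) (XT.nd (nat_lit 312) (nat_lit 0) (nat_lit 0) (XT.nd (nat_lit 156) (nat_lit 0) (nat_lit 0) (XT.nd (nat_lit 78) (nat_lit 0) (nat_lit 0) (XT.lf (nat_lit 0) (nat_lit 1498113539375) (nat_lit 76) (nat_lit 248336837669) (nat_lit 76) (nat_lit 245852538577) (nat_lit 1) (nat_lit 4) (nat_lit 2) (nat_lit 5) (nat_lit 2) (nat_lit 4) (nat_lit 314) (nat_lit 252) (nat_lit 214)) (XT.lf (nat_lit 0) (nat_lit 1729051371005) (nat_lit 76) (nat_lit 282060251963) (nat_lit 76) (nat_lit 279574345082) (nat_lit 1) (nat_lit 4) (nat_lit 2) (nat_lit 5) (nat_lit 2) (nat_lit 4) (nat_lit 315) (nat_lit 252) (nat_lit 213))) (XT.nd (nat_lit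 78) (nat_lit 0) (nat_lit 0) (XT.lf (nat_lit 0) (nat_lit 1994622456216) (nat_lit 76) (nat_lit 320845939347) (nat_lit 76) (nat_lit 318358634389) (nat_lit 1) (nat_lit 4) (nat_lit 2) (nat_lit 5) (nat_lit 2) (nat_lit 4) (nat_lit 316) (nat_lit 252) (nat_lit 212)) (XT.lf (nat_lit 0) (nat_lit 2300022751022) (nat_lit 76) (nat_lit 365452750225) (nat_lit 76) (nat_lit 362964229549) (nat_lit 1) (nat_lit 4) (nat_lit 2) (nat_lit 5) (nat_lit 2) (nat_lit 4) (nat_lit 317) (nat_lit 252) (nat_lit 211)))) (XT.nd (nat_lit 156) (nat_lit 0) (nat_lit 0) (XT.nd (nat_lit 78) (nat_lit 0) (nat_lit 0) (XT.lf (nat_lit 0) (nat_lit 2651227478583) (nat_lit 76) (nat_lit 416753426551) (nat_lit 76) (nat_lit 414263848728) (nat_lit 1) (nat_lit 4) (nat_lit 2) (nat_lit 5) (nat_lit 2) (nat_lit 4) (nat_lit 318) (nat_lit 252) (nat_lit 210)) (XT.lf (nat_lit 0) (nat_lit 3055108035742) (nat_lit 76) (nat_lit 475751677209) (nat_lit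 76) (nat_lit 473261180127) (nat_lit 1) (nat_lit 4) (nat_lit 2) (nat_lit 5) (nat_lit 2) (nat_lit 4) (nat_lit 319) (nat_lit 252) (nat_lit 209))) (XT.nd (nat_lit 78) (nat_lit 0) (nat_lit 0) (XT.lf (nat_lit 0) (nat_lit 3519566433399) (nat_lit 76) (nat_lit 543601815798) (nat_lit 76) (nat_lit 541110519361) (nat_lit 1) (nat_lit 4) (nat_lit 2) (nat_lit 5) (nat_lit 2) (nat_lit 4) (nat_lit 320) (nat_lit 252) (nat_lit 208)) (XT.nd (nat_lit 78) (nat_lit 0) (nat_lit 0) (XT.lf (nat_lit 0) (nat_lit 4053689901075) (nat_lit 76) (nat_lit 621631345029) (nat_lit 76) (nat_lit 619139353502) (nat_lit 1) (nat_lit 4) (nat_lit 2) (nat_lit 5) (nat_lit 2) (nat_lit 4) (nat_lit 321) (nat_lit 252) (nat_lit 207)) (XT.lf (nat_lit 0) (nat_lit 4667928680528) (nat_lit 76) (nat_lit 711366929607) (nat_lit 76) (nat_lit 708874333652) (nat_lit 1) (nat_lit 4) (nat_lit 2) (nat_lit 5) (nat_lit 2) (nat_lit 4) (nat_lit 322) (nat_lit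 252) (nat_lit 206)))))) (XT.nd (nat_lit 312) (nat_lit 0) (nat_lit 0) (XT.nd (nat_lit 156) (nat_lit 0) (nat_lit 0) (XT.nd (nat_lit 78) (nat_lit 0) (nat_lit 0) (XT.lf (nat_lit 0) (nat_lit 5374300487009) (nat_lit 76) (nat_lit 814564265749) (nat_lit 76) (nat_lit 812071144205) (nat_lit 1) (nat_lit 4) (nat_lit 2) (nat_lit 5) (nat_lit 2) (nat_lit 4) (nat_lit 323) (nat_lit 252) (nat_lit 205)) (XT.lf (nat_lit 0) (nat_lit 6186625638470) (nat_lit 76) (nat_lit 933242431773) (nat_lit 76) (nat_lit 930748853195) (nat_lit 1) (nat_lit 4) (nat_lit 2) (nat_lit 5) (nat_lit 2) (nat_lit 4) (nat_lit 324) (nat_lit 252) (nat_lit 204))) (XT.nd (nat_lit 78) (nat_lit 0) (nat_lit 0) (XT.lf (nat_lit 0) (nat_lit 7120797453092) (nat_lit 76) (nat_lit 1069723391795) (nat_lit 76) (nat_lit 1067229415797) (nat_lit 1) (nat_lit 4) (nat_lit 2) (nat_lit 5) (nat_lit 2) (nat_lit 4) (nat_lit 325) (nat_lit 252) (nat_lit 203)) (XT.lf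 (nat_lit 0) (nat_lit 8195093205509) (nat_lit 76) (nat_lit 1226677425470) (nat_lit 76) (nat_lit 1224183103888) (nat_lit 1) (nat_lit 4) (nat_lit 2) (nat_lit 5) (nat_lit 2) (nat_lit 4) (nat_lit 326) (nat_lit 252) (nat_lit 202)))) (XT.nd (nat_lit 156) (nat_lit 0) (nat_lit 0) (XT.nd (nat_lit 78) (nat_lit 0) (nat_lit 0) (XT.lf (nat_lit 0) (nat_lit 9430531725659) (nat_lit 76) (nat_lit 1407175372585) (nat_lit 76) (nat_lit 1404680750496) (nat_lit 1) (nat_lit 4) (nat_lit 2) (nat_lit 5) (nat_lit 2) (nat_lit 4) (nat_lit 327) (nat_lit 252) (nat_lit 201)) (XT.lf (nat_lit 0) (nat_lit 10851284636764) (nat_lit 76) (nat_lit 1614748714715) (nat_lit 76) (nat_lit 1612253831316) (nat_lit 1) (nat_lit 4) (nat_lit 2) (nat_lit 5) (nat_lit 2) (nat_lit 4) (nat_lit 328) (nat_lit 252) (nat_lit 200))) (XT.nd (nat_lit 78) (nat_lit 0) (nat_lit 0) (XT.lf (nat_lit 0) (nat_lit 12485149278387) (nat_lit 76) (nat_lit 1853458669423)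 (nat_lit 76) (nat_lit 1850963558798) (nat_lit 1) (nat_lit 4) (nat_lit 2) (nat_lit 5) (nat_lit 2) (nat_lit 4) (nat_lit 329) (nat_lit 252) (nat_lit 199)) (XT.nd (nat_lit 78) (nat_lit 0) (nat_lit 0) (XT.lf (nat_lit 0) (nat_lit 14364092567431) (nat_lit 76) (nat_lit 2127975648867) (nat_lit 76) (nat_lit 2125480340653) (nat_lit 1) (nat_lit 4) (nat_lit 2) (nat_lit 5) (nat_lit 2) (nat_lit 4) (nat_lit 330) (nat_lit 252) (nat_lit 198)) (XT.lf (nat_lit 0) (nat_lit 16524876437811) (nat_lit 76) (nat_lit 2443670637427) (nat_lit 76) (nat_lit 2441175157398) (nat_lit 1) (nat_lit 4) (nat_lit 2) (nat_lit 5) (nat_lit 2) (nat_lit 4) (nat_lit 331) (nat_lit 252) (nat_lit 197))))))) (XT.nd (nat_lit 702) (nat_lit 0) (nat_lit 0) (XT.nd (nat_lit 312) (nat_lit 0) (nat_lit 0) (XT.nd (nat_lit 156) (nat_lit 0) (nat_lit 0) (XT.nd (nat_lit 78) (nat_lit 0) (nat_lit 0) (XT.lf (nat_lit 0) (nat_lit 19009777095687) (nat_lit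 76) (nat_lit 2806720276184) (nat_lit 76) (nat_lit 2804224646749) (nat_lit 1) (nat_lit 4) (nat_lit 2) (nat_lit 5) (nat_lit 2) (nat_lit 4) (nat_lit 332) (nat_lit 252) (nat_lit 196)) (XT.lf (nat_lit 0) (nat_lit 21867412162626) (nat_lit 76) (nat_lit 3224227710244) (nat_lit 76) (nat_lit 3221731950891) (nat_lit 1) (nat_lit 4) (nat_lit 2) (nat_lit 5) (nat_lit 2) (nat_lit 4) (nat_lit 333) (nat_lit 252) (nat_lit 195))) (XT.nd (nat_lit 78) (nat_lit 0) (nat_lit 0) (XT.lf (nat_lit 0) (nat_lit 25153691889938) (nat_lit 76) (nat_lit 3704361563316) (nat_lit 76) (nat_lit 3701865690991) (nat_lit 1) (nat_lit 4) (nat_lit 2) (nat_lit 5) (nat_lit 2) (nat_lit 4) (nat_lit 334) (nat_lit 252) (nat_lit 194)) (XT.lf (nat_lit 0) (nat_lit 28932913054896) (nat_lit 76) (nat_lit 4256515758612) (nat_lit 76) (nat_lit 4254019788052) (nat_lit 1) (nat_lit 4) (nat_lit 2) (nat_lit 5) (nat_lit 2) (nat_lit 4) (nat_lit 335) (nat_lit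 252) (nat_lit 193)))) (XT.nd (nat_lit 156) (nat_lit 0) (nat_lit 0) (XT.nd (nat_lit 78) (nat_lit 0) (nat_lit 0) (XT.lf (nat_lit 0) (nat_lit 33279016941163) (nat_lit 76) (nat_lit 4891493312999) (nat_lit 76) (nat_lit 4888997257015) (nat_lit 1) (nat_lit 4) (nat_lit 2) (nat_lit 5) (nat_lit 2) (nat_lit 4) (nat_lit 336) (nat_lit 252) (nat_lit 192)) (XT.lf (nat_lit 0) (nat_lit 38277036016078) (nat_lit 76) (nat_lit 5621717700364) (nat_lit 76) (nat_lit 5619221570100) (nat_lit 1) (nat_lit 4) (nat_lit 2) (nat_lit 5) (nat_lit 2) (nat_lit 4) (nat_lit 337) (nat_lit 252) (nat_lit 191))) (XT.nd (nat_lit 78) (nat_lit 0) (nat_lit 0) (XT.lf (nat_lit 0) (nat_lit 44024757609368) (nat_lit 76) (nat_lit 6461475919593) (nat_lit 76) (nat_lit 6458979724736) (nat_lit 1) (nat_lit 4) (nat_lit 2) (nat_lit 5) (nat_lit 2) (nat_lit 4) (nat_lit 338) (nat_lit 252) (nat_lit 190)) (XT.nd (nat_lit 78) (nat_lit 0) (nat_lit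 0) (XT.lf (nat_lit 0) (nat_lit 50634637143511) (nat_lit 76) (nat_lit 7427198022799) (nat_lit 76) (nat_lit 7424701771776) (nat_lit 1) (nat_lit 4) (nat_lit 2) (nat_lit 5) (nat_lit 2) (nat_lit 4) (nat_lit 339) (nat_lit 252) (nat_lit 189)) (XT.lf (nat_lit 0) (nat_lit 58235998348523) (nat_lit 76) (nat_lit 8537778572873) (nat_lit 76) (nat_lit 8535282273009) (nat_lit 1) (nat_lit 4) (nat_lit 2) (nat_lit 5) (nat_lit 2) (nat_lit 4) (nat_lit 340) (nat_lit 252) (nat_lit 188)))))) (XT.nd (nat_lit 468) (nat_lit 0) (nat_lit 0) (XT.nd (nat_lit 312) (nat_lit 0) (nat_lit 0) (XT.nd (nat_lit 234) (nat_lit 0) (nat_lit 0) (XT.lf (nat_lit 0) (nat_lit 66977563508848) (nat_lit 76) (nat_lit 9814946319706) (nat_lit 76) (nat_lit 9812449977372) (nat_lit 1) (nat_lit 4) (nat_lit 2) (nat_lit 5) (nat_lit 2) (nat_lit 4) (nat_lit 341) (nat_lit 252) (nat_lit 187)) (XT.lf (nat_lit 0) (nat_lit 101885910085516) (nat_lit 76)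 (nat_lit 14915156676553) (nat_lit 76) (nat_lit 14912660237249) (nat_lit 1) (nat_lit 4) (nat_lit 2) (nat_lit 5) (nat_lit 2) (nat_lit 4) (nat_lit 344) (nat_lit 252) (nat_lit 184))) (XT.nd (nat_lit 78) (nat_lit 0) (nat_lit 0) (XT.lf (nat_lit 0) (nat_lit 117174961362772) (nat_lit 76) (nat_lit 17148931465115) (nat_lit 76) (nat_lit 17146435001529) (nat_lit 1) (nat_lit 4) (nat_lit 2) (nat_lit 5) (nat_lit 2) (nat_lit 4) (nat_lit 345) (nat_lit 252) (nat_lit 183)) (XT.lf (nat_lit 0) (nat_lit 134757370219533) (nat_lit 76) (nat_lit 19717772528764) (nat_lit 76) (nat_lit 19715276044062) (nat_lit 1) (nat_lit 4) (nat_lit 2) (nat_lit 5) (nat_lit 2) (nat_lit 4) (nat_lit 346) (nat_lit 252) (nat_lit 182)))) (XT.nd (nat_lit 34944) (nat_lit 0) (nat_lit 532) (XT.nd (nat_lit 78) (nat_lit 0) (nat_lit 0) (XT.lf (nat_lit 0) (nat_lit 154977140307347) (nat_lit 76) (nat_lit 22671939801352) (nat_lit 76) (nat_lit 22669443298290)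 (nat_lit 1) (nat_lit 4) (nat_lit 2) (nat_lit 5) (nat_lit 2) (nat_lit 4) (nat_lit 347) (nat_lit 252) (nat_lit 181)) (XT.lf (nat_lit 0) (nat_lit 178229875823581) (nat_lit 76) (nat_lit 26069232207780) (nat_lit 76) (nat_lit 26066735688751) (nat_lit 1) (nat_lit 4) (nat_lit 2) (nat_lit 5) (nat_lit 2) (nat_lit 4) (nat_lit 348) (nat_lit 252) (nat_lit 180))) (XT.nd (nat_lit 78) (nat_lit 152) (nat_lit 0) (XT.lf (nat_lit 0) (nat_lit 3263294518) (nat_lit 76) (nat_lit 1394499977) (nat_lit 76) (nat_lit 1394499977) (nat_lit 10) (nat_lit 4) (nat_lit 11) (nat_lit 5) (nat_lit 11) (nat_lit 4) (nat_lit 274) (nat_lit 253) (nat_lit 253)) (XT.nd (nat_lit 78) (nat_lit 0) (nat_lit 0) (XT.lf (nat_lit 0) (nat_lit 1606494640) (nat_lit 152) (nat_lit 10448468684) (nat_lit 0) (nat_lit 1111226562) (nat_lit 8) (nat_lit 5) (nat_lit 10) (nat_lit 4) (nat_lit 8) (nat_lit 4) (nat_lit 275) (nat_lit 253) (nat_lit 252)) (XT.lf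 (nat_lit 0) (nat_lit 6343582409) (nat_lit 152) (nat_lit 2611502095) (nat_lit 0) (nat_lit 5417646438) (nat_lit 8) (nat_lit 5) (nat_lit 10) (nat_lit 4) (nat_lit 8) (nat_lit 4) (nat_lit 276) (nat_lit 253) (nat_lit 251))))))))
noncomputable def xc33 : XT := (XT.nd (nat_lit 1404) (nat_lit 0) (nat_lit 0) (XT.nd (nat_lit 702) (nat_lit 76) (nat_lit 0) (XT.nd (nat_lit 312) (nat_lit 228) (nat_lit 0) (XT.nd (nat_lit 156) (nat_lit 76) (nat_lit 0) (XT.nd (nat_lit 78) (nat_lit 76) (nat_lit 0) (XT.lf (nat_lit 0) (nat_lit 6192866833) (nat_lit 76) (nat_lit 5445702558) (nat_lit 76) (nat_lit 4145272767) (nat_lit 7) (nat_lit 4) (nat_lit 8) (nat_lit 5) (nat_lit 8) (nat_lit 4) (nat_lit 277) (nat_lit 253) (nat_lit 250)) (XT.lf (nat_lit 0) (nat_lit 30930120) (nat_lit 152) (nat_lit 1559576833) (nat_lit 76) (nat_lit 15853888492) (nat_lit 6) (nat_lit 5) (nat_lit 8) (nat_lit 5) (nat_lit 7) (nat_lit 4) (nat_lit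 278) (nat_lit 253) (nat_lit 249))) (XT.nd (nat_lit 78) (nat_lit 0) (nat_lit 0) (XT.lf (nat_lit 0) (nat_lit 4495895982) (nat_lit 152) (nat_lit 11980289947) (nat_lit 0) (nat_lit 2835680572) (nat_lit 5) (nat_lit 5) (nat_lit 7) (nat_lit 4) (nat_lit 5) (nat_lit 4) (nat_lit 279) (nat_lit 253) (nat_lit 248)) (XT.lf (nat_lit 0) (nat_lit 9446932425) (nat_lit 152) (nat_lit 4467872153) (nat_lit 0) (nat_lit 7572598957) (nat_lit 5) (nat_lit 5) (nat_lit 7) (nat_lit 4) (nat_lit 5) (nat_lit 4) (nat_lit 280) (nat_lit 253) (nat_lit 247)))) (XT.nd (nat_lit 156) (nat_lit 152) (nat_lit 0) (XT.nd (nat_lit 78) (nat_lit 0) (nat_lit 0) (XT.lf (nat_lit 0) (nat_lit 3936945879) (nat_lit 76) (nat_lit 11066857141) (nat_lit 76) (nat_lit 9006334057) (nat_lit 4) (nat_lit 4) (nat_lit 5) (nat_lit 5) (nat_lit 5) (nat_lit 4) (nat_lit 281) (nat_lit 253) (nat_lit 246)) (XT.lf (nat_lit 0) (nat_lit 13546246879) (nat_lit 76)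 (nat_lit 7797652334) (nat_lit 76) (nat_lit 5575225238) (nat_lit 4) (nat_lit 4) (nat_lit 5) (nat_lit 5) (nat_lit 5) (nat_lit 4) (nat_lit 282) (nat_lit 253) (nat_lit 245))) (XT.nd (nat_lit 78) (nat_lit 152) (nat_lit 0) (XT.lf (nat_lit 0) (nat_lit 24111405949) (nat_lit 76) (nat_lit 4276775318) (nat_lit 76) (nat_lit 1913562124) (nat_lit 4) (nat_lit 4) (nat_lit 5) (nat_lit 5) (nat_lit 5) (nat_lit 4) (nat_lit 283) (nat_lit 253) (nat_lit 244)) (XT.nd (nat_lit 78) (nat_lit 0) (nat_lit 0) (XT.lf (nat_lit 0) (nat_lit 1679587211) (nat_lit 76) (nat_lit 257725858) (nat_lit 152) (nat_lit 32263695522) (nat_lit 2) (nat_lit 5) (nat_lit 3) (nat_lit 5) (nat_lit 4) (nat_lit 4) (nat_lit 284) (nat_lit 253) (nat_lit 243)) (XT.lf (nat_lit 0) (nat_lit 6467610276) (nat_lit 152) (nat_lit 27945781331) (nat_lit 0) (nat_lit 4213618619) (nat_lit 2) (nat_lit 5) (nat_lit 4) (nat_lit 4) (nat_lit 2) (nat_lit 4) (nat_lit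 285) (nat_lit 253) (nat_lit 242)))))) (XT.nd (nat_lit 312) (nat_lit 76) (nat_lit 0) (XT.nd (nat_lit 156) (nat_lit 0) (nat_lit 0) (XT.nd (nat_lit 78) (nat_lit 0) (nat_lit 0) (XT.lf (nat_lit 0) (nat_lit 11496678590) (nat_lit 152) (nat_lit 23085305695) (nat_lit 0) (nat_lit 9162192024) (nat_lit 2) (nat_lit 5) (nat_lit 4) (nat_lit 4) (nat_lit 2) (nat_lit 4) (nat_lit 286) (nat_lit 253) (nat_lit 241)) (XT.lf (nat_lit 0) (nat_lit 17112240948) (nat_lit 152) (nat_lit 17834226334) (nat_lit 0) (nat_lit 14707758810) (nat_lit 2) (nat_lit 5) (nat_lit 4) (nat_lit 4) (nat_lit 2) (nat_lit 4) (nat_lit 287) (nat_lit 253) (nat_lit 240))) (XT.nd (nat_lit 78) (nat_lit 0) (nat_lit 0) (XT.lf (nat_lit 0) (nat_lit 23424167049) (nat_lit 152) (nat_lit 12089804736) (nat_lit 0) (nat_lit 20958819196) (nat_lit 2) (nat_lit 5) (nat_lit 4) (nat_lit 4) (nat_lit 2) (nat_lit 4) (nat_lit 288) (nat_lit 253) (nat_lit 239)) (XT.lf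 (nat_lit 0) (nat_lit 30555951100) (nat_lit 152) (nat_lit 5739650046) (nat_lit 0) (nat_lit 28037676537) (nat_lit 2) (nat_lit 5) (nat_lit 4) (nat_lit 4) (nat_lit 2) (nat_lit 4) (nat_lit 289) (nat_lit 253) (nat_lit 238)))) (XT.nd (nat_lit 156) (nat_lit 0) (nat_lit 0) (XT.nd (nat_lit 78) (nat_lit 0) (nat_lit 0) (XT.lf (nat_lit 0) (nat_lit 1471481337) (nat_lit 76) (nat_lit 37236577571) (nat_lit 76) (nat_lit 34672279783) (nat_lit 1) (nat_lit 4) (nat_lit 2) (nat_lit 5) (nat_lit 2) (nat_lit 4) (nat_lit 290) (nat_lit 253) (nat_lit 237)) (XT.lf (nat_lit 0) (nat_lit 10196908689) (nat_lit 76) (nat_lit 38081326954) (nat_lit 76) (nat_lit 35477008970) (nat_lit 1) (nat_lit 4) (nat_lit 2) (nat_lit 5) (nat_lit 2) (nat_lit 4) (nat_lit 291) (nat_lit 253) (nat_lit 236))) (XT.nd (nat_lit 78) (nat_lit 0) (nat_lit 0) (XT.lf (nat_lit 0) (nat_lit 20046426545) (nat_lit 76) (nat_lit 39146404160) (nat_lit 76) (nat_lit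 36507286006) (nat_lit 1) (nat_lit 4) (nat_lit 2) (nat_lit 5) (nat_lit 2) (nat_lit 4) (nat_lit 292) (nat_lit 253) (nat_lit 235)) (XT.nd (nat_lit 78) (nat_lit 0) (nat_lit 0) (XT.lf (nat_lit 0) (nat_lit 31212742864) (nat_lit 76) (nat_lit 40452647658) (nat_lit 76) (nat_lit 37783268487) (nat_lit 1) (nat_lit 4) (nat_lit 2) (nat_lit 5) (nat_lit 2) (nat_lit 4) (nat_lit 293) (nat_lit 253) (nat_lit 234)) (XT.lf (nat_lit 0) (nat_lit 43914329053) (nat_lit 76) (nat_lit 42025614386) (nat_lit 76) (nat_lit 39329921286) (nat_lit 1) (nat_lit 4) (nat_lit 2) (nat_lit 5) (nat_lit 2) (nat_lit 4) (nat_lit 294) (nat_lit 253) (nat_lit 233))))))) (XT.nd (nat_lit 702) (nat_lit 0) (nat_lit 0) (XT.nd (nat_lit 312) (nat_lit 0) (nat_lit 0) (XT.nd (nat_lit 156) (nat_lit 0) (nat_lit 0) (XT.nd (nat_lit 78) (nat_lit 0) (nat_lit 0) (XT.lf (nat_lit 0) (nat_lit 58399694406) (nat_lit 76) (nat_lit 43896079779) (nat_lit 76)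 (nat_lit 41177505002) (nat_lit 1) (nat_lit 4) (nat_lit 2) (nat_lit 5) (nat_lit 2) (nat_lit 4) (nat_lit 295) (nat_lit 253) (nat_lit 232)) (XT.lf (nat_lit 0) (nat_lit 74952248244) (nat_lit 76) (nat_lit 46100639900) (nat_lit 76) (nat_lit 43362168012) (nat_lit 1) (nat_lit 4) (nat_lit 2) (nat_lit 5) (nat_lit 2) (nat_lit 4) (nat_lit 296) (nat_lit 253) (nat_lit 231))) (XT.nd (nat_lit 78) (nat_lit 0) (nat_lit 0) (XT.lf (nat_lit 0) (nat_lit 93895844884) (nat_lit 76) (nat_lit 48682427446) (nat_lit 76) (nat_lit 45926653723) (nat_lit 1) (nat_lit 4) (nat_lit 2) (nat_lit 5) (nat_lit 2) (nat_lit 4) (nat_lit 297) (nat_lit 253) (nat_lit 230)) (XT.lf (nat_lit 0) (nat_lit 115601119910) (nat_lit 76) (nat_lit 51691955652) (nat_lit 76) (nat_lit 48921136855) (nat_lit 1) (nat_lit 4) (nat_lit 2) (nat_lit 5) (nat_lit 2) (nat_lit 4) (nat_lit 298) (nat_lit 253) (nat_lit 229)))) (XT.nd (nat_lit 156) (nat_lit 0)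 (nat_lit 0) (XT.nd (nat_lit 78) (nat_lit 0) (nat_lit 0) (XT.lf (nat_lit 0) (nat_lit 140492741748) (nat_lit 76) (nat_lit 55188106592) (nat_lit 76) (nat_lit 52404205122) (nat_lit 1) (nat_lit 4) (nat_lit 2) (nat_lit 5) (nat_lit 2) (nat_lit 4) (nat_lit 299) (nat_lit 253) (nat_lit 228)) (XT.lf (nat_lit 0) (nat_lit 169057720390) (nat_lit 76) (nat_lit 59239283218) (nat_lit 76) (nat_lit 56444005511) (nat_lit 1) (nat_lit 4) (nat_lit 2) (nat_lit 5) (nat_lit 2) (nat_lit 4) (nat_lit 300) (nat_lit 253) (nat_lit 227))) (XT.nd (nat_lit 78) (nat_lit 0) (nat_lit 0) (XT.lf (nat_lit 0) (nat_lit 201854935852) (nat_lit 76) (nat_lit 63924747683) (nat_lit 76) (nat_lit 61119577596) (nat_lit 1) (nat_lit 4) (nat_lit 2) (nat_lit 5) (nat_lit 2) (nat_lit 4) (nat_lit 301) (nat_lit 253) (nat_lit 226)) (XT.nd (nat_lit 78) (nat_lit 0) (nat_lit 0) (XT.lf (nat_lit 0) (nat_lit 239526072785) (nat_lit 76) (nat_lit 69336172117)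 (nat_lit 76) (nat_lit 66522399960) (nat_lit 1) (nat_lit 4) (nat_lit 2) (nat_lit 5) (nat_lit 2) (nat_lit 4) (nat_lit 302) (nat_lit 253) (nat_lit 225)) (XT.lf (nat_lit 0) (nat_lit 282808175173) (nat_lit 76) (nat_lit 75579432216) (nat_lit 76) (nat_lit 72758179998) (nat_lit 1) (nat_lit 4) (nat_lit 2) (nat_lit 5) (nat_lit 2) (nat_lit 4) (nat_lit 303) (nat_lit 253) (nat_lit 224)))))) (XT.nd (nat_lit 390) (nat_lit 0) (nat_lit 0) (XT.nd (nat_lit 156) (nat_lit 0) (nat_lit 0) (XT.nd (nat_lit 78) (nat_lit 0) (nat_lit 0) (XT.lf (nat_lit 0) (nat_lit 332548066758) (nat_lit 76) (nat_lit 82776678720) (nat_lit 76) (nat_lit 79948922101) (nat_lit 1) (nat_lit 4) (nat_lit 2) (nat_lit 5) (nat_lit 2) (nat_lit 4) (nat_lit 304) (nat_lit 253) (nat_lit 223)) (XT.lf (nat_lit 0) (nat_lit 389718919332) (nat_lit 76) (nat_lit 91068727322) (nat_lit 76) (nat_lit 88235314703) (nat_lit 1) (nat_lit 4) (nat_lit 2) (nat_lit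 5) (nat_lit 2) (nat_lit 4) (nat_lit 305) (nat_lit 253) (nat_lit 222))) (XT.nd (nat_lit 78) (nat_lit 0) (nat_lit 0) (XT.lf (nat_lit 0) (nat_lit 455439293054) (nat_lit 76) (nat_lit 100617813756) (nat_lit 76) (nat_lit 97779482875) (nat_lit 1) (nat_lit 4) (nat_lit 2) (nat_lit 5) (nat_lit 2) (nat_lit 4) (nat_lit 306) (nat_lit 253) (nat_lit 221)) (XT.nd (nat_lit 78) (nat_lit 0) (nat_lit 0) (XT.lf (nat_lit 0) (nat_lit 530995021322) (nat_lit 76) (nat_lit 111610767973) (nat_lit 76) (nat_lit 108768160343) (nat_lit 1) (nat_lit 4) (nat_lit 2) (nat_lit 5) (nat_lit 2) (nat_lit 4) (nat_lit 307) (nat_lit 253) (nat_lit 220)) (XT.lf (nat_lit 0) (nat_lit 617864368386) (nat_lit 76) (nat_lit 124262669513) (nat_lit 76) (nat_lit 121416342971) (nat_lit 1) (nat_lit 4) (nat_lit 2) (nat_lit 5) (nat_lit 2) (nat_lit 4) (nat_lit 308) (nat_lit 253) (nat_lit 219))))) (XT.nd (nat_lit 156) (nat_lit 0) (nat_lit 0) (XT.nd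 (nat_lit 78) (nat_lit 0) (nat_lit 0) (XT.lf (nat_lit 0) (nat_lit 717746951905) (nat_lit 76) (nat_lit 138821055579) (nat_lit 76) (nat_lit 135971495201) (nat_lit 1) (nat_lit 4) (nat_lit 2) (nat_lit 5) (nat_lit 2) (nat_lit 4) (nat_lit 309) (nat_lit 253) (nat_lit 218)) (XT.lf (nat_lit 0) (nat_lit 832596996340) (nat_lit 76) (nat_lit 155570764161) (nat_lit 76) (nat_lit 152718391750) (nat_lit 1) (nat_lit 4) (nat_lit 2) (nat_lit 5) (nat_lit 2) (nat_lit 4) (nat_lit 310) (nat_lit 253) (nat_lit 217))) (XT.nd (nat_lit 78) (nat_lit 0) (nat_lit 0) (XT.lf (nat_lit 0) (nat_lit 964661567778) (nat_lit 76) (nat_lit 174839506947) (nat_lit 76) (nat_lit 171984689291) (nat_lit 1) (nat_lit 4) (nat_lit 2) (nat_lit 5) (nat_lit 2) (nat_lit 4) (nat_lit 311) (nat_lit 253) (nat_lit 216)) (XT.nd (nat_lit 78) (nat_lit 0) (nat_lit 0) (XT.lf (nat_lit 0) (nat_lit 1116524538267) (nat_lit 76) (nat_lit 197004281078) (nat_lit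 76) (nat_lit 194147337123) (nat_lit 1) (nat_lit 4) (nat_lit 2) (nat_lit 5) (nat_lit 2) (nat_lit 4) (nat_lit 312) (nat_lit 253) (nat_lit 215)) (XT.lf (nat_lit 0) (nat_lit 1291157139840) (nat_lit 76) (nat_lit 222498745180) (nat_lit 76) (nat_lit 219639952268) (nat_lit 1) (nat_lit 4) (nat_lit 2) (nat_lit 5) (nat_lit 2) (nat_lit 4) (nat_lit 313) (nat_lit 253) (nat_lit 214))))))))
noncomputable def xc34 : XT := (XT.nd (nat_lit 1404) (nat_lit 0) (nat_lit 0) (XT.nd (nat_lit 702) (nat_lit 0) (nat_lit 0) (XT.nd (nat_lit 312) (nat_lit 0) (nat_lit 0) (XT.nd (nat_lit 156) (nat_lit 0) (nat_lit 0) (XT.nd (nat_lit 78) (nat_lit 0) (nat_lit 0) (XT.lf (nat_lit 0) (nat_lit 1491976097311) (nat_lit 76) (nat_lit 251821703985) (nat_lit 76) (nat_lit 248961303284) (nat_lit 1) (nat_lit 4) (nat_lit 2) (nat_lit 5) (nat_lit 2) (nat_lit 4) (nat_lit 314) (nat_lit 253) (nat_lit 213)) (XT.lf (nat_lit 0) (nat_lit 1722910477237)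 (nat_lit 76) (nat_lit 285546867556) (nat_lit 76) (nat_lit 282685068779) (nat_lit 1) (nat_lit 4) (nat_lit 2) (nat_lit 5) (nat_lit 2) (nat_lit 4) (nat_lit 315) (nat_lit 253) (nat_lit 212))) (XT.nd (nat_lit 78) (nat_lit 0) (nat_lit 0) (XT.lf (nat_lit 0) (nat_lit 1988478560966) (nat_lit 76) (nat_lit 324334076051) (nat_lit 76) (nat_lit 321471061554) (nat_lit 1) (nat_lit 4) (nat_lit 2) (nat_lit 5) (nat_lit 2) (nat_lit 4) (nat_lit 316) (nat_lit 253) (nat_lit 211)) (XT.lf (nat_lit 0) (nat_lit 2293876245787) (nat_lit 76) (nat_lit 368942209634) (nat_lit 76) (nat_lit 366078137991) (nat_lit 1) (nat_lit 4) (nat_lit 2) (nat_lit 5) (nat_lit 2) (nat_lit 4) (nat_lit 317) (nat_lit 253) (nat_lit 210)))) (XT.nd (nat_lit 156) (nat_lit 0) (nat_lit 0) (XT.nd (nat_lit 78) (nat_lit 0) (nat_lit 0) (XT.lf (nat_lit 0) (nat_lit 2645078703796) (nat_lit 76) (nat_lit 420244036138) (nat_lit 76) (nat_lit 417379045236)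 (nat_lit 1) (nat_lit 4) (nat_lit 2) (nat_lit 5) (nat_lit 2) (nat_lit 4) (nat_lit 318) (nat_lit 253) (nat_lit 209)) (XT.lf (nat_lit 0) (nat_lit 3048957287432) (nat_lit 76) (nat_lit 479243286950) (nat_lit 76) (nat_lit 476377496693) (nat_lit 1) (nat_lit 4) (nat_lit 2) (nat_lit 5) (nat_lit 2) (nat_lit 4) (nat_lit 319) (nat_lit 253) (nat_lit 208))) (XT.nd (nat_lit 78) (nat_lit 0) (nat_lit 0) (XT.lf (nat_lit 0) (nat_lit 3513413968982) (nat_lit 76) (nat_lit 547094295239) (nat_lit 76) (nat_lit 544227809891) (nat_lit 1) (nat_lit 4) (nat_lit 2) (nat_lit 5) (nat_lit 2) (nat_lit 4) (nat_lit 320) (nat_lit 253) (nat_lit 207)) (XT.nd (nat_lit 78) (nat_lit 0) (nat_lit 0) (XT.lf (nat_lit 0) (nat_lit 4047535944391) (nat_lit 76) (nat_lit 625124580731) (nat_lit 76) (nat_lit 622257490956) (nat_lit 1) (nat_lit 4) (nat_lit 2) (nat_lit 5) (nat_lit 2) (nat_lit 4) (nat_lit 321) (nat_lit 253) (nat_lit 206)) (XT.lf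 (nat_lit 0) (nat_lit 4661773426221) (nat_lit 76) (nat_lit 714860822927) (nat_lit 76) (nat_lit 711993207563) (nat_lit 1) (nat_lit 4) (nat_lit 2) (nat_lit 5) (nat_lit 2) (nat_lit 4) (nat_lit 322) (nat_lit 253) (nat_lit 205)))))) (XT.nd (nat_lit 312) (nat_lit 0) (nat_lit 0) (XT.nd (nat_lit 156) (nat_lit 0) (nat_lit 0) (XT.nd (nat_lit 78) (nat_lit 0) (nat_lit 0) (XT.lf (nat_lit 0) (nat_lit 5368144104333) (nat_lit 76) (nat_lit 818058730911) (nat_lit 76) (nat_lit 815190658513) (nat_lit 1) (nat_lit 4) (nat_lit 2) (nat_lit 5) (nat_lit 2) (nat_lit 4) (nat_lit 323) (nat_lit 253) (nat_lit 204)) (XT.lf (nat_lit 0) (nat_lit 6180468274604) (nat_lit 76) (nat_lit 936737394188) (nat_lit 76) (nat_lit 933868924370) (nat_lit 1) (nat_lit 4) (nat_lit 2) (nat_lit 5) (nat_lit 2) (nat_lit 4) (nat_lit 324) (nat_lit 253) (nat_lit 203))) (XT.nd (nat_lit 78) (nat_lit 0) (nat_lit 0) (XT.lf (nat_lit 0) (nat_lit 7114639236018)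 (nat_lit 76) (nat_lit 1073218786605) (nat_lit 76) (nat_lit 1070349971204) (nat_lit 1) (nat_lit 4) (nat_lit 2) (nat_lit 5) (nat_lit 2) (nat_lit 4) (nat_lit 325) (nat_lit 253) (nat_lit 202)) (XT.lf (nat_lit 0) (nat_lit 8188934246514) (nat_lit 76) (nat_lit 1230173196275) (nat_lit 76) (nat_lit 1227304080366) (nat_lit 1) (nat_lit 4) (nat_lit 2) (nat_lit 5) (nat_lit 2) (nat_lit 4) (nat_lit 326) (nat_lit 253) (nat_lit 201)))) (XT.nd (nat_lit 156) (nat_lit 0) (nat_lit 0) (XT.nd (nat_lit 78) (nat_lit 0) (nat_lit 0) (XT.lf (nat_lit 0) (nat_lit 9424372121516) (nat_lit 76) (nat_lit 1410671470343) (nat_lit 76) (nat_lit 1407802093123) (nat_lit 1) (nat_lit 4) (nat_lit 2) (nat_lit 5) (nat_lit 2) (nat_lit 4) (nat_lit 327) (nat_lit 253) (nat_lit 200)) (XT.lf (nat_lit 0) (nat_lit 10845124471622) (nat_lit 76) (nat_lit 1618245096779) (nat_lit 76) (nat_lit 1615375492333) (nat_lit 1) (nat_lit 4) (nat_lit 2)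 (nat_lit 5) (nat_lit 2) (nat_lit 4) (nat_lit 328) (nat_lit 253) (nat_lit 199))) (XT.nd (nat_lit 78) (nat_lit 0) (nat_lit 0) (XT.lf (nat_lit 0) (nat_lit 12478988625421) (nat_lit 76) (nat_lit 1856955298710) (nat_lit 76) (nat_lit 1854085496676) (nat_lit 1) (nat_lit 4) (nat_lit 2) (nat_lit 5) (nat_lit 2) (nat_lit 4) (nat_lit 329) (nat_lit 253) (nat_lit 198)) (XT.nd (nat_lit 78) (nat_lit 0) (nat_lit 0) (XT.lf (nat_lit 0) (nat_lit 14357931490269) (nat_lit 76) (nat_lit 2131472493131) (nat_lit 76) (nat_lit 2128602519281) (nat_lit 1) (nat_lit 4) (nat_lit 2) (nat_lit 5) (nat_lit 2) (nat_lit 4) (nat_lit 330) (nat_lit 253) (nat_lit 197)) (XT.lf (nat_lit 0) (nat_lit 16518714991784) (nat_lit 76) (nat_lit 2447167668627) (nat_lit 76) (nat_lit 2444297545372) (nat_lit 1) (nat_lit 4) (nat_lit 2) (nat_lit 5) (nat_lit 2) (nat_lit 4) (nat_lit 331) (nat_lit 253) (nat_lit 196))))))) (XT.nd (nat_lit 702) (nat_lit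 0) (nat_lit 0) (XT.nd (nat_lit 312) (nat_lit 0) (nat_lit 0) (XT.nd (nat_lit 156) (nat_lit 0) (nat_lit 0) (XT.nd (nat_lit 78) (nat_lit 0) (nat_lit 0) (XT.lf (nat_lit 0) (nat_lit 19003615328907) (nat_lit 76) (nat_lit 2810217469937) (nat_lit 76) (nat_lit 2807347216764) (nat_lit 1) (nat_lit 4) (nat_lit 2) (nat_lit 5) (nat_lit 2) (nat_lit 4) (nat_lit 332) (nat_lit 253) (nat_lit 195)) (XT.lf (nat_lit 0) (nat_lit 21861250116931) (nat_lit 76) (nat_lit 3227725045347) (nat_lit 76) (nat_lit 3224854679202) (nat_lit 1) (nat_lit 4) (nat_lit 2) (nat_lit 5) (nat_lit 2) (nat_lit 4) (nat_lit 333) (nat_lit 253) (nat_lit 194))) (XT.nd (nat_lit 78) (nat_lit 0) (nat_lit 0) (XT.lf (nat_lit 0) (nat_lit 25147529601708) (nat_lit 76) (nat_lit 3707859021332) (nat_lit 76) (nat_lit 3704988556951) (nat_lit 1) (nat_lit 4) (nat_lit 2) (nat_lit 5) (nat_lit 2) (nat_lit 4) (nat_lit 334) (nat_lit 253) (nat_lit 193)) (XT.lf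 (nat_lit 0) (nat_lit 28926750555766) (nat_lit 76) (nat_lit 4260013323511) (nat_lit 76) (nat_lit 4257142773707) (nat_lit 1) (nat_lit 4) (nat_lit 2) (nat_lit 5) (nat_lit 2) (nat_lit 4) (nat_lit 335) (nat_lit 253) (nat_lit 192)))) (XT.nd (nat_lit 156) (nat_lit 0) (nat_lit 0) (XT.nd (nat_lit 78) (nat_lit 0) (nat_lit 0) (XT.lf (nat_lit 0) (nat_lit 33272854258641) (nat_lit 76) (nat_lit 4894990970837) (nat_lit 76) (nat_lit 4892120346752) (nat_lit 1) (nat_lit 4) (nat_lit 2) (nat_lit 5) (nat_lit 2) (nat_lit 4) (nat_lit 336) (nat_lit 253) (nat_lit 191)) (XT.lf (nat_lit 0) (nat_lit 38270873174086) (nat_lit 76) (nat_lit 5625215439020) (nat_lit 76) (nat_lit 5622344750344) (nat_lit 1) (nat_lit 4) (nat_lit 2) (nat_lit 5) (nat_lit 2) (nat_lit 4) (nat_lit 337) (nat_lit 253) (nat_lit 190))) (XT.nd (nat_lit 78) (nat_lit 0) (nat_lit 0) (XT.lf (nat_lit 0) (nat_lit 44018594628706) (nat_lit 76) (nat_lit 6464973728525)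 (nat_lit 76) (nat_lit 6462102983681) (nat_lit 1) (nat_lit 4) (nat_lit 2) (nat_lit 5) (nat_lit 2) (nat_lit 4) (nat_lit 338) (nat_lit 253) (nat_lit 189)) (XT.nd (nat_lit 78) (nat_lit 0) (nat_lit 0) (XT.lf (nat_lit 0) (nat_lit 50628474042266) (nat_lit 76) (nat_lit 7430695892841) (nat_lit 76) (nat_lit 7427825099157) (nat_lit 1) (nat_lit 4) (nat_lit 2) (nat_lit 5) (nat_lit 2) (nat_lit 4) (nat_lit 339) (nat_lit 253) (nat_lit 188)) (XT.lf (nat_lit 0) (nat_lit 58229835142423) (nat_lit 76) (nat_lit 8541276496054) (nat_lit 76) (nat_lit 8538405659899) (nat_lit 1) (nat_lit 4) (nat_lit 2) (nat_lit 5) (nat_lit 2) (nat_lit 4) (nat_lit 340) (nat_lit 253) (nat_lit 187)))))) (XT.nd (nat_lit 546) (nat_lit 0) (nat_lit 0) (XT.nd (nat_lit 312) (nat_lit 0) (nat_lit 0) (XT.nd (nat_lit 234) (nat_lit 0) (nat_lit 0) (XT.lf (nat_lit 0) (nat_lit 66971400211570) (nat_lit 76) (nat_lit 9818444289095) (nat_lit 76) (nat_lit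 9815573416009) (nat_lit 1) (nat_lit 4) (nat_lit 2) (nat_lit 5) (nat_lit 2) (nat_lit 4) (nat_lit 341) (nat_lit 253) (nat_lit 186)) (XT.lf (nat_lit 0) (nat_lit 101879746580058) (nat_lit 76) (nat_lit 14918654751444) (nat_lit 76) (nat_lit 14915783794037) (nat_lit 1) (nat_lit 4) (nat_lit 2) (nat_lit 5) (nat_lit 2) (nat_lit 4) (nat_lit 344) (nat_lit 253) (nat_lit 183))) (XT.nd (nat_lit 78) (nat_lit 0) (nat_lit 0) (XT.lf (nat_lit 0) (nat_lit 117168797805183) (nat_lit 76) (nat_lit 17152429566426) (nat_lit 76) (nat_lit 17149558587904) (nat_lit 1) (nat_lit 4) (nat_lit 2) (nat_lit 5) (nat_lit 2) (nat_lit 4) (nat_lit 345) (nat_lit 253) (nat_lit 182)) (XT.nd (nat_lit 78) (nat_lit 0) (nat_lit 0) (XT.lf (nat_lit 0) (nat_lit 134751206616613) (nat_lit 76) (nat_lit 19721270653048) (nat_lit 76) (nat_lit 19718399656165) (nat_lit 1) (nat_lit 4) (nat_lit 2) (nat_lit 5) (nat_lit 2) (nat_lit 4) (nat_lit 346)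 (nat_lit 253) (nat_lit 181)) (XT.lf (nat_lit 0) (nat_lit 154970976665007) (nat_lit 76) (nat_lit 22675437945613) (nat_lit 76) (nat_lit 22672566932765) (nat_lit 1) (nat_lit 4) (nat_lit 2) (nat_lit 5) (nat_lit 2) (nat_lit 4) (nat_lit 347) (nat_lit 253) (nat_lit 180))))) (XT.nd (nat_lit 34788) (nat_lit 0) (nat_lit 532) (XT.nd (nat_lit 34710) (nat_lit 0) (nat_lit 760) (XT.lf (nat_lit 0) (nat_lit 178223712146965) (nat_lit 76) (nat_lit 26072730369412) (nat_lit 76) (nat_lit 26069859342679) (nat_lit 1) (nat_lit 4) (nat_lit 2) (nat_lit 5) (nat_lit 2) (nat_lit 4) (nat_lit 348) (nat_lit 253) (nat_lit 179)) (XT.lf (nat_lit 0) (nat_lit 270516490) (nat_lit 152) (nat_lit 4661891480) (nat_lit 0) (nat_lit 270516490) (nat_lit 11) (nat_lit 5) (nat_lit 13) (nat_lit 4) (nat_lit 11) (nat_lit 4) (nat_lit 272) (nat_lit 254) (nat_lit 254))) (XT.nd (nat_lit 78) (nat_lit 228) (nat_lit 0) (XT.lf (nat_lit 0) (nat_lit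 4907698119) (nat_lit 152) (nat_lit 2038171180) (nat_lit 0) (nat_lit 4252706086) (nat_lit 11) (nat_lit 5) (nat_lit 13) (nat_lit 4) (nat_lit 11) (nat_lit 4) (nat_lit 273) (nat_lit 254) (nat_lit 253)) (XT.nd (nat_lit 78) (nat_lit 152) (nat_lit 0) (XT.lf (nat_lit 0) (nat_lit 6149796136) (nat_lit 76) (nat_lit 3606022577) (nat_lit 76) (nat_lit 2381472256) (nat_lit 10) (nat_lit 4) (nat_lit 11) (nat_lit 5) (nat_lit 11) (nat_lit 4) (nat_lit 274) (nat_lit 254) (nat_lit 252)) (XT.lf (nat_lit 0) (nat_lit 1705590963) (nat_lit 152) (nat_lit 11321864335) (nat_lit 0) (nat_lit 210096703) (nat_lit 8) (nat_lit 5) (nat_lit 10) (nat_lit 4) (nat_lit 8) (nat_lit 4) (nat_lit 275) (nat_lit 254) (nat_lit 251))))))))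
noncomputable def xc35 : XT := (XT.nd (nat_lit 1404) (nat_lit 0) (nat_lit 0) (XT.nd (nat_lit 702) (nat_lit 152) (nat_lit 0) (XT.nd (nat_lit 312) (nat_lit 152) (nat_lit 0) (XT.nd (nat_lit 156) (nat_lit 152) (nat_lit 0) (XT.nd (nat_lit 78) (nat_lit 76) (nat_lit 0) (XT.lf (nat_lit 0) (nat_lit 6252400890) (nat_lit 152) (nat_lit 3838141689) (nat_lit 0) (nat_lit 4382412810) (nat_lit 8) (nat_lit 5) (nat_lit 10) (nat_lit 4) (nat_lit 8) (nat_lit 4) (nat_lit 276) (nat_lit 254) (nat_lit 250)) (XT.lf (nat_lit 0) (nat_lit 4509163696) (nat_lit 76) (nat_lit 6803046627) (nat_lit 76) (nat_lit 4607411746) (nat_lit 7) (nat_lit 4) (nat_lit 8) (nat_lit 5) (nat_lit 8) (nat_lit 4) (nat_lit 277) (nat_lit 254) (nat_lit 249))) (XT.nd (nat_lit 78) (nat_lit 152) (nat_lit 0) (XT.lf (nat_lit 0) (nat_lit 13909525840) (nat_lit 76) (nat_lit 3086655820) (nat_lit 76) (nat_lit 607849808) (nat_lit 7) (nat_lit 4) (nat_lit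 8) (nat_lit 5) (nat_lit 8) (nat_lit 4) (nat_lit 278) (nat_lit 254) (nat_lit 248)) (XT.lf (nat_lit 0) (nat_lit 3587234914) (nat_lit 152) (nat_lit 14719192465) (nat_lit 0) (nat_lit 1217633368) (nat_lit 5) (nat_lit 5) (nat_lit 7) (nat_lit 4) (nat_lit 5) (nat_lit 4) (nat_lit 279) (nat_lit 254) (nat_lit 247)))) (XT.nd (nat_lit 156) (nat_lit 76) (nat_lit 0) (XT.nd (nat_lit 78) (nat_lit 76) (nat_lit 0) (XT.lf (nat_lit 0) (nat_lit 8398810032) (nat_lit 152) (nat_lit 7478847497) (nat_lit 0) (nat_lit 5843018872) (nat_lit 5) (nat_lit 5) (nat_lit 7) (nat_lit 4) (nat_lit 5) (nat_lit 4) (nat_lit 280) (nat_lit 254) (nat_lit 246)) (XT.lf (nat_lit 0) (nat_lit 372010246) (nat_lit 76) (nat_lit 13314783282) (nat_lit 76) (nat_lit 10597088108) (nat_lit 4) (nat_lit 4) (nat_lit 5) (nat_lit 5) (nat_lit 5) (nat_lit 4) (nat_lit 281) (nat_lit 254) (nat_lit 245))) (XT.nd (nat_lit 78) (nat_lit 76) (nat_lit 0) (XT.lf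 (nat_lit 0) (nat_lit 9755480046) (nat_lit 76) (nat_lit 10156605690) (nat_lit 76) (nat_lit 7298124418) (nat_lit 4) (nat_lit 4) (nat_lit 5) (nat_lit 5) (nat_lit 5) (nat_lit 4) (nat_lit 282) (nat_lit 254) (nat_lit 244)) (XT.nd (nat_lit 78) (nat_lit 76) (nat_lit 0) (XT.lf (nat_lit 0) (nat_lit 20124264159) (nat_lit 76) (nat_lit 6732274078) (nat_lit 76) (nat_lit 3751370112) (nat_lit 4) (nat_lit 4) (nat_lit 5) (nat_lit 5) (nat_lit 5) (nat_lit 4) (nat_lit 283) (nat_lit 254) (nat_lit 243)) (XT.lf (nat_lit 0) (nat_lit 102546261) (nat_lit 152) (nat_lit 2866884020) (nat_lit 76) (nat_lit 31573323465) (nat_lit 3) (nat_lit 5) (nat_lit 5) (nat_lit 5) (nat_lit 4) (nat_lit 4) (nat_lit 284) (nat_lit 254) (nat_lit 242)))))) (XT.nd (nat_lit 312) (nat_lit 76) (nat_lit 0) (XT.nd (nat_lit 156) (nat_lit 0) (nat_lit 0) (XT.nd (nat_lit 78) (nat_lit 0) (nat_lit 0) (XT.lf (nat_lit 0) (nat_lit 4294250384) (nat_lit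 152) (nat_lit 33196266957) (nat_lit 0) (nat_lit 1529095925) (nat_lit 2) (nat_lit 5) (nat_lit 4) (nat_lit 4) (nat_lit 2) (nat_lit 4) (nat_lit 285) (nat_lit 254) (nat_lit 241)) (XT.lf (nat_lit 0) (nat_lit 9245241394) (nat_lit 152) (nat_lit 28493218121) (nat_lit 0) (nat_lit 6410091363) (nat_lit 2) (nat_lit 5) (nat_lit 4) (nat_lit 4) (nat_lit 2) (nat_lit 4) (nat_lit 286) (nat_lit 254) (nat_lit 240))) (XT.nd (nat_lit 78) (nat_lit 0) (nat_lit 0) (XT.lf (nat_lit 0) (nat_lit 14792910445) (nat_lit 152) (nat_lit 23379031629) (nat_lit 0) (nat_lit 11896894698) (nat_lit 2) (nat_lit 5) (nat_lit 4) (nat_lit 4) (nat_lit 2) (nat_lit 4) (nat_lit 287) (nat_lit 254) (nat_lit 239)) (XT.lf (nat_lit 0) (nat_lit 21045798888) (nat_lit 152) (nat_lit 17753647309) (nat_lit 0) (nat_lit 18096856432) (nat_lit 2) (nat_lit 5) (nat_lit 4) (nat_lit 4) (nat_lit 2) (nat_lit 4) (nat_lit 288) (nat_lit 254) (nat_lit 238))))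 (XT.nd (nat_lit 156) (nat_lit 76) (nat_lit 0) (XT.nd (nat_lit 78) (nat_lit 0) (nat_lit 0) (XT.lf (nat_lit 0) (nat_lit 28126245844) (nat_lit 152) (nat_lit 11507003295) (nat_lit 0) (nat_lit 25131280162) (nat_lit 2) (nat_lit 5) (nat_lit 4) (nat_lit 4) (nat_lit 2) (nat_lit 4) (nat_lit 289) (nat_lit 254) (nat_lit 237)) (XT.lf (nat_lit 0) (nat_lit 36172781797) (nat_lit 152) (nat_lit 4516882638) (nat_lit 0) (nat_lit 33137795920) (nat_lit 2) (nat_lit 5) (nat_lit 4) (nat_lit 4) (nat_lit 2) (nat_lit 4) (nat_lit 290) (nat_lit 254) (nat_lit 236))) (XT.nd (nat_lit 78) (nat_lit 0) (nat_lit 0) (XT.lf (nat_lit 0) (nat_lit 3681204138) (nat_lit 76) (nat_lit 41814065647) (nat_lit 76) (nat_lit 38744279599) (nat_lit 1) (nat_lit 4) (nat_lit 2) (nat_lit 5) (nat_lit 2) (nat_lit 4) (nat_lit 291) (nat_lit 254) (nat_lit 235)) (XT.nd (nat_lit 78) (nat_lit 0) (nat_lit 0) (XT.lf (nat_lit 0) (nat_lit 13456010732)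 (nat_lit 76) (nat_lit 42917005510) (nat_lit 76) (nat_lit 39816958444) (nat_lit 1) (nat_lit 4) (nat_lit 2) (nat_lit 5) (nat_lit 2) (nat_lit 4) (nat_lit 292) (nat_lit 254) (nat_lit 234)) (XT.lf (nat_lit 0) (nat_lit 24557360735) (nat_lit 76) (nat_lit 44256173057) (nat_lit 76) (nat_lit 41129812063) (nat_lit 1) (nat_lit 4) (nat_lit 2) (nat_lit 5) (nat_lit 2) (nat_lit 4) (nat_lit 293) (nat_lit 254) (nat_lit 233))))))) (XT.nd (nat_lit 702) (nat_lit 0) (nat_lit 0) (XT.nd (nat_lit 312) (nat_lit 0) (nat_lit 0) (XT.nd (nat_lit 156) (nat_lit 0) (nat_lit 0) (XT.nd (nat_lit 78) (nat_lit 0) (nat_lit 0) (XT.lf (nat_lit 0) (nat_lit 37202454475) (nat_lit 76) (nat_lit 45857769392) (nat_lit 76) (nat_lit 42708526721) (nat_lit 1) (nat_lit 4) (nat_lit 2) (nat_lit 5) (nat_lit 2) (nat_lit 4) (nat_lit 294) (nat_lit 254) (nat_lit 232)) (XT.lf (nat_lit 0) (nat_lit 51638695960) (nat_lit 76) (nat_lit 47753130096)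 (nat_lit 76) (nat_lit 44583990315) (nat_lit 1) (nat_lit 4) (nat_lit 2) (nat_lit 5) (nat_lit 2) (nat_lit 4) (nat_lit 295) (nat_lit 254) (nat_lit 231))) (XT.nd (nat_lit 78) (nat_lit 0) (nat_lit 0) (XT.lf (nat_lit 0) (nat_lit 68148533392) (nat_lit 76) (nat_lit 49979338313) (nat_lit 76) (nat_lit 46792896697) (nat_lit 1) (nat_lit 4) (nat_lit 2) (nat_lit 5) (nat_lit 2) (nat_lit 4) (nat_lit 296) (nat_lit 254) (nat_lit 230)) (XT.lf (nat_lit 0) (nat_lit 87054985329) (nat_lit 76) (nat_lit 52579950291) (nat_lit 76) (nat_lit 49378463601) (nat_lit 1) (nat_lit 4) (nat_lit 2) (nat_lit 5) (nat_lit 2) (nat_lit 4) (nat_lit 297) (nat_lit 254) (nat_lit 229)))) (XT.nd (nat_lit 156) (nat_lit 0) (nat_lit 0) (XT.nd (nat_lit 78) (nat_lit 0) (nat_lit 0) (XT.lf (nat_lit 0) (nat_lit 108727960615) (nat_lit 76) (nat_lit 55605847568) (nat_lit 76) (nat_lit 52391278205) (nat_lit 1) (nat_lit 4) (nat_lit 2) (nat_lit 5)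 (nat_lit 2) (nat_lit 4) (nat_lit 298) (nat_lit 254) (nat_lit 228)) (XT.lf (nat_lit 0) (nat_lit 133591495721) (nat_lit 76) (nat_lit 59116232483) (nat_lit 76) (nat_lit 55890286882) (nat_lit 1) (nat_lit 4) (nat_lit 2) (nat_lit 5) (nat_lit 2) (nat_lit 4) (nat_lit 299) (nat_lit 254) (nat_lit 227))) (XT.nd (nat_lit 78) (nat_lit 0) (nat_lit 0) (XT.lf (nat_lit 0) (nat_lit 162132051119) (nat_lit 76) (nat_lit 63179786479) (nat_lit 76) (nat_lit 59943948498) (nat_lit 1) (nat_lit 4) (nat_lit 2) (nat_lit 5) (nat_lit 2) (nat_lit 4) (nat_lit 300) (nat_lit 254) (nat_lit 226)) (XT.nd (nat_lit 78) (nat_lit 0) (nat_lit 0) (XT.lf (nat_lit 0) (nat_lit 194908028977) (nat_lit 76) (nat_lit 67876013873) (nat_lit 76) (nat_lit 64631573823) (nat_lit 1) (nat_lit 4) (nat_lit 2) (nat_lit 5) (nat_lit 2) (nat_lit 4) (nat_lit 301) (nat_lit 254) (nat_lit 225)) (XT.lf (nat_lit 0) (nat_lit 232560698429) (nat_lit 76) (nat_lit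 73296797377) (nat_lit 76) (nat_lit 70044877265) (nat_lit 1) (nat_lit 4) (nat_lit 2) (nat_lit 5) (nat_lit 2) (nat_lit 4) (nat_lit 302) (nat_lit 254) (nat_lit 224)))))) (XT.nd (nat_lit 390) (nat_lit 0) (nat_lit 0) (XT.nd (nat_lit 156) (nat_lit 0) (nat_lit 0) (XT.nd (nat_lit 78) (nat_lit 0) (nat_lit 0) (XT.lf (nat_lit 0) (nat_lit 275826742137) (nat_lit 76) (nat_lit 79548195797) (nat_lit 76) (nat_lit 76289771284) (nat_lit 1) (nat_lit 4) (nat_lit 2) (nat_lit 5) (nat_lit 2) (nat_lit 4) (nat_lit 303) (nat_lit 254) (nat_lit 223)) (XT.lf (nat_lit 0) (nat_lit 325552669653) (nat_lit 76) (nat_lit 86752519102) (nat_lit 76) (nat_lit 83488438589) (nat_lit 1) (nat_lit 4) (nat_lit 2) (nat_lit 5) (nat_lit 2) (nat_lit 4) (nat_lit 304) (nat_lit 254) (nat_lit 222))) (XT.nd (nat_lit 78) (nat_lit 0) (nat_lit 0) (XT.lf (nat_lit 0) (nat_lit 382711379558) (nat_lit 76) (nat_lit 95050721444) (nat_lit 76) (nat_lit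 91781722670) (nat_lit 1) (nat_lit 4) (nat_lit 2) (nat_lit 5) (nat_lit 2) (nat_lit 4) (nat_lit 305) (nat_lit 254) (nat_lit 221)) (XT.nd (nat_lit 78) (nat_lit 0) (nat_lit 0) (XT.lf (nat_lit 0) (nat_lit 448421194437) (nat_lit 76) (nat_lit 104605158956) (nat_lit 76) (nat_lit 101331883433) (nat_lit 1) (nat_lit 4) (nat_lit 2) (nat_lit 5) (nat_lit 2) (nat_lit 4) (nat_lit 306) (nat_lit 254) (nat_lit 220)) (XT.lf (nat_lit 0) (nat_lit 523967741103) (nat_lit 76) (nat_lit 115602766285) (nat_lit 76) (nat_lit 112325771850) (nat_lit 1) (nat_lit 4) (nat_lit 2) (nat_lit 5) (nat_lit 2) (nat_lit 4) (nat_lit 307) (nat_lit 254) (nat_lit 219))))) (XT.nd (nat_lit 156) (nat_lit 0) (nat_lit 0) (XT.nd (nat_lit 78) (nat_lit 0) (nat_lit 0) (XT.lf (nat_lit 0) (nat_lit 610829104165) (nat_lit 76) (nat_lit 128258714009) (nat_lit 76) (nat_lit 124978485737) (nat_lit 1) (nat_lit 4) (nat_lit 2) (nat_lit 5) (nat_lit 2)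 (nat_lit 4) (nat_lit 308) (nat_lit 254) (nat_lit 218)) (XT.lf (nat_lit 0) (nat_lit 710704745074) (nat_lit 76) (nat_lit 142820618496) (nat_lit 76) (nat_lit 139537578192) (nat_lit 1) (nat_lit 4) (nat_lit 2) (nat_lit 5) (nat_lit 2) (nat_lit 4) (nat_lit 309) (nat_lit 254) (nat_lit 217))) (XT.nd (nat_lit 78) (nat_lit 0) (nat_lit 0) (XT.lf (nat_lit 0) (nat_lit 825548752456) (nat_lit 76) (nat_lit 159573386574) (nat_lit 76) (nat_lit 156287901025) (nat_lit 1) (nat_lit 4) (nat_lit 2) (nat_lit 5) (nat_lit 2) (nat_lit 4) (nat_lit 310) (nat_lit 254) (nat_lit 216)) (XT.nd (nat_lit 78) (nat_lit 0) (nat_lit 0) (XT.lf (nat_lit 0) (nat_lit 957608074283) (nat_lit 76) (nat_lit 178844789792) (nat_lit 76) (nat_lit 175557177942) (nat_lit 1) (nat_lit 4) (nat_lit 2) (nat_lit 5) (nat_lit 2) (nat_lit 4) (nat_lit 311) (nat_lit 254) (nat_lit 215)) (XT.lf (nat_lit 0) (nat_lit 1109466479894) (nat_lit 76) (nat_lit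 201011877342) (nat_lit 76) (nat_lit 197722416536) (nat_lit 1) (nat_lit 4) (nat_lit 2) (nat_lit 5) (nat_lit 2) (nat_lit 4) (nat_lit 312) (nat_lit 254) (nat_lit 214))))))))
noncomputable def xc36 : XT := (XT.nd (nat_lit 1404) (nat_lit 0) (nat_lit 0) (XT.nd (nat_lit 702) (nat_lit 0) (nat_lit 0) (XT.nd (nat_lit 312) (nat_lit 0) (nat_lit 0) (XT.nd (nat_lit 156) (nat_lit 0) (nat_lit 0) (XT.nd (nat_lit 78) (nat_lit 0) (nat_lit 0) (XT.lf (nat_lit 0) (nat_lit 1284095112007) (nat_lit 76) (nat_lit 226508353113) (nat_lit 76) (nat_lit 223217284519) (nat_lit 1) (nat_lit 4) (nat_lit 2) (nat_lit 5) (nat_lit 2) (nat_lit 4) (nat_lit 313) (nat_lit 254) (nat_lit 213)) (XT.lf (nat_lit 0) (nat_lit 1484910617772) (nat_lit 76) (nat_lit 255833061195) (nat_lit 76) (nat_lit 252540594524) (nat_lit 1) (nat_lit 4) (nat_lit 2) (nat_lit 5) (nat_lit 2) (nat_lit 4) (nat_lit 314) (nat_lit 254) (nat_lit 212))) (XT.nd (nat_lit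 78) (nat_lit 0) (nat_lit 0) (XT.lf (nat_lit 0) (nat_lit 1715841996217) (nat_lit 76) (nat_lit 289559745876) (nat_lit 76) (nat_lit 286266063486) (nat_lit 1) (nat_lit 4) (nat_lit 2) (nat_lit 5) (nat_lit 2) (nat_lit 4) (nat_lit 315) (nat_lit 254) (nat_lit 211)) (XT.lf (nat_lit 0) (nat_lit 1981407469961) (nat_lit 76) (nat_lit 328348277075) (nat_lit 76) (nat_lit 325053537538) (nat_lit 1) (nat_lit 4) (nat_lit 2) (nat_lit 5) (nat_lit 2) (nat_lit 4) (nat_lit 316) (nat_lit 254) (nat_lit 210)))) (XT.nd (nat_lit 156) (nat_lit 0) (nat_lit 0) (XT.nd (nat_lit 78) (nat_lit 0) (nat_lit 0) (XT.lf (nat_lit 0) (nat_lit 2286802885231) (nat_lit 76) (nat_lit 372957560837) (nat_lit 76) (nat_lit 369661902042) (nat_lit 1) (nat_lit 4) (nat_lit 2) (nat_lit 5) (nat_lit 2) (nat_lit 4) (nat_lit 317) (nat_lit 254) (nat_lit 209)) (XT.lf (nat_lit 0) (nat_lit 2638003369717) (nat_lit 76) (nat_lit 424260387496) (nat_lit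 76) (nat_lit 420963929345) (nat_lit 1) (nat_lit 4) (nat_lit 2) (nat_lit 5) (nat_lit 2) (nat_lit 4) (nat_lit 318) (nat_lit 254) (nat_lit 208))) (XT.nd (nat_lit 78) (nat_lit 0) (nat_lit 0) (XT.lf (nat_lit 0) (nat_lit 3041880237245) (nat_lit 76) (nat_lit 483260508008) (nat_lit 76) (nat_lit 479963354766) (nat_lit 1) (nat_lit 4) (nat_lit 2) (nat_lit 5) (nat_lit 2) (nat_lit 4) (nat_lit 319) (nat_lit 254) (nat_lit 207)) (XT.nd (nat_lit 78) (nat_lit 0) (nat_lit 0) (XT.lf (nat_lit 0) (nat_lit 3506335426529) (nat_lit 76) (nat_lit 551112272557) (nat_lit 76) (nat_lit 547814514888) (nat_lit 1) (nat_lit 4) (nat_lit 2) (nat_lit 5) (nat_lit 2) (nat_lit 4) (nat_lit 320) (nat_lit 254) (nat_lit 206)) (XT.lf (nat_lit 0) (nat_lit 4040456104314) (nat_lit 76) (nat_lit 629143215668) (nat_lit 76) (nat_lit 625844932410) (nat_lit 1) (nat_lit 4) (nat_lit 2) (nat_lit 5) (nat_lit 2) (nat_lit 4) (nat_lit 321) (nat_lit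 254) (nat_lit 205)))))) (XT.nd (nat_lit 312) (nat_lit 0) (nat_lit 0) (XT.nd (nat_lit 156) (nat_lit 0) (nat_lit 0) (XT.nd (nat_lit 78) (nat_lit 0) (nat_lit 0) (XT.lf (nat_lit 0) (nat_lit 4654692457776) (nat_lit 76) (nat_lit 718880029705) (nat_lit 76) (nat_lit 715581289413) (nat_lit 1) (nat_lit 4) (nat_lit 2) (nat_lit 5) (nat_lit 2) (nat_lit 4) (nat_lit 322) (nat_lit 254) (nat_lit 204)) (XT.lf (nat_lit 0) (nat_lit 5361062154698) (nat_lit 76) (nat_lit 822078434943) (nat_lit 76) (nat_lit 818779297230) (nat_lit 1) (nat_lit 4) (nat_lit 2) (nat_lit 5) (nat_lit 2) (nat_lit 4) (nat_lit 323) (nat_lit 254) (nat_lit 203))) (XT.nd (nat_lit 78) (nat_lit 0) (nat_lit 0) (XT.lf (nat_lit 0) (nat_lit 6173385471761) (nat_lit 76) (nat_lit 940757530614) (nat_lit 76) (nat_lit 937458047319) (nat_lit 1) (nat_lit 4) (nat_lit 2) (nat_lit 5) (nat_lit 2) (nat_lit 4) (nat_lit 324) (nat_lit 254) (nat_lit 202)) (XT.lf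 (nat_lit 0) (nat_lit 7107555691254) (nat_lit 76) (nat_lit 1077239299027) (nat_lit 76) (nat_lit 1073939515224) (nat_lit 1) (nat_lit 4) (nat_lit 2) (nat_lit 5) (nat_lit 2) (nat_lit 4) (nat_lit 325) (nat_lit 254) (nat_lit 201)))) (XT.nd (nat_lit 156) (nat_lit 0) (nat_lit 0) (XT.nd (nat_lit 78) (nat_lit 0) (nat_lit 0) (XT.lf (nat_lit 0) (nat_lit 8181850056602) (nat_lit 76) (nat_lit 1234194035649) (nat_lit 76) (nat_lit 1230893990536) (nat_lit 1) (nat_lit 4) (nat_lit 2) (nat_lit 5) (nat_lit 2) (nat_lit 4) (nat_lit 326) (nat_lit 254) (nat_lit 200)) (XT.lf (nat_lit 0) (nat_lit 9417287370606) (nat_lit 76) (nat_lit 1414692594023) (nat_lit 76) (nat_lit 1411392321683) (nat_lit 1) (nat_lit 4) (nat_lit 2) (nat_lit 5) (nat_lit 2) (nat_lit 4) (nat_lit 327) (nat_lit 254) (nat_lit 199))) (XT.nd (nat_lit 78) (nat_lit 0) (nat_lit 0) (XT.lf (nat_lit 0) (nat_lit 10838039232887) (nat_lit 76) (nat_lit 1622266467682)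 (nat_lit 76) (nat_lit 1618965997754) (nat_lit 1) (nat_lit 4) (nat_lit 2) (nat_lit 5) (nat_lit 2) (nat_lit 4) (nat_lit 328) (nat_lit 254) (nat_lit 198)) (XT.nd (nat_lit 78) (nat_lit 0) (nat_lit 0) (XT.lf (nat_lit 0) (nat_lit 12471902962490) (nat_lit 76) (nat_lit 1860976884590) (nat_lit 76) (nat_lit 1857676242846) (nat_lit 1) (nat_lit 4) (nat_lit 2) (nat_lit 5) (nat_lit 2) (nat_lit 4) (nat_lit 329) (nat_lit 254) (nat_lit 197)) (XT.lf (nat_lit 0) (nat_lit 14350845458473) (nat_lit 76) (nat_lit 2135494265947) (nat_lit 76) (nat_lit 2132193474798) (nat_lit 1) (nat_lit 4) (nat_lit 2) (nat_lit 5) (nat_lit 2) (nat_lit 4) (nat_lit 330) (nat_lit 254) (nat_lit 196))))))) (XT.nd (nat_lit 702) (nat_lit 0) (nat_lit 0) (XT.nd (nat_lit 312) (nat_lit 0) (nat_lit 0) (XT.nd (nat_lit 156) (nat_lit 0) (nat_lit 0) (XT.nd (nat_lit 78) (nat_lit 0) (nat_lit 0) (XT.lf (nat_lit 0) (nat_lit 16511628639234) (nat_lit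 76) (nat_lit 2451189603996) (nat_lit 76) (nat_lit 2447888682930) (nat_lit 1) (nat_lit 4) (nat_lit 2) (nat_lit 5) (nat_lit 2) (nat_lit 4) (nat_lit 331) (nat_lit 254) (nat_lit 195)) (XT.lf (nat_lit 0) (nat_lit 18996528697442) (nat_lit 76) (nat_lit 2814239546656) (nat_lit 76) (nat_lit 2810938512618) (nat_lit 1) (nat_lit 4) (nat_lit 2) (nat_lit 5) (nat_lit 2) (nat_lit 4) (nat_lit 332) (nat_lit 254) (nat_lit 194))) (XT.nd (nat_lit 78) (nat_lit 0) (nat_lit 0) (XT.lf (nat_lit 0) (nat_lit 21854163242931) (nat_lit 76) (nat_lit 3231747244980) (nat_lit 76) (nat_lit 3228446112705) (nat_lit 1) (nat_lit 4) (nat_lit 2) (nat_lit 5) (nat_lit 2) (nat_lit 4) (nat_lit 333) (nat_lit 254) (nat_lit 193)) (XT.lf (nat_lit 0) (nat_lit 25140442516808) (nat_lit 76) (nat_lit 3711881327847) (nat_lit 76) (nat_lit 3708580110149) (nat_lit 1) (nat_lit 4) (nat_lit 2) (nat_lit 5) (nat_lit 2) (nat_lit 4) (nat_lit 334) (nat_lit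 254) (nat_lit 192)))) (XT.nd (nat_lit 156) (nat_lit 0) (nat_lit 0) (XT.nd (nat_lit 78) (nat_lit 0) (nat_lit 0) (XT.lf (nat_lit 0) (nat_lit 28919663287475) (nat_lit 76) (nat_lit 4264035722965) (nat_lit 76) (nat_lit 4260734430987) (nat_lit 1) (nat_lit 4) (nat_lit 2) (nat_lit 5) (nat_lit 2) (nat_lit 4) (nat_lit 335) (nat_lit 254) (nat_lit 191)) (XT.lf (nat_lit 0) (nat_lit 33265766830879) (nat_lit 76) (nat_lit 4899013451109) (nat_lit 76) (nat_lit 4895712094539) (nat_lit 1) (nat_lit 4) (nat_lit 2) (nat_lit 5) (nat_lit 2) (nat_lit 4) (nat_lit 336) (nat_lit 254) (nat_lit 190))) (XT.nd (nat_lit 78) (nat_lit 0) (nat_lit 0) (XT.lf (nat_lit 0) (nat_lit 38263785607653) (nat_lit 76) (nat_lit 5629237989569) (nat_lit 76) (nat_lit 5625936576832) (nat_lit 1) (nat_lit 4) (nat_lit 2) (nat_lit 5) (nat_lit 2) (nat_lit 4) (nat_lit 337) (nat_lit 254) (nat_lit 189)) (XT.nd (nat_lit 78) (nat_lit 0) (nat_lit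 0) (XT.lf (nat_lit 0) (nat_lit 44011506941691) (nat_lit 76) (nat_lit 6468996340183) (nat_lit 76) (nat_lit 6465694878605) (nat_lit 1) (nat_lit 4) (nat_lit 2) (nat_lit 5) (nat_lit 2) (nat_lit 4) (nat_lit 338) (nat_lit 254) (nat_lit 188)) (XT.lf (nat_lit 0) (nat_lit 50621386250396) (nat_lit 76) (nat_lit 7434718557638) (nat_lit 76) (nat_lit 7431417053590) (nat_lit 1) (nat_lit 4) (nat_lit 2) (nat_lit 5) (nat_lit 2) (nat_lit 4) (nat_lit 339) (nat_lit 254) (nat_lit 187)))))) (XT.nd (nat_lit 390) (nat_lit 0) (nat_lit 0) (XT.nd (nat_lit 234) (nat_lit 0) (nat_lit 0) (XT.nd (nat_lit 78) (nat_lit 0) (nat_lit 0) (XT.lf (nat_lit 0) (nat_lit 58222747259375) (nat_lit 76) (nat_lit 8545299207059) (nat_lit 76) (nat_lit 8541997666080) (nat_lit 1) (nat_lit 4) (nat_lit 2) (nat_lit 5) (nat_lit 2) (nat_lit 4) (nat_lit 340) (nat_lit 254) (nat_lit 186)) (XT.lf (nat_lit 0) (nat_lit 66964312249238) (nat_lit 76)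 (nat_lit 9822467040280) (nat_lit 76) (nat_lit 9819165467188) (nat_lit 1) (nat_lit 4) (nat_lit 2) (nat_lit 5) (nat_lit 2) (nat_lit 4) (nat_lit 341) (nat_lit 254) (nat_lit 185))) (XT.nd (nat_lit 78) (nat_lit 0) (nat_lit 0) (XT.lf (nat_lit 0) (nat_lit 88577831239086) (nat_lit 76) (nat_lit 12980264734751) (nat_lit 76) (nat_lit 12976963109451) (nat_lit 1) (nat_lit 4) (nat_lit 2) (nat_lit 5) (nat_lit 2) (nat_lit 4) (nat_lit 343) (nat_lit 254) (nat_lit 183)) (XT.lf (nat_lit 0) (nat_lit 101872658436700) (nat_lit 76) (nat_lit 14922677594371) (nat_lit 76) (nat_lit 14919375947955) (nat_lit 1) (nat_lit 4) (nat_lit 2) (nat_lit 5) (nat_lit 2) (nat_lit 4) (nat_lit 344) (nat_lit 254) (nat_lit 182)))) (XT.nd (nat_lit 156) (nat_lit 0) (nat_lit 0) (XT.nd (nat_lit 78) (nat_lit 0) (nat_lit 0) (XT.lf (nat_lit 0) (nat_lit 117161709616492) (nat_lit 76) (nat_lit 17156452432326) (nat_lit 76) (nat_lit 17153150767550)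 (nat_lit 1) (nat_lit 4) (nat_lit 2) (nat_lit 5) (nat_lit 2) (nat_lit 4) (nat_lit 345) (nat_lit 254) (nat_lit 181)) (XT.lf (nat_lit 0) (nat_lit 134744118388504) (nat_lit 76) (nat_lit 19725293538925) (nat_lit 76) (nat_lit 19721991858182) (nat_lit 1) (nat_lit 4) (nat_lit 2) (nat_lit 5) (nat_lit 2) (nat_lit 4) (nat_lit 346) (nat_lit 254) (nat_lit 180))) (XT.nd (nat_lit 78) (nat_lit 0) (nat_lit 0) (XT.lf (nat_lit 0) (nat_lit 154963888402621) (nat_lit 76) (nat_lit 22679460848862) (nat_lit 76) (nat_lit 22676159154236) (nat_lit 1) (nat_lit 4) (nat_lit 2) (nat_lit 5) (nat_lit 2) (nat_lit 4) (nat_lit 347) (nat_lit 254) (nat_lit 179)) (XT.nd (nat_lit 34554) (nat_lit 0) (nat_lit 1064) (XT.lf (nat_lit 0) (nat_lit 178216623854772) (nat_lit 76) (nat_lit 26076753287766) (nat_lit 76) (nat_lit 26073451581067) (nat_lit 1) (nat_lit 4) (nat_lit 2) (nat_lit 5) (nat_lit 2) (nat_lit 4) (nat_lit 348) (nat_lit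 254) (nat_lit 178)) (XT.lf (nat_lit 0) (nat_lit 1369852050) (nat_lit 152) (nat_lit 1797952655) (nat_lit 0) (nat_lit 1369852050) (nat_lit 15) (nat_lit 5) (nat_lit 17) (nat_lit 4) (nat_lit 15) (nat_lit 4) (nat_lit 270) (nat_lit 255) (nat_lit 255))))))))
noncomputable def xc37 : XT := (XT.nd (nat_lit 1404) (nat_lit 76) (nat_lit 0) (XT.nd (nat_lit 702) (nat_lit 228) (nat_lit 0) (XT.nd (nat_lit 312) (nat_lit 380) (nat_lit 0) (XT.nd (nat_lit 156) (nat_lit 76) (nat_lit 0) (XT.nd (nat_lit 78) (nat_lit 152) (nat_lit 0) (XT.lf (nat_lit 0) (nat_lit 3382886653) (nat_lit 152) (nat_lit 3590407141) (nat_lit 152) (nat_lit 2724180178) (nat_lit 13) (nat_lit 4) (nat_lit 15) (nat_lit 5) (nat_lit 15) (nat_lit 4) (nat_lit 271) (nat_lit 255) (nat_lit 254)) (XT.lf (nat_lit 0) (nat_lit 704317302) (nat_lit 76) (nat_lit 376512977) (nat_lit 152) (nat_lit 9357596002) (nat_lit 11) (nat_lit 5) (nat_lit 12) (nat_lit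 5) (nat_lit 13) (nat_lit 4) (nat_lit 272) (nat_lit 255) (nat_lit 253))) (XT.nd (nat_lit 78) (nat_lit 76) (nat_lit 0) (XT.lf (nat_lit 0) (nat_lit 5232744699) (nat_lit 152) (nat_lit 2776154790) (nat_lit 0) (nat_lit 3254953540) (nat_lit 11) (nat_lit 5) (nat_lit 13) (nat_lit 4) (nat_lit 11) (nat_lit 4) (nat_lit 273) (nat_lit 255) (nat_lit 252)) (XT.lf (nat_lit 0) (nat_lit 5012045400) (nat_lit 76) (nat_lit 4848525349) (nat_lit 76) (nat_lit 2375466112) (nat_lit 10) (nat_lit 4) (nat_lit 11) (nat_lit 5) (nat_lit 11) (nat_lit 4) (nat_lit 274) (nat_lit 255) (nat_lit 251)))) (XT.nd (nat_lit 156) (nat_lit 228) (nat_lit 0) (XT.nd (nat_lit 78) (nat_lit 0) (nat_lit 0) (XT.lf (nat_lit 0) (nat_lit 237669336) (nat_lit 76) (nat_lit 1223445299) (nat_lit 152) (nat_lit 11912958774) (nat_lit 8) (nat_lit 5) (nat_lit 9) (nat_lit 5) (nat_lit 10) (nat_lit 4) (nat_lit 275) (nat_lit 255) (nat_lit 250)) (XT.lf (nat_lit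 0) (nat_lit 5791805307) (nat_lit 152) (nat_lit 5909189813) (nat_lit 0) (nat_lit 2941178394) (nat_lit 8) (nat_lit 5) (nat_lit 10) (nat_lit 4) (nat_lit 8) (nat_lit 4) (nat_lit 276) (nat_lit 255) (nat_lit 249))) (XT.nd (nat_lit 78) (nat_lit 152) (nat_lit 0) (XT.lf (nat_lit 0) (nat_lit 1942511251) (nat_lit 76) (nat_lit 8658946499) (nat_lit 76) (nat_lit 5525148455) (nat_lit 7) (nat_lit 4) (nat_lit 8) (nat_lit 5) (nat_lit 8) (nat_lit 4) (nat_lit 277) (nat_lit 255) (nat_lit 248)) (XT.nd (nat_lit 78) (nat_lit 152) (nat_lit 0) (XT.lf (nat_lit 0) (nat_lit 11087911278) (nat_lit 76) (nat_lit 5061849602) (nat_lit 76) (nat_lit 1681815792) (nat_lit 7) (nat_lit 4) (nat_lit 8) (nat_lit 5) (nat_lit 8) (nat_lit 4) (nat_lit 278) (nat_lit 255) (nat_lit 247)) (XT.lf (nat_lit 0) (nat_lit 1313363768) (nat_lit 76) (nat_lit 969201643) (nat_lit 152) (nat_lit 17524817867) (nat_lit 5) (nat_lit 5) (nat_lit 6) (nat_lit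 5) (nat_lit 7) (nat_lit 4) (nat_lit 279) (nat_lit 255) (nat_lit 246)))))) (XT.nd (nat_lit 312) (nat_lit 152) (nat_lit 0) (XT.nd (nat_lit 156) (nat_lit 76) (nat_lit 0) (XT.nd (nat_lit 78) (nat_lit 0) (nat_lit 0) (XT.lf (nat_lit 0) (nat_lit 6932737240) (nat_lit 152) (nat_lit 11450127036) (nat_lit 0) (nat_lit 3645483777) (nat_lit 5) (nat_lit 5) (nat_lit 7) (nat_lit 4) (nat_lit 5) (nat_lit 4) (nat_lit 280) (nat_lit 255) (nat_lit 245)) (XT.lf (nat_lit 0) (nat_lit 12099863789) (nat_lit 152) (nat_lit 3838114362) (nat_lit 0) (nat_lit 8671824227) (nat_lit 5) (nat_lit 5) (nat_lit 7) (nat_lit 4) (nat_lit 5) (nat_lit 4) (nat_lit 281) (nat_lit 255) (nat_lit 244))) (XT.nd (nat_lit 78) (nat_lit 0) (nat_lit 0) (XT.lf (nat_lit 0) (nat_lit 4973892031) (nat_lit 76) (nat_lit 13076974668) (nat_lit 76) (nat_lit 9526512413) (nat_lit 4) (nat_lit 4) (nat_lit 5) (nat_lit 5) (nat_lit 5) (nat_lit 4) (nat_lit 282)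 (nat_lit 255) (nat_lit 243)) (XT.lf (nat_lit 0) (nat_lit 15171915312) (nat_lit 76) (nat_lit 9736595582) (nat_lit 76) (nat_lit 6079678810) (nat_lit 4) (nat_lit 4) (nat_lit 5) (nat_lit 5) (nat_lit 5) (nat_lit 4) (nat_lit 283) (nat_lit 255) (nat_lit 242)))) (XT.nd (nat_lit 156) (nat_lit 76) (nat_lit 0) (XT.nd (nat_lit 78) (nat_lit 76) (nat_lit 0) (XT.lf (nat_lit 0) (nat_lit 26580393573) (nat_lit 76) (nat_lit 6052114354) (nat_lit 76) (nat_lit 2302628437) (nat_lit 4) (nat_lit 4) (nat_lit 5) (nat_lit 5) (nat_lit 5) (nat_lit 4) (nat_lit 284) (nat_lit 255) (nat_lit 241)) (XT.lf (nat_lit 0) (nat_lit 1711297116) (nat_lit 152) (nat_lit 150692024) (nat_lit 76) (nat_lit 37621784887) (nat_lit 3) (nat_lit 5) (nat_lit 5) (nat_lit 5) (nat_lit 4) (nat_lit 4) (nat_lit 285) (nat_lit 255) (nat_lit 240))) (XT.nd (nat_lit 78) (nat_lit 0) (nat_lit 0) (XT.lf (nat_lit 0) (nat_lit 6510118009) (nat_lit 152) (nat_lit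 35006637080) (nat_lit 0) (nat_lit 3118834184) (nat_lit 2) (nat_lit 5) (nat_lit 4) (nat_lit 4) (nat_lit 2) (nat_lit 4) (nat_lit 286) (nat_lit 255) (nat_lit 239)) (XT.nd (nat_lit 78) (nat_lit 0) (nat_lit 0) (XT.lf (nat_lit 0) (nat_lit 11998749401) (nat_lit 152) (nat_lit 30011487865) (nat_lit 0) (nat_lit 8554538868) (nat_lit 2) (nat_lit 5) (nat_lit 4) (nat_lit 4) (nat_lit 2) (nat_lit 4) (nat_lit 287) (nat_lit 255) (nat_lit 238)) (XT.lf (nat_lit 0) (nat_lit 18200300750) (nat_lit 152) (nat_lit 24489614221) (nat_lit 0) (nat_lit 14710066990) (nat_lit 2) (nat_lit 5) (nat_lit 4) (nat_lit 4) (nat_lit 2) (nat_lit 4) (nat_lit 288) (nat_lit 255) (nat_lit 237))))))) (XT.nd (nat_lit 702) (nat_lit 0) (nat_lit 0) (XT.nd (nat_lit 312) (nat_lit 0) (nat_lit 0) (XT.nd (nat_lit 156) (nat_lit 76) (nat_lit 0) (XT.nd (nat_lit 78) (nat_lit 0) (nat_lit 0) (XT.lf (nat_lit 0) (nat_lit 25236106754) (nat_lit 152)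 (nat_lit 18332979491) (nat_lit 0) (nat_lit 21705852799) (nat_lit 2) (nat_lit 5) (nat_lit 4) (nat_lit 4) (nat_lit 2) (nat_lit 4) (nat_lit 289) (nat_lit 255) (nat_lit 236)) (XT.lf (nat_lit 0) (nat_lit 33243824488) (nat_lit 152) (nat_lit 11421127776) (nat_lit 0) (nat_lit 29678770363) (nat_lit 2) (nat_lit 5) (nat_lit 4) (nat_lit 4) (nat_lit 2) (nat_lit 4) (nat_lit 290) (nat_lit 255) (nat_lit 235))) (XT.nd (nat_lit 78) (nat_lit 76) (nat_lit 0) (XT.lf (nat_lit 0) (nat_lit 42380126690) (nat_lit 152) (nat_lit 3618827197) (nat_lit 0) (nat_lit 38784811547) (nat_lit 2) (nat_lit 5) (nat_lit 4) (nat_lit 4) (nat_lit 2) (nat_lit 4) (nat_lit 291) (nat_lit 255) (nat_lit 234)) (XT.lf (nat_lit 0) (nat_lit 5737354967) (nat_lit 76) (nat_lit 47323983766) (nat_lit 76) (nat_lit 43702354695) (nat_lit 1) (nat_lit 4) (nat_lit 2) (nat_lit 5) (nat_lit 2) (nat_lit 4) (nat_lit 292) (nat_lit 255) (nat_lit 233)))) (XT.nd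 (nat_lit 156) (nat_lit 0) (nat_lit 0) (XT.nd (nat_lit 78) (nat_lit 0) (nat_lit 0) (XT.lf (nat_lit 0) (nat_lit 16782212522) (nat_lit 76) (nat_lit 48691780921) (nat_lit 76) (nat_lit 45047270173) (nat_lit 1) (nat_lit 4) (nat_lit 2) (nat_lit 5) (nat_lit 2) (nat_lit 4) (nat_lit 293) (nat_lit 255) (nat_lit 232)) (XT.lf (nat_lit 0) (nat_lit 29378182394) (nat_lit 76) (nat_lit 50318272567) (nat_lit 76) (nat_lit 46653864708) (nat_lit 1) (nat_lit 4) (nat_lit 2) (nat_lit 5) (nat_lit 2) (nat_lit 4) (nat_lit 294) (nat_lit 255) (nat_lit 231))) (XT.nd (nat_lit 78) (nat_lit 0) (nat_lit 0) (XT.lf (nat_lit 0) (nat_lit 43771707472) (nat_lit 76) (nat_lit 52235281368) (nat_lit 76) (nat_lit 48553571674) (nat_lit 1) (nat_lit 4) (nat_lit 2) (nat_lit 5) (nat_lit 2) (nat_lit 4) (nat_lit 295) (nat_lit 255) (nat_lit 230)) (XT.nd (nat_lit 78) (nat_lit 0) (nat_lit 0) (XT.lf (nat_lit 0) (nat_lit 60244400202) (nat_lit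 76) (nat_lit 54480314016) (nat_lit 76) (nat_lit 50783559249) (nat_lit 1) (nat_lit 4) (nat_lit 2) (nat_lit 5) (nat_lit 2) (nat_lit 4) (nat_lit 296) (nat_lit 255) (nat_lit 229)) (XT.lf (nat_lit 0) (nat_lit 79118552398) (nat_lit 76) (nat_lit 57097295065) (nat_lit 76) (nat_lit 53387457624) (nat_lit 1) (nat_lit 4) (nat_lit 2) (nat_lit 5) (nat_lit 2) (nat_lit 4) (nat_lit 297) (nat_lit 255) (nat_lit 228)))))) (XT.nd (nat_lit 390) (nat_lit 0) (nat_lit 0) (XT.nd (nat_lit 156) (nat_lit 0) (nat_lit 0) (XT.nd (nat_lit 78) (nat_lit 0) (nat_lit 0) (XT.lf (nat_lit 0) (nat_lit 100763440953) (nat_lit 76) (nat_lit 60137426317) (nat_lit 76) (nat_lit 56416212639) (nat_lit 1) (nat_lit 4) (nat_lit 2) (nat_lit 5) (nat_lit 2) (nat_lit 4) (nat_lit 298) (nat_lit 255) (nat_lit 227)) (XT.lf (nat_lit 0) (nat_lit 125602552815) (nat_lit 76) (nat_lit 63660188601) (nat_lit 76) (nat_lit 59929082543) (nat_lit 1) (nat_lit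 4) (nat_lit 2) (nat_lit 5) (nat_lit 2) (nat_lit 4) (nat_lit 299) (nat_lit 255) (nat_lit 226))) (XT.nd (nat_lit 78) (nat_lit 0) (nat_lit 0) (XT.lf (nat_lit 0) (nat_lit 154121870609) (nat_lit 76) (nat_lit 67734505527) (nat_lit 76) (nat_lit 63994797399) (nat_lit 1) (nat_lit 4) (nat_lit 2) (nat_lit 5) (nat_lit 2) (nat_lit 4) (nat_lit 300) (nat_lit 255) (nat_lit 225)) (XT.nd (nat_lit 78) (nat_lit 0) (nat_lit 0) (XT.lf (nat_lit 0) (nat_lit 186879380985) (nat_lit 76) (nat_lit 72440091991) (nat_lit 76) (nat_lit 68692903802) (nat_lit 1) (nat_lit 4) (nat_lit 2) (nat_lit 5) (nat_lit 2) (nat_lit 4) (nat_lit 301) (nat_lit 255) (nat_lit 224)) (XT.lf (nat_lit 0) (nat_lit 224515991758) (nat_lit 76) (nat_lit 77869013816) (nat_lit 76) (nat_lit 74115321227) (nat_lit 1) (nat_lit 4) (nat_lit 2) (nat_lit 5) (nat_lit 2) (nat_lit 4) (nat_lit 302) (nat_lit 255) (nat_lit 223))))) (XT.nd (nat_lit 156) (nat_lit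 0) (nat_lit 0) (XT.nd (nat_lit 78) (nat_lit 0) (nat_lit 0) (XT.lf (nat_lit 0) (nat_lit 267768071397) (nat_lit 76) (nat_lit 84127489037) (nat_lit 76) (nat_lit 80368140447) (nat_lit 1) (nat_lit 4) (nat_lit 2) (nat_lit 5) (nat_lit 2) (nat_lit 4) (nat_lit 303) (nat_lit 255) (nat_lit 222)) (XT.lf (nat_lit 0) (nat_lit 317481856243) (nat_lit 76) (nat_lit 91337966083) (nat_lit 76) (nat_lit 87573699231) (nat_lit 1) (nat_lit 4) (nat_lit 2) (nat_lit 5) (nat_lit 2) (nat_lit 4) (nat_lit 304) (nat_lit 255) (nat_lit 221))) (XT.nd (nat_lit 78) (nat_lit 0) (nat_lit 0) (XT.lf (nat_lit 0) (nat_lit 374630007306) (nat_lit 76) (nat_lit 99641519503) (nat_lit 76) (nat_lit 95872975902) (nat_lit 1) (nat_lit 4) (nat_lit 2) (nat_lit 5) (nat_lit 2) (nat_lit 4) (nat_lit 305) (nat_lit 255) (nat_lit 220)) (XT.nd (nat_lit 78) (nat_lit 0) (nat_lit 0) (XT.lf (nat_lit 0) (nat_lit 440330640583) (nat_lit 76) (nat_lit 109200610127)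 (nat_lit 76) (nat_lit 105428347614) (nat_lit 1) (nat_lit 4) (nat_lit 2) (nat_lit 5) (nat_lit 2) (nat_lit 4) (nat_lit 306) (nat_lit 255) (nat_lit 219)) (XT.lf (nat_lit 0) (nat_lit 515869203247) (nat_lit 76) (nat_lit 120202263640) (nat_lit 76) (nat_lit 116426767290) (nat_lit 1) (nat_lit 4) (nat_lit 2) (nat_lit 5) (nat_lit 2) (nat_lit 4) (nat_lit 307) (nat_lit 255) (nat_lit 218))))))))
noncomputable def xc38 : XT := (XT.nd (nat_lit 1404) (nat_lit 0) (nat_lit 0) (XT.nd (nat_lit 702) (nat_lit 0) (nat_lit 0) (XT.nd (nat_lit 312) (nat_lit 0) (nat_lit 0) (XT.nd (nat_lit 156) (nat_lit 0) (nat_lit 0) (XT.nd (nat_lit 78) (nat_lit 0) (nat_lit 0) (XT.lf (nat_lit 0) (nat_lit 602723623698) (nat_lit 76) (nat_lit 132861729785) (nat_lit 76) (nat_lit 129083421403) (nat_lit 1) (nat_lit 4) (nat_lit 2) (nat_lit 5) (nat_lit 2) (nat_lit 4) (nat_lit 308) (nat_lit 255) (nat_lit 217)) (XT.lf (nat_lit 0) (nat_lit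 702593227555) (nat_lit 76) (nat_lit 147426693768) (nat_lit 76) (nat_lit 143645940142) (nat_lit 1) (nat_lit 4) (nat_lit 2) (nat_lit 5) (nat_lit 2) (nat_lit 4) (nat_lit 309) (nat_lit 255) (nat_lit 216))) (XT.nd (nat_lit 78) (nat_lit 0) (nat_lit 0) (XT.lf (nat_lit 0) (nat_lit 817431985327) (nat_lit 76) (nat_lit 164182122278) (nat_lit 76) (nat_lit 160399242351) (nat_lit 1) (nat_lit 4) (nat_lit 2) (nat_lit 5) (nat_lit 2) (nat_lit 4) (nat_lit 310) (nat_lit 255) (nat_lit 215)) (XT.lf (nat_lit 0) (nat_lit 949486742274) (nat_lit 76) (nat_lit 183455838914) (nat_lit 76) (nat_lit 179671110031) (nat_lit 1) (nat_lit 4) (nat_lit 2) (nat_lit 5) (nat_lit 2) (nat_lit 4) (nat_lit 311) (nat_lit 255) (nat_lit 214)))) (XT.nd (nat_lit 156) (nat_lit 0) (nat_lit 0) (XT.nd (nat_lit 78) (nat_lit 0) (nat_lit 0) (XT.lf (nat_lit 0) (nat_lit 1101341178425) (nat_lit 76) (nat_lit 205624938133) (nat_lit 76) (nat_lit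 201838601462) (nat_lit 1) (nat_lit 4) (nat_lit 2) (nat_lit 5) (nat_lit 2) (nat_lit 4) (nat_lit 312) (nat_lit 255) (nat_lit 213)) (XT.lf (nat_lit 0) (nat_lit 1275966358833) (nat_lit 76) (nat_lit 231123163181) (nat_lit 76) (nat_lit 227335428432) (nat_lit 1) (nat_lit 4) (nat_lit 2) (nat_lit 5) (nat_lit 2) (nat_lit 4) (nat_lit 313) (nat_lit 255) (nat_lit 212))) (XT.nd (nat_lit 78) (nat_lit 0) (nat_lit 0) (XT.lf (nat_lit 0) (nat_lit 1476778863117) (nat_lit 76) (nat_lit 260449392373) (nat_lit 76) (nat_lit 256660441906) (nat_lit 1) (nat_lit 4) (nat_lit 2) (nat_lit 5) (nat_lit 2) (nat_lit 4) (nat_lit 314) (nat_lit 255) (nat_lit 211)) (XT.nd (nat_lit 78) (nat_lit 0) (nat_lit 0) (XT.lf (nat_lit 0) (nat_lit 1707707631577) (nat_lit 76) (nat_lit 294177399760) (nat_lit 76) (nat_lit 290387392145) (nat_lit 1) (nat_lit 4) (nat_lit 2) (nat_lit 5) (nat_lit 2) (nat_lit 4) (nat_lit 315) (nat_lit 255) (nat_lit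 210)) (XT.lf (nat_lit 0) (nat_lit 1973270835770) (nat_lit 76) (nat_lit 332967081137) (nat_lit 76) (nat_lit 329176154264) (nat_lit 1) (nat_lit 4) (nat_lit 2) (nat_lit 5) (nat_lit 2) (nat_lit 4) (nat_lit 316) (nat_lit 255) (nat_lit 209)))))) (XT.nd (nat_lit 312) (nat_lit 0) (nat_lit 0) (XT.nd (nat_lit 156) (nat_lit 0) (nat_lit 0) (XT.nd (nat_lit 78) (nat_lit 0) (nat_lit 0) (XT.lf (nat_lit 0) (nat_lit 2278664277517) (nat_lit 76) (nat_lit 377577365053) (nat_lit 76) (nat_lit 373785638825) (nat_lit 1) (nat_lit 4) (nat_lit 2) (nat_lit 5) (nat_lit 2) (nat_lit 4) (nat_lit 317) (nat_lit 255) (nat_lit 208)) (XT.lf (nat_lit 0) (nat_lit 2629863045895) (nat_lit 76) (nat_lit 428881061411) (nat_lit 76) (nat_lit 425088640092) (nat_lit 1) (nat_lit 4) (nat_lit 2) (nat_lit 5) (nat_lit 2) (nat_lit 4) (nat_lit 318) (nat_lit 255) (nat_lit 207))) (XT.nd (nat_lit 78) (nat_lit 0) (nat_lit 0) (XT.lf (nat_lit 0)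 (nat_lit 3033738421157) (nat_lit 76) (nat_lit 487881938184) (nat_lit 76) (nat_lit 484088912438) (nat_lit 1) (nat_lit 4) (nat_lit 2) (nat_lit 5) (nat_lit 2) (nat_lit 4) (nat_lit 319) (nat_lit 255) (nat_lit 206)) (XT.lf (nat_lit 0) (nat_lit 3498192312817) (nat_lit 76) (nat_lit 555734360352) (nat_lit 76) (nat_lit 551940809017) (nat_lit 1) (nat_lit 4) (nat_lit 2) (nat_lit 5) (nat_lit 2) (nat_lit 4) (nat_lit 320) (nat_lit 255) (nat_lit 205)))) (XT.nd (nat_lit 156) (nat_lit 0) (nat_lit 0) (XT.nd (nat_lit 78) (nat_lit 0) (nat_lit 0) (XT.lf (nat_lit 0) (nat_lit 4032311862234) (nat_lit 76) (nat_lit 633765875304) (nat_lit 76) (nat_lit 629971866935) (nat_lit 1) (nat_lit 4) (nat_lit 2) (nat_lit 5) (nat_lit 2) (nat_lit 4) (nat_lit 321) (nat_lit 255) (nat_lit 204)) (XT.lf (nat_lit 0) (nat_lit 4646547234505) (nat_lit 76) (nat_lit 723503186595) (nat_lit 76) (nat_lit 719708780805) (nat_lit 1) (nat_lit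 4) (nat_lit 2) (nat_lit 5) (nat_lit 2) (nat_lit 4) (nat_lit 322) (nat_lit 255) (nat_lit 203))) (XT.nd (nat_lit 78) (nat_lit 0) (nat_lit 0) (XT.lf (nat_lit 0) (nat_lit 5352916078219) (nat_lit 76) (nat_lit 826702024227) (nat_lit 76) (nat_lit 822907272854) (nat_lit 1) (nat_lit 4) (nat_lit 2) (nat_lit 5) (nat_lit 2) (nat_lit 4) (nat_lit 323) (nat_lit 255) (nat_lit 202)) (XT.nd (nat_lit 78) (nat_lit 0) (nat_lit 0) (XT.lf (nat_lit 0) (nat_lit 6165238653361) (nat_lit 76) (nat_lit 945381495894) (nat_lit 76) (nat_lit 941586444014) (nat_lit 1) (nat_lit 4) (nat_lit 2) (nat_lit 5) (nat_lit 2) (nat_lit 4) (nat_lit 324) (nat_lit 255) (nat_lit 201)) (XT.lf (nat_lit 0) (nat_lit 7099408227706) (nat_lit 76) (nat_lit 1081863591259) (nat_lit 76) (nat_lit 1078068278069) (nat_lit 1) (nat_lit 4) (nat_lit 2) (nat_lit 5) (nat_lit 2) (nat_lit 4) (nat_lit 325) (nat_lit 255) (nat_lit 200))))))) (XT.nd (nat_lit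 702) (nat_lit 0) (nat_lit 0) (XT.nd (nat_lit 312) (nat_lit 0) (nat_lit 0) (XT.nd (nat_lit 156) (nat_lit 0) (nat_lit 0) (XT.nd (nat_lit 78) (nat_lit 0) (nat_lit 0) (XT.lf (nat_lit 0) (nat_lit 8173702032056) (nat_lit 76) (nat_lit 1238818612187) (nat_lit 76) (nat_lit 1235023071770) (nat_lit 1) (nat_lit 4) (nat_lit 2) (nat_lit 5) (nat_lit 2) (nat_lit 4) (nat_lit 326) (nat_lit 255) (nat_lit 199)) (XT.lf (nat_lit 0) (nat_lit 9409138858235) (nat_lit 76) (nat_lit 1419317417784) (nat_lit 76) (nat_lit 1415521679779) (nat_lit 1) (nat_lit 4) (nat_lit 2) (nat_lit 5) (nat_lit 2) (nat_lit 4) (nat_lit 327) (nat_lit 255) (nat_lit 198))) (XT.nd (nat_lit 78) (nat_lit 0) (nat_lit 0) (XT.lf (nat_lit 0) (nat_lit 10829890296321) (nat_lit 76) (nat_lit 1626891506420) (nat_lit 76) (nat_lit 1623095596599) (nat_lit 1) (nat_lit 4) (nat_lit 2) (nat_lit 5) (nat_lit 2) (nat_lit 4) (nat_lit 328) (nat_lit 255) (nat_lit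 197)) (XT.lf (nat_lit 0) (nat_lit 12463753657058) (nat_lit 76) (nat_lit 1865602110264) (nat_lit 76) (nat_lit 1861806051038) (nat_lit 1) (nat_lit 4) (nat_lit 2) (nat_lit 5) (nat_lit 2) (nat_lit 4) (nat_lit 329) (nat_lit 255) (nat_lit 196)))) (XT.nd (nat_lit 156) (nat_lit 0) (nat_lit 0) (XT.nd (nat_lit 78) (nat_lit 0) (nat_lit 0) (XT.lf (nat_lit 0) (nat_lit 14342695832288) (nat_lit 76) (nat_lit 2140119654174) (nat_lit 76) (nat_lit 2136323465030) (nat_lit 1) (nat_lit 4) (nat_lit 2) (nat_lit 5) (nat_lit 2) (nat_lit 4) (nat_lit 330) (nat_lit 255) (nat_lit 195)) (XT.lf (nat_lit 0) (nat_lit 16503478734135) (nat_lit 76) (nat_lit 2455815133574) (nat_lit 76) (nat_lit 2452018831458) (nat_lit 1) (nat_lit 4) (nat_lit 2) (nat_lit 5) (nat_lit 2) (nat_lit 4) (nat_lit 331) (nat_lit 255) (nat_lit 194))) (XT.nd (nat_lit 78) (nat_lit 0) (nat_lit 0) (XT.lf (nat_lit 0) (nat_lit 18988378549808) (nat_lit 76)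 (nat_lit 2818865199148) (nat_lit 76) (nat_lit 2815068798796) (nat_lit 1) (nat_lit 4) (nat_lit 2) (nat_lit 5) (nat_lit 2) (nat_lit 4) (nat_lit 332) (nat_lit 255) (nat_lit 193)) (XT.nd (nat_lit 78) (nat_lit 0) (nat_lit 0) (XT.lf (nat_lit 0) (nat_lit 21846012884396) (nat_lit 76) (nat_lit 3236373004353) (nat_lit 76) (nat_lit 3232576518578) (nat_lit 1) (nat_lit 4) (nat_lit 2) (nat_lit 5) (nat_lit 2) (nat_lit 4) (nat_lit 333) (nat_lit 255) (nat_lit 192)) (XT.lf (nat_lit 0) (nat_lit 25132291974881) (nat_lit 76) (nat_lit 3716507180160) (nat_lit 76) (nat_lit 3712710620104) (nat_lit 1) (nat_lit 4) (nat_lit 2) (nat_lit 5) (nat_lit 2) (nat_lit 4) (nat_lit 334) (nat_lit 255) (nat_lit 191)))))) (XT.nd (nat_lit 390) (nat_lit 0) (nat_lit 0) (XT.nd (nat_lit 156) (nat_lit 0) (nat_lit 0) (XT.nd (nat_lit 78) (nat_lit 0) (nat_lit 0) (XT.lf (nat_lit 0) (nat_lit 28911512586077) (nat_lit 76) (nat_lit 4268661656096)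 (nat_lit 76) (nat_lit 4264865031448) (nat_lit 1) (nat_lit 4) (nat_lit 2) (nat_lit 5) (nat_lit 2) (nat_lit 4) (nat_lit 335) (nat_lit 255) (nat_lit 190)) (XT.lf (nat_lit 0) (nat_lit 33257615990812) (nat_lit 76) (nat_lit 4903639454516) (nat_lit 76) (nat_lit 4899842773701) (nat_lit 1) (nat_lit 4) (nat_lit 2) (nat_lit 5) (nat_lit 2) (nat_lit 4) (nat_lit 336) (nat_lit 255) (nat_lit 189))) (XT.nd (nat_lit 78) (nat_lit 0) (nat_lit 0) (XT.lf (nat_lit 0) (nat_lit 38255634647003) (nat_lit 76) (nat_lit 5633864054085) (nat_lit 76) (nat_lit 5630067324430) (nat_lit 1) (nat_lit 4) (nat_lit 2) (nat_lit 5) (nat_lit 2) (nat_lit 4) (nat_lit 337) (nat_lit 255) (nat_lit 188)) (XT.nd (nat_lit 78) (nat_lit 0) (nat_lit 0) (XT.lf (nat_lit 0) (nat_lit 44003355876186) (nat_lit 76) (nat_lit 6473622457839) (nat_lit 76) (nat_lit 6469825685713) (nat_lit 1) (nat_lit 4) (nat_lit 2) (nat_lit 5) (nat_lit 2) (nat_lit 4)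 (nat_lit 338) (nat_lit 255) (nat_lit 187)) (XT.lf (nat_lit 0) (nat_lit 50613235093714) (nat_lit 76) (nat_lit 7439344721501) (nat_lit 76) (nat_lit 7435547912445) (nat_lit 1) (nat_lit 4) (nat_lit 2) (nat_lit 5) (nat_lit 2) (nat_lit 4) (nat_lit 339) (nat_lit 255) (nat_lit 186))))) (XT.nd (nat_lit 312) (nat_lit 0) (nat_lit 0) (XT.nd (nat_lit 78) (nat_lit 0) (nat_lit 0) (XT.lf (nat_lit 0) (nat_lit 58214596023407) (nat_lit 76) (nat_lit 8549925411102) (nat_lit 76) (nat_lit 8546128569932) (nat_lit 1) (nat_lit 4) (nat_lit 2) (nat_lit 5) (nat_lit 2) (nat_lit 4) (nat_lit 340) (nat_lit 255) (nat_lit 185)) (XT.lf (nat_lit 0) (nat_lit 66956160944326) (nat_lit 76) (nat_lit 9827093279264) (nat_lit 76) (nat_lit 9823296410169) (nat_lit 1) (nat_lit 4) (nat_lit 2) (nat_lit 5) (nat_lit 2) (nat_lit 4) (nat_lit 341) (nat_lit 255) (nat_lit 184))) (XT.nd (nat_lit 78) (nat_lit 0) (nat_lit 0) (XT.lf (nat_lit 0)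 (nat_lit 101864506974374) (nat_lit 76) (nat_lit 14927303913129) (nat_lit 76) (nat_lit 14923506980276) (nat_lit 1) (nat_lit 4) (nat_lit 2) (nat_lit 5) (nat_lit 2) (nat_lit 4) (nat_lit 344) (nat_lit 255) (nat_lit 181)) (XT.nd (nat_lit 78) (nat_lit 0) (nat_lit 0) (XT.lf (nat_lit 0) (nat_lit 117153558114748) (nat_lit 76) (nat_lit 17161078771061) (nat_lit 76) (nat_lit 17157281822242) (nat_lit 1) (nat_lit 4) (nat_lit 2) (nat_lit 5) (nat_lit 2) (nat_lit 4) (nat_lit 345) (nat_lit 255) (nat_lit 180)) (XT.lf (nat_lit 0) (nat_lit 134735966852483) (nat_lit 76) (nat_lit 19729919895032) (nat_lit 76) (nat_lit 19726122932328) (nat_lit 1) (nat_lit 4) (nat_lit 2) (nat_lit 5) (nat_lit 2) (nat_lit 4) (nat_lit 346) (nat_lit 255) (nat_lit 179))))))))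
noncomputable def xc39 : XT := (XT.nd (nat_lit 35802) (nat_lit 0) (nat_lit 0) (XT.nd (nat_lit 35100) (nat_lit 0) (nat_lit 228) (XT.nd (nat_lit 34710) (nat_lit 0) (nat_lit 608) (XT.nd (nat_lit 34554) (nat_lit 0) (nat_lit 1064) (XT.nd (nat_lit 34476) (nat_lit 0) (nat_lit 1216) (XT.lf (nat_lit 0) (nat_lit 154955736836794) (nat_lit 76) (nat_lit 22684087220074) (nat_lit 76) (nat_lit 22680290245298) (nat_lit 1) (nat_lit 4) (nat_lit 2) (nat_lit 5) (nat_lit 2) (nat_lit 4) (nat_lit 347) (nat_lit 255) (nat_lit 178)) (XT.lf (nat_lit 0) (nat_lit 339962123) (nat_lit 152) (nat_lit 1849430989) (nat_lit 152) (nat_lit 1849430989) (nat_lit 17) (nat_lit 4) (nat_lit 19) (nat_lit 5) (nat_lit 19) (nat_lit 4) (nat_lit 268) (nat_lit 256) (nat_lit 256))) (XT.nd (nat_lit 78) (nat_lit 152) (nat_lit 0) (XT.lf (nat_lit 0) (nat_lit 7185340316) (nat_lit 152) (nat_lit 1259482227) (nat_lit 152) (nat_lit 113897068) (nat_lit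 17) (nat_lit 4) (nat_lit 19) (nat_lit 5) (nat_lit 19) (nat_lit 4) (nat_lit 269) (nat_lit 256) (nat_lit 255)) (XT.lf (nat_lit 0) (nat_lit 3523196154) (nat_lit 152) (nat_lit 3923951209) (nat_lit 0) (nat_lit 1660808184) (nat_lit 15) (nat_lit 5) (nat_lit 17) (nat_lit 4) (nat_lit 15) (nat_lit 4) (nat_lit 270) (nat_lit 256) (nat_lit 254)))) (XT.nd (nat_lit 156) (nat_lit 228) (nat_lit 0) (XT.nd (nat_lit 78) (nat_lit 76) (nat_lit 0) (XT.lf (nat_lit 0) (nat_lit 2709647000) (nat_lit 152) (nat_lit 4834331907) (nat_lit 152) (nat_lit 2218703099) (nat_lit 13) (nat_lit 4) (nat_lit 15) (nat_lit 5) (nat_lit 15) (nat_lit 4) (nat_lit 271) (nat_lit 256) (nat_lit 253)) (XT.lf (nat_lit 0) (nat_lit 1331353401) (nat_lit 228) (nat_lit 408211026) (nat_lit 76) (nat_lit 8792910888) (nat_lit 12) (nat_lit 5) (nat_lit 15) (nat_lit 5) (nat_lit 13) (nat_lit 4) (nat_lit 272) (nat_lit 256) (nat_lit 252))) (XT.nd (nat_lit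 78) (nat_lit 152) (nat_lit 0) (XT.lf (nat_lit 0) (nat_lit 5234205433) (nat_lit 152) (nat_lit 4266560820) (nat_lit 0) (nat_lit 1894919234) (nat_lit 11) (nat_lit 5) (nat_lit 13) (nat_lit 4) (nat_lit 11) (nat_lit 4) (nat_lit 273) (nat_lit 256) (nat_lit 251)) (XT.nd (nat_lit 78) (nat_lit 76) (nat_lit 0) (XT.lf (nat_lit 0) (nat_lit 3091076488) (nat_lit 76) (nat_lit 6540818106) (nat_lit 76) (nat_lit 2770864013) (nat_lit 10) (nat_lit 4) (nat_lit 11) (nat_lit 5) (nat_lit 11) (nat_lit 4) (nat_lit 274) (nat_lit 256) (nat_lit 250)) (XT.lf (nat_lit 0) (nat_lit 942850324) (nat_lit 152) (nat_lit 2117319715) (nat_lit 76) (nat_lit 10507069953) (nat_lit 9) (nat_lit 5) (nat_lit 11) (nat_lit 5) (nat_lit 10) (nat_lit 4) (nat_lit 275) (nat_lit 256) (nat_lit 249)))))) (XT.nd (nat_lit 312) (nat_lit 152) (nat_lit 0) (XT.nd (nat_lit 156) (nat_lit 152) (nat_lit 0) (XT.nd (nat_lit 78) (nat_lit 0) (nat_lit 0) (XT.lf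 (nat_lit 0) (nat_lit 4952784008) (nat_lit 152) (nat_lit 8865166974) (nat_lit 0) (nat_lit 1065745127) (nat_lit 8) (nat_lit 5) (nat_lit 10) (nat_lit 4) (nat_lit 8) (nat_lit 4) (nat_lit 276) (nat_lit 256) (nat_lit 248)) (XT.lf (nat_lit 0) (nat_lit 9556890432) (nat_lit 152) (nat_lit 1418665320) (nat_lit 0) (nat_lit 5423615785) (nat_lit 8) (nat_lit 5) (nat_lit 10) (nat_lit 4) (nat_lit 8) (nat_lit 4) (nat_lit 277) (nat_lit 256) (nat_lit 247))) (XT.nd (nat_lit 78) (nat_lit 76) (nat_lit 0) (XT.lf (nat_lit 0) (nat_lit 7366386224) (nat_lit 76) (nat_lit 7556350196) (nat_lit 76) (nat_lit 3208957491) (nat_lit 7) (nat_lit 4) (nat_lit 8) (nat_lit 5) (nat_lit 8) (nat_lit 4) (nat_lit 278) (nat_lit 256) (nat_lit 246)) (XT.lf (nat_lit 0) (nat_lit 729381964) (nat_lit 152) (nat_lit 2965411095) (nat_lit 76) (nat_lit 16446631208) (nat_lit 6) (nat_lit 5) (nat_lit 8) (nat_lit 5) (nat_lit 7) (nat_lit 4) (nat_lit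 279) (nat_lit 256) (nat_lit 245)))) (XT.nd (nat_lit 156) (nat_lit 76) (nat_lit 0) (XT.nd (nat_lit 78) (nat_lit 0) (nat_lit 0) (XT.lf (nat_lit 0) (nat_lit 5020030015) (nat_lit 152) (nat_lit 16459409718) (nat_lit 0) (nat_lit 936998422) (nat_lit 5) (nat_lit 5) (nat_lit 7) (nat_lit 4) (nat_lit 5) (nat_lit 4) (nat_lit 280) (nat_lit 256) (nat_lit 244)) (XT.lf (nat_lit 0) (nat_lit 10095458479) (nat_lit 152) (nat_lit 9026289344) (nat_lit 0) (nat_lit 5890004192) (nat_lit 5) (nat_lit 5) (nat_lit 7) (nat_lit 4) (nat_lit 5) (nat_lit 4) (nat_lit 281) (nat_lit 256) (nat_lit 243))) (XT.nd (nat_lit 78) (nat_lit 76) (nat_lit 0) (XT.lf (nat_lit 0) (nat_lit 15760765664) (nat_lit 152) (nat_lit 812651736) (nat_lit 0) (nat_lit 11448856860) (nat_lit 5) (nat_lit 5) (nat_lit 7) (nat_lit 4) (nat_lit 5) (nat_lit 4) (nat_lit 282) (nat_lit 256) (nat_lit 242)) (XT.nd (nat_lit 78) (nat_lit 0) (nat_lit 0) (XT.lf (nat_lit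 0) (nat_lit 9157465626) (nat_lit 76) (nat_lit 13348520033) (nat_lit 76) (nat_lit 8944042083) (nat_lit 4) (nat_lit 4) (nat_lit 5) (nat_lit 5) (nat_lit 5) (nat_lit 4) (nat_lit 283) (nat_lit 256) (nat_lit 241)) (XT.lf (nat_lit 0) (nat_lit 20436824165) (nat_lit 76) (nat_lit 9727518975) (nat_lit 76) (nat_lit 5242546117) (nat_lit 4) (nat_lit 4) (nat_lit 5) (nat_lit 5) (nat_lit 5) (nat_lit 4) (nat_lit 284) (nat_lit 256) (nat_lit 240))))))) (XT.nd (nat_lit 702) (nat_lit 0) (nat_lit 0) (XT.nd (nat_lit 312) (nat_lit 76) (nat_lit 0) (XT.nd (nat_lit 156) (nat_lit 0) (nat_lit 0) (XT.nd (nat_lit 78) (nat_lit 152) (nat_lit 0) (XT.lf (nat_lit 0) (nat_lit 33166688745) (nat_lit 76) (nat_lit 5682048077) (nat_lit 76) (nat_lit 1127079647) (nat_lit 4) (nat_lit 4) (nat_lit 5) (nat_lit 5) (nat_lit 5) (nat_lit 4) (nat_lit 285) (nat_lit 256) (nat_lit 239)) (XT.lf (nat_lit 0) (nat_lit 2421259217) (nat_lit 76)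 (nat_lit 851807463) (nat_lit 152) (nat_lit 41936463096) (nat_lit 2) (nat_lit 5) (nat_lit 3) (nat_lit 5) (nat_lit 4) (nat_lit 4) (nat_lit 286) (nat_lit 256) (nat_lit 238))) (XT.nd (nat_lit 78) (nat_lit 0) (nat_lit 0) (XT.lf (nat_lit 0) (nat_lit 8675089448) (nat_lit 152) (nat_lit 37861360490) (nat_lit 0) (nat_lit 4615297399) (nat_lit 2) (nat_lit 5) (nat_lit 4) (nat_lit 4) (nat_lit 2) (nat_lit 4) (nat_lit 287) (nat_lit 256) (nat_lit 237)) (XT.lf (nat_lit 0) (nat_lit 14831999844) (nat_lit 152) (nat_lit 32429496130) (nat_lit 0) (nat_lit 10732187600) (nat_lit 2) (nat_lit 5) (nat_lit 4) (nat_lit 4) (nat_lit 2) (nat_lit 4) (nat_lit 288) (nat_lit 256) (nat_lit 236)))) (XT.nd (nat_lit 156) (nat_lit 76) (nat_lit 0) (XT.nd (nat_lit 78) (nat_lit 0) (nat_lit 0) (XT.lf (nat_lit 0) (nat_lit 21828987629) (nat_lit 152) (nat_lit 26351130342) (nat_lit 0) (nat_lit 17694375215) (nat_lit 2) (nat_lit 5) (nat_lit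 4) (nat_lit 4) (nat_lit 2) (nat_lit 4) (nat_lit 289) (nat_lit 256) (nat_lit 235)) (XT.lf (nat_lit 0) (nat_lit 29802950390) (nat_lit 152) (nat_lit 19507338577) (nat_lit 0) (nat_lit 25638076958) (nat_lit 2) (nat_lit 5) (nat_lit 4) (nat_lit 4) (nat_lit 2) (nat_lit 4) (nat_lit 290) (nat_lit 256) (nat_lit 234))) (XT.nd (nat_lit 78) (nat_lit 76) (nat_lit 0) (XT.lf (nat_lit 0) (nat_lit 38909900443) (nat_lit 152) (nat_lit 11764220563) (nat_lit 0) (nat_lit 34718713082) (nat_lit 2) (nat_lit 5) (nat_lit 4) (nat_lit 4) (nat_lit 2) (nat_lit 4) (nat_lit 291) (nat_lit 256) (nat_lit 233)) (XT.nd (nat_lit 78) (nat_lit 76) (nat_lit 0) (XT.lf (nat_lit 0) (nat_lit 49328017243) (nat_lit 152) (nat_lit 2970280511) (nat_lit 0) (nat_lit 45113948206) (nat_lit 2) (nat_lit 5) (nat_lit 4) (nat_lit 4) (nat_lit 2) (nat_lit 4) (nat_lit 292) (nat_lit 256) (nat_lit 232)) (XT.lf (nat_lit 0) (nat_lit 7735175761) (nat_lit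 76) (nat_lit 53846254883) (nat_lit 76) (nat_lit 49612288736) (nat_lit 1) (nat_lit 4) (nat_lit 2) (nat_lit 5) (nat_lit 2) (nat_lit 4) (nat_lit 293) (nat_lit 256) (nat_lit 231)))))) (XT.nd (nat_lit 390) (nat_lit 0) (nat_lit 0) (XT.nd (nat_lit 156) (nat_lit 0) (nat_lit 0) (XT.nd (nat_lit 78) (nat_lit 0) (nat_lit 0) (XT.lf (nat_lit 0) (nat_lit 20288429226) (nat_lit 76) (nat_lit 55494394626) (nat_lit 76) (nat_lit 51243126643) (nat_lit 1) (nat_lit 4) (nat_lit 2) (nat_lit 5) (nat_lit 2) (nat_lit 4) (nat_lit 294) (nat_lit 256) (nat_lit 230)) (XT.lf (nat_lit 0) (nat_lit 34644809601) (nat_lit 76) (nat_lit 57430227858) (nat_lit 76) (nat_lit 53163914801) (nat_lit 1) (nat_lit 4) (nat_lit 2) (nat_lit 5) (nat_lit 2) (nat_lit 4) (nat_lit 295) (nat_lit 256) (nat_lit 229))) (XT.nd (nat_lit 78) (nat_lit 0) (nat_lit 0) (XT.lf (nat_lit 0) (nat_lit 51085202591) (nat_lit 76) (nat_lit 59691629578) (nat_lit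 76) (nat_lit 55412233848) (nat_lit 1) (nat_lit 4) (nat_lit 2) (nat_lit 5) (nat_lit 2) (nat_lit 4) (nat_lit 296) (nat_lit 256) (nat_lit 228)) (XT.nd (nat_lit 78) (nat_lit 0) (nat_lit 0) (XT.lf (nat_lit 0) (nat_lit 69931268056) (nat_lit 76) (nat_lit 62322844601) (nat_lit 76) (nat_lit 58032072634) (nat_lit 1) (nat_lit 4) (nat_lit 2) (nat_lit 5) (nat_lit 2) (nat_lit 4) (nat_lit 297) (nat_lit 256) (nat_lit 227)) (XT.lf (nat_lit 0) (nat_lit 91551733367) (nat_lit 76) (nat_lit 65375353223) (nat_lit 76) (nat_lit 61074688875) (nat_lit 1) (nat_lit 4) (nat_lit 2) (nat_lit 5) (nat_lit 2) (nat_lit 4) (nat_lit 298) (nat_lit 256) (nat_lit 226))))) (XT.nd (nat_lit 156) (nat_lit 0) (nat_lit 0) (XT.nd (nat_lit 78) (nat_lit 0) (nat_lit 0) (XT.lf (nat_lit 0) (nat_lit 116369607625) (nat_lit 76) (nat_lit 68908878437) (nat_lit 76) (nat_lit 64599612019) (nat_lit 1) (nat_lit 4) (nat_lit 2) (nat_lit 5) (nat_lit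 2) (nat_lit 4) (nat_lit 299) (nat_lit 256) (nat_lit 225)) (XT.lf (nat_lit 0) (nat_lit 144870457937) (nat_lit 76) (nat_lit 72992554432) (nat_lit 76) (nat_lit 68675807954) (nat_lit 1) (nat_lit 4) (nat_lit 2) (nat_lit 5) (nat_lit 2) (nat_lit 4) (nat_lit 300) (nat_lit 256) (nat_lit 224))) (XT.nd (nat_lit 78) (nat_lit 0) (nat_lit 0) (XT.lf (nat_lit 0) (nat_lit 177611909634) (nat_lit 76) (nat_lit 77706279218) (nat_lit 76) (nat_lit 73383028339) (nat_lit 1) (nat_lit 4) (nat_lit 2) (nat_lit 5) (nat_lit 2) (nat_lit 4) (nat_lit 301) (nat_lit 256) (nat_lit 223)) (XT.nd (nat_lit 78) (nat_lit 0) (nat_lit 0) (XT.lf (nat_lit 0) (nat_lit 215234556337) (nat_lit 76) (nat_lit 83142277844) (nat_lit 76) (nat_lit 78813370965) (nat_lit 1) (nat_lit 4) (nat_lit 2) (nat_lit 5) (nat_lit 2) (nat_lit 4) (nat_lit 302) (nat_lit 256) (nat_lit 222)) (XT.lf (nat_lit 0) (nat_lit 258474493307) (nat_lit 76) (nat_lit 89406906805)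 (nat_lit 76) (nat_lit 85073081664) (nat_lit 1) (nat_lit 4) (nat_lit 2) (nat_lit 5) (nat_lit 2) (nat_lit 4) (nat_lit 303) (nat_lit 256) (nat_lit 221))))))))
noncomputable def xc40 : XT := (XT.nd (nat_lit 1404) (nat_lit 0) (nat_lit 0) (XT.nd (nat_lit 702) (nat_lit 0) (nat_lit 0) (XT.nd (nat_lit 312) (nat_lit 0) (nat_lit 0) (XT.nd (nat_lit 156) (nat_lit 0) (nat_lit 0) (XT.nd (nat_lit 78) (nat_lit 0) (nat_lit 0) (XT.lf (nat_lit 0) (nat_lit 308177719311) (nat_lit 76) (nat_lit 96622734929) (nat_lit 76) (nat_lit 92284633039) (nat_lit 1) (nat_lit 4) (nat_lit 2) (nat_lit 5) (nat_lit 2) (nat_lit 4) (nat_lit 304) (nat_lit 256) (nat_lit 220)) (XT.lf (nat_lit 0) (nat_lit 365316688771) (nat_lit 76) (nat_lit 104930941461) (nat_lit 76) (nat_lit 100589120659) (nat_lit 1) (nat_lit 4) (nat_lit 2) (nat_lit 5) (nat_lit 2) (nat_lit 4) (nat_lit 305) (nat_lit 256) (nat_lit 219))) (XT.nd (nat_lit 78) (nat_lit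 0) (nat_lit 0) (XT.lf (nat_lit 0) (nat_lit 431009338046) (nat_lit 76) (nat_lit 114494078269) (nat_lit 76) (nat_lit 110149023630) (nat_lit 1) (nat_lit 4) (nat_lit 2) (nat_lit 5) (nat_lit 2) (nat_lit 4) (nat_lit 306) (nat_lit 256) (nat_lit 218)) (XT.lf (nat_lit 0) (nat_lit 506540958100) (nat_lit 76) (nat_lit 125499250203) (nat_lit 76) (nat_lit 121151383532) (nat_lit 1) (nat_lit 4) (nat_lit 2) (nat_lit 5) (nat_lit 2) (nat_lit 4) (nat_lit 307) (nat_lit 256) (nat_lit 217)))) (XT.nd (nat_lit 156) (nat_lit 0) (nat_lit 0) (XT.nd (nat_lit 78) (nat_lit 0) (nat_lit 0) (XT.lf (nat_lit 0) (nat_lit 593389341499) (nat_lit 76) (nat_lit 138161775844) (nat_lit 76) (nat_lit 133811463928) (nat_lit 1) (nat_lit 4) (nat_lit 2) (nat_lit 5) (nat_lit 2) (nat_lit 4) (nat_lit 308) (nat_lit 256) (nat_lit 216)) (XT.lf (nat_lit 0) (nat_lit 693253695745) (nat_lit 76) (nat_lit 152729400259) (nat_lit 76) (nat_lit 148376962043)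 (nat_lit 1) (nat_lit 4) (nat_lit 2) (nat_lit 5) (nat_lit 2) (nat_lit 4) (nat_lit 309) (nat_lit 256) (nat_lit 215))) (XT.nd (nat_lit 78) (nat_lit 0) (nat_lit 0) (XT.lf (nat_lit 0) (nat_lit 808087888637) (nat_lit 76) (nat_lit 169487142187) (nat_lit 76) (nat_lit 165132855015) (nat_lit 1) (nat_lit 4) (nat_lit 2) (nat_lit 5) (nat_lit 2) (nat_lit 4) (nat_lit 310) (nat_lit 256) (nat_lit 214)) (XT.nd (nat_lit 78) (nat_lit 0) (nat_lit 0) (XT.lf (nat_lit 0) (nat_lit 940138676125) (nat_lit 76) (nat_lit 188762870492) (nat_lit 76) (nat_lit 184406975531) (nat_lit 1) (nat_lit 4) (nat_lit 2) (nat_lit 5) (nat_lit 2) (nat_lit 4) (nat_lit 311) (nat_lit 256) (nat_lit 213)) (XT.lf (nat_lit 0) (nat_lit 1091989660571) (nat_lit 76) (nat_lit 210933718989) (nat_lit 76) (nat_lit 206576425951) (nat_lit 1) (nat_lit 4) (nat_lit 2) (nat_lit 5) (nat_lit 2) (nat_lit 4) (nat_lit 312) (nat_lit 256) (nat_lit 212))))))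 (XT.nd (nat_lit 312) (nat_lit 0) (nat_lit 0) (XT.nd (nat_lit 156) (nat_lit 0) (nat_lit 0) (XT.nd (nat_lit 78) (nat_lit 0) (nat_lit 0) (XT.lf (nat_lit 0) (nat_lit 1266611839498) (nat_lit 76) (nat_lit 236433465147) (nat_lit 76) (nat_lit 232074956390) (nat_lit 1) (nat_lit 4) (nat_lit 2) (nat_lit 5) (nat_lit 2) (nat_lit 4) (nat_lit 313) (nat_lit 256) (nat_lit 211)) (XT.lf (nat_lit 0) (nat_lit 1467421733797) (nat_lit 76) (nat_lit 265761017044) (nat_lit 76) (nat_lit 261401451140) (nat_lit 1) (nat_lit 4) (nat_lit 2) (nat_lit 5) (nat_lit 2) (nat_lit 4) (nat_lit 314) (nat_lit 256) (nat_lit 210))) (XT.nd (nat_lit 78) (nat_lit 0) (nat_lit 0) (XT.lf (nat_lit 0) (nat_lit 1698348232705) (nat_lit 76) (nat_lit 299490174608) (nat_lit 76) (nat_lit 295129689446) (nat_lit 1) (nat_lit 4) (nat_lit 2) (nat_lit 5) (nat_lit 2) (nat_lit 4) (nat_lit 315) (nat_lit 256) (nat_lit 209)) (XT.lf (nat_lit 0) (nat_lit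 1963909463375) (nat_lit 76) (nat_lit 338280856140) (nat_lit 76) (nat_lit 333919571623) (nat_lit 1) (nat_lit 4) (nat_lit 2) (nat_lit 5) (nat_lit 2) (nat_lit 4) (nat_lit 316) (nat_lit 256) (nat_lit 208)))) (XT.nd (nat_lit 156) (nat_lit 0) (nat_lit 0) (XT.nd (nat_lit 78) (nat_lit 0) (nat_lit 0) (XT.lf (nat_lit 0) (nat_lit 2269301189015) (nat_lit 76) (nat_lit 382892009756) (nat_lit 76) (nat_lit 378530030148) (nat_lit 1) (nat_lit 4) (nat_lit 2) (nat_lit 5) (nat_lit 2) (nat_lit 4) (nat_lit 317) (nat_lit 256) (nat_lit 207)) (XT.lf (nat_lit 0) (nat_lit 2620498465126) (nat_lit 76) (nat_lit 434196462375) (nat_lit 76) (nat_lit 429833878340) (nat_lit 1) (nat_lit 4) (nat_lit 2) (nat_lit 5) (nat_lit 2) (nat_lit 4) (nat_lit 318) (nat_lit 256) (nat_lit 206))) (XT.nd (nat_lit 78) (nat_lit 0) (nat_lit 0) (XT.lf (nat_lit 0) (nat_lit 3024372542764) (nat_lit 76) (nat_lit 493197996766) (nat_lit 76) (nat_lit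 488834887142) (nat_lit 1) (nat_lit 4) (nat_lit 2) (nat_lit 5) (nat_lit 2) (nat_lit 4) (nat_lit 319) (nat_lit 256) (nat_lit 205)) (XT.nd (nat_lit 78) (nat_lit 0) (nat_lit 0) (XT.lf (nat_lit 0) (nat_lit 3488825306056) (nat_lit 76) (nat_lit 561050990775) (nat_lit 76) (nat_lit 556687424117) (nat_lit 1) (nat_lit 4) (nat_lit 2) (nat_lit 5) (nat_lit 2) (nat_lit 4) (nat_lit 320) (nat_lit 256) (nat_lit 204)) (XT.lf (nat_lit 0) (nat_lit 4022943874283) (nat_lit 76) (nat_lit 639083002981) (nat_lit 76) (nat_lit 634719038903) (nat_lit 1) (nat_lit 4) (nat_lit 2) (nat_lit 5) (nat_lit 2) (nat_lit 4) (nat_lit 321) (nat_lit 256) (nat_lit 203))))))) (XT.nd (nat_lit 702) (nat_lit 0) (nat_lit 0) (XT.nd (nat_lit 312) (nat_lit 0) (nat_lit 0) (XT.nd (nat_lit 156) (nat_lit 0) (nat_lit 0) (XT.nd (nat_lit 78) (nat_lit 0) (nat_lit 0) (XT.lf (nat_lit 0) (nat_lit 4637178393346) (nat_lit 76) (nat_lit 728820746666)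 (nat_lit 76) (nat_lit 724456437005) (nat_lit 1) (nat_lit 4) (nat_lit 2) (nat_lit 5) (nat_lit 2) (nat_lit 4) (nat_lit 322) (nat_lit 256) (nat_lit 202)) (XT.lf (nat_lit 0) (nat_lit 5343546495140) (nat_lit 76) (nat_lit 832019960294) (nat_lit 76) (nat_lit 827655350125) (nat_lit 1) (nat_lit 4) (nat_lit 2) (nat_lit 5) (nat_lit 2) (nat_lit 4) (nat_lit 323) (nat_lit 256) (nat_lit 201))) (XT.nd (nat_lit 78) (nat_lit 0) (nat_lit 0) (XT.lf (nat_lit 0) (nat_lit 6155868425134) (nat_lit 76) (nat_lit 950699758914) (nat_lit 76) (nat_lit 946334887434) (nat_lit 1) (nat_lit 4) (nat_lit 2) (nat_lit 5) (nat_lit 2) (nat_lit 4) (nat_lit 324) (nat_lit 256) (nat_lit 200)) (XT.lf (nat_lit 0) (nat_lit 7090037438480) (nat_lit 76) (nat_lit 1087182138585) (nat_lit 76) (nat_lit 1082817039879) (nat_lit 1) (nat_lit 4) (nat_lit 2) (nat_lit 5) (nat_lit 2) (nat_lit 4) (nat_lit 325) (nat_lit 256) (nat_lit 199)))) (XT.nd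 (nat_lit 156) (nat_lit 0) (nat_lit 0) (XT.nd (nat_lit 78) (nat_lit 0) (nat_lit 0) (XT.lf (nat_lit 0) (nat_lit 8164330755005) (nat_lit 76) (nat_lit 1244137406736) (nat_lit 76) (nat_lit 1239772110442) (nat_lit 1) (nat_lit 4) (nat_lit 2) (nat_lit 5) (nat_lit 2) (nat_lit 4) (nat_lit 326) (nat_lit 256) (nat_lit 198)) (XT.lf (nat_lit 0) (nat_lit 9399767156989) (nat_lit 76) (nat_lit 1424636427310) (nat_lit 76) (nat_lit 1420270959199) (nat_lit 1) (nat_lit 4) (nat_lit 2) (nat_lit 5) (nat_lit 2) (nat_lit 4) (nat_lit 327) (nat_lit 256) (nat_lit 197))) (XT.nd (nat_lit 78) (nat_lit 0) (nat_lit 0) (XT.lf (nat_lit 0) (nat_lit 10820518226209) (nat_lit 76) (nat_lit 1632210702882) (nat_lit 76) (nat_lit 1627845085366) (nat_lit 1) (nat_lit 4) (nat_lit 2) (nat_lit 5) (nat_lit 2) (nat_lit 4) (nat_lit 328) (nat_lit 256) (nat_lit 196)) (XT.nd (nat_lit 78) (nat_lit 0) (nat_lit 0) (XT.lf (nat_lit 0) (nat_lit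 12454381266194) (nat_lit 76) (nat_lit 1870921469279) (nat_lit 76) (nat_lit 1866555721846) (nat_lit 1) (nat_lit 4) (nat_lit 2) (nat_lit 5) (nat_lit 2) (nat_lit 4) (nat_lit 329) (nat_lit 256) (nat_lit 195)) (XT.lf (nat_lit 0) (nat_lit 14333323162508) (nat_lit 76) (nat_lit 2145439154539) (nat_lit 76) (nat_lit 2141073294134) (nat_lit 1) (nat_lit 4) (nat_lit 2) (nat_lit 5) (nat_lit 2) (nat_lit 4) (nat_lit 330) (nat_lit 256) (nat_lit 194)))))) (XT.nd (nat_lit 312) (nat_lit 0) (nat_lit 0) (XT.nd (nat_lit 156) (nat_lit 0) (nat_lit 0) (XT.nd (nat_lit 78) (nat_lit 0) (nat_lit 0) (XT.lf (nat_lit 0) (nat_lit 16494105821820) (nat_lit 76) (nat_lit 2461134756852) (nat_lit 76) (nat_lit 2456768798211) (nat_lit 1) (nat_lit 4) (nat_lit 2) (nat_lit 5) (nat_lit 2) (nat_lit 4) (nat_lit 331) (nat_lit 256) (nat_lit 193)) (XT.lf (nat_lit 0) (nat_lit 18979005426592) (nat_lit 76) (nat_lit 2824184929308) (nat_lit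 76) (nat_lit 2819818885243) (nat_lit 1) (nat_lit 4) (nat_lit 2) (nat_lit 5) (nat_lit 2) (nat_lit 4) (nat_lit 332) (nat_lit 256) (nat_lit 192))) (XT.nd (nat_lit 78) (nat_lit 0) (nat_lit 0) (XT.lf (nat_lit 0) (nat_lit 21836639577789) (nat_lit 76) (nat_lit 3241692827453) (nat_lit 76) (nat_lit 3237326709108) (nat_lit 1) (nat_lit 4) (nat_lit 2) (nat_lit 5) (nat_lit 2) (nat_lit 4) (nat_lit 333) (nat_lit 256) (nat_lit 191)) (XT.lf (nat_lit 0) (nat_lit 25122918508804) (nat_lit 76) (nat_lit 3721827084077) (nat_lit 76) (nat_lit 3717460901141) (nat_lit 1) (nat_lit 4) (nat_lit 2) (nat_lit 5) (nat_lit 2) (nat_lit 4) (nat_lit 334) (nat_lit 256) (nat_lit 190)))) (XT.nd (nat_lit 156) (nat_lit 0) (nat_lit 0) (XT.nd (nat_lit 78) (nat_lit 0) (nat_lit 0) (XT.lf (nat_lit 0) (nat_lit 28902138981330) (nat_lit 76) (nat_lit 4273981630290) (nat_lit 76) (nat_lit 4269615391186) (nat_lit 1) (nat_lit 4) (nat_lit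 2) (nat_lit 5) (nat_lit 2) (nat_lit 4) (nat_lit 335) (nat_lit 256) (nat_lit 189)) (XT.lf (nat_lit 0) (nat_lit 33248242265481) (nat_lit 76) (nat_lit 4908959489820) (nat_lit 76) (nat_lit 4904593201875) (nat_lit 1) (nat_lit 4) (nat_lit 2) (nat_lit 5) (nat_lit 2) (nat_lit 4) (nat_lit 336) (nat_lit 256) (nat_lit 188))) (XT.nd (nat_lit 78) (nat_lit 0) (nat_lit 0) (XT.lf (nat_lit 0) (nat_lit 38246260816818) (nat_lit 76) (nat_lit 5639184142528) (nat_lit 76) (nat_lit 5634817812113) (nat_lit 1) (nat_lit 4) (nat_lit 2) (nat_lit 5) (nat_lit 2) (nat_lit 4) (nat_lit 337) (nat_lit 256) (nat_lit 187)) (XT.nd (nat_lit 78) (nat_lit 0) (nat_lit 0) (XT.lf (nat_lit 0) (nat_lit 43993981954823) (nat_lit 76) (nat_lit 6478942592489) (nat_lit 76) (nat_lit 6474576225143) (nat_lit 1) (nat_lit 4) (nat_lit 2) (nat_lit 5) (nat_lit 2) (nat_lit 4) (nat_lit 338) (nat_lit 256) (nat_lit 186)) (XT.lf (nat_lit 0) (nat_lit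 50603861093065) (nat_lit 76) (nat_lit 7444664896332) (nat_lit 76) (nat_lit 7440298496873) (nat_lit 1) (nat_lit 4) (nat_lit 2) (nat_lit 5) (nat_lit 2) (nat_lit 4) (nat_lit 339) (nat_lit 256) (nat_lit 185))))))))
noncomputable def xc41 : XT := (XT.nd (nat_lit 36114) (nat_lit 0) (nat_lit 0) (XT.nd (nat_lit 35412) (nat_lit 0) (nat_lit 304) (XT.nd (nat_lit 35022) (nat_lit 0) (nat_lit 836) (XT.nd (nat_lit 34866) (nat_lit 0) (nat_lit 1368) (XT.nd (nat_lit 78) (nat_lit 0) (nat_lit 0) (XT.lf (nat_lit 0) (nat_lit 58205221953815) (nat_lit 76) (nat_lit 8555245620873) (nat_lit 76) (nat_lit 8550879193489) (nat_lit 1) (nat_lit 4) (nat_lit 2) (nat_lit 5) (nat_lit 2) (nat_lit 4) (nat_lit 340) (nat_lit 256) (nat_lit 184)) (XT.lf (nat_lit 0) (nat_lit 66946786814783) (nat_lit 76) (nat_lit 9832413519417) (nat_lit 76) (nat_lit 9828047067750) (nat_lit 1) (nat_lit 4) (nat_lit 2) (nat_lit 5) (nat_lit 2) (nat_lit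 4) (nat_lit 341) (nat_lit 256) (nat_lit 183))) (XT.nd (nat_lit 78) (nat_lit 380) (nat_lit 0) (XT.lf (nat_lit 0) (nat_lit 2318105206) (nat_lit 228) (nat_lit 675736732) (nat_lit 228) (nat_lit 675736732) (nat_lit 24) (nat_lit 4) (nat_lit 27) (nat_lit 5) (nat_lit 27) (nat_lit 4) (nat_lit 266) (nat_lit 257) (nat_lit 257)) (XT.lf (nat_lit 0) (nat_lit 1987472279) (nat_lit 380) (nat_lit 5029595428) (nat_lit 0) (nat_lit 670049347) (nat_lit 19) (nat_lit 5) (nat_lit 24) (nat_lit 4) (nat_lit 19) (nat_lit 4) (nat_lit 267) (nat_lit 257) (nat_lit 256)))) (XT.nd (nat_lit 156) (nat_lit 304) (nat_lit 0) (XT.nd (nat_lit 78) (nat_lit 76) (nat_lit 0) (XT.lf (nat_lit 0) (nat_lit 388859364) (nat_lit 152) (nat_lit 5092502462) (nat_lit 152) (nat_lit 2629494371) (nat_lit 17) (nat_lit 4) (nat_lit 19) (nat_lit 5) (nat_lit 19) (nat_lit 4) (nat_lit 268) (nat_lit 257) (nat_lit 255)) (XT.lf (nat_lit 0) (nat_lit 673910793)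 (nat_lit 228) (nat_lit 2010260893) (nat_lit 76) (nat_lit 5932037586) (nat_lit 16) (nat_lit 5) (nat_lit 19) (nat_lit 5) (nat_lit 17) (nat_lit 4) (nat_lit 269) (nat_lit 257) (nat_lit 254))) (XT.nd (nat_lit 78) (nat_lit 228) (nat_lit 0) (XT.lf (nat_lit 0) (nat_lit 4026613539) (nat_lit 152) (nat_lit 4914507198) (nat_lit 0) (nat_lit 265399573) (nat_lit 15) (nat_lit 5) (nat_lit 17) (nat_lit 4) (nat_lit 15) (nat_lit 4) (nat_lit 270) (nat_lit 257) (nat_lit 253)) (XT.nd (nat_lit 78) (nat_lit 76) (nat_lit 0) (XT.lf (nat_lit 0) (nat_lit 1349995612) (nat_lit 152) (nat_lit 6480292133) (nat_lit 152) (nat_lit 2064086134) (nat_lit 13) (nat_lit 4) (nat_lit 15) (nat_lit 5) (nat_lit 15) (nat_lit 4) (nat_lit 271) (nat_lit 257) (nat_lit 252)) (XT.lf (nat_lit 0) (nat_lit 1314997803) (nat_lit 228) (nat_lit 2158519010) (nat_lit 76) (nat_lit 7213695213) (nat_lit 12) (nat_lit 5) (nat_lit 15) (nat_lit 5) (nat_lit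 13) (nat_lit 4) (nat_lit 272) (nat_lit 257) (nat_lit 251)))))) (XT.nd (nat_lit 312) (nat_lit 228) (nat_lit 0) (XT.nd (nat_lit 156) (nat_lit 152) (nat_lit 0) (XT.nd (nat_lit 78) (nat_lit 76) (nat_lit 0) (XT.lf (nat_lit 0) (nat_lit 4912108902) (nat_lit 152) (nat_lit 6538549388) (nat_lit 0) (nat_lit 145993802) (nat_lit 11) (nat_lit 5) (nat_lit 13) (nat_lit 4) (nat_lit 11) (nat_lit 4) (nat_lit 273) (nat_lit 257) (nat_lit 250)) (XT.lf (nat_lit 0) (nat_lit 349305226) (nat_lit 76) (nat_lit 8716010924) (nat_lit 76) (nat_lit 3575402003) (nat_lit 10) (nat_lit 4) (nat_lit 11) (nat_lit 5) (nat_lit 11) (nat_lit 4) (nat_lit 274) (nat_lit 257) (nat_lit 249))) (XT.nd (nat_lit 78) (nat_lit 76) (nat_lit 0) (XT.lf (nat_lit 0) (nat_lit 81045621) (nat_lit 152) (nat_lit 5292007634) (nat_lit 76) (nat_lit 8456719713) (nat_lit 9) (nat_lit 5) (nat_lit 11) (nat_lit 5) (nat_lit 10) (nat_lit 4) (nat_lit 275) (nat_lit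 257) (nat_lit 248)) (XT.lf (nat_lit 0) (nat_lit 2371401684) (nat_lit 76) (nat_lit 1405727867) (nat_lit 152) (nat_lit 11416387833) (nat_lit 8) (nat_lit 5) (nat_lit 9) (nat_lit 5) (nat_lit 10) (nat_lit 4) (nat_lit 276) (nat_lit 257) (nat_lit 247)))) (XT.nd (nat_lit 156) (nat_lit 152) (nat_lit 0) (XT.nd (nat_lit 78) (nat_lit 76) (nat_lit 0) (XT.lf (nat_lit 0) (nat_lit 8214235808) (nat_lit 152) (nat_lit 5519374224) (nat_lit 0) (nat_lit 3000616140) (nat_lit 8) (nat_lit 5) (nat_lit 10) (nat_lit 4) (nat_lit 8) (nat_lit 4) (nat_lit 277) (nat_lit 257) (nat_lit 246)) (XT.lf (nat_lit 0) (nat_lit 2672138231) (nat_lit 76) (nat_lit 10618963049) (nat_lit 76) (nat_lit 5219153766) (nat_lit 7) (nat_lit 4) (nat_lit 8) (nat_lit 5) (nat_lit 8) (nat_lit 4) (nat_lit 278) (nat_lit 257) (nat_lit 245))) (XT.nd (nat_lit 78) (nat_lit 152) (nat_lit 0) (XT.lf (nat_lit 0) (nat_lit 12352250233) (nat_lit 76) (nat_lit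 6873970380) (nat_lit 76) (nat_lit 1312257084) (nat_lit 7) (nat_lit 4) (nat_lit 8) (nat_lit 5) (nat_lit 8) (nat_lit 4) (nat_lit 279) (nat_lit 257) (nat_lit 244)) (XT.nd (nat_lit 78) (nat_lit 0) (nat_lit 0) (XT.lf (nat_lit 0) (nat_lit 165757267) (nat_lit 76) (nat_lit 2563664435) (nat_lit 152) (nat_lit 20147194690) (nat_lit 5) (nat_lit 5) (nat_lit 6) (nat_lit 5) (nat_lit 7) (nat_lit 4) (nat_lit 280) (nat_lit 257) (nat_lit 243)) (XT.lf (nat_lit 0) (nat_lit 7618956825) (nat_lit 152) (nat_lit 15327141396) (nat_lit 0) (nat_lit 2553807183) (nat_lit 5) (nat_lit 5) (nat_lit 7) (nat_lit 4) (nat_lit 5) (nat_lit 4) (nat_lit 281) (nat_lit 257) (nat_lit 242))))))) (XT.nd (nat_lit 702) (nat_lit 76) (nat_lit 0) (XT.nd (nat_lit 312) (nat_lit 152) (nat_lit 0) (XT.nd (nat_lit 156) (nat_lit 0) (nat_lit 0) (XT.nd (nat_lit 78) (nat_lit 76) (nat_lit 0) (XT.lf (nat_lit 0) (nat_lit 13214927084) (nat_lit 152)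 (nat_lit 7248772068) (nat_lit 0) (nat_lit 8057208297) (nat_lit 5) (nat_lit 5) (nat_lit 7) (nat_lit 4) (nat_lit 5) (nat_lit 4) (nat_lit 282) (nat_lit 257) (nat_lit 241)) (XT.lf (nat_lit 0) (nat_lit 1963241086) (nat_lit 76) (nat_lit 17638715517) (nat_lit 76) (nat_lit 12400501822) (nat_lit 4) (nat_lit 4) (nat_lit 5) (nat_lit 5) (nat_lit 5) (nat_lit 4) (nat_lit 283) (nat_lit 257) (nat_lit 240))) (XT.nd (nat_lit 78) (nat_lit 0) (nat_lit 0) (XT.lf (nat_lit 0) (nat_lit 13130321606) (nat_lit 76) (nat_lit 14072914608) (nat_lit 76) (nat_lit 8764705340) (nat_lit 4) (nat_lit 4) (nat_lit 5) (nat_lit 5) (nat_lit 5) (nat_lit 4) (nat_lit 284) (nat_lit 257) (nat_lit 239)) (XT.lf (nat_lit 0) (nat_lit 25762553126) (nat_lit 76) (nat_lit 10075443839) (nat_lit 76) (nat_lit 4706368855) (nat_lit 4) (nat_lit 4) (nat_lit 5) (nat_lit 5) (nat_lit 5) (nat_lit 4) (nat_lit 285) (nat_lit 257) (nat_lit 238)))) (XT.nd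 (nat_lit 156) (nat_lit 0) (nat_lit 0) (XT.nd (nat_lit 78) (nat_lit 152) (nat_lit 0) (XT.lf (nat_lit 0) (nat_lit 40107088001) (nat_lit 76) (nat_lit 5568091826) (nat_lit 76) (nat_lit 146090133) (nat_lit 4) (nat_lit 4) (nat_lit 5) (nat_lit 5) (nat_lit 5) (nat_lit 4) (nat_lit 286) (nat_lit 257) (nat_lit 237)) (XT.lf (nat_lit 0) (nat_lit 4756902454) (nat_lit 152) (nat_lit 47082233968) (nat_lit 0) (nat_lit 2098178) (nat_lit 2) (nat_lit 5) (nat_lit 4) (nat_lit 4) (nat_lit 2) (nat_lit 4) (nat_lit 287) (nat_lit 257) (nat_lit 236))) (XT.nd (nat_lit 78) (nat_lit 0) (nat_lit 0) (XT.lf (nat_lit 0) (nat_lit 10874994632) (nat_lit 152) (nat_lit 41728638551) (nat_lit 0) (nat_lit 6085390185) (nat_lit 2) (nat_lit 5) (nat_lit 4) (nat_lit 4) (nat_lit 2) (nat_lit 4) (nat_lit 288) (nat_lit 257) (nat_lit 235)) (XT.nd (nat_lit 78) (nat_lit 0) (nat_lit 0) (XT.lf (nat_lit 0) (nat_lit 17838227444) (nat_lit 152)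 (nat_lit 35718332712) (nat_lit 0) (nat_lit 13018361980) (nat_lit 2) (nat_lit 5) (nat_lit 4) (nat_lit 4) (nat_lit 2) (nat_lit 4) (nat_lit 289) (nat_lit 257) (nat_lit 234)) (XT.lf (nat_lit 0) (nat_lit 25782838055) (nat_lit 152) (nat_lit 28933723513) (nat_lit 0) (nat_lit 20936658662) (nat_lit 2) (nat_lit 5) (nat_lit 4) (nat_lit 4) (nat_lit 2) (nat_lit 4) (nat_lit 290) (nat_lit 257) (nat_lit 233)))))) (XT.nd (nat_lit 390) (nat_lit 0) (nat_lit 0) (XT.nd (nat_lit 156) (nat_lit 76) (nat_lit 0) (XT.nd (nat_lit 78) (nat_lit 0) (nat_lit 0) (XT.lf (nat_lit 0) (nat_lit 34864264498) (nat_lit 152) (nat_lit 21242068598) (nat_lit 0) (nat_lit 29995203428) (nat_lit 2) (nat_lit 5) (nat_lit 4) (nat_lit 4) (nat_lit 2) (nat_lit 4) (nat_lit 291) (nat_lit 257) (nat_lit 232)) (XT.lf (nat_lit 0) (nat_lit 45260186856) (nat_lit 152) (nat_lit 12492879069) (nat_lit 0) (nat_lit 40371228676) (nat_lit 2) (nat_lit 5)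 (nat_lit 4) (nat_lit 4) (nat_lit 2) (nat_lit 4) (nat_lit 292) (nat_lit 257) (nat_lit 231))) (XT.nd (nat_lit 78) (nat_lit 76) (nat_lit 0) (XT.lf (nat_lit 0) (nat_lit 57174003610) (nat_lit 152) (nat_lit 2514975128) (nat_lit 0) (nat_lit 52267743594) (nat_lit 2) (nat_lit 5) (nat_lit 4) (nat_lit 4) (nat_lit 2) (nat_lit 4) (nat_lit 293) (nat_lit 257) (nat_lit 230)) (XT.nd (nat_lit 78) (nat_lit 0) (nat_lit 0) (XT.lf (nat_lit 0) (nat_lit 9755351973) (nat_lit 76) (nat_lit 61487407522) (nat_lit 76) (nat_lit 56566102432) (nat_lit 1) (nat_lit 4) (nat_lit 2) (nat_lit 5) (nat_lit 2) (nat_lit 4) (nat_lit 294) (nat_lit 257) (nat_lit 229)) (XT.lf (nat_lit 0) (nat_lit 24079432608) (nat_lit 76) (nat_lit 63439609825) (nat_lit 76) (nat_lit 58505222063) (nat_lit 1) (nat_lit 4) (nat_lit 2) (nat_lit 5) (nat_lit 2) (nat_lit 4) (nat_lit 295) (nat_lit 257) (nat_lit 228))))) (XT.nd (nat_lit 156) (nat_lit 0) (nat_lit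 0) (XT.nd (nat_lit 78) (nat_lit 0) (nat_lit 0) (XT.lf (nat_lit 0) (nat_lit 40491738866) (nat_lit 76) (nat_lit 65715245520) (nat_lit 76) (nat_lit 60769481520) (nat_lit 1) (nat_lit 4) (nat_lit 2) (nat_lit 5) (nat_lit 2) (nat_lit 4) (nat_lit 296) (nat_lit 257) (nat_lit 227)) (XT.lf (nat_lit 0) (nat_lit 59313381088) (nat_lit 76) (nat_lit 68358837913) (nat_lit 76) (nat_lit 63403181533) (nat_lit 1) (nat_lit 4) (nat_lit 2) (nat_lit 5) (nat_lit 2) (nat_lit 4) (nat_lit 297) (nat_lit 257) (nat_lit 226))) (XT.nd (nat_lit 78) (nat_lit 0) (nat_lit 0) (XT.lf (nat_lit 0) (nat_lit 80912608794) (nat_lit 76) (nat_lit 71422109464) (nat_lit 76) (nat_lit 66457851014) (nat_lit 1) (nat_lit 4) (nat_lit 2) (nat_lit 5) (nat_lit 2) (nat_lit 4) (nat_lit 298) (nat_lit 257) (nat_lit 225)) (XT.nd (nat_lit 78) (nat_lit 0) (nat_lit 0) (XT.lf (nat_lit 0) (nat_lit 105712015571) (nat_lit 76) (nat_lit 74964993747) (nat_lit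 76) (nat_lit 69993255237) (nat_lit 1) (nat_lit 4) (nat_lit 2) (nat_lit 5) (nat_lit 2) (nat_lit 4) (nat_lit 299) (nat_lit 257) (nat_lit 224)) (XT.lf (nat_lit 0) (nat_lit 134196807203) (nat_lit 76) (nat_lit 79056808064) (nat_lit 76) (nat_lit 74078565153) (nat_lit 1) (nat_lit 4) (nat_lit 2) (nat_lit 5) (nat_lit 2) (nat_lit 4) (nat_lit 300) (nat_lit 257) (nat_lit 223))))))))
noncomputable def xc42 : XT := (XT.nd (nat_lit 1404) (nat_lit 0) (nat_lit 0) (XT.nd (nat_lit 702) (nat_lit 0) (nat_lit 0) (XT.nd (nat_lit 312) (nat_lit 0) (nat_lit 0) (XT.nd (nat_lit 156) (nat_lit 0) (nat_lit 0) (XT.nd (nat_lit 78) (nat_lit 0) (nat_lit 0) (XT.lf (nat_lit 0) (nat_lit 166924294831) (nat_lit 76) (nat_lit 83777609651) (nat_lit 76) (nat_lit 78793710739) (nat_lit 1) (nat_lit 4) (nat_lit 2) (nat_lit 5) (nat_lit 2) (nat_lit 4) (nat_lit 301) (nat_lit 257) (nat_lit 222)) (XT.lf (nat_lit 0) (nat_lit 204534798865)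 (nat_lit 76) (nat_lit 89219762017) (nat_lit 76) (nat_lit 84230944844) (nat_lit 1) (nat_lit 4) (nat_lit 2) (nat_lit 5) (nat_lit 2) (nat_lit 4) (nat_lit 302) (nat_lit 257) (nat_lit 221))) (XT.nd (nat_lit 78) (nat_lit 0) (nat_lit 0) (XT.lf (nat_lit 0) (nat_lit 247764176992) (nat_lit 76) (nat_lit 95489742057) (nat_lit 76) (nat_lit 90496648134) (nat_lit 1) (nat_lit 4) (nat_lit 2) (nat_lit 5) (nat_lit 2) (nat_lit 4) (nat_lit 303) (nat_lit 257) (nat_lit 220)) (XT.lf (nat_lit 0) (nat_lit 297458221394) (nat_lit 76) (nat_lit 102710223292) (nat_lit 76) (nat_lit 97713410457) (nat_lit 1) (nat_lit 4) (nat_lit 2) (nat_lit 5) (nat_lit 2) (nat_lit 4) (nat_lit 304) (nat_lit 257) (nat_lit 219)))) (XT.nd (nat_lit 156) (nat_lit 0) (nat_lit 0) (XT.nd (nat_lit 78) (nat_lit 0) (nat_lit 0) (XT.lf (nat_lit 0) (nat_lit 354589206852) (nat_lit 76) (nat_lit 111022476008) (nat_lit 76) (nat_lit 106022429337) (nat_lit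 1) (nat_lit 4) (nat_lit 2) (nat_lit 5) (nat_lit 2) (nat_lit 4) (nat_lit 305) (nat_lit 257) (nat_lit 218)) (XT.lf (nat_lit 0) (nat_lit 420274913517) (nat_lit 76) (nat_lit 120589131237) (nat_lit 76) (nat_lit 115586272534) (nat_lit 1) (nat_lit 4) (nat_lit 2) (nat_lit 5) (nat_lit 2) (nat_lit 4) (nat_lit 306) (nat_lit 257) (nat_lit 217))) (XT.nd (nat_lit 78) (nat_lit 0) (nat_lit 0) (XT.lf (nat_lit 0) (nat_lit 495800496518) (nat_lit 76) (nat_lit 131597362667) (nat_lit 76) (nat_lit 126592058719) (nat_lit 1) (nat_lit 4) (nat_lit 2) (nat_lit 5) (nat_lit 2) (nat_lit 4) (nat_lit 307) (nat_lit 257) (nat_lit 216)) (XT.nd (nat_lit 78) (nat_lit 0) (nat_lit 0) (XT.lf (nat_lit 0) (nat_lit 582643630307) (nat_lit 76) (nat_lit 144262548740) (nat_lit 76) (nat_lit 139255118491) (nat_lit 1) (nat_lit 4) (nat_lit 2) (nat_lit 5) (nat_lit 2) (nat_lit 4) (nat_lit 308) (nat_lit 257) (nat_lit 215)) (XT.lf (nat_lit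 0) (nat_lit 682503419673) (nat_lit 76) (nat_lit 158832486574) (nat_lit 76) (nat_lit 153823207369) (nat_lit 1) (nat_lit 4) (nat_lit 2) (nat_lit 5) (nat_lit 2) (nat_lit 4) (nat_lit 309) (nat_lit 257) (nat_lit 214)))))) (XT.nd (nat_lit 312) (nat_lit 0) (nat_lit 0) (XT.nd (nat_lit 156) (nat_lit 0) (nat_lit 0) (XT.nd (nat_lit 78) (nat_lit 0) (nat_lit 0) (XT.lf (nat_lit 0) (nat_lit 797333643106) (nat_lit 76) (nat_lit 175592240171) (nat_lit 76) (nat_lit 170581353178) (nat_lit 1) (nat_lit 4) (nat_lit 2) (nat_lit 5) (nat_lit 2) (nat_lit 4) (nat_lit 310) (nat_lit 257) (nat_lit 213)) (XT.lf (nat_lit 0) (nat_lit 929380978889) (nat_lit 76) (nat_lit 194869717753) (nat_lit 76) (nat_lit 189857432683) (nat_lit 1) (nat_lit 4) (nat_lit 2) (nat_lit 5) (nat_lit 2) (nat_lit 4) (nat_lit 311) (nat_lit 257) (nat_lit 212))) (XT.nd (nat_lit 78) (nat_lit 0) (nat_lit 0) (XT.lf (nat_lit 0) (nat_lit 1081228961853)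 (nat_lit 76) (nat_lit 217042087360) (nat_lit 76) (nat_lit 212028586570) (nat_lit 1) (nat_lit 4) (nat_lit 2) (nat_lit 5) (nat_lit 2) (nat_lit 4) (nat_lit 312) (nat_lit 257) (nat_lit 211)) (XT.lf (nat_lit 0) (nat_lit 1255848530796) (nat_lit 76) (nat_lit 242543156222) (nat_lit 76) (nat_lit 237528598286) (nat_lit 1) (nat_lit 4) (nat_lit 2) (nat_lit 5) (nat_lit 2) (nat_lit 4) (nat_lit 313) (nat_lit 257) (nat_lit 210)))) (XT.nd (nat_lit 156) (nat_lit 0) (nat_lit 0) (XT.nd (nat_lit 78) (nat_lit 0) (nat_lit 0) (XT.lf (nat_lit 0) (nat_lit 1456656155543) (nat_lit 76) (nat_lit 271871858297) (nat_lit 76) (nat_lit 266856381103) (nat_lit 1) (nat_lit 4) (nat_lit 2) (nat_lit 5) (nat_lit 2) (nat_lit 4) (nat_lit 314) (nat_lit 257) (nat_lit 209)) (XT.lf (nat_lit 0) (nat_lit 1687580680928) (nat_lit 76) (nat_lit 305602016017) (nat_lit 76) (nat_lit 300585739467) (nat_lit 1) (nat_lit 4) (nat_lit 2) (nat_lit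 5) (nat_lit 2) (nat_lit 4) (nat_lit 315) (nat_lit 257) (nat_lit 208))) (XT.nd (nat_lit 78) (nat_lit 0) (nat_lit 0) (XT.lf (nat_lit 0) (nat_lit 1953140195491) (nat_lit 76) (nat_lit 344393567248) (nat_lit 76) (nat_lit 339376595608) (nat_lit 1) (nat_lit 4) (nat_lit 2) (nat_lit 5) (nat_lit 2) (nat_lit 4) (nat_lit 316) (nat_lit 257) (nat_lit 207)) (XT.nd (nat_lit 78) (nat_lit 0) (nat_lit 0) (XT.lf (nat_lit 0) (nat_lit 2258530428864) (nat_lit 76) (nat_lit 389005477125) (nat_lit 76) (nat_lit 383987901057) (nat_lit 1) (nat_lit 4) (nat_lit 2) (nat_lit 5) (nat_lit 2) (nat_lit 4) (nat_lit 317) (nat_lit 257) (nat_lit 206)) (XT.lf (nat_lit 0) (nat_lit 2609726407352) (nat_lit 76) (nat_lit 440310587362) (nat_lit 76) (nat_lit 435292485706) (nat_lit 1) (nat_lit 4) (nat_lit 2) (nat_lit 5) (nat_lit 2) (nat_lit 4) (nat_lit 318) (nat_lit 257) (nat_lit 205))))))) (XT.nd (nat_lit 702) (nat_lit 0) (nat_lit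 0) (XT.nd (nat_lit 312) (nat_lit 0) (nat_lit 0) (XT.nd (nat_lit 156) (nat_lit 0) (nat_lit 0) (XT.nd (nat_lit 78) (nat_lit 0) (nat_lit 0) (XT.lf (nat_lit 0) (nat_lit 3013599356621) (nat_lit 76) (nat_lit 499312693595) (nat_lit 76) (nat_lit 494294134904) (nat_lit 1) (nat_lit 4) (nat_lit 2) (nat_lit 5) (nat_lit 2) (nat_lit 4) (nat_lit 319) (nat_lit 257) (nat_lit 204)) (XT.lf (nat_lit 0) (nat_lit 3478051138723) (nat_lit 76) (nat_lit 567166184858) (nat_lit 76) (nat_lit 562147228747) (nat_lit 1) (nat_lit 4) (nat_lit 2) (nat_lit 5) (nat_lit 2) (nat_lit 4) (nat_lit 320) (nat_lit 257) (nat_lit 203))) (XT.nd (nat_lit 78) (nat_lit 0) (nat_lit 0) (XT.lf (nat_lit 0) (nat_lit 4012168853742) (nat_lit 76) (nat_lit 645198629458) (nat_lit 76) (nat_lit 640179327764) (nat_lit 1) (nat_lit 4) (nat_lit 2) (nat_lit 5) (nat_lit 2) (nat_lit 4) (nat_lit 321) (nat_lit 257) (nat_lit 202)) (XT.lf (nat_lit 0) (nat_lit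 4626402630884) (nat_lit 76) (nat_lit 734936749139) (nat_lit 76) (nat_lit 729917146937) (nat_lit 1) (nat_lit 4) (nat_lit 2) (nat_lit 5) (nat_lit 2) (nat_lit 4) (nat_lit 322) (nat_lit 257) (nat_lit 201)))) (XT.nd (nat_lit 156) (nat_lit 0) (nat_lit 0) (XT.nd (nat_lit 78) (nat_lit 0) (nat_lit 0) (XT.lf (nat_lit 0) (nat_lit 5332770087530) (nat_lit 76) (nat_lit 838136289719) (nat_lit 76) (nat_lit 833116426207) (nat_lit 1) (nat_lit 4) (nat_lit 2) (nat_lit 5) (nat_lit 2) (nat_lit 4) (nat_lit 323) (nat_lit 257) (nat_lit 200)) (XT.lf (nat_lit 0) (nat_lit 6145091456525) (nat_lit 76) (nat_lit 956816372645) (nat_lit 76) (nat_lit 951796281906) (nat_lit 1) (nat_lit 4) (nat_lit 2) (nat_lit 5) (nat_lit 2) (nat_lit 4) (nat_lit 324) (nat_lit 257) (nat_lit 199))) (XT.nd (nat_lit 78) (nat_lit 0) (nat_lit 0) (XT.lf (nat_lit 0) (nat_lit 7079259982047) (nat_lit 76) (nat_lit 1093298999539) (nat_lit 76) (nat_lit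 1088278711212) (nat_lit 1) (nat_lit 4) (nat_lit 2) (nat_lit 5) (nat_lit 2) (nat_lit 4) (nat_lit 325) (nat_lit 257) (nat_lit 198)) (XT.nd (nat_lit 78) (nat_lit 0) (nat_lit 0) (XT.lf (nat_lit 0) (nat_lit 8153552874376) (nat_lit 76) (nat_lit 1250254482667) (nat_lit 76) (nat_lit 1245234022524) (nat_lit 1) (nat_lit 4) (nat_lit 2) (nat_lit 5) (nat_lit 2) (nat_lit 4) (nat_lit 326) (nat_lit 257) (nat_lit 197)) (XT.lf (nat_lit 0) (nat_lit 9388988907494) (nat_lit 76) (nat_lit 1430753690176) (nat_lit 76) (nat_lit 1425733080628) (nat_lit 1) (nat_lit 4) (nat_lit 2) (nat_lit 5) (nat_lit 2) (nat_lit 4) (nat_lit 327) (nat_lit 257) (nat_lit 196)))))) (XT.nd (nat_lit 390) (nat_lit 0) (nat_lit 0) (XT.nd (nat_lit 156) (nat_lit 0) (nat_lit 0) (XT.nd (nat_lit 78) (nat_lit 0) (nat_lit 0) (XT.lf (nat_lit 0) (nat_lit 10809739655962) (nat_lit 76) (nat_lit 1638328128301) (nat_lit 76) (nat_lit 1633307388836) (nat_lit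 1) (nat_lit 4) (nat_lit 2) (nat_lit 5) (nat_lit 2) (nat_lit 4) (nat_lit 328) (nat_lit 257) (nat_lit 195)) (XT.lf (nat_lit 0) (nat_lit 12443602417031) (nat_lit 76) (nat_lit 1877039036049) (nat_lit 76) (nat_lit 1872018183612) (nat_lit 1) (nat_lit 4) (nat_lit 2) (nat_lit 5) (nat_lit 2) (nat_lit 4) (nat_lit 329) (nat_lit 257) (nat_lit 194))) (XT.nd (nat_lit 78) (nat_lit 0) (nat_lit 0) (XT.lf (nat_lit 0) (nat_lit 14322544070811) (nat_lit 76) (nat_lit 2151556844223) (nat_lit 76) (nat_lit 2146535893549) (nat_lit 1) (nat_lit 4) (nat_lit 2) (nat_lit 5) (nat_lit 2) (nat_lit 4) (nat_lit 330) (nat_lit 257) (nat_lit 193)) (XT.nd (nat_lit 78) (nat_lit 0) (nat_lit 0) (XT.lf (nat_lit 0) (nat_lit 16483326519222) (nat_lit 76) (nat_lit 2467252553418) (nat_lit 76) (nat_lit 2462231517321) (nat_lit 1) (nat_lit 4) (nat_lit 2) (nat_lit 5) (nat_lit 2) (nat_lit 4) (nat_lit 331) (nat_lit 257) (nat_lit 192)) (XT.lf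 (nat_lit 0) (nat_lit 18968225940603) (nat_lit 76) (nat_lit 2830302818813) (nat_lit 76) (nat_lit 2825281708436) (nat_lit 1) (nat_lit 4) (nat_lit 2) (nat_lit 5) (nat_lit 2) (nat_lit 4) (nat_lit 332) (nat_lit 257) (nat_lit 191))))) (XT.nd (nat_lit 156) (nat_lit 0) (nat_lit 0) (XT.nd (nat_lit 78) (nat_lit 0) (nat_lit 0) (XT.lf (nat_lit 0) (nat_lit 21825859932330) (nat_lit 76) (nat_lit 3247810797776) (nat_lit 76) (nat_lit 3242789622806) (nat_lit 1) (nat_lit 4) (nat_lit 2) (nat_lit 5) (nat_lit 2) (nat_lit 4) (nat_lit 333) (nat_lit 257) (nat_lit 190)) (XT.lf (nat_lit 0) (nat_lit 25112138724674) (nat_lit 76) (nat_lit 3727945124677) (nat_lit 76) (nat_lit 3722923893540) (nat_lit 1) (nat_lit 4) (nat_lit 2) (nat_lit 5) (nat_lit 2) (nat_lit 4) (nat_lit 334) (nat_lit 257) (nat_lit 189))) (XT.nd (nat_lit 78) (nat_lit 0) (nat_lit 0) (XT.lf (nat_lit 0) (nat_lit 28891359076617) (nat_lit 76) (nat_lit 4280099731999)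 (nat_lit 76) (nat_lit 4275078452022) (nat_lit 1) (nat_lit 4) (nat_lit 2) (nat_lit 5) (nat_lit 2) (nat_lit 4) (nat_lit 335) (nat_lit 257) (nat_lit 188)) (XT.nd (nat_lit 78) (nat_lit 0) (nat_lit 0) (XT.lf (nat_lit 0) (nat_lit 33237462255914) (nat_lit 76) (nat_lit 4915077644668) (nat_lit 76) (nat_lit 4910056322220) (nat_lit 1) (nat_lit 4) (nat_lit 2) (nat_lit 5) (nat_lit 2) (nat_lit 4) (nat_lit 336) (nat_lit 257) (nat_lit 187)) (XT.lf (nat_lit 0) (nat_lit 38235480716073) (nat_lit 76) (nat_lit 5645302343583) (nat_lit 76) (nat_lit 5640280984205) (nat_lit 1) (nat_lit 4) (nat_lit 2) (nat_lit 5) (nat_lit 2) (nat_lit 4) (nat_lit 337) (nat_lit 257) (nat_lit 186))))))))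
noncomputable def xc43 : XT := (XT.nd (nat_lit 36036) (nat_lit 0) (nat_lit 0) (XT.nd (nat_lit 35334) (nat_lit 0) (nat_lit 532) (XT.nd (nat_lit 34944) (nat_lit 0) (nat_lit 1140) (XT.nd (nat_lit 156) (nat_lit 0) (nat_lit 0) (XT.nd (nat_lit 78) (nat_lit 0) (nat_lit 0) (XT.lf (nat_lit 0) (nat_lit 43983201774792) (nat_lit 76) (nat_lit 6485060833725) (nat_lit 76) (nat_lit 6480039442234) (nat_lit 1) (nat_lit 4) (nat_lit 2) (nat_lit 5) (nat_lit 2) (nat_lit 4) (nat_lit 338) (nat_lit 257) (nat_lit 185)) (XT.lf (nat_lit 0) (nat_lit 50593080844091) (nat_lit 76) (nat_lit 7450783172508) (nat_lit 76) (nat_lit 7445761753092) (nat_lit 1) (nat_lit 4) (nat_lit 2) (nat_lit 5) (nat_lit 2) (nat_lit 4) (nat_lit 339) (nat_lit 257) (nat_lit 184))) (XT.nd (nat_lit 34710) (nat_lit 0) (nat_lit 1976) (XT.lf (nat_lit 0) (nat_lit 58194441644890) (nat_lit 76) (nat_lit 8561363927431) (nat_lit 76) (nat_lit 8556342483732)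 (nat_lit 1) (nat_lit 4) (nat_lit 2) (nat_lit 5) (nat_lit 2) (nat_lit 4) (nat_lit 340) (nat_lit 257) (nat_lit 183)) (XT.lf (nat_lit 0) (nat_lit 453077037) (nat_lit 228) (nat_lit 2509399372) (nat_lit 0) (nat_lit 453077037) (nat_lit 27) (nat_lit 5) (nat_lit 30) (nat_lit 4) (nat_lit 27) (nat_lit 4) (nat_lit 264) (nat_lit 258) (nat_lit 258)))) (XT.nd (nat_lit 156) (nat_lit 532) (nat_lit 0) (XT.nd (nat_lit 78) (nat_lit 304) (nat_lit 0) (XT.lf (nat_lit 0) (nat_lit 4097694582) (nat_lit 228) (nat_lit 610967728) (nat_lit 0) (nat_lit 2355402754) (nat_lit 27) (nat_lit 5) (nat_lit 30) (nat_lit 4) (nat_lit 27) (nat_lit 4) (nat_lit 265) (nat_lit 258) (nat_lit 257)) (XT.lf (nat_lit 0) (nat_lit 135637139) (nat_lit 304) (nat_lit 2965708350) (nat_lit 76) (nat_lit 4269570615) (nat_lit 23) (nat_lit 5) (nat_lit 27) (nat_lit 5) (nat_lit 24) (nat_lit 4) (nat_lit 266) (nat_lit 258) (nat_lit 256))) (XT.nd (nat_lit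 78) (nat_lit 228) (nat_lit 0) (XT.lf (nat_lit 0) (nat_lit 2107305586) (nat_lit 304) (nat_lit 1000627771) (nat_lit 380) (nat_lit 4640478909) (nat_lit 19) (nat_lit 5) (nat_lit 23) (nat_lit 5) (nat_lit 24) (nat_lit 4) (nat_lit 267) (nat_lit 258) (nat_lit 255)) (XT.nd (nat_lit 78) (nat_lit 228) (nat_lit 0) (XT.lf (nat_lit 0) (nat_lit 6367943765) (nat_lit 380) (nat_lit 446404170) (nat_lit 0) (nat_lit 1393738294) (nat_lit 19) (nat_lit 5) (nat_lit 24) (nat_lit 4) (nat_lit 19) (nat_lit 4) (nat_lit 268) (nat_lit 258) (nat_lit 254)) (XT.lf (nat_lit 0) (nat_lit 1200864703) (nat_lit 228) (nat_lit 3258573319) (nat_lit 76) (nat_lit 4278562091) (nat_lit 16) (nat_lit 5) (nat_lit 19) (nat_lit 5) (nat_lit 17) (nat_lit 4) (nat_lit 269) (nat_lit 258) (nat_lit 253)))))) (XT.nd (nat_lit 312) (nat_lit 228) (nat_lit 0) (XT.nd (nat_lit 156) (nat_lit 304) (nat_lit 0) (XT.nd (nat_lit 78) (nat_lit 0) (nat_lit 0)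 (XT.lf (nat_lit 0) (nat_lit 2708941763) (nat_lit 76) (nat_lit 1617855927) (nat_lit 152) (nat_lit 5036089757) (nat_lit 15) (nat_lit 5) (nat_lit 16) (nat_lit 5) (nat_lit 17) (nat_lit 4) (nat_lit 270) (nat_lit 258) (nat_lit 252)) (XT.lf (nat_lit 0) (nat_lit 7867746204) (nat_lit 152) (nat_lit 658332357) (nat_lit 0) (nat_lit 1564558984) (nat_lit 15) (nat_lit 5) (nat_lit 17) (nat_lit 4) (nat_lit 15) (nat_lit 4) (nat_lit 271) (nat_lit 258) (nat_lit 251))) (XT.nd (nat_lit 78) (nat_lit 76) (nat_lit 0) (XT.lf (nat_lit 0) (nat_lit 1002279207) (nat_lit 228) (nat_lit 4643555001) (nat_lit 76) (nat_lit 5264204304) (nat_lit 12) (nat_lit 5) (nat_lit 15) (nat_lit 5) (nat_lit 13) (nat_lit 4) (nat_lit 272) (nat_lit 258) (nat_lit 250)) (XT.lf (nat_lit 0) (nat_lit 2128205672) (nat_lit 76) (nat_lit 2224040310) (nat_lit 152) (nat_lit 7504624899) (nat_lit 11) (nat_lit 5) (nat_lit 12) (nat_lit 5) (nat_lit 13)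 (nat_lit 4) (nat_lit 273) (nat_lit 258) (nat_lit 249)))) (XT.nd (nat_lit 156) (nat_lit 152) (nat_lit 0) (XT.nd (nat_lit 78) (nat_lit 76) (nat_lit 0) (XT.lf (nat_lit 0) (nat_lit 8285026035) (nat_lit 152) (nat_lit 2976068663) (nat_lit 0) (nat_lit 1673185155) (nat_lit 11) (nat_lit 5) (nat_lit 13) (nat_lit 4) (nat_lit 11) (nat_lit 4) (nat_lit 274) (nat_lit 258) (nat_lit 248)) (XT.lf (nat_lit 0) (nat_lit 4738452182) (nat_lit 76) (nat_lit 8158498571) (nat_lit 76) (nat_lit 1263486561) (nat_lit 10) (nat_lit 4) (nat_lit 11) (nat_lit 5) (nat_lit 11) (nat_lit 4) (nat_lit 275) (nat_lit 258) (nat_lit 247))) (XT.nd (nat_lit 78) (nat_lit 76) (nat_lit 0) (XT.lf (nat_lit 0) (nat_lit 2349425935) (nat_lit 152) (nat_lit 2089982014) (nat_lit 76) (nat_lit 11122153221) (nat_lit 9) (nat_lit 5) (nat_lit 11) (nat_lit 5) (nat_lit 10) (nat_lit 4) (nat_lit 276) (nat_lit 258) (nat_lit 246)) (XT.nd (nat_lit 78) (nat_lit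 0) (nat_lit 0) (XT.lf (nat_lit 0) (nat_lit 6466789300) (nat_lit 152) (nat_lit 10612782506) (nat_lit 0) (nat_lit 70819010) (nat_lit 8) (nat_lit 5) (nat_lit 10) (nat_lit 4) (nat_lit 8) (nat_lit 4) (nat_lit 277) (nat_lit 258) (nat_lit 245)) (XT.lf (nat_lit 0) (nat_lit 11350744864) (nat_lit 152) (nat_lit 2811879378) (nat_lit 0) (nat_lit 4792870561) (nat_lit 8) (nat_lit 5) (nat_lit 10) (nat_lit 4) (nat_lit 8) (nat_lit 4) (nat_lit 278) (nat_lit 258) (nat_lit 244))))))) (XT.nd (nat_lit 702) (nat_lit 152) (nat_lit 0) (XT.nd (nat_lit 312) (nat_lit 152) (nat_lit 0) (XT.nd (nat_lit 156) (nat_lit 76) (nat_lit 0) (XT.nd (nat_lit 78) (nat_lit 76) (nat_lit 0) (XT.lf (nat_lit 0) (nat_lit 6447659901) (nat_lit 76) (nat_lit 10632822858) (nat_lit 76) (nat_lit 3934162456) (nat_lit 7) (nat_lit 4) (nat_lit 8) (nat_lit 5) (nat_lit 8) (nat_lit 4) (nat_lit 279) (nat_lit 258) (nat_lit 243)) (XT.lf (nat_lit 0)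 (nat_lit 263314299) (nat_lit 152) (nat_lit 6254957351) (nat_lit 76) (nat_lit 16862531865) (nat_lit 6) (nat_lit 5) (nat_lit 8) (nat_lit 5) (nat_lit 7) (nat_lit 4) (nat_lit 280) (nat_lit 258) (nat_lit 242))) (XT.nd (nat_lit 78) (nat_lit 0) (nat_lit 0) (XT.lf (nat_lit 0) (nat_lit 3146576848) (nat_lit 76) (nat_lit 1539057784) (nat_lit 152) (nat_lit 21388619374) (nat_lit 5) (nat_lit 5) (nat_lit 6) (nat_lit 5) (nat_lit 7) (nat_lit 4) (nat_lit 281) (nat_lit 258) (nat_lit 241)) (XT.lf (nat_lit 0) (nat_lit 10157582812) (nat_lit 152) (nat_lit 14903203320) (nat_lit 0) (nat_lit 4053142153) (nat_lit 5) (nat_lit 5) (nat_lit 7) (nat_lit 4) (nat_lit 5) (nat_lit 4) (nat_lit 282) (nat_lit 258) (nat_lit 240)))) (XT.nd (nat_lit 156) (nat_lit 76) (nat_lit 0) (XT.nd (nat_lit 78) (nat_lit 76) (nat_lit 0) (XT.lf (nat_lit 0) (nat_lit 16410890027) (nat_lit 152) (nat_lit 5968253716) (nat_lit 0) (nat_lit 10236453796)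 (nat_lit 5) (nat_lit 5) (nat_lit 7) (nat_lit 4) (nat_lit 5) (nat_lit 4) (nat_lit 283) (nat_lit 258) (nat_lit 239)) (XT.lf (nat_lit 0) (nat_lit 4517932585) (nat_lit 76) (nat_lit 19173319862) (nat_lit 76) (nat_lit 12938017916) (nat_lit 4) (nat_lit 4) (nat_lit 5) (nat_lit 5) (nat_lit 5) (nat_lit 4) (nat_lit 284) (nat_lit 258) (nat_lit 238))) (XT.nd (nat_lit 78) (nat_lit 76) (nat_lit 0) (XT.lf (nat_lit 0) (nat_lit 17065265792) (nat_lit 76) (nat_lit 15217588336) (nat_lit 76) (nat_lit 8929359680) (nat_lit 4) (nat_lit 4) (nat_lit 5) (nat_lit 5) (nat_lit 5) (nat_lit 4) (nat_lit 285) (nat_lit 258) (nat_lit 237)) (XT.nd (nat_lit 78) (nat_lit 76) (nat_lit 0) (XT.lf (nat_lit 0) (nat_lit 31335976047) (nat_lit 76) (nat_lit 10746531317) (nat_lit 76) (nat_lit 4412279436) (nat_lit 4) (nat_lit 4) (nat_lit 5) (nat_lit 5) (nat_lit 5) (nat_lit 4) (nat_lit 286) (nat_lit 258) (nat_lit 236)) (XT.lf (nat_lit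 0) (nat_lit 639139148) (nat_lit 152) (nat_lit 5000122906) (nat_lit 76) (nat_lit 46936724203) (nat_lit 3) (nat_lit 5) (nat_lit 5) (nat_lit 5) (nat_lit 4) (nat_lit 4) (nat_lit 287) (nat_lit 258) (nat_lit 235)))))) (XT.nd (nat_lit 390) (nat_lit 76) (nat_lit 0) (XT.nd (nat_lit 156) (nat_lit 0) (nat_lit 0) (XT.nd (nat_lit 78) (nat_lit 0) (nat_lit 0) (XT.lf (nat_lit 0) (nat_lit 6251865446) (nat_lit 152) (nat_lit 52568981227) (nat_lit 0) (nat_lit 678759144) (nat_lit 2) (nat_lit 5) (nat_lit 4) (nat_lit 4) (nat_lit 2) (nat_lit 4) (nat_lit 288) (nat_lit 258) (nat_lit 234)) (XT.lf (nat_lit 0) (nat_lit 13185746108) (nat_lit 152) (nat_lit 46617857953) (nat_lit 0) (nat_lit 7586325878) (nat_lit 2) (nat_lit 5) (nat_lit 4) (nat_lit 4) (nat_lit 2) (nat_lit 4) (nat_lit 289) (nat_lit 258) (nat_lit 233))) (XT.nd (nat_lit 78) (nat_lit 0) (nat_lit 0) (XT.lf (nat_lit 0) (nat_lit 21104833110) (nat_lit 152) (nat_lit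 39884711854) (nat_lit 0) (nat_lit 15482531203) (nat_lit 2) (nat_lit 5) (nat_lit 4) (nat_lit 4) (nat_lit 2) (nat_lit 4) (nat_lit 290) (nat_lit 258) (nat_lit 232)) (XT.nd (nat_lit 78) (nat_lit 0) (nat_lit 0) (XT.lf (nat_lit 0) (nat_lit 30164065110) (nat_lit 152) (nat_lit 32237807461) (nat_lit 0) (nat_lit 24521866093) (nat_lit 2) (nat_lit 5) (nat_lit 4) (nat_lit 4) (nat_lit 2) (nat_lit 4) (nat_lit 291) (nat_lit 258) (nat_lit 231)) (XT.lf (nat_lit 0) (nat_lit 40540687953) (nat_lit 152) (nat_lit 23527531428) (nat_lit 0) (nat_lit 34881187100) (nat_lit 2) (nat_lit 5) (nat_lit 4) (nat_lit 4) (nat_lit 2) (nat_lit 4) (nat_lit 292) (nat_lit 258) (nat_lit 230))))) (XT.nd (nat_lit 156) (nat_lit 76) (nat_lit 0) (XT.nd (nat_lit 78) (nat_lit 0) (nat_lit 0) (XT.lf (nat_lit 0) (nat_lit 52437722519) (nat_lit 152) (nat_lit 13583465312) (nat_lit 0) (nat_lit 46763176593) (nat_lit 2) (nat_lit 5) (nat_lit 4)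 (nat_lit 4) (nat_lit 2) (nat_lit 4) (nat_lit 293) (nat_lit 258) (nat_lit 229)) (XT.lf (nat_lit 0) (nat_lit 66087936877) (nat_lit 152) (nat_lit 2211051296) (nat_lit 0) (nat_lit 60400308277) (nat_lit 2) (nat_lit 5) (nat_lit 4) (nat_lit 4) (nat_lit 2) (nat_lit 4) (nat_lit 294) (nat_lit 258) (nat_lit 228))) (XT.nd (nat_lit 78) (nat_lit 0) (nat_lit 0) (XT.lf (nat_lit 0) (nat_lit 11868862594) (nat_lit 76) (nat_lit 70381002133) (nat_lit 76) (nat_lit 64681997296) (nat_lit 1) (nat_lit 4) (nat_lit 2) (nat_lit 5) (nat_lit 2) (nat_lit 4) (nat_lit 295) (nat_lit 258) (nat_lit 227)) (XT.nd (nat_lit 78) (nat_lit 0) (nat_lit 0) (XT.lf (nat_lit 0) (nat_lit 28256745608) (nat_lit 76) (nat_lit 72669015197) (nat_lit 76) (nat_lit 66960117979) (nat_lit 1) (nat_lit 4) (nat_lit 2) (nat_lit 5) (nat_lit 2) (nat_lit 4) (nat_lit 296) (nat_lit 258) (nat_lit 226)) (XT.lf (nat_lit 0) (nat_lit 47057150225) (nat_lit 76)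 (nat_lit 75323370520) (nat_lit 76) (nat_lit 69605871232) (nat_lit 1) (nat_lit 4) (nat_lit 2) (nat_lit 5) (nat_lit 2) (nat_lit 4) (nat_lit 297) (nat_lit 258) (nat_lit 225))))))))
noncomputable def xc44 : XT := (XT.nd (nat_lit 1404) (nat_lit 0) (nat_lit 0) (XT.nd (nat_lit 702) (nat_lit 0) (nat_lit 0) (XT.nd (nat_lit 312) (nat_lit 0) (nat_lit 0) (XT.nd (nat_lit 156) (nat_lit 0) (nat_lit 0) (XT.nd (nat_lit 78) (nat_lit 0) (nat_lit 0) (XT.lf (nat_lit 0) (nat_lit 68637910450) (nat_lit 76) (nat_lit 78396001141) (nat_lit 76) (nat_lit 72671021793) (nat_lit 1) (nat_lit 4) (nat_lit 2) (nat_lit 5) (nat_lit 2) (nat_lit 4) (nat_lit 298) (nat_lit 258) (nat_lit 224)) (XT.lf (nat_lit 0) (nat_lit 93421258547) (nat_lit 76) (nat_lit 81947023745) (nat_lit 76) (nat_lit 76215539997) (nat_lit 1) (nat_lit 4) (nat_lit 2) (nat_lit 5) (nat_lit 2) (nat_lit 4) (nat_lit 299) (nat_lit 258) (nat_lit 223))) (XT.nd (nat_lit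 78) (nat_lit 0) (nat_lit 0) (XT.lf (nat_lit 0) (nat_lit 121892086110) (nat_lit 76) (nat_lit 86045914863) (nat_lit 76) (nat_lit 80308775114) (nat_lit 1) (nat_lit 4) (nat_lit 2) (nat_lit 5) (nat_lit 2) (nat_lit 4) (nat_lit 300) (nat_lit 258) (nat_lit 222)) (XT.lf (nat_lit 0) (nat_lit 154607431069) (nat_lit 76) (nat_lit 90772870190) (nat_lit 76) (nat_lit 85030812180) (nat_lit 1) (nat_lit 4) (nat_lit 2) (nat_lit 5) (nat_lit 2) (nat_lit 4) (nat_lit 301) (nat_lit 258) (nat_lit 221)))) (XT.nd (nat_lit 156) (nat_lit 0) (nat_lit 0) (XT.nd (nat_lit 78) (nat_lit 0) (nat_lit 0) (XT.lf (nat_lit 0) (nat_lit 192207376260) (nat_lit 76) (nat_lit 96220373635) (nat_lit 76) (nat_lit 90474038875) (nat_lit 1) (nat_lit 4) (nat_lit 2) (nat_lit 5) (nat_lit 2) (nat_lit 4) (nat_lit 302) (nat_lit 258) (nat_lit 220)) (XT.lf (nat_lit 0) (nat_lit 235427572786) (nat_lit 76) (nat_lit 102495006786) (nat_lit 76) (nat_lit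 96744953114) (nat_lit 1) (nat_lit 4) (nat_lit 2) (nat_lit 5) (nat_lit 2) (nat_lit 4) (nat_lit 303) (nat_lit 258) (nat_lit 219))) (XT.nd (nat_lit 78) (nat_lit 0) (nat_lit 0) (XT.lf (nat_lit 0) (nat_lit 285113633186) (nat_lit 76) (nat_lit 109719534205) (nat_lit 76) (nat_lit 103966246696) (nat_lit 1) (nat_lit 4) (nat_lit 2) (nat_lit 5) (nat_lit 2) (nat_lit 4) (nat_lit 304) (nat_lit 258) (nat_lit 218)) (XT.nd (nat_lit 78) (nat_lit 0) (nat_lit 0) (XT.lf (nat_lit 0) (nat_lit 342237676033) (nat_lit 76) (nat_lit 118035305342) (nat_lit 76) (nat_lit 112279205802) (nat_lit 1) (nat_lit 4) (nat_lit 2) (nat_lit 5) (nat_lit 2) (nat_lit 4) (nat_lit 305) (nat_lit 258) (nat_lit 217)) (XT.lf (nat_lit 0) (nat_lit 407917345646) (nat_lit 76) (nat_lit 127605020067) (nat_lit 76) (nat_lit 121846475282) (nat_lit 1) (nat_lit 4) (nat_lit 2) (nat_lit 5) (nat_lit 2) (nat_lit 4) (nat_lit 306) (nat_lit 258) (nat_lit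 216)))))) (XT.nd (nat_lit 312) (nat_lit 0) (nat_lit 0) (XT.nd (nat_lit 156) (nat_lit 0) (nat_lit 0) (XT.nd (nat_lit 78) (nat_lit 0) (nat_lit 0) (XT.lf (nat_lit 0) (nat_lit 483437679036) (nat_lit 76) (nat_lit 138615911929) (nat_lit 76) (nat_lit 132855240843) (nat_lit 1) (nat_lit 4) (nat_lit 2) (nat_lit 5) (nat_lit 2) (nat_lit 4) (nat_lit 307) (nat_lit 258) (nat_lit 215)) (XT.lf (nat_lit 0) (nat_lit 570276247945) (nat_lit 76) (nat_lit 151283411421) (nat_lit 76) (nat_lit 145520891378) (nat_lit 1) (nat_lit 4) (nat_lit 2) (nat_lit 5) (nat_lit 2) (nat_lit 4) (nat_lit 308) (nat_lit 258) (nat_lit 214))) (XT.nd (nat_lit 78) (nat_lit 0) (nat_lit 0) (XT.lf (nat_lit 0) (nat_lit 670132067852) (nat_lit 76) (nat_lit 165855360924) (nat_lit 76) (nat_lit 160091233093) (nat_lit 1) (nat_lit 4) (nat_lit 2) (nat_lit 5) (nat_lit 2) (nat_lit 4) (nat_lit 309) (nat_lit 258) (nat_lit 213)) (XT.lf (nat_lit 0) (nat_lit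 784958839580) (nat_lit 76) (nat_lit 182616863798) (nat_lit 76) (nat_lit 176851337890) (nat_lit 1) (nat_lit 4) (nat_lit 2) (nat_lit 5) (nat_lit 2) (nat_lit 4) (nat_lit 310) (nat_lit 258) (nat_lit 212)))) (XT.nd (nat_lit 156) (nat_lit 0) (nat_lit 0) (XT.nd (nat_lit 78) (nat_lit 0) (nat_lit 0) (XT.lf (nat_lit 0) (nat_lit 917003173881) (nat_lit 76) (nat_lit 201895862490) (nat_lit 76) (nat_lit 196129120863) (nat_lit 1) (nat_lit 4) (nat_lit 2) (nat_lit 5) (nat_lit 2) (nat_lit 4) (nat_lit 311) (nat_lit 258) (nat_lit 211)) (XT.lf (nat_lit 0) (nat_lit 1068848546861) (nat_lit 76) (nat_lit 224069554801) (nat_lit 76) (nat_lit 218301756028) (nat_lit 1) (nat_lit 4) (nat_lit 2) (nat_lit 5) (nat_lit 2) (nat_lit 4) (nat_lit 312) (nat_lit 258) (nat_lit 210))) (XT.nd (nat_lit 78) (nat_lit 0) (nat_lit 0) (XT.lf (nat_lit 0) (nat_lit 1243465846252) (nat_lit 76) (nat_lit 249571773842) (nat_lit 76) (nat_lit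 243803055810) (nat_lit 1) (nat_lit 4) (nat_lit 2) (nat_lit 5) (nat_lit 2) (nat_lit 4) (nat_lit 313) (nat_lit 258) (nat_lit 209)) (XT.nd (nat_lit 78) (nat_lit 0) (nat_lit 0) (XT.lf (nat_lit 0) (nat_lit 1444271497476) (nat_lit 76) (nat_lit 278901476072) (nat_lit 76) (nat_lit 273131958685) (nat_lit 1) (nat_lit 4) (nat_lit 2) (nat_lit 5) (nat_lit 2) (nat_lit 4) (nat_lit 314) (nat_lit 258) (nat_lit 208)) (XT.lf (nat_lit 0) (nat_lit 1675194306754) (nat_lit 76) (nat_lit 312632503491) (nat_lit 76) (nat_lit 306862291013) (nat_lit 1) (nat_lit 4) (nat_lit 2) (nat_lit 5) (nat_lit 2) (nat_lit 4) (nat_lit 315) (nat_lit 258) (nat_lit 207))))))) (XT.nd (nat_lit 702) (nat_lit 0) (nat_lit 0) (XT.nd (nat_lit 312) (nat_lit 0) (nat_lit 0) (XT.nd (nat_lit 156) (nat_lit 0) (nat_lit 0) (XT.nd (nat_lit 78) (nat_lit 0) (nat_lit 0) (XT.lf (nat_lit 0) (nat_lit 1940752329050) (nat_lit 76) (nat_lit 351424810983)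 (nat_lit 76) (nat_lit 345653994078) (nat_lit 1) (nat_lit 4) (nat_lit 2) (nat_lit 5) (nat_lit 2) (nat_lit 4) (nat_lit 316) (nat_lit 258) (nat_lit 206)) (XT.lf (nat_lit 0) (nat_lit 2246141264799) (nat_lit 76) (nat_lit 396037378478) (nat_lit 76) (nat_lit 390266035984) (nat_lit 1) (nat_lit 4) (nat_lit 2) (nat_lit 5) (nat_lit 2) (nat_lit 4) (nat_lit 317) (nat_lit 258) (nat_lit 205))) (XT.nd (nat_lit 78) (nat_lit 0) (nat_lit 0) (XT.lf (nat_lit 0) (nat_lit 2597336114919) (nat_lit 76) (nat_lit 447343060557) (nat_lit 76) (nat_lit 441571261029) (nat_lit 1) (nat_lit 4) (nat_lit 2) (nat_lit 5) (nat_lit 2) (nat_lit 4) (nat_lit 318) (nat_lit 258) (nat_lit 204)) (XT.lf (nat_lit 0) (nat_lit 3001208082998) (nat_lit 76) (nat_lit 506345664043) (nat_lit 76) (nat_lit 500573467095) (nat_lit 1) (nat_lit 4) (nat_lit 2) (nat_lit 5) (nat_lit 2) (nat_lit 4) (nat_lit 319) (nat_lit 258) (nat_lit 203)))) (XT.nd (nat_lit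 156) (nat_lit 0) (nat_lit 0) (XT.nd (nat_lit 78) (nat_lit 0) (nat_lit 0) (XT.lf (nat_lit 0) (nat_lit 3465659011892) (nat_lit 76) (nat_lit 574199587701) (nat_lit 76) (nat_lit 568427045169) (nat_lit 1) (nat_lit 4) (nat_lit 2) (nat_lit 5) (nat_lit 2) (nat_lit 4) (nat_lit 320) (nat_lit 258) (nat_lit 202)) (XT.lf (nat_lit 0) (nat_lit 3999775984990) (nat_lit 76) (nat_lit 652232408297) (nat_lit 76) (nat_lit 646459565258) (nat_lit 1) (nat_lit 4) (nat_lit 2) (nat_lit 5) (nat_lit 2) (nat_lit 4) (nat_lit 321) (nat_lit 258) (nat_lit 201))) (XT.nd (nat_lit 78) (nat_lit 0) (nat_lit 0) (XT.lf (nat_lit 0) (nat_lit 4614009116984) (nat_lit 76) (nat_lit 741970854930) (nat_lit 76) (nat_lit 736197750580) (nat_lit 1) (nat_lit 4) (nat_lit 2) (nat_lit 5) (nat_lit 2) (nat_lit 4) (nat_lit 322) (nat_lit 258) (nat_lit 200)) (XT.nd (nat_lit 78) (nat_lit 0) (nat_lit 0) (XT.lf (nat_lit 0) (nat_lit 5320376012631) (nat_lit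 76) (nat_lit 845170679816) (nat_lit 76) (nat_lit 839397348240) (nat_lit 1) (nat_lit 4) (nat_lit 2) (nat_lit 5) (nat_lit 2) (nat_lit 4) (nat_lit 323) (nat_lit 258) (nat_lit 199)) (XT.lf (nat_lit 0) (nat_lit 6132696893802) (nat_lit 76) (nat_lit 963851009965) (nat_lit 76) (nat_lit 958077480801) (nat_lit 1) (nat_lit 4) (nat_lit 2) (nat_lit 5) (nat_lit 2) (nat_lit 4) (nat_lit 324) (nat_lit 258) (nat_lit 198)))))) (XT.nd (nat_lit 312) (nat_lit 0) (nat_lit 0) (XT.nd (nat_lit 156) (nat_lit 0) (nat_lit 0) (XT.nd (nat_lit 78) (nat_lit 0) (nat_lit 0) (XT.lf (nat_lit 0) (nat_lit 7066864995128) (nat_lit 76) (nat_lit 1100333851836) (nat_lit 76) (nat_lit 1094560150855) (nat_lit 1) (nat_lit 4) (nat_lit 2) (nat_lit 5) (nat_lit 2) (nat_lit 4) (nat_lit 325) (nat_lit 258) (nat_lit 197)) (XT.lf (nat_lit 0) (nat_lit 8141157518592) (nat_lit 76) (nat_lit 1257289521899) (nat_lit 76) (nat_lit 1251515671514) (nat_lit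 1) (nat_lit 4) (nat_lit 2) (nat_lit 5) (nat_lit 2) (nat_lit 4) (nat_lit 326) (nat_lit 258) (nat_lit 196))) (XT.nd (nat_lit 78) (nat_lit 0) (nat_lit 0) (XT.lf (nat_lit 0) (nat_lit 9376593230958) (nat_lit 76) (nat_lit 1437788891962) (nat_lit 76) (nat_lit 1432014911659) (nat_lit 1) (nat_lit 4) (nat_lit 2) (nat_lit 5) (nat_lit 2) (nat_lit 4) (nat_lit 327) (nat_lit 258) (nat_lit 195)) (XT.lf (nat_lit 0) (nat_lit 10797343700510) (nat_lit 76) (nat_lit 1645363471438) (nat_lit 76) (nat_lit 1639589378163) (nat_lit 1) (nat_lit 4) (nat_lit 2) (nat_lit 5) (nat_lit 2) (nat_lit 4) (nat_lit 328) (nat_lit 258) (nat_lit 194)))) (XT.nd (nat_lit 156) (nat_lit 0) (nat_lit 0) (XT.nd (nat_lit 78) (nat_lit 0) (nat_lit 0) (XT.lf (nat_lit 0) (nat_lit 12431206219044) (nat_lit 76) (nat_lit 1884074502099) (nat_lit 76) (nat_lit 1878300310588) (nat_lit 1) (nat_lit 4) (nat_lit 2) (nat_lit 5) (nat_lit 2) (nat_lit 4)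 (nat_lit 329) (nat_lit 258) (nat_lit 193)) (XT.lf (nat_lit 0) (nat_lit 14310147661923) (nat_lit 76) (nat_lit 2158592417154) (nat_lit 76) (nat_lit 2152818140220) (nat_lit 1) (nat_lit 4) (nat_lit 2) (nat_lit 5) (nat_lit 2) (nat_lit 4) (nat_lit 330) (nat_lit 258) (nat_lit 192))) (XT.nd (nat_lit 78) (nat_lit 0) (nat_lit 0) (XT.lf (nat_lit 0) (nat_lit 16470929926943) (nat_lit 76) (nat_lit 2474288219289) (nat_lit 76) (nat_lit 2468513868074) (nat_lit 1) (nat_lit 4) (nat_lit 2) (nat_lit 5) (nat_lit 2) (nat_lit 4) (nat_lit 331) (nat_lit 258) (nat_lit 191)) (XT.nd (nat_lit 78) (nat_lit 0) (nat_lit 0) (XT.lf (nat_lit 0) (nat_lit 18955829188854) (nat_lit 76) (nat_lit 2837338565502) (nat_lit 76) (nat_lit 2831564149695) (nat_lit 1) (nat_lit 4) (nat_lit 2) (nat_lit 5) (nat_lit 2) (nat_lit 4) (nat_lit 332) (nat_lit 258) (nat_lit 190)) (XT.lf (nat_lit 0) (nat_lit 21813463041910) (nat_lit 76) (nat_lit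 3254846614741) (nat_lit 76) (nat_lit 3249072142767) (nat_lit 1) (nat_lit 4) (nat_lit 2) (nat_lit 5) (nat_lit 2) (nat_lit 4) (nat_lit 333) (nat_lit 258) (nat_lit 189))))))))
noncomputable def xc45 : XT := (XT.nd (nat_lit 35724) (nat_lit 0) (nat_lit 76) (XT.nd (nat_lit 35022) (nat_lit 0) (nat_lit 1064) (XT.nd (nat_lit 312) (nat_lit 0) (nat_lit 0) (XT.nd (nat_lit 156) (nat_lit 0) (nat_lit 0) (XT.nd (nat_lit 78) (nat_lit 0) (nat_lit 0) (XT.lf (nat_lit 0) (nat_lit 25099741713671) (nat_lit 76) (nat_lit 3734981002752) (nat_lit 76) (nat_lit 3729206481937) (nat_lit 1) (nat_lit 4) (nat_lit 2) (nat_lit 5) (nat_lit 2) (nat_lit 4) (nat_lit 334) (nat_lit 258) (nat_lit 188)) (XT.lf (nat_lit 0) (nat_lit 28878961960760) (nat_lit 76) (nat_lit 4287135663213) (nat_lit 76) (nat_lit 4281361099928) (nat_lit 1) (nat_lit 4) (nat_lit 2) (nat_lit 5) (nat_lit 2) (nat_lit 4) (nat_lit 335) (nat_lit 258) (nat_lit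 187))) (XT.nd (nat_lit 78) (nat_lit 0) (nat_lit 0) (XT.lf (nat_lit 0) (nat_lit 33225065048879) (nat_lit 76) (nat_lit 4922113622089) (nat_lit 76) (nat_lit 4916339021874) (nat_lit 1) (nat_lit 4) (nat_lit 2) (nat_lit 5) (nat_lit 2) (nat_lit 4) (nat_lit 336) (nat_lit 258) (nat_lit 186)) (XT.lf (nat_lit 0) (nat_lit 38223083429752) (nat_lit 76) (nat_lit 5652338361186) (nat_lit 76) (nat_lit 5646563728857) (nat_lit 1) (nat_lit 4) (nat_lit 2) (nat_lit 5) (nat_lit 2) (nat_lit 4) (nat_lit 337) (nat_lit 258) (nat_lit 185)))) (XT.nd (nat_lit 156) (nat_lit 0) (nat_lit 0) (XT.nd (nat_lit 78) (nat_lit 0) (nat_lit 0) (XT.lf (nat_lit 0) (nat_lit 43970804419528) (nat_lit 76) (nat_lit 6492096886267) (nat_lit 76) (nat_lit 6486322226013) (nat_lit 1) (nat_lit 4) (nat_lit 2) (nat_lit 5) (nat_lit 2) (nat_lit 4) (nat_lit 338) (nat_lit 258) (nat_lit 184)) (XT.lf (nat_lit 0) (nat_lit 50580683428876) (nat_lit 76)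 (nat_lit 7457819255433) (nat_lit 76) (nat_lit 7452044570896) (nat_lit 1) (nat_lit 4) (nat_lit 2) (nat_lit 5) (nat_lit 2) (nat_lit 4) (nat_lit 339) (nat_lit 258) (nat_lit 183))) (XT.nd (nat_lit 1170) (nat_lit 0) (nat_lit 0) (XT.lf (nat_lit 0) (nat_lit 58182044177544) (nat_lit 76) (nat_lit 8568400036775) (nat_lit 76) (nat_lit 8562625331123) (nat_lit 1) (nat_lit 4) (nat_lit 2) (nat_lit 5) (nat_lit 2) (nat_lit 4) (nat_lit 340) (nat_lit 258) (nat_lit 182)) (XT.nd (nat_lit 78) (nat_lit 0) (nat_lit 0) (XT.lf (nat_lit 0) (nat_lit 474109274846791) (nat_lit 76) (nat_lit 69336581995530) (nat_lit 76) (nat_lit 69330807166410) (nat_lit 1) (nat_lit 4) (nat_lit 2) (nat_lit 5) (nat_lit 2) (nat_lit 4) (nat_lit 355) (nat_lit 258) (nat_lit 167)) (XT.lf (nat_lit 0) (nat_lit 545239923640782) (nat_lit 76) (nat_lit 79728977526098) (nat_lit 76) (nat_lit 79723202694721) (nat_lit 1) (nat_lit 4) (nat_lit 2) (nat_lit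 5) (nat_lit 2) (nat_lit 4) (nat_lit 356) (nat_lit 258) (nat_lit 166)))))) (XT.nd (nat_lit 312) (nat_lit 912) (nat_lit 0) (XT.nd (nat_lit 156) (nat_lit 228) (nat_lit 0) (XT.nd (nat_lit 78) (nat_lit 0) (nat_lit 0) (XT.lf (nat_lit 0) (nat_lit 102934150) (nat_lit 76) (nat_lit 1580959460) (nat_lit 76) (nat_lit 1580959460) (nat_lit 30) (nat_lit 4) (nat_lit 31) (nat_lit 5) (nat_lit 31) (nat_lit 4) (nat_lit 262) (nat_lit 259) (nat_lit 259)) (XT.lf (nat_lit 0) (nat_lit 4186237075) (nat_lit 76) (nat_lit 2390343307) (nat_lit 76) (nat_lit 86162365) (nat_lit 30) (nat_lit 4) (nat_lit 31) (nat_lit 5) (nat_lit 31) (nat_lit 4) (nat_lit 263) (nat_lit 259) (nat_lit 258))) (XT.nd (nat_lit 78) (nat_lit 0) (nat_lit 0) (XT.lf (nat_lit 0) (nat_lit 1557991681) (nat_lit 152) (nat_lit 1170291214) (nat_lit 228) (nat_lit 4131541831) (nat_lit 27) (nat_lit 5) (nat_lit 29) (nat_lit 5) (nat_lit 30) (nat_lit 4) (nat_lit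 264) (nat_lit 259) (nat_lit 257)) (XT.lf (nat_lit 0) (nat_lit 5671393664) (nat_lit 228) (nat_lit 1049521059) (nat_lit 0) (nat_lit 410429862) (nat_lit 27) (nat_lit 5) (nat_lit 30) (nat_lit 4) (nat_lit 27) (nat_lit 4) (nat_lit 265) (nat_lit 259) (nat_lit 256)))) (XT.nd (nat_lit 156) (nat_lit 304) (nat_lit 0) (XT.nd (nat_lit 78) (nat_lit 304) (nat_lit 0) (XT.lf (nat_lit 0) (nat_lit 1295419694) (nat_lit 304) (nat_lit 3793234392) (nat_lit 76) (nat_lit 2373044558) (nat_lit 23) (nat_lit 5) (nat_lit 27) (nat_lit 5) (nat_lit 24) (nat_lit 4) (nat_lit 266) (nat_lit 259) (nat_lit 255)) (XT.lf (nat_lit 0) (nat_lit 994237807) (nat_lit 304) (nat_lit 3060743448) (nat_lit 380) (nat_lit 3816976697) (nat_lit 19) (nat_lit 5) (nat_lit 23) (nat_lit 5) (nat_lit 24) (nat_lit 4) (nat_lit 267) (nat_lit 259) (nat_lit 254))) (XT.nd (nat_lit 78) (nat_lit 304) (nat_lit 0) (XT.lf (nat_lit 0) (nat_lit 6543494979) (nat_lit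 304) (nat_lit 555866825) (nat_lit 380) (nat_lit 1265356287) (nat_lit 19) (nat_lit 5) (nat_lit 23) (nat_lit 5) (nat_lit 24) (nat_lit 4) (nat_lit 268) (nat_lit 259) (nat_lit 253)) (XT.nd (nat_lit 78) (nat_lit 76) (nat_lit 0) (XT.lf (nat_lit 0) (nat_lit 1487414536) (nat_lit 228) (nat_lit 5138023845) (nat_lit 76) (nat_lit 2301744058) (nat_lit 16) (nat_lit 5) (nat_lit 19) (nat_lit 5) (nat_lit 17) (nat_lit 4) (nat_lit 269) (nat_lit 259) (nat_lit 252)) (XT.lf (nat_lit 0) (nat_lit 448741216) (nat_lit 76) (nat_lit 3941816154) (nat_lit 152) (nat_lit 5195418600) (nat_lit 15) (nat_lit 5) (nat_lit 16) (nat_lit 5) (nat_lit 17) (nat_lit 4) (nat_lit 270) (nat_lit 259) (nat_lit 251))))))) (XT.nd (nat_lit 702) (nat_lit 456) (nat_lit 0) (XT.nd (nat_lit 312) (nat_lit 228) (nat_lit 0) (XT.nd (nat_lit 156) (nat_lit 76) (nat_lit 0) (XT.nd (nat_lit 78) (nat_lit 228) (nat_lit 0) (XT.lf (nat_lit 0) (nat_lit 7082517584)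 (nat_lit 76) (nat_lit 658427999) (nat_lit 152) (nat_lit 2601788599) (nat_lit 15) (nat_lit 5) (nat_lit 16) (nat_lit 5) (nat_lit 17) (nat_lit 4) (nat_lit 271) (nat_lit 259) (nat_lit 250)) (XT.lf (nat_lit 0) (nat_lit 387079205) (nat_lit 228) (nat_lit 7911939270) (nat_lit 76) (nat_lit 2906295947) (nat_lit 12) (nat_lit 5) (nat_lit 15) (nat_lit 5) (nat_lit 13) (nat_lit 4) (nat_lit 272) (nat_lit 259) (nat_lit 249))) (XT.nd (nat_lit 78) (nat_lit 76) (nat_lit 0) (XT.lf (nat_lit 0) (nat_lit 3545555045) (nat_lit 228) (nat_lit 1495710036) (nat_lit 76) (nat_lit 7139884183) (nat_lit 12) (nat_lit 5) (nat_lit 15) (nat_lit 5) (nat_lit 13) (nat_lit 4) (nat_lit 273) (nat_lit 259) (nat_lit 248)) (XT.lf (nat_lit 0) (nat_lit 6117070274) (nat_lit 76) (nat_lit 1120776450) (nat_lit 152) (nat_lit 6057027229) (nat_lit 11) (nat_lit 5) (nat_lit 12) (nat_lit 5) (nat_lit 13) (nat_lit 4) (nat_lit 274) (nat_lit 259)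 (nat_lit 247)))) (XT.nd (nat_lit 156) (nat_lit 76) (nat_lit 0) (XT.nd (nat_lit 78) (nat_lit 76) (nat_lit 0) (XT.lf (nat_lit 0) (nat_lit 14139478) (nat_lit 76) (nat_lit 11507496872) (nat_lit 76) (nat_lit 3048826164) (nat_lit 10) (nat_lit 4) (nat_lit 11) (nat_lit 5) (nat_lit 11) (nat_lit 4) (nat_lit 275) (nat_lit 259) (nat_lit 246)) (XT.lf (nat_lit 0) (nat_lit 638280864) (nat_lit 152) (nat_lit 7300484906) (nat_lit 76) (nat_lit 8056781399) (nat_lit 9) (nat_lit 5) (nat_lit 11) (nat_lit 5) (nat_lit 10) (nat_lit 4) (nat_lit 276) (nat_lit 259) (nat_lit 245))) (XT.nd (nat_lit 78) (nat_lit 0) (nat_lit 0) (XT.lf (nat_lit 0) (nat_lit 678329357) (nat_lit 76) (nat_lit 3757627729) (nat_lit 152) (nat_lit 13196511427) (nat_lit 8) (nat_lit 5) (nat_lit 9) (nat_lit 5) (nat_lit 10) (nat_lit 4) (nat_lit 277) (nat_lit 259) (nat_lit 244)) (XT.nd (nat_lit 78) (nat_lit 0) (nat_lit 0) (XT.lf (nat_lit 0) (nat_lit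 9092784812) (nat_lit 152) (nat_lit 9130438161) (nat_lit 0) (nat_lit 1248539252) (nat_lit 8) (nat_lit 5) (nat_lit 10) (nat_lit 4) (nat_lit 8) (nat_lit 4) (nat_lit 278) (nat_lit 259) (nat_lit 243)) (XT.lf (nat_lit 0) (nat_lit 14493336696) (nat_lit 152) (nat_lit 560390223) (nat_lit 0) (nat_lit 6526668442) (nat_lit 8) (nat_lit 5) (nat_lit 10) (nat_lit 4) (nat_lit 8) (nat_lit 4) (nat_lit 279) (nat_lit 259) (nat_lit 242)))))) (XT.nd (nat_lit 390) (nat_lit 228) (nat_lit 0) (XT.nd (nat_lit 156) (nat_lit 76) (nat_lit 0) (XT.nd (nat_lit 78) (nat_lit 76) (nat_lit 0) (XT.lf (nat_lit 0) (nat_lit 9966567628) (nat_lit 76) (nat_lit 11033807044) (nat_lit 76) (nat_lit 2960684273) (nat_lit 7) (nat_lit 4) (nat_lit 8) (nat_lit 5) (nat_lit 8) (nat_lit 4) (nat_lit 280) (nat_lit 259) (nat_lit 241)) (XT.lf (nat_lit 0) (nat_lit 1541420001) (nat_lit 152) (nat_lit 4851638913) (nat_lit 76) (nat_lit 20307478285)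 (nat_lit 6) (nat_lit 5) (nat_lit 8) (nat_lit 5) (nat_lit 7) (nat_lit 4) (nat_lit 281) (nat_lit 259) (nat_lit 240))) (XT.nd (nat_lit 78) (nat_lit 0) (nat_lit 0) (XT.lf (nat_lit 0) (nat_lit 5853690779) (nat_lit 76) (nat_lit 704391827) (nat_lit 152) (nat_lit 23250481641) (nat_lit 5) (nat_lit 5) (nat_lit 6) (nat_lit 5) (nat_lit 7) (nat_lit 4) (nat_lit 282) (nat_lit 259) (nat_lit 239)) (XT.nd (nat_lit 78) (nat_lit 0) (nat_lit 0) (XT.lf (nat_lit 0) (nat_lit 12736632304) (nat_lit 152) (nat_lit 15079697591) (nat_lit 0) (nat_lit 5505169350) (nat_lit 5) (nat_lit 5) (nat_lit 7) (nat_lit 4) (nat_lit 5) (nat_lit 4) (nat_lit 283) (nat_lit 259) (nat_lit 238)) (XT.lf (nat_lit 0) (nat_lit 19790273158) (nat_lit 152) (nat_lit 5073068967) (nat_lit 0) (nat_lit 12505883495) (nat_lit 5) (nat_lit 5) (nat_lit 7) (nat_lit 4) (nat_lit 5) (nat_lit 4) (nat_lit 284) (nat_lit 259) (nat_lit 237))))) (XT.nd (nat_lit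 156) (nat_lit 152) (nat_lit 0) (XT.nd (nat_lit 78) (nat_lit 0) (nat_lit 0) (XT.lf (nat_lit 0) (nat_lit 6904662424) (nat_lit 76) (nat_lit 21209088743) (nat_lit 76) (nat_lit 13878675855) (nat_lit 4) (nat_lit 4) (nat_lit 5) (nat_lit 5) (nat_lit 5) (nat_lit 4) (nat_lit 285) (nat_lit 259) (nat_lit 236)) (XT.lf (nat_lit 0) (nat_lit 21111177357) (nat_lit 76) (nat_lit 16769592588) (nat_lit 76) (nat_lit 9399159504) (nat_lit 4) (nat_lit 4) (nat_lit 5) (nat_lit 5) (nat_lit 5) (nat_lit 4) (nat_lit 286) (nat_lit 259) (nat_lit 235))) (XT.nd (nat_lit 78) (nat_lit 152) (nat_lit 0) (XT.lf (nat_lit 0) (nat_lit 37328652190) (nat_lit 76) (nat_lit 11723177102) (nat_lit 76) (nat_lit 4317943848) (nat_lit 4) (nat_lit 4) (nat_lit 5) (nat_lit 5) (nat_lit 5) (nat_lit 4) (nat_lit 287) (nat_lit 259) (nat_lit 234)) (XT.nd (nat_lit 78) (nat_lit 76) (nat_lit 0) (XT.lf (nat_lit 0) (nat_lit 1334016415) (nat_lit 152)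 (nat_lit 4567358979) (nat_lit 76) (nat_lit 54470636252) (nat_lit 3) (nat_lit 5) (nat_lit 5) (nat_lit 5) (nat_lit 4) (nat_lit 4) (nat_lit 288) (nat_lit 259) (nat_lit 233)) (XT.lf (nat_lit 0) (nat_lit 7780516812) (nat_lit 152) (nat_lit 59262957645) (nat_lit 0) (nat_lit 1291987942) (nat_lit 2) (nat_lit 5) (nat_lit 4) (nat_lit 4) (nat_lit 2) (nat_lit 4) (nat_lit 289) (nat_lit 259) (nat_lit 232))))))))
noncomputable def xc46 : XT := (XT.nd (nat_lit 1404) (nat_lit 0) (nat_lit 0) (XT.nd (nat_lit 702) (nat_lit 0) (nat_lit 0) (XT.nd (nat_lit 312) (nat_lit 76) (nat_lit 0) (XT.nd (nat_lit 156) (nat_lit 0) (nat_lit 0) (XT.nd (nat_lit 78) (nat_lit 0) (nat_lit 0) (XT.lf (nat_lit 0) (nat_lit 15677409372) (nat_lit 152) (nat_lit 52574562067) (nat_lit 0) (nat_lit 9168983391) (nat_lit 2) (nat_lit 5) (nat_lit 4) (nat_lit 4) (nat_lit 2) (nat_lit 4) (nat_lit 290) (nat_lit 259) (nat_lit 231)) (XT.lf (nat_lit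 0) (nat_lit 24717341857) (nat_lit 152) (nat_lit 44966571172) (nat_lit 0) (nat_lit 18191614041) (nat_lit 2) (nat_lit 5) (nat_lit 4) (nat_lit 4) (nat_lit 2) (nat_lit 4) (nat_lit 291) (nat_lit 259) (nat_lit 230))) (XT.nd (nat_lit 78) (nat_lit 0) (nat_lit 0) (XT.lf (nat_lit 0) (nat_lit 35077182512) (nat_lit 152) (nat_lit 36290132963) (nat_lit 0) (nat_lit 28536409622) (nat_lit 2) (nat_lit 5) (nat_lit 4) (nat_lit 4) (nat_lit 2) (nat_lit 4) (nat_lit 292) (nat_lit 259) (nat_lit 229)) (XT.lf (nat_lit 0) (nat_lit 46959623872) (nat_lit 152) (nat_lit 26375491041) (nat_lit 0) (nat_lit 40405768309) (nat_lit 2) (nat_lit 5) (nat_lit 4) (nat_lit 4) (nat_lit 2) (nat_lit 4) (nat_lit 293) (nat_lit 259) (nat_lit 228)))) (XT.nd (nat_lit 156) (nat_lit 76) (nat_lit 0) (XT.nd (nat_lit 78) (nat_lit 0) (nat_lit 0) (XT.lf (nat_lit 0) (nat_lit 60597148485) (nat_lit 152) (nat_lit 15028663281) (nat_lit 0) (nat_lit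 54031916685) (nat_lit 2) (nat_lit 5) (nat_lit 4) (nat_lit 4) (nat_lit 2) (nat_lit 4) (nat_lit 294) (nat_lit 259) (nat_lit 227)) (XT.lf (nat_lit 0) (nat_lit 76256577485) (nat_lit 152) (nat_lit 2027646531) (nat_lit 0) (nat_lit 69681453305) (nat_lit 2) (nat_lit 5) (nat_lit 4) (nat_lit 4) (nat_lit 2) (nat_lit 4) (nat_lit 295) (nat_lit 259) (nat_lit 226))) (XT.nd (nat_lit 78) (nat_lit 0) (nat_lit 0) (XT.lf (nat_lit 0) (nat_lit 14140842512) (nat_lit 76) (nat_lit 80688990625) (nat_lit 76) (nat_lit 74105264375) (nat_lit 1) (nat_lit 4) (nat_lit 2) (nat_lit 5) (nat_lit 2) (nat_lit 4) (nat_lit 296) (nat_lit 259) (nat_lit 225)) (XT.nd (nat_lit 78) (nat_lit 0) (nat_lit 0) (XT.lf (nat_lit 0) (nat_lit 32922779648) (nat_lit 76) (nat_lit 83352705017) (nat_lit 76) (nat_lit 76761498706) (nat_lit 1) (nat_lit 4) (nat_lit 2) (nat_lit 5) (nat_lit 2) (nat_lit 4) (nat_lit 297) (nat_lit 259) (nat_lit 224)) (XT.lf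 (nat_lit 0) (nat_lit 54487481193) (nat_lit 76) (nat_lit 86433473960) (nat_lit 76) (nat_lit 79835763248) (nat_lit 1) (nat_lit 4) (nat_lit 2) (nat_lit 5) (nat_lit 2) (nat_lit 4) (nat_lit 298) (nat_lit 259) (nat_lit 223)))))) (XT.nd (nat_lit 312) (nat_lit 0) (nat_lit 0) (XT.nd (nat_lit 156) (nat_lit 0) (nat_lit 0) (XT.nd (nat_lit 78) (nat_lit 0) (nat_lit 0) (XT.lf (nat_lit 0) (nat_lit 79256865221) (nat_lit 76) (nat_lit 89991573366) (nat_lit 76) (nat_lit 83388206653) (nat_lit 1) (nat_lit 4) (nat_lit 2) (nat_lit 5) (nat_lit 2) (nat_lit 4) (nat_lit 299) (nat_lit 259) (nat_lit 222)) (XT.lf (nat_lit 0) (nat_lit 107715550115) (nat_lit 76) (nat_lit 94096618224) (nat_lit 76) (nat_lit 87488333250) (nat_lit 1) (nat_lit 4) (nat_lit 2) (nat_lit 5) (nat_lit 2) (nat_lit 4) (nat_lit 300) (nat_lit 259) (nat_lit 221))) (XT.nd (nat_lit 78) (nat_lit 0) (nat_lit 0) (XT.lf (nat_lit 0) (nat_lit 140420336231)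 (nat_lit 76) (nat_lit 98828924629) (nat_lit 76) (nat_lit 92216362906) (nat_lit 1) (nat_lit 4) (nat_lit 2) (nat_lit 5) (nat_lit 2) (nat_lit 4) (nat_lit 301) (nat_lit 259) (nat_lit 220)) (XT.lf (nat_lit 0) (nat_lit 178011099820) (nat_lit 76) (nat_lit 104281081185) (nat_lit 76) (nat_lit 97664800550) (nat_lit 1) (nat_lit 4) (nat_lit 2) (nat_lit 5) (nat_lit 2) (nat_lit 4) (nat_lit 302) (nat_lit 259) (nat_lit 219)))) (XT.nd (nat_lit 156) (nat_lit 0) (nat_lit 0) (XT.nd (nat_lit 78) (nat_lit 0) (nat_lit 0) (XT.lf (nat_lit 0) (nat_lit 221223312344) (nat_lit 76) (nat_lit 110559760520) (nat_lit 76) (nat_lit 103940246048) (nat_lit 1) (nat_lit 4) (nat_lit 2) (nat_lit 5) (nat_lit 2) (nat_lit 4) (nat_lit 303) (nat_lit 259) (nat_lit 218)) (XT.lf (nat_lit 0) (nat_lit 270902430134) (nat_lit 76) (nat_lit 117787806360) (nat_lit 76) (nat_lit 111165479857) (nat_lit 1) (nat_lit 4) (nat_lit 2) (nat_lit 5) (nat_lit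 2) (nat_lit 4) (nat_lit 304) (nat_lit 259) (nat_lit 217))) (XT.nd (nat_lit 78) (nat_lit 0) (nat_lit 0) (XT.lf (nat_lit 0) (nat_lit 328020435929) (nat_lit 76) (nat_lit 126106636994) (nat_lit 76) (nat_lit 119481865245) (nat_lit 1) (nat_lit 4) (nat_lit 2) (nat_lit 5) (nat_lit 2) (nat_lit 4) (nat_lit 305) (nat_lit 259) (nat_lit 216)) (XT.nd (nat_lit 78) (nat_lit 0) (nat_lit 0) (XT.lf (nat_lit 0) (nat_lit 393694855930) (nat_lit 76) (nat_lit 135679012150) (nat_lit 76) (nat_lit 129052114102) (nat_lit 1) (nat_lit 4) (nat_lit 2) (nat_lit 5) (nat_lit 2) (nat_lit 4) (nat_lit 306) (nat_lit 259) (nat_lit 215)) (XT.lf (nat_lit 0) (nat_lit 469210624442) (nat_lit 76) (nat_lit 146692217431) (nat_lit 76) (nat_lit 140063470426) (nat_lit 1) (nat_lit 4) (nat_lit 2) (nat_lit 5) (nat_lit 2) (nat_lit 4) (nat_lit 307) (nat_lit 259) (nat_lit 214))))))) (XT.nd (nat_lit 702) (nat_lit 0) (nat_lit 0) (XT.nd (nat_lit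 312) (nat_lit 0) (nat_lit 0) (XT.nd (nat_lit 156) (nat_lit 0) (nat_lit 0) (XT.nd (nat_lit 78) (nat_lit 0) (nat_lit 0) (XT.lf (nat_lit 0) (nat_lit 556045223891) (nat_lit 76) (nat_lit 159361728591) (nat_lit 76) (nat_lit 152731373798) (nat_lit 1) (nat_lit 4) (nat_lit 2) (nat_lit 5) (nat_lit 2) (nat_lit 4) (nat_lit 308) (nat_lit 259) (nat_lit 213)) (XT.lf (nat_lit 0) (nat_lit 655897592093) (nat_lit 76) (nat_lit 173935427371) (nat_lit 76) (nat_lit 167303674501) (nat_lit 1) (nat_lit 4) (nat_lit 2) (nat_lit 5) (nat_lit 2) (nat_lit 4) (nat_lit 309) (nat_lit 259) (nat_lit 212))) (XT.nd (nat_lit 78) (nat_lit 0) (nat_lit 0) (XT.lf (nat_lit 0) (nat_lit 770721362339) (nat_lit 76) (nat_lit 190698451356) (nat_lit 76) (nat_lit 184065482766) (nat_lit 1) (nat_lit 4) (nat_lit 2) (nat_lit 5) (nat_lit 2) (nat_lit 4) (nat_lit 310) (nat_lit 259) (nat_lit 211)) (XT.lf (nat_lit 0) (nat_lit 902763086656) (nat_lit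 76) (nat_lit 209978772753) (nat_lit 76) (nat_lit 203344747016) (nat_lit 1) (nat_lit 4) (nat_lit 2) (nat_lit 5) (nat_lit 2) (nat_lit 4) (nat_lit 311) (nat_lit 259) (nat_lit 210)))) (XT.nd (nat_lit 156) (nat_lit 0) (nat_lit 0) (XT.nd (nat_lit 78) (nat_lit 0) (nat_lit 0) (XT.lf (nat_lit 0) (nat_lit 1054606190084) (nat_lit 76) (nat_lit 232153615242) (nat_lit 76) (nat_lit 225518670247) (nat_lit 1) (nat_lit 4) (nat_lit 2) (nat_lit 5) (nat_lit 2) (nat_lit 4) (nat_lit 312) (nat_lit 259) (nat_lit 209)) (XT.lf (nat_lit 0) (nat_lit 1229221515952) (nat_lit 76) (nat_lit 257656834438) (nat_lit 76) (nat_lit 251021090088) (nat_lit 1) (nat_lit 4) (nat_lit 2) (nat_lit 5) (nat_lit 2) (nat_lit 4) (nat_lit 313) (nat_lit 259) (nat_lit 208))) (XT.nd (nat_lit 78) (nat_lit 0) (nat_lit 0) (XT.lf (nat_lit 0) (nat_lit 1430025451069) (nat_lit 76) (nat_lit 286987406367) (nat_lit 76) (nat_lit 280350966926) (nat_lit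 1) (nat_lit 4) (nat_lit 2) (nat_lit 5) (nat_lit 2) (nat_lit 4) (nat_lit 314) (nat_lit 259) (nat_lit 207)) (XT.nd (nat_lit 78) (nat_lit 0) (nat_lit 0) (XT.lf (nat_lit 0) (nat_lit 1660946768080) (nat_lit 76) (nat_lit 320719190047) (nat_lit 76) (nat_lit 314082146179) (nat_lit 1) (nat_lit 4) (nat_lit 2) (nat_lit 5) (nat_lit 2) (nat_lit 4) (nat_lit 315) (nat_lit 259) (nat_lit 206)) (XT.lf (nat_lit 0) (nat_lit 1926503492752) (nat_lit 76) (nat_lit 359512155157) (nat_lit 76) (nat_lit 352874585700) (nat_lit 1) (nat_lit 4) (nat_lit 2) (nat_lit 5) (nat_lit 2) (nat_lit 4) (nat_lit 316) (nat_lit 259) (nat_lit 205)))))) (XT.nd (nat_lit 390) (nat_lit 0) (nat_lit 0) (XT.nd (nat_lit 156) (nat_lit 0) (nat_lit 0) (XT.nd (nat_lit 78) (nat_lit 0) (nat_lit 0) (XT.lf (nat_lit 0) (nat_lit 2231891300133) (nat_lit 76) (nat_lit 404125294494) (nat_lit 76) (nat_lit 397487268003) (nat_lit 1) (nat_lit 4) (nat_lit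 2) (nat_lit 5) (nat_lit 2) (nat_lit 4) (nat_lit 317) (nat_lit 259) (nat_lit 204)) (XT.lf (nat_lit 0) (nat_lit 2583085169063) (nat_lit 76) (nat_lit 455431473827) (nat_lit 76) (nat_lit 448793049915) (nat_lit 1) (nat_lit 4) (nat_lit 2) (nat_lit 5) (nat_lit 2) (nat_lit 4) (nat_lit 318) (nat_lit 259) (nat_lit 203))) (XT.nd (nat_lit 78) (nat_lit 0) (nat_lit 0) (XT.lf (nat_lit 0) (nat_lit 2986956283934) (nat_lit 76) (nat_lit 514434509708) (nat_lit 76) (nat_lit 507795740213) (nat_lit 1) (nat_lit 4) (nat_lit 2) (nat_lit 5) (nat_lit 2) (nat_lit 4) (nat_lit 319) (nat_lit 259) (nat_lit 202)) (XT.nd (nat_lit 78) (nat_lit 0) (nat_lit 0) (XT.lf (nat_lit 0) (nat_lit 3451406470907) (nat_lit 76) (nat_lit 582288809360) (nat_lit 76) (nat_lit 575649739358) (nat_lit 1) (nat_lit 4) (nat_lit 2) (nat_lit 5) (nat_lit 2) (nat_lit 4) (nat_lit 320) (nat_lit 259) (nat_lit 201)) (XT.lf (nat_lit 0) (nat_lit 3985522798857)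 (nat_lit 76) (nat_lit 660321956909) (nat_lit 76) (nat_lit 653682625596) (nat_lit 1) (nat_lit 4) (nat_lit 2) (nat_lit 5) (nat_lit 2) (nat_lit 4) (nat_lit 321) (nat_lit 259) (nat_lit 200))))) (XT.nd (nat_lit 156) (nat_lit 0) (nat_lit 0) (XT.nd (nat_lit 78) (nat_lit 0) (nat_lit 0) (XT.lf (nat_lit 0) (nat_lit 4599755369853) (nat_lit 76) (nat_lit 750060687848) (nat_lit 76) (nat_lit 743421129309) (nat_lit 1) (nat_lit 4) (nat_lit 2) (nat_lit 5) (nat_lit 2) (nat_lit 4) (nat_lit 322) (nat_lit 259) (nat_lit 199)) (XT.lf (nat_lit 0) (nat_lit 5306121777675) (nat_lit 76) (nat_lit 853260759957) (nat_lit 76) (nat_lit 846621003830) (nat_lit 1) (nat_lit 4) (nat_lit 2) (nat_lit 5) (nat_lit 2) (nat_lit 4) (nat_lit 323) (nat_lit 259) (nat_lit 198))) (XT.nd (nat_lit 78) (nat_lit 0) (nat_lit 0) (XT.lf (nat_lit 0) (nat_lit 6118442234650) (nat_lit 76) (nat_lit 971941305083) (nat_lit 76) (nat_lit 965301377139)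 (nat_lit 1) (nat_lit 4) (nat_lit 2) (nat_lit 5) (nat_lit 2) (nat_lit 4) (nat_lit 324) (nat_lit 259) (nat_lit 197)) (XT.nd (nat_lit 78) (nat_lit 0) (nat_lit 0) (XT.lf (nat_lit 0) (nat_lit 7052609967111) (nat_lit 76) (nat_lit 1108424333889) (nat_lit 76) (nat_lit 1101784256541) (nat_lit 1) (nat_lit 4) (nat_lit 2) (nat_lit 5) (nat_lit 2) (nat_lit 4) (nat_lit 325) (nat_lit 259) (nat_lit 196)) (XT.lf (nat_lit 0) (nat_lit 8126902169822) (nat_lit 76) (nat_lit 1265380166506) (nat_lit 76) (nat_lit 1258739959240) (nat_lit 1) (nat_lit 4) (nat_lit 2) (nat_lit 5) (nat_lit 2) (nat_lit 4) (nat_lit 326) (nat_lit 259) (nat_lit 195))))))))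
noncomputable def xc47 : XT := (XT.nd (nat_lit 35568) (nat_lit 0) (nat_lit 456) (XT.nd (nat_lit 702) (nat_lit 0) (nat_lit 0) (XT.nd (nat_lit 312) (nat_lit 0) (nat_lit 0) (XT.nd (nat_lit 156) (nat_lit 0) (nat_lit 0) (XT.nd (nat_lit 78) (nat_lit 0) (nat_lit 0) (XT.lf (nat_lit 0) (nat_lit 9362337603272) (nat_lit 76) (nat_lit 1445879677920) (nat_lit 76) (nat_lit 1439239357682) (nat_lit 1) (nat_lit 4) (nat_lit 2) (nat_lit 5) (nat_lit 2) (nat_lit 4) (nat_lit 327) (nat_lit 259) (nat_lit 194)) (XT.lf (nat_lit 0) (nat_lit 10783087830289) (nat_lit 76) (nat_lit 1653454380309) (nat_lit 76) (nat_lit 1646813961835) (nat_lit 1) (nat_lit 4) (nat_lit 2) (nat_lit 5) (nat_lit 2) (nat_lit 4) (nat_lit 328) (nat_lit 259) (nat_lit 193))) (XT.nd (nat_lit 78) (nat_lit 0) (nat_lit 0) (XT.lf (nat_lit 0) (nat_lit 12416950137923) (nat_lit 76) (nat_lit 1892165517851) (nat_lit 76) (nat_lit 1885525013954) (nat_lit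 1) (nat_lit 4) (nat_lit 2) (nat_lit 5) (nat_lit 2) (nat_lit 4) (nat_lit 329) (nat_lit 259) (nat_lit 192)) (XT.lf (nat_lit 0) (nat_lit 14295891397411) (nat_lit 76) (nat_lit 2166683525847) (nat_lit 76) (nat_lit 2160042947669) (nat_lit 1) (nat_lit 4) (nat_lit 2) (nat_lit 5) (nat_lit 2) (nat_lit 4) (nat_lit 330) (nat_lit 259) (nat_lit 191)))) (XT.nd (nat_lit 156) (nat_lit 0) (nat_lit 0) (XT.nd (nat_lit 78) (nat_lit 0) (nat_lit 0) (XT.lf (nat_lit 0) (nat_lit 16456673502960) (nat_lit 76) (nat_lit 2482379408799) (nat_lit 76) (nat_lit 2475738766030) (nat_lit 1) (nat_lit 4) (nat_lit 2) (nat_lit 5) (nat_lit 2) (nat_lit 4) (nat_lit 331) (nat_lit 259) (nat_lit 190)) (XT.lf (nat_lit 0) (nat_lit 18941572626201) (nat_lit 76) (nat_lit 2845429825288) (nat_lit 76) (nat_lit 2838789126352) (nat_lit 1) (nat_lit 4) (nat_lit 2) (nat_lit 5) (nat_lit 2) (nat_lit 4) (nat_lit 332) (nat_lit 259) (nat_lit 189)))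 (XT.nd (nat_lit 78) (nat_lit 0) (nat_lit 0) (XT.lf (nat_lit 0) (nat_lit 21799206358674) (nat_lit 76) (nat_lit 3262937935637) (nat_lit 76) (nat_lit 3256297187860) (nat_lit 1) (nat_lit 4) (nat_lit 2) (nat_lit 5) (nat_lit 2) (nat_lit 4) (nat_lit 333) (nat_lit 259) (nat_lit 188)) (XT.nd (nat_lit 78) (nat_lit 0) (nat_lit 0) (XT.lf (nat_lit 0) (nat_lit 25085484925581) (nat_lit 76) (nat_lit 3743072376787) (nat_lit 76) (nat_lit 3736431586539) (nat_lit 1) (nat_lit 4) (nat_lit 2) (nat_lit 5) (nat_lit 2) (nat_lit 4) (nat_lit 334) (nat_lit 259) (nat_lit 187)) (XT.lf (nat_lit 0) (nat_lit 28864705081491) (nat_lit 76) (nat_lit 4295227083455) (nat_lit 76) (nat_lit 4288586256277) (nat_lit 1) (nat_lit 4) (nat_lit 2) (nat_lit 5) (nat_lit 2) (nat_lit 4) (nat_lit 335) (nat_lit 259) (nat_lit 186)))))) (XT.nd (nat_lit 1404) (nat_lit 0) (nat_lit 0) (XT.nd (nat_lit 156) (nat_lit 0) (nat_lit 0) (XT.nd (nat_lit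 78) (nat_lit 0) (nat_lit 0) (XT.lf (nat_lit 0) (nat_lit 33210808090325) (nat_lit 76) (nat_lit 4930205082513) (nat_lit 76) (nat_lit 4923564223221) (nat_lit 1) (nat_lit 4) (nat_lit 2) (nat_lit 5) (nat_lit 2) (nat_lit 4) (nat_lit 336) (nat_lit 259) (nat_lit 185)) (XT.lf (nat_lit 0) (nat_lit 38208826402255) (nat_lit 76) (nat_lit 5660429856549) (nat_lit 76) (nat_lit 5653788969332) (nat_lit 1) (nat_lit 4) (nat_lit 2) (nat_lit 5) (nat_lit 2) (nat_lit 4) (nat_lit 337) (nat_lit 259) (nat_lit 184))) (XT.nd (nat_lit 78) (nat_lit 0) (nat_lit 0) (XT.lf (nat_lit 0) (nat_lit 43956547332080) (nat_lit 76) (nat_lit 6500188412013) (nat_lit 76) (nat_lit 6493547500513) (nat_lit 1) (nat_lit 4) (nat_lit 2) (nat_lit 5) (nat_lit 2) (nat_lit 4) (nat_lit 338) (nat_lit 259) (nat_lit 183)) (XT.lf (nat_lit 0) (nat_lit 50566426289297) (nat_lit 76) (nat_lit 7465910807598) (nat_lit 76) (nat_lit 7459269874983) (nat_lit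 1) (nat_lit 4) (nat_lit 2) (nat_lit 5) (nat_lit 2) (nat_lit 4) (nat_lit 339) (nat_lit 259) (nat_lit 182)))) (XT.nd (nat_lit 156) (nat_lit 0) (nat_lit 0) (XT.nd (nat_lit 78) (nat_lit 0) (nat_lit 0) (XT.lf (nat_lit 0) (nat_lit 412242279310234) (nat_lit 76) (nat_lit 60307808028703) (nat_lit 76) (nat_lit 60301166972619) (nat_lit 1) (nat_lit 4) (nat_lit 2) (nat_lit 5) (nat_lit 2) (nat_lit 4) (nat_lit 354) (nat_lit 259) (nat_lit 167)) (XT.lf (nat_lit 0) (nat_lit 474095017396809) (nat_lit 76) (nat_lit 69344673705002) (nat_lit 76) (nat_lit 69338032646662) (nat_lit 1) (nat_lit 4) (nat_lit 2) (nat_lit 5) (nat_lit 2) (nat_lit 4) (nat_lit 355) (nat_lit 259) (nat_lit 166))) (XT.nd (nat_lit 33150) (nat_lit 0) (nat_lit 2280) (XT.lf (nat_lit 0) (nat_lit 545225666185956) (nat_lit 76) (nat_lit 79737069238025) (nat_lit 76) (nat_lit 79730428177724) (nat_lit 1) (nat_lit 4) (nat_lit 2) (nat_lit 5) (nat_lit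 2) (nat_lit 4) (nat_lit 356) (nat_lit 259) (nat_lit 165)) (XT.nd (nat_lit 78) (nat_lit 76) (nat_lit 0) (XT.lf (nat_lit 0) (nat_lit 0) (nat_lit 0) (nat_lit 0) (nat_lit 0) (nat_lit 1073741823) (nat_lit 1) (nat_lit 0) (nat_lit 1) (nat_lit 0) (nat_lit 32) (nat_lit 0) (nat_lit 260) (nat_lit 260) (nat_lit 260)) (XT.lf (nat_lit 0) (nat_lit 2921097959) (nat_lit 76) (nat_lit 3271259173) (nat_lit 0) (nat_lit 271289875) (nat_lit 31) (nat_lit 5) (nat_lit 32) (nat_lit 0) (nat_lit 31) (nat_lit 4) (nat_lit 261) (nat_lit 260) (nat_lit 259))))))) (XT.nd (nat_lit 702) (nat_lit 684) (nat_lit 0) (XT.nd (nat_lit 312) (nat_lit 836) (nat_lit 0) (XT.nd (nat_lit 156) (nat_lit 152) (nat_lit 0) (XT.nd (nat_lit 78) (nat_lit 76) (nat_lit 0) (XT.lf (nat_lit 0) (nat_lit 26346094) (nat_lit 76) (nat_lit 5747911338) (nat_lit 76) (nat_lit 793922312) (nat_lit 30) (nat_lit 4) (nat_lit 31) (nat_lit 5) (nat_lit 31) (nat_lit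 4) (nat_lit 262) (nat_lit 260) (nat_lit 258)) (XT.lf (nat_lit 0) (nat_lit 1855452474) (nat_lit 152) (nat_lit 2968401807) (nat_lit 76) (nat_lit 1898166567) (nat_lit 29) (nat_lit 5) (nat_lit 31) (nat_lit 5) (nat_lit 30) (nat_lit 4) (nat_lit 263) (nat_lit 260) (nat_lit 257))) (XT.nd (nat_lit 78) (nat_lit 0) (nat_lit 0) (XT.lf (nat_lit 0) (nat_lit 842848175) (nat_lit 152) (nat_lit 3595647001) (nat_lit 228) (nat_lit 2514929479) (nat_lit 27) (nat_lit 5) (nat_lit 29) (nat_lit 5) (nat_lit 30) (nat_lit 4) (nat_lit 264) (nat_lit 260) (nat_lit 256)) (XT.lf (nat_lit 0) (nat_lit 5239213238) (nat_lit 152) (nat_lit 1948770978) (nat_lit 228) (nat_lit 67131584) (nat_lit 27) (nat_lit 5) (nat_lit 29) (nat_lit 5) (nat_lit 30) (nat_lit 4) (nat_lit 265) (nat_lit 260) (nat_lit 255)))) (XT.nd (nat_lit 156) (nat_lit 532) (nat_lit 0) (XT.nd (nat_lit 78) (nat_lit 0) (nat_lit 0) (XT.lf (nat_lit 0) (nat_lit 2270883111)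 (nat_lit 304) (nat_lit 5145754145) (nat_lit 76) (nat_lit 205038127) (nat_lit 23) (nat_lit 5) (nat_lit 27) (nat_lit 5) (nat_lit 24) (nat_lit 4) (nat_lit 266) (nat_lit 260) (nat_lit 254)) (XT.lf (nat_lit 0) (nat_lit 4844366803) (nat_lit 304) (nat_lit 608925215) (nat_lit 76) (nat_lit 2607296050) (nat_lit 23) (nat_lit 5) (nat_lit 27) (nat_lit 5) (nat_lit 24) (nat_lit 4) (nat_lit 267) (nat_lit 260) (nat_lit 253))) (XT.nd (nat_lit 78) (nat_lit 228) (nat_lit 0) (XT.lf (nat_lit 0) (nat_lit 4726063526) (nat_lit 304) (nat_lit 3002589651) (nat_lit 380) (nat_lit 849354108) (nat_lit 19) (nat_lit 5) (nat_lit 23) (nat_lit 5) (nat_lit 24) (nat_lit 4) (nat_lit 268) (nat_lit 260) (nat_lit 252)) (XT.nd (nat_lit 78) (nat_lit 0) (nat_lit 0) (XT.lf (nat_lit 0) (nat_lit 1500134340) (nat_lit 152) (nat_lit 40718422) (nat_lit 228) (nat_lit 7646351968) (nat_lit 16) (nat_lit 5) (nat_lit 18) (nat_lit 5) (nat_lit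 19) (nat_lit 5) (nat_lit 269) (nat_lit 260) (nat_lit 251)) (XT.lf (nat_lit 0) (nat_lit 4311380234) (nat_lit 228) (nat_lit 2294683519) (nat_lit 76) (nat_lit 3260250880) (nat_lit 16) (nat_lit 5) (nat_lit 19) (nat_lit 5) (nat_lit 17) (nat_lit 4) (nat_lit 270) (nat_lit 260) (nat_lit 250)))))) (XT.nd (nat_lit 390) (nat_lit 304) (nat_lit 0) (XT.nd (nat_lit 156) (nat_lit 304) (nat_lit 0) (XT.nd (nat_lit 78) (nat_lit 0) (nat_lit 0) (XT.lf (nat_lit 0) (nat_lit 3965821579) (nat_lit 76) (nat_lit 3487778736) (nat_lit 152) (nat_lit 3201066502) (nat_lit 15) (nat_lit 5) (nat_lit 16) (nat_lit 5) (nat_lit 17) (nat_lit 4) (nat_lit 271) (nat_lit 260) (nat_lit 249)) (XT.lf (nat_lit 0) (nat_lit 10999206220) (nat_lit 152) (nat_lit 434686088) (nat_lit 0) (nat_lit 138261008) (nat_lit 15) (nat_lit 5) (nat_lit 17) (nat_lit 4) (nat_lit 15) (nat_lit 4) (nat_lit 272) (nat_lit 260) (nat_lit 248))) (XT.nd (nat_lit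 78) (nat_lit 76) (nat_lit 0) (XT.lf (nat_lit 0) (nat_lit 2525953223) (nat_lit 228) (nat_lit 5755792582) (nat_lit 76) (nat_lit 4286630977) (nat_lit 12) (nat_lit 5) (nat_lit 15) (nat_lit 5) (nat_lit 13) (nat_lit 4) (nat_lit 273) (nat_lit 260) (nat_lit 247)) (XT.nd (nat_lit 78) (nat_lit 0) (nat_lit 0) (XT.lf (nat_lit 0) (nat_lit 1302821917) (nat_lit 76) (nat_lit 4637915320) (nat_lit 152) (nat_lit 7783201220) (nat_lit 11) (nat_lit 5) (nat_lit 12) (nat_lit 5) (nat_lit 13) (nat_lit 4) (nat_lit 274) (nat_lit 260) (nat_lit 246)) (XT.lf (nat_lit 0) (nat_lit 9809401138) (nat_lit 76) (nat_lit 202412836) (nat_lit 152) (nat_lit 5019803312) (nat_lit 11) (nat_lit 5) (nat_lit 12) (nat_lit 5) (nat_lit 13) (nat_lit 4) (nat_lit 275) (nat_lit 260) (nat_lit 245))))) (XT.nd (nat_lit 156) (nat_lit 152) (nat_lit 0) (XT.nd (nat_lit 78) (nat_lit 76) (nat_lit 0) (XT.lf (nat_lit 0) (nat_lit 2867744692) (nat_lit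 76) (nat_lit 12007410182) (nat_lit 76) (nat_lit 1633395429) (nat_lit 10) (nat_lit 4) (nat_lit 11) (nat_lit 5) (nat_lit 11) (nat_lit 4) (nat_lit 276) (nat_lit 260) (nat_lit 244)) (XT.lf (nat_lit 0) (nat_lit 2217526550) (nat_lit 152) (nat_lit 5768236681) (nat_lit 76) (nat_lit 10183799834) (nat_lit 9) (nat_lit 5) (nat_lit 11) (nat_lit 5) (nat_lit 10) (nat_lit 4) (nat_lit 277) (nat_lit 260) (nat_lit 243))) (XT.nd (nat_lit 78) (nat_lit 76) (nat_lit 0) (XT.lf (nat_lit 0) (nat_lit 3287976041) (nat_lit 76) (nat_lit 3207224379) (nat_lit 152) (nat_lit 13570634257) (nat_lit 8) (nat_lit 5) (nat_lit 9) (nat_lit 5) (nat_lit 10) (nat_lit 4) (nat_lit 278) (nat_lit 260) (nat_lit 242)) (XT.nd (nat_lit 78) (nat_lit 76) (nat_lit 0) (XT.lf (nat_lit 0) (nat_lit 11708859145) (nat_lit 152) (nat_lit 8175420352) (nat_lit 0) (nat_lit 2318313442) (nat_lit 8) (nat_lit 5) (nat_lit 10) (nat_lit 4) (nat_lit 8) (nat_lit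 4) (nat_lit 279) (nat_lit 260) (nat_lit 241)) (XT.lf (nat_lit 0) (nat_lit 1511491668) (nat_lit 76) (nat_lit 16307265014) (nat_lit 76) (nat_lit 6824150166) (nat_lit 7) (nat_lit 4) (nat_lit 8) (nat_lit 5) (nat_lit 8) (nat_lit 4) (nat_lit 280) (nat_lit 260) (nat_lit 240))))))))
noncomputable def xc48 : XT := (XT.nd (nat_lit 1404) (nat_lit 0) (nat_lit 0) (XT.nd (nat_lit 702) (nat_lit 152) (nat_lit 0) (XT.nd (nat_lit 312) (nat_lit 152) (nat_lit 0) (XT.nd (nat_lit 156) (nat_lit 76) (nat_lit 0) (XT.nd (nat_lit 78) (nat_lit 76) (nat_lit 0) (XT.lf (nat_lit 0) (nat_lit 13391048985) (nat_lit 76) (nat_lit 11786088503) (nat_lit 76) (nat_lit 2222478746) (nat_lit 7) (nat_lit 4) (nat_lit 8) (nat_lit 5) (nat_lit 8) (nat_lit 4) (nat_lit 281) (nat_lit 260) (nat_lit 239)) (XT.lf (nat_lit 0) (nat_lit 2709199017) (nat_lit 152) (nat_lit 3808827440) (nat_lit 76) (nat_lit 24045899945) (nat_lit 6) (nat_lit 5)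 (nat_lit 8) (nat_lit 5) (nat_lit 7) (nat_lit 4) (nat_lit 282) (nat_lit 260) (nat_lit 238))) (XT.nd (nat_lit 78) (nat_lit 0) (nat_lit 0) (XT.lf (nat_lit 0) (nat_lit 8421821827) (nat_lit 76) (nat_lit 4360903) (nat_lit 152) (nat_lit 25719958886) (nat_lit 5) (nat_lit 5) (nat_lit 6) (nat_lit 5) (nat_lit 7) (nat_lit 4) (nat_lit 283) (nat_lit 260) (nat_lit 237)) (XT.lf (nat_lit 0) (nat_lit 15445170303) (nat_lit 152) (nat_lit 15784762832) (nat_lit 0) (nat_lit 6969172256) (nat_lit 5) (nat_lit 5) (nat_lit 7) (nat_lit 4) (nat_lit 5) (nat_lit 4) (nat_lit 284) (nat_lit 260) (nat_lit 236)))) (XT.nd (nat_lit 156) (nat_lit 76) (nat_lit 0) (XT.nd (nat_lit 78) (nat_lit 76) (nat_lit 0) (XT.lf (nat_lit 0) (nat_lit 23452764700) (nat_lit 152) (nat_lit 4480212446) (nat_lit 0) (nat_lit 14936746457) (nat_lit 5) (nat_lit 5) (nat_lit 7) (nat_lit 4) (nat_lit 5) (nat_lit 4) (nat_lit 285) (nat_lit 260) (nat_lit 235))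 (XT.lf (nat_lit 0) (nat_lit 9232641524) (nat_lit 76) (nat_lit 23755118143) (nat_lit 76) (nat_lit 15204299730) (nat_lit 4) (nat_lit 4) (nat_lit 5) (nat_lit 5) (nat_lit 5) (nat_lit 4) (nat_lit 286) (nat_lit 260) (nat_lit 234))) (XT.nd (nat_lit 78) (nat_lit 76) (nat_lit 0) (XT.lf (nat_lit 0) (nat_lit 25401575471) (nat_lit 76) (nat_lit 18732567205) (nat_lit 76) (nat_lit 10151487774) (nat_lit 4) (nat_lit 4) (nat_lit 5) (nat_lit 5) (nat_lit 5) (nat_lit 4) (nat_lit 287) (nat_lit 260) (nat_lit 233)) (XT.nd (nat_lit 78) (nat_lit 76) (nat_lit 0) (XT.lf (nat_lit 0) (nat_lit 43905099158) (nat_lit 76) (nat_lit 13001249954) (nat_lit 76) (nat_lit 4393856594) (nat_lit 4) (nat_lit 4) (nat_lit 5) (nat_lit 5) (nat_lit 5) (nat_lit 4) (nat_lit 288) (nat_lit 260) (nat_lit 232)) (XT.lf (nat_lit 0) (nat_lit 1987053768) (nat_lit 152) (nat_lit 4358109433) (nat_lit 76) (nat_lit 63014315560) (nat_lit 3) (nat_lit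 5) (nat_lit 5) (nat_lit 5) (nat_lit 4) (nat_lit 4) (nat_lit 289) (nat_lit 260) (nat_lit 231)))))) (XT.nd (nat_lit 312) (nat_lit 76) (nat_lit 0) (XT.nd (nat_lit 156) (nat_lit 0) (nat_lit 0) (XT.nd (nat_lit 78) (nat_lit 0) (nat_lit 0) (XT.lf (nat_lit 0) (nat_lit 9394378114) (nat_lit 152) (nat_lit 67251553832) (nat_lit 0) (nat_lit 1872489291) (nat_lit 2) (nat_lit 5) (nat_lit 4) (nat_lit 4) (nat_lit 2) (nat_lit 4) (nat_lit 290) (nat_lit 260) (nat_lit 230)) (XT.lf (nat_lit 0) (nat_lit 18417528412) (nat_lit 152) (nat_lit 59677400761) (nat_lit 0) (nat_lit 10880594515) (nat_lit 2) (nat_lit 5) (nat_lit 4) (nat_lit 4) (nat_lit 2) (nat_lit 4) (nat_lit 291) (nat_lit 260) (nat_lit 229))) (XT.nd (nat_lit 78) (nat_lit 0) (nat_lit 0) (XT.lf (nat_lit 0) (nat_lit 28762775861) (nat_lit 152) (nat_lit 51030386746) (nat_lit 0) (nat_lit 21212759291) (nat_lit 2) (nat_lit 5) (nat_lit 4) (nat_lit 4) (nat_lit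 2) (nat_lit 4) (nat_lit 292) (nat_lit 260) (nat_lit 228)) (XT.lf (nat_lit 0) (nat_lit 40632527477) (nat_lit 152) (nat_lit 41141331080) (nat_lit 0) (nat_lit 33071134669) (nat_lit 2) (nat_lit 5) (nat_lit 4) (nat_lit 4) (nat_lit 2) (nat_lit 4) (nat_lit 293) (nat_lit 260) (nat_lit 227)))) (XT.nd (nat_lit 156) (nat_lit 76) (nat_lit 0) (XT.nd (nat_lit 78) (nat_lit 0) (nat_lit 0) (XT.lf (nat_lit 0) (nat_lit 54259017529) (nat_lit 152) (nat_lit 29816752238) (nat_lit 0) (nat_lit 46687732341) (nat_lit 2) (nat_lit 5) (nat_lit 4) (nat_lit 4) (nat_lit 2) (nat_lit 4) (nat_lit 294) (nat_lit 260) (nat_lit 226)) (XT.lf (nat_lit 0) (nat_lit 69908851259) (nat_lit 152) (nat_lit 16835082374) (nat_lit 0) (nat_lit 62328964001) (nat_lit 2) (nat_lit 5) (nat_lit 4) (nat_lit 4) (nat_lit 2) (nat_lit 4) (nat_lit 295) (nat_lit 260) (nat_lit 225))) (XT.nd (nat_lit 78) (nat_lit 76) (nat_lit 0) (XT.lf (nat_lit 0) (nat_lit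 87888221065) (nat_lit 152) (nat_lit 1942332295) (nat_lit 0) (nat_lit 80300853747) (nat_lit 2) (nat_lit 5) (nat_lit 4) (nat_lit 4) (nat_lit 2) (nat_lit 4) (nat_lit 296) (nat_lit 260) (nat_lit 224)) (XT.nd (nat_lit 78) (nat_lit 0) (nat_lit 0) (XT.lf (nat_lit 0) (nat_lit 16633727323) (nat_lit 76) (nat_lit 92603937081) (nat_lit 76) (nat_lit 85010065361) (nat_lit 1) (nat_lit 4) (nat_lit 2) (nat_lit 5) (nat_lit 2) (nat_lit 4) (nat_lit 297) (nat_lit 260) (nat_lit 223)) (XT.lf (nat_lit 0) (nat_lit 38184464799) (nat_lit 76) (nat_lit 95691782824) (nat_lit 76) (nat_lit 88092255104) (nat_lit 1) (nat_lit 4) (nat_lit 2) (nat_lit 5) (nat_lit 2) (nat_lit 4) (nat_lit 298) (nat_lit 260) (nat_lit 222))))))) (XT.nd (nat_lit 702) (nat_lit 0) (nat_lit 0) (XT.nd (nat_lit 312) (nat_lit 0) (nat_lit 0) (XT.nd (nat_lit 156) (nat_lit 0) (nat_lit 0) (XT.nd (nat_lit 78) (nat_lit 0) (nat_lit 0) (XT.lf (nat_lit 0)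 (nat_lit 62941706158) (nat_lit 76) (nat_lit 99256035970) (nat_lit 76) (nat_lit 91651589989) (nat_lit 1) (nat_lit 4) (nat_lit 2) (nat_lit 5) (nat_lit 2) (nat_lit 4) (nat_lit 299) (nat_lit 260) (nat_lit 221)) (XT.lf (nat_lit 0) (nat_lit 91389832209) (nat_lit 76) (nat_lit 103366431906) (nat_lit 76) (nat_lit 95757709176) (nat_lit 1) (nat_lit 4) (nat_lit 2) (nat_lit 5) (nat_lit 2) (nat_lit 4) (nat_lit 300) (nat_lit 260) (nat_lit 220))) (XT.nd (nat_lit 78) (nat_lit 0) (nat_lit 0) (XT.lf (nat_lit 0) (nat_lit 124085436723) (nat_lit 76) (nat_lit 108103391423) (nat_lit 76) (nat_lit 100490949781) (nat_lit 1) (nat_lit 4) (nat_lit 2) (nat_lit 5) (nat_lit 2) (nat_lit 4) (nat_lit 301) (nat_lit 260) (nat_lit 219)) (XT.lf (nat_lit 0) (nat_lit 161668216310) (nat_lit 76) (nat_lit 113559594163) (nat_lit 76) (nat_lit 105943918684) (nat_lit 1) (nat_lit 4) (nat_lit 2) (nat_lit 5) (nat_lit 2) (nat_lit 4) (nat_lit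 302) (nat_lit 260) (nat_lit 218)))) (XT.nd (nat_lit 156) (nat_lit 0) (nat_lit 0) (XT.nd (nat_lit 78) (nat_lit 0) (nat_lit 0) (XT.lf (nat_lit 0) (nat_lit 204873486224) (nat_lit 76) (nat_lit 119841791919) (nat_lit 76) (nat_lit 112223304408) (nat_lit 1) (nat_lit 4) (nat_lit 2) (nat_lit 5) (nat_lit 2) (nat_lit 4) (nat_lit 303) (nat_lit 260) (nat_lit 217)) (XT.lf (nat_lit 0) (nat_lit 254546566961) (nat_lit 76) (nat_lit 127072897256) (nat_lit 76) (nat_lit 119451964500) (nat_lit 1) (nat_lit 4) (nat_lit 2) (nat_lit 5) (nat_lit 2) (nat_lit 4) (nat_lit 304) (nat_lit 260) (nat_lit 216))) (XT.nd (nat_lit 78) (nat_lit 0) (nat_lit 0) (XT.lf (nat_lit 0) (nat_lit 311659323145) (nat_lit 76) (nat_lit 135394388321) (nat_lit 76) (nat_lit 127771329265) (nat_lit 1) (nat_lit 4) (nat_lit 2) (nat_lit 5) (nat_lit 2) (nat_lit 4) (nat_lit 305) (nat_lit 260) (nat_lit 215)) (XT.nd (nat_lit 78) (nat_lit 0) (nat_lit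 0) (XT.lf (nat_lit 0) (nat_lit 377329178267) (nat_lit 76) (nat_lit 144969076897) (nat_lit 76) (nat_lit 137344168884) (nat_lit 1) (nat_lit 4) (nat_lit 2) (nat_lit 5) (nat_lit 2) (nat_lit 4) (nat_lit 306) (nat_lit 260) (nat_lit 214)) (XT.lf (nat_lit 0) (nat_lit 452840977319) (nat_lit 76) (nat_lit 155984293846) (nat_lit 76) (nat_lit 148357778045) (nat_lit 1) (nat_lit 4) (nat_lit 2) (nat_lit 5) (nat_lit 2) (nat_lit 4) (nat_lit 307) (nat_lit 260) (nat_lit 213)))))) (XT.nd (nat_lit 312) (nat_lit 0) (nat_lit 0) (XT.nd (nat_lit 156) (nat_lit 0) (nat_lit 0) (XT.nd (nat_lit 78) (nat_lit 0) (nat_lit 0) (XT.lf (nat_lit 0) (nat_lit 539672125064) (nat_lit 76) (nat_lit 168655554283) (nat_lit 76) (nat_lit 161027640405) (nat_lit 1) (nat_lit 4) (nat_lit 2) (nat_lit 5) (nat_lit 2) (nat_lit 4) (nat_lit 308) (nat_lit 260) (nat_lit 212)) (XT.lf (nat_lit 0) (nat_lit 639521491784) (nat_lit 76) (nat_lit 183230774174)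 (nat_lit 76) (nat_lit 175601644577) (nat_lit 1) (nat_lit 4) (nat_lit 2) (nat_lit 5) (nat_lit 2) (nat_lit 4) (nat_lit 309) (nat_lit 260) (nat_lit 211))) (XT.nd (nat_lit 78) (nat_lit 0) (nat_lit 0) (XT.lf (nat_lit 0) (nat_lit 754342652046) (nat_lit 76) (nat_lit 199995120863) (nat_lit 76) (nat_lit 192364934119) (nat_lit 1) (nat_lit 4) (nat_lit 2) (nat_lit 5) (nat_lit 2) (nat_lit 4) (nat_lit 310) (nat_lit 260) (nat_lit 210)) (XT.lf (nat_lit 0) (nat_lit 886382106811) (nat_lit 76) (nat_lit 219276592438) (nat_lit 76) (nat_lit 211645486436) (nat_lit 1) (nat_lit 4) (nat_lit 2) (nat_lit 5) (nat_lit 2) (nat_lit 4) (nat_lit 311) (nat_lit 260) (nat_lit 209)))) (XT.nd (nat_lit 156) (nat_lit 0) (nat_lit 0) (XT.nd (nat_lit 78) (nat_lit 0) (nat_lit 0) (XT.lf (nat_lit 0) (nat_lit 1038223236716) (nat_lit 76) (nat_lit 241452435082) (nat_lit 76) (nat_lit 233820529725) (nat_lit 1) (nat_lit 4) (nat_lit 2)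 (nat_lit 5) (nat_lit 2) (nat_lit 4) (nat_lit 312) (nat_lit 260) (nat_lit 208)) (XT.lf (nat_lit 0) (nat_lit 1212836846476) (nat_lit 76) (nat_lit 266956523977) (nat_lit 76) (nat_lit 259323923529) (nat_lit 1) (nat_lit 4) (nat_lit 2) (nat_lit 5) (nat_lit 2) (nat_lit 4) (nat_lit 313) (nat_lit 260) (nat_lit 207))) (XT.nd (nat_lit 78) (nat_lit 0) (nat_lit 0) (XT.lf (nat_lit 0) (nat_lit 1413639289327) (nat_lit 76) (nat_lit 296287852168) (nat_lit 76) (nat_lit 288654647292) (nat_lit 1) (nat_lit 4) (nat_lit 2) (nat_lit 5) (nat_lit 2) (nat_lit 4) (nat_lit 314) (nat_lit 260) (nat_lit 206)) (XT.nd (nat_lit 78) (nat_lit 0) (nat_lit 0) (XT.lf (nat_lit 0) (nat_lit 1644559308714) (nat_lit 76) (nat_lit 330020293465) (nat_lit 76) (nat_lit 322386563001) (nat_lit 1) (nat_lit 4) (nat_lit 2) (nat_lit 5) (nat_lit 2) (nat_lit 4) (nat_lit 315) (nat_lit 260) (nat_lit 205)) (XT.lf (nat_lit 0) (nat_lit 1910114905018)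 (nat_lit 76) (nat_lit 368813830418) (nat_lit 76) (nat_lit 361179642919) (nat_lit 1) (nat_lit 4) (nat_lit 2) (nat_lit 5) (nat_lit 2) (nat_lit 4) (nat_lit 316) (nat_lit 260) (nat_lit 204))))))))
noncomputable def xc49 : XT := (XT.nd (nat_lit 1404) (nat_lit 0) (nat_lit 0) (XT.nd (nat_lit 702) (nat_lit 0) (nat_lit 0) (XT.nd (nat_lit 312) (nat_lit 0) (nat_lit 0) (XT.nd (nat_lit 156) (nat_lit 0) (nat_lit 0) (XT.nd (nat_lit 78) (nat_lit 0) (nat_lit 0) (XT.lf (nat_lit 0) (nat_lit 2215501731209) (nat_lit 76) (nat_lit 413427467008) (nat_lit 76) (nat_lit 405792882089) (nat_lit 1) (nat_lit 4) (nat_lit 2) (nat_lit 5) (nat_lit 2) (nat_lit 4) (nat_lit 317) (nat_lit 260) (nat_lit 203)) (XT.lf (nat_lit 0) (nat_lit 2566694746930) (nat_lit 76) (nat_lit 464734078735) (nat_lit 76) (nat_lit 457099148233) (nat_lit 1) (nat_lit 4) (nat_lit 2) (nat_lit 5) (nat_lit 2) (nat_lit 4) (nat_lit 318) (nat_lit 260) (nat_lit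 202))) (XT.nd (nat_lit 78) (nat_lit 0) (nat_lit 0) (XT.lf (nat_lit 0) (nat_lit 2970565119881) (nat_lit 76) (nat_lit 523737490611) (nat_lit 76) (nat_lit 516102259602) (nat_lit 1) (nat_lit 4) (nat_lit 2) (nat_lit 5) (nat_lit 2) (nat_lit 4) (nat_lit 319) (nat_lit 260) (nat_lit 201)) (XT.lf (nat_lit 0) (nat_lit 3435014661706) (nat_lit 76) (nat_lit 591592117216) (nat_lit 76) (nat_lit 583956624896) (nat_lit 1) (nat_lit 4) (nat_lit 2) (nat_lit 5) (nat_lit 2) (nat_lit 4) (nat_lit 320) (nat_lit 260) (nat_lit 200)))) (XT.nd (nat_lit 156) (nat_lit 0) (nat_lit 0) (XT.nd (nat_lit 78) (nat_lit 0) (nat_lit 0) (XT.lf (nat_lit 0) (nat_lit 3969130428657) (nat_lit 76) (nat_lit 669625549071) (nat_lit 76) (nat_lit 661989829524) (nat_lit 1) (nat_lit 4) (nat_lit 2) (nat_lit 5) (nat_lit 2) (nat_lit 4) (nat_lit 321) (nat_lit 260) (nat_lit 199)) (XT.lf (nat_lit 0) (nat_lit 4583362511828) (nat_lit 76) (nat_lit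 759364527233) (nat_lit 76) (nat_lit 751728610098) (nat_lit 1) (nat_lit 4) (nat_lit 2) (nat_lit 5) (nat_lit 2) (nat_lit 4) (nat_lit 322) (nat_lit 260) (nat_lit 198))) (XT.nd (nat_lit 78) (nat_lit 0) (nat_lit 0) (XT.lf (nat_lit 0) (nat_lit 5289728495455) (nat_lit 76) (nat_lit 862564814319) (nat_lit 76) (nat_lit 854928725368) (nat_lit 1) (nat_lit 4) (nat_lit 2) (nat_lit 5) (nat_lit 2) (nat_lit 4) (nat_lit 323) (nat_lit 260) (nat_lit 197)) (XT.nd (nat_lit 78) (nat_lit 0) (nat_lit 0) (XT.lf (nat_lit 0) (nat_lit 6102048583565) (nat_lit 76) (nat_lit 981245546381) (nat_lit 76) (nat_lit 973609308025) (nat_lit 1) (nat_lit 4) (nat_lit 2) (nat_lit 5) (nat_lit 2) (nat_lit 4) (nat_lit 324) (nat_lit 260) (nat_lit 196)) (XT.lf (nat_lit 0) (nat_lit 7036215995273) (nat_lit 76) (nat_lit 1117728737740) (nat_lit 76) (nat_lit 1110092369467) (nat_lit 1) (nat_lit 4) (nat_lit 2) (nat_lit 5) (nat_lit 2) (nat_lit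 4) (nat_lit 325) (nat_lit 260) (nat_lit 195)))))) (XT.nd (nat_lit 312) (nat_lit 0) (nat_lit 0) (XT.nd (nat_lit 156) (nat_lit 0) (nat_lit 0) (XT.nd (nat_lit 78) (nat_lit 0) (nat_lit 0) (XT.lf (nat_lit 0) (nat_lit 8110507919069) (nat_lit 76) (nat_lit 1274684711708) (nat_lit 76) (nat_lit 1267048230463) (nat_lit 1) (nat_lit 4) (nat_lit 2) (nat_lit 5) (nat_lit 2) (nat_lit 4) (nat_lit 326) (nat_lit 260) (nat_lit 194)) (XT.lf (nat_lit 0) (nat_lit 9345943109983) (nat_lit 76) (nat_lit 1455184346035) (nat_lit 76) (nat_lit 1447547766553) (nat_lit 1) (nat_lit 4) (nat_lit 2) (nat_lit 5) (nat_lit 2) (nat_lit 4) (nat_lit 327) (nat_lit 260) (nat_lit 193))) (XT.nd (nat_lit 78) (nat_lit 0) (nat_lit 0) (XT.lf (nat_lit 0) (nat_lit 10766693126100) (nat_lit 76) (nat_lit 1662759155305) (nat_lit 76) (nat_lit 1655122490401) (nat_lit 1) (nat_lit 4) (nat_lit 2) (nat_lit 5) (nat_lit 2) (nat_lit 4) (nat_lit 328)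 (nat_lit 260) (nat_lit 192)) (XT.lf (nat_lit 0) (nat_lit 12400555250343) (nat_lit 76) (nat_lit 1901470385788) (nat_lit 76) (nat_lit 1893833646603) (nat_lit 1) (nat_lit 4) (nat_lit 2) (nat_lit 5) (nat_lit 2) (nat_lit 4) (nat_lit 329) (nat_lit 260) (nat_lit 191)))) (XT.nd (nat_lit 156) (nat_lit 0) (nat_lit 0) (XT.nd (nat_lit 78) (nat_lit 0) (nat_lit 0) (XT.lf (nat_lit 0) (nat_lit 14279496350360) (nat_lit 76) (nat_lit 2175988474601) (nat_lit 76) (nat_lit 2168351670824) (nat_lit 1) (nat_lit 4) (nat_lit 2) (nat_lit 5) (nat_lit 2) (nat_lit 4) (nat_lit 330) (nat_lit 260) (nat_lit 190)) (XT.lf (nat_lit 0) (nat_lit 16440278317239) (nat_lit 76) (nat_lit 2491684427830) (nat_lit 76) (nat_lit 2484047567886) (nat_lit 1) (nat_lit 4) (nat_lit 2) (nat_lit 5) (nat_lit 2) (nat_lit 4) (nat_lit 331) (nat_lit 260) (nat_lit 189))) (XT.nd (nat_lit 78) (nat_lit 0) (nat_lit 0) (XT.lf (nat_lit 0) (nat_lit 18925177319897)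 (nat_lit 76) (nat_lit 2854734905429) (nat_lit 76) (nat_lit 2847097996644) (nat_lit 1) (nat_lit 4) (nat_lit 2) (nat_lit 5) (nat_lit 2) (nat_lit 4) (nat_lit 332) (nat_lit 260) (nat_lit 188)) (XT.nd (nat_lit 78) (nat_lit 0) (nat_lit 0) (XT.lf (nat_lit 0) (nat_lit 21782810947515) (nat_lit 76) (nat_lit 3272243068916) (nat_lit 76) (nat_lit 3264606117661) (nat_lit 1) (nat_lit 4) (nat_lit 2) (nat_lit 5) (nat_lit 2) (nat_lit 4) (nat_lit 333) (nat_lit 260) (nat_lit 187)) (XT.lf (nat_lit 0) (nat_lit 25069089423244) (nat_lit 76) (nat_lit 3752377556274) (nat_lit 76) (nat_lit 3744740568088) (nat_lit 1) (nat_lit 4) (nat_lit 2) (nat_lit 5) (nat_lit 2) (nat_lit 4) (nat_lit 334) (nat_lit 260) (nat_lit 186))))))) (XT.nd (nat_lit 34866) (nat_lit 0) (nat_lit 1140) (XT.nd (nat_lit 312) (nat_lit 0) (nat_lit 0) (XT.nd (nat_lit 156) (nat_lit 0) (nat_lit 0) (XT.nd (nat_lit 78) (nat_lit 0) (nat_lit 0) (XT.lf (nat_lit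 0) (nat_lit 28848309499870) (nat_lit 76) (nat_lit 4304532303123) (nat_lit 76) (nat_lit 4296895282823) (nat_lit 1) (nat_lit 4) (nat_lit 2) (nat_lit 5) (nat_lit 2) (nat_lit 4) (nat_lit 335) (nat_lit 260) (nat_lit 185)) (XT.lf (nat_lit 0) (nat_lit 33194412439760) (nat_lit 76) (nat_lit 4939510337120) (nat_lit 76) (nat_lit 4931873288896) (nat_lit 1) (nat_lit 4) (nat_lit 2) (nat_lit 5) (nat_lit 2) (nat_lit 4) (nat_lit 336) (nat_lit 260) (nat_lit 184))) (XT.nd (nat_lit 78) (nat_lit 0) (nat_lit 0) (XT.lf (nat_lit 0) (nat_lit 38192430691739) (nat_lit 76) (nat_lit 5669735141538) (nat_lit 76) (nat_lit 5662098069032) (nat_lit 1) (nat_lit 4) (nat_lit 2) (nat_lit 5) (nat_lit 2) (nat_lit 4) (nat_lit 337) (nat_lit 260) (nat_lit 183)) (XT.lf (nat_lit 0) (nat_lit 43940151569433) (nat_lit 76) (nat_lit 6509493723422) (nat_lit 76) (nat_lit 6501856629800) (nat_lit 1) (nat_lit 4) (nat_lit 2) (nat_lit 5) (nat_lit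 2) (nat_lit 4) (nat_lit 338) (nat_lit 260) (nat_lit 182)))) (XT.nd (nat_lit 1170) (nat_lit 0) (nat_lit 0) (XT.nd (nat_lit 1092) (nat_lit 0) (nat_lit 0) (XT.lf (nat_lit 0) (nat_lit 50550030481318) (nat_lit 76) (nat_lit 7475216141980) (nat_lit 76) (nat_lit 7467579029997) (nat_lit 1) (nat_lit 4) (nat_lit 2) (nat_lit 5) (nat_lit 2) (nat_lit 4) (nat_lit 339) (nat_lit 260) (nat_lit 181)) (XT.lf (nat_lit 0) (nat_lit 358440893591839) (nat_lit 76) (nat_lit 52458969433527) (nat_lit 76) (nat_lit 52451332216436) (nat_lit 1) (nat_lit 4) (nat_lit 2) (nat_lit 5) (nat_lit 2) (nat_lit 4) (nat_lit 353) (nat_lit 260) (nat_lit 167))) (XT.nd (nat_lit 78) (nat_lit 0) (nat_lit 0) (XT.lf (nat_lit 0) (nat_lit 412225883237184) (nat_lit 76) (nat_lit 60317113497419) (nat_lit 76) (nat_lit 60309476278072) (nat_lit 1) (nat_lit 4) (nat_lit 2) (nat_lit 5) (nat_lit 2) (nat_lit 4) (nat_lit 354) (nat_lit 260) (nat_lit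 166)) (XT.nd (nat_lit 78) (nat_lit 0) (nat_lit 0) (XT.lf (nat_lit 0) (nat_lit 474078621318915) (nat_lit 76) (nat_lit 69353979176174) (nat_lit 76) (nat_lit 69346341954864) (nat_lit 1) (nat_lit 4) (nat_lit 2) (nat_lit 5) (nat_lit 2) (nat_lit 4) (nat_lit 355) (nat_lit 260) (nat_lit 165)) (XT.lf (nat_lit 0) (nat_lit 545209270103850) (nat_lit 76) (nat_lit 79746374711331) (nat_lit 76) (nat_lit 79738737488316) (nat_lit 1) (nat_lit 4) (nat_lit 2) (nat_lit 5) (nat_lit 2) (nat_lit 4) (nat_lit 356) (nat_lit 260) (nat_lit 164)))))) (XT.nd (nat_lit 390) (nat_lit 760) (nat_lit 0) (XT.nd (nat_lit 156) (nat_lit 152) (nat_lit 0) (XT.nd (nat_lit 78) (nat_lit 228) (nat_lit 0) (XT.lf (nat_lit 0) (nat_lit 1394160389) (nat_lit 0) (nat_lit 1394160389) (nat_lit 76) (nat_lit 475003795) (nat_lit 31) (nat_lit 5) (nat_lit 31) (nat_lit 3) (nat_lit 32) (nat_lit 0) (nat_lit 261) (nat_lit 261) (nat_lit 258)) (XT.lf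 (nat_lit 0) (nat_lit 1390252203) (nat_lit 228) (nat_lit 619229648) (nat_lit 228) (nat_lit 4649256517) (nat_lit 28) (nat_lit 3) (nat_lit 31) (nat_lit 3) (nat_lit 31) (nat_lit 5) (nat_lit 262) (nat_lit 261) (nat_lit 257))) (XT.nd (nat_lit 78) (nat_lit 152) (nat_lit 0) (XT.lf (nat_lit 76) (nat_lit 2945769356) (nat_lit 0) (nat_lit 747306857) (nat_lit 228) (nat_lit 3157249842) (nat_lit 29) (nat_lit 5) (nat_lit 28) (nat_lit 3) (nat_lit 31) (nat_lit 5) (nat_lit 263) (nat_lit 261) (nat_lit 256)) (XT.nd (nat_lit 78) (nat_lit 228) (nat_lit 0) (XT.lf (nat_lit 0) (nat_lit 6041474665) (nat_lit 152) (nat_lit 273061594) (nat_lit 76) (nat_lit 803518268) (nat_lit 29) (nat_lit 5) (nat_lit 31) (nat_lit 5) (nat_lit 30) (nat_lit 4) (nat_lit 264) (nat_lit 261) (nat_lit 255)) (XT.lf (nat_lit 0) (nat_lit 1075857062) (nat_lit 228) (nat_lit 3527191252) (nat_lit 76) (nat_lit 2835026274) (nat_lit 26) (nat_lit 5)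 (nat_lit 29) (nat_lit 5) (nat_lit 27) (nat_lit 5) (nat_lit 265) (nat_lit 261) (nat_lit 254))))) (XT.nd (nat_lit 156) (nat_lit 532) (nat_lit 0) (XT.nd (nat_lit 78) (nat_lit 0) (nat_lit 0) (XT.lf (nat_lit 0) (nat_lit 685228346) (nat_lit 228) (nat_lit 2499378117) (nat_lit 304) (nat_lit 4653845752) (nat_lit 23) (nat_lit 5) (nat_lit 26) (nat_lit 5) (nat_lit 27) (nat_lit 5) (nat_lit 266) (nat_lit 261) (nat_lit 253)) (XT.lf (nat_lit 0) (nat_lit 5528588757) (nat_lit 304) (nat_lit 2653883062) (nat_lit 76) (nat_lit 129963245) (nat_lit 23) (nat_lit 5) (nat_lit 27) (nat_lit 5) (nat_lit 24) (nat_lit 4) (nat_lit 267) (nat_lit 261) (nat_lit 252))) (XT.nd (nat_lit 78) (nat_lit 228) (nat_lit 0) (XT.lf (nat_lit 0) (nat_lit 2346683762) (nat_lit 304) (nat_lit 5858094605) (nat_lit 380) (nat_lit 656851257) (nat_lit 19) (nat_lit 5) (nat_lit 23) (nat_lit 5) (nat_lit 24) (nat_lit 4) (nat_lit 268) (nat_lit 261)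 (nat_lit 251)) (XT.nd (nat_lit 78) (nat_lit 152) (nat_lit 0) (XT.lf (nat_lit 0) (nat_lit 1548762847) (nat_lit 380) (nat_lit 1432130301) (nat_lit 76) (nat_lit 6514280541) (nat_lit 18) (nat_lit 5) (nat_lit 23) (nat_lit 5) (nat_lit 19) (nat_lit 5) (nat_lit 269) (nat_lit 261) (nat_lit 250)) (XT.lf (nat_lit 0) (nat_lit 4031653459) (nat_lit 228) (nat_lit 5695545104) (nat_lit 76) (nat_lit 490599311) (nat_lit 16) (nat_lit 5) (nat_lit 19) (nat_lit 5) (nat_lit 17) (nat_lit 4) (nat_lit 270) (nat_lit 261) (nat_lit 249))))))))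
noncomputable def xc50 : XT := (XT.nd (nat_lit 1404) (nat_lit 228) (nat_lit 0) (XT.nd (nat_lit 702) (nat_lit 304) (nat_lit 0) (XT.nd (nat_lit 312) (nat_lit 304) (nat_lit 0) (XT.nd (nat_lit 156) (nat_lit 228) (nat_lit 0) (XT.nd (nat_lit 78) (nat_lit 0) (nat_lit 0) (XT.lf (nat_lit 0) (nat_lit 103022103) (nat_lit 76) (nat_lit 6825950007) (nat_lit 152) (nat_lit 4114233818) (nat_lit 15) (nat_lit 5) (nat_lit 16) (nat_lit 5) (nat_lit 17) (nat_lit 4) (nat_lit 271) (nat_lit 261) (nat_lit 248)) (XT.lf (nat_lit 0) (nat_lit 7169215935) (nat_lit 76) (nat_lit 3220541130) (nat_lit 152) (nat_lit 1583937337) (nat_lit 15) (nat_lit 5) (nat_lit 16) (nat_lit 5) (nat_lit 17) (nat_lit 4) (nat_lit 272) (nat_lit 261) (nat_lit 247))) (XT.nd (nat_lit 78) (nat_lit 0) (nat_lit 0) (XT.lf (nat_lit 0) (nat_lit 1185367326) (nat_lit 228) (nat_lit 10924858993) (nat_lit 76) (nat_lit 929121976) (nat_lit 12) (nat_lit 5)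 (nat_lit 15) (nat_lit 5) (nat_lit 13) (nat_lit 4) (nat_lit 273) (nat_lit 261) (nat_lit 246)) (XT.lf (nat_lit 0) (nat_lit 4478239126) (nat_lit 228) (nat_lit 4091420389) (nat_lit 76) (nat_lit 5643720624) (nat_lit 12) (nat_lit 5) (nat_lit 15) (nat_lit 5) (nat_lit 13) (nat_lit 4) (nat_lit 274) (nat_lit 261) (nat_lit 245)))) (XT.nd (nat_lit 156) (nat_lit 228) (nat_lit 0) (XT.nd (nat_lit 78) (nat_lit 0) (nat_lit 0) (XT.lf (nat_lit 0) (nat_lit 3911088963) (nat_lit 76) (nat_lit 4388837330) (nat_lit 152) (nat_lit 7258700533) (nat_lit 11) (nat_lit 5) (nat_lit 12) (nat_lit 5) (nat_lit 13) (nat_lit 4) (nat_lit 275) (nat_lit 261) (nat_lit 244)) (XT.lf (nat_lit 0) (nat_lit 12814555353) (nat_lit 152) (nat_lit 3737105133) (nat_lit 0) (nat_lit 536344759) (nat_lit 11) (nat_lit 5) (nat_lit 13) (nat_lit 4) (nat_lit 11) (nat_lit 4) (nat_lit 276) (nat_lit 261) (nat_lit 243))) (XT.nd (nat_lit 78) (nat_lit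 152) (nat_lit 0) (XT.lf (nat_lit 0) (nat_lit 5454038185) (nat_lit 76) (nat_lit 12881329859) (nat_lit 76) (nat_lit 462333167) (nat_lit 10) (nat_lit 4) (nat_lit 11) (nat_lit 5) (nat_lit 11) (nat_lit 4) (nat_lit 277) (nat_lit 261) (nat_lit 242)) (XT.nd (nat_lit 78) (nat_lit 76) (nat_lit 0) (XT.lf (nat_lit 0) (nat_lit 3671897352) (nat_lit 152) (nat_lit 4646840078) (nat_lit 76) (nat_lit 12405888695) (nat_lit 9) (nat_lit 5) (nat_lit 11) (nat_lit 5) (nat_lit 10) (nat_lit 4) (nat_lit 278) (nat_lit 261) (nat_lit 241)) (XT.lf (nat_lit 0) (nat_lit 5677503094) (nat_lit 76) (nat_lit 2845928067) (nat_lit 152) (nat_lit 14392351222) (nat_lit 8) (nat_lit 5) (nat_lit 9) (nat_lit 5) (nat_lit 10) (nat_lit 4) (nat_lit 279) (nat_lit 261) (nat_lit 240)))))) (XT.nd (nat_lit 312) (nat_lit 152) (nat_lit 0) (XT.nd (nat_lit 156) (nat_lit 76) (nat_lit 0) (XT.nd (nat_lit 78) (nat_lit 76) (nat_lit 0) (XT.lf (nat_lit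 0) (nat_lit 14411998308) (nat_lit 152) (nat_lit 7644014288) (nat_lit 0) (nat_lit 3333352179) (nat_lit 8) (nat_lit 5) (nat_lit 10) (nat_lit 4) (nat_lit 8) (nat_lit 4) (nat_lit 280) (nat_lit 261) (nat_lit 239)) (XT.lf (nat_lit 0) (nat_lit 3416038212) (nat_lit 76) (nat_lit 17968320334) (nat_lit 76) (nat_lit 6819678632) (nat_lit 7) (nat_lit 4) (nat_lit 8) (nat_lit 5) (nat_lit 8) (nat_lit 4) (nat_lit 281) (nat_lit 261) (nat_lit 238))) (XT.nd (nat_lit 78) (nat_lit 76) (nat_lit 0) (XT.lf (nat_lit 0) (nat_lit 16858682675) (nat_lit 76) (nat_lit 12871363141) (nat_lit 76) (nat_lit 1661855724) (nat_lit 7) (nat_lit 4) (nat_lit 8) (nat_lit 5) (nat_lit 8) (nat_lit 4) (nat_lit 282) (nat_lit 261) (nat_lit 237)) (XT.lf (nat_lit 0) (nat_lit 3823757333) (nat_lit 152) (nat_lit 3041355860) (nat_lit 76) (nat_lit 28176263135) (nat_lit 6) (nat_lit 5) (nat_lit 8) (nat_lit 5) (nat_lit 7) (nat_lit 4) (nat_lit 283)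 (nat_lit 261) (nat_lit 236)))) (XT.nd (nat_lit 156) (nat_lit 76) (nat_lit 0) (XT.nd (nat_lit 78) (nat_lit 0) (nat_lit 0) (XT.lf (nat_lit 0) (nat_lit 10383853047) (nat_lit 152) (nat_lit 28228943229) (nat_lit 0) (nat_lit 550411872) (nat_lit 5) (nat_lit 5) (nat_lit 7) (nat_lit 4) (nat_lit 5) (nat_lit 4) (nat_lit 284) (nat_lit 261) (nat_lit 235)) (XT.lf (nat_lit 0) (nat_lit 18365381125) (nat_lit 152) (nat_lit 16975245199) (nat_lit 0) (nat_lit 8497139779) (nat_lit 5) (nat_lit 5) (nat_lit 7) (nat_lit 4) (nat_lit 5) (nat_lit 4) (nat_lit 285) (nat_lit 261) (nat_lit 234))) (XT.nd (nat_lit 78) (nat_lit 76) (nat_lit 0) (XT.lf (nat_lit 0) (nat_lit 27495405732) (nat_lit 152) (nat_lit 4128564262) (nat_lit 0) (nat_lit 17596903369) (nat_lit 5) (nat_lit 5) (nat_lit 7) (nat_lit 4) (nat_lit 5) (nat_lit 4) (nat_lit 286) (nat_lit 261) (nat_lit 233)) (XT.nd (nat_lit 78) (nat_lit 0) (nat_lit 0) (XT.lf (nat_lit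 0) (nat_lit 11594686892) (nat_lit 76) (nat_lit 26837982151) (nat_lit 76) (nat_lit 16913165859) (nat_lit 4) (nat_lit 4) (nat_lit 5) (nat_lit 5) (nat_lit 5) (nat_lit 4) (nat_lit 287) (nat_lit 261) (nat_lit 232)) (XT.lf (nat_lit 0) (nat_lit 30061506695) (nat_lit 76) (nat_lit 21124709926) (nat_lit 76) (nat_lit 11177011957) (nat_lit 4) (nat_lit 4) (nat_lit 5) (nat_lit 5) (nat_lit 5) (nat_lit 4) (nat_lit 288) (nat_lit 261) (nat_lit 231))))))) (XT.nd (nat_lit 702) (nat_lit 76) (nat_lit 0) (XT.nd (nat_lit 312) (nat_lit 0) (nat_lit 0) (XT.nd (nat_lit 156) (nat_lit 76) (nat_lit 0) (XT.nd (nat_lit 78) (nat_lit 76) (nat_lit 0) (XT.lf (nat_lit 0) (nat_lit 51229729165) (nat_lit 76) (nat_lit 14588183221) (nat_lit 76) (nat_lit 4620588142) (nat_lit 4) (nat_lit 4) (nat_lit 5) (nat_lit 5) (nat_lit 5) (nat_lit 4) (nat_lit 289) (nat_lit 261) (nat_lit 230)) (XT.lf (nat_lit 0) (nat_lit 2627595683) (nat_lit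 152) (nat_lit 4335566193) (nat_lit 76) (nat_lit 72748567900) (nat_lit 3) (nat_lit 5) (nat_lit 5) (nat_lit 5) (nat_lit 4) (nat_lit 4) (nat_lit 290) (nat_lit 261) (nat_lit 229))) (XT.nd (nat_lit 78) (nat_lit 0) (nat_lit 0) (XT.lf (nat_lit 0) (nat_lit 11141367557) (nat_lit 152) (nat_lit 76658116805) (nat_lit 0) (nat_lit 2445765829) (nat_lit 2) (nat_lit 5) (nat_lit 4) (nat_lit 4) (nat_lit 2) (nat_lit 4) (nat_lit 291) (nat_lit 261) (nat_lit 228)) (XT.lf (nat_lit 0) (nat_lit 21473925262) (nat_lit 152) (nat_lit 68036689047) (nat_lit 0) (nat_lit 12766947296) (nat_lit 2) (nat_lit 5) (nat_lit 4) (nat_lit 4) (nat_lit 2) (nat_lit 4) (nat_lit 292) (nat_lit 261) (nat_lit 227)))) (XT.nd (nat_lit 156) (nat_lit 0) (nat_lit 0) (XT.nd (nat_lit 78) (nat_lit 0) (nat_lit 0) (XT.lf (nat_lit 0) (nat_lit 33332642317) (nat_lit 152) (nat_lit 58169882299) (nat_lit 0) (nat_lit 24615771970) (nat_lit 2) (nat_lit 5)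 (nat_lit 4) (nat_lit 4) (nat_lit 2) (nat_lit 4) (nat_lit 293) (nat_lit 261) (nat_lit 226)) (XT.lf (nat_lit 0) (nat_lit 46949537099) (nat_lit 152) (nat_lit 46864650343) (nat_lit 0) (nat_lit 38224064683) (nat_lit 2) (nat_lit 5) (nat_lit 4) (nat_lit 4) (nat_lit 2) (nat_lit 4) (nat_lit 294) (nat_lit 261) (nat_lit 225))) (XT.nd (nat_lit 78) (nat_lit 0) (nat_lit 0) (XT.lf (nat_lit 0) (nat_lit 62591027116) (nat_lit 152) (nat_lit 33899803858) (nat_lit 0) (nat_lit 53858074639) (nat_lit 2) (nat_lit 5) (nat_lit 4) (nat_lit 4) (nat_lit 2) (nat_lit 4) (nat_lit 295) (nat_lit 261) (nat_lit 224)) (XT.nd (nat_lit 78) (nat_lit 0) (nat_lit 0) (XT.lf (nat_lit 0) (nat_lit 80563141520) (nat_lit 152) (nat_lit 19021682803) (nat_lit 0) (nat_lit 71823684642) (nat_lit 2) (nat_lit 5) (nat_lit 4) (nat_lit 4) (nat_lit 2) (nat_lit 4) (nat_lit 296) (nat_lit 261) (nat_lit 223)) (XT.lf (nat_lit 0) (nat_lit 101217508635)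 (nat_lit 152) (nat_lit 1939193506) (nat_lit 0) (nat_lit 92472395757) (nat_lit 2) (nat_lit 5) (nat_lit 4) (nat_lit 4) (nat_lit 2) (nat_lit 4) (nat_lit 297) (nat_lit 261) (nat_lit 222)))))) (XT.nd (nat_lit 390) (nat_lit 0) (nat_lit 0) (XT.nd (nat_lit 156) (nat_lit 0) (nat_lit 0) (XT.nd (nat_lit 78) (nat_lit 0) (nat_lit 0) (XT.lf (nat_lit 0) (nat_lit 19409889207) (nat_lit 76) (nat_lit 106352068559) (nat_lit 76) (nat_lit 97602037419) (nat_lit 1) (nat_lit 4) (nat_lit 2) (nat_lit 5) (nat_lit 2) (nat_lit 4) (nat_lit 298) (nat_lit 261) (nat_lit 221)) (XT.lf (nat_lit 0) (nat_lit 44156571723) (nat_lit 76) (nat_lit 109921672783) (nat_lit 76) (nat_lit 101167364895) (nat_lit 1) (nat_lit 4) (nat_lit 2) (nat_lit 5) (nat_lit 2) (nat_lit 4) (nat_lit 299) (nat_lit 261) (nat_lit 220))) (XT.nd (nat_lit 78) (nat_lit 0) (nat_lit 0) (XT.lf (nat_lit 0) (nat_lit 72595516172) (nat_lit 76) (nat_lit 114036721831)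 (nat_lit 76) (nat_lit 105278695031) (nat_lit 1) (nat_lit 4) (nat_lit 2) (nat_lit 5) (nat_lit 2) (nat_lit 4) (nat_lit 300) (nat_lit 261) (nat_lit 219)) (XT.nd (nat_lit 78) (nat_lit 0) (nat_lit 0) (XT.lf (nat_lit 0) (nat_lit 105283136685) (nat_lit 76) (nat_lit 118777727532) (nat_lit 76) (nat_lit 110016466895) (nat_lit 1) (nat_lit 4) (nat_lit 2) (nat_lit 5) (nat_lit 2) (nat_lit 4) (nat_lit 301) (nat_lit 261) (nat_lit 218)) (XT.lf (nat_lit 0) (nat_lit 142858973662) (nat_lit 76) (nat_lit 124237448693) (nat_lit 76) (nat_lit 115473376024) (nat_lit 1) (nat_lit 4) (nat_lit 2) (nat_lit 5) (nat_lit 2) (nat_lit 4) (nat_lit 302) (nat_lit 261) (nat_lit 217))))) (XT.nd (nat_lit 156) (nat_lit 0) (nat_lit 0) (XT.nd (nat_lit 78) (nat_lit 0) (nat_lit 0) (XT.lf (nat_lit 0) (nat_lit 186058206522) (nat_lit 76) (nat_lit 130522705946) (nat_lit 76) (nat_lit 121756188031) (nat_lit 1) (nat_lit 4) (nat_lit 2) (nat_lit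 5) (nat_lit 2) (nat_lit 4) (nat_lit 303) (nat_lit 261) (nat_lit 216)) (XT.lf (nat_lit 0) (nat_lit 235726037649) (nat_lit 76) (nat_lit 137756471714) (nat_lit 76) (nat_lit 128987827499) (nat_lit 1) (nat_lit 4) (nat_lit 2) (nat_lit 5) (nat_lit 2) (nat_lit 4) (nat_lit 304) (nat_lit 261) (nat_lit 215))) (XT.nd (nat_lit 78) (nat_lit 0) (nat_lit 0) (XT.lf (nat_lit 0) (nat_lit 292834228954) (nat_lit 76) (nat_lit 146080276198) (nat_lit 76) (nat_lit 137309783027) (nat_lit 1) (nat_lit 4) (nat_lit 2) (nat_lit 5) (nat_lit 2) (nat_lit 4) (nat_lit 305) (nat_lit 261) (nat_lit 214)) (XT.nd (nat_lit 78) (nat_lit 0) (nat_lit 0) (XT.lf (nat_lit 0) (nat_lit 358500114616) (nat_lit 76) (nat_lit 155656976442) (nat_lit 76) (nat_lit 146884875482) (nat_lit 1) (nat_lit 4) (nat_lit 2) (nat_lit 5) (nat_lit 2) (nat_lit 4) (nat_lit 306) (nat_lit 261) (nat_lit 213)) (XT.lf (nat_lit 0) (nat_lit 434008461963) (nat_lit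 76) (nat_lit 166673942668) (nat_lit 76) (nat_lit 157900443632) (nat_lit 1) (nat_lit 4) (nat_lit 2) (nat_lit 5) (nat_lit 2) (nat_lit 4) (nat_lit 307) (nat_lit 261) (nat_lit 212))))))))
noncomputable def xc51 : XT := (XT.nd (nat_lit 1404) (nat_lit 0) (nat_lit 0) (XT.nd (nat_lit 702) (nat_lit 0) (nat_lit 0) (XT.nd (nat_lit 312) (nat_lit 0) (nat_lit 0) (XT.nd (nat_lit 156) (nat_lit 0) (nat_lit 0) (XT.nd (nat_lit 78) (nat_lit 0) (nat_lit 0) (XT.lf (nat_lit 0) (nat_lit 520836608226) (nat_lit 76) (nat_lit 179346724216) (nat_lit 76) (nat_lit 170572009461) (nat_lit 1) (nat_lit 4) (nat_lit 2) (nat_lit 5) (nat_lit 2) (nat_lit 4) (nat_lit 308) (nat_lit 261) (nat_lit 211)) (XT.lf (nat_lit 0) (nat_lit 620683364962) (nat_lit 76) (nat_lit 193923266811) (nat_lit 76) (nat_lit 185147494909) (nat_lit 1) (nat_lit 4) (nat_lit 2) (nat_lit 5) (nat_lit 2) (nat_lit 4) (nat_lit 309) (nat_lit 261) (nat_lit 210)))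 (XT.nd (nat_lit 78) (nat_lit 0) (nat_lit 0) (XT.lf (nat_lit 0) (nat_lit 735502255672) (nat_lit 76) (nat_lit 210688763678) (nat_lit 76) (nat_lit 201912072518) (nat_lit 1) (nat_lit 4) (nat_lit 2) (nat_lit 5) (nat_lit 2) (nat_lit 4) (nat_lit 310) (nat_lit 261) (nat_lit 209)) (XT.lf (nat_lit 0) (nat_lit 867539736914) (nat_lit 76) (nat_lit 229971235408) (nat_lit 76) (nat_lit 221193744893) (nat_lit 1) (nat_lit 4) (nat_lit 2) (nat_lit 5) (nat_lit 2) (nat_lit 4) (nat_lit 311) (nat_lit 261) (nat_lit 208)))) (XT.nd (nat_lit 156) (nat_lit 0) (nat_lit 0) (XT.nd (nat_lit 78) (nat_lit 0) (nat_lit 0) (XT.lf (nat_lit 0) (nat_lit 1019379150712) (nat_lit 76) (nat_lit 252147947752) (nat_lit 76) (nat_lit 243369762145) (nat_lit 1) (nat_lit 4) (nat_lit 2) (nat_lit 5) (nat_lit 2) (nat_lit 4) (nat_lit 312) (nat_lit 261) (nat_lit 207)) (XT.lf (nat_lit 0) (nat_lit 1193991268205) (nat_lit 76) (nat_lit 277652792908)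 (nat_lit 76) (nat_lit 268874002874) (nat_lit 1) (nat_lit 4) (nat_lit 2) (nat_lit 5) (nat_lit 2) (nat_lit 4) (nat_lit 313) (nat_lit 261) (nat_lit 206))) (XT.nd (nat_lit 78) (nat_lit 0) (nat_lit 0) (XT.lf (nat_lit 0) (nat_lit 1394792413432) (nat_lit 76) (nat_lit 306984778717) (nat_lit 76) (nat_lit 298205463094) (nat_lit 1) (nat_lit 4) (nat_lit 2) (nat_lit 5) (nat_lit 2) (nat_lit 4) (nat_lit 314) (nat_lit 261) (nat_lit 205)) (XT.nd (nat_lit 78) (nat_lit 0) (nat_lit 0) (XT.lf (nat_lit 0) (nat_lit 1625711304451) (nat_lit 76) (nat_lit 340717791856) (nat_lit 76) (nat_lit 331938019200) (nat_lit 1) (nat_lit 4) (nat_lit 2) (nat_lit 5) (nat_lit 2) (nat_lit 4) (nat_lit 315) (nat_lit 261) (nat_lit 204)) (XT.lf (nat_lit 0) (nat_lit 1891265919565) (nat_lit 76) (nat_lit 379511826062) (nat_lit 76) (nat_lit 370731655985) (nat_lit 1) (nat_lit 4) (nat_lit 2) (nat_lit 5) (nat_lit 2) (nat_lit 4) (nat_lit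 316) (nat_lit 261) (nat_lit 203)))))) (XT.nd (nat_lit 312) (nat_lit 0) (nat_lit 0) (XT.nd (nat_lit 156) (nat_lit 0) (nat_lit 0) (XT.nd (nat_lit 78) (nat_lit 0) (nat_lit 0) (XT.lf (nat_lit 0) (nat_lit 2196651892548) (nat_lit 76) (nat_lit 424125895047) (nat_lit 76) (nat_lit 415345379386) (nat_lit 1) (nat_lit 4) (nat_lit 2) (nat_lit 5) (nat_lit 2) (nat_lit 4) (nat_lit 317) (nat_lit 261) (nat_lit 202)) (XT.lf (nat_lit 0) (nat_lit 2547844166349) (nat_lit 76) (nat_lit 475432882770) (nat_lit 76) (nat_lit 466652066602) (nat_lit 1) (nat_lit 4) (nat_lit 2) (nat_lit 5) (nat_lit 2) (nat_lit 4) (nat_lit 318) (nat_lit 261) (nat_lit 201))) (XT.nd (nat_lit 78) (nat_lit 0) (nat_lit 0) (XT.lf (nat_lit 0) (nat_lit 2951713894151) (nat_lit 76) (nat_lit 534436621598) (nat_lit 76) (nat_lit 525655544120) (nat_lit 1) (nat_lit 4) (nat_lit 2) (nat_lit 5) (nat_lit 2) (nat_lit 4) (nat_lit 319) (nat_lit 261) (nat_lit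 200)) (XT.lf (nat_lit 0) (nat_lit 3416162874977) (nat_lit 76) (nat_lit 602291532509) (nat_lit 76) (nat_lit 593510227804) (nat_lit 1) (nat_lit 4) (nat_lit 2) (nat_lit 5) (nat_lit 2) (nat_lit 4) (nat_lit 320) (nat_lit 261) (nat_lit 199)))) (XT.nd (nat_lit 156) (nat_lit 0) (nat_lit 0) (XT.nd (nat_lit 78) (nat_lit 0) (nat_lit 0) (XT.lf (nat_lit 0) (nat_lit 3950278154104) (nat_lit 76) (nat_lit 680325211587) (nat_lit 76) (nat_lit 671543709294) (nat_lit 1) (nat_lit 4) (nat_lit 2) (nat_lit 5) (nat_lit 2) (nat_lit 4) (nat_lit 321) (nat_lit 261) (nat_lit 198)) (XT.lf (nat_lit 0) (nat_lit 4564509813080) (nat_lit 76) (nat_lit 770064404726) (nat_lit 76) (nat_lit 761282730616) (nat_lit 1) (nat_lit 4) (nat_lit 2) (nat_lit 5) (nat_lit 2) (nat_lit 4) (nat_lit 322) (nat_lit 261) (nat_lit 197))) (XT.nd (nat_lit 78) (nat_lit 0) (nat_lit 0) (XT.lf (nat_lit 0) (nat_lit 5270875427841) (nat_lit 76) (nat_lit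 873264878748) (nat_lit 76) (nat_lit 864483055233) (nat_lit 1) (nat_lit 4) (nat_lit 2) (nat_lit 5) (nat_lit 2) (nat_lit 4) (nat_lit 323) (nat_lit 261) (nat_lit 196)) (XT.nd (nat_lit 78) (nat_lit 0) (nat_lit 0) (XT.lf (nat_lit 0) (nat_lit 6083195195198) (nat_lit 76) (nat_lit 991945773362) (nat_lit 76) (nat_lit 983163819930) (nat_lit 1) (nat_lit 4) (nat_lit 2) (nat_lit 5) (nat_lit 2) (nat_lit 4) (nat_lit 324) (nat_lit 261) (nat_lit 195)) (XT.lf (nat_lit 0) (nat_lit 7017362327991) (nat_lit 76) (nat_lit 1128429106073) (nat_lit 76) (nat_lit 1119647039669) (nat_lit 1) (nat_lit 4) (nat_lit 2) (nat_lit 5) (nat_lit 2) (nat_lit 4) (nat_lit 325) (nat_lit 261) (nat_lit 194))))))) (XT.nd (nat_lit 702) (nat_lit 0) (nat_lit 0) (XT.nd (nat_lit 312) (nat_lit 0) (nat_lit 0) (XT.nd (nat_lit 156) (nat_lit 0) (nat_lit 0) (XT.nd (nat_lit 78) (nat_lit 0) (nat_lit 0) (XT.lf (nat_lit 0) (nat_lit 8091654009252)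 (nat_lit 76) (nat_lit 1285385202954) (nat_lit 76) (nat_lit 1276603038314) (nat_lit 1) (nat_lit 4) (nat_lit 2) (nat_lit 5) (nat_lit 2) (nat_lit 4) (nat_lit 326) (nat_lit 261) (nat_lit 193)) (XT.lf (nat_lit 0) (nat_lit 9327088989266) (nat_lit 76) (nat_lit 1465884944162) (nat_lit 76) (nat_lit 1457102694099) (nat_lit 1) (nat_lit 4) (nat_lit 2) (nat_lit 5) (nat_lit 2) (nat_lit 4) (nat_lit 327) (nat_lit 261) (nat_lit 192))) (XT.nd (nat_lit 78) (nat_lit 0) (nat_lit 0) (XT.lf (nat_lit 0) (nat_lit 10747838821992) (nat_lit 76) (nat_lit 1673459846373) (nat_lit 76) (nat_lit 1664677522029) (nat_lit 1) (nat_lit 4) (nat_lit 2) (nat_lit 5) (nat_lit 2) (nat_lit 4) (nat_lit 328) (nat_lit 261) (nat_lit 191)) (XT.lf (nat_lit 0) (nat_lit 12381700786764) (nat_lit 76) (nat_lit 1912171157673) (nat_lit 76) (nat_lit 1903388768737) (nat_lit 1) (nat_lit 4) (nat_lit 2) (nat_lit 5) (nat_lit 2) (nat_lit 4) (nat_lit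 329) (nat_lit 261) (nat_lit 190)))) (XT.nd (nat_lit 156) (nat_lit 0) (nat_lit 0) (XT.nd (nat_lit 78) (nat_lit 0) (nat_lit 0) (XT.lf (nat_lit 0) (nat_lit 14260641748111) (nat_lit 76) (nat_lit 2186689316762) (nat_lit 76) (nat_lit 2177906871660) (nat_lit 1) (nat_lit 4) (nat_lit 2) (nat_lit 5) (nat_lit 2) (nat_lit 4) (nat_lit 330) (nat_lit 261) (nat_lit 189)) (XT.lf (nat_lit 0) (nat_lit 16421423594407) (nat_lit 76) (nat_lit 2502385331101) (nat_lit 76) (nat_lit 2493602837157) (nat_lit 1) (nat_lit 4) (nat_lit 2) (nat_lit 5) (nat_lit 2) (nat_lit 4) (nat_lit 331) (nat_lit 261) (nat_lit 188))) (XT.nd (nat_lit 78) (nat_lit 0) (nat_lit 0) (XT.lf (nat_lit 0) (nat_lit 18906322492210) (nat_lit 76) (nat_lit 2865435861839) (nat_lit 76) (nat_lit 2856653325425) (nat_lit 1) (nat_lit 4) (nat_lit 2) (nat_lit 5) (nat_lit 2) (nat_lit 4) (nat_lit 332) (nat_lit 261) (nat_lit 187)) (XT.nd (nat_lit 78) (nat_lit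 0) (nat_lit 0) (XT.lf (nat_lit 0) (nat_lit 21763956028650) (nat_lit 76) (nat_lit 3282944071534) (nat_lit 76) (nat_lit 3274161498190) (nat_lit 1) (nat_lit 4) (nat_lit 2) (nat_lit 5) (nat_lit 2) (nat_lit 4) (nat_lit 333) (nat_lit 261) (nat_lit 186)) (XT.lf (nat_lit 0) (nat_lit 25050234425094) (nat_lit 76) (nat_lit 3763078599072) (nat_lit 76) (nat_lit 3754295993614) (nat_lit 1) (nat_lit 4) (nat_lit 2) (nat_lit 5) (nat_lit 2) (nat_lit 4) (nat_lit 334) (nat_lit 261) (nat_lit 185)))))) (XT.nd (nat_lit 1404) (nat_lit 0) (nat_lit 0) (XT.nd (nat_lit 156) (nat_lit 0) (nat_lit 0) (XT.nd (nat_lit 78) (nat_lit 0) (nat_lit 0) (XT.lf (nat_lit 0) (nat_lit 28829454432776) (nat_lit 76) (nat_lit 4315233380861) (nat_lit 76) (nat_lit 4306450747478) (nat_lit 1) (nat_lit 4) (nat_lit 2) (nat_lit 5) (nat_lit 2) (nat_lit 4) (nat_lit 335) (nat_lit 261) (nat_lit 184)) (XT.lf (nat_lit 0) (nat_lit 33175557312715)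 (nat_lit 76) (nat_lit 4950211445240) (nat_lit 76) (nat_lit 4941428787575) (nat_lit 1) (nat_lit 4) (nat_lit 2) (nat_lit 5) (nat_lit 2) (nat_lit 4) (nat_lit 336) (nat_lit 261) (nat_lit 183))) (XT.nd (nat_lit 78) (nat_lit 0) (nat_lit 0) (XT.lf (nat_lit 0) (nat_lit 38173575512563) (nat_lit 76) (nat_lit 5680436276078) (nat_lit 76) (nat_lit 5671653597298) (nat_lit 1) (nat_lit 4) (nat_lit 2) (nat_lit 5) (nat_lit 2) (nat_lit 4) (nat_lit 337) (nat_lit 261) (nat_lit 182)) (XT.nd (nat_lit 78) (nat_lit 0) (nat_lit 0) (XT.lf (nat_lit 0) (nat_lit 43921296344925) (nat_lit 76) (nat_lit 6520194880935) (nat_lit 76) (nat_lit 6511412183793) (nat_lit 1) (nat_lit 4) (nat_lit 2) (nat_lit 5) (nat_lit 2) (nat_lit 4) (nat_lit 338) (nat_lit 261) (nat_lit 181)) (XT.lf (nat_lit 0) (nat_lit 50531175217392) (nat_lit 76) (nat_lit 7485917319470) (nat_lit 76) (nat_lit 7477134606362) (nat_lit 1) (nat_lit 4) (nat_lit 2)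 (nat_lit 5) (nat_lit 2) (nat_lit 4) (nat_lit 339) (nat_lit 261) (nat_lit 180))))) (XT.nd (nat_lit 156) (nat_lit 0) (nat_lit 0) (XT.nd (nat_lit 78) (nat_lit 0) (nat_lit 0) (XT.lf (nat_lit 0) (nat_lit 358422038102262) (nat_lit 76) (nat_lit 52469670725374) (nat_lit 76) (nat_lit 52460887920868) (nat_lit 1) (nat_lit 4) (nat_lit 2) (nat_lit 5) (nat_lit 2) (nat_lit 4) (nat_lit 353) (nat_lit 261) (nat_lit 166)) (XT.lf (nat_lit 0) (nat_lit 412207027742762) (nat_lit 76) (nat_lit 60327814791721) (nat_lit 76) (nat_lit 60319031985254) (nat_lit 1) (nat_lit 4) (nat_lit 2) (nat_lit 5) (nat_lit 2) (nat_lit 4) (nat_lit 354) (nat_lit 261) (nat_lit 165))) (XT.nd (nat_lit 78) (nat_lit 0) (nat_lit 0) (XT.lf (nat_lit 0) (nat_lit 474059765820281) (nat_lit 76) (nat_lit 69364680472610) (nat_lit 76) (nat_lit 69355897664437) (nat_lit 1) (nat_lit 4) (nat_lit 2) (nat_lit 5) (nat_lit 2) (nat_lit 4) (nat_lit 355) (nat_lit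 261) (nat_lit 164)) (XT.nd (nat_lit 33306) (nat_lit 0) (nat_lit 2052) (XT.lf (nat_lit 0) (nat_lit 545190414601552) (nat_lit 76) (nat_lit 79757076009626) (nat_lit 76) (nat_lit 79748293199967) (nat_lit 1) (nat_lit 4) (nat_lit 2) (nat_lit 5) (nat_lit 2) (nat_lit 4) (nat_lit 356) (nat_lit 261) (nat_lit 163)) (XT.lf (nat_lit 0) (nat_lit 1726877155) (nat_lit 228) (nat_lit 840324263) (nat_lit 228) (nat_lit 840324263) (nat_lit 28) (nat_lit 3) (nat_lit 31) (nat_lit 3) (nat_lit 31) (nat_lit 5) (nat_lit 262) (nat_lit 262) (nat_lit 256))))))))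
noncomputable def xc52 : XT := (XT.nd (nat_lit 1404) (nat_lit 456) (nat_lit 0) (XT.nd (nat_lit 702) (nat_lit 608) (nat_lit 0) (XT.nd (nat_lit 312) (nat_lit 684) (nat_lit 0) (XT.nd (nat_lit 156) (nat_lit 0) (nat_lit 76) (XT.nd (nat_lit 78) (nat_lit 228) (nat_lit 0) (XT.lf (nat_lit 76) (nat_lit 1674520368) (nat_lit 0) (nat_lit 3862303948) (nat_lit 228) (nat_lit 1503905864) (nat_lit 29) (nat_lit 5) (nat_lit 28) (nat_lit 3) (nat_lit 31) (nat_lit 5) (nat_lit 263) (nat_lit 262) (nat_lit 255)) (XT.lf (nat_lit 0) (nat_lit 330021352) (nat_lit 228) (nat_lit 1828804916) (nat_lit 304) (nat_lit 5176212231) (nat_lit 25) (nat_lit 5) (nat_lit 28) (nat_lit 3) (nat_lit 29) (nat_lit 5) (nat_lit 264) (nat_lit 262) (nat_lit 254))) (XT.nd (nat_lit 78) (nat_lit 0) (nat_lit 0) (XT.lf (nat_lit 0) (nat_lit 2083762003) (nat_lit 228) (nat_lit 5541351798) (nat_lit 76) (nat_lit 69427377) (nat_lit 26) (nat_lit 5)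 (nat_lit 29) (nat_lit 5) (nat_lit 27) (nat_lit 5) (nat_lit 265) (nat_lit 262) (nat_lit 253)) (XT.lf (nat_lit 0) (nat_lit 4042940792) (nat_lit 228) (nat_lit 1500343169) (nat_lit 76) (nat_lit 2574715388) (nat_lit 26) (nat_lit 5) (nat_lit 29) (nat_lit 5) (nat_lit 27) (nat_lit 5) (nat_lit 266) (nat_lit 262) (nat_lit 252)))) (XT.nd (nat_lit 156) (nat_lit 532) (nat_lit 0) (XT.nd (nat_lit 78) (nat_lit 0) (nat_lit 0) (XT.lf (nat_lit 0) (nat_lit 3227760879) (nat_lit 228) (nat_lit 2975304954) (nat_lit 304) (nat_lit 2417055780) (nat_lit 23) (nat_lit 5) (nat_lit 26) (nat_lit 5) (nat_lit 27) (nat_lit 5) (nat_lit 267) (nat_lit 262) (nat_lit 251)) (XT.lf (nat_lit 0) (nat_lit 8563603481) (nat_lit 304) (nat_lit 584113570) (nat_lit 76) (nat_lit 69434593) (nat_lit 23) (nat_lit 5) (nat_lit 27) (nat_lit 5) (nat_lit 24) (nat_lit 4) (nat_lit 268) (nat_lit 262) (nat_lit 250))) (XT.nd (nat_lit 78) (nat_lit 152)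 (nat_lit 0) (XT.lf (nat_lit 0) (nat_lit 1432359146) (nat_lit 380) (nat_lit 4889465989) (nat_lit 76) (nat_lit 3547130723) (nat_lit 18) (nat_lit 5) (nat_lit 23) (nat_lit 5) (nat_lit 19) (nat_lit 5) (nat_lit 269) (nat_lit 262) (nat_lit 249)) (XT.nd (nat_lit 78) (nat_lit 0) (nat_lit 0) (XT.lf (nat_lit 0) (nat_lit 646657578) (nat_lit 152) (nat_lit 3005099916) (nat_lit 228) (nat_lit 6979667044) (nat_lit 16) (nat_lit 5) (nat_lit 18) (nat_lit 5) (nat_lit 19) (nat_lit 5) (nat_lit 270) (nat_lit 262) (nat_lit 248)) (XT.lf (nat_lit 0) (nat_lit 6346504884) (nat_lit 228) (nat_lit 4173584339) (nat_lit 76) (nat_lit 967407890) (nat_lit 16) (nat_lit 5) (nat_lit 19) (nat_lit 5) (nat_lit 17) (nat_lit 4) (nat_lit 271) (nat_lit 262) (nat_lit 247)))))) (XT.nd (nat_lit 312) (nat_lit 304) (nat_lit 0) (XT.nd (nat_lit 156) (nat_lit 228) (nat_lit 0) (XT.nd (nat_lit 78) (nat_lit 0) (nat_lit 0) (XT.lf (nat_lit 0)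 (nat_lit 2386754653) (nat_lit 76) (nat_lit 7162534320) (nat_lit 152) (nat_lit 2907639204) (nat_lit 15) (nat_lit 5) (nat_lit 16) (nat_lit 5) (nat_lit 17) (nat_lit 4) (nat_lit 272) (nat_lit 262) (nat_lit 246)) (XT.lf (nat_lit 0) (nat_lit 10217015051) (nat_lit 76) (nat_lit 3105963005) (nat_lit 152) (nat_lit 235676036) (nat_lit 15) (nat_lit 5) (nat_lit 16) (nat_lit 5) (nat_lit 17) (nat_lit 4) (nat_lit 273) (nat_lit 262) (nat_lit 245))) (XT.nd (nat_lit 78) (nat_lit 0) (nat_lit 0) (XT.lf (nat_lit 0) (nat_lit 2731340181) (nat_lit 228) (nat_lit 10365552119) (nat_lit 76) (nat_lit 1689442447) (nat_lit 12) (nat_lit 5) (nat_lit 15) (nat_lit 5) (nat_lit 13) (nat_lit 4) (nat_lit 274) (nat_lit 262) (nat_lit 244)) (XT.lf (nat_lit 0) (nat_lit 6339686087) (nat_lit 228) (nat_lit 2793798036) (nat_lit 76) (nat_lit 7030237129) (nat_lit 12) (nat_lit 5) (nat_lit 15) (nat_lit 5) (nat_lit 13) (nat_lit 4) (nat_lit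 275) (nat_lit 262) (nat_lit 243)))) (XT.nd (nat_lit 156) (nat_lit 228) (nat_lit 0) (XT.nd (nat_lit 78) (nat_lit 0) (nat_lit 0) (XT.lf (nat_lit 0) (nat_lit 6322208836) (nat_lit 76) (nat_lit 4332784640) (nat_lit 152) (nat_lit 7068124993) (nat_lit 11) (nat_lit 5) (nat_lit 12) (nat_lit 5) (nat_lit 13) (nat_lit 4) (nat_lit 276) (nat_lit 262) (nat_lit 242)) (XT.lf (nat_lit 0) (nat_lit 15727746587) (nat_lit 152) (nat_lit 2589690009) (nat_lit 0) (nat_lit 1182691598) (nat_lit 11) (nat_lit 5) (nat_lit 13) (nat_lit 4) (nat_lit 11) (nat_lit 4) (nat_lit 277) (nat_lit 262) (nat_lit 241))) (XT.nd (nat_lit 78) (nat_lit 76) (nat_lit 0) (XT.lf (nat_lit 0) (nat_lit 491078636) (nat_lit 152) (nat_lit 13595690436) (nat_lit 76) (nat_lit 7385740656) (nat_lit 9) (nat_lit 5) (nat_lit 11) (nat_lit 5) (nat_lit 10) (nat_lit 4) (nat_lit 278) (nat_lit 262) (nat_lit 240)) (XT.nd (nat_lit 78) (nat_lit 76) (nat_lit 0)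 (XT.lf (nat_lit 0) (nat_lit 5070879928) (nat_lit 152) (nat_lit 3841686803) (nat_lit 76) (nat_lit 14791928056) (nat_lit 9) (nat_lit 5) (nat_lit 11) (nat_lit 5) (nat_lit 10) (nat_lit 4) (nat_lit 279) (nat_lit 262) (nat_lit 239)) (XT.lf (nat_lit 0) (nat_lit 7963026968) (nat_lit 76) (nat_lit 2635856997) (nat_lit 152) (nat_lit 15633337612) (nat_lit 8) (nat_lit 5) (nat_lit 9) (nat_lit 5) (nat_lit 10) (nat_lit 4) (nat_lit 280) (nat_lit 262) (nat_lit 238))))))) (XT.nd (nat_lit 702) (nat_lit 152) (nat_lit 0) (XT.nd (nat_lit 312) (nat_lit 152) (nat_lit 0) (XT.nd (nat_lit 156) (nat_lit 76) (nat_lit 0) (XT.nd (nat_lit 78) (nat_lit 76) (nat_lit 0) (XT.lf (nat_lit 0) (nat_lit 17289722660) (nat_lit 152) (nat_lit 7461528252) (nat_lit 0) (nat_lit 4337923415) (nat_lit 8) (nat_lit 5) (nat_lit 10) (nat_lit 4) (nat_lit 8) (nat_lit 4) (nat_lit 281) (nat_lit 262) (nat_lit 237)) (XT.lf (nat_lit 0) (nat_lit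 5197119024) (nat_lit 76) (nat_lit 20069969569) (nat_lit 76) (nat_lit 7065243615) (nat_lit 7) (nat_lit 4) (nat_lit 8) (nat_lit 5) (nat_lit 8) (nat_lit 4) (nat_lit 282) (nat_lit 262) (nat_lit 236))) (XT.nd (nat_lit 78) (nat_lit 76) (nat_lit 0) (XT.lf (nat_lit 0) (nat_lit 20490680799) (nat_lit 76) (nat_lit 14285894730) (nat_lit 76) (nat_lit 1235145550) (nat_lit 7) (nat_lit 4) (nat_lit 8) (nat_lit 5) (nat_lit 8) (nat_lit 4) (nat_lit 283) (nat_lit 262) (nat_lit 235)) (XT.lf (nat_lit 0) (nat_lit 4932805592) (nat_lit 152) (nat_lit 2485237351) (nat_lit 76) (nat_lit 32798527330) (nat_lit 6) (nat_lit 5) (nat_lit 8) (nat_lit 5) (nat_lit 7) (nat_lit 4) (nat_lit 284) (nat_lit 262) (nat_lit 234)))) (XT.nd (nat_lit 156) (nat_lit 76) (nat_lit 0) (XT.nd (nat_lit 78) (nat_lit 0) (nat_lit 0) (XT.lf (nat_lit 0) (nat_lit 12466157331) (nat_lit 152) (nat_lit 31439604663) (nat_lit 0) (nat_lit 1052618596) (nat_lit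 5) (nat_lit 5) (nat_lit 7) (nat_lit 4) (nat_lit 5) (nat_lit 4) (nat_lit 285) (nat_lit 262) (nat_lit 233)) (XT.lf (nat_lit 0) (nat_lit 21576472057) (nat_lit 152) (nat_lit 18631375414) (nat_lit 0) (nat_lit 10136619393) (nat_lit 5) (nat_lit 5) (nat_lit 7) (nat_lit 4) (nat_lit 5) (nat_lit 4) (nat_lit 286) (nat_lit 262) (nat_lit 232))) (XT.nd (nat_lit 78) (nat_lit 76) (nat_lit 0) (XT.lf (nat_lit 0) (nat_lit 32016485082) (nat_lit 152) (nat_lit 3973799714) (nat_lit 0) (nat_lit 20553750741) (nat_lit 5) (nat_lit 5) (nat_lit 7) (nat_lit 4) (nat_lit 5) (nat_lit 4) (nat_lit 287) (nat_lit 262) (nat_lit 231)) (XT.nd (nat_lit 78) (nat_lit 0) (nat_lit 0) (XT.lf (nat_lit 0) (nat_lit 14072755059) (nat_lit 76) (nat_lit 30500425247) (nat_lit 76) (nat_lit 19017793796) (nat_lit 4) (nat_lit 4) (nat_lit 5) (nat_lit 5) (nat_lit 5) (nat_lit 4) (nat_lit 288) (nat_lit 262) (nat_lit 230)) (XT.lf (nat_lit 0) (nat_lit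 35213224120) (nat_lit 76) (nat_lit 23977543175) (nat_lit 76) (nat_lit 12477609889) (nat_lit 4) (nat_lit 4) (nat_lit 5) (nat_lit 5) (nat_lit 5) (nat_lit 4) (nat_lit 289) (nat_lit 262) (nat_lit 229)))))) (XT.nd (nat_lit 312) (nat_lit 0) (nat_lit 0) (XT.nd (nat_lit 156) (nat_lit 76) (nat_lit 0) (XT.nd (nat_lit 78) (nat_lit 76) (nat_lit 0) (XT.lf (nat_lit 0) (nat_lit 59472876732) (nat_lit 76) (nat_lit 16501738321) (nat_lit 76) (nat_lit 4986759961) (nat_lit 4) (nat_lit 4) (nat_lit 5) (nat_lit 5) (nat_lit 5) (nat_lit 4) (nat_lit 290) (nat_lit 262) (nat_lit 228)) (XT.lf (nat_lit 0) (nat_lit 3280702030) (nat_lit 152) (nat_lit 4474551667) (nat_lit 76) (nat_lit 83874164999) (nat_lit 3) (nat_lit 5) (nat_lit 5) (nat_lit 5) (nat_lit 4) (nat_lit 4) (nat_lit 291) (nat_lit 262) (nat_lit 227))) (XT.nd (nat_lit 78) (nat_lit 0) (nat_lit 0) (XT.lf (nat_lit 0) (nat_lit 13068022767) (nat_lit 152) (nat_lit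 87641771868) (nat_lit 0) (nat_lit 3033729489) (nat_lit 2) (nat_lit 5) (nat_lit 4) (nat_lit 4) (nat_lit 2) (nat_lit 4) (nat_lit 292) (nat_lit 262) (nat_lit 226)) (XT.lf (nat_lit 0) (nat_lit 24917144552) (nat_lit 152) (nat_lit 77794312005) (nat_lit 0) (nat_lit 14874249204) (nat_lit 2) (nat_lit 5) (nat_lit 4) (nat_lit 4) (nat_lit 2) (nat_lit 4) (nat_lit 293) (nat_lit 262) (nat_lit 225)))) (XT.nd (nat_lit 156) (nat_lit 0) (nat_lit 0) (XT.nd (nat_lit 78) (nat_lit 0) (nat_lit 0) (XT.lf (nat_lit 0) (nat_lit 38525695622) (nat_lit 152) (nat_lit 66505903428) (nat_lit 0) (nat_lit 28475320212) (nat_lit 2) (nat_lit 5) (nat_lit 4) (nat_lit 4) (nat_lit 2) (nat_lit 4) (nat_lit 294) (nat_lit 262) (nat_lit 224)) (XT.lf (nat_lit 0) (nat_lit 54159930236) (nat_lit 152) (nat_lit 53555685967) (nat_lit 0) (nat_lit 44103050426) (nat_lit 2) (nat_lit 5) (nat_lit 4) (nat_lit 4) (nat_lit 2) (nat_lit 4) (nat_lit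 295) (nat_lit 262) (nat_lit 223))) (XT.nd (nat_lit 78) (nat_lit 0) (nat_lit 0) (XT.lf (nat_lit 0) (nat_lit 72125735594) (nat_lit 152) (nat_lit 38690285804) (nat_lit 0) (nat_lit 62063199783) (nat_lit 2) (nat_lit 5) (nat_lit 4) (nat_lit 4) (nat_lit 2) (nat_lit 4) (nat_lit 296) (nat_lit 262) (nat_lit 222)) (XT.nd (nat_lit 78) (nat_lit 0) (nat_lit 0) (XT.lf (nat_lit 0) (nat_lit 92774616583) (nat_lit 152) (nat_lit 21618858152) (nat_lit 0) (nat_lit 82707162511) (nat_lit 2) (nat_lit 5) (nat_lit 4) (nat_lit 4) (nat_lit 2) (nat_lit 4) (nat_lit 297) (nat_lit 262) (nat_lit 221)) (XT.lf (nat_lit 0) (nat_lit 116510573048) (nat_lit 152) (nat_lit 2007396818) (nat_lit 0) (nat_lit 106438842227) (nat_lit 2) (nat_lit 5) (nat_lit 4) (nat_lit 4) (nat_lit 2) (nat_lit 4) (nat_lit 298) (nat_lit 262) (nat_lit 220))))))))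
noncomputable def xc53 : XT := (XT.nd (nat_lit 1404) (nat_lit 0) (nat_lit 0) (XT.nd (nat_lit 702) (nat_lit 0) (nat_lit 0) (XT.nd (nat_lit 312) (nat_lit 0) (nat_lit 0) (XT.nd (nat_lit 156) (nat_lit 0) (nat_lit 0) (XT.nd (nat_lit 78) (nat_lit 0) (nat_lit 0) (XT.lf (nat_lit 0) (nat_lit 22533926679) (nat_lit 76) (nat_lit 122197159309) (nat_lit 76) (nat_lit 112121709576) (nat_lit 1) (nat_lit 4) (nat_lit 2) (nat_lit 5) (nat_lit 2) (nat_lit 4) (nat_lit 299) (nat_lit 262) (nat_lit 219)) (XT.lf (nat_lit 0) (nat_lit 50964887126) (nat_lit 76) (nat_lit 126316254541) (nat_lit 76) (nat_lit 116237570971) (nat_lit 1) (nat_lit 4) (nat_lit 2) (nat_lit 5) (nat_lit 2) (nat_lit 4) (nat_lit 300) (nat_lit 262) (nat_lit 218))) (XT.nd (nat_lit 78) (nat_lit 0) (nat_lit 0) (XT.lf (nat_lit 0) (nat_lit 83645565028) (nat_lit 76) (nat_lit 131060778663) (nat_lit 76) (nat_lit 120979283061) (nat_lit 1) (nat_lit 4) (nat_lit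 2) (nat_lit 5) (nat_lit 2) (nat_lit 4) (nat_lit 301) (nat_lit 262) (nat_lit 217)) (XT.lf (nat_lit 0) (nat_lit 121215364953) (nat_lit 76) (nat_lit 136523559320) (nat_lit 76) (nat_lit 126439618473) (nat_lit 1) (nat_lit 4) (nat_lit 2) (nat_lit 5) (nat_lit 2) (nat_lit 4) (nat_lit 302) (nat_lit 262) (nat_lit 216)))) (XT.nd (nat_lit 156) (nat_lit 0) (nat_lit 0) (XT.nd (nat_lit 78) (nat_lit 0) (nat_lit 0) (XT.lf (nat_lit 0) (nat_lit 164409348203) (nat_lit 76) (nat_lit 142811477004) (nat_lit 76) (nat_lit 132725409857) (nat_lit 1) (nat_lit 4) (nat_lit 2) (nat_lit 5) (nat_lit 2) (nat_lit 4) (nat_lit 303) (nat_lit 262) (nat_lit 215)) (XT.lf (nat_lit 0) (nat_lit 214072614450) (nat_lit 76) (nat_lit 150047556191) (nat_lit 76) (nat_lit 139959640088) (nat_lit 1) (nat_lit 4) (nat_lit 2) (nat_lit 5) (nat_lit 2) (nat_lit 4) (nat_lit 304) (nat_lit 262) (nat_lit 214))) (XT.nd (nat_lit 78) (nat_lit 0) (nat_lit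 0) (XT.lf (nat_lit 0) (nat_lit 271176836295) (nat_lit 76) (nat_lit 158373372344) (nat_lit 76) (nat_lit 148283848452) (nat_lit 1) (nat_lit 4) (nat_lit 2) (nat_lit 5) (nat_lit 2) (nat_lit 4) (nat_lit 305) (nat_lit 262) (nat_lit 213)) (XT.nd (nat_lit 78) (nat_lit 0) (nat_lit 0) (XT.lf (nat_lit 0) (nat_lit 336839270253) (nat_lit 76) (nat_lit 167951821865) (nat_lit 76) (nat_lit 157860899896) (nat_lit 1) (nat_lit 4) (nat_lit 2) (nat_lit 5) (nat_lit 2) (nat_lit 4) (nat_lit 306) (nat_lit 262) (nat_lit 212)) (XT.lf (nat_lit 0) (nat_lit 412344616118) (nat_lit 76) (nat_lit 178970309202) (nat_lit 76) (nat_lit 168878171514) (nat_lit 1) (nat_lit 4) (nat_lit 2) (nat_lit 5) (nat_lit 2) (nat_lit 4) (nat_lit 307) (nat_lit 262) (nat_lit 211)))))) (XT.nd (nat_lit 312) (nat_lit 0) (nat_lit 0) (XT.nd (nat_lit 156) (nat_lit 0) (nat_lit 0) (XT.nd (nat_lit 78) (nat_lit 0) (nat_lit 0) (XT.lf (nat_lit 0) (nat_lit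 499170152397) (nat_lit 76) (nat_lit 191644413454) (nat_lit 76) (nat_lit 181551218619) (nat_lit 1) (nat_lit 4) (nat_lit 2) (nat_lit 5) (nat_lit 2) (nat_lit 4) (nat_lit 308) (nat_lit 262) (nat_lit 210)) (XT.lf (nat_lit 0) (nat_lit 599014639581) (nat_lit 76) (nat_lit 206222106227) (nat_lit 76) (nat_lit 196127992134) (nat_lit 1) (nat_lit 4) (nat_lit 2) (nat_lit 5) (nat_lit 2) (nat_lit 4) (nat_lit 309) (nat_lit 262) (nat_lit 209))) (XT.nd (nat_lit 78) (nat_lit 0) (nat_lit 0) (XT.lf (nat_lit 0) (nat_lit 713831556768) (nat_lit 76) (nat_lit 222988603249) (nat_lit 76) (nat_lit 212893689801) (nat_lit 1) (nat_lit 4) (nat_lit 2) (nat_lit 5) (nat_lit 2) (nat_lit 4) (nat_lit 310) (nat_lit 262) (nat_lit 208)) (XT.lf (nat_lit 0) (nat_lit 845867321903) (nat_lit 76) (nat_lit 242271944679) (nat_lit 76) (nat_lit 232176336140) (nat_lit 1) (nat_lit 4) (nat_lit 2) (nat_lit 5) (nat_lit 2) (nat_lit 4) (nat_lit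 311) (nat_lit 262) (nat_lit 207)))) (XT.nd (nat_lit 156) (nat_lit 0) (nat_lit 0) (XT.nd (nat_lit 78) (nat_lit 0) (nat_lit 0) (XT.lf (nat_lit 0) (nat_lit 997705243433) (nat_lit 76) (nat_lit 264449413284) (nat_lit 76) (nat_lit 254353200317) (nat_lit 1) (nat_lit 4) (nat_lit 2) (nat_lit 5) (nat_lit 2) (nat_lit 4) (nat_lit 312) (nat_lit 262) (nat_lit 206)) (XT.lf (nat_lit 0) (nat_lit 1172316063303) (nat_lit 76) (nat_lit 289954916058) (nat_lit 76) (nat_lit 279858177503) (nat_lit 1) (nat_lit 4) (nat_lit 2) (nat_lit 5) (nat_lit 2) (nat_lit 4) (nat_lit 313) (nat_lit 262) (nat_lit 205))) (XT.nd (nat_lit 78) (nat_lit 0) (nat_lit 0) (XT.lf (nat_lit 0) (nat_lit 1373116080162) (nat_lit 76) (nat_lit 319287473708) (nat_lit 76) (nat_lit 309190278119) (nat_lit 1) (nat_lit 4) (nat_lit 2) (nat_lit 5) (nat_lit 2) (nat_lit 4) (nat_lit 314) (nat_lit 262) (nat_lit 204)) (XT.nd (nat_lit 78) (nat_lit 0) (nat_lit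 0) (XT.lf (nat_lit 0) (nat_lit 1604033989991) (nat_lit 76) (nat_lit 353020984101) (nat_lit 76) (nat_lit 342923391091) (nat_lit 1) (nat_lit 4) (nat_lit 2) (nat_lit 5) (nat_lit 2) (nat_lit 4) (nat_lit 315) (nat_lit 262) (nat_lit 203)) (XT.lf (nat_lit 0) (nat_lit 1869587751896) (nat_lit 76) (nat_lit 391815450702) (nat_lit 76) (nat_lit 381717512109) (nat_lit 1) (nat_lit 4) (nat_lit 2) (nat_lit 5) (nat_lit 2) (nat_lit 4) (nat_lit 316) (nat_lit 262) (nat_lit 202))))))) (XT.nd (nat_lit 702) (nat_lit 0) (nat_lit 0) (XT.nd (nat_lit 312) (nat_lit 0) (nat_lit 0) (XT.nd (nat_lit 156) (nat_lit 0) (nat_lit 0) (XT.nd (nat_lit 78) (nat_lit 0) (nat_lit 0) (XT.lf (nat_lit 0) (nat_lit 2174972982959) (nat_lit 76) (nat_lit 436429895682) (nat_lit 76) (nat_lit 426331656582) (nat_lit 1) (nat_lit 4) (nat_lit 2) (nat_lit 5) (nat_lit 2) (nat_lit 4) (nat_lit 317) (nat_lit 262) (nat_lit 201)) (XT.lf (nat_lit 0)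 (nat_lit 2526164611611) (nat_lit 76) (nat_lit 487737210357) (nat_lit 76) (nat_lit 477638709946) (nat_lit 1) (nat_lit 4) (nat_lit 2) (nat_lit 5) (nat_lit 2) (nat_lit 4) (nat_lit 318) (nat_lit 262) (nat_lit 200))) (XT.nd (nat_lit 78) (nat_lit 0) (nat_lit 0) (XT.lf (nat_lit 0) (nat_lit 2930033778415) (nat_lit 76) (nat_lit 546741233491) (nat_lit 76) (nat_lit 536642505854) (nat_lit 1) (nat_lit 4) (nat_lit 2) (nat_lit 5) (nat_lit 2) (nat_lit 4) (nat_lit 319) (nat_lit 262) (nat_lit 199)) (XT.lf (nat_lit 0) (nat_lit 3394482271417) (nat_lit 76) (nat_lit 614596391626) (nat_lit 76) (nat_lit 604497466400) (nat_lit 1) (nat_lit 4) (nat_lit 2) (nat_lit 5) (nat_lit 2) (nat_lit 4) (nat_lit 320) (nat_lit 262) (nat_lit 198)))) (XT.nd (nat_lit 156) (nat_lit 0) (nat_lit 0) (XT.nd (nat_lit 78) (nat_lit 0) (nat_lit 0) (XT.lf (nat_lit 0) (nat_lit 3928597126348) (nat_lit 76) (nat_lit 692630285680) (nat_lit 76)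 (nat_lit 682531188638) (nat_lit 1) (nat_lit 4) (nat_lit 2) (nat_lit 5) (nat_lit 2) (nat_lit 4) (nat_lit 321) (nat_lit 262) (nat_lit 197)) (XT.lf (nat_lit 0) (nat_lit 4542828416459) (nat_lit 76) (nat_lit 782369665755) (nat_lit 76) (nat_lit 772270419308) (nat_lit 1) (nat_lit 4) (nat_lit 2) (nat_lit 5) (nat_lit 2) (nat_lit 4) (nat_lit 322) (nat_lit 262) (nat_lit 196))) (XT.nd (nat_lit 78) (nat_lit 0) (nat_lit 0) (XT.lf (nat_lit 0) (nat_lit 5249193710467) (nat_lit 76) (nat_lit 885570302330) (nat_lit 76) (nat_lit 875470925966) (nat_lit 1) (nat_lit 4) (nat_lit 2) (nat_lit 5) (nat_lit 2) (nat_lit 4) (nat_lit 323) (nat_lit 262) (nat_lit 195)) (XT.nd (nat_lit 78) (nat_lit 0) (nat_lit 0) (XT.lf (nat_lit 0) (nat_lit 6061513198909) (nat_lit 76) (nat_lit 1004251338295) (nat_lit 76) (nat_lit 994151848959) (nat_lit 1) (nat_lit 4) (nat_lit 2) (nat_lit 5) (nat_lit 2) (nat_lit 4) (nat_lit 324) (nat_lit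 262) (nat_lit 194)) (XT.lf (nat_lit 0) (nat_lit 6995680089166) (nat_lit 76) (nat_lit 1140734793919) (nat_lit 76) (nat_lit 1130635206347) (nat_lit 1) (nat_lit 4) (nat_lit 2) (nat_lit 5) (nat_lit 2) (nat_lit 4) (nat_lit 325) (nat_lit 262) (nat_lit 193)))))) (XT.nd (nat_lit 390) (nat_lit 0) (nat_lit 0) (XT.nd (nat_lit 156) (nat_lit 0) (nat_lit 0) (XT.nd (nat_lit 78) (nat_lit 0) (nat_lit 0) (XT.lf (nat_lit 0) (nat_lit 8069971559527) (nat_lit 76) (nat_lit 1297690997681) (nat_lit 76) (nat_lit 1287591324686) (nat_lit 1) (nat_lit 4) (nat_lit 2) (nat_lit 5) (nat_lit 2) (nat_lit 4) (nat_lit 326) (nat_lit 262) (nat_lit 192)) (XT.lf (nat_lit 0) (nat_lit 9305406356150) (nat_lit 76) (nat_lit 1478190831830) (nat_lit 76) (nat_lit 1468091084554) (nat_lit 1) (nat_lit 4) (nat_lit 2) (nat_lit 5) (nat_lit 2) (nat_lit 4) (nat_lit 327) (nat_lit 262) (nat_lit 191))) (XT.nd (nat_lit 78) (nat_lit 0) (nat_lit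 0) (XT.lf (nat_lit 0) (nat_lit 10726156029405) (nat_lit 76) (nat_lit 1685765814858) (nat_lit 76) (nat_lit 1675666002990) (nat_lit 1) (nat_lit 4) (nat_lit 2) (nat_lit 5) (nat_lit 2) (nat_lit 4) (nat_lit 328) (nat_lit 262) (nat_lit 190)) (XT.nd (nat_lit 78) (nat_lit 0) (nat_lit 0) (XT.lf (nat_lit 0) (nat_lit 12360017855507) (nat_lit 76) (nat_lit 1924477196435) (nat_lit 76) (nat_lit 1914377328400) (nat_lit 1) (nat_lit 4) (nat_lit 2) (nat_lit 5) (nat_lit 2) (nat_lit 4) (nat_lit 329) (nat_lit 262) (nat_lit 189)) (XT.lf (nat_lit 0) (nat_lit 14238958696271) (nat_lit 76) (nat_lit 2198995416634) (nat_lit 76) (nat_lit 2188895499758) (nat_lit 1) (nat_lit 4) (nat_lit 2) (nat_lit 5) (nat_lit 2) (nat_lit 4) (nat_lit 330) (nat_lit 262) (nat_lit 188))))) (XT.nd (nat_lit 156) (nat_lit 0) (nat_lit 0) (XT.nd (nat_lit 78) (nat_lit 0) (nat_lit 0) (XT.lf (nat_lit 0) (nat_lit 16399740437712) (nat_lit 76) (nat_lit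 2514691484111) (nat_lit 76) (nat_lit 2504591524765) (nat_lit 1) (nat_lit 4) (nat_lit 2) (nat_lit 5) (nat_lit 2) (nat_lit 4) (nat_lit 331) (nat_lit 262) (nat_lit 187)) (XT.lf (nat_lit 0) (nat_lit 18884639244337) (nat_lit 76) (nat_lit 2877742061057) (nat_lit 76) (nat_lit 2867642064780) (nat_lit 1) (nat_lit 4) (nat_lit 2) (nat_lit 5) (nat_lit 2) (nat_lit 4) (nat_lit 332) (nat_lit 262) (nat_lit 186))) (XT.nd (nat_lit 78) (nat_lit 0) (nat_lit 0) (XT.lf (nat_lit 0) (nat_lit 21742272701493) (nat_lit 76) (nat_lit 3295250310933) (nat_lit 76) (nat_lit 3285150282542) (nat_lit 1) (nat_lit 4) (nat_lit 2) (nat_lit 5) (nat_lit 2) (nat_lit 4) (nat_lit 333) (nat_lit 262) (nat_lit 185)) (XT.nd (nat_lit 78) (nat_lit 0) (nat_lit 0) (XT.lf (nat_lit 0) (nat_lit 25028551028993) (nat_lit 76) (nat_lit 3775384873410) (nat_lit 76) (nat_lit 3765284817095) (nat_lit 1) (nat_lit 4) (nat_lit 2) (nat_lit 5) (nat_lit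 2) (nat_lit 4) (nat_lit 334) (nat_lit 262) (nat_lit 184)) (XT.lf (nat_lit 0) (nat_lit 28807770976723) (nat_lit 76) (nat_lit 4327539685581) (nat_lit 76) (nat_lit 4317439604984) (nat_lit 1) (nat_lit 4) (nat_lit 2) (nat_lit 5) (nat_lit 2) (nat_lit 4) (nat_lit 335) (nat_lit 262) (nat_lit 183))))))))
noncomputable def xc54 : XT := (XT.nd (nat_lit 35802) (nat_lit 0) (nat_lit 152) (XT.nd (nat_lit 35100) (nat_lit 0) (nat_lit 1064) (XT.nd (nat_lit 1326) (nat_lit 0) (nat_lit 0) (XT.nd (nat_lit 156) (nat_lit 0) (nat_lit 0) (XT.nd (nat_lit 78) (nat_lit 0) (nat_lit 0) (XT.lf (nat_lit 0) (nat_lit 33153873804531) (nat_lit 76) (nat_lit 4962517776380) (nat_lit 76) (nat_lit 4952417674667) (nat_lit 1) (nat_lit 4) (nat_lit 2) (nat_lit 5) (nat_lit 2) (nat_lit 4) (nat_lit 336) (nat_lit 262) (nat_lit 182)) (XT.lf (nat_lit 0) (nat_lit 38151891959048) (nat_lit 76) (nat_lit 5692742630192) (nat_lit 76) (nat_lit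 5682642510118) (nat_lit 1) (nat_lit 4) (nat_lit 2) (nat_lit 5) (nat_lit 2) (nat_lit 4) (nat_lit 337) (nat_lit 262) (nat_lit 181))) (XT.nd (nat_lit 78) (nat_lit 0) (nat_lit 0) (XT.lf (nat_lit 0) (nat_lit 43899612751991) (nat_lit 76) (nat_lit 6532501255025) (nat_lit 76) (nat_lit 6522401118985) (nat_lit 1) (nat_lit 4) (nat_lit 2) (nat_lit 5) (nat_lit 2) (nat_lit 4) (nat_lit 338) (nat_lit 262) (nat_lit 180)) (XT.lf (nat_lit 0) (nat_lit 50509491590180) (nat_lit 76) (nat_lit 7498223710932) (nat_lit 76) (nat_lit 7488123561008) (nat_lit 1) (nat_lit 4) (nat_lit 2) (nat_lit 5) (nat_lit 2) (nat_lit 4) (nat_lit 339) (nat_lit 262) (nat_lit 179)))) (XT.nd (nat_lit 156) (nat_lit 0) (nat_lit 0) (XT.nd (nat_lit 78) (nat_lit 0) (nat_lit 0) (XT.lf (nat_lit 0) (nat_lit 358400354278832) (nat_lit 76) (nat_lit 52481977216277) (nat_lit 76) (nat_lit 52471876986876) (nat_lit 1) (nat_lit 4) (nat_lit 2) (nat_lit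 5) (nat_lit 2) (nat_lit 4) (nat_lit 353) (nat_lit 262) (nat_lit 165)) (XT.lf (nat_lit 0) (nat_lit 412185343915119) (nat_lit 76) (nat_lit 60340121284759) (nat_lit 76) (nat_lit 60330021053653) (nat_lit 1) (nat_lit 4) (nat_lit 2) (nat_lit 5) (nat_lit 2) (nat_lit 4) (nat_lit 354) (nat_lit 262) (nat_lit 164))) (XT.nd (nat_lit 33462) (nat_lit 0) (nat_lit 1824) (XT.lf (nat_lit 0) (nat_lit 474038081988975) (nat_lit 76) (nat_lit 69376986967505) (nat_lit 76) (nat_lit 69366886734915) (nat_lit 1) (nat_lit 4) (nat_lit 2) (nat_lit 5) (nat_lit 2) (nat_lit 4) (nat_lit 355) (nat_lit 262) (nat_lit 163)) (XT.nd (nat_lit 78) (nat_lit 0) (nat_lit 0) (XT.lf (nat_lit 0) (nat_lit 6183547) (nat_lit 0) (nat_lit 6183547) (nat_lit 228) (nat_lit 3642462205) (nat_lit 25) (nat_lit 5) (nat_lit 25) (nat_lit 3) (nat_lit 28) (nat_lit 3) (nat_lit 263) (nat_lit 263) (nat_lit 254)) (XT.lf (nat_lit 0) (nat_lit 1587624289)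 (nat_lit 228) (nat_lit 3915970146) (nat_lit 304) (nat_lit 2112345500) (nat_lit 25) (nat_lit 5) (nat_lit 28) (nat_lit 3) (nat_lit 29) (nat_lit 5) (nat_lit 264) (nat_lit 263) (nat_lit 253)))))) (XT.nd (nat_lit 312) (nat_lit 608) (nat_lit 0) (XT.nd (nat_lit 156) (nat_lit 152) (nat_lit 0) (XT.nd (nat_lit 78) (nat_lit 0) (nat_lit 0) (XT.lf (nat_lit 0) (nat_lit 3130085179) (nat_lit 228) (nat_lit 204380807) (nat_lit 304) (nat_lit 4673313543) (nat_lit 25) (nat_lit 5) (nat_lit 28) (nat_lit 3) (nat_lit 29) (nat_lit 5) (nat_lit 265) (nat_lit 263) (nat_lit 252)) (XT.lf (nat_lit 76) (nat_lit 4292779581) (nat_lit 0) (nat_lit 566758614) (nat_lit 304) (nat_lit 3606719201) (nat_lit 26) (nat_lit 5) (nat_lit 25) (nat_lit 5) (nat_lit 29) (nat_lit 5) (nat_lit 266) (nat_lit 263) (nat_lit 251))) (XT.nd (nat_lit 78) (nat_lit 0) (nat_lit 0) (XT.lf (nat_lit 0) (nat_lit 227507486) (nat_lit 228) (nat_lit 6552811222)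 (nat_lit 304) (nat_lit 2224450308) (nat_lit 23) (nat_lit 5) (nat_lit 26) (nat_lit 5) (nat_lit 27) (nat_lit 5) (nat_lit 267) (nat_lit 263) (nat_lit 250)) (XT.lf (nat_lit 0) (nat_lit 5556725223) (nat_lit 228) (nat_lit 3497986421) (nat_lit 304) (nat_lit 560433176) (nat_lit 23) (nat_lit 5) (nat_lit 26) (nat_lit 5) (nat_lit 27) (nat_lit 5) (nat_lit 268) (nat_lit 263) (nat_lit 249)))) (XT.nd (nat_lit 156) (nat_lit 228) (nat_lit 0) (XT.nd (nat_lit 78) (nat_lit 0) (nat_lit 0) (XT.lf (nat_lit 0) (nat_lit 1127246831) (nat_lit 380) (nat_lit 9073068580) (nat_lit 76) (nat_lit 124866558) (nat_lit 18) (nat_lit 5) (nat_lit 23) (nat_lit 5) (nat_lit 19) (nat_lit 5) (nat_lit 269) (nat_lit 263) (nat_lit 248)) (XT.lf (nat_lit 0) (nat_lit 3250607373) (nat_lit 380) (nat_lit 3678505457) (nat_lit 76) (nat_lit 4173222322) (nat_lit 18) (nat_lit 5) (nat_lit 23) (nat_lit 5) (nat_lit 19) (nat_lit 5) (nat_lit 270)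 (nat_lit 263) (nat_lit 247))) (XT.nd (nat_lit 78) (nat_lit 76) (nat_lit 0) (XT.lf (nat_lit 0) (nat_lit 2599655717) (nat_lit 152) (nat_lit 3070974343) (nat_lit 228) (nat_lit 6329228833) (nat_lit 16) (nat_lit 5) (nat_lit 18) (nat_lit 5) (nat_lit 19) (nat_lit 5) (nat_lit 271) (nat_lit 263) (nat_lit 246)) (XT.nd (nat_lit 78) (nat_lit 76) (nat_lit 0) (XT.lf (nat_lit 0) (nat_lit 8591564477) (nat_lit 228) (nat_lit 3002803441) (nat_lit 76) (nat_lit 1417410327) (nat_lit 16) (nat_lit 5) (nat_lit 19) (nat_lit 5) (nat_lit 17) (nat_lit 4) (nat_lit 272) (nat_lit 263) (nat_lit 245)) (XT.lf (nat_lit 0) (nat_lit 4459912830) (nat_lit 76) (nat_lit 7717210734) (nat_lit 152) (nat_lit 1964783431) (nat_lit 15) (nat_lit 5) (nat_lit 16) (nat_lit 5) (nat_lit 17) (nat_lit 4) (nat_lit 273) (nat_lit 263) (nat_lit 244))))))) (XT.nd (nat_lit 702) (nat_lit 380) (nat_lit 0) (XT.nd (nat_lit 312) (nat_lit 228) (nat_lit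 0) (XT.nd (nat_lit 156) (nat_lit 76) (nat_lit 0) (XT.nd (nat_lit 78) (nat_lit 152) (nat_lit 0) (XT.lf (nat_lit 0) (nat_lit 845478156) (nat_lit 152) (nat_lit 2230267560) (nat_lit 76) (nat_lit 12351324119) (nat_lit 14) (nat_lit 5) (nat_lit 16) (nat_lit 5) (nat_lit 15) (nat_lit 5) (nat_lit 274) (nat_lit 263) (nat_lit 243)) (XT.lf (nat_lit 0) (nat_lit 4175572593) (nat_lit 228) (nat_lit 10258354145) (nat_lit 76) (nat_lit 2412387868) (nat_lit 12) (nat_lit 5) (nat_lit 15) (nat_lit 5) (nat_lit 13) (nat_lit 4) (nat_lit 275) (nat_lit 263) (nat_lit 242))) (XT.nd (nat_lit 78) (nat_lit 76) (nat_lit 0) (XT.lf (nat_lit 0) (nat_lit 8190231509) (nat_lit 228) (nat_lit 1767623575) (nat_lit 76) (nat_lit 8493058833) (nat_lit 12) (nat_lit 5) (nat_lit 15) (nat_lit 5) (nat_lit 13) (nat_lit 4) (nat_lit 276) (nat_lit 263) (nat_lit 241)) (XT.lf (nat_lit 0) (nat_lit 8650091412) (nat_lit 76) (nat_lit 4442529716)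 (nat_lit 152) (nat_lit 7160948188) (nat_lit 11) (nat_lit 5) (nat_lit 12) (nat_lit 5) (nat_lit 13) (nat_lit 4) (nat_lit 277) (nat_lit 263) (nat_lit 240)))) (XT.nd (nat_lit 156) (nat_lit 76) (nat_lit 0) (XT.nd (nat_lit 78) (nat_lit 152) (nat_lit 0) (XT.lf (nat_lit 0) (nat_lit 18836252947) (nat_lit 152) (nat_lit 1686664574) (nat_lit 0) (nat_lit 1787993354) (nat_lit 11) (nat_lit 5) (nat_lit 13) (nat_lit 4) (nat_lit 11) (nat_lit 4) (nat_lit 278) (nat_lit 263) (nat_lit 239)) (XT.lf (nat_lit 0) (nat_lit 1302303887) (nat_lit 152) (nat_lit 14328801144) (nat_lit 76) (nat_lit 8950259195) (nat_lit 9) (nat_lit 5) (nat_lit 11) (nat_lit 5) (nat_lit 10) (nat_lit 4) (nat_lit 279) (nat_lit 263) (nat_lit 238))) (XT.nd (nat_lit 78) (nat_lit 76) (nat_lit 0) (XT.lf (nat_lit 0) (nat_lit 6472871444) (nat_lit 152) (nat_lit 3282076469) (nat_lit 76) (nat_lit 17407810691) (nat_lit 9) (nat_lit 5) (nat_lit 11) (nat_lit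 5) (nat_lit 10) (nat_lit 4) (nat_lit 280) (nat_lit 263) (nat_lit 237)) (XT.nd (nat_lit 78) (nat_lit 0) (nat_lit 0) (XT.lf (nat_lit 0) (nat_lit 10241714216) (nat_lit 76) (nat_lit 2549602065) (nat_lit 152) (nat_lit 17284299469) (nat_lit 8) (nat_lit 5) (nat_lit 9) (nat_lit 5) (nat_lit 10) (nat_lit 4) (nat_lit 281) (nat_lit 263) (nat_lit 236)) (XT.lf (nat_lit 0) (nat_lit 20424522917) (nat_lit 152) (nat_lit 7575775880) (nat_lit 0) (nat_lit 5370138135) (nat_lit 8) (nat_lit 5) (nat_lit 10) (nat_lit 4) (nat_lit 8) (nat_lit 4) (nat_lit 282) (nat_lit 263) (nat_lit 235)))))) (XT.nd (nat_lit 390) (nat_lit 152) (nat_lit 0) (XT.nd (nat_lit 156) (nat_lit 152) (nat_lit 0) (XT.nd (nat_lit 78) (nat_lit 0) (nat_lit 0) (XT.lf (nat_lit 0) (nat_lit 6935987506) (nat_lit 76) (nat_lit 22631619020) (nat_lit 76) (nat_lit 7537214042) (nat_lit 7) (nat_lit 4) (nat_lit 8) (nat_lit 5) (nat_lit 8) (nat_lit 4) (nat_lit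 283) (nat_lit 263) (nat_lit 234)) (XT.lf (nat_lit 0) (nat_lit 24398457378) (nat_lit 76) (nat_lit 16038478083) (nat_lit 76) (nat_lit 909272935) (nat_lit 7) (nat_lit 4) (nat_lit 8) (nat_lit 5) (nat_lit 8) (nat_lit 4) (nat_lit 284) (nat_lit 263) (nat_lit 233))) (XT.nd (nat_lit 78) (nat_lit 76) (nat_lit 0) (XT.lf (nat_lit 0) (nat_lit 6077629765) (nat_lit 152) (nat_lit 2092562168) (nat_lit 76) (nat_lit 38017606788) (nat_lit 6) (nat_lit 5) (nat_lit 8) (nat_lit 5) (nat_lit 7) (nat_lit 4) (nat_lit 285) (nat_lit 263) (nat_lit 232)) (XT.nd (nat_lit 78) (nat_lit 0) (nat_lit 0) (XT.lf (nat_lit 0) (nat_lit 14732849421) (nat_lit 152) (nat_lit 35381496175) (nat_lit 0) (nat_lit 1527823252) (nat_lit 5) (nat_lit 5) (nat_lit 7) (nat_lit 4) (nat_lit 5) (nat_lit 4) (nat_lit 286) (nat_lit 263) (nat_lit 231)) (XT.lf (nat_lit 0) (nat_lit 25157958943) (nat_lit 152) (nat_lit 20752995476) (nat_lit 0) (nat_lit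 11933035664) (nat_lit 5) (nat_lit 5) (nat_lit 7) (nat_lit 4) (nat_lit 5) (nat_lit 4) (nat_lit 287) (nat_lit 263) (nat_lit 230))))) (XT.nd (nat_lit 156) (nat_lit 76) (nat_lit 0) (XT.nd (nat_lit 78) (nat_lit 76) (nat_lit 0) (XT.lf (nat_lit 0) (nat_lit 37118971825) (nat_lit 152) (nat_lit 3984577280) (nat_lit 0) (nat_lit 23876746711) (nat_lit 5) (nat_lit 5) (nat_lit 7) (nat_lit 4) (nat_lit 5) (nat_lit 4) (nat_lit 288) (nat_lit 263) (nat_lit 229)) (XT.lf (nat_lit 0) (nat_lit 16742356510) (nat_lit 76) (nat_lit 34800816652) (nat_lit 76) (nat_lit 21543546464) (nat_lit 4) (nat_lit 4) (nat_lit 5) (nat_lit 5) (nat_lit 5) (nat_lit 4) (nat_lit 289) (nat_lit 263) (nat_lit 228))) (XT.nd (nat_lit 78) (nat_lit 76) (nat_lit 0) (XT.lf (nat_lit 0) (nat_lit 40981023557) (nat_lit 76) (nat_lit 27335329101) (nat_lit 76) (nat_lit 14064976240) (nat_lit 4) (nat_lit 4) (nat_lit 5) (nat_lit 5) (nat_lit 5) (nat_lit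 4) (nat_lit 290) (nat_lit 263) (nat_lit 227)) (XT.nd (nat_lit 78) (nat_lit 76) (nat_lit 0) (XT.lf (nat_lit 0) (nat_lit 68816256780) (nat_lit 76) (nat_lit 18769307287) (nat_lit 76) (nat_lit 5487578188) (nat_lit 4) (nat_lit 4) (nat_lit 5) (nat_lit 5) (nat_lit 5) (nat_lit 4) (nat_lit 291) (nat_lit 263) (nat_lit 226)) (XT.lf (nat_lit 0) (nat_lit 3968623587) (nat_lit 152) (nat_lit 4759080764) (nat_lit 76) (nat_lit 96616584201) (nat_lit 3) (nat_lit 5) (nat_lit 5) (nat_lit 5) (nat_lit 4) (nat_lit 4) (nat_lit 292) (nat_lit 263) (nat_lit 225))))))))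
noncomputable def xc55 : XT := (XT.nd (nat_lit 1404) (nat_lit 0) (nat_lit 0) (XT.nd (nat_lit 702) (nat_lit 0) (nat_lit 0) (XT.nd (nat_lit 312) (nat_lit 76) (nat_lit 0) (XT.nd (nat_lit 156) (nat_lit 0) (nat_lit 0) (XT.nd (nat_lit 78) (nat_lit 0) (nat_lit 0) (XT.lf (nat_lit 0) (nat_lit 15221383140) (nat_lit 152) (nat_lit 100398576431) (nat_lit 0) (nat_lit 3655971359) (nat_lit 2) (nat_lit 5) (nat_lit 4) (nat_lit 4) (nat_lit 2) (nat_lit 4) (nat_lit 293) (nat_lit 263) (nat_lit 224)) (XT.lf (nat_lit 0) (nat_lit 28822678807) (nat_lit 152) (nat_lit 89124796879) (nat_lit 0) (nat_lit 17250762625) (nat_lit 2) (nat_lit 5) (nat_lit 4) (nat_lit 4) (nat_lit 2) (nat_lit 4) (nat_lit 294) (nat_lit 263) (nat_lit 223))) (XT.nd (nat_lit 78) (nat_lit 0) (nat_lit 0) (XT.lf (nat_lit 0) (nat_lit 44450604375) (nat_lit 152) (nat_lit 76187300309) (nat_lit 0) (nat_lit 32873032193) (nat_lit 2) (nat_lit 5) (nat_lit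 4) (nat_lit 4) (nat_lit 2) (nat_lit 4) (nat_lit 295) (nat_lit 263) (nat_lit 222)) (XT.lf (nat_lit 0) (nat_lit 62410923606) (nat_lit 152) (nat_lit 61332961791) (nat_lit 0) (nat_lit 50828433162) (nat_lit 2) (nat_lit 5) (nat_lit 4) (nat_lit 4) (nat_lit 2) (nat_lit 4) (nat_lit 296) (nat_lit 263) (nat_lit 221)))) (XT.nd (nat_lit 156) (nat_lit 76) (nat_lit 0) (XT.nd (nat_lit 78) (nat_lit 0) (nat_lit 0) (XT.lf (nat_lit 0) (nat_lit 83055034050) (nat_lit 152) (nat_lit 44271152960) (nat_lit 0) (nat_lit 71468266857) (nat_lit 2) (nat_lit 5) (nat_lit 4) (nat_lit 4) (nat_lit 2) (nat_lit 4) (nat_lit 297) (nat_lit 263) (nat_lit 220)) (XT.lf (nat_lit 0) (nat_lit 106786842216) (nat_lit 152) (nat_lit 24668055818) (nat_lit 0) (nat_lit 95196356110) (nat_lit 2) (nat_lit 5) (nat_lit 4) (nat_lit 4) (nat_lit 2) (nat_lit 4) (nat_lit 298) (nat_lit 263) (nat_lit 219))) (XT.nd (nat_lit 78) (nat_lit 76) (nat_lit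 0) (XT.lf (nat_lit 0) (nat_lit 134070666089) (nat_lit 152) (nat_lit 2140131509) (nat_lit 0) (nat_lit 122476946147) (nat_lit 2) (nat_lit 5) (nat_lit 4) (nat_lit 4) (nat_lit 2) (nat_lit 4) (nat_lit 299) (nat_lit 263) (nat_lit 218)) (XT.nd (nat_lit 78) (nat_lit 0) (nat_lit 0) (XT.lf (nat_lit 0) (nat_lit 26074737111) (nat_lit 76) (nat_lit 140445281762) (nat_lit 76) (nat_lit 128848749788) (nat_lit 1) (nat_lit 4) (nat_lit 2) (nat_lit 5) (nat_lit 2) (nat_lit 4) (nat_lit 300) (nat_lit 263) (nat_lit 217)) (XT.lf (nat_lit 0) (nat_lit 58749377961) (nat_lit 76) (nat_lit 145192865380) (nat_lit 76) (nat_lit 133593888161) (nat_lit 1) (nat_lit 4) (nat_lit 2) (nat_lit 5) (nat_lit 2) (nat_lit 4) (nat_lit 301) (nat_lit 263) (nat_lit 216)))))) (XT.nd (nat_lit 312) (nat_lit 0) (nat_lit 0) (XT.nd (nat_lit 156) (nat_lit 0) (nat_lit 0) (XT.nd (nat_lit 78) (nat_lit 0) (nat_lit 0) (XT.lf (nat_lit 0) (nat_lit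 96313928274) (nat_lit 76) (nat_lit 150658306469) (nat_lit 76) (nat_lit 139057202950) (nat_lit 1) (nat_lit 4) (nat_lit 2) (nat_lit 5) (nat_lit 2) (nat_lit 4) (nat_lit 302) (nat_lit 263) (nat_lit 215)) (XT.lf (nat_lit 0) (nat_lit 139503346645) (nat_lit 76) (nat_lit 156948537572) (nat_lit 76) (nat_lit 145345585096) (nat_lit 1) (nat_lit 4) (nat_lit 2) (nat_lit 5) (nat_lit 2) (nat_lit 4) (nat_lit 303) (nat_lit 263) (nat_lit 214))) (XT.nd (nat_lit 78) (nat_lit 0) (nat_lit 0) (XT.lf (nat_lit 0) (nat_lit 189162643432) (nat_lit 76) (nat_lit 164186628428) (nat_lit 76) (nat_lit 152582068163) (nat_lit 1) (nat_lit 4) (nat_lit 2) (nat_lit 5) (nat_lit 2) (nat_lit 4) (nat_lit 304) (nat_lit 263) (nat_lit 213)) (XT.lf (nat_lit 0) (nat_lit 246263413573) (nat_lit 76) (nat_lit 172514193857) (nat_lit 76) (nat_lit 160908235516) (nat_lit 1) (nat_lit 4) (nat_lit 2) (nat_lit 5) (nat_lit 2) (nat_lit 4) (nat_lit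 305) (nat_lit 263) (nat_lit 212)))) (XT.nd (nat_lit 156) (nat_lit 0) (nat_lit 0) (XT.nd (nat_lit 78) (nat_lit 0) (nat_lit 0) (XT.lf (nat_lit 0) (nat_lit 311922846049) (nat_lit 76) (nat_lit 182094164489) (nat_lit 76) (nat_lit 170486990429) (nat_lit 1) (nat_lit 4) (nat_lit 2) (nat_lit 5) (nat_lit 2) (nat_lit 4) (nat_lit 306) (nat_lit 263) (nat_lit 211)) (XT.lf (nat_lit 0) (nat_lit 387425581930) (nat_lit 76) (nat_lit 193113974530) (nat_lit 76) (nat_lit 181505743323) (nat_lit 1) (nat_lit 4) (nat_lit 2) (nat_lit 5) (nat_lit 2) (nat_lit 4) (nat_lit 307) (nat_lit 263) (nat_lit 210))) (XT.nd (nat_lit 78) (nat_lit 0) (nat_lit 0) (XT.lf (nat_lit 0) (nat_lit 474248848657) (nat_lit 76) (nat_lit 205789228961) (nat_lit 76) (nat_lit 194180078496) (nat_lit 1) (nat_lit 4) (nat_lit 2) (nat_lit 5) (nat_lit 2) (nat_lit 4) (nat_lit 308) (nat_lit 263) (nat_lit 209)) (XT.nd (nat_lit 78) (nat_lit 0) (nat_lit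 0) (XT.lf (nat_lit 0) (nat_lit 574091362318) (nat_lit 76) (nat_lit 220367921889) (nat_lit 76) (nat_lit 208757972069) (nat_lit 1) (nat_lit 4) (nat_lit 2) (nat_lit 5) (nat_lit 2) (nat_lit 4) (nat_lit 309) (nat_lit 263) (nat_lit 208)) (XT.lf (nat_lit 0) (nat_lit 688906563397) (nat_lit 76) (nat_lit 237135288610) (nat_lit 76) (nat_lit 225524643699) (nat_lit 1) (nat_lit 4) (nat_lit 2) (nat_lit 5) (nat_lit 2) (nat_lit 4) (nat_lit 310) (nat_lit 263) (nat_lit 207))))))) (XT.nd (nat_lit 702) (nat_lit 0) (nat_lit 0) (XT.nd (nat_lit 312) (nat_lit 0) (nat_lit 0) (XT.nd (nat_lit 156) (nat_lit 0) (nat_lit 0) (XT.nd (nat_lit 78) (nat_lit 0) (nat_lit 0) (XT.lf (nat_lit 0) (nat_lit 820940836265) (nat_lit 76) (nat_lit 256419386301) (nat_lit 76) (nat_lit 244808136962) (nat_lit 1) (nat_lit 4) (nat_lit 2) (nat_lit 5) (nat_lit 2) (nat_lit 4) (nat_lit 311) (nat_lit 263) (nat_lit 206)) (XT.lf (nat_lit 0) (nat_lit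 972777460173) (nat_lit 76) (nat_lit 278597512524) (nat_lit 76) (nat_lit 266985737596) (nat_lit 1) (nat_lit 4) (nat_lit 2) (nat_lit 5) (nat_lit 2) (nat_lit 4) (nat_lit 312) (nat_lit 263) (nat_lit 205))) (XT.nd (nat_lit 78) (nat_lit 0) (nat_lit 0) (XT.lf (nat_lit 0) (nat_lit 1147387151674) (nat_lit 76) (nat_lit 304103587140) (nat_lit 76) (nat_lit 292491355178) (nat_lit 1) (nat_lit 4) (nat_lit 2) (nat_lit 5) (nat_lit 2) (nat_lit 4) (nat_lit 313) (nat_lit 263) (nat_lit 204)) (XT.lf (nat_lit 0) (nat_lit 1348186187343) (nat_lit 76) (nat_lit 333436642044) (nat_lit 76) (nat_lit 321824012662) (nat_lit 1) (nat_lit 4) (nat_lit 2) (nat_lit 5) (nat_lit 2) (nat_lit 4) (nat_lit 314) (nat_lit 263) (nat_lit 203)))) (XT.nd (nat_lit 156) (nat_lit 0) (nat_lit 0) (XT.nd (nat_lit 78) (nat_lit 0) (nat_lit 0) (XT.lf (nat_lit 0) (nat_lit 1579103243964) (nat_lit 76) (nat_lit 367170584831) (nat_lit 76) (nat_lit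 355557609866) (nat_lit 1) (nat_lit 4) (nat_lit 2) (nat_lit 5) (nat_lit 2) (nat_lit 4) (nat_lit 315) (nat_lit 263) (nat_lit 202)) (XT.lf (nat_lit 0) (nat_lit 1844656263949) (nat_lit 76) (nat_lit 405965427427) (nat_lit 76) (nat_lit 394352151954) (nat_lit 1) (nat_lit 4) (nat_lit 2) (nat_lit 5) (nat_lit 2) (nat_lit 4) (nat_lit 316) (nat_lit 263) (nat_lit 201))) (XT.nd (nat_lit 78) (nat_lit 0) (nat_lit 0) (XT.lf (nat_lit 0) (nat_lit 2150040849862) (nat_lit 76) (nat_lit 450580199359) (nat_lit 76) (nat_lit 438966662576) (nat_lit 1) (nat_lit 4) (nat_lit 2) (nat_lit 5) (nat_lit 2) (nat_lit 4) (nat_lit 317) (nat_lit 263) (nat_lit 200)) (XT.nd (nat_lit 78) (nat_lit 0) (nat_lit 0) (XT.lf (nat_lit 0) (nat_lit 2501231917517) (nat_lit 76) (nat_lit 501887798341) (nat_lit 76) (nat_lit 490274034331) (nat_lit 1) (nat_lit 4) (nat_lit 2) (nat_lit 5) (nat_lit 2) (nat_lit 4) (nat_lit 318) (nat_lit 263) (nat_lit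 199)) (XT.lf (nat_lit 0) (nat_lit 2905100596496) (nat_lit 76) (nat_lit 560892068698) (nat_lit 76) (nat_lit 549278107101) (nat_lit 1) (nat_lit 4) (nat_lit 2) (nat_lit 5) (nat_lit 2) (nat_lit 4) (nat_lit 319) (nat_lit 263) (nat_lit 198)))))) (XT.nd (nat_lit 390) (nat_lit 0) (nat_lit 0) (XT.nd (nat_lit 156) (nat_lit 0) (nat_lit 0) (XT.nd (nat_lit 78) (nat_lit 0) (nat_lit 0) (XT.lf (nat_lit 0) (nat_lit 3369548665302) (nat_lit 76) (nat_lit 628747441809) (nat_lit 76) (nat_lit 617133308396) (nat_lit 1) (nat_lit 4) (nat_lit 2) (nat_lit 5) (nat_lit 2) (nat_lit 4) (nat_lit 320) (nat_lit 263) (nat_lit 197)) (XT.lf (nat_lit 0) (nat_lit 3903663151368) (nat_lit 76) (nat_lit 706781522799) (nat_lit 76) (nat_lit 695167239981) (nat_lit 1) (nat_lit 4) (nat_lit 2) (nat_lit 5) (nat_lit 2) (nat_lit 4) (nat_lit 321) (nat_lit 263) (nat_lit 196))) (XT.nd (nat_lit 78) (nat_lit 0) (nat_lit 0) (XT.lf (nat_lit 0)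 (nat_lit 4517894120725) (nat_lit 76) (nat_lit 796521065427) (nat_lit 76) (nat_lit 784906652691) (nat_lit 1) (nat_lit 4) (nat_lit 2) (nat_lit 5) (nat_lit 2) (nat_lit 4) (nat_lit 322) (nat_lit 263) (nat_lit 195)) (XT.nd (nat_lit 78) (nat_lit 0) (nat_lit 0) (XT.lf (nat_lit 0) (nat_lit 5224259135818) (nat_lit 76) (nat_lit 899721843353) (nat_lit 76) (nat_lit 888107317645) (nat_lit 1) (nat_lit 4) (nat_lit 2) (nat_lit 5) (nat_lit 2) (nat_lit 4) (nat_lit 323) (nat_lit 263) (nat_lit 194)) (XT.lf (nat_lit 0) (nat_lit 6036578381725) (nat_lit 76) (nat_lit 1018403002232) (nat_lit 76) (nat_lit 1006788378287) (nat_lit 1) (nat_lit 4) (nat_lit 2) (nat_lit 5) (nat_lit 2) (nat_lit 4) (nat_lit 324) (nat_lit 263) (nat_lit 193))))) (XT.nd (nat_lit 156) (nat_lit 0) (nat_lit 0) (XT.nd (nat_lit 78) (nat_lit 0) (nat_lit 0) (XT.lf (nat_lit 0) (nat_lit 6970745061082) (nat_lit 76) (nat_lit 1154886564737) (nat_lit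 76) (nat_lit 1143271855370) (nat_lit 1) (nat_lit 4) (nat_lit 2) (nat_lit 5) (nat_lit 2) (nat_lit 4) (nat_lit 325) (nat_lit 263) (nat_lit 192)) (XT.lf (nat_lit 0) (nat_lit 8045036348052) (nat_lit 76) (nat_lit 1311842861440) (nat_lit 76) (nat_lit 1300228077791) (nat_lit 1) (nat_lit 4) (nat_lit 2) (nat_lit 5) (nat_lit 2) (nat_lit 4) (nat_lit 326) (nat_lit 263) (nat_lit 191))) (XT.nd (nat_lit 78) (nat_lit 0) (nat_lit 0) (XT.lf (nat_lit 0) (nat_lit 9280470985204) (nat_lit 76) (nat_lit 1492342776406) (nat_lit 76) (nat_lit 1480727928165) (nat_lit 1) (nat_lit 4) (nat_lit 2) (nat_lit 5) (nat_lit 2) (nat_lit 4) (nat_lit 327) (nat_lit 263) (nat_lit 190)) (XT.nd (nat_lit 78) (nat_lit 0) (nat_lit 0) (XT.lf (nat_lit 0) (nat_lit 10701220519789) (nat_lit 76) (nat_lit 1699917829710) (nat_lit 76) (nat_lit 1688302925303) (nat_lit 1) (nat_lit 4) (nat_lit 2) (nat_lit 5) (nat_lit 2) (nat_lit 4) (nat_lit 328)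 (nat_lit 263) (nat_lit 189)) (XT.lf (nat_lit 0) (nat_lit 12335082225308) (nat_lit 76) (nat_lit 1938629272396) (nat_lit 76) (nat_lit 1927014319149) (nat_lit 1) (nat_lit 4) (nat_lit 2) (nat_lit 5) (nat_lit 2) (nat_lit 4) (nat_lit 329) (nat_lit 263) (nat_lit 188))))))))
noncomputable def xc56 : XT := (XT.nd (nat_lit 36114) (nat_lit 0) (nat_lit 304) (XT.nd (nat_lit 702) (nat_lit 0) (nat_lit 0) (XT.nd (nat_lit 312) (nat_lit 0) (nat_lit 0) (XT.nd (nat_lit 156) (nat_lit 0) (nat_lit 0) (XT.nd (nat_lit 78) (nat_lit 0) (nat_lit 0) (XT.lf (nat_lit 0) (nat_lit 14214022961217) (nat_lit 76) (nat_lit 2213147545734) (nat_lit 76) (nat_lit 2201532550016) (nat_lit 1) (nat_lit 4) (nat_lit 2) (nat_lit 5) (nat_lit 2) (nat_lit 4) (nat_lit 330) (nat_lit 263) (nat_lit 187)) (XT.lf (nat_lit 0) (nat_lit 16374804611481) (nat_lit 76) (nat_lit 2528843659419) (nat_lit 76) (nat_lit 2517228626771) (nat_lit 1) (nat_lit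 4) (nat_lit 2) (nat_lit 5) (nat_lit 2) (nat_lit 4) (nat_lit 331) (nat_lit 263) (nat_lit 186))) (XT.nd (nat_lit 78) (nat_lit 0) (nat_lit 0) (XT.lf (nat_lit 0) (nat_lit 18859703338820) (nat_lit 76) (nat_lit 2891894276546) (nat_lit 76) (nat_lit 2880279211783) (nat_lit 1) (nat_lit 4) (nat_lit 2) (nat_lit 5) (nat_lit 2) (nat_lit 4) (nat_lit 332) (nat_lit 263) (nat_lit 185)) (XT.lf (nat_lit 0) (nat_lit 21717336727032) (nat_lit 76) (nat_lit 3309402561361) (nat_lit 76) (nat_lit 3297787468674) (nat_lit 1) (nat_lit 4) (nat_lit 2) (nat_lit 5) (nat_lit 2) (nat_lit 4) (nat_lit 333) (nat_lit 263) (nat_lit 184)))) (XT.nd (nat_lit 156) (nat_lit 0) (nat_lit 0) (XT.nd (nat_lit 78) (nat_lit 0) (nat_lit 0) (XT.lf (nat_lit 0) (nat_lit 25003614994582) (nat_lit 76) (nat_lit 3789537154221) (nat_lit 76) (nat_lit 3777922037252) (nat_lit 1) (nat_lit 4) (nat_lit 2) (nat_lit 5) (nat_lit 2) (nat_lit 4) (nat_lit 334)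 (nat_lit 263) (nat_lit 183)) (XT.lf (nat_lit 0) (nat_lit 28782834890181) (nat_lit 76) (nat_lit 4341691992812) (nat_lit 76) (nat_lit 4330076854727) (nat_lit 1) (nat_lit 4) (nat_lit 2) (nat_lit 5) (nat_lit 2) (nat_lit 4) (nat_lit 335) (nat_lit 263) (nat_lit 182))) (XT.nd (nat_lit 78) (nat_lit 0) (nat_lit 0) (XT.lf (nat_lit 0) (nat_lit 33128937672657) (nat_lit 76) (nat_lit 4976670106584) (nat_lit 76) (nat_lit 4965054950138) (nat_lit 1) (nat_lit 4) (nat_lit 2) (nat_lit 5) (nat_lit 2) (nat_lit 4) (nat_lit 336) (nat_lit 263) (nat_lit 181)) (XT.nd (nat_lit 78) (nat_lit 0) (nat_lit 0) (XT.lf (nat_lit 0) (nat_lit 38126955787755) (nat_lit 76) (nat_lit 5706894980373) (nat_lit 76) (nat_lit 5695279807960) (nat_lit 1) (nat_lit 4) (nat_lit 2) (nat_lit 5) (nat_lit 2) (nat_lit 4) (nat_lit 337) (nat_lit 263) (nat_lit 180)) (XT.lf (nat_lit 0) (nat_lit 43874676546421) (nat_lit 76) (nat_lit 6546653622577)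 (nat_lit 76) (nat_lit 6535038436281) (nat_lit 1) (nat_lit 4) (nat_lit 2) (nat_lit 5) (nat_lit 2) (nat_lit 4) (nat_lit 338) (nat_lit 263) (nat_lit 179)))))) (XT.nd (nat_lit 35022) (nat_lit 0) (nat_lit 1292) (XT.nd (nat_lit 34866) (nat_lit 0) (nat_lit 1824) (XT.nd (nat_lit 34788) (nat_lit 0) (nat_lit 1824) (XT.lf (nat_lit 0) (nat_lit 50484555354804) (nat_lit 76) (nat_lit 7512376093589) (nat_lit 76) (nat_lit 7500760895221) (nat_lit 1) (nat_lit 4) (nat_lit 2) (nat_lit 5) (nat_lit 2) (nat_lit 4) (nat_lit 339) (nat_lit 263) (nat_lit 178)) (XT.lf (nat_lit 0) (nat_lit 709289082) (nat_lit 0) (nat_lit 709289082) (nat_lit 228) (nat_lit 2566356803) (nat_lit 25) (nat_lit 5) (nat_lit 25) (nat_lit 3) (nat_lit 28) (nat_lit 3) (nat_lit 264) (nat_lit 264) (nat_lit 252))) (XT.nd (nat_lit 78) (nat_lit 0) (nat_lit 0) (XT.lf (nat_lit 0) (nat_lit 4217559779) (nat_lit 228) (nat_lit 2852283193) (nat_lit 304)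 (nat_lit 1316736001) (nat_lit 25) (nat_lit 5) (nat_lit 28) (nat_lit 3) (nat_lit 29) (nat_lit 5) (nat_lit 265) (nat_lit 264) (nat_lit 251)) (XT.lf (nat_lit 76) (nat_lit 1318025726) (nat_lit 0) (nat_lit 4415967863) (nat_lit 304) (nat_lit 3143503809) (nat_lit 26) (nat_lit 5) (nat_lit 25) (nat_lit 5) (nat_lit 29) (nat_lit 5) (nat_lit 266) (nat_lit 264) (nat_lit 250)))) (XT.nd (nat_lit 156) (nat_lit 380) (nat_lit 0) (XT.nd (nat_lit 78) (nat_lit 152) (nat_lit 0) (XT.lf (nat_lit 76) (nat_lit 6307160232) (nat_lit 0) (nat_lit 1146594931) (nat_lit 304) (nat_lit 1992830761) (nat_lit 26) (nat_lit 5) (nat_lit 25) (nat_lit 5) (nat_lit 29) (nat_lit 5) (nat_lit 267) (nat_lit 264) (nat_lit 249)) (XT.lf (nat_lit 0) (nat_lit 1865807707) (nat_lit 228) (nat_lit 7602155273) (nat_lit 304) (nat_lit 628395270) (nat_lit 23) (nat_lit 5) (nat_lit 26) (nat_lit 5) (nat_lit 27) (nat_lit 5) (nat_lit 268) (nat_lit 264)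 (nat_lit 248))) (XT.nd (nat_lit 78) (nat_lit 304) (nat_lit 0) (XT.lf (nat_lit 0) (nat_lit 941510255) (nat_lit 304) (nat_lit 3089717400) (nat_lit 76) (nat_lit 6794442440) (nat_lit 22) (nat_lit 5) (nat_lit 26) (nat_lit 5) (nat_lit 23) (nat_lit 5) (nat_lit 269) (nat_lit 264) (nat_lit 247)) (XT.nd (nat_lit 78) (nat_lit 0) (nat_lit 0) (XT.lf (nat_lit 0) (nat_lit 2690589817) (nat_lit 380) (nat_lit 8743263275) (nat_lit 76) (nat_lit 225354795) (nat_lit 18) (nat_lit 5) (nat_lit 23) (nat_lit 5) (nat_lit 19) (nat_lit 5) (nat_lit 270) (nat_lit 264) (nat_lit 246)) (XT.lf (nat_lit 0) (nat_lit 4950594967) (nat_lit 380) (nat_lit 2760050325) (nat_lit 76) (nat_lit 4870299803) (nat_lit 18) (nat_lit 5) (nat_lit 23) (nat_lit 5) (nat_lit 19) (nat_lit 5) (nat_lit 271) (nat_lit 264) (nat_lit 245))))))) (XT.nd (nat_lit 702) (nat_lit 304) (nat_lit 0) (XT.nd (nat_lit 312) (nat_lit 380) (nat_lit 0) (XT.nd (nat_lit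 156) (nat_lit 152) (nat_lit 0) (XT.nd (nat_lit 78) (nat_lit 0) (nat_lit 0) (XT.lf (nat_lit 0) (nat_lit 4393006345) (nat_lit 152) (nat_lit 3240587935) (nat_lit 228) (nat_lit 5995143767) (nat_lit 16) (nat_lit 5) (nat_lit 18) (nat_lit 5) (nat_lit 19) (nat_lit 5) (nat_lit 272) (nat_lit 264) (nat_lit 244)) (XT.lf (nat_lit 0) (nat_lit 10858056321) (nat_lit 228) (nat_lit 2094570990) (nat_lit 76) (nat_lit 1860563466) (nat_lit 16) (nat_lit 5) (nat_lit 19) (nat_lit 5) (nat_lit 17) (nat_lit 4) (nat_lit 273) (nat_lit 264) (nat_lit 243))) (XT.nd (nat_lit 78) (nat_lit 76) (nat_lit 0) (XT.lf (nat_lit 0) (nat_lit 6425795768) (nat_lit 76) (nat_lit 8481821657) (nat_lit 152) (nat_lit 1216777578) (nat_lit 15) (nat_lit 5) (nat_lit 16) (nat_lit 5) (nat_lit 17) (nat_lit 4) (nat_lit 274) (nat_lit 264) (nat_lit 242)) (XT.lf (nat_lit 0) (nat_lit 1798293726) (nat_lit 152) (nat_lit 1353923255) (nat_lit 76) (nat_lit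 14462587604) (nat_lit 14) (nat_lit 5) (nat_lit 16) (nat_lit 5) (nat_lit 15) (nat_lit 5) (nat_lit 275) (nat_lit 264) (nat_lit 241)))) (XT.nd (nat_lit 156) (nat_lit 228) (nat_lit 0) (XT.nd (nat_lit 78) (nat_lit 0) (nat_lit 0) (XT.lf (nat_lit 0) (nat_lit 5584162838) (nat_lit 228) (nat_lit 10540373209) (nat_lit 76) (nat_lit 3129277469) (nat_lit 12) (nat_lit 5) (nat_lit 15) (nat_lit 5) (nat_lit 13) (nat_lit 4) (nat_lit 276) (nat_lit 264) (nat_lit 240)) (XT.lf (nat_lit 0) (nat_lit 10098987414) (nat_lit 228) (nat_lit 939954887) (nat_lit 76) (nat_lit 10075740632) (nat_lit 12) (nat_lit 5) (nat_lit 15) (nat_lit 5) (nat_lit 13) (nat_lit 4) (nat_lit 277) (nat_lit 264) (nat_lit 239))) (XT.nd (nat_lit 78) (nat_lit 152) (nat_lit 0) (XT.lf (nat_lit 0) (nat_lit 10990744065) (nat_lit 76) (nat_lit 4700461068) (nat_lit 152) (nat_lit 7503600395) (nat_lit 11) (nat_lit 5) (nat_lit 12) (nat_lit 5) (nat_lit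 13) (nat_lit 4) (nat_lit 278) (nat_lit 264) (nat_lit 238)) (XT.nd (nat_lit 78) (nat_lit 152) (nat_lit 0) (XT.lf (nat_lit 0) (nat_lit 22228302890) (nat_lit 152) (nat_lit 963120640) (nat_lit 0) (nat_lit 2379744731) (nat_lit 11) (nat_lit 5) (nat_lit 13) (nat_lit 4) (nat_lit 11) (nat_lit 4) (nat_lit 279) (nat_lit 264) (nat_lit 237)) (XT.lf (nat_lit 0) (nat_lit 2055353405) (nat_lit 152) (nat_lit 15490414051) (nat_lit 76) (nat_lit 10638096706) (nat_lit 9) (nat_lit 5) (nat_lit 11) (nat_lit 5) (nat_lit 10) (nat_lit 4) (nat_lit 280) (nat_lit 264) (nat_lit 236)))))) (XT.nd (nat_lit 312) (nat_lit 152) (nat_lit 0) (XT.nd (nat_lit 156) (nat_lit 76) (nat_lit 0) (XT.nd (nat_lit 78) (nat_lit 76) (nat_lit 0) (XT.lf (nat_lit 0) (nat_lit 7928762104) (nat_lit 152) (nat_lit 2915512057) (nat_lit 76) (nat_lit 20319241974) (nat_lit 9) (nat_lit 5) (nat_lit 11) (nat_lit 5) (nat_lit 10) (nat_lit 4) (nat_lit 281)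 (nat_lit 264) (nat_lit 235)) (XT.lf (nat_lit 0) (nat_lit 12597807418) (nat_lit 76) (nat_lit 2567858268) (nat_lit 152) (nat_lit 19352151357) (nat_lit 8) (nat_lit 5) (nat_lit 9) (nat_lit 5) (nat_lit 10) (nat_lit 4) (nat_lit 282) (nat_lit 264) (nat_lit 234))) (XT.nd (nat_lit 78) (nat_lit 76) (nat_lit 0) (XT.lf (nat_lit 0) (nat_lit 23897533572) (nat_lit 152) (nat_lit 7952231781) (nat_lit 0) (nat_lit 6464147481) (nat_lit 8) (nat_lit 5) (nat_lit 10) (nat_lit 4) (nat_lit 8) (nat_lit 4) (nat_lit 283) (nat_lit 264) (nat_lit 233)) (XT.lf (nat_lit 0) (nat_lit 8701754727) (nat_lit 76) (nat_lit 25686969824) (nat_lit 76) (nat_lit 8223322715) (nat_lit 7) (nat_lit 4) (nat_lit 8) (nat_lit 5) (nat_lit 8) (nat_lit 4) (nat_lit 284) (nat_lit 264) (nat_lit 232)))) (XT.nd (nat_lit 156) (nat_lit 76) (nat_lit 0) (XT.nd (nat_lit 78) (nat_lit 76) (nat_lit 0) (XT.lf (nat_lit 0) (nat_lit 28688981719) (nat_lit 76)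 (nat_lit 18149126274) (nat_lit 76) (nat_lit 659165238) (nat_lit 7) (nat_lit 4) (nat_lit 8) (nat_lit 5) (nat_lit 8) (nat_lit 4) (nat_lit 285) (nat_lit 264) (nat_lit 231)) (XT.lf (nat_lit 0) (nat_lit 7295439322) (nat_lit 152) (nat_lit 1827648169) (nat_lit 76) (nat_lit 43946561878) (nat_lit 6) (nat_lit 5) (nat_lit 8) (nat_lit 5) (nat_lit 7) (nat_lit 4) (nat_lit 286) (nat_lit 264) (nat_lit 230))) (XT.nd (nat_lit 78) (nat_lit 0) (nat_lit 0) (XT.lf (nat_lit 0) (nat_lit 17242790815) (nat_lit 152) (nat_lit 40103428210) (nat_lit 0) (nat_lit 1996930098) (nat_lit 5) (nat_lit 5) (nat_lit 7) (nat_lit 4) (nat_lit 5) (nat_lit 4) (nat_lit 287) (nat_lit 264) (nat_lit 229)) (XT.nd (nat_lit 78) (nat_lit 0) (nat_lit 0) (XT.lf (nat_lit 0) (nat_lit 29192534507) (nat_lit 152) (nat_lit 23356994892) (nat_lit 0) (nat_lit 13931628717) (nat_lit 5) (nat_lit 5) (nat_lit 7) (nat_lit 4) (nat_lit 5) (nat_lit 4) (nat_lit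 288) (nat_lit 264) (nat_lit 228)) (XT.lf (nat_lit 0) (nat_lit 42913671270) (nat_lit 152) (nat_lit 4139698737) (nat_lit 0) (nat_lit 27639682807) (nat_lit 5) (nat_lit 5) (nat_lit 7) (nat_lit 4) (nat_lit 5) (nat_lit 4) (nat_lit 289) (nat_lit 264) (nat_lit 227))))))))
noncomputable def xc57 : XT := (XT.nd (nat_lit 1404) (nat_lit 0) (nat_lit 0) (XT.nd (nat_lit 702) (nat_lit 76) (nat_lit 0) (XT.nd (nat_lit 312) (nat_lit 76) (nat_lit 0) (XT.nd (nat_lit 156) (nat_lit 76) (nat_lit 0) (XT.nd (nat_lit 78) (nat_lit 0) (nat_lit 0) (XT.lf (nat_lit 0) (nat_lit 19676158525) (nat_lit 76) (nat_lit 39813247367) (nat_lit 76) (nat_lit 24527882666) (nat_lit 4) (nat_lit 4) (nat_lit 5) (nat_lit 5) (nat_lit 5) (nat_lit 4) (nat_lit 290) (nat_lit 264) (nat_lit 226)) (XT.lf (nat_lit 0) (nat_lit 47495523646) (nat_lit 76) (nat_lit 31255026916) (nat_lit 76) (nat_lit 15959769835) (nat_lit 4) (nat_lit 4) (nat_lit 5)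 (nat_lit 5) (nat_lit 5) (nat_lit 4) (nat_lit 291) (nat_lit 264) (nat_lit 225))) (XT.nd (nat_lit 78) (nat_lit 76) (nat_lit 0) (XT.lf (nat_lit 0) (nat_lit 79458127084) (nat_lit 76) (nat_lit 21427658554) (nat_lit 76) (nat_lit 6123799403) (nat_lit 4) (nat_lit 4) (nat_lit 5) (nat_lit 5) (nat_lit 5) (nat_lit 4) (nat_lit 292) (nat_lit 264) (nat_lit 224)) (XT.lf (nat_lit 0) (nat_lit 4711982345) (nat_lit 152) (nat_lit 5180577168) (nat_lit 76) (nat_lit 111231033610) (nat_lit 3) (nat_lit 5) (nat_lit 5) (nat_lit 5) (nat_lit 4) (nat_lit 4) (nat_lit 293) (nat_lit 264) (nat_lit 223)))) (XT.nd (nat_lit 156) (nat_lit 0) (nat_lit 0) (XT.nd (nat_lit 78) (nat_lit 0) (nat_lit 0) (XT.lf (nat_lit 0) (nat_lit 17650645022) (nat_lit 152) (nat_lit 115163874263) (nat_lit 0) (nat_lit 4330781011) (nat_lit 2) (nat_lit 5) (nat_lit 4) (nat_lit 4) (nat_lit 2) (nat_lit 4) (nat_lit 294) (nat_lit 264) (nat_lit 222)) (XT.lf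 (nat_lit 0) (nat_lit 33273084463) (nat_lit 152) (nat_lit 102237439339) (nat_lit 0) (nat_lit 19948302191) (nat_lit 2) (nat_lit 5) (nat_lit 4) (nat_lit 4) (nat_lit 2) (nat_lit 4) (nat_lit 295) (nat_lit 264) (nat_lit 221))) (XT.nd (nat_lit 78) (nat_lit 0) (nat_lit 0) (XT.lf (nat_lit 0) (nat_lit 51228633149) (nat_lit 152) (nat_lit 87392719641) (nat_lit 0) (nat_lit 37899574128) (nat_lit 2) (nat_lit 5) (nat_lit 4) (nat_lit 4) (nat_lit 2) (nat_lit 4) (nat_lit 296) (nat_lit 264) (nat_lit 220)) (XT.nd (nat_lit 78) (nat_lit 0) (nat_lit 0) (XT.lf (nat_lit 0) (nat_lit 71868595293) (nat_lit 152) (nat_lit 70339275003) (nat_lit 0) (nat_lit 58535817360) (nat_lit 2) (nat_lit 5) (nat_lit 4) (nat_lit 4) (nat_lit 2) (nat_lit 4) (nat_lit 297) (nat_lit 264) (nat_lit 219)) (XT.lf (nat_lit 0) (nat_lit 95596796241) (nat_lit 152) (nat_lit 50743451072) (nat_lit 0) (nat_lit 82260784471) (nat_lit 2) (nat_lit 5)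 (nat_lit 4) (nat_lit 4) (nat_lit 2) (nat_lit 4) (nat_lit 298) (nat_lit 264) (nat_lit 218)))))) (XT.nd (nat_lit 312) (nat_lit 0) (nat_lit 0) (XT.nd (nat_lit 156) (nat_lit 76) (nat_lit 0) (XT.nd (nat_lit 78) (nat_lit 0) (nat_lit 0) (XT.lf (nat_lit 0) (nat_lit 122877483403) (nat_lit 152) (nat_lit 28221851294) (nat_lit 0) (nat_lit 109538659601) (nat_lit 2) (nat_lit 5) (nat_lit 4) (nat_lit 4) (nat_lit 2) (nat_lit 4) (nat_lit 299) (nat_lit 264) (nat_lit 217)) (XT.lf (nat_lit 0) (nat_lit 154244409354) (nat_lit 152) (nat_lit 2333835673) (nat_lit 0) (nat_lit 140903140307) (nat_lit 2) (nat_lit 5) (nat_lit 4) (nat_lit 4) (nat_lit 2) (nat_lit 4) (nat_lit 300) (nat_lit 264) (nat_lit 216))) (XT.nd (nat_lit 78) (nat_lit 0) (nat_lit 0) (XT.lf (nat_lit 0) (nat_lit 30107476169) (nat_lit 76) (nat_lit 161450485033) (nat_lit 76) (nat_lit 148107089686) (nat_lit 1) (nat_lit 4) (nat_lit 2) (nat_lit 5) (nat_lit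 2) (nat_lit 4) (nat_lit 301) (nat_lit 264) (nat_lit 215)) (XT.lf (nat_lit 0) (nat_lit 67667461604) (nat_lit 76) (nat_lit 166918239541) (nat_lit 76) (nat_lit 153572995237) (nat_lit 1) (nat_lit 4) (nat_lit 2) (nat_lit 5) (nat_lit 2) (nat_lit 4) (nat_lit 302) (nat_lit 264) (nat_lit 214)))) (XT.nd (nat_lit 156) (nat_lit 0) (nat_lit 0) (XT.nd (nat_lit 78) (nat_lit 0) (nat_lit 0) (XT.lf (nat_lit 0) (nat_lit 110852910515) (nat_lit 76) (nat_lit 173210482312) (nat_lit 76) (nat_lit 159863630220) (nat_lit 1) (nat_lit 4) (nat_lit 2) (nat_lit 5) (nat_lit 2) (nat_lit 4) (nat_lit 303) (nat_lit 264) (nat_lit 213)) (XT.lf (nat_lit 0) (nat_lit 160508755598) (nat_lit 76) (nat_lit 180450322445) (nat_lit 76) (nat_lit 167102072276) (nat_lit 1) (nat_lit 4) (nat_lit 2) (nat_lit 5) (nat_lit 2) (nat_lit 4) (nat_lit 304) (nat_lit 264) (nat_lit 212))) (XT.nd (nat_lit 78) (nat_lit 0) (nat_lit 0) (XT.lf (nat_lit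 0) (nat_lit 217606524257) (nat_lit 76) (nat_lit 188779408985) (nat_lit 76) (nat_lit 175429943097) (nat_lit 1) (nat_lit 4) (nat_lit 2) (nat_lit 5) (nat_lit 2) (nat_lit 4) (nat_lit 305) (nat_lit 264) (nat_lit 211)) (XT.nd (nat_lit 78) (nat_lit 0) (nat_lit 0) (XT.lf (nat_lit 0) (nat_lit 283263346748) (nat_lit 76) (nat_lit 198360702321) (nat_lit 76) (nat_lit 185010179286) (nat_lit 1) (nat_lit 4) (nat_lit 2) (nat_lit 5) (nat_lit 2) (nat_lit 4) (nat_lit 306) (nat_lit 264) (nat_lit 210)) (XT.lf (nat_lit 0) (nat_lit 358763813077) (nat_lit 76) (nat_lit 209381662541) (nat_lit 76) (nat_lit 196030220248) (nat_lit 1) (nat_lit 4) (nat_lit 2) (nat_lit 5) (nat_lit 2) (nat_lit 4) (nat_lit 307) (nat_lit 264) (nat_lit 209))))))) (XT.nd (nat_lit 702) (nat_lit 0) (nat_lit 0) (XT.nd (nat_lit 312) (nat_lit 0) (nat_lit 0) (XT.nd (nat_lit 156) (nat_lit 0) (nat_lit 0) (XT.nd (nat_lit 78) (nat_lit 0) (nat_lit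 0) (XT.lf (nat_lit 0) (nat_lit 445585106281) (nat_lit 76) (nat_lit 222057917126) (nat_lit 76) (nat_lit 208705675478) (nat_lit 1) (nat_lit 4) (nat_lit 2) (nat_lit 5) (nat_lit 2) (nat_lit 4) (nat_lit 308) (nat_lit 264) (nat_lit 208)) (XT.lf (nat_lit 0) (nat_lit 545425903835) (nat_lit 76) (nat_lit 236637479754) (nat_lit 76) (nat_lit 223284543014) (nat_lit 1) (nat_lit 4) (nat_lit 2) (nat_lit 5) (nat_lit 2) (nat_lit 4) (nat_lit 309) (nat_lit 264) (nat_lit 207))) (XT.nd (nat_lit 78) (nat_lit 0) (nat_lit 0) (XT.lf (nat_lit 0) (nat_lit 660239612647) (nat_lit 76) (nat_lit 253405602736) (nat_lit 76) (nat_lit 240052061570) (nat_lit 1) (nat_lit 4) (nat_lit 2) (nat_lit 5) (nat_lit 2) (nat_lit 4) (nat_lit 310) (nat_lit 264) (nat_lit 206)) (XT.lf (nat_lit 0) (nat_lit 792272587892) (nat_lit 76) (nat_lit 272690358045) (nat_lit 76) (nat_lit 259336291289) (nat_lit 1) (nat_lit 4) (nat_lit 2) (nat_lit 5)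 (nat_lit 2) (nat_lit 4) (nat_lit 311) (nat_lit 264) (nat_lit 205)))) (XT.nd (nat_lit 156) (nat_lit 0) (nat_lit 0) (XT.nd (nat_lit 78) (nat_lit 0) (nat_lit 0) (XT.lf (nat_lit 0) (nat_lit 944108083431) (nat_lit 76) (nat_lit 294869056109) (nat_lit 76) (nat_lit 281514532320) (nat_lit 1) (nat_lit 4) (nat_lit 2) (nat_lit 5) (nat_lit 2) (nat_lit 4) (nat_lit 312) (nat_lit 264) (nat_lit 204)) (XT.lf (nat_lit 0) (nat_lit 1118716793742) (nat_lit 76) (nat_lit 320375627979) (nat_lit 76) (nat_lit 307020706769) (nat_lit 1) (nat_lit 4) (nat_lit 2) (nat_lit 5) (nat_lit 2) (nat_lit 4) (nat_lit 313) (nat_lit 264) (nat_lit 203))) (XT.nd (nat_lit 78) (nat_lit 0) (nat_lit 0) (XT.lf (nat_lit 0) (nat_lit 1319514976203) (nat_lit 76) (nat_lit 349709115277) (nat_lit 76) (nat_lit 336353848484) (nat_lit 1) (nat_lit 4) (nat_lit 2) (nat_lit 5) (nat_lit 2) (nat_lit 4) (nat_lit 314) (nat_lit 264) (nat_lit 202)) (XT.nd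 (nat_lit 78) (nat_lit 0) (nat_lit 0) (XT.lf (nat_lit 0) (nat_lit 1550431290903) (nat_lit 76) (nat_lit 383443434060) (nat_lit 76) (nat_lit 370087866760) (nat_lit 1) (nat_lit 4) (nat_lit 2) (nat_lit 5) (nat_lit 2) (nat_lit 4) (nat_lit 315) (nat_lit 264) (nat_lit 201)) (XT.lf (nat_lit 0) (nat_lit 1815983665740) (nat_lit 76) (nat_lit 422238603608) (nat_lit 76) (nat_lit 408882774997) (nat_lit 1) (nat_lit 4) (nat_lit 2) (nat_lit 5) (nat_lit 2) (nat_lit 4) (nat_lit 316) (nat_lit 264) (nat_lit 200)))))) (XT.nd (nat_lit 390) (nat_lit 0) (nat_lit 0) (XT.nd (nat_lit 156) (nat_lit 0) (nat_lit 0) (XT.nd (nat_lit 78) (nat_lit 0) (nat_lit 0) (XT.lf (nat_lit 0) (nat_lit 2121367690655) (nat_lit 76) (nat_lit 466853659847) (nat_lit 76) (nat_lit 453497604010) (nat_lit 1) (nat_lit 4) (nat_lit 2) (nat_lit 5) (nat_lit 2) (nat_lit 4) (nat_lit 317) (nat_lit 264) (nat_lit 199)) (XT.lf (nat_lit 0) (nat_lit 2472558270485)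 (nat_lit 76) (nat_lit 518161506052) (nat_lit 76) (nat_lit 504805252626) (nat_lit 1) (nat_lit 4) (nat_lit 2) (nat_lit 5) (nat_lit 2) (nat_lit 4) (nat_lit 318) (nat_lit 264) (nat_lit 198))) (XT.nd (nat_lit 78) (nat_lit 0) (nat_lit 0) (XT.lf (nat_lit 0) (nat_lit 2876426525269) (nat_lit 76) (nat_lit 577165991386) (nat_lit 76) (nat_lit 563809566144) (nat_lit 1) (nat_lit 4) (nat_lit 2) (nat_lit 5) (nat_lit 2) (nat_lit 4) (nat_lit 319) (nat_lit 264) (nat_lit 197)) (XT.nd (nat_lit 78) (nat_lit 0) (nat_lit 0) (XT.lf (nat_lit 0) (nat_lit 3340874225209) (nat_lit 76) (nat_lit 645021551433) (nat_lit 76) (nat_lit 631664976786) (nat_lit 1) (nat_lit 4) (nat_lit 2) (nat_lit 5) (nat_lit 2) (nat_lit 4) (nat_lit 320) (nat_lit 264) (nat_lit 196)) (XT.lf (nat_lit 0) (nat_lit 3874988390522) (nat_lit 76) (nat_lit 723055794976) (nat_lit 76) (nat_lit 709699090412) (nat_lit 1) (nat_lit 4) (nat_lit 2) (nat_lit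 5) (nat_lit 2) (nat_lit 4) (nat_lit 321) (nat_lit 264) (nat_lit 195))))) (XT.nd (nat_lit 156) (nat_lit 0) (nat_lit 0) (XT.nd (nat_lit 78) (nat_lit 0) (nat_lit 0) (XT.lf (nat_lit 0) (nat_lit 4489219080964) (nat_lit 76) (nat_lit 812795478955) (nat_lit 76) (nat_lit 799438661418) (nat_lit 1) (nat_lit 4) (nat_lit 2) (nat_lit 5) (nat_lit 2) (nat_lit 4) (nat_lit 322) (nat_lit 264) (nat_lit 194)) (XT.lf (nat_lit 0) (nat_lit 5195583853522) (nat_lit 76) (nat_lit 915996379794) (nat_lit 76) (nat_lit 902639464021) (nat_lit 1) (nat_lit 4) (nat_lit 2) (nat_lit 5) (nat_lit 2) (nat_lit 4) (nat_lit 323) (nat_lit 264) (nat_lit 193))) (XT.nd (nat_lit 78) (nat_lit 0) (nat_lit 0) (XT.lf (nat_lit 0) (nat_lit 6007902888529) (nat_lit 76) (nat_lit 1034677645554) (nat_lit 76) (nat_lit 1021320644358) (nat_lit 1) (nat_lit 4) (nat_lit 2) (nat_lit 5) (nat_lit 2) (nat_lit 4) (nat_lit 324) (nat_lit 264) (nat_lit 192))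 (XT.nd (nat_lit 78) (nat_lit 0) (nat_lit 0) (XT.lf (nat_lit 0) (nat_lit 6942069384494) (nat_lit 76) (nat_lit 1171161300999) (nat_lit 76) (nat_lit 1157804225523) (nat_lit 1) (nat_lit 4) (nat_lit 2) (nat_lit 5) (nat_lit 2) (nat_lit 4) (nat_lit 325) (nat_lit 264) (nat_lit 191)) (XT.lf (nat_lit 0) (nat_lit 8016360511993) (nat_lit 76) (nat_lit 1328117678520) (nat_lit 76) (nat_lit 1314760538451) (nat_lit 1) (nat_lit 4) (nat_lit 2) (nat_lit 5) (nat_lit 2) (nat_lit 4) (nat_lit 326) (nat_lit 264) (nat_lit 190))))))))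
noncomputable def xc58 : XT := (XT.nd (nat_lit 36114) (nat_lit 0) (nat_lit 380) (XT.nd (nat_lit 702) (nat_lit 0) (nat_lit 0) (XT.nd (nat_lit 312) (nat_lit 0) (nat_lit 0) (XT.nd (nat_lit 156) (nat_lit 0) (nat_lit 0) (XT.nd (nat_lit 78) (nat_lit 0) (nat_lit 0) (XT.lf (nat_lit 0) (nat_lit 9251795010475) (nat_lit 76) (nat_lit 1508617663762) (nat_lit 76) (nat_lit 1495260467527) (nat_lit 1) (nat_lit 4) (nat_lit 2) (nat_lit 5) (nat_lit 2) (nat_lit 4) (nat_lit 327) (nat_lit 264) (nat_lit 189)) (XT.lf (nat_lit 0) (nat_lit 10672544424477) (nat_lit 76) (nat_lit 1716192778176) (nat_lit 76) (nat_lit 1702835533100) (nat_lit 1) (nat_lit 4) (nat_lit 2) (nat_lit 5) (nat_lit 2) (nat_lit 4) (nat_lit 328) (nat_lit 264) (nat_lit 188))) (XT.nd (nat_lit 78) (nat_lit 0) (nat_lit 0) (XT.lf (nat_lit 0) (nat_lit 12306406025141) (nat_lit 76) (nat_lit 1954904274001) (nat_lit 76) (nat_lit 1941546986455) (nat_lit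 1) (nat_lit 4) (nat_lit 2) (nat_lit 5) (nat_lit 2) (nat_lit 4) (nat_lit 329) (nat_lit 264) (nat_lit 187)) (XT.lf (nat_lit 0) (nat_lit 14185346669873) (nat_lit 76) (nat_lit 2229422593547) (nat_lit 76) (nat_lit 2216065269070) (nat_lit 1) (nat_lit 4) (nat_lit 2) (nat_lit 5) (nat_lit 2) (nat_lit 4) (nat_lit 330) (nat_lit 264) (nat_lit 186)))) (XT.nd (nat_lit 156) (nat_lit 0) (nat_lit 0) (XT.nd (nat_lit 78) (nat_lit 0) (nat_lit 0) (XT.lf (nat_lit 0) (nat_lit 16346128240851) (nat_lit 76) (nat_lit 2545118747413) (nat_lit 76) (nat_lit 2531761390822) (nat_lit 1) (nat_lit 4) (nat_lit 2) (nat_lit 5) (nat_lit 2) (nat_lit 4) (nat_lit 331) (nat_lit 264) (nat_lit 185)) (XT.lf (nat_lit 0) (nat_lit 18831026899247) (nat_lit 76) (nat_lit 2908169399479) (nat_lit 76) (nat_lit 2894812014963) (nat_lit 1) (nat_lit 4) (nat_lit 2) (nat_lit 5) (nat_lit 2) (nat_lit 4) (nat_lit 332) (nat_lit 264) (nat_lit 184)))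 (XT.nd (nat_lit 78) (nat_lit 0) (nat_lit 0) (XT.lf (nat_lit 0) (nat_lit 21688660227509) (nat_lit 76) (nat_lit 3325677714677) (nat_lit 76) (nat_lit 3312320305879) (nat_lit 1) (nat_lit 4) (nat_lit 2) (nat_lit 5) (nat_lit 2) (nat_lit 4) (nat_lit 333) (nat_lit 264) (nat_lit 183)) (XT.nd (nat_lit 78) (nat_lit 0) (nat_lit 0) (XT.lf (nat_lit 0) (nat_lit 24974938442926) (nat_lit 76) (nat_lit 3805812333956) (nat_lit 76) (nat_lit 3792454904043) (nat_lit 1) (nat_lit 4) (nat_lit 2) (nat_lit 5) (nat_lit 2) (nat_lit 4) (nat_lit 334) (nat_lit 264) (nat_lit 182)) (XT.lf (nat_lit 0) (nat_lit 28754158293194) (nat_lit 76) (nat_lit 4357967195520) (nat_lit 76) (nat_lit 4344609747246) (nat_lit 1) (nat_lit 4) (nat_lit 2) (nat_lit 5) (nat_lit 2) (nat_lit 4) (nat_lit 335) (nat_lit 264) (nat_lit 181)))))) (XT.nd (nat_lit 312) (nat_lit 0) (nat_lit 0) (XT.nd (nat_lit 156) (nat_lit 0) (nat_lit 0) (XT.nd (nat_lit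 78) (nat_lit 0) (nat_lit 0) (XT.lf (nat_lit 0) (nat_lit 33100261036252) (nat_lit 76) (nat_lit 4992945329269) (nat_lit 76) (nat_lit 4979587865029) (nat_lit 1) (nat_lit 4) (nat_lit 2) (nat_lit 5) (nat_lit 2) (nat_lit 4) (nat_lit 336) (nat_lit 264) (nat_lit 180)) (XT.lf (nat_lit 0) (nat_lit 38098279117072) (nat_lit 76) (nat_lit 5723170220429) (nat_lit 76) (nat_lit 5709812742305) (nat_lit 1) (nat_lit 4) (nat_lit 2) (nat_lit 5) (nat_lit 2) (nat_lit 4) (nat_lit 337) (nat_lit 264) (nat_lit 179))) (XT.nd (nat_lit 78) (nat_lit 0) (nat_lit 0) (XT.lf (nat_lit 0) (nat_lit 43845999845932) (nat_lit 76) (nat_lit 6562928877739) (nat_lit 76) (nat_lit 6549571387542) (nat_lit 1) (nat_lit 4) (nat_lit 2) (nat_lit 5) (nat_lit 2) (nat_lit 4) (nat_lit 338) (nat_lit 264) (nat_lit 178)) (XT.lf (nat_lit 0) (nat_lit 50455878628397) (nat_lit 76) (nat_lit 7528651361886) (nat_lit 76) (nat_lit 7515293861191) (nat_lit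 1) (nat_lit 4) (nat_lit 2) (nat_lit 5) (nat_lit 2) (nat_lit 4) (nat_lit 339) (nat_lit 264) (nat_lit 177)))) (XT.nd (nat_lit 34866) (nat_lit 0) (nat_lit 1824) (XT.nd (nat_lit 34788) (nat_lit 0) (nat_lit 1824) (XT.lf (nat_lit 0) (nat_lit 58057239179775) (nat_lit 76) (nat_lit 8639232243212) (nat_lit 76) (nat_lit 8625874733389) (nat_lit 1) (nat_lit 4) (nat_lit 2) (nat_lit 5) (nat_lit 2) (nat_lit 4) (nat_lit 340) (nat_lit 264) (nat_lit 176)) (XT.lf (nat_lit 0) (nat_lit 1346629894) (nat_lit 0) (nat_lit 1346629894) (nat_lit 228) (nat_lit 1724486330) (nat_lit 25) (nat_lit 5) (nat_lit 25) (nat_lit 3) (nat_lit 28) (nat_lit 3) (nat_lit 265) (nat_lit 265) (nat_lit 250))) (XT.nd (nat_lit 78) (nat_lit 0) (nat_lit 0) (XT.lf (nat_lit 0) (nat_lit 6658732005) (nat_lit 228) (nat_lit 2031670115) (nat_lit 304) (nat_lit 673065815) (nat_lit 25) (nat_lit 5) (nat_lit 28) (nat_lit 3) (nat_lit 29) (nat_lit 5)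 (nat_lit 266) (nat_lit 265) (nat_lit 249)) (XT.nd (nat_lit 78) (nat_lit 0) (nat_lit 0) (XT.lf (nat_lit 76) (nat_lit 2707437162) (nat_lit 0) (nat_lit 5508643498) (nat_lit 304) (nat_lit 1741206494) (nat_lit 26) (nat_lit 5) (nat_lit 25) (nat_lit 5) (nat_lit 29) (nat_lit 5) (nat_lit 267) (nat_lit 265) (nat_lit 248)) (XT.lf (nat_lit 76) (nat_lit 8289501726) (nat_lit 0) (nat_lit 1692741089) (nat_lit 304) (nat_lit 662344170) (nat_lit 26) (nat_lit 5) (nat_lit 25) (nat_lit 5) (nat_lit 29) (nat_lit 5) (nat_lit 268) (nat_lit 265) (nat_lit 247))))))) (XT.nd (nat_lit 702) (nat_lit 456) (nat_lit 0) (XT.nd (nat_lit 312) (nat_lit 456) (nat_lit 0) (XT.nd (nat_lit 156) (nat_lit 304) (nat_lit 0) (XT.nd (nat_lit 78) (nat_lit 0) (nat_lit 0) (XT.lf (nat_lit 0) (nat_lit 670925254) (nat_lit 304) (nat_lit 8086707070) (nat_lit 76) (nat_lit 2652668601) (nat_lit 22) (nat_lit 5) (nat_lit 26) (nat_lit 5) (nat_lit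 23) (nat_lit 5) (nat_lit 269) (nat_lit 265) (nat_lit 246)) (XT.lf (nat_lit 0) (nat_lit 2238601237) (nat_lit 304) (nat_lit 2380564166) (nat_lit 76) (nat_lit 7652094685) (nat_lit 22) (nat_lit 5) (nat_lit 26) (nat_lit 5) (nat_lit 23) (nat_lit 5) (nat_lit 270) (nat_lit 265) (nat_lit 245))) (XT.nd (nat_lit 78) (nat_lit 0) (nat_lit 0) (XT.lf (nat_lit 0) (nat_lit 4148436105) (nat_lit 380) (nat_lit 8776291070) (nat_lit 76) (nat_lit 320978999) (nat_lit 18) (nat_lit 5) (nat_lit 23) (nat_lit 5) (nat_lit 19) (nat_lit 5) (nat_lit 271) (nat_lit 265) (nat_lit 244)) (XT.lf (nat_lit 0) (nat_lit 6609930138) (nat_lit 380) (nat_lit 2062352052) (nat_lit 76) (nat_lit 5654602152) (nat_lit 18) (nat_lit 5) (nat_lit 23) (nat_lit 5) (nat_lit 19) (nat_lit 5) (nat_lit 272) (nat_lit 265) (nat_lit 243)))) (XT.nd (nat_lit 156) (nat_lit 304) (nat_lit 0) (XT.nd (nat_lit 78) (nat_lit 0) (nat_lit 0) (XT.lf (nat_lit 0)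 (nat_lit 6113131036) (nat_lit 152) (nat_lit 3506613698) (nat_lit 228) (nat_lit 5923928081) (nat_lit 16) (nat_lit 5) (nat_lit 18) (nat_lit 5) (nat_lit 19) (nat_lit 5) (nat_lit 273) (nat_lit 265) (nat_lit 242)) (XT.lf (nat_lit 0) (nat_lit 13226089664) (nat_lit 228) (nat_lit 1381419801) (nat_lit 76) (nat_lit 2313970549) (nat_lit 16) (nat_lit 5) (nat_lit 19) (nat_lit 5) (nat_lit 17) (nat_lit 4) (nat_lit 274) (nat_lit 265) (nat_lit 241))) (XT.nd (nat_lit 78) (nat_lit 228) (nat_lit 0) (XT.lf (nat_lit 0) (nat_lit 8370304841) (nat_lit 76) (nat_lit 9456952609) (nat_lit 152) (nat_lit 610845543) (nat_lit 15) (nat_lit 5) (nat_lit 16) (nat_lit 5) (nat_lit 17) (nat_lit 4) (nat_lit 275) (nat_lit 265) (nat_lit 240)) (XT.nd (nat_lit 78) (nat_lit 152) (nat_lit 0) (XT.lf (nat_lit 0) (nat_lit 2692607801) (nat_lit 152) (nat_lit 641409144) (nat_lit 76) (nat_lit 16827487932) (nat_lit 14) (nat_lit 5) (nat_lit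 16) (nat_lit 5) (nat_lit 15) (nat_lit 5) (nat_lit 276) (nat_lit 265) (nat_lit 239)) (XT.lf (nat_lit 0) (nat_lit 7013283940) (nat_lit 228) (nat_lit 11171157691) (nat_lit 76) (nat_lit 3867123850) (nat_lit 12) (nat_lit 5) (nat_lit 15) (nat_lit 5) (nat_lit 13) (nat_lit 4) (nat_lit 277) (nat_lit 265) (nat_lit 238)))))) (XT.nd (nat_lit 390) (nat_lit 228) (nat_lit 0) (XT.nd (nat_lit 156) (nat_lit 152) (nat_lit 0) (XT.nd (nat_lit 78) (nat_lit 76) (nat_lit 0) (XT.lf (nat_lit 0) (nat_lit 12128180462) (nat_lit 228) (nat_lit 254625077) (nat_lit 76) (nat_lit 11820540649) (nat_lit 12) (nat_lit 5) (nat_lit 15) (nat_lit 5) (nat_lit 13) (nat_lit 4) (nat_lit 278) (nat_lit 265) (nat_lit 237)) (XT.lf (nat_lit 0) (nat_lit 13428118580) (nat_lit 76) (nat_lit 5096684780) (nat_lit 152) (nat_lit 8076028906) (nat_lit 11) (nat_lit 5) (nat_lit 12) (nat_lit 5) (nat_lit 13) (nat_lit 4) (nat_lit 279) (nat_lit 265)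 (nat_lit 236))) (XT.nd (nat_lit 78) (nat_lit 152) (nat_lit 0) (XT.lf (nat_lit 0) (nat_lit 25990988399) (nat_lit 152) (nat_lit 369181463) (nat_lit 0) (nat_lit 2981358520) (nat_lit 11) (nat_lit 5) (nat_lit 13) (nat_lit 4) (nat_lit 11) (nat_lit 4) (nat_lit 280) (nat_lit 265) (nat_lit 235)) (XT.nd (nat_lit 78) (nat_lit 0) (nat_lit 0) (XT.lf (nat_lit 0) (nat_lit 2785360715) (nat_lit 152) (nat_lit 17067127565) (nat_lit 76) (nat_lit 12494906585) (nat_lit 9) (nat_lit 5) (nat_lit 11) (nat_lit 5) (nat_lit 10) (nat_lit 4) (nat_lit 281) (nat_lit 265) (nat_lit 234)) (XT.lf (nat_lit 0) (nat_lit 9484775810) (nat_lit 152) (nat_lit 2703405307) (nat_lit 76) (nat_lit 23594167726) (nat_lit 9) (nat_lit 5) (nat_lit 11) (nat_lit 5) (nat_lit 10) (nat_lit 4) (nat_lit 282) (nat_lit 265) (nat_lit 233))))) (XT.nd (nat_lit 156) (nat_lit 152) (nat_lit 0) (XT.nd (nat_lit 78) (nat_lit 0) (nat_lit 0) (XT.lf (nat_lit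 0) (nat_lit 15107392383) (nat_lit 76) (nat_lit 2677661502) (nat_lit 152) (nat_lit 21858155132) (nat_lit 8) (nat_lit 5) (nat_lit 9) (nat_lit 5) (nat_lit 10) (nat_lit 4) (nat_lit 283) (nat_lit 265) (nat_lit 232)) (XT.lf (nat_lit 0) (nat_lit 27791677571) (nat_lit 152) (nat_lit 8570465051) (nat_lit 0) (nat_lit 7651908451) (nat_lit 8) (nat_lit 5) (nat_lit 10) (nat_lit 4) (nat_lit 8) (nat_lit 4) (nat_lit 284) (nat_lit 265) (nat_lit 231))) (XT.nd (nat_lit 78) (nat_lit 76) (nat_lit 0) (XT.lf (nat_lit 0) (nat_lit 10555501183) (nat_lit 76) (nat_lit 29283386149) (nat_lit 76) (nat_lit 9120735351) (nat_lit 7) (nat_lit 4) (nat_lit 8) (nat_lit 5) (nat_lit 8) (nat_lit 4) (nat_lit 285) (nat_lit 265) (nat_lit 230)) (XT.nd (nat_lit 78) (nat_lit 76) (nat_lit 0) (XT.lf (nat_lit 0) (nat_lit 33469270931) (nat_lit 76) (nat_lit 20648339434) (nat_lit 76) (nat_lit 465791527) (nat_lit 7) (nat_lit 4) (nat_lit 8)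 (nat_lit 5) (nat_lit 8) (nat_lit 4) (nat_lit 286) (nat_lit 265) (nat_lit 229)) (XT.lf (nat_lit 0) (nat_lit 8621260016) (nat_lit 152) (nat_lit 1664140706) (nat_lit 76) (nat_lit 50709672111) (nat_lit 6) (nat_lit 5) (nat_lit 8) (nat_lit 5) (nat_lit 7) (nat_lit 4) (nat_lit 287) (nat_lit 265) (nat_lit 228))))))))
noncomputable def xc59 : XT := (XT.nd (nat_lit 1404) (nat_lit 0) (nat_lit 0) (XT.nd (nat_lit 702) (nat_lit 76) (nat_lit 0) (XT.nd (nat_lit 312) (nat_lit 152) (nat_lit 0) (XT.nd (nat_lit 156) (nat_lit 76) (nat_lit 0) (XT.nd (nat_lit 78) (nat_lit 0) (nat_lit 0) (XT.lf (nat_lit 0) (nat_lit 20056063109) (nat_lit 152) (nat_lit 45676377307) (nat_lit 0) (nat_lit 2477893703) (nat_lit 5) (nat_lit 5) (nat_lit 7) (nat_lit 4) (nat_lit 5) (nat_lit 4) (nat_lit 288) (nat_lit 265) (nat_lit 227)) (XT.lf (nat_lit 0) (nat_lit 33768678746) (nat_lit 152) (nat_lit 26475704877) (nat_lit 0) (nat_lit 16179133103)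 (nat_lit 5) (nat_lit 5) (nat_lit 7) (nat_lit 4) (nat_lit 5) (nat_lit 4) (nat_lit 289) (nat_lit 265) (nat_lit 226))) (XT.nd (nat_lit 78) (nat_lit 76) (nat_lit 0) (XT.lf (nat_lit 0) (nat_lit 49522255928) (nat_lit 152) (nat_lit 4426010723) (nat_lit 0) (nat_lit 31922817905) (nat_lit 5) (nat_lit 5) (nat_lit 7) (nat_lit 4) (nat_lit 5) (nat_lit 4) (nat_lit 290) (nat_lit 265) (nat_lit 225)) (XT.lf (nat_lit 0) (nat_lit 22947014090) (nat_lit 76) (nat_lit 45628189646) (nat_lit 76) (nat_lit 28020149552) (nat_lit 4) (nat_lit 4) (nat_lit 5) (nat_lit 5) (nat_lit 5) (nat_lit 4) (nat_lit 291) (nat_lit 265) (nat_lit 224)))) (XT.nd (nat_lit 156) (nat_lit 152) (nat_lit 0) (XT.nd (nat_lit 78) (nat_lit 0) (nat_lit 0) (XT.lf (nat_lit 0) (nat_lit 54897618964) (nat_lit 76) (nat_lit 35806720235) (nat_lit 76) (nat_lit 18191200081) (nat_lit 4) (nat_lit 4) (nat_lit 5) (nat_lit 5) (nat_lit 5) (nat_lit 4) (nat_lit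 292) (nat_lit 265) (nat_lit 223)) (XT.lf (nat_lit 0) (nat_lit 91618382469) (nat_lit 76) (nat_lit 24523058886) (nat_lit 76) (nat_lit 6901034331) (nat_lit 4) (nat_lit 4) (nat_lit 5) (nat_lit 5) (nat_lit 5) (nat_lit 4) (nat_lit 293) (nat_lit 265) (nat_lit 222))) (XT.nd (nat_lit 78) (nat_lit 76) (nat_lit 0) (XT.lf (nat_lit 0) (nat_lit 5530738275) (nat_lit 152) (nat_lit 5736593263) (nat_lit 76) (nat_lit 128007909279) (nat_lit 3) (nat_lit 5) (nat_lit 5) (nat_lit 5) (nat_lit 4) (nat_lit 4) (nat_lit 294) (nat_lit 265) (nat_lit 221)) (XT.nd (nat_lit 78) (nat_lit 0) (nat_lit 0) (XT.lf (nat_lit 0) (nat_lit 20408679892) (nat_lit 152) (nat_lit 132215779688) (nat_lit 0) (nat_lit 5075985269) (nat_lit 2) (nat_lit 5) (nat_lit 4) (nat_lit 4) (nat_lit 2) (nat_lit 4) (nat_lit 295) (nat_lit 265) (nat_lit 220)) (XT.lf (nat_lit 0) (nat_lit 38360080278) (nat_lit 152) (nat_lit 117379424183) (nat_lit 0) (nat_lit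 23023666743) (nat_lit 2) (nat_lit 5) (nat_lit 4) (nat_lit 4) (nat_lit 2) (nat_lit 4) (nat_lit 296) (nat_lit 265) (nat_lit 219)))))) (XT.nd (nat_lit 312) (nat_lit 76) (nat_lit 0) (XT.nd (nat_lit 156) (nat_lit 0) (nat_lit 0) (XT.nd (nat_lit 78) (nat_lit 0) (nat_lit 0) (XT.lf (nat_lit 0) (nat_lit 58996435205) (nat_lit 152) (nat_lit 100333252756) (nat_lit 0) (nat_lit 43656787832) (nat_lit 2) (nat_lit 5) (nat_lit 4) (nat_lit 4) (nat_lit 2) (nat_lit 4) (nat_lit 297) (nat_lit 265) (nat_lit 218)) (XT.lf (nat_lit 0) (nat_lit 82721499442) (nat_lit 152) (nat_lit 80743753357) (nat_lit 0) (nat_lit 67379040038) (nat_lit 2) (nat_lit 5) (nat_lit 4) (nat_lit 4) (nat_lit 2) (nat_lit 4) (nat_lit 298) (nat_lit 265) (nat_lit 217))) (XT.nd (nat_lit 78) (nat_lit 0) (nat_lit 0) (XT.lf (nat_lit 0) (nat_lit 109999459029) (nat_lit 152) (nat_lit 58227653171) (nat_lit 0) (nat_lit 94654554380) (nat_lit 2) (nat_lit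 5) (nat_lit 4) (nat_lit 4) (nat_lit 2) (nat_lit 4) (nat_lit 299) (nat_lit 265) (nat_lit 216)) (XT.lf (nat_lit 0) (nat_lit 141364013176) (nat_lit 152) (nat_lit 32344419804) (nat_lit 0) (nat_lit 126016982227) (nat_lit 2) (nat_lit 5) (nat_lit 4) (nat_lit 4) (nat_lit 2) (nat_lit 4) (nat_lit 300) (nat_lit 265) (nat_lit 215)))) (XT.nd (nat_lit 156) (nat_lit 0) (nat_lit 0) (XT.nd (nat_lit 78) (nat_lit 76) (nat_lit 0) (XT.lf (nat_lit 0) (nat_lit 177428816203) (nat_lit 152) (nat_lit 2587642168) (nat_lit 0) (nat_lit 162079936297) (nat_lit 2) (nat_lit 5) (nat_lit 4) (nat_lit 4) (nat_lit 2) (nat_lit 4) (nat_lit 301) (nat_lit 265) (nat_lit 214)) (XT.lf (nat_lit 0) (nat_lit 34715490594) (nat_lit 76) (nat_lit 185621487661) (nat_lit 76) (nat_lit 170270999966) (nat_lit 1) (nat_lit 4) (nat_lit 2) (nat_lit 5) (nat_lit 2) (nat_lit 4) (nat_lit 302) (nat_lit 265) (nat_lit 213))) (XT.nd (nat_lit 78) (nat_lit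 0) (nat_lit 0) (XT.lf (nat_lit 0) (nat_lit 77897487800) (nat_lit 76) (nat_lit 191915479709) (nat_lit 76) (nat_lit 176563593938) (nat_lit 1) (nat_lit 4) (nat_lit 2) (nat_lit 5) (nat_lit 2) (nat_lit 4) (nat_lit 303) (nat_lit 265) (nat_lit 212)) (XT.nd (nat_lit 78) (nat_lit 0) (nat_lit 0) (XT.lf (nat_lit 0) (nat_lit 127550331401) (nat_lit 76) (nat_lit 199156840952) (nat_lit 76) (nat_lit 183803739462) (nat_lit 1) (nat_lit 4) (nat_lit 2) (nat_lit 5) (nat_lit 2) (nat_lit 4) (nat_lit 304) (nat_lit 265) (nat_lit 211)) (XT.lf (nat_lit 0) (nat_lit 184645490076) (nat_lit 76) (nat_lit 207487250197) (nat_lit 76) (nat_lit 192133091560) (nat_lit 1) (nat_lit 4) (nat_lit 2) (nat_lit 5) (nat_lit 2) (nat_lit 4) (nat_lit 305) (nat_lit 265) (nat_lit 210))))))) (XT.nd (nat_lit 702) (nat_lit 0) (nat_lit 0) (XT.nd (nat_lit 312) (nat_lit 0) (nat_lit 0) (XT.nd (nat_lit 156) (nat_lit 0) (nat_lit 0) (XT.nd (nat_lit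 78) (nat_lit 0) (nat_lit 0) (XT.lf (nat_lit 0) (nat_lit 250300043016) (nat_lit 76) (nat_lit 217069693712) (nat_lit 76) (nat_lit 201714615816) (nat_lit 1) (nat_lit 4) (nat_lit 2) (nat_lit 5) (nat_lit 2) (nat_lit 4) (nat_lit 306) (nat_lit 265) (nat_lit 209)) (XT.lf (nat_lit 0) (nat_lit 325798535822) (nat_lit 76) (nat_lit 228091654086) (nat_lit 76) (nat_lit 212735776836) (nat_lit 1) (nat_lit 4) (nat_lit 2) (nat_lit 5) (nat_lit 2) (nat_lit 4) (nat_lit 307) (nat_lit 265) (nat_lit 208))) (XT.nd (nat_lit 78) (nat_lit 0) (nat_lit 0) (XT.lf (nat_lit 0) (nat_lit 412618112918) (nat_lit 76) (nat_lit 240768778371) (nat_lit 76) (nat_lit 225412206029) (nat_lit 1) (nat_lit 4) (nat_lit 2) (nat_lit 5) (nat_lit 2) (nat_lit 4) (nat_lit 308) (nat_lit 265) (nat_lit 207)) (XT.lf (nat_lit 0) (nat_lit 512457418205) (nat_lit 76) (nat_lit 255349097259) (nat_lit 76) (nat_lit 239991920491) (nat_lit 1) (nat_lit 4)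 (nat_lit 2) (nat_lit 5) (nat_lit 2) (nat_lit 4) (nat_lit 309) (nat_lit 265) (nat_lit 206)))) (XT.nd (nat_lit 156) (nat_lit 0) (nat_lit 0) (XT.nd (nat_lit 78) (nat_lit 0) (nat_lit 0) (XT.lf (nat_lit 0) (nat_lit 627269829394) (nat_lit 76) (nat_lit 272117877860) (nat_lit 76) (nat_lit 256760175502) (nat_lit 1) (nat_lit 4) (nat_lit 2) (nat_lit 5) (nat_lit 2) (nat_lit 4) (nat_lit 310) (nat_lit 265) (nat_lit 205)) (XT.lf (nat_lit 0) (nat_lit 759301676270) (nat_lit 76) (nat_lit 291403205010) (nat_lit 76) (nat_lit 276045045619) (nat_lit 1) (nat_lit 4) (nat_lit 2) (nat_lit 5) (nat_lit 2) (nat_lit 4) (nat_lit 311) (nat_lit 265) (nat_lit 204))) (XT.nd (nat_lit 78) (nat_lit 0) (nat_lit 0) (XT.lf (nat_lit 0) (nat_lit 911136190619) (nat_lit 76) (nat_lit 313582400328) (nat_lit 76) (nat_lit 298223843516) (nat_lit 1) (nat_lit 4) (nat_lit 2) (nat_lit 5) (nat_lit 2) (nat_lit 4) (nat_lit 312) (nat_lit 265)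 (nat_lit 203)) (XT.nd (nat_lit 78) (nat_lit 0) (nat_lit 0) (XT.lf (nat_lit 0) (nat_lit 1085744047723) (nat_lit 76) (nat_lit 339089404593) (nat_lit 76) (nat_lit 323730502197) (nat_lit 1) (nat_lit 4) (nat_lit 2) (nat_lit 5) (nat_lit 2) (nat_lit 4) (nat_lit 313) (nat_lit 265) (nat_lit 202)) (XT.lf (nat_lit 0) (nat_lit 1286541488263) (nat_lit 76) (nat_lit 368423267886) (nat_lit 76) (nat_lit 353064064984) (nat_lit 1) (nat_lit 4) (nat_lit 2) (nat_lit 5) (nat_lit 2) (nat_lit 4) (nat_lit 314) (nat_lit 265) (nat_lit 201)))))) (XT.nd (nat_lit 390) (nat_lit 0) (nat_lit 0) (XT.nd (nat_lit 156) (nat_lit 0) (nat_lit 0) (XT.nd (nat_lit 78) (nat_lit 0) (nat_lit 0) (XT.lf (nat_lit 0) (nat_lit 1517457157815) (nat_lit 76) (nat_lit 402157913622) (nat_lit 76) (nat_lit 386798449408) (nat_lit 1) (nat_lit 4) (nat_lit 2) (nat_lit 5) (nat_lit 2) (nat_lit 4) (nat_lit 315) (nat_lit 265) (nat_lit 200)) (XT.lf (nat_lit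 0) (nat_lit 1783008971653) (nat_lit 76) (nat_lit 440953367476) (nat_lit 76) (nat_lit 425593676036) (nat_lit 1) (nat_lit 4) (nat_lit 2) (nat_lit 5) (nat_lit 2) (nat_lit 4) (nat_lit 316) (nat_lit 265) (nat_lit 199))) (XT.nd (nat_lit 78) (nat_lit 0) (nat_lit 0) (XT.lf (nat_lit 0) (nat_lit 2088392508744) (nat_lit 76) (nat_lit 485568670938) (nat_lit 76) (nat_lit 470208781910) (nat_lit 1) (nat_lit 4) (nat_lit 2) (nat_lit 5) (nat_lit 2) (nat_lit 4) (nat_lit 317) (nat_lit 265) (nat_lit 198)) (XT.nd (nat_lit 78) (nat_lit 0) (nat_lit 0) (XT.lf (nat_lit 0) (nat_lit 2439582664378) (nat_lit 76) (nat_lit 536876732119) (nat_lit 76) (nat_lit 521516671275) (nat_lit 1) (nat_lit 4) (nat_lit 2) (nat_lit 5) (nat_lit 2) (nat_lit 4) (nat_lit 318) (nat_lit 265) (nat_lit 197)) (XT.lf (nat_lit 0) (nat_lit 2843450550296) (nat_lit 76) (nat_lit 595881404389) (nat_lit 76) (nat_lit 580521194140) (nat_lit 1) (nat_lit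 4) (nat_lit 2) (nat_lit 5) (nat_lit 2) (nat_lit 4) (nat_lit 319) (nat_lit 265) (nat_lit 196))))) (XT.nd (nat_lit 156) (nat_lit 0) (nat_lit 0) (XT.nd (nat_lit 78) (nat_lit 0) (nat_lit 0) (XT.lf (nat_lit 0) (nat_lit 3307897929484) (nat_lit 76) (nat_lit 663737126989) (nat_lit 76) (nat_lit 648376786823) (nat_lit 1) (nat_lit 4) (nat_lit 2) (nat_lit 5) (nat_lit 2) (nat_lit 4) (nat_lit 320) (nat_lit 265) (nat_lit 195)) (XT.lf (nat_lit 0) (nat_lit 3842011815881) (nat_lit 76) (nat_lit 741771511883) (nat_lit 76) (nat_lit 726411058745) (nat_lit 1) (nat_lit 4) (nat_lit 2) (nat_lit 5) (nat_lit 2) (nat_lit 4) (nat_lit 321) (nat_lit 265) (nat_lit 194))) (XT.nd (nat_lit 78) (nat_lit 0) (nat_lit 0) (XT.lf (nat_lit 0) (nat_lit 4456242263788) (nat_lit 76) (nat_lit 831511318775) (nat_lit 76) (nat_lit 816150767400) (nat_lit 1) (nat_lit 4) (nat_lit 2) (nat_lit 5) (nat_lit 2) (nat_lit 4) (nat_lit 322) (nat_lit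 265) (nat_lit 193)) (XT.nd (nat_lit 78) (nat_lit 0) (nat_lit 0) (XT.lf (nat_lit 0) (nat_lit 5162606825446) (nat_lit 76) (nat_lit 934712326495) (nat_lit 76) (nat_lit 919351689698) (nat_lit 1) (nat_lit 4) (nat_lit 2) (nat_lit 5) (nat_lit 2) (nat_lit 4) (nat_lit 323) (nat_lit 265) (nat_lit 192)) (XT.lf (nat_lit 0) (nat_lit 5974925677061) (nat_lit 76) (nat_lit 1053393685196) (nat_lit 76) (nat_lit 1038032974117) (nat_lit 1) (nat_lit 4) (nat_lit 2) (nat_lit 5) (nat_lit 2) (nat_lit 4) (nat_lit 324) (nat_lit 265) (nat_lit 191))))))))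
noncomputable def xc60 : XT := (XT.nd (nat_lit 36192) (nat_lit 0) (nat_lit 532) (XT.nd (nat_lit 702) (nat_lit 0) (nat_lit 0) (XT.nd (nat_lit 312) (nat_lit 0) (nat_lit 0) (XT.nd (nat_lit 156) (nat_lit 0) (nat_lit 0) (XT.nd (nat_lit 78) (nat_lit 0) (nat_lit 0) (XT.lf (nat_lit 0) (nat_lit 6909092013556) (nat_lit 76) (nat_lit 1189877421459) (nat_lit 76) (nat_lit 1174516645788) (nat_lit 1) (nat_lit 4) (nat_lit 2) (nat_lit 5) (nat_lit 2) (nat_lit 4) (nat_lit 325) (nat_lit 265) (nat_lit 190)) (XT.lf (nat_lit 0) (nat_lit 7983383002385) (nat_lit 76) (nat_lit 1346833869255) (nat_lit 76) (nat_lit 1331473037418) (nat_lit 1) (nat_lit 4) (nat_lit 2) (nat_lit 5) (nat_lit 2) (nat_lit 4) (nat_lit 326) (nat_lit 265) (nat_lit 189))) (XT.nd (nat_lit 78) (nat_lit 0) (nat_lit 0) (XT.lf (nat_lit 0) (nat_lit 9218817380284) (nat_lit 76) (nat_lit 1527333915607) (nat_lit 76) (nat_lit 1511973034929) (nat_lit 1)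 (nat_lit 4) (nat_lit 2) (nat_lit 5) (nat_lit 2) (nat_lit 4) (nat_lit 327) (nat_lit 265) (nat_lit 188)) (XT.lf (nat_lit 0) (nat_lit 10639566689431) (nat_lit 76) (nat_lit 1734909083160) (nat_lit 76) (nat_lit 1719548160012) (nat_lit 1) (nat_lit 4) (nat_lit 2) (nat_lit 5) (nat_lit 2) (nat_lit 4) (nat_lit 328) (nat_lit 265) (nat_lit 187)))) (XT.nd (nat_lit 156) (nat_lit 0) (nat_lit 0) (XT.nd (nat_lit 78) (nat_lit 0) (nat_lit 0) (XT.lf (nat_lit 0) (nat_lit 12273428198918) (nat_lit 76) (nat_lit 1973620625193) (nat_lit 76) (nat_lit 1958259665114) (nat_lit 1) (nat_lit 4) (nat_lit 2) (nat_lit 5) (nat_lit 2) (nat_lit 4) (nat_lit 329) (nat_lit 265) (nat_lit 186)) (XT.lf (nat_lit 0) (nat_lit 14152368764364) (nat_lit 76) (nat_lit 2248138984920) (nat_lit 76) (nat_lit 2232777992727) (nat_lit 1) (nat_lit 4) (nat_lit 2) (nat_lit 5) (nat_lit 2) (nat_lit 4) (nat_lit 330) (nat_lit 265) (nat_lit 185))) (XT.nd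 (nat_lit 78) (nat_lit 0) (nat_lit 0) (XT.lf (nat_lit 0) (nat_lit 16313150266399) (nat_lit 76) (nat_lit 2563835173725) (nat_lit 76) (nat_lit 2548474153607) (nat_lit 1) (nat_lit 4) (nat_lit 2) (nat_lit 5) (nat_lit 2) (nat_lit 4) (nat_lit 331) (nat_lit 265) (nat_lit 184)) (XT.nd (nat_lit 78) (nat_lit 0) (nat_lit 0) (XT.lf (nat_lit 0) (nat_lit 18798048864844) (nat_lit 76) (nat_lit 2926885856173) (nat_lit 76) (nat_lit 2911524811773) (nat_lit 1) (nat_lit 4) (nat_lit 2) (nat_lit 5) (nat_lit 2) (nat_lit 4) (nat_lit 332) (nat_lit 265) (nat_lit 183)) (XT.lf (nat_lit 0) (nat_lit 21655682140974) (nat_lit 76) (nat_lit 3344394197791) (nat_lit 76) (nat_lit 3329033132275) (nat_lit 1) (nat_lit 4) (nat_lit 2) (nat_lit 5) (nat_lit 2) (nat_lit 4) (nat_lit 333) (nat_lit 265) (nat_lit 182)))))) (XT.nd (nat_lit 312) (nat_lit 0) (nat_lit 0) (XT.nd (nat_lit 156) (nat_lit 0) (nat_lit 0) (XT.nd (nat_lit 78) (nat_lit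 0) (nat_lit 0) (XT.lf (nat_lit 0) (nat_lit 24941960311060) (nat_lit 76) (nat_lit 3824528840044) (nat_lit 76) (nat_lit 3809167756167) (nat_lit 1) (nat_lit 4) (nat_lit 2) (nat_lit 5) (nat_lit 2) (nat_lit 4) (nat_lit 334) (nat_lit 265) (nat_lit 181)) (XT.lf (nat_lit 0) (nat_lit 28721180121909) (nat_lit 76) (nat_lit 4376683721585) (nat_lit 76) (nat_lit 4361322621742) (nat_lit 1) (nat_lit 4) (nat_lit 2) (nat_lit 5) (nat_lit 2) (nat_lit 4) (nat_lit 335) (nat_lit 265) (nat_lit 180))) (XT.nd (nat_lit 78) (nat_lit 0) (nat_lit 0) (XT.lf (nat_lit 0) (nat_lit 33067282830690) (nat_lit 76) (nat_lit 5011661872705) (nat_lit 76) (nat_lit 4996300758979) (nat_lit 1) (nat_lit 4) (nat_lit 2) (nat_lit 5) (nat_lit 2) (nat_lit 4) (nat_lit 336) (nat_lit 265) (nat_lit 179)) (XT.lf (nat_lit 0) (nat_lit 38065300881704) (nat_lit 76) (nat_lit 5741886778970) (nat_lit 76) (nat_lit 5726525653171) (nat_lit 1) (nat_lit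 4) (nat_lit 2) (nat_lit 5) (nat_lit 2) (nat_lit 4) (nat_lit 337) (nat_lit 265) (nat_lit 178)))) (XT.nd (nat_lit 156) (nat_lit 0) (nat_lit 0) (XT.nd (nat_lit 78) (nat_lit 0) (nat_lit 0) (XT.lf (nat_lit 0) (nat_lit 43813021584646) (nat_lit 76) (nat_lit 6581645449415) (nat_lit 76) (nat_lit 6566284313118) (nat_lit 1) (nat_lit 4) (nat_lit 2) (nat_lit 5) (nat_lit 2) (nat_lit 4) (nat_lit 338) (nat_lit 265) (nat_lit 177)) (XT.lf (nat_lit 0) (nat_lit 50422900344572) (nat_lit 76) (nat_lit 7547367944984) (nat_lit 76) (nat_lit 7532006799558) (nat_lit 1) (nat_lit 4) (nat_lit 2) (nat_lit 5) (nat_lit 2) (nat_lit 4) (nat_lit 339) (nat_lit 265) (nat_lit 176))) (XT.nd (nat_lit 34866) (nat_lit 0) (nat_lit 1824) (XT.lf (nat_lit 0) (nat_lit 58024260876352) (nat_lit 76) (nat_lit 8657948836242) (nat_lit 76) (nat_lit 8642587682879) (nat_lit 1) (nat_lit 4) (nat_lit 2) (nat_lit 5) (nat_lit 2) (nat_lit 4) (nat_lit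 340) (nat_lit 265) (nat_lit 175)) (XT.nd (nat_lit 78) (nat_lit 0) (nat_lit 0) (XT.lf (nat_lit 0) (nat_lit 1950096931) (nat_lit 0) (nat_lit 1950096931) (nat_lit 228) (nat_lit 1055504085) (nat_lit 25) (nat_lit 5) (nat_lit 25) (nat_lit 3) (nat_lit 28) (nat_lit 3) (nat_lit 266) (nat_lit 266) (nat_lit 248)) (XT.lf (nat_lit 0) (nat_lit 9025056558) (nat_lit 228) (nat_lit 1392408868) (nat_lit 304) (nat_lit 137972315) (nat_lit 25) (nat_lit 5) (nat_lit 28) (nat_lit 3) (nat_lit 29) (nat_lit 5) (nat_lit 267) (nat_lit 266) (nat_lit 247))))))) (XT.nd (nat_lit 702) (nat_lit 532) (nat_lit 0) (XT.nd (nat_lit 312) (nat_lit 456) (nat_lit 0) (XT.nd (nat_lit 156) (nat_lit 0) (nat_lit 76) (XT.nd (nat_lit 78) (nat_lit 304) (nat_lit 0) (XT.lf (nat_lit 76) (nat_lit 4014654875) (nat_lit 0) (nat_lit 6660293865) (nat_lit 304) (nat_lit 585508158) (nat_lit 26) (nat_lit 5) (nat_lit 25) (nat_lit 5) (nat_lit 29) (nat_lit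 5) (nat_lit 268) (nat_lit 266) (nat_lit 246)) (XT.lf (nat_lit 0) (nat_lit 428497296) (nat_lit 304) (nat_lit 1778672618) (nat_lit 380) (nat_lit 9865598042) (nat_lit 21) (nat_lit 5) (nat_lit 25) (nat_lit 5) (nat_lit 26) (nat_lit 5) (nat_lit 269) (nat_lit 266) (nat_lit 245))) (XT.nd (nat_lit 78) (nat_lit 0) (nat_lit 0) (XT.lf (nat_lit 0) (nat_lit 1776663558) (nat_lit 304) (nat_lit 8280051526) (nat_lit 76) (nat_lit 2910121829) (nat_lit 22) (nat_lit 5) (nat_lit 26) (nat_lit 5) (nat_lit 23) (nat_lit 5) (nat_lit 270) (nat_lit 266) (nat_lit 244)) (XT.lf (nat_lit 0) (nat_lit 3448391002) (nat_lit 304) (nat_lit 1850986526) (nat_lit 76) (nat_lit 8677781008) (nat_lit 22) (nat_lit 5) (nat_lit 26) (nat_lit 5) (nat_lit 23) (nat_lit 5) (nat_lit 271) (nat_lit 266) (nat_lit 243)))) (XT.nd (nat_lit 156) (nat_lit 228) (nat_lit 0) (XT.nd (nat_lit 78) (nat_lit 0) (nat_lit 0) (XT.lf (nat_lit 0) (nat_lit 5567871892)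 (nat_lit 380) (nat_lit 9126034016) (nat_lit 76) (nat_lit 415871395) (nat_lit 18) (nat_lit 5) (nat_lit 23) (nat_lit 5) (nat_lit 19) (nat_lit 5) (nat_lit 272) (nat_lit 266) (nat_lit 242)) (XT.lf (nat_lit 0) (nat_lit 8294611286) (nat_lit 380) (nat_lit 1531095542) (nat_lit 76) (nat_lit 6543440776) (nat_lit 18) (nat_lit 5) (nat_lit 23) (nat_lit 5) (nat_lit 19) (nat_lit 5) (nat_lit 273) (nat_lit 266) (nat_lit 241))) (XT.nd (nat_lit 78) (nat_lit 76) (nat_lit 0) (XT.lf (nat_lit 0) (nat_lit 7832500495) (nat_lit 152) (nat_lit 3866206943) (nat_lit 228) (nat_lit 6078689504) (nat_lit 16) (nat_lit 5) (nat_lit 18) (nat_lit 5) (nat_lit 19) (nat_lit 5) (nat_lit 274) (nat_lit 266) (nat_lit 240)) (XT.nd (nat_lit 78) (nat_lit 76) (nat_lit 0) (XT.lf (nat_lit 0) (nat_lit 15769038950) (nat_lit 228) (nat_lit 811818528) (nat_lit 76) (nat_lit 2792879034) (nat_lit 16) (nat_lit 5) (nat_lit 19) (nat_lit 5) (nat_lit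 17) (nat_lit 4) (nat_lit 275) (nat_lit 266) (nat_lit 239)) (XT.lf (nat_lit 0) (nat_lit 10367355073) (nat_lit 76) (nat_lit 10650813234) (nat_lit 152) (nat_lit 106291905) (nat_lit 15) (nat_lit 5) (nat_lit 16) (nat_lit 5) (nat_lit 17) (nat_lit 4) (nat_lit 276) (nat_lit 266) (nat_lit 238)))))) (XT.nd (nat_lit 312) (nat_lit 228) (nat_lit 0) (XT.nd (nat_lit 156) (nat_lit 76) (nat_lit 0) (XT.nd (nat_lit 78) (nat_lit 152) (nat_lit 0) (XT.lf (nat_lit 0) (nat_lit 3568763633) (nat_lit 152) (nat_lit 45293408) (nat_lit 76) (nat_lit 19499446424) (nat_lit 14) (nat_lit 5) (nat_lit 16) (nat_lit 5) (nat_lit 15) (nat_lit 5) (nat_lit 277) (nat_lit 266) (nat_lit 237)) (XT.lf (nat_lit 0) (nat_lit 8512532998) (nat_lit 228) (nat_lit 12128289568) (nat_lit 76) (nat_lit 4650182795) (nat_lit 12) (nat_lit 5) (nat_lit 15) (nat_lit 5) (nat_lit 13) (nat_lit 4) (nat_lit 278) (nat_lit 266) (nat_lit 236))) (XT.nd (nat_lit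 78) (nat_lit 0) (nat_lit 0) (XT.lf (nat_lit 0) (nat_lit 364445560) (nat_lit 76) (nat_lit 13986971551) (nat_lit 152) (nat_lit 13420780462) (nat_lit 11) (nat_lit 5) (nat_lit 12) (nat_lit 5) (nat_lit 13) (nat_lit 4) (nat_lit 279) (nat_lit 266) (nat_lit 235)) (XT.lf (nat_lit 0) (nat_lit 16038754442) (nat_lit 76) (nat_lit 5627655967) (nat_lit 152) (nat_lit 8869201448) (nat_lit 11) (nat_lit 5) (nat_lit 12) (nat_lit 5) (nat_lit 13) (nat_lit 4) (nat_lit 280) (nat_lit 266) (nat_lit 234)))) (XT.nd (nat_lit 156) (nat_lit 76) (nat_lit 0) (XT.nd (nat_lit 78) (nat_lit 76) (nat_lit 0) (XT.lf (nat_lit 0) (nat_lit 146857578) (nat_lit 76) (nat_lit 30072822391) (nat_lit 76) (nat_lit 3472777899) (nat_lit 10) (nat_lit 4) (nat_lit 11) (nat_lit 5) (nat_lit 11) (nat_lit 4) (nat_lit 281) (nat_lit 266) (nat_lit 233)) (XT.lf (nat_lit 0) (nat_lit 3522033858) (nat_lit 152) (nat_lit 19062471866) (nat_lit 76) (nat_lit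 14566568187) (nat_lit 9) (nat_lit 5) (nat_lit 11) (nat_lit 5) (nat_lit 10) (nat_lit 4) (nat_lit 282) (nat_lit 266) (nat_lit 232))) (XT.nd (nat_lit 78) (nat_lit 76) (nat_lit 0) (XT.lf (nat_lit 0) (nat_lit 11184769604) (nat_lit 152) (nat_lit 2617851029) (nat_lit 76) (nat_lit 27304967331) (nat_lit 9) (nat_lit 5) (nat_lit 11) (nat_lit 5) (nat_lit 10) (nat_lit 4) (nat_lit 283) (nat_lit 266) (nat_lit 231)) (XT.nd (nat_lit 78) (nat_lit 0) (nat_lit 0) (XT.lf (nat_lit 0) (nat_lit 17842245174) (nat_lit 76) (nat_lit 2871087282) (nat_lit 152) (nat_lit 24836826283) (nat_lit 8) (nat_lit 5) (nat_lit 9) (nat_lit 5) (nat_lit 10) (nat_lit 4) (nat_lit 284) (nat_lit 266) (nat_lit 230)) (XT.lf (nat_lit 0) (nat_lit 32194466231) (nat_lit 152) (nat_lit 9421553526) (nat_lit 0) (nat_lit 8964639027) (nat_lit 8) (nat_lit 5) (nat_lit 10) (nat_lit 4) (nat_lit 8) (nat_lit 4) (nat_lit 285) (nat_lit 266) (nat_lit 229))))))))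
noncomputable def xc61 : XT := (XT.nd (nat_lit 1404) (nat_lit 0) (nat_lit 0) (XT.nd (nat_lit 702) (nat_lit 228) (nat_lit 0) (XT.nd (nat_lit 312) (nat_lit 76) (nat_lit 0) (XT.nd (nat_lit 156) (nat_lit 152) (nat_lit 0) (XT.nd (nat_lit 78) (nat_lit 0) (nat_lit 0) (XT.lf (nat_lit 0) (nat_lit 12553558495) (nat_lit 76) (nat_lit 33481845565) (nat_lit 76) (nat_lit 10234716526) (nat_lit 7) (nat_lit 4) (nat_lit 8) (nat_lit 5) (nat_lit 8) (nat_lit 4) (nat_lit 286) (nat_lit 266) (nat_lit 228)) (XT.lf (nat_lit 0) (nat_lit 38850298209) (nat_lit 76) (nat_lit 23576852519) (nat_lit 76) (nat_lit 314678405) (nat_lit 7) (nat_lit 4) (nat_lit 8) (nat_lit 5) (nat_lit 8) (nat_lit 4) (nat_lit 287) (nat_lit 266) (nat_lit 227))) (XT.nd (nat_lit 78) (nat_lit 76) (nat_lit 0) (XT.lf (nat_lit 0) (nat_lit 10089499904) (nat_lit 152) (nat_lit 1582831991) (nat_lit 76) (nat_lit 58445518732) (nat_lit 6) (nat_lit 5) (nat_lit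 8) (nat_lit 5) (nat_lit 7) (nat_lit 4) (nat_lit 288) (nat_lit 266) (nat_lit 226)) (XT.lf (nat_lit 0) (nat_lit 23236006542) (nat_lit 152) (nat_lit 52193191078) (nat_lit 0) (nat_lit 2986760435) (nat_lit 5) (nat_lit 5) (nat_lit 7) (nat_lit 4) (nat_lit 5) (nat_lit 4) (nat_lit 289) (nat_lit 266) (nat_lit 225)))) (XT.nd (nat_lit 156) (nat_lit 76) (nat_lit 0) (XT.nd (nat_lit 78) (nat_lit 0) (nat_lit 0) (XT.lf (nat_lit 0) (nat_lit 38983140529) (nat_lit 152) (nat_lit 30156066849) (nat_lit 0) (nat_lit 18725292352) (nat_lit 5) (nat_lit 5) (nat_lit 7) (nat_lit 4) (nat_lit 5) (nat_lit 4) (nat_lit 290) (nat_lit 266) (nat_lit 224)) (XT.lf (nat_lit 0) (nat_lit 57080298641) (nat_lit 152) (nat_lit 4836874279) (nat_lit 0) (nat_lit 36814970402) (nat_lit 5) (nat_lit 5) (nat_lit 7) (nat_lit 4) (nat_lit 5) (nat_lit 4) (nat_lit 291) (nat_lit 266) (nat_lit 223))) (XT.nd (nat_lit 78) (nat_lit 0) (nat_lit 0) (XT.lf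 (nat_lit 0) (nat_lit 26630602527) (nat_lit 76) (nat_lit 52353669642) (nat_lit 76) (nat_lit 32081837003) (nat_lit 4) (nat_lit 4) (nat_lit 5) (nat_lit 5) (nat_lit 5) (nat_lit 4) (nat_lit 292) (nat_lit 266) (nat_lit 222)) (XT.nd (nat_lit 78) (nat_lit 0) (nat_lit 0) (XT.lf (nat_lit 0) (nat_lit 63342293394) (nat_lit 76) (nat_lit 41074468748) (nat_lit 76) (nat_lit 20796980108) (nat_lit 4) (nat_lit 4) (nat_lit 5) (nat_lit 5) (nat_lit 5) (nat_lit 4) (nat_lit 293) (nat_lit 266) (nat_lit 221)) (XT.lf (nat_lit 0) (nat_lit 105543776001) (nat_lit 76) (nat_lit 28111726830) (nat_lit 76) (nat_lit 7829319929) (nat_lit 4) (nat_lit 4) (nat_lit 5) (nat_lit 5) (nat_lit 5) (nat_lit 4) (nat_lit 294) (nat_lit 266) (nat_lit 220)))))) (XT.nd (nat_lit 312) (nat_lit 76) (nat_lit 0) (XT.nd (nat_lit 156) (nat_lit 0) (nat_lit 0) (XT.nd (nat_lit 78) (nat_lit 76) (nat_lit 0) (XT.lf (nat_lit 0) (nat_lit 6445005786) (nat_lit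 152) (nat_lit 6429921209) (nat_lit 76) (nat_lit 147278827714) (nat_lit 3) (nat_lit 5) (nat_lit 5) (nat_lit 5) (nat_lit 4) (nat_lit 4) (nat_lit 295) (nat_lit 266) (nat_lit 219)) (XT.lf (nat_lit 0) (nat_lit 23553488959) (nat_lit 152) (nat_lit 151879771810) (nat_lit 0) (nat_lit 5909660644) (nat_lit 2) (nat_lit 5) (nat_lit 4) (nat_lit 4) (nat_lit 2) (nat_lit 4) (nat_lit 296) (nat_lit 266) (nat_lit 218))) (XT.nd (nat_lit 78) (nat_lit 0) (nat_lit 0) (XT.lf (nat_lit 0) (nat_lit 44186707175) (nat_lit 152) (nat_lit 134839924914) (nat_lit 0) (nat_lit 26540066828) (nat_lit 2) (nat_lit 5) (nat_lit 4) (nat_lit 4) (nat_lit 2) (nat_lit 4) (nat_lit 297) (nat_lit 266) (nat_lit 217)) (XT.lf (nat_lit 0) (nat_lit 67909043837) (nat_lit 152) (nat_lit 115255925107) (nat_lit 0) (nat_lit 50259958246) (nat_lit 2) (nat_lit 5) (nat_lit 4) (nat_lit 4) (nat_lit 2) (nat_lit 4) (nat_lit 298) (nat_lit 266) (nat_lit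 216)))) (XT.nd (nat_lit 156) (nat_lit 76) (nat_lit 0) (XT.nd (nat_lit 78) (nat_lit 0) (nat_lit 0) (XT.lf (nat_lit 0) (nat_lit 95184631621) (nat_lit 152) (nat_lit 92744607175) (nat_lit 0) (nat_lit 77533419729) (nat_lit 2) (nat_lit 5) (nat_lit 4) (nat_lit 4) (nat_lit 2) (nat_lit 4) (nat_lit 299) (nat_lit 266) (nat_lit 215)) (XT.lf (nat_lit 0) (nat_lit 126547123330) (nat_lit 152) (nat_lit 66865532290) (nat_lit 0) (nat_lit 108894062481) (nat_lit 2) (nat_lit 5) (nat_lit 4) (nat_lit 4) (nat_lit 2) (nat_lit 4) (nat_lit 300) (nat_lit 266) (nat_lit 214))) (XT.nd (nat_lit 78) (nat_lit 76) (nat_lit 0) (XT.lf (nat_lit 0) (nat_lit 162610132932) (nat_lit 152) (nat_lit 37112370725) (nat_lit 0) (nat_lit 144955464295) (nat_lit 2) (nat_lit 5) (nat_lit 4) (nat_lit 4) (nat_lit 2) (nat_lit 4) (nat_lit 301) (nat_lit 266) (nat_lit 213)) (XT.nd (nat_lit 78) (nat_lit 76) (nat_lit 0) (XT.lf (nat_lit 0) (nat_lit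 204079241050) (nat_lit 152) (nat_lit 2902995407) (nat_lit 0) (nat_lit 186423174336) (nat_lit 2) (nat_lit 5) (nat_lit 4) (nat_lit 4) (nat_lit 2) (nat_lit 4) (nat_lit 302) (nat_lit 266) (nat_lit 212)) (XT.lf (nat_lit 0) (nat_lit 39992298493) (nat_lit 76) (nat_lit 213429497103) (nat_lit 76) (nat_lit 195772214671) (nat_lit 1) (nat_lit 4) (nat_lit 2) (nat_lit 5) (nat_lit 2) (nat_lit 4) (nat_lit 303) (nat_lit 266) (nat_lit 211))))))) (XT.nd (nat_lit 702) (nat_lit 0) (nat_lit 0) (XT.nd (nat_lit 312) (nat_lit 0) (nat_lit 0) (XT.nd (nat_lit 156) (nat_lit 0) (nat_lit 0) (XT.nd (nat_lit 78) (nat_lit 0) (nat_lit 0) (XT.lf (nat_lit 0) (nat_lit 89642532109) (nat_lit 76) (nat_lit 220672181051) (nat_lit 76) (nat_lit 203013841472) (nat_lit 1) (nat_lit 4) (nat_lit 2) (nat_lit 5) (nat_lit 2) (nat_lit 4) (nat_lit 304) (nat_lit 266) (nat_lit 210)) (XT.lf (nat_lit 0) (nat_lit 146735421232) (nat_lit 76) (nat_lit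 229003740474) (nat_lit 76) (nat_lit 211344481636) (nat_lit 1) (nat_lit 4) (nat_lit 2) (nat_lit 5) (nat_lit 2) (nat_lit 4) (nat_lit 305) (nat_lit 266) (nat_lit 209))) (XT.nd (nat_lit 78) (nat_lit 0) (nat_lit 0) (XT.lf (nat_lit 0) (nat_lit 212388000649) (nat_lit 76) (nat_lit 238587184143) (nat_lit 76) (nat_lit 220927125950) (nat_lit 1) (nat_lit 4) (nat_lit 2) (nat_lit 5) (nat_lit 2) (nat_lit 4) (nat_lit 306) (nat_lit 266) (nat_lit 208)) (XT.lf (nat_lit 0) (nat_lit 287884777348) (nat_lit 76) (nat_lit 249610014217) (nat_lit 76) (nat_lit 231949260933) (nat_lit 1) (nat_lit 4) (nat_lit 2) (nat_lit 5) (nat_lit 2) (nat_lit 4) (nat_lit 307) (nat_lit 266) (nat_lit 207)))) (XT.nd (nat_lit 156) (nat_lit 0) (nat_lit 0) (XT.nd (nat_lit 78) (nat_lit 0) (nat_lit 0) (XT.lf (nat_lit 0) (nat_lit 374702862177) (nat_lit 76) (nat_lit 262287894763) (nat_lit 76) (nat_lit 244626537052) (nat_lit 1) (nat_lit 4)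 (nat_lit 2) (nat_lit 5) (nat_lit 2) (nat_lit 4) (nat_lit 308) (nat_lit 266) (nat_lit 206)) (XT.lf (nat_lit 0) (nat_lit 474540869840) (nat_lit 76) (nat_lit 276868871270) (nat_lit 76) (nat_lit 259206987969) (nat_lit 1) (nat_lit 4) (nat_lit 2) (nat_lit 5) (nat_lit 2) (nat_lit 4) (nat_lit 309) (nat_lit 266) (nat_lit 205))) (XT.nd (nat_lit 78) (nat_lit 0) (nat_lit 0) (XT.lf (nat_lit 0) (nat_lit 589352152661) (nat_lit 76) (nat_lit 293638223712) (nat_lit 76) (nat_lit 275975883378) (nat_lit 1) (nat_lit 4) (nat_lit 2) (nat_lit 5) (nat_lit 2) (nat_lit 4) (nat_lit 310) (nat_lit 266) (nat_lit 204)) (XT.nd (nat_lit 78) (nat_lit 0) (nat_lit 0) (XT.lf (nat_lit 0) (nat_lit 721383018348) (nat_lit 76) (nat_lit 312924048116) (nat_lit 76) (nat_lit 295261310361) (nat_lit 1) (nat_lit 4) (nat_lit 2) (nat_lit 5) (nat_lit 2) (nat_lit 4) (nat_lit 311) (nat_lit 266) (nat_lit 203)) (XT.lf (nat_lit 0) (nat_lit 873216679488)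 (nat_lit 76) (nat_lit 335103675829) (nat_lit 76) (nat_lit 317440592491) (nat_lit 1) (nat_lit 4) (nat_lit 2) (nat_lit 5) (nat_lit 2) (nat_lit 4) (nat_lit 312) (nat_lit 266) (nat_lit 202)))))) (XT.nd (nat_lit 390) (nat_lit 0) (nat_lit 0) (XT.nd (nat_lit 156) (nat_lit 0) (nat_lit 0) (XT.nd (nat_lit 78) (nat_lit 0) (nat_lit 0) (XT.lf (nat_lit 0) (nat_lit 1047823794671) (nat_lit 76) (nat_lit 360611056088) (nat_lit 76) (nat_lit 342947672243) (nat_lit 1) (nat_lit 4) (nat_lit 2) (nat_lit 5) (nat_lit 2) (nat_lit 4) (nat_lit 313) (nat_lit 266) (nat_lit 201)) (XT.lf (nat_lit 0) (nat_lit 1248620590063) (nat_lit 76) (nat_lit 389945246334) (nat_lit 76) (nat_lit 372281601178) (nat_lit 1) (nat_lit 4) (nat_lit 2) (nat_lit 5) (nat_lit 2) (nat_lit 4) (nat_lit 314) (nat_lit 266) (nat_lit 200))) (XT.nd (nat_lit 78) (nat_lit 0) (nat_lit 0) (XT.lf (nat_lit 0) (nat_lit 1479535698616) (nat_lit 76) (nat_lit 423680176376)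 (nat_lit 76) (nat_lit 406016303994) (nat_lit 1) (nat_lit 4) (nat_lit 2) (nat_lit 5) (nat_lit 2) (nat_lit 4) (nat_lit 315) (nat_lit 266) (nat_lit 199)) (XT.nd (nat_lit 78) (nat_lit 0) (nat_lit 0) (XT.lf (nat_lit 0) (nat_lit 1745087024630) (nat_lit 76) (nat_lit 462475877453) (nat_lit 76) (nat_lit 444811807483) (nat_lit 1) (nat_lit 4) (nat_lit 2) (nat_lit 5) (nat_lit 2) (nat_lit 4) (nat_lit 316) (nat_lit 266) (nat_lit 198)) (XT.lf (nat_lit 0) (nat_lit 2050470137525) (nat_lit 76) (nat_lit 507091395892) (nat_lit 76) (nat_lit 489427154105) (nat_lit 1) (nat_lit 4) (nat_lit 2) (nat_lit 5) (nat_lit 2) (nat_lit 4) (nat_lit 317) (nat_lit 266) (nat_lit 197))))) (XT.nd (nat_lit 156) (nat_lit 0) (nat_lit 0) (XT.nd (nat_lit 78) (nat_lit 0) (nat_lit 0) (XT.lf (nat_lit 0) (nat_lit 2401659924294) (nat_lit 76) (nat_lit 558399644008) (nat_lit 76) (nat_lit 540735252817) (nat_lit 1) (nat_lit 4) (nat_lit 2)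 (nat_lit 5) (nat_lit 2) (nat_lit 4) (nat_lit 318) (nat_lit 266) (nat_lit 196)) (XT.lf (nat_lit 0) (nat_lit 2805527489459) (nat_lit 76) (nat_lit 617404478832) (nat_lit 76) (nat_lit 599739957723) (nat_lit 1) (nat_lit 4) (nat_lit 2) (nat_lit 5) (nat_lit 2) (nat_lit 4) (nat_lit 319) (nat_lit 266) (nat_lit 195))) (XT.nd (nat_lit 78) (nat_lit 0) (nat_lit 0) (XT.lf (nat_lit 0) (nat_lit 3269974589731) (nat_lit 76) (nat_lit 685260342782) (nat_lit 76) (nat_lit 667595708702) (nat_lit 1) (nat_lit 4) (nat_lit 2) (nat_lit 5) (nat_lit 2) (nat_lit 4) (nat_lit 320) (nat_lit 266) (nat_lit 194)) (XT.nd (nat_lit 78) (nat_lit 0) (nat_lit 0) (XT.lf (nat_lit 0) (nat_lit 3804088233594) (nat_lit 76) (nat_lit 763294850590) (nat_lit 76) (nat_lit 745630118273) (nat_lit 1) (nat_lit 4) (nat_lit 2) (nat_lit 5) (nat_lit 2) (nat_lit 4) (nat_lit 321) (nat_lit 266) (nat_lit 193)) (XT.lf (nat_lit 0) (nat_lit 4418318470601)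 (nat_lit 76) (nat_lit 853034764363) (nat_lit 76) (nat_lit 835369946623) (nat_lit 1) (nat_lit 4) (nat_lit 2) (nat_lit 5) (nat_lit 2) (nat_lit 4) (nat_lit 322) (nat_lit 266) (nat_lit 192))))))))
noncomputable def xc62 : XT := (XT.nd (nat_lit 36270) (nat_lit 0) (nat_lit 532) (XT.nd (nat_lit 702) (nat_lit 0) (nat_lit 0) (XT.nd (nat_lit 312) (nat_lit 0) (nat_lit 0) (XT.nd (nat_lit 156) (nat_lit 0) (nat_lit 0) (XT.nd (nat_lit 78) (nat_lit 0) (nat_lit 0) (XT.lf (nat_lit 0) (nat_lit 5124682848867) (nat_lit 76) (nat_lit 956235865024) (nat_lit 76) (nat_lit 938570973003) (nat_lit 1) (nat_lit 4) (nat_lit 2) (nat_lit 5) (nat_lit 2) (nat_lit 4) (nat_lit 323) (nat_lit 266) (nat_lit 191)) (XT.lf (nat_lit 0) (nat_lit 5937001541012) (nat_lit 76) (nat_lit 1074917304542) (nat_lit 76) (nat_lit 1057252347929) (nat_lit 1) (nat_lit 4) (nat_lit 2) (nat_lit 5) (nat_lit 2) (nat_lit 4) (nat_lit 324) (nat_lit 266)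 (nat_lit 190))) (XT.nd (nat_lit 78) (nat_lit 0) (nat_lit 0) (XT.lf (nat_lit 0) (nat_lit 6871167738837) (nat_lit 76) (nat_lit 1211401111081) (nat_lit 76) (nat_lit 1193736098301) (nat_lit 1) (nat_lit 4) (nat_lit 2) (nat_lit 5) (nat_lit 2) (nat_lit 4) (nat_lit 325) (nat_lit 266) (nat_lit 189)) (XT.lf (nat_lit 0) (nat_lit 7945458607082) (nat_lit 76) (nat_lit 1368357619987) (nat_lit 76) (nat_lit 1350692558367) (nat_lit 1) (nat_lit 4) (nat_lit 2) (nat_lit 5) (nat_lit 2) (nat_lit 4) (nat_lit 326) (nat_lit 266) (nat_lit 188)))) (XT.nd (nat_lit 156) (nat_lit 0) (nat_lit 0) (XT.nd (nat_lit 78) (nat_lit 0) (nat_lit 0) (XT.lf (nat_lit 0) (nat_lit 9180892880127) (nat_lit 76) (nat_lit 1548857719478) (nat_lit 76) (nat_lit 1531192615387) (nat_lit 1) (nat_lit 4) (nat_lit 2) (nat_lit 5) (nat_lit 2) (nat_lit 4) (nat_lit 327) (nat_lit 266) (nat_lit 187)) (XT.lf (nat_lit 0) (nat_lit 10601642098096) (nat_lit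 76) (nat_lit 1756432933239) (nat_lit 76) (nat_lit 1738767792218) (nat_lit 1) (nat_lit 4) (nat_lit 2) (nat_lit 5) (nat_lit 2) (nat_lit 4) (nat_lit 328) (nat_lit 266) (nat_lit 186))) (XT.nd (nat_lit 78) (nat_lit 0) (nat_lit 0) (XT.lf (nat_lit 0) (nat_lit 12235503528297) (nat_lit 76) (nat_lit 1995144515453) (nat_lit 76) (nat_lit 1977479342317) (nat_lit 1) (nat_lit 4) (nat_lit 2) (nat_lit 5) (nat_lit 2) (nat_lit 4) (nat_lit 329) (nat_lit 266) (nat_lit 185)) (XT.nd (nat_lit 78) (nat_lit 0) (nat_lit 0) (XT.lf (nat_lit 0) (nat_lit 14114444024800) (nat_lit 76) (nat_lit 2269662910118) (nat_lit 76) (nat_lit 2251997709058) (nat_lit 1) (nat_lit 4) (nat_lit 2) (nat_lit 5) (nat_lit 2) (nat_lit 4) (nat_lit 330) (nat_lit 266) (nat_lit 184)) (XT.lf (nat_lit 0) (nat_lit 16275225466884) (nat_lit 76) (nat_lit 2585359129306) (nat_lit 76) (nat_lit 2567693903964) (nat_lit 1) (nat_lit 4) (nat_lit 2) (nat_lit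 5) (nat_lit 2) (nat_lit 4) (nat_lit 331) (nat_lit 266) (nat_lit 183)))))) (XT.nd (nat_lit 312) (nat_lit 0) (nat_lit 0) (XT.nd (nat_lit 156) (nat_lit 0) (nat_lit 0) (XT.nd (nat_lit 78) (nat_lit 0) (nat_lit 0) (XT.lf (nat_lit 0) (nat_lit 18760124013198) (nat_lit 76) (nat_lit 2948409838174) (nat_lit 76) (nat_lit 2930744591716) (nat_lit 1) (nat_lit 4) (nat_lit 2) (nat_lit 5) (nat_lit 2) (nat_lit 4) (nat_lit 332) (nat_lit 266) (nat_lit 182)) (XT.lf (nat_lit 0) (nat_lit 21617757243996) (nat_lit 76) (nat_lit 3365918202765) (nat_lit 76) (nat_lit 3348252937946) (nat_lit 1) (nat_lit 4) (nat_lit 2) (nat_lit 5) (nat_lit 2) (nat_lit 4) (nat_lit 333) (nat_lit 266) (nat_lit 181))) (XT.nd (nat_lit 78) (nat_lit 0) (nat_lit 0) (XT.lf (nat_lit 0) (nat_lit 24904035374664) (nat_lit 76) (nat_lit 3846052864995) (nat_lit 76) (nat_lit 3828387584210) (nat_lit 1) (nat_lit 4) (nat_lit 2) (nat_lit 5) (nat_lit 2)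 (nat_lit 4) (nat_lit 334) (nat_lit 266) (nat_lit 180)) (XT.lf (nat_lit 0) (nat_lit 28683255151236) (nat_lit 76) (nat_lit 4398207763907) (nat_lit 76) (nat_lit 4380542469238) (nat_lit 1) (nat_lit 4) (nat_lit 2) (nat_lit 5) (nat_lit 2) (nat_lit 4) (nat_lit 335) (nat_lit 266) (nat_lit 179)))) (XT.nd (nat_lit 156) (nat_lit 0) (nat_lit 0) (XT.nd (nat_lit 78) (nat_lit 0) (nat_lit 0) (XT.lf (nat_lit 0) (nat_lit 33029357830210) (nat_lit 76) (nat_lit 5033185930133) (nat_lit 76) (nat_lit 5015520623391) (nat_lit 1) (nat_lit 4) (nat_lit 2) (nat_lit 5) (nat_lit 2) (nat_lit 4) (nat_lit 336) (nat_lit 266) (nat_lit 178)) (XT.lf (nat_lit 0) (nat_lit 38027375855306) (nat_lit 76) (nat_lit 5763410849533) (nat_lit 76) (nat_lit 5745745532293) (nat_lit 1) (nat_lit 4) (nat_lit 2) (nat_lit 5) (nat_lit 2) (nat_lit 4) (nat_lit 337) (nat_lit 266) (nat_lit 177))) (XT.nd (nat_lit 78) (nat_lit 0) (nat_lit 0) (XT.lf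 (nat_lit 0) (nat_lit 43775096535709) (nat_lit 76) (nat_lit 6603169531400) (nat_lit 76) (nat_lit 6585504205032) (nat_lit 1) (nat_lit 4) (nat_lit 2) (nat_lit 5) (nat_lit 2) (nat_lit 4) (nat_lit 338) (nat_lit 266) (nat_lit 176)) (XT.nd (nat_lit 78) (nat_lit 0) (nat_lit 0) (XT.lf (nat_lit 0) (nat_lit 50384975276038) (nat_lit 76) (nat_lit 7568892036901) (nat_lit 76) (nat_lit 7551226702594) (nat_lit 1) (nat_lit 4) (nat_lit 2) (nat_lit 5) (nat_lit 2) (nat_lit 4) (nat_lit 339) (nat_lit 266) (nat_lit 175)) (XT.lf (nat_lit 0) (nat_lit 57986335790776) (nat_lit 76) (nat_lit 8679472936795) (nat_lit 76) (nat_lit 8661807595587) (nat_lit 1) (nat_lit 4) (nat_lit 2) (nat_lit 5) (nat_lit 2) (nat_lit 4) (nat_lit 340) (nat_lit 266) (nat_lit 174))))))) (XT.nd (nat_lit 702) (nat_lit 608) (nat_lit 0) (XT.nd (nat_lit 312) (nat_lit 380) (nat_lit 0) (XT.nd (nat_lit 156) (nat_lit 304) (nat_lit 0) (XT.nd (nat_lit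 78) (nat_lit 0) (nat_lit 0) (XT.lf (nat_lit 0) (nat_lit 2546182398) (nat_lit 0) (nat_lit 2546182398) (nat_lit 228) (nat_lit 512389097) (nat_lit 25) (nat_lit 5) (nat_lit 25) (nat_lit 3) (nat_lit 28) (nat_lit 3) (nat_lit 267) (nat_lit 267) (nat_lit 246)) (XT.lf (nat_lit 0) (nat_lit 11073726662) (nat_lit 0) (nat_lit 353775070) (nat_lit 228) (nat_lit 548335683) (nat_lit 25) (nat_lit 5) (nat_lit 25) (nat_lit 3) (nat_lit 28) (nat_lit 3) (nat_lit 268) (nat_lit 267) (nat_lit 245))) (XT.nd (nat_lit 78) (nat_lit 0) (nat_lit 0) (XT.lf (nat_lit 0) (nat_lit 362594557) (nat_lit 304) (nat_lit 7523803829) (nat_lit 380) (nat_lit 4916667418) (nat_lit 21) (nat_lit 5) (nat_lit 25) (nat_lit 5) (nat_lit 26) (nat_lit 5) (nat_lit 269) (nat_lit 267) (nat_lit 244)) (XT.lf (nat_lit 0) (nat_lit 1341453680) (nat_lit 304) (nat_lit 1366354243) (nat_lit 380) (nat_lit 11044882331) (nat_lit 21) (nat_lit 5) (nat_lit 25)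 (nat_lit 5) (nat_lit 26) (nat_lit 5) (nat_lit 270) (nat_lit 267) (nat_lit 243)))) (XT.nd (nat_lit 156) (nat_lit 456) (nat_lit 0) (XT.nd (nat_lit 78) (nat_lit 0) (nat_lit 0) (XT.lf (nat_lit 0) (nat_lit 2803162726) (nat_lit 304) (nat_lit 8751048590) (nat_lit 76) (nat_lit 3240441947) (nat_lit 22) (nat_lit 5) (nat_lit 26) (nat_lit 5) (nat_lit 23) (nat_lit 5) (nat_lit 271) (nat_lit 267) (nat_lit 242)) (XT.lf (nat_lit 0) (nat_lit 4626518899) (nat_lit 304) (nat_lit 1458190448) (nat_lit 76) (nat_lit 9887101937) (nat_lit 22) (nat_lit 5) (nat_lit 26) (nat_lit 5) (nat_lit 23) (nat_lit 5) (nat_lit 272) (nat_lit 267) (nat_lit 241))) (XT.nd (nat_lit 78) (nat_lit 152) (nat_lit 0) (XT.lf (nat_lit 0) (nat_lit 7005828004) (nat_lit 380) (nat_lit 9763974495) (nat_lit 76) (nat_lit 513598453) (nat_lit 18) (nat_lit 5) (nat_lit 23) (nat_lit 5) (nat_lit 19) (nat_lit 5) (nat_lit 273) (nat_lit 267) (nat_lit 240))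 (XT.nd (nat_lit 78) (nat_lit 152) (nat_lit 0) (XT.lf (nat_lit 0) (nat_lit 10062955438) (nat_lit 380) (nat_lit 1125138462) (nat_lit 76) (nat_lit 7555692847) (nat_lit 18) (nat_lit 5) (nat_lit 23) (nat_lit 5) (nat_lit 19) (nat_lit 5) (nat_lit 274) (nat_lit 267) (nat_lit 239)) (XT.lf (nat_lit 0) (nat_lit 9614105099) (nat_lit 152) (nat_lit 4320316577) (nat_lit 228) (nat_lit 6435613694) (nat_lit 16) (nat_lit 5) (nat_lit 18) (nat_lit 5) (nat_lit 19) (nat_lit 5) (nat_lit 275) (nat_lit 267) (nat_lit 238)))))) (XT.nd (nat_lit 390) (nat_lit 228) (nat_lit 0) (XT.nd (nat_lit 156) (nat_lit 228) (nat_lit 0) (XT.nd (nat_lit 78) (nat_lit 152) (nat_lit 0) (XT.lf (nat_lit 0) (nat_lit 18557106201) (nat_lit 228) (nat_lit 346208136) (nat_lit 76) (nat_lit 3311480381) (nat_lit 16) (nat_lit 5) (nat_lit 19) (nat_lit 5) (nat_lit 17) (nat_lit 4) (nat_lit 276) (nat_lit 267) (nat_lit 237)) (XT.lf (nat_lit 0) (nat_lit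 299311498) (nat_lit 152) (nat_lit 11763585820) (nat_lit 76) (nat_lit 12168184943) (nat_lit 14) (nat_lit 5) (nat_lit 16) (nat_lit 5) (nat_lit 15) (nat_lit 5) (nat_lit 277) (nat_lit 267) (nat_lit 236))) (XT.nd (nat_lit 78) (nat_lit 76) (nat_lit 0) (XT.lf (nat_lit 0) (nat_lit 517481083) (nat_lit 152) (nat_lit 3965124817) (nat_lit 228) (nat_lit 22040094819) (nat_lit 12) (nat_lit 5) (nat_lit 14) (nat_lit 5) (nat_lit 15) (nat_lit 5) (nat_lit 278) (nat_lit 267) (nat_lit 235)) (XT.nd (nat_lit 78) (nat_lit 76) (nat_lit 0) (XT.lf (nat_lit 0) (nat_lit 10127603092) (nat_lit 228) (nat_lit 13404212190) (nat_lit 76) (nat_lit 5501200095) (nat_lit 12) (nat_lit 5) (nat_lit 15) (nat_lit 5) (nat_lit 13) (nat_lit 4) (nat_lit 279) (nat_lit 267) (nat_lit 234)) (XT.lf (nat_lit 0) (nat_lit 937736808) (nat_lit 76) (nat_lit 15881946388) (nat_lit 152) (nat_lit 15070217711) (nat_lit 11) (nat_lit 5) (nat_lit 12)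 (nat_lit 5) (nat_lit 13) (nat_lit 4) (nat_lit 280) (nat_lit 267) (nat_lit 233))))) (XT.nd (nat_lit 156) (nat_lit 152) (nat_lit 0) (XT.nd (nat_lit 78) (nat_lit 76) (nat_lit 0) (XT.lf (nat_lit 0) (nat_lit 18895545359) (nat_lit 76) (nat_lit 6295220975) (nat_lit 152) (nat_lit 9883338343) (nat_lit 11) (nat_lit 5) (nat_lit 12) (nat_lit 5) (nat_lit 13) (nat_lit 4) (nat_lit 281) (nat_lit 267) (nat_lit 232)) (XT.lf (nat_lit 0) (nat_lit 632332130) (nat_lit 76) (nat_lit 34384452145) (nat_lit 76) (nat_lit 3689319596) (nat_lit 10) (nat_lit 4) (nat_lit 11) (nat_lit 5) (nat_lit 11) (nat_lit 4) (nat_lit 282) (nat_lit 267) (nat_lit 231))) (XT.nd (nat_lit 78) (nat_lit 76) (nat_lit 0) (XT.lf (nat_lit 0) (nat_lit 4291449738) (nat_lit 152) (nat_lit 21494829539) (nat_lit 76) (nat_lit 16900835542) (nat_lit 9) (nat_lit 5) (nat_lit 11) (nat_lit 5) (nat_lit 10) (nat_lit 4) (nat_lit 283) (nat_lit 267) (nat_lit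 230)) (XT.nd (nat_lit 78) (nat_lit 76) (nat_lit 0) (XT.lf (nat_lit 0) (nat_lit 13072146611) (nat_lit 152) (nat_lit 2639212938) (nat_lit 76) (nat_lit 31530522977) (nat_lit 9) (nat_lit 5) (nat_lit 11) (nat_lit 5) (nat_lit 10) (nat_lit 4) (nat_lit 284) (nat_lit 267) (nat_lit 229)) (XT.lf (nat_lit 0) (nat_lit 20873019707) (nat_lit 76) (nat_lit 3144303535) (nat_lit 152) (nat_lit 28335467715) (nat_lit 8) (nat_lit 5) (nat_lit 9) (nat_lit 5) (nat_lit 10) (nat_lit 4) (nat_lit 285) (nat_lit 267) (nat_lit 228))))))))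
noncomputable def xc63 : XT := (XT.nd (nat_lit 1404) (nat_lit 76) (nat_lit 0) (XT.nd (nat_lit 702) (nat_lit 152) (nat_lit 0) (XT.nd (nat_lit 312) (nat_lit 152) (nat_lit 0) (XT.nd (nat_lit 156) (nat_lit 76) (nat_lit 0) (XT.nd (nat_lit 78) (nat_lit 76) (nat_lit 0) (XT.lf (nat_lit 0) (nat_lit 37200601779) (nat_lit 152) (nat_lit 10506256284) (nat_lit 0) (nat_lit 10434056475) (nat_lit 8) (nat_lit 5) (nat_lit 10) (nat_lit 4) (nat_lit 8) (nat_lit 4) (nat_lit 286) (nat_lit 267) (nat_lit 227)) (XT.lf (nat_lit 0) (nat_lit 14750189346) (nat_lit 76) (nat_lit 38357393852) (nat_lit 76) (nat_lit 11577765874) (nat_lit 7) (nat_lit 4) (nat_lit 8) (nat_lit 5) (nat_lit 8) (nat_lit 4) (nat_lit 287) (nat_lit 267) (nat_lit 226))) (XT.nd (nat_lit 78) (nat_lit 76) (nat_lit 0) (XT.lf (nat_lit 0) (nat_lit 44950536051) (nat_lit 76) (nat_lit 26985790354) (nat_lit 76) (nat_lit 194786140) (nat_lit 7) (nat_lit 4) (nat_lit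 8) (nat_lit 5) (nat_lit 8) (nat_lit 4) (nat_lit 288) (nat_lit 267) (nat_lit 225)) (XT.lf (nat_lit 0) (nat_lit 11735288508) (nat_lit 152) (nat_lit 1570026301) (nat_lit 76) (nat_lit 67310188361) (nat_lit 6) (nat_lit 5) (nat_lit 8) (nat_lit 5) (nat_lit 7) (nat_lit 4) (nat_lit 289) (nat_lit 267) (nat_lit 224)))) (XT.nd (nat_lit 156) (nat_lit 76) (nat_lit 0) (XT.nd (nat_lit 78) (nat_lit 0) (nat_lit 0) (XT.lf (nat_lit 0) (nat_lit 26851111847) (nat_lit 152) (nat_lit 59769131688) (nat_lit 0) (nat_lit 3538504312) (nat_lit 5) (nat_lit 5) (nat_lit 7) (nat_lit 4) (nat_lit 5) (nat_lit 4) (nat_lit 290) (nat_lit 267) (nat_lit 223)) (XT.lf (nat_lit 0) (nat_lit 44943397977) (nat_lit 152) (nat_lit 34459443787) (nat_lit 0) (nat_lit 21624286041) (nat_lit 5) (nat_lit 5) (nat_lit 7) (nat_lit 4) (nat_lit 5) (nat_lit 4) (nat_lit 291) (nat_lit 267) (nat_lit 222))) (XT.nd (nat_lit 78) (nat_lit 76) (nat_lit 0)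 (XT.lf (nat_lit 0) (nat_lit 65740418539) (nat_lit 152) (nat_lit 5371072300) (nat_lit 0) (nat_lit 42415650603) (nat_lit 5) (nat_lit 5) (nat_lit 7) (nat_lit 4) (nat_lit 5) (nat_lit 4) (nat_lit 292) (nat_lit 267) (nat_lit 221)) (XT.nd (nat_lit 78) (nat_lit 0) (nat_lit 0) (XT.lf (nat_lit 0) (nat_lit 30807829067) (nat_lit 76) (nat_lit 60116929199) (nat_lit 76) (nat_lit 36787243002) (nat_lit 4) (nat_lit 4) (nat_lit 5) (nat_lit 5) (nat_lit 5) (nat_lit 4) (nat_lit 293) (nat_lit 267) (nat_lit 220)) (XT.lf (nat_lit 0) (nat_lit 73002451456) (nat_lit 76) (nat_lit 47157560026) (nat_lit 76) (nat_lit 23823597080) (nat_lit 4) (nat_lit 4) (nat_lit 5) (nat_lit 5) (nat_lit 5) (nat_lit 4) (nat_lit 294) (nat_lit 267) (nat_lit 219)))))) (XT.nd (nat_lit 312) (nat_lit 0) (nat_lit 0) (XT.nd (nat_lit 156) (nat_lit 76) (nat_lit 0) (XT.nd (nat_lit 78) (nat_lit 76) (nat_lit 0) (XT.lf (nat_lit 0) (nat_lit 121513441578)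 (nat_lit 76) (nat_lit 32260591042) (nat_lit 76) (nat_lit 8922909184) (nat_lit 4) (nat_lit 4) (nat_lit 5) (nat_lit 5) (nat_lit 5) (nat_lit 4) (nat_lit 295) (nat_lit 267) (nat_lit 218)) (XT.lf (nat_lit 0) (nat_lit 7475769334) (nat_lit 152) (nat_lit 7268011625) (nat_lit 76) (nat_lit 169423379314) (nat_lit 3) (nat_lit 5) (nat_lit 5) (nat_lit 5) (nat_lit 4) (nat_lit 4) (nat_lit 296) (nat_lit 267) (nat_lit 217))) (XT.nd (nat_lit 78) (nat_lit 0) (nat_lit 0) (XT.lf (nat_lit 0) (nat_lit 27149655655) (nat_lit 152) (nat_lit 174534422019) (nat_lit 0) (nat_lit 6850761979) (nat_lit 2) (nat_lit 5) (nat_lit 4) (nat_lit 4) (nat_lit 2) (nat_lit 4) (nat_lit 297) (nat_lit 267) (nat_lit 216)) (XT.lf (nat_lit 0) (nat_lit 50869620514) (nat_lit 152) (nat_lit 154955204467) (nat_lit 0) (nat_lit 30568600538) (nat_lit 2) (nat_lit 5) (nat_lit 4) (nat_lit 4) (nat_lit 2) (nat_lit 4) (nat_lit 298) (nat_lit 267) (nat_lit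 215)))) (XT.nd (nat_lit 156) (nat_lit 0) (nat_lit 0) (XT.nd (nat_lit 78) (nat_lit 0) (nat_lit 0) (XT.lf (nat_lit 0) (nat_lit 78143145859) (nat_lit 152) (nat_lit 132448045017) (nat_lit 0) (nat_lit 57840276927) (nat_lit 2) (nat_lit 5) (nat_lit 4) (nat_lit 4) (nat_lit 2) (nat_lit 4) (nat_lit 299) (nat_lit 267) (nat_lit 214)) (XT.lf (nat_lit 0) (nat_lit 109503844143) (nat_lit 152) (nat_lit 106572586203) (nat_lit 0) (nat_lit 89199367422) (nat_lit 2) (nat_lit 5) (nat_lit 4) (nat_lit 4) (nat_lit 2) (nat_lit 4) (nat_lit 300) (nat_lit 267) (nat_lit 213))) (XT.nd (nat_lit 78) (nat_lit 0) (nat_lit 0) (XT.lf (nat_lit 0) (nat_lit 145565294246) (nat_lit 152) (nat_lit 76822569048) (nat_lit 0) (nat_lit 125259419448) (nat_lit 2) (nat_lit 5) (nat_lit 4) (nat_lit 4) (nat_lit 2) (nat_lit 4) (nat_lit 301) (nat_lit 267) (nat_lit 212)) (XT.nd (nat_lit 78) (nat_lit 0) (nat_lit 0) (XT.lf (nat_lit 0) (nat_lit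 187033046277) (nat_lit 152) (nat_lit 42615927998) (nat_lit 0) (nat_lit 166725955761) (nat_lit 2) (nat_lit 5) (nat_lit 4) (nat_lit 4) (nat_lit 2) (nat_lit 4) (nat_lit 302) (nat_lit 267) (nat_lit 211)) (XT.lf (nat_lit 0) (nat_lit 234718425821) (nat_lit 152) (nat_lit 3283402687) (nat_lit 0) (nat_lit 214410278157) (nat_lit 2) (nat_lit 5) (nat_lit 4) (nat_lit 4) (nat_lit 2) (nat_lit 4) (nat_lit 303) (nat_lit 267) (nat_lit 210))))))) (XT.nd (nat_lit 702) (nat_lit 0) (nat_lit 0) (XT.nd (nat_lit 312) (nat_lit 0) (nat_lit 0) (XT.nd (nat_lit 156) (nat_lit 0) (nat_lit 0) (XT.nd (nat_lit 78) (nat_lit 0) (nat_lit 0) (XT.lf (nat_lit 0) (nat_lit 46043683387) (nat_lit 76) (nat_lit 245417295047) (nat_lit 76) (nat_lit 225108228126) (nat_lit 1) (nat_lit 4) (nat_lit 2) (nat_lit 5) (nat_lit 2) (nat_lit 4) (nat_lit 304) (nat_lit 267) (nat_lit 209)) (XT.lf (nat_lit 0) (nat_lit 103134598987) (nat_lit 76) (nat_lit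 253749854625) (nat_lit 76) (nat_lit 233439988348) (nat_lit 1) (nat_lit 4) (nat_lit 2) (nat_lit 5) (nat_lit 2) (nat_lit 4) (nat_lit 305) (nat_lit 267) (nat_lit 208))) (XT.nd (nat_lit 78) (nat_lit 0) (nat_lit 0) (XT.lf (nat_lit 0) (nat_lit 168785462297) (nat_lit 76) (nat_lit 263334167994) (nat_lit 76) (nat_lit 243023606626) (nat_lit 1) (nat_lit 4) (nat_lit 2) (nat_lit 5) (nat_lit 2) (nat_lit 4) (nat_lit 306) (nat_lit 267) (nat_lit 207)) (XT.lf (nat_lit 0) (nat_lit 244280746728) (nat_lit 76) (nat_lit 274357754329) (nat_lit 76) (nat_lit 254046588534) (nat_lit 1) (nat_lit 4) (nat_lit 2) (nat_lit 5) (nat_lit 2) (nat_lit 4) (nat_lit 307) (nat_lit 267) (nat_lit 206)))) (XT.nd (nat_lit 156) (nat_lit 0) (nat_lit 0) (XT.nd (nat_lit 78) (nat_lit 0) (nat_lit 0) (XT.lf (nat_lit 0) (nat_lit 331097533934) (nat_lit 76) (nat_lit 287036292493) (nat_lit 76) (nat_lit 266724601109) (nat_lit 1) (nat_lit 4)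 (nat_lit 2) (nat_lit 5) (nat_lit 2) (nat_lit 4) (nat_lit 308) (nat_lit 267) (nat_lit 205)) (XT.lf (nat_lit 0) (nat_lit 430934413229) (nat_lit 76) (nat_lit 301617840841) (nat_lit 76) (nat_lit 281305692423) (nat_lit 1) (nat_lit 4) (nat_lit 2) (nat_lit 5) (nat_lit 2) (nat_lit 4) (nat_lit 309) (nat_lit 267) (nat_lit 204))) (XT.nd (nat_lit 78) (nat_lit 0) (nat_lit 0) (XT.lf (nat_lit 0) (nat_lit 545744714861) (nat_lit 76) (nat_lit 318387690537) (nat_lit 76) (nat_lit 298075144698) (nat_lit 1) (nat_lit 4) (nat_lit 2) (nat_lit 5) (nat_lit 2) (nat_lit 4) (nat_lit 310) (nat_lit 267) (nat_lit 203)) (XT.nd (nat_lit 78) (nat_lit 0) (nat_lit 0) (XT.lf (nat_lit 0) (nat_lit 677774727338) (nat_lit 76) (nat_lit 337673947335) (nat_lit 76) (nat_lit 317361055914) (nat_lit 1) (nat_lit 4) (nat_lit 2) (nat_lit 5) (nat_lit 2) (nat_lit 4) (nat_lit 311) (nat_lit 267) (nat_lit 202)) (XT.lf (nat_lit 0) (nat_lit 829607646558)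 (nat_lit 76) (nat_lit 359853951043) (nat_lit 76) (nat_lit 339540759114) (nat_lit 1) (nat_lit 4) (nat_lit 2) (nat_lit 5) (nat_lit 2) (nat_lit 4) (nat_lit 312) (nat_lit 267) (nat_lit 201)))))) (XT.nd (nat_lit 390) (nat_lit 0) (nat_lit 0) (XT.nd (nat_lit 156) (nat_lit 0) (nat_lit 0) (XT.nd (nat_lit 78) (nat_lit 0) (nat_lit 0) (XT.lf (nat_lit 0) (nat_lit 1004214116593) (nat_lit 76) (nat_lit 385361658255) (nat_lit 76) (nat_lit 365048205016) (nat_lit 1) (nat_lit 4) (nat_lit 2) (nat_lit 5) (nat_lit 2) (nat_lit 4) (nat_lit 313) (nat_lit 267) (nat_lit 200)) (XT.lf (nat_lit 0) (nat_lit 1205010350986) (nat_lit 76) (nat_lit 414696132808) (nat_lit 76) (nat_lit 394382452342) (nat_lit 1) (nat_lit 4) (nat_lit 2) (nat_lit 5) (nat_lit 2) (nat_lit 4) (nat_lit 314) (nat_lit 267) (nat_lit 199))) (XT.nd (nat_lit 78) (nat_lit 0) (nat_lit 0) (XT.lf (nat_lit 0) (nat_lit 1435924971715) (nat_lit 76) (nat_lit 448431310072)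 (nat_lit 76) (nat_lit 428117432018) (nat_lit 1) (nat_lit 4) (nat_lit 2) (nat_lit 5) (nat_lit 2) (nat_lit 4) (nat_lit 315) (nat_lit 267) (nat_lit 198)) (XT.nd (nat_lit 78) (nat_lit 0) (nat_lit 0) (XT.lf (nat_lit 0) (nat_lit 1701475873533) (nat_lit 76) (nat_lit 487227226126) (nat_lit 76) (nat_lit 466913176256) (nat_lit 1) (nat_lit 4) (nat_lit 2) (nat_lit 5) (nat_lit 2) (nat_lit 4) (nat_lit 316) (nat_lit 267) (nat_lit 197)) (XT.lf (nat_lit 0) (nat_lit 2006858617563) (nat_lit 76) (nat_lit 531842931501) (nat_lit 76) (nat_lit 511528732225) (nat_lit 1) (nat_lit 4) (nat_lit 2) (nat_lit 5) (nat_lit 2) (nat_lit 4) (nat_lit 317) (nat_lit 267) (nat_lit 196))))) (XT.nd (nat_lit 156) (nat_lit 0) (nat_lit 0) (XT.nd (nat_lit 78) (nat_lit 0) (nat_lit 0) (XT.lf (nat_lit 0) (nat_lit 2358048083579) (nat_lit 76) (nat_lit 583151342171) (nat_lit 76) (nat_lit 562837012978) (nat_lit 1) (nat_lit 4) (nat_lit 2)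 (nat_lit 5) (nat_lit 2) (nat_lit 4) (nat_lit 318) (nat_lit 267) (nat_lit 195)) (XT.lf (nat_lit 0) (nat_lit 2761915369829) (nat_lit 76) (nat_lit 642156318345) (nat_lit 76) (nat_lit 621841876180) (nat_lit 1) (nat_lit 4) (nat_lit 2) (nat_lit 5) (nat_lit 2) (nat_lit 4) (nat_lit 319) (nat_lit 267) (nat_lit 194))) (XT.nd (nat_lit 78) (nat_lit 0) (nat_lit 0) (XT.lf (nat_lit 0) (nat_lit 3226362227566) (nat_lit 76) (nat_lit 710012305209) (nat_lit 76) (nat_lit 689697764808) (nat_lit 1) (nat_lit 4) (nat_lit 2) (nat_lit 5) (nat_lit 2) (nat_lit 4) (nat_lit 320) (nat_lit 267) (nat_lit 193)) (XT.nd (nat_lit 78) (nat_lit 0) (nat_lit 0) (XT.lf (nat_lit 0) (nat_lit 3760475660529) (nat_lit 76) (nat_lit 788046919898) (nat_lit 76) (nat_lit 767732294074) (nat_lit 1) (nat_lit 4) (nat_lit 2) (nat_lit 5) (nat_lit 2) (nat_lit 4) (nat_lit 321) (nat_lit 267) (nat_lit 192)) (XT.lf (nat_lit 0) (nat_lit 4374705714144)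 (nat_lit 76) (nat_lit 877786926611) (nat_lit 76) (nat_lit 857472226506) (nat_lit 1) (nat_lit 4) (nat_lit 2) (nat_lit 5) (nat_lit 2) (nat_lit 4) (nat_lit 322) (nat_lit 267) (nat_lit 191))))))))
noncomputable def xc64 : XT := (XT.nd (nat_lit 36348) (nat_lit 0) (nat_lit 608) (XT.nd (nat_lit 702) (nat_lit 0) (nat_lit 0) (XT.nd (nat_lit 312) (nat_lit 0) (nat_lit 0) (XT.nd (nat_lit 156) (nat_lit 0) (nat_lit 0) (XT.nd (nat_lit 78) (nat_lit 0) (nat_lit 0) (XT.lf (nat_lit 0) (nat_lit 5081069932940) (nat_lit 76) (nat_lit 980988108089) (nat_lit 76) (nat_lit 960673343393) (nat_lit 1) (nat_lit 4) (nat_lit 2) (nat_lit 5) (nat_lit 2) (nat_lit 4) (nat_lit 323) (nat_lit 267) (nat_lit 190)) (XT.lf (nat_lit 0) (nat_lit 5893388486414) (nat_lit 76) (nat_lit 1099669617884) (nat_lit 76) (nat_lit 1079354797020) (nat_lit 1) (nat_lit 4) (nat_lit 2) (nat_lit 5) (nat_lit 2) (nat_lit 4) (nat_lit 324) (nat_lit 267)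 (nat_lit 189))) (XT.nd (nat_lit 78) (nat_lit 0) (nat_lit 0) (XT.lf (nat_lit 0) (nat_lit 6827554563656) (nat_lit 76) (nat_lit 1236153485533) (nat_lit 76) (nat_lit 1215838615828) (nat_lit 1) (nat_lit 4) (nat_lit 2) (nat_lit 5) (nat_lit 2) (nat_lit 4) (nat_lit 325) (nat_lit 267) (nat_lit 188)) (XT.lf (nat_lit 0) (nat_lit 7901845327047) (nat_lit 76) (nat_lit 1393110047578) (nat_lit 76) (nat_lit 1372795135403) (nat_lit 1) (nat_lit 4) (nat_lit 2) (nat_lit 5) (nat_lit 2) (nat_lit 4) (nat_lit 326) (nat_lit 267) (nat_lit 187)))) (XT.nd (nat_lit 156) (nat_lit 0) (nat_lit 0) (XT.nd (nat_lit 78) (nat_lit 0) (nat_lit 0) (XT.lf (nat_lit 0) (nat_lit 9137279508914) (nat_lit 76) (nat_lit 1573610193276) (nat_lit 76) (nat_lit 1553295244171) (nat_lit 1) (nat_lit 4) (nat_lit 2) (nat_lit 5) (nat_lit 2) (nat_lit 4) (nat_lit 327) (nat_lit 267) (nat_lit 186)) (XT.lf (nat_lit 0) (nat_lit 10558028647598) (nat_lit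 76) (nat_lit 1781185447218) (nat_lit 76) (nat_lit 1760870465999) (nat_lit 1) (nat_lit 4) (nat_lit 2) (nat_lit 5) (nat_lit 2) (nat_lit 4) (nat_lit 328) (nat_lit 267) (nat_lit 185))) (XT.nd (nat_lit 78) (nat_lit 0) (nat_lit 0) (XT.lf (nat_lit 0) (nat_lit 12191890008855) (nat_lit 76) (nat_lit 2019897064371) (nat_lit 76) (nat_lit 1999582055227) (nat_lit 1) (nat_lit 4) (nat_lit 2) (nat_lit 5) (nat_lit 2) (nat_lit 4) (nat_lit 329) (nat_lit 267) (nat_lit 184)) (XT.nd (nat_lit 78) (nat_lit 0) (nat_lit 0) (XT.lf (nat_lit 0) (nat_lit 14070830445407) (nat_lit 76) (nat_lit 2294415489419) (nat_lit 76) (nat_lit 2274100455993) (nat_lit 1) (nat_lit 4) (nat_lit 2) (nat_lit 5) (nat_lit 2) (nat_lit 4) (nat_lit 330) (nat_lit 267) (nat_lit 183)) (XT.lf (nat_lit 0) (nat_lit 16231611835360) (nat_lit 76) (nat_lit 2610111735027) (nat_lit 76) (nat_lit 2589796680485) (nat_lit 1) (nat_lit 4) (nat_lit 2) (nat_lit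 5) (nat_lit 2) (nat_lit 4) (nat_lit 331) (nat_lit 267) (nat_lit 182)))))) (XT.nd (nat_lit 312) (nat_lit 0) (nat_lit 0) (XT.nd (nat_lit 156) (nat_lit 0) (nat_lit 0) (XT.nd (nat_lit 78) (nat_lit 0) (nat_lit 0) (XT.lf (nat_lit 0) (nat_lit 18716510336342) (nat_lit 76) (nat_lit 2973162466868) (nat_lit 76) (nat_lit 2952847393965) (nat_lit 1) (nat_lit 4) (nat_lit 2) (nat_lit 5) (nat_lit 2) (nat_lit 4) (nat_lit 332) (nat_lit 267) (nat_lit 181)) (XT.lf (nat_lit 0) (nat_lit 21574143527721) (nat_lit 76) (nat_lit 3390670851436) (nat_lit 76) (nat_lit 3370355762567) (nat_lit 1) (nat_lit 4) (nat_lit 2) (nat_lit 5) (nat_lit 2) (nat_lit 4) (nat_lit 333) (nat_lit 267) (nat_lit 180))) (XT.nd (nat_lit 78) (nat_lit 0) (nat_lit 0) (XT.lf (nat_lit 0) (nat_lit 24860421624112) (nat_lit 76) (nat_lit 3870805531036) (nat_lit 76) (nat_lit 3850490428284) (nat_lit 1) (nat_lit 4) (nat_lit 2) (nat_lit 5) (nat_lit 2)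 (nat_lit 4) (nat_lit 334) (nat_lit 267) (nat_lit 179)) (XT.lf (nat_lit 0) (nat_lit 28639641370877) (nat_lit 76) (nat_lit 4422960445054) (nat_lit 76) (nat_lit 4402645330229) (nat_lit 1) (nat_lit 4) (nat_lit 2) (nat_lit 5) (nat_lit 2) (nat_lit 4) (nat_lit 335) (nat_lit 267) (nat_lit 178)))) (XT.nd (nat_lit 156) (nat_lit 0) (nat_lit 0) (XT.nd (nat_lit 78) (nat_lit 0) (nat_lit 0) (XT.lf (nat_lit 0) (nat_lit 32985744023933) (nat_lit 76) (nat_lit 5057938624415) (nat_lit 76) (nat_lit 5037623499092) (nat_lit 1) (nat_lit 4) (nat_lit 2) (nat_lit 5) (nat_lit 2) (nat_lit 4) (nat_lit 336) (nat_lit 267) (nat_lit 177)) (XT.lf (nat_lit 0) (nat_lit 37983762026491) (nat_lit 76) (nat_lit 5788163555237) (nat_lit 76) (nat_lit 5767848420785) (nat_lit 1) (nat_lit 4) (nat_lit 2) (nat_lit 5) (nat_lit 2) (nat_lit 4) (nat_lit 337) (nat_lit 267) (nat_lit 176))) (XT.nd (nat_lit 78) (nat_lit 0) (nat_lit 0) (XT.lf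 (nat_lit 0) (nat_lit 43731482687297) (nat_lit 76) (nat_lit 6627922247036) (nat_lit 76) (nat_lit 6607607104646) (nat_lit 1) (nat_lit 4) (nat_lit 2) (nat_lit 5) (nat_lit 2) (nat_lit 4) (nat_lit 338) (nat_lit 267) (nat_lit 175)) (XT.nd (nat_lit 78) (nat_lit 0) (nat_lit 0) (XT.lf (nat_lit 0) (nat_lit 50341361410584) (nat_lit 76) (nat_lit 7593644761173) (nat_lit 76) (nat_lit 7573329611881) (nat_lit 1) (nat_lit 4) (nat_lit 2) (nat_lit 5) (nat_lit 2) (nat_lit 4) (nat_lit 339) (nat_lit 267) (nat_lit 174)) (XT.lf (nat_lit 0) (nat_lit 57942721910503) (nat_lit 76) (nat_lit 8704225668578) (nat_lit 76) (nat_lit 8683910513283) (nat_lit 1) (nat_lit 4) (nat_lit 2) (nat_lit 5) (nat_lit 2) (nat_lit 4) (nat_lit 340) (nat_lit 267) (nat_lit 173))))))) (XT.nd (nat_lit 702) (nat_lit 532) (nat_lit 0) (XT.nd (nat_lit 312) (nat_lit 304) (nat_lit 0) (XT.nd (nat_lit 156) (nat_lit 0) (nat_lit 76) (XT.nd (nat_lit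 78) (nat_lit 380) (nat_lit 0) (XT.lf (nat_lit 0) (nat_lit 3157652993) (nat_lit 0) (nat_lit 3157652993) (nat_lit 228) (nat_lit 58857594) (nat_lit 25) (nat_lit 5) (nat_lit 25) (nat_lit 3) (nat_lit 28) (nat_lit 3) (nat_lit 268) (nat_lit 268) (nat_lit 244)) (XT.lf (nat_lit 0) (nat_lit 265850301) (nat_lit 380) (nat_lit 526299935) (nat_lit 380) (nat_lit 12854244265) (nat_lit 20) (nat_lit 3) (nat_lit 25) (nat_lit 3) (nat_lit 25) (nat_lit 5) (nat_lit 269) (nat_lit 268) (nat_lit 243))) (XT.nd (nat_lit 78) (nat_lit 0) (nat_lit 0) (XT.lf (nat_lit 0) (nat_lit 1154967904) (nat_lit 304) (nat_lit 8061835909) (nat_lit 380) (nat_lit 5392814993) (nat_lit 21) (nat_lit 5) (nat_lit 25) (nat_lit 5) (nat_lit 26) (nat_lit 5) (nat_lit 270) (nat_lit 268) (nat_lit 242)) (XT.lf (nat_lit 0) (nat_lit 2184397092) (nat_lit 304) (nat_lit 1057795645) (nat_lit 380) (nat_lit 12474351605) (nat_lit 21) (nat_lit 5) (nat_lit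 25) (nat_lit 5) (nat_lit 26) (nat_lit 5) (nat_lit 271) (nat_lit 268) (nat_lit 241)))) (XT.nd (nat_lit 156) (nat_lit 456) (nat_lit 0) (XT.nd (nat_lit 78) (nat_lit 0) (nat_lit 0) (XT.lf (nat_lit 0) (nat_lit 3798306046) (nat_lit 304) (nat_lit 9480711047) (nat_lit 76) (nat_lit 3646207176) (nat_lit 22) (nat_lit 5) (nat_lit 26) (nat_lit 5) (nat_lit 23) (nat_lit 5) (nat_lit 272) (nat_lit 268) (nat_lit 240)) (XT.lf (nat_lit 0) (nat_lit 5820208830) (nat_lit 304) (nat_lit 1169966988) (nat_lit 76) (nat_lit 11300340215) (nat_lit 22) (nat_lit 5) (nat_lit 26) (nat_lit 5) (nat_lit 23) (nat_lit 5) (nat_lit 273) (nat_lit 268) (nat_lit 239))) (XT.nd (nat_lit 78) (nat_lit 152) (nat_lit 0) (XT.lf (nat_lit 0) (nat_lit 8512486951) (nat_lit 380) (nat_lit 10675856398) (nat_lit 76) (nat_lit 617365139) (nat_lit 18) (nat_lit 5) (nat_lit 23) (nat_lit 5) (nat_lit 19) (nat_lit 5) (nat_lit 274) (nat_lit 268) (nat_lit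 238)) (XT.nd (nat_lit 78) (nat_lit 152) (nat_lit 0) (XT.lf (nat_lit 0) (nat_lit 11968733316) (nat_lit 380) (nat_lit 813288125) (nat_lit 76) (nat_lit 8712287573) (nat_lit 18) (nat_lit 5) (nat_lit 23) (nat_lit 5) (nat_lit 19) (nat_lit 5) (nat_lit 275) (nat_lit 268) (nat_lit 237)) (XT.lf (nat_lit 0) (nat_lit 11514995555) (nat_lit 152) (nat_lit 4873225004) (nat_lit 228) (nat_lit 6981387328) (nat_lit 16) (nat_lit 5) (nat_lit 18) (nat_lit 5) (nat_lit 19) (nat_lit 5) (nat_lit 276) (nat_lit 268) (nat_lit 236)))))) (XT.nd (nat_lit 312) (nat_lit 228) (nat_lit 0) (XT.nd (nat_lit 156) (nat_lit 152) (nat_lit 0) (XT.nd (nat_lit 78) (nat_lit 76) (nat_lit 0) (XT.lf (nat_lit 0) (nat_lit 50502817) (nat_lit 76) (nat_lit 21611891081) (nat_lit 152) (nat_lit 3835155289) (nat_lit 15) (nat_lit 5) (nat_lit 16) (nat_lit 5) (nat_lit 17) (nat_lit 4) (nat_lit 277) (nat_lit 268) (nat_lit 235)) (XT.lf (nat_lit 0)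 (nat_lit 654729905) (nat_lit 152) (nat_lit 13072907381) (nat_lit 76) (nat_lit 14090616795) (nat_lit 14) (nat_lit 5) (nat_lit 16) (nat_lit 5) (nat_lit 15) (nat_lit 5) (nat_lit 278) (nat_lit 268) (nat_lit 234))) (XT.nd (nat_lit 78) (nat_lit 0) (nat_lit 0) (XT.lf (nat_lit 0) (nat_lit 1029627906) (nat_lit 152) (nat_lit 4413380472) (nat_lit 228) (nat_lit 25014102435) (nat_lit 12) (nat_lit 5) (nat_lit 14) (nat_lit 5) (nat_lit 15) (nat_lit 5) (nat_lit 279) (nat_lit 268) (nat_lit 233)) (XT.lf (nat_lit 0) (nat_lit 11902463893) (nat_lit 228) (nat_lit 15004015425) (nat_lit 76) (nat_lit 6442440510) (nat_lit 12) (nat_lit 5) (nat_lit 15) (nat_lit 5) (nat_lit 13) (nat_lit 4) (nat_lit 280) (nat_lit 268) (nat_lit 232)))) (XT.nd (nat_lit 156) (nat_lit 152) (nat_lit 0) (XT.nd (nat_lit 78) (nat_lit 0) (nat_lit 0) (XT.lf (nat_lit 0) (nat_lit 1470551895) (nat_lit 76) (nat_lit 18110687575) (nat_lit 152) (nat_lit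 17055756174) (nat_lit 11) (nat_lit 5) (nat_lit 12) (nat_lit 5) (nat_lit 13) (nat_lit 4) (nat_lit 281) (nat_lit 268) (nat_lit 231)) (XT.lf (nat_lit 0) (nat_lit 22070881133) (nat_lit 76) (nat_lit 7105981711) (nat_lit 152) (nat_lit 11126713709) (nat_lit 11) (nat_lit 5) (nat_lit 12) (nat_lit 5) (nat_lit 13) (nat_lit 4) (nat_lit 282) (nat_lit 268) (nat_lit 230))) (XT.nd (nat_lit 78) (nat_lit 76) (nat_lit 0) (XT.lf (nat_lit 0) (nat_lit 1077613644) (nat_lit 76) (nat_lit 39391425370) (nat_lit 76) (nat_lit 4012566316) (nat_lit 10) (nat_lit 4) (nat_lit 11) (nat_lit 5) (nat_lit 11) (nat_lit 4) (nat_lit 283) (nat_lit 268) (nat_lit 229)) (XT.nd (nat_lit 78) (nat_lit 0) (nat_lit 0) (XT.lf (nat_lit 0) (nat_lit 5117481605) (nat_lit 152) (nat_lit 24396170713) (nat_lit 76) (nat_lit 19548839609) (nat_lit 9) (nat_lit 5) (nat_lit 11) (nat_lit 5) (nat_lit 10) (nat_lit 4) (nat_lit 284) (nat_lit 268) (nat_lit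 228)) (XT.lf (nat_lit 0) (nat_lit 15191502869) (nat_lit 152) (nat_lit 2754326830) (nat_lit 76) (nat_lit 36358256845) (nat_lit 9) (nat_lit 5) (nat_lit 11) (nat_lit 5) (nat_lit 10) (nat_lit 4) (nat_lit 285) (nat_lit 268) (nat_lit 227))))))))
noncomputable def xc65 : XT := (XT.nd (nat_lit 1404) (nat_lit 76) (nat_lit 0) (XT.nd (nat_lit 702) (nat_lit 152) (nat_lit 0) (XT.nd (nat_lit 312) (nat_lit 228) (nat_lit 0) (XT.nd (nat_lit 156) (nat_lit 76) (nat_lit 0) (XT.nd (nat_lit 78) (nat_lit 0) (nat_lit 0) (XT.lf (nat_lit 0) (nat_lit 24271978528) (nat_lit 76) (nat_lit 3496896635) (nat_lit 152) (nat_lit 32414232099) (nat_lit 8) (nat_lit 5) (nat_lit 9) (nat_lit 5) (nat_lit 10) (nat_lit 4) (nat_lit 286) (nat_lit 268) (nat_lit 226)) (XT.lf (nat_lit 0) (nat_lit 42914503473) (nat_lit 152) (nat_lit 11833778642) (nat_lit 0) (nat_lit 12093472389) (nat_lit 8) (nat_lit 5) (nat_lit 10) (nat_lit 4) (nat_lit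 8) (nat_lit 4) (nat_lit 287) (nat_lit 268) (nat_lit 225))) (XT.nd (nat_lit 78) (nat_lit 0) (nat_lit 0) (XT.lf (nat_lit 0) (nat_lit 17199842192) (nat_lit 76) (nat_lit 44000055067) (nat_lit 76) (nat_lit 13169131602) (nat_lit 7) (nat_lit 4) (nat_lit 8) (nat_lit 5) (nat_lit 8) (nat_lit 4) (nat_lit 288) (nat_lit 268) (nat_lit 224)) (XT.lf (nat_lit 0) (nat_lit 51899311627) (nat_lit 76) (nat_lit 30937182505) (nat_lit 76) (nat_lit 97656971) (nat_lit 7) (nat_lit 4) (nat_lit 8) (nat_lit 5) (nat_lit 8) (nat_lit 4) (nat_lit 289) (nat_lit 268) (nat_lit 223)))) (XT.nd (nat_lit 156) (nat_lit 76) (nat_lit 0) (XT.nd (nat_lit 78) (nat_lit 76) (nat_lit 0) (XT.lf (nat_lit 0) (nat_lit 13595667696) (nat_lit 152) (nat_lit 1616320047) (nat_lit 76) (nat_lit 77480699086) (nat_lit 6) (nat_lit 5) (nat_lit 8) (nat_lit 5) (nat_lit 7) (nat_lit 4) (nat_lit 290) (nat_lit 268) (nat_lit 222)) (XT.lf (nat_lit 0) (nat_lit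 30976853726) (nat_lit 152) (nat_lit 68543168320) (nat_lit 0) (nat_lit 4147714599) (nat_lit 5) (nat_lit 5) (nat_lit 7) (nat_lit 4) (nat_lit 5) (nat_lit 4) (nat_lit 291) (nat_lit 268) (nat_lit 221))) (XT.nd (nat_lit 78) (nat_lit 76) (nat_lit 0) (XT.lf (nat_lit 0) (nat_lit 51770190371) (nat_lit 152) (nat_lit 39461983728) (nat_lit 0) (nat_lit 24936132983) (nat_lit 5) (nat_lit 5) (nat_lit 7) (nat_lit 4) (nat_lit 5) (nat_lit 4) (nat_lit 292) (nat_lit 268) (nat_lit 220)) (XT.nd (nat_lit 78) (nat_lit 76) (nat_lit 0) (XT.lf (nat_lit 0) (nat_lit 75675640188) (nat_lit 152) (nat_lit 6032057818) (nat_lit 0) (nat_lit 48837306051) (nat_lit 5) (nat_lit 5) (nat_lit 7) (nat_lit 4) (nat_lit 5) (nat_lit 4) (nat_lit 293) (nat_lit 268) (nat_lit 219)) (XT.lf (nat_lit 0) (nat_lit 35567102604) (nat_lit 76) (nat_lit 69066573767) (nat_lit 76) (nat_lit 42224520718) (nat_lit 4) (nat_lit 4) (nat_lit 5) (nat_lit 5)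 (nat_lit 5) (nat_lit 4) (nat_lit 294) (nat_lit 268) (nat_lit 218)))))) (XT.nd (nat_lit 312) (nat_lit 0) (nat_lit 0) (XT.nd (nat_lit 156) (nat_lit 152) (nat_lit 0) (XT.nd (nat_lit 78) (nat_lit 0) (nat_lit 0) (XT.lf (nat_lit 0) (nat_lit 84072905415) (nat_lit 76) (nat_lit 54172155063) (nat_lit 76) (nat_lit 27326868177) (nat_lit 4) (nat_lit 4) (nat_lit 5) (nat_lit 5) (nat_lit 5) (nat_lit 4) (nat_lit 295) (nat_lit 268) (nat_lit 217)) (XT.lf (nat_lit 0) (nat_lit 139844880632) (nat_lit 76) (nat_lit 37048341466) (nat_lit 76) (nat_lit 10200242548) (nat_lit 4) (nat_lit 4) (nat_lit 5) (nat_lit 5) (nat_lit 5) (nat_lit 4) (nat_lit 296) (nat_lit 268) (nat_lit 216))) (XT.nd (nat_lit 78) (nat_lit 76) (nat_lit 0) (XT.lf (nat_lit 0) (nat_lit 8645537517) (nat_lit 152) (nat_lit 8262638500) (nat_lit 76) (nat_lit 194876755733) (nat_lit 3) (nat_lit 5) (nat_lit 5) (nat_lit 5) (nat_lit 4) (nat_lit 4) (nat_lit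 297) (nat_lit 268) (nat_lit 215)) (XT.lf (nat_lit 0) (nat_lit 31269849449) (nat_lit 152) (nat_lit 200618316466) (nat_lit 0) (nat_lit 7919701220) (nat_lit 2) (nat_lit 5) (nat_lit 4) (nat_lit 4) (nat_lit 2) (nat_lit 4) (nat_lit 298) (nat_lit 268) (nat_lit 214)))) (XT.nd (nat_lit 156) (nat_lit 0) (nat_lit 0) (XT.nd (nat_lit 78) (nat_lit 0) (nat_lit 0) (XT.lf (nat_lit 0) (nat_lit 58541581370) (nat_lit 152) (nat_lit 178114773088) (nat_lit 0) (nat_lit 35189825353) (nat_lit 2) (nat_lit 5) (nat_lit 4) (nat_lit 4) (nat_lit 2) (nat_lit 4) (nat_lit 299) (nat_lit 268) (nat_lit 213)) (XT.lf (nat_lit 0) (nat_lit 89900720154) (nat_lit 152) (nat_lit 152242458683) (nat_lit 0) (nat_lit 66547566060) (nat_lit 2) (nat_lit 5) (nat_lit 4) (nat_lit 4) (nat_lit 2) (nat_lit 4) (nat_lit 300) (nat_lit 268) (nat_lit 212))) (XT.nd (nat_lit 78) (nat_lit 0) (nat_lit 0) (XT.lf (nat_lit 0) (nat_lit 125960814170) (nat_lit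 152) (nat_lit 122495175798) (nat_lit 0) (nat_lit 102606444357) (nat_lit 2) (nat_lit 5) (nat_lit 4) (nat_lit 4) (nat_lit 2) (nat_lit 4) (nat_lit 301) (nat_lit 268) (nat_lit 211)) (XT.nd (nat_lit 78) (nat_lit 0) (nat_lit 0) (XT.lf (nat_lit 0) (nat_lit 167427386996) (nat_lit 152) (nat_lit 88290912374) (nat_lit 0) (nat_lit 144071960036) (nat_lit 2) (nat_lit 5) (nat_lit 4) (nat_lit 4) (nat_lit 2) (nat_lit 4) (nat_lit 302) (nat_lit 268) (nat_lit 210)) (XT.lf (nat_lit 0) (nat_lit 215111741144) (nat_lit 152) (nat_lit 48960454563) (nat_lit 0) (nat_lit 191755394925) (nat_lit 2) (nat_lit 5) (nat_lit 4) (nat_lit 4) (nat_lit 2) (nat_lit 4) (nat_lit 303) (nat_lit 268) (nat_lit 209))))))) (XT.nd (nat_lit 702) (nat_lit 0) (nat_lit 0) (XT.nd (nat_lit 312) (nat_lit 0) (nat_lit 0) (XT.nd (nat_lit 156) (nat_lit 0) (nat_lit 0) (XT.nd (nat_lit 78) (nat_lit 76) (nat_lit 0) (XT.lf (nat_lit 0) (nat_lit 269946831368)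 (nat_lit 152) (nat_lit 3734293407) (nat_lit 0) (nat_lit 246589685795) (nat_lit 2) (nat_lit 5) (nat_lit 4) (nat_lit 4) (nat_lit 2) (nat_lit 4) (nat_lit 304) (nat_lit 268) (nat_lit 208)) (XT.lf (nat_lit 0) (nat_lit 52989963775) (nat_lit 76) (nat_lit 282209755754) (nat_lit 76) (nat_lit 258851915089) (nat_lit 1) (nat_lit 4) (nat_lit 2) (nat_lit 5) (nat_lit 2) (nat_lit 4) (nat_lit 305) (nat_lit 268) (nat_lit 207))) (XT.nd (nat_lit 78) (nat_lit 0) (nat_lit 0) (XT.lf (nat_lit 0) (nat_lit 118639334817) (nat_lit 76) (nat_lit 291794825383) (nat_lit 76) (nat_lit 268436380292) (nat_lit 1) (nat_lit 4) (nat_lit 2) (nat_lit 5) (nat_lit 2) (nat_lit 4) (nat_lit 306) (nat_lit 268) (nat_lit 206)) (XT.lf (nat_lit 0) (nat_lit 194133321626) (nat_lit 76) (nat_lit 302819069336) (nat_lit 76) (nat_lit 279460098656) (nat_lit 1) (nat_lit 4) (nat_lit 2) (nat_lit 5) (nat_lit 2) (nat_lit 4) (nat_lit 307) (nat_lit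 268) (nat_lit 205)))) (XT.nd (nat_lit 156) (nat_lit 0) (nat_lit 0) (XT.nd (nat_lit 78) (nat_lit 0) (nat_lit 0) (XT.lf (nat_lit 0) (nat_lit 280948980463) (nat_lit 76) (nat_lit 315498179342) (nat_lit 76) (nat_lit 292138751627) (nat_lit 1) (nat_lit 4) (nat_lit 2) (nat_lit 5) (nat_lit 2) (nat_lit 4) (nat_lit 308) (nat_lit 268) (nat_lit 204)) (XT.lf (nat_lit 0) (nat_lit 380784878568) (nat_lit 76) (nat_lit 330080224944) (nat_lit 76) (nat_lit 306720399809) (nat_lit 1) (nat_lit 4) (nat_lit 2) (nat_lit 5) (nat_lit 2) (nat_lit 4) (nat_lit 309) (nat_lit 268) (nat_lit 203))) (XT.nd (nat_lit 78) (nat_lit 0) (nat_lit 0) (XT.lf (nat_lit 0) (nat_lit 495594326991) (nat_lit 76) (nat_lit 346850507034) (nat_lit 76) (nat_lit 323490336316) (nat_lit 1) (nat_lit 4) (nat_lit 2) (nat_lit 5) (nat_lit 2) (nat_lit 4) (nat_lit 310) (nat_lit 268) (nat_lit 202)) (XT.nd (nat_lit 78) (nat_lit 0) (nat_lit 0) (XT.lf (nat_lit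 0) (nat_lit 627623597548) (nat_lit 76) (nat_lit 366137139828) (nat_lit 76) (nat_lit 342776668602) (nat_lit 1) (nat_lit 4) (nat_lit 2) (nat_lit 5) (nat_lit 2) (nat_lit 4) (nat_lit 311) (nat_lit 268) (nat_lit 201)) (XT.lf (nat_lit 0) (nat_lit 779455871620) (nat_lit 76) (nat_lit 388317470488) (nat_lit 76) (nat_lit 364956737952) (nat_lit 1) (nat_lit 4) (nat_lit 2) (nat_lit 5) (nat_lit 2) (nat_lit 4) (nat_lit 312) (nat_lit 268) (nat_lit 200)))))) (XT.nd (nat_lit 390) (nat_lit 0) (nat_lit 0) (XT.nd (nat_lit 156) (nat_lit 0) (nat_lit 0) (XT.nd (nat_lit 78) (nat_lit 0) (nat_lit 0) (XT.lf (nat_lit 0) (nat_lit 954061780656) (nat_lit 76) (nat_lit 413825462006) (nat_lit 76) (nat_lit 390464502244) (nat_lit 1) (nat_lit 4) (nat_lit 2) (nat_lit 5) (nat_lit 2) (nat_lit 4) (nat_lit 313) (nat_lit 268) (nat_lit 199)) (XT.lf (nat_lit 0) (nat_lit 1154857527225) (nat_lit 76) (nat_lit 443160183782) (nat_lit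 76) (nat_lit 419799026431) (nat_lit 1) (nat_lit 4) (nat_lit 2) (nat_lit 5) (nat_lit 2) (nat_lit 4) (nat_lit 314) (nat_lit 268) (nat_lit 198))) (XT.nd (nat_lit 78) (nat_lit 0) (nat_lit 0) (XT.lf (nat_lit 0) (nat_lit 1385771723758) (nat_lit 76) (nat_lit 476895576023) (nat_lit 76) (nat_lit 453534246856) (nat_lit 1) (nat_lit 4) (nat_lit 2) (nat_lit 5) (nat_lit 2) (nat_lit 4) (nat_lit 315) (nat_lit 268) (nat_lit 197)) (XT.nd (nat_lit 78) (nat_lit 0) (nat_lit 0) (XT.lf (nat_lit 0) (nat_lit 1651322256711) (nat_lit 76) (nat_lit 515691679013) (nat_lit 76) (nat_lit 492330200441) (nat_lit 1) (nat_lit 4) (nat_lit 2) (nat_lit 5) (nat_lit 2) (nat_lit 4) (nat_lit 316) (nat_lit 268) (nat_lit 196)) (XT.lf (nat_lit 0) (nat_lit 1956704679988) (nat_lit 76) (nat_lit 560307546941) (nat_lit 76) (nat_lit 536945938451) (nat_lit 1) (nat_lit 4) (nat_lit 2) (nat_lit 5) (nat_lit 2) (nat_lit 4) (nat_lit 317) (nat_lit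 268) (nat_lit 195))))) (XT.nd (nat_lit 156) (nat_lit 0) (nat_lit 0) (XT.nd (nat_lit 78) (nat_lit 0) (nat_lit 0) (XT.lf (nat_lit 0) (nat_lit 2307893867088) (nat_lit 76) (nat_lit 611616098961) (nat_lit 76) (nat_lit 588254377500) (nat_lit 1) (nat_lit 4) (nat_lit 2) (nat_lit 5) (nat_lit 2) (nat_lit 4) (nat_lit 318) (nat_lit 268) (nat_lit 194)) (XT.lf (nat_lit 0) (nat_lit 2711760910803) (nat_lit 76) (nat_lit 670621198049) (nat_lit 76) (nat_lit 647259378351) (nat_lit 1) (nat_lit 4) (nat_lit 2) (nat_lit 5) (nat_lit 2) (nat_lit 4) (nat_lit 319) (nat_lit 268) (nat_lit 193))) (XT.nd (nat_lit 78) (nat_lit 0) (nat_lit 0) (XT.lf (nat_lit 0) (nat_lit 3176207557640) (nat_lit 76) (nat_lit 738477291794) (nat_lit 76) (nat_lit 715115386674) (nat_lit 1) (nat_lit 4) (nat_lit 2) (nat_lit 5) (nat_lit 2) (nat_lit 4) (nat_lit 320) (nat_lit 268) (nat_lit 192)) (XT.nd (nat_lit 78) (nat_lit 0) (nat_lit 0) (XT.lf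 (nat_lit 0) (nat_lit 3710320807212) (nat_lit 76) (nat_lit 816511999423) (nat_lit 76) (nat_lit 793150020022) (nat_lit 1) (nat_lit 4) (nat_lit 2) (nat_lit 5) (nat_lit 2) (nat_lit 4) (nat_lit 321) (nat_lit 268) (nat_lit 191)) (XT.lf (nat_lit 0) (nat_lit 4324550701356) (nat_lit 76) (nat_lit 906252086954) (nat_lit 76) (nat_lit 882890042961) (nat_lit 1) (nat_lit 4) (nat_lit 2) (nat_lit 5) (nat_lit 2) (nat_lit 4) (nat_lit 322) (nat_lit 268) (nat_lit 190))))))))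
noncomputable def xc66 : XT := (XT.nd (nat_lit 36426) (nat_lit 0) (nat_lit 532) (XT.nd (nat_lit 702) (nat_lit 0) (nat_lit 0) (XT.nd (nat_lit 312) (nat_lit 0) (nat_lit 0) (XT.nd (nat_lit 156) (nat_lit 0) (nat_lit 0) (XT.nd (nat_lit 78) (nat_lit 0) (nat_lit 0) (XT.lf (nat_lit 0) (nat_lit 5030914781482) (nat_lit 76) (nat_lit 1009453338709) (nat_lit 76) (nat_lit 986091238549) (nat_lit 1) (nat_lit 4) (nat_lit 2) (nat_lit 5) (nat_lit 2) (nat_lit 4) (nat_lit 323) (nat_lit 268) (nat_lit 189)) (XT.lf (nat_lit 0) (nat_lit 5843233214373) (nat_lit 76) (nat_lit 1128134909613) (nat_lit 76) (nat_lit 1104772760612) (nat_lit 1) (nat_lit 4) (nat_lit 2) (nat_lit 5) (nat_lit 2) (nat_lit 4) (nat_lit 324) (nat_lit 268) (nat_lit 188))) (XT.nd (nat_lit 78) (nat_lit 0) (nat_lit 0) (XT.lf (nat_lit 0) (nat_lit 6777399186760) (nat_lit 76) (nat_lit 1264618830401) (nat_lit 76) (nat_lit 1241256638929) (nat_lit 1)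 (nat_lit 4) (nat_lit 2) (nat_lit 5) (nat_lit 2) (nat_lit 4) (nat_lit 325) (nat_lit 268) (nat_lit 187)) (XT.lf (nat_lit 0) (nat_lit 7851689858973) (nat_lit 76) (nat_lit 1421575438653) (nat_lit 76) (nat_lit 1398213210252) (nat_lit 1) (nat_lit 4) (nat_lit 2) (nat_lit 5) (nat_lit 2) (nat_lit 4) (nat_lit 326) (nat_lit 268) (nat_lit 186)))) (XT.nd (nat_lit 156) (nat_lit 0) (nat_lit 0) (XT.nd (nat_lit 78) (nat_lit 0) (nat_lit 0) (XT.lf (nat_lit 0) (nat_lit 9087123961555) (nat_lit 76) (nat_lit 1602075624533) (nat_lit 76) (nat_lit 1578713364017) (nat_lit 1) (nat_lit 4) (nat_lit 2) (nat_lit 5) (nat_lit 2) (nat_lit 4) (nat_lit 327) (nat_lit 268) (nat_lit 185)) (XT.lf (nat_lit 0) (nat_lit 10507873031295) (nat_lit 76) (nat_lit 1809650913414) (nat_lit 76) (nat_lit 1786288624973) (nat_lit 1) (nat_lit 4) (nat_lit 2) (nat_lit 5) (nat_lit 2) (nat_lit 4) (nat_lit 328) (nat_lit 268) (nat_lit 184))) (XT.nd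 (nat_lit 78) (nat_lit 0) (nat_lit 0) (XT.lf (nat_lit 0) (nat_lit 12141734332602) (nat_lit 76) (nat_lit 2048362560949) (nat_lit 76) (nat_lit 2025000248227) (nat_lit 1) (nat_lit 4) (nat_lit 2) (nat_lit 5) (nat_lit 2) (nat_lit 4) (nat_lit 329) (nat_lit 268) (nat_lit 183)) (XT.nd (nat_lit 78) (nat_lit 0) (nat_lit 0) (XT.lf (nat_lit 0) (nat_lit 14020674717023) (nat_lit 76) (nat_lit 2322881012417) (nat_lit 76) (nat_lit 2299518678579) (nat_lit 1) (nat_lit 4) (nat_lit 2) (nat_lit 5) (nat_lit 2) (nat_lit 4) (nat_lit 330) (nat_lit 268) (nat_lit 182)) (XT.lf (nat_lit 0) (nat_lit 16181456061644) (nat_lit 76) (nat_lit 2638577280998) (nat_lit 76) (nat_lit 2615214928799) (nat_lit 1) (nat_lit 4) (nat_lit 2) (nat_lit 5) (nat_lit 2) (nat_lit 4) (nat_lit 331) (nat_lit 268) (nat_lit 181)))))) (XT.nd (nat_lit 312) (nat_lit 0) (nat_lit 0) (XT.nd (nat_lit 156) (nat_lit 0) (nat_lit 0) (XT.nd (nat_lit 78) (nat_lit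 0) (nat_lit 0) (XT.lf (nat_lit 0) (nat_lit 18666354523207) (nat_lit 76) (nat_lit 3001628032816) (nat_lit 76) (nat_lit 2978265664651) (nat_lit 1) (nat_lit 4) (nat_lit 2) (nat_lit 5) (nat_lit 2) (nat_lit 4) (nat_lit 332) (nat_lit 268) (nat_lit 180)) (XT.lf (nat_lit 0) (nat_lit 21523987680310) (nat_lit 76) (nat_lit 3419136434755) (nat_lit 76) (nat_lit 3395774052706) (nat_lit 1) (nat_lit 4) (nat_lit 2) (nat_lit 5) (nat_lit 2) (nat_lit 4) (nat_lit 333) (nat_lit 268) (nat_lit 179))) (XT.nd (nat_lit 78) (nat_lit 0) (nat_lit 0) (XT.lf (nat_lit 0) (nat_lit 24810265746894) (nat_lit 76) (nat_lit 3899271129461) (nat_lit 76) (nat_lit 3875908735339) (nat_lit 1) (nat_lit 4) (nat_lit 2) (nat_lit 5) (nat_lit 2) (nat_lit 4) (nat_lit 334) (nat_lit 268) (nat_lit 178)) (XT.lf (nat_lit 0) (nat_lit 28589485467741) (nat_lit 76) (nat_lit 4451426056614) (nat_lit 76) (nat_lit 4428063651994) (nat_lit 1) (nat_lit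 4) (nat_lit 2) (nat_lit 5) (nat_lit 2) (nat_lit 4) (nat_lit 335) (nat_lit 268) (nat_lit 177)))) (XT.nd (nat_lit 156) (nat_lit 0) (nat_lit 0) (XT.nd (nat_lit 78) (nat_lit 0) (nat_lit 0) (XT.lf (nat_lit 0) (nat_lit 32935588098259) (nat_lit 76) (nat_lit 5086404247397) (nat_lit 76) (nat_lit 5063041833648) (nat_lit 1) (nat_lit 4) (nat_lit 2) (nat_lit 5) (nat_lit 2) (nat_lit 4) (nat_lit 336) (nat_lit 268) (nat_lit 176)) (XT.lf (nat_lit 0) (nat_lit 37933606081219) (nat_lit 76) (nat_lit 5816629188150) (nat_lit 76) (nat_lit 5793266766464) (nat_lit 1) (nat_lit 4) (nat_lit 2) (nat_lit 5) (nat_lit 2) (nat_lit 4) (nat_lit 337) (nat_lit 268) (nat_lit 175))) (XT.nd (nat_lit 78) (nat_lit 0) (nat_lit 0) (XT.lf (nat_lit 0) (nat_lit 43681326724983) (nat_lit 76) (nat_lit 6656387888586) (nat_lit 76) (nat_lit 6633025459997) (nat_lit 1) (nat_lit 4) (nat_lit 2) (nat_lit 5) (nat_lit 2) (nat_lit 4) (nat_lit 338)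 (nat_lit 268) (nat_lit 174)) (XT.nd (nat_lit 78) (nat_lit 0) (nat_lit 0) (XT.lf (nat_lit 0) (nat_lit 50291205433451) (nat_lit 76) (nat_lit 7622110410234) (nat_lit 76) (nat_lit 7598747975642) (nat_lit 1) (nat_lit 4) (nat_lit 2) (nat_lit 5) (nat_lit 2) (nat_lit 4) (nat_lit 339) (nat_lit 268) (nat_lit 173)) (XT.lf (nat_lit 0) (nat_lit 57892565920484) (nat_lit 76) (nat_lit 8732691324169) (nat_lit 76) (nat_lit 8709328884358) (nat_lit 1) (nat_lit 4) (nat_lit 2) (nat_lit 5) (nat_lit 2) (nat_lit 4) (nat_lit 340) (nat_lit 268) (nat_lit 172))))))) (XT.nd (nat_lit 702) (nat_lit 608) (nat_lit 0) (XT.nd (nat_lit 312) (nat_lit 304) (nat_lit 0) (XT.nd (nat_lit 156) (nat_lit 0) (nat_lit 76) (XT.nd (nat_lit 78) (nat_lit 0) (nat_lit 0) (XT.lf (nat_lit 0) (nat_lit 303686274) (nat_lit 380) (nat_lit 3485307821) (nat_lit 380) (nat_lit 3485307821) (nat_lit 20) (nat_lit 3) (nat_lit 25) (nat_lit 3) (nat_lit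 25) (nat_lit 5) (nat_lit 269) (nat_lit 269) (nat_lit 242)) (XT.lf (nat_lit 0) (nat_lit 941113258) (nat_lit 380) (nat_lit 238502990) (nat_lit 380) (nat_lit 14415638971) (nat_lit 20) (nat_lit 3) (nat_lit 25) (nat_lit 3) (nat_lit 25) (nat_lit 5) (nat_lit 270) (nat_lit 269) (nat_lit 241))) (XT.nd (nat_lit 78) (nat_lit 0) (nat_lit 0) (XT.lf (nat_lit 0) (nat_lit 1886235142) (nat_lit 304) (nat_lit 8824579353) (nat_lit 380) (nat_lit 6004117177) (nat_lit 21) (nat_lit 5) (nat_lit 25) (nat_lit 5) (nat_lit 26) (nat_lit 5) (nat_lit 271) (nat_lit 269) (nat_lit 240)) (XT.lf (nat_lit 0) (nat_lit 2997293223) (nat_lit 304) (nat_lit 828176346) (nat_lit 380) (nat_lit 14173660810) (nat_lit 21) (nat_lit 5) (nat_lit 25) (nat_lit 5) (nat_lit 26) (nat_lit 5) (nat_lit 272) (nat_lit 269) (nat_lit 239)))) (XT.nd (nat_lit 156) (nat_lit 456) (nat_lit 0) (XT.nd (nat_lit 78) (nat_lit 0) (nat_lit 0) (XT.lf (nat_lit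 0) (nat_lit 4802584210) (nat_lit 304) (nat_lit 10461989854) (nat_lit 76) (nat_lit 4132419112) (nat_lit 22) (nat_lit 5) (nat_lit 26) (nat_lit 5) (nat_lit 23) (nat_lit 5) (nat_lit 273) (nat_lit 269) (nat_lit 238)) (XT.lf (nat_lit 0) (nat_lit 7071094292) (nat_lit 304) (nat_lit 962133471) (nat_lit 76) (nat_lit 12942591995) (nat_lit 22) (nat_lit 5) (nat_lit 26) (nat_lit 5) (nat_lit 23) (nat_lit 5) (nat_lit 274) (nat_lit 269) (nat_lit 237))) (XT.nd (nat_lit 78) (nat_lit 152) (nat_lit 0) (XT.lf (nat_lit 0) (nat_lit 10133998744) (nat_lit 380) (nat_lit 11859303461) (nat_lit 76) (nat_lit 730179300) (nat_lit 18) (nat_lit 5) (nat_lit 23) (nat_lit 5) (nat_lit 19) (nat_lit 5) (nat_lit 275) (nat_lit 269) (nat_lit 236)) (XT.nd (nat_lit 78) (nat_lit 152) (nat_lit 0) (XT.lf (nat_lit 0) (nat_lit 14063729183) (nat_lit 380) (nat_lit 571862739) (nat_lit 76) (nat_lit 10036704091) (nat_lit 18) (nat_lit 5) (nat_lit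 23) (nat_lit 5) (nat_lit 19) (nat_lit 5) (nat_lit 276) (nat_lit 269) (nat_lit 235)) (XT.lf (nat_lit 0) (nat_lit 13589144467) (nat_lit 152) (nat_lit 5532269957) (nat_lit 228) (nat_lit 7711341423) (nat_lit 16) (nat_lit 5) (nat_lit 18) (nat_lit 5) (nat_lit 19) (nat_lit 5) (nat_lit 277) (nat_lit 269) (nat_lit 234)))))) (XT.nd (nat_lit 390) (nat_lit 228) (nat_lit 0) (XT.nd (nat_lit 156) (nat_lit 228) (nat_lit 0) (XT.nd (nat_lit 78) (nat_lit 76) (nat_lit 0) (XT.lf (nat_lit 0) (nat_lit 426737029) (nat_lit 76) (nat_lit 24741967948) (nat_lit 152) (nat_lit 4114021523) (nat_lit 15) (nat_lit 5) (nat_lit 16) (nat_lit 5) (nat_lit 17) (nat_lit 4) (nat_lit 278) (nat_lit 269) (nat_lit 233)) (XT.lf (nat_lit 0) (nat_lit 987738394) (nat_lit 152) (nat_lit 14689634557) (nat_lit 76) (nat_lit 16277709587) (nat_lit 14) (nat_lit 5) (nat_lit 16) (nat_lit 5) (nat_lit 15) (nat_lit 5) (nat_lit 279) (nat_lit 269)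 (nat_lit 232))) (XT.nd (nat_lit 78) (nat_lit 76) (nat_lit 0) (XT.lf (nat_lit 0) (nat_lit 1512635163) (nat_lit 152) (nat_lit 4964602614) (nat_lit 228) (nat_lit 28515173106) (nat_lit 12) (nat_lit 5) (nat_lit 14) (nat_lit 5) (nat_lit 15) (nat_lit 5) (nat_lit 280) (nat_lit 269) (nat_lit 231)) (XT.nd (nat_lit 78) (nat_lit 76) (nat_lit 0) (XT.lf (nat_lit 0) (nat_lit 13881194790) (nat_lit 228) (nat_lit 16943972300) (nat_lit 76) (nat_lit 7496564924) (nat_lit 12) (nat_lit 5) (nat_lit 15) (nat_lit 5) (nat_lit 13) (nat_lit 4) (nat_lit 281) (nat_lit 269) (nat_lit 230)) (XT.lf (nat_lit 0) (nat_lit 1987659871) (nat_lit 76) (nat_lit 20711184267) (nat_lit 152) (nat_lit 19406184482) (nat_lit 11) (nat_lit 5) (nat_lit 12) (nat_lit 5) (nat_lit 13) (nat_lit 4) (nat_lit 282) (nat_lit 269) (nat_lit 229))))) (XT.nd (nat_lit 156) (nat_lit 152) (nat_lit 0) (XT.nd (nat_lit 78) (nat_lit 76) (nat_lit 0) (XT.lf (nat_lit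 0) (nat_lit 25639361296) (nat_lit 76) (nat_lit 8070916843) (nat_lit 152) (nat_lit 12614907619) (nat_lit 11) (nat_lit 5) (nat_lit 12) (nat_lit 5) (nat_lit 13) (nat_lit 4) (nat_lit 283) (nat_lit 269) (nat_lit 228)) (XT.lf (nat_lit 0) (nat_lit 1504232397) (nat_lit 76) (nat_lit 45186192411) (nat_lit 76) (nat_lit 4440423876) (nat_lit 10) (nat_lit 4) (nat_lit 11) (nat_lit 5) (nat_lit 11) (nat_lit 4) (nat_lit 284) (nat_lit 269) (nat_lit 227))) (XT.nd (nat_lit 78) (nat_lit 76) (nat_lit 0) (XT.lf (nat_lit 0) (nat_lit 6022959729) (nat_lit 152) (nat_lit 27811450190) (nat_lit 76) (nat_lit 22566518091) (nat_lit 9) (nat_lit 5) (nat_lit 11) (nat_lit 5) (nat_lit 10) (nat_lit 4) (nat_lit 285) (nat_lit 269) (nat_lit 226)) (XT.nd (nat_lit 78) (nat_lit 76) (nat_lit 0) (XT.lf (nat_lit 0) (nat_lit 17590102981) (nat_lit 152) (nat_lit 2955174872) (nat_lit 76) (nat_lit 41886214973) (nat_lit 9) (nat_lit 5) (nat_lit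 11) (nat_lit 5) (nat_lit 10) (nat_lit 4) (nat_lit 286) (nat_lit 269) (nat_lit 225)) (XT.lf (nat_lit 0) (nat_lit 28115426245) (nat_lit 76) (nat_lit 3931410389) (nat_lit 152) (nat_lit 37146646103) (nat_lit 8) (nat_lit 5) (nat_lit 9) (nat_lit 5) (nat_lit 10) (nat_lit 4) (nat_lit 287) (nat_lit 269) (nat_lit 224))))))))
noncomputable def xc67 : XT := (XT.nd (nat_lit 1404) (nat_lit 76) (nat_lit 0) (XT.nd (nat_lit 702) (nat_lit 152) (nat_lit 0) (XT.nd (nat_lit 312) (nat_lit 152) (nat_lit 0) (XT.nd (nat_lit 156) (nat_lit 76) (nat_lit 0) (XT.nd (nat_lit 78) (nat_lit 76) (nat_lit 0) (XT.lf (nat_lit 0) (nat_lit 49452859658) (nat_lit 152) (nat_lit 13421007190) (nat_lit 0) (nat_lit 13978803224) (nat_lit 8) (nat_lit 5) (nat_lit 10) (nat_lit 4) (nat_lit 8) (nat_lit 4) (nat_lit 288) (nat_lit 269) (nat_lit 223)) (XT.lf (nat_lit 0) (nat_lit 19959118667) (nat_lit 76) (nat_lit 50516170803) (nat_lit 76)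 (nat_lit 15034634308) (nat_lit 7) (nat_lit 4) (nat_lit 8) (nat_lit 5) (nat_lit 8) (nat_lit 4) (nat_lit 289) (nat_lit 269) (nat_lit 222))) (XT.nd (nat_lit 78) (nat_lit 76) (nat_lit 0) (XT.lf (nat_lit 0) (nat_lit 59840121542) (nat_lit 76) (nat_lit 35504809860) (nat_lit 76) (nat_lit 16768964) (nat_lit 7) (nat_lit 4) (nat_lit 8) (nat_lit 5) (nat_lit 8) (nat_lit 4) (nat_lit 290) (nat_lit 269) (nat_lit 221)) (XT.lf (nat_lit 0) (nat_lit 15710697179) (nat_lit 152) (nat_lit 1715697960) (nat_lit 76) (nat_lit 89158745326) (nat_lit 6) (nat_lit 5) (nat_lit 8) (nat_lit 5) (nat_lit 7) (nat_lit 4) (nat_lit 291) (nat_lit 269) (nat_lit 220)))) (XT.nd (nat_lit 156) (nat_lit 76) (nat_lit 0) (XT.nd (nat_lit 78) (nat_lit 0) (nat_lit 0) (XT.lf (nat_lit 0) (nat_lit 35697540653) (nat_lit 152) (nat_lit 78679968240) (nat_lit 0) (nat_lit 4829179646) (nat_lit 5) (nat_lit 5) (nat_lit 7) (nat_lit 4) (nat_lit 5) (nat_lit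 4) (nat_lit 292) (nat_lit 269) (nat_lit 219)) (XT.lf (nat_lit 0) (nat_lit 59600204899) (nat_lit 152) (nat_lit 45255476655) (nat_lit 0) (nat_lit 28728124980) (nat_lit 5) (nat_lit 5) (nat_lit 7) (nat_lit 4) (nat_lit 5) (nat_lit 4) (nat_lit 293) (nat_lit 269) (nat_lit 218))) (XT.nd (nat_lit 78) (nat_lit 76) (nat_lit 0) (XT.lf (nat_lit 0) (nat_lit 87083060974) (nat_lit 152) (nat_lit 6827471157) (nat_lit 0) (nat_lit 56207747219) (nat_lit 5) (nat_lit 5) (nat_lit 7) (nat_lit 4) (nat_lit 5) (nat_lit 4) (nat_lit 294) (nat_lit 269) (nat_lit 217)) (XT.nd (nat_lit 78) (nat_lit 0) (nat_lit 0) (XT.lf (nat_lit 0) (nat_lit 41006590812) (nat_lit 76) (nat_lit 79375221600) (nat_lit 76) (nat_lit 48497095812) (nat_lit 4) (nat_lit 4) (nat_lit 5) (nat_lit 5) (nat_lit 5) (nat_lit 4) (nat_lit 295) (nat_lit 269) (nat_lit 216)) (XT.lf (nat_lit 0) (nat_lit 96774643677) (nat_lit 76) (nat_lit 62253336381) (nat_lit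 76) (nat_lit 31372765348) (nat_lit 4) (nat_lit 4) (nat_lit 5) (nat_lit 5) (nat_lit 5) (nat_lit 4) (nat_lit 296) (nat_lit 269) (nat_lit 215)))))) (XT.nd (nat_lit 312) (nat_lit 0) (nat_lit 0) (XT.nd (nat_lit 156) (nat_lit 76) (nat_lit 0) (XT.nd (nat_lit 78) (nat_lit 76) (nat_lit 0) (XT.lf (nat_lit 0) (nat_lit 160900571379) (nat_lit 76) (nat_lit 42566773607) (nat_lit 76) (nat_lit 11684076274) (nat_lit 4) (nat_lit 4) (nat_lit 5) (nat_lit 5) (nat_lit 5) (nat_lit 4) (nat_lit 297) (nat_lit 269) (nat_lit 214)) (XT.lf (nat_lit 0) (nat_lit 9978967603) (nat_lit 152) (nat_lit 9429765942) (nat_lit 76) (nat_lit 224138416179) (nat_lit 3) (nat_lit 5) (nat_lit 5) (nat_lit 5) (nat_lit 4) (nat_lit 4) (nat_lit 298) (nat_lit 269) (nat_lit 213))) (XT.nd (nat_lit 78) (nat_lit 0) (nat_lit 0) (XT.lf (nat_lit 0) (nat_lit 35996429283) (nat_lit 152) (nat_lit 230638270850) (nat_lit 0) (nat_lit 9138903998) (nat_lit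 2) (nat_lit 5) (nat_lit 4) (nat_lit 4) (nat_lit 2) (nat_lit 4) (nat_lit 299) (nat_lit 269) (nat_lit 212)) (XT.lf (nat_lit 0) (nat_lit 67354211981) (nat_lit 152) (nat_lit 204768690715) (nat_lit 0) (nat_lit 40495470977) (nat_lit 2) (nat_lit 5) (nat_lit 4) (nat_lit 4) (nat_lit 2) (nat_lit 4) (nat_lit 300) (nat_lit 269) (nat_lit 211)))) (XT.nd (nat_lit 156) (nat_lit 0) (nat_lit 0) (XT.nd (nat_lit 78) (nat_lit 0) (nat_lit 0) (XT.lf (nat_lit 0) (nat_lit 103413126791) (nat_lit 152) (nat_lit 175023785455) (nat_lit 0) (nat_lit 76553328640) (nat_lit 2) (nat_lit 5) (nat_lit 4) (nat_lit 4) (nat_lit 2) (nat_lit 4) (nat_lit 301) (nat_lit 269) (nat_lit 210)) (XT.lf (nat_lit 0) (nat_lit 144878674221) (nat_lit 152) (nat_lit 140821589532) (nat_lit 0) (nat_lit 118017956811) (nat_lit 2) (nat_lit 5) (nat_lit 4) (nat_lit 4) (nat_lit 2) (nat_lit 4) (nat_lit 302) (nat_lit 269) (nat_lit 209))) (XT.nd (nat_lit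 78) (nat_lit 0) (nat_lit 0) (XT.lf (nat_lit 0) (nat_lit 192562136719) (nat_lit 152) (nat_lit 101492929547) (nat_lit 0) (nat_lit 165700619955) (nat_lit 2) (nat_lit 5) (nat_lit 4) (nat_lit 4) (nat_lit 2) (nat_lit 4) (nat_lit 303) (nat_lit 269) (nat_lit 208)) (XT.nd (nat_lit 78) (nat_lit 0) (nat_lit 0) (XT.lf (nat_lit 0) (nat_lit 247396451597) (nat_lit 152) (nat_lit 56268331718) (nat_lit 0) (nat_lit 220534239741) (nat_lit 2) (nat_lit 5) (nat_lit 4) (nat_lit 4) (nat_lit 2) (nat_lit 4) (nat_lit 304) (nat_lit 269) (nat_lit 207)) (XT.lf (nat_lit 0) (nat_lit 310454464144) (nat_lit 152) (nat_lit 4262966958) (nat_lit 0) (nat_lit 283591647862) (nat_lit 2) (nat_lit 5) (nat_lit 4) (nat_lit 4) (nat_lit 2) (nat_lit 4) (nat_lit 305) (nat_lit 269) (nat_lit 206))))))) (XT.nd (nat_lit 702) (nat_lit 0) (nat_lit 0) (XT.nd (nat_lit 312) (nat_lit 0) (nat_lit 0) (XT.nd (nat_lit 156) (nat_lit 0) (nat_lit 0)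 (XT.nd (nat_lit 78) (nat_lit 0) (nat_lit 0) (XT.lf (nat_lit 0) (nat_lit 60968498326) (nat_lit 76) (nat_lit 324525995259) (nat_lit 76) (nat_lit 297662653388) (nat_lit 1) (nat_lit 4) (nat_lit 2) (nat_lit 5) (nat_lit 2) (nat_lit 4) (nat_lit 306) (nat_lit 269) (nat_lit 205)) (XT.lf (nat_lit 0) (nat_lit 136461356766) (nat_lit 76) (nat_lit 335550811054) (nat_lit 76) (nat_lit 308687012149) (nat_lit 1) (nat_lit 4) (nat_lit 2) (nat_lit 5) (nat_lit 2) (nat_lit 4) (nat_lit 307) (nat_lit 269) (nat_lit 204))) (XT.nd (nat_lit 78) (nat_lit 0) (nat_lit 0) (XT.lf (nat_lit 0) (nat_lit 223276034413) (nat_lit 76) (nat_lit 348230418313) (nat_lit 76) (nat_lit 321366221987) (nat_lit 1) (nat_lit 4) (nat_lit 2) (nat_lit 5) (nat_lit 2) (nat_lit 4) (nat_lit 308) (nat_lit 269) (nat_lit 203)) (XT.lf (nat_lit 0) (nat_lit 323111079310) (nat_lit 76) (nat_lit 362812896310) (nat_lit 76) (nat_lit 335948354401) (nat_lit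 1) (nat_lit 4) (nat_lit 2) (nat_lit 5) (nat_lit 2) (nat_lit 4) (nat_lit 309) (nat_lit 269) (nat_lit 202)))) (XT.nd (nat_lit 156) (nat_lit 0) (nat_lit 0) (XT.nd (nat_lit 78) (nat_lit 0) (nat_lit 0) (XT.lf (nat_lit 0) (nat_lit 437919785812) (nat_lit 76) (nat_lit 379583554395) (nat_lit 76) (nat_lit 352718711979) (nat_lit 1) (nat_lit 4) (nat_lit 2) (nat_lit 5) (nat_lit 2) (nat_lit 4) (nat_lit 310) (nat_lit 269) (nat_lit 201)) (XT.lf (nat_lit 0) (nat_lit 569948411221) (nat_lit 76) (nat_lit 398870514142) (nat_lit 76) (nat_lit 372005410415) (nat_lit 1) (nat_lit 4) (nat_lit 2) (nat_lit 5) (nat_lit 2) (nat_lit 4) (nat_lit 311) (nat_lit 269) (nat_lit 200))) (XT.nd (nat_lit 78) (nat_lit 0) (nat_lit 0) (XT.lf (nat_lit 0) (nat_lit 721780124295) (nat_lit 76) (nat_lit 421051129108) (nat_lit 76) (nat_lit 394185798155) (nat_lit 1) (nat_lit 4) (nat_lit 2) (nat_lit 5) (nat_lit 2) (nat_lit 4) (nat_lit 312)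 (nat_lit 269) (nat_lit 199)) (XT.nd (nat_lit 78) (nat_lit 0) (nat_lit 0) (XT.lf (nat_lit 0) (nat_lit 896385545506) (nat_lit 76) (nat_lit 446559367850) (nat_lit 76) (nat_lit 419693839308) (nat_lit 1) (nat_lit 4) (nat_lit 2) (nat_lit 5) (nat_lit 2) (nat_lit 4) (nat_lit 313) (nat_lit 269) (nat_lit 198)) (XT.lf (nat_lit 0) (nat_lit 1097180867879) (nat_lit 76) (nat_lit 475894304602) (nat_lit 76) (nat_lit 449028604244) (nat_lit 1) (nat_lit 4) (nat_lit 2) (nat_lit 5) (nat_lit 2) (nat_lit 4) (nat_lit 314) (nat_lit 269) (nat_lit 197)))))) (XT.nd (nat_lit 390) (nat_lit 0) (nat_lit 0) (XT.nd (nat_lit 156) (nat_lit 0) (nat_lit 0) (XT.nd (nat_lit 78) (nat_lit 0) (nat_lit 0) (XT.lf (nat_lit 0) (nat_lit 1328094695547) (nat_lit 76) (nat_lit 509629883779) (nat_lit 76) (nat_lit 482764034016) (nat_lit 1) (nat_lit 4) (nat_lit 2) (nat_lit 5) (nat_lit 2) (nat_lit 4) (nat_lit 315) (nat_lit 269) (nat_lit 196))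 (XT.lf (nat_lit 0) (nat_lit 1593644907747) (nat_lit 76) (nat_lit 548426149322) (nat_lit 76) (nat_lit 521560169641) (nat_lit 1) (nat_lit 4) (nat_lit 2) (nat_lit 5) (nat_lit 2) (nat_lit 4) (nat_lit 316) (nat_lit 269) (nat_lit 195))) (XT.nd (nat_lit 78) (nat_lit 0) (nat_lit 0) (XT.lf (nat_lit 0) (nat_lit 1899027052108) (nat_lit 76) (nat_lit 593042158600) (nat_lit 76) (nat_lit 566176065948) (nat_lit 1) (nat_lit 4) (nat_lit 2) (nat_lit 5) (nat_lit 2) (nat_lit 4) (nat_lit 317) (nat_lit 269) (nat_lit 194)) (XT.nd (nat_lit 78) (nat_lit 0) (nat_lit 0) (XT.lf (nat_lit 0) (nat_lit 2250215996674) (nat_lit 76) (nat_lit 644350833534) (nat_lit 76) (nat_lit 617484642645) (nat_lit 1) (nat_lit 4) (nat_lit 2) (nat_lit 5) (nat_lit 2) (nat_lit 4) (nat_lit 318) (nat_lit 269) (nat_lit 193)) (XT.lf (nat_lit 0) (nat_lit 2654082829489) (nat_lit 76) (nat_lit 703356039503) (nat_lit 76) (nat_lit 676489763191) (nat_lit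 1) (nat_lit 4) (nat_lit 2) (nat_lit 5) (nat_lit 2) (nat_lit 4) (nat_lit 319) (nat_lit 269) (nat_lit 192))))) (XT.nd (nat_lit 156) (nat_lit 0) (nat_lit 0) (XT.nd (nat_lit 78) (nat_lit 0) (nat_lit 0) (XT.lf (nat_lit 0) (nat_lit 3118529292935) (nat_lit 76) (nat_lit 771212226189) (nat_lit 76) (nat_lit 744345875596) (nat_lit 1) (nat_lit 4) (nat_lit 2) (nat_lit 5) (nat_lit 2) (nat_lit 4) (nat_lit 320) (nat_lit 269) (nat_lit 191)) (XT.lf (nat_lit 0) (nat_lit 3652642383035) (nat_lit 76) (nat_lit 849247014635) (nat_lit 76) (nat_lit 822380599451) (nat_lit 1) (nat_lit 4) (nat_lit 2) (nat_lit 5) (nat_lit 2) (nat_lit 4) (nat_lit 321) (nat_lit 269) (nat_lit 190))) (XT.nd (nat_lit 78) (nat_lit 0) (nat_lit 0) (XT.lf (nat_lit 0) (nat_lit 4266872138509) (nat_lit 76) (nat_lit 938987172443) (nat_lit 76) (nat_lit 912120701091) (nat_lit 1) (nat_lit 4) (nat_lit 2) (nat_lit 5) (nat_lit 2) (nat_lit 4) (nat_lit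 322) (nat_lit 269) (nat_lit 189)) (XT.nd (nat_lit 78) (nat_lit 0) (nat_lit 0) (XT.lf (nat_lit 0) (nat_lit 4973236098052) (nat_lit 76) (nat_lit 1042188485307) (nat_lit 76) (nat_lit 1015321965115) (nat_lit 1) (nat_lit 4) (nat_lit 2) (nat_lit 5) (nat_lit 2) (nat_lit 4) (nat_lit 323) (nat_lit 269) (nat_lit 188)) (XT.lf (nat_lit 0) (nat_lit 5785554426089) (nat_lit 76) (nat_lit 1160870109350) (nat_lit 76) (nat_lit 1134003546687) (nat_lit 1) (nat_lit 4) (nat_lit 2) (nat_lit 5) (nat_lit 2) (nat_lit 4) (nat_lit 324) (nat_lit 269) (nat_lit 187))))))))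
noncomputable def xc68 : XT := (XT.nd (nat_lit 36504) (nat_lit 0) (nat_lit 532) (XT.nd (nat_lit 702) (nat_lit 0) (nat_lit 0) (XT.nd (nat_lit 312) (nat_lit 0) (nat_lit 0) (XT.nd (nat_lit 156) (nat_lit 0) (nat_lit 0) (XT.nd (nat_lit 78) (nat_lit 0) (nat_lit 0) (XT.lf (nat_lit 0) (nat_lit 6719720307298) (nat_lit 76) (nat_lit 1297354076345) (nat_lit 76) (nat_lit 1270487476752) (nat_lit 1) (nat_lit 4) (nat_lit 2) (nat_lit 5) (nat_lit 2) (nat_lit 4) (nat_lit 325) (nat_lit 269) (nat_lit 186)) (XT.lf (nat_lit 0) (nat_lit 7794010900226) (nat_lit 76) (nat_lit 1454310724779) (nat_lit 76) (nat_lit 1427444093072) (nat_lit 1) (nat_lit 4) (nat_lit 2) (nat_lit 5) (nat_lit 2) (nat_lit 4) (nat_lit 326) (nat_lit 269) (nat_lit 185))) (XT.nd (nat_lit 78) (nat_lit 0) (nat_lit 0) (XT.lf (nat_lit 0) (nat_lit 9029444933864) (nat_lit 76) (nat_lit 1634810945598) (nat_lit 76) (nat_lit 1607944285966) (nat_lit 1)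 (nat_lit 4) (nat_lit 2) (nat_lit 5) (nat_lit 2) (nat_lit 4) (nat_lit 327) (nat_lit 269) (nat_lit 184)) (XT.lf (nat_lit 0) (nat_lit 10450193943653) (nat_lit 76) (nat_lit 1842386264861) (nat_lit 76) (nat_lit 1815519580947) (nat_lit 1) (nat_lit 4) (nat_lit 2) (nat_lit 5) (nat_lit 2) (nat_lit 4) (nat_lit 328) (nat_lit 269) (nat_lit 183)))) (XT.nd (nat_lit 156) (nat_lit 0) (nat_lit 0) (XT.nd (nat_lit 78) (nat_lit 0) (nat_lit 0) (XT.lf (nat_lit 0) (nat_lit 12084055192829) (nat_lit 76) (nat_lit 2081097938816) (nat_lit 76) (nat_lit 2054231233787) (nat_lit 1) (nat_lit 4) (nat_lit 2) (nat_lit 5) (nat_lit 2) (nat_lit 4) (nat_lit 329) (nat_lit 269) (nat_lit 182)) (XT.lf (nat_lit 0) (nat_lit 13962995531918) (nat_lit 76) (nat_lit 2355616413257) (nat_lit 76) (nat_lit 2328749689867) (nat_lit 1) (nat_lit 4) (nat_lit 2) (nat_lit 5) (nat_lit 2) (nat_lit 4) (nat_lit 330) (nat_lit 269) (nat_lit 181))) (XT.nd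 (nat_lit 78) (nat_lit 0) (nat_lit 0) (XT.lf (nat_lit 0) (nat_lit 16123776837120) (nat_lit 76) (nat_lit 2671312701815) (nat_lit 76) (nat_lit 2644445962459) (nat_lit 1) (nat_lit 4) (nat_lit 2) (nat_lit 5) (nat_lit 2) (nat_lit 4) (nat_lit 331) (nat_lit 269) (nat_lit 180)) (XT.nd (nat_lit 78) (nat_lit 0) (nat_lit 0) (XT.lf (nat_lit 0) (nat_lit 18608675264407) (nat_lit 76) (nat_lit 3034363471004) (nat_lit 76) (nat_lit 3007496717764) (nat_lit 1) (nat_lit 4) (nat_lit 2) (nat_lit 5) (nat_lit 2) (nat_lit 4) (nat_lit 332) (nat_lit 269) (nat_lit 179)) (XT.lf (nat_lit 0) (nat_lit 21466308391703) (nat_lit 76) (nat_lit 3451871888049) (nat_lit 76) (nat_lit 3425005122736) (nat_lit 1) (nat_lit 4) (nat_lit 2) (nat_lit 5) (nat_lit 2) (nat_lit 4) (nat_lit 333) (nat_lit 269) (nat_lit 178)))))) (XT.nd (nat_lit 312) (nat_lit 0) (nat_lit 0) (XT.nd (nat_lit 156) (nat_lit 0) (nat_lit 0) (XT.nd (nat_lit 78) (nat_lit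 0) (nat_lit 0) (XT.lf (nat_lit 0) (nat_lit 24752586432368) (nat_lit 76) (nat_lit 3932006595890) (nat_lit 76) (nat_lit 3905139820079) (nat_lit 1) (nat_lit 4) (nat_lit 2) (nat_lit 5) (nat_lit 2) (nat_lit 4) (nat_lit 334) (nat_lit 269) (nat_lit 177)) (XT.lf (nat_lit 0) (nat_lit 28531806130678) (nat_lit 76) (nat_lit 4484161534465) (nat_lit 76) (nat_lit 4457294749525) (nat_lit 1) (nat_lit 4) (nat_lit 2) (nat_lit 5) (nat_lit 2) (nat_lit 4) (nat_lit 335) (nat_lit 269) (nat_lit 176))) (XT.nd (nat_lit 78) (nat_lit 0) (nat_lit 0) (XT.lf (nat_lit 0) (nat_lit 32877908741598) (nat_lit 76) (nat_lit 5119139735179) (nat_lit 76) (nat_lit 5092272942302) (nat_lit 1) (nat_lit 4) (nat_lit 2) (nat_lit 5) (nat_lit 2) (nat_lit 4) (nat_lit 336) (nat_lit 269) (nat_lit 175)) (XT.lf (nat_lit 0) (nat_lit 37875926707516) (nat_lit 76) (nat_lit 5849364684570) (nat_lit 76) (nat_lit 5822497884790) (nat_lit 1) (nat_lit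 4) (nat_lit 2) (nat_lit 5) (nat_lit 2) (nat_lit 4) (nat_lit 337) (nat_lit 269) (nat_lit 174)))) (XT.nd (nat_lit 156) (nat_lit 0) (nat_lit 0) (XT.nd (nat_lit 78) (nat_lit 0) (nat_lit 0) (XT.lf (nat_lit 0) (nat_lit 43623647336461) (nat_lit 76) (nat_lit 6689123392515) (nat_lit 76) (nat_lit 6662256586733) (nat_lit 1) (nat_lit 4) (nat_lit 2) (nat_lit 5) (nat_lit 2) (nat_lit 4) (nat_lit 338) (nat_lit 269) (nat_lit 173)) (XT.lf (nat_lit 0) (nat_lit 50233526032043) (nat_lit 76) (nat_lit 7654845920693) (nat_lit 76) (nat_lit 7627979109692) (nat_lit 1) (nat_lit 4) (nat_lit 2) (nat_lit 5) (nat_lit 2) (nat_lit 4) (nat_lit 339) (nat_lit 269) (nat_lit 172))) (XT.nd (nat_lit 35178) (nat_lit 0) (nat_lit 1444) (XT.lf (nat_lit 0) (nat_lit 57834886507870) (nat_lit 76) (nat_lit 8765426840307) (nat_lit 76) (nat_lit 8738560024767) (nat_lit 1) (nat_lit 4) (nat_lit 2) (nat_lit 5) (nat_lit 2) (nat_lit 4) (nat_lit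 340) (nat_lit 269) (nat_lit 171)) (XT.nd (nat_lit 78) (nat_lit 0) (nat_lit 0) (XT.lf (nat_lit 0) (nat_lit 625493742) (nat_lit 380) (nat_lit 3848650979) (nat_lit 380) (nat_lit 3848650979) (nat_lit 20) (nat_lit 3) (nat_lit 25) (nat_lit 3) (nat_lit 25) (nat_lit 5) (nat_lit 270) (nat_lit 270) (nat_lit 240)) (XT.lf (nat_lit 76) (nat_lit 3327378) (nat_lit 0) (nat_lit 1559533304) (nat_lit 380) (nat_lit 16297485626) (nat_lit 21) (nat_lit 5) (nat_lit 20) (nat_lit 3) (nat_lit 25) (nat_lit 5) (nat_lit 271) (nat_lit 270) (nat_lit 239))))))) (XT.nd (nat_lit 702) (nat_lit 456) (nat_lit 0) (XT.nd (nat_lit 312) (nat_lit 532) (nat_lit 0) (XT.nd (nat_lit 156) (nat_lit 0) (nat_lit 76) (XT.nd (nat_lit 78) (nat_lit 0) (nat_lit 0) (XT.lf (nat_lit 0) (nat_lit 2591115255) (nat_lit 304) (nat_lit 9810623956) (nat_lit 380) (nat_lit 6755305592) (nat_lit 21) (nat_lit 5) (nat_lit 25) (nat_lit 5) (nat_lit 26) (nat_lit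 5) (nat_lit 272) (nat_lit 270) (nat_lit 238)) (XT.lf (nat_lit 0) (nat_lit 3813795764) (nat_lit 304) (nat_lit 658800798) (nat_lit 380) (nat_lit 16169771531) (nat_lit 21) (nat_lit 5) (nat_lit 25) (nat_lit 5) (nat_lit 26) (nat_lit 5) (nat_lit 273) (nat_lit 270) (nat_lit 237))) (XT.nd (nat_lit 78) (nat_lit 0) (nat_lit 0) (XT.lf (nat_lit 0) (nat_lit 5851540656) (nat_lit 304) (nat_lit 11697959146) (nat_lit 76) (nat_lit 4706369585) (nat_lit 22) (nat_lit 5) (nat_lit 26) (nat_lit 5) (nat_lit 23) (nat_lit 5) (nat_lit 274) (nat_lit 270) (nat_lit 236)) (XT.lf (nat_lit 0) (nat_lit 8417470449) (nat_lit 304) (nat_lit 816602025) (nat_lit 76) (nat_lit 14844056974) (nat_lit 22) (nat_lit 5) (nat_lit 26) (nat_lit 5) (nat_lit 23) (nat_lit 5) (nat_lit 275) (nat_lit 270) (nat_lit 235)))) (XT.nd (nat_lit 156) (nat_lit 304) (nat_lit 0) (XT.nd (nat_lit 78) (nat_lit 0) (nat_lit 0) (XT.lf (nat_lit 0) (nat_lit 11914694964)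 (nat_lit 380) (nat_lit 13322182802) (nat_lit 76) (nat_lit 854987397) (nat_lit 18) (nat_lit 5) (nat_lit 23) (nat_lit 5) (nat_lit 19) (nat_lit 5) (nat_lit 276) (nat_lit 270) (nat_lit 234)) (XT.lf (nat_lit 0) (nat_lit 16399894133) (nat_lit 380) (nat_lit 382845473) (nat_lit 76) (nat_lit 11555497706) (nat_lit 18) (nat_lit 5) (nat_lit 23) (nat_lit 5) (nat_lit 19) (nat_lit 5) (nat_lit 277) (nat_lit 270) (nat_lit 233))) (XT.nd (nat_lit 78) (nat_lit 152) (nat_lit 0) (XT.lf (nat_lit 0) (nat_lit 15889822056) (nat_lit 152) (nat_lit 6307714384) (nat_lit 228) (nat_lit 8628153030) (nat_lit 16) (nat_lit 5) (nat_lit 18) (nat_lit 5) (nat_lit 19) (nat_lit 5) (nat_lit 278) (nat_lit 270) (nat_lit 232)) (XT.nd (nat_lit 78) (nat_lit 76) (nat_lit 0) (XT.lf (nat_lit 0) (nat_lit 769506592) (nat_lit 76) (nat_lit 28368796754) (nat_lit 152) (nat_lit 4506998430) (nat_lit 15) (nat_lit 5) (nat_lit 16) (nat_lit 5) (nat_lit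 17) (nat_lit 4) (nat_lit 279) (nat_lit 270) (nat_lit 231)) (XT.lf (nat_lit 0) (nat_lit 1313440932) (nat_lit 152) (nat_lit 16632808337) (nat_lit 76) (nat_lit 18774942791) (nat_lit 14) (nat_lit 5) (nat_lit 16) (nat_lit 5) (nat_lit 15) (nat_lit 5) (nat_lit 280) (nat_lit 270) (nat_lit 230)))))) (XT.nd (nat_lit 312) (nat_lit 228) (nat_lit 0) (XT.nd (nat_lit 156) (nat_lit 76) (nat_lit 0) (XT.nd (nat_lit 78) (nat_lit 0) (nat_lit 0) (XT.lf (nat_lit 0) (nat_lit 1987971323) (nat_lit 152) (nat_lit 5625523684) (nat_lit 228) (nat_lit 32602623217) (nat_lit 12) (nat_lit 5) (nat_lit 14) (nat_lit 5) (nat_lit 15) (nat_lit 5) (nat_lit 281) (nat_lit 270) (nat_lit 229)) (XT.lf (nat_lit 0) (nat_lit 16109582940) (nat_lit 228) (nat_lit 19250675564) (nat_lit 76) (nat_lit 8687407574) (nat_lit 12) (nat_lit 5) (nat_lit 15) (nat_lit 5) (nat_lit 13) (nat_lit 4) (nat_lit 282) (nat_lit 270) (nat_lit 228))) (XT.nd (nat_lit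 78) (nat_lit 0) (nat_lit 0) (XT.lf (nat_lit 0) (nat_lit 2510024498) (nat_lit 76) (nat_lit 23730068755) (nat_lit 152) (nat_lit 22159883332) (nat_lit 11) (nat_lit 5) (nat_lit 12) (nat_lit 5) (nat_lit 13) (nat_lit 4) (nat_lit 283) (nat_lit 270) (nat_lit 227)) (XT.lf (nat_lit 0) (nat_lit 29680235617) (nat_lit 76) (nat_lit 9205212498) (nat_lit 152) (nat_lit 14370423047) (nat_lit 11) (nat_lit 5) (nat_lit 12) (nat_lit 5) (nat_lit 13) (nat_lit 4) (nat_lit 284) (nat_lit 270) (nat_lit 226)))) (XT.nd (nat_lit 156) (nat_lit 76) (nat_lit 0) (XT.nd (nat_lit 78) (nat_lit 76) (nat_lit 0) (XT.lf (nat_lit 0) (nat_lit 1930227715) (nat_lit 76) (nat_lit 51877961147) (nat_lit 76) (nat_lit 4974897750) (nat_lit 10) (nat_lit 4) (nat_lit 11) (nat_lit 5) (nat_lit 11) (nat_lit 4) (nat_lit 285) (nat_lit 270) (nat_lit 225)) (XT.lf (nat_lit 0) (nat_lit 7030642542) (nat_lit 152) (nat_lit 31798558168) (nat_lit 76) (nat_lit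 26016034588) (nat_lit 9) (nat_lit 5) (nat_lit 11) (nat_lit 5) (nat_lit 10) (nat_lit 4) (nat_lit 286) (nat_lit 270) (nat_lit 224))) (XT.nd (nat_lit 78) (nat_lit 76) (nat_lit 0) (XT.lf (nat_lit 0) (nat_lit 20319260909) (nat_lit 152) (nat_lit 3237921059) (nat_lit 76) (nat_lit 48225267900) (nat_lit 9) (nat_lit 5) (nat_lit 11) (nat_lit 5) (nat_lit 10) (nat_lit 4) (nat_lit 287) (nat_lit 270) (nat_lit 223)) (XT.nd (nat_lit 78) (nat_lit 0) (nat_lit 0) (XT.lf (nat_lit 0) (nat_lit 32485973406) (nat_lit 76) (nat_lit 4453053333) (nat_lit 152) (nat_lit 42620555448) (nat_lit 8) (nat_lit 5) (nat_lit 9) (nat_lit 5) (nat_lit 10) (nat_lit 4) (nat_lit 288) (nat_lit 270) (nat_lit 222)) (XT.lf (nat_lit 0) (nat_lit 56947295725) (nat_lit 152) (nat_lit 15292125566) (nat_lit 0) (nat_lit 16129544294) (nat_lit 8) (nat_lit 5) (nat_lit 10) (nat_lit 4) (nat_lit 8) (nat_lit 4) (nat_lit 289) (nat_lit 270) (nat_lit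 221))))))))
noncomputable def xc69 : XT := (XT.nd (nat_lit 1404) (nat_lit 0) (nat_lit 0) (XT.nd (nat_lit 702) (nat_lit 228) (nat_lit 0) (XT.nd (nat_lit 312) (nat_lit 76) (nat_lit 0) (XT.nd (nat_lit 156) (nat_lit 76) (nat_lit 0) (XT.nd (nat_lit 78) (nat_lit 76) (nat_lit 0) (XT.lf (nat_lit 0) (nat_lit 23088563138) (nat_lit 76) (nat_lit 58030161623) (nat_lit 76) (nat_lit 17206754191) (nat_lit 7) (nat_lit 4) (nat_lit 8) (nat_lit 5) (nat_lit 8) (nat_lit 4) (nat_lit 290) (nat_lit 270) (nat_lit 220)) (XT.lf (nat_lit 0) (nat_lit 48240624) (nat_lit 152) (nat_lit 40724608349) (nat_lit 76) (nat_lit 68883270236) (nat_lit 6) (nat_lit 5) (nat_lit 8) (nat_lit 5) (nat_lit 7) (nat_lit 4) (nat_lit 291) (nat_lit 270) (nat_lit 219))) (XT.nd (nat_lit 78) (nat_lit 76) (nat_lit 0) (XT.lf (nat_lit 0) (nat_lit 18124526201) (nat_lit 152) (nat_lit 1864871109) (nat_lit 76) (nat_lit 102574856843) (nat_lit 6) (nat_lit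 5) (nat_lit 8) (nat_lit 5) (nat_lit 7) (nat_lit 4) (nat_lit 292) (nat_lit 270) (nat_lit 218)) (XT.lf (nat_lit 0) (nat_lit 41108246509) (nat_lit 152) (nat_lit 90372568143) (nat_lit 0) (nat_lit 5598401853) (nat_lit 5) (nat_lit 5) (nat_lit 7) (nat_lit 4) (nat_lit 5) (nat_lit 4) (nat_lit 293) (nat_lit 270) (nat_lit 217)))) (XT.nd (nat_lit 156) (nat_lit 76) (nat_lit 0) (XT.nd (nat_lit 78) (nat_lit 0) (nat_lit 0) (XT.lf (nat_lit 0) (nat_lit 68588996293) (nat_lit 152) (nat_lit 51948671777) (nat_lit 0) (nat_lit 33076339605) (nat_lit 5) (nat_lit 5) (nat_lit 7) (nat_lit 4) (nat_lit 5) (nat_lit 4) (nat_lit 294) (nat_lit 270) (nat_lit 216)) (XT.lf (nat_lit 0) (nat_lit 100187920694) (nat_lit 152) (nat_lit 7768873243) (nat_lit 0) (nat_lit 64672818761) (nat_lit 5) (nat_lit 5) (nat_lit 7) (nat_lit 4) (nat_lit 5) (nat_lit 4) (nat_lit 295) (nat_lit 270) (nat_lit 215))) (XT.nd (nat_lit 78) (nat_lit 0)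 (nat_lit 0) (XT.lf (nat_lit 0) (nat_lit 47236538086) (nat_lit 76) (nat_lit 91242685761) (nat_lit 76) (nat_lit 55725457528) (nat_lit 4) (nat_lit 4) (nat_lit 5) (nat_lit 5) (nat_lit 5) (nat_lit 4) (nat_lit 296) (nat_lit 270) (nat_lit 214)) (XT.nd (nat_lit 78) (nat_lit 0) (nat_lit 0) (XT.lf (nat_lit 0) (nat_lit 111359499927) (nat_lit 76) (nat_lit 71557581117) (nat_lit 76) (nat_lit 36038503928) (nat_lit 4) (nat_lit 4) (nat_lit 5) (nat_lit 5) (nat_lit 5) (nat_lit 4) (nat_lit 297) (nat_lit 270) (nat_lit 213)) (XT.lf (nat_lit 0) (nat_lit 185095361171) (nat_lit 76) (nat_lit 48922436847) (nat_lit 76) (nat_lit 13401751869) (nat_lit 4) (nat_lit 4) (nat_lit 5) (nat_lit 5) (nat_lit 5) (nat_lit 4) (nat_lit 298) (nat_lit 270) (nat_lit 212)))))) (XT.nd (nat_lit 312) (nat_lit 76) (nat_lit 0) (XT.nd (nat_lit 156) (nat_lit 0) (nat_lit 0) (XT.nd (nat_lit 78) (nat_lit 76) (nat_lit 0) (XT.lf (nat_lit 0) (nat_lit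 11503487191) (nat_lit 152) (nat_lit 10789585592) (nat_lit 76) (nat_lit 257781974134) (nat_lit 3) (nat_lit 5) (nat_lit 5) (nat_lit 5) (nat_lit 4) (nat_lit 4) (nat_lit 299) (nat_lit 270) (nat_lit 211)) (XT.lf (nat_lit 0) (nat_lit 41423192289) (nat_lit 152) (nat_lit 265178969446) (nat_lit 0) (nat_lit 10533367269) (nat_lit 2) (nat_lit 5) (nat_lit 4) (nat_lit 4) (nat_lit 2) (nat_lit 4) (nat_lit 300) (nat_lit 270) (nat_lit 210))) (XT.nd (nat_lit 78) (nat_lit 0) (nat_lit 0) (XT.lf (nat_lit 0) (nat_lit 77481081703) (nat_lit 152) (nat_lit 235436131687) (nat_lit 0) (nat_lit 46590337424) (nat_lit 2) (nat_lit 5) (nat_lit 4) (nat_lit 4) (nat_lit 2) (nat_lit 4) (nat_lit 301) (nat_lit 270) (nat_lit 209)) (XT.lf (nat_lit 0) (nat_lit 118945737484) (nat_lit 152) (nat_lit 201235733590) (nat_lit 0) (nat_lit 88054193850) (nat_lit 2) (nat_lit 5) (nat_lit 4) (nat_lit 4) (nat_lit 2) (nat_lit 4) (nat_lit 302)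 (nat_lit 270) (nat_lit 208)))) (XT.nd (nat_lit 156) (nat_lit 76) (nat_lit 0) (XT.nd (nat_lit 78) (nat_lit 0) (nat_lit 0) (XT.lf (nat_lit 0) (nat_lit 166628424635) (nat_lit 152) (nat_lit 161908636933) (nat_lit 0) (nat_lit 135736185910) (nat_lit 2) (nat_lit 5) (nat_lit 4) (nat_lit 4) (nat_lit 2) (nat_lit 4) (nat_lit 303) (nat_lit 270) (nat_lit 207)) (XT.lf (nat_lit 0) (nat_lit 221462065298) (nat_lit 152) (nat_lit 116685398519) (nat_lit 0) (nat_lit 190569222146) (nat_lit 2) (nat_lit 5) (nat_lit 4) (nat_lit 4) (nat_lit 2) (nat_lit 4) (nat_lit 304) (nat_lit 270) (nat_lit 206))) (XT.nd (nat_lit 78) (nat_lit 76) (nat_lit 0) (XT.lf (nat_lit 0) (nat_lit 284519491572) (nat_lit 152) (nat_lit 64681215859) (nat_lit 0) (nat_lit 253626122831) (nat_lit 2) (nat_lit 5) (nat_lit 4) (nat_lit 4) (nat_lit 2) (nat_lit 4) (nat_lit 305) (nat_lit 270) (nat_lit 205)) (XT.nd (nat_lit 78) (nat_lit 76) (nat_lit 0)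 (XT.lf (nat_lit 0) (nat_lit 357034435710) (nat_lit 152) (nat_lit 4878615813) (nat_lit 0) (nat_lit 326140609935) (nat_lit 2) (nat_lit 5) (nat_lit 4) (nat_lit 4) (nat_lit 2) (nat_lit 4) (nat_lit 306) (nat_lit 270) (nat_lit 204)) (XT.lf (nat_lit 0) (nat_lit 70136487619) (nat_lit 76) (nat_lit 373193383125) (nat_lit 76) (nat_lit 342299159930) (nat_lit 1) (nat_lit 4) (nat_lit 2) (nat_lit 5) (nat_lit 2) (nat_lit 4) (nat_lit 307) (nat_lit 270) (nat_lit 203))))))) (XT.nd (nat_lit 702) (nat_lit 0) (nat_lit 0) (XT.nd (nat_lit 312) (nat_lit 0) (nat_lit 0) (XT.nd (nat_lit 156) (nat_lit 0) (nat_lit 0) (XT.nd (nat_lit 78) (nat_lit 0) (nat_lit 0) (XT.lf (nat_lit 0) (nat_lit 156950312058) (nat_lit 76) (nat_lit 385873422779) (nat_lit 76) (nat_lit 354978854000) (nat_lit 1) (nat_lit 4) (nat_lit 2) (nat_lit 5) (nat_lit 2) (nat_lit 4) (nat_lit 308) (nat_lit 270) (nat_lit 202)) (XT.lf (nat_lit 0) (nat_lit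 256784615034) (nat_lit 76) (nat_lit 400456276771) (nat_lit 76) (nat_lit 369561407485) (nat_lit 1) (nat_lit 4) (nat_lit 2) (nat_lit 5) (nat_lit 2) (nat_lit 4) (nat_lit 309) (nat_lit 270) (nat_lit 201))) (XT.nd (nat_lit 78) (nat_lit 0) (nat_lit 0) (XT.lf (nat_lit 0) (nat_lit 371592676388) (nat_lit 76) (nat_lit 417227261809) (nat_lit 76) (nat_lit 386332131212) (nat_lit 1) (nat_lit 4) (nat_lit 2) (nat_lit 5) (nat_lit 2) (nat_lit 4) (nat_lit 310) (nat_lit 270) (nat_lit 200)) (XT.lf (nat_lit 0) (nat_lit 503620740799) (nat_lit 76) (nat_lit 436514505861) (nat_lit 76) (nat_lit 405619148038) (nat_lit 1) (nat_lit 4) (nat_lit 2) (nat_lit 5) (nat_lit 2) (nat_lit 4) (nat_lit 311) (nat_lit 270) (nat_lit 199)))) (XT.nd (nat_lit 156) (nat_lit 0) (nat_lit 0) (XT.nd (nat_lit 78) (nat_lit 0) (nat_lit 0) (XT.lf (nat_lit 0) (nat_lit 655451966047) (nat_lit 76) (nat_lit 458695368051) (nat_lit 76) (nat_lit 427799812640)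 (nat_lit 1) (nat_lit 4) (nat_lit 2) (nat_lit 5) (nat_lit 2) (nat_lit 4) (nat_lit 312) (nat_lit 270) (nat_lit 198)) (XT.lf (nat_lit 0) (nat_lit 830056963063) (nat_lit 76) (nat_lit 484203821769) (nat_lit 76) (nat_lit 453308094541) (nat_lit 1) (nat_lit 4) (nat_lit 2) (nat_lit 5) (nat_lit 2) (nat_lit 4) (nat_lit 313) (nat_lit 270) (nat_lit 197))) (XT.nd (nat_lit 78) (nat_lit 0) (nat_lit 0) (XT.lf (nat_lit 0) (nat_lit 1030851916571) (nat_lit 76) (nat_lit 513538945457) (nat_lit 76) (nat_lit 482643068824) (nat_lit 1) (nat_lit 4) (nat_lit 2) (nat_lit 5) (nat_lit 2) (nat_lit 4) (nat_lit 314) (nat_lit 270) (nat_lit 196)) (XT.nd (nat_lit 78) (nat_lit 0) (nat_lit 0) (XT.lf (nat_lit 0) (nat_lit 1261765423486) (nat_lit 76) (nat_lit 547274687187) (nat_lit 76) (nat_lit 516378680637) (nat_lit 1) (nat_lit 4) (nat_lit 2) (nat_lit 5) (nat_lit 2) (nat_lit 4) (nat_lit 315) (nat_lit 270) (nat_lit 195)) (XT.lf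 (nat_lit 0) (nat_lit 1527315356770) (nat_lit 76) (nat_lit 586071094081) (nat_lit 76) (nat_lit 555174974559) (nat_lit 1) (nat_lit 4) (nat_lit 2) (nat_lit 5) (nat_lit 2) (nat_lit 4) (nat_lit 316) (nat_lit 270) (nat_lit 194)))))) (XT.nd (nat_lit 390) (nat_lit 0) (nat_lit 0) (XT.nd (nat_lit 156) (nat_lit 0) (nat_lit 0) (XT.nd (nat_lit 78) (nat_lit 0) (nat_lit 0) (XT.lf (nat_lit 0) (nat_lit 1832697258597) (nat_lit 76) (nat_lit 630687226272) (nat_lit 76) (nat_lit 599791008514) (nat_lit 1) (nat_lit 4) (nat_lit 2) (nat_lit 5) (nat_lit 2) (nat_lit 4) (nat_lit 317) (nat_lit 270) (nat_lit 193)) (XT.lf (nat_lit 0) (nat_lit 2183885992262) (nat_lit 76) (nat_lit 681996008088) (nat_lit 76) (nat_lit 651099704907) (nat_lit 1) (nat_lit 4) (nat_lit 2) (nat_lit 5) (nat_lit 2) (nat_lit 4) (nat_lit 318) (nat_lit 270) (nat_lit 192))) (XT.nd (nat_lit 78) (nat_lit 0) (nat_lit 0) (XT.lf (nat_lit 0) (nat_lit 2587752641686)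 (nat_lit 76) (nat_lit 741001306997) (nat_lit 76) (nat_lit 710104929535) (nat_lit 1) (nat_lit 4) (nat_lit 2) (nat_lit 5) (nat_lit 2) (nat_lit 4) (nat_lit 319) (nat_lit 270) (nat_lit 191)) (XT.nd (nat_lit 78) (nat_lit 0) (nat_lit 0) (XT.lf (nat_lit 0) (nat_lit 3052198945661) (nat_lit 76) (nat_lit 808857574500) (nat_lit 76) (nat_lit 777961132447) (nat_lit 1) (nat_lit 4) (nat_lit 2) (nat_lit 5) (nat_lit 2) (nat_lit 4) (nat_lit 320) (nat_lit 270) (nat_lit 190)) (XT.lf (nat_lit 0) (nat_lit 3586311897091) (nat_lit 76) (nat_lit 886892433223) (nat_lit 76) (nat_lit 855995935002) (nat_lit 1) (nat_lit 4) (nat_lit 2) (nat_lit 5) (nat_lit 2) (nat_lit 4) (nat_lit 321) (nat_lit 270) (nat_lit 189))))) (XT.nd (nat_lit 156) (nat_lit 0) (nat_lit 0) (XT.nd (nat_lit 78) (nat_lit 0) (nat_lit 0) (XT.lf (nat_lit 0) (nat_lit 4200541531982) (nat_lit 76) (nat_lit 976632652140) (nat_lit 76) (nat_lit 945736105079)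 (nat_lit 1) (nat_lit 4) (nat_lit 2) (nat_lit 5) (nat_lit 2) (nat_lit 4) (nat_lit 322) (nat_lit 270) (nat_lit 188)) (XT.lf (nat_lit 0) (nat_lit 4906905386670) (nat_lit 76) (nat_lit 1079834018143) (nat_lit 76) (nat_lit 1048937428612) (nat_lit 1) (nat_lit 4) (nat_lit 2) (nat_lit 5) (nat_lit 2) (nat_lit 4) (nat_lit 323) (nat_lit 270) (nat_lit 187))) (XT.nd (nat_lit 78) (nat_lit 0) (nat_lit 0) (XT.lf (nat_lit 0) (nat_lit 5719223623529) (nat_lit 76) (nat_lit 1198515688394) (nat_lit 76) (nat_lit 1167619061931) (nat_lit 1) (nat_lit 4) (nat_lit 2) (nat_lit 5) (nat_lit 2) (nat_lit 4) (nat_lit 324) (nat_lit 270) (nat_lit 186)) (XT.nd (nat_lit 78) (nat_lit 0) (nat_lit 0) (XT.lf (nat_lit 0) (nat_lit 6653389425453) (nat_lit 76) (nat_lit 1334999695570) (nat_lit 76) (nat_lit 1304103036994) (nat_lit 1) (nat_lit 4) (nat_lit 2) (nat_lit 5) (nat_lit 2) (nat_lit 4) (nat_lit 325) (nat_lit 270) (nat_lit 185))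 (XT.lf (nat_lit 0) (nat_lit 7727679949438) (nat_lit 76) (nat_lit 1491956378943) (nat_lit 76) (nat_lit 1461059692442) (nat_lit 1) (nat_lit 4) (nat_lit 2) (nat_lit 5) (nat_lit 2) (nat_lit 4) (nat_lit 326) (nat_lit 270) (nat_lit 184))))))))
noncomputable def xc70 : XT := (XT.nd (nat_lit 36582) (nat_lit 0) (nat_lit 380) (XT.nd (nat_lit 702) (nat_lit 0) (nat_lit 0) (XT.nd (nat_lit 312) (nat_lit 0) (nat_lit 0) (XT.nd (nat_lit 156) (nat_lit 0) (nat_lit 0) (XT.nd (nat_lit 78) (nat_lit 0) (nat_lit 0) (XT.lf (nat_lit 0) (nat_lit 8963113923125) (nat_lit 76) (nat_lit 1672456630145) (nat_lit 76) (nat_lit 1641559919361) (nat_lit 1) (nat_lit 4) (nat_lit 2) (nat_lit 5) (nat_lit 2) (nat_lit 4) (nat_lit 327) (nat_lit 270) (nat_lit 183)) (XT.lf (nat_lit 0) (nat_lit 10383862880783) (nat_lit 76) (nat_lit 1880031975828) (nat_lit 76) (nat_lit 1849135243929) (nat_lit 1) (nat_lit 4) (nat_lit 2) (nat_lit 5) (nat_lit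 2) (nat_lit 4) (nat_lit 328) (nat_lit 270) (nat_lit 182))) (XT.nd (nat_lit 78) (nat_lit 0) (nat_lit 0) (XT.lf (nat_lit 0) (nat_lit 12017724084627) (nat_lit 76) (nat_lit 2118743672756) (nat_lit 76) (nat_lit 2087846922496) (nat_lit 1) (nat_lit 4) (nat_lit 2) (nat_lit 5) (nat_lit 2) (nat_lit 4) (nat_lit 329) (nat_lit 270) (nat_lit 181)) (XT.lf (nat_lit 0) (nat_lit 13896664384297) (nat_lit 76) (nat_lit 2393262167174) (nat_lit 76) (nat_lit 2362365400948) (nat_lit 1) (nat_lit 4) (nat_lit 2) (nat_lit 5) (nat_lit 2) (nat_lit 4) (nat_lit 330) (nat_lit 270) (nat_lit 180)))) (XT.nd (nat_lit 156) (nat_lit 0) (nat_lit 0) (XT.nd (nat_lit 78) (nat_lit 0) (nat_lit 0) (XT.lf (nat_lit 0) (nat_lit 16057445655222) (nat_lit 76) (nat_lit 2708958473103) (nat_lit 76) (nat_lit 2678061692993) (nat_lit 1) (nat_lit 4) (nat_lit 2) (nat_lit 5) (nat_lit 2) (nat_lit 4) (nat_lit 331) (nat_lit 270) (nat_lit 179)) (XT.lf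 (nat_lit 0) (nat_lit 18542344052702) (nat_lit 76) (nat_lit 3072009257397) (nat_lit 76) (nat_lit 3041112465215) (nat_lit 1) (nat_lit 4) (nat_lit 2) (nat_lit 5) (nat_lit 2) (nat_lit 4) (nat_lit 332) (nat_lit 270) (nat_lit 178))) (XT.nd (nat_lit 78) (nat_lit 0) (nat_lit 0) (XT.lf (nat_lit 0) (nat_lit 21399977154080) (nat_lit 76) (nat_lit 3489517687577) (nat_lit 76) (nat_lit 3458620884897) (nat_lit 1) (nat_lit 4) (nat_lit 2) (nat_lit 5) (nat_lit 2) (nat_lit 4) (nat_lit 333) (nat_lit 270) (nat_lit 177)) (XT.nd (nat_lit 78) (nat_lit 0) (nat_lit 0) (XT.lf (nat_lit 0) (nat_lit 24686255172208) (nat_lit 76) (nat_lit 3969652406840) (nat_lit 76) (nat_lit 3938755595031) (nat_lit 1) (nat_lit 4) (nat_lit 2) (nat_lit 5) (nat_lit 2) (nat_lit 4) (nat_lit 334) (nat_lit 270) (nat_lit 176)) (XT.lf (nat_lit 0) (nat_lit 28465474850919) (nat_lit 76) (nat_lit 4521807355347) (nat_lit 76) (nat_lit 4490910535600)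 (nat_lit 1) (nat_lit 4) (nat_lit 2) (nat_lit 5) (nat_lit 2) (nat_lit 4) (nat_lit 335) (nat_lit 270) (nat_lit 175)))))) (XT.nd (nat_lit 312) (nat_lit 0) (nat_lit 0) (XT.nd (nat_lit 156) (nat_lit 0) (nat_lit 0) (XT.nd (nat_lit 78) (nat_lit 0) (nat_lit 0) (XT.lf (nat_lit 0) (nat_lit 32811577444797) (nat_lit 76) (nat_lit 5156785564698) (nat_lit 76) (nat_lit 5125888738048) (nat_lit 1) (nat_lit 4) (nat_lit 2) (nat_lit 5) (nat_lit 2) (nat_lit 4) (nat_lit 336) (nat_lit 270) (nat_lit 174)) (XT.lf (nat_lit 0) (nat_lit 37809595395896) (nat_lit 76) (nat_lit 5887010521599) (nat_lit 76) (nat_lit 5856113688947) (nat_lit 1) (nat_lit 4) (nat_lit 2) (nat_lit 5) (nat_lit 2) (nat_lit 4) (nat_lit 337) (nat_lit 270) (nat_lit 173))) (XT.nd (nat_lit 78) (nat_lit 0) (nat_lit 0) (XT.lf (nat_lit 0) (nat_lit 43557316011955) (nat_lit 76) (nat_lit 6726769236075) (nat_lit 76) (nat_lit 6695872398204) (nat_lit 1) (nat_lit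 4) (nat_lit 2) (nat_lit 5) (nat_lit 2) (nat_lit 4) (nat_lit 338) (nat_lit 270) (nat_lit 172)) (XT.lf (nat_lit 0) (nat_lit 50167194696332) (nat_lit 76) (nat_lit 7692491769931) (nat_lit 76) (nat_lit 7661594927522) (nat_lit 1) (nat_lit 4) (nat_lit 2) (nat_lit 5) (nat_lit 2) (nat_lit 4) (nat_lit 339) (nat_lit 270) (nat_lit 171)))) (XT.nd (nat_lit 35334) (nat_lit 0) (nat_lit 1444) (XT.nd (nat_lit 35256) (nat_lit 0) (nat_lit 1444) (XT.lf (nat_lit 0) (nat_lit 57768555162416) (nat_lit 76) (nat_lit 8803072694483) (nat_lit 76) (nat_lit 8772175848127) (nat_lit 1) (nat_lit 4) (nat_lit 2) (nat_lit 5) (nat_lit 2) (nat_lit 4) (nat_lit 340) (nat_lit 270) (nat_lit 170)) (XT.lf (nat_lit 0) (nat_lit 928205915) (nat_lit 380) (nat_lit 4305379238) (nat_lit 380) (nat_lit 4305379238) (nat_lit 20) (nat_lit 3) (nat_lit 25) (nat_lit 3) (nat_lit 25) (nat_lit 5) (nat_lit 271) (nat_lit 271) (nat_lit 238))) (XT.nd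 (nat_lit 78) (nat_lit 0) (nat_lit 76) (XT.lf (nat_lit 76) (nat_lit 234004406) (nat_lit 0) (nat_lit 1936100226) (nat_lit 380) (nat_lit 18311775834) (nat_lit 21) (nat_lit 5) (nat_lit 20) (nat_lit 3) (nat_lit 25) (nat_lit 5) (nat_lit 272) (nat_lit 271) (nat_lit 237)) (XT.nd (nat_lit 78) (nat_lit 0) (nat_lit 0) (XT.lf (nat_lit 0) (nat_lit 3298833463) (nat_lit 304) (nat_lit 11026911462) (nat_lit 380) (nat_lit 7655611517) (nat_lit 21) (nat_lit 5) (nat_lit 25) (nat_lit 5) (nat_lit 26) (nat_lit 5) (nat_lit 273) (nat_lit 271) (nat_lit 236)) (XT.lf (nat_lit 0) (nat_lit 4663300711) (nat_lit 304) (nat_lit 535615624) (nat_lit 380) (nat_lit 18496985162) (nat_lit 21) (nat_lit 5) (nat_lit 25) (nat_lit 5) (nat_lit 26) (nat_lit 5) (nat_lit 274) (nat_lit 271) (nat_lit 235))))))) (XT.nd (nat_lit 702) (nat_lit 456) (nat_lit 0) (XT.nd (nat_lit 312) (nat_lit 456) (nat_lit 0) (XT.nd (nat_lit 156) (nat_lit 304)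 (nat_lit 0) (XT.nd (nat_lit 78) (nat_lit 0) (nat_lit 0) (XT.lf (nat_lit 0) (nat_lit 6977716983) (nat_lit 304) (nat_lit 13200608263) (nat_lit 76) (nat_lit 5377608657) (nat_lit 22) (nat_lit 5) (nat_lit 26) (nat_lit 5) (nat_lit 23) (nat_lit 5) (nat_lit 275) (nat_lit 271) (nat_lit 234)) (XT.lf (nat_lit 0) (nat_lit 9896130345) (nat_lit 304) (nat_lit 719922977) (nat_lit 76) (nat_lit 17040477376) (nat_lit 22) (nat_lit 5) (nat_lit 26) (nat_lit 5) (nat_lit 23) (nat_lit 5) (nat_lit 276) (nat_lit 271) (nat_lit 233))) (XT.nd (nat_lit 78) (nat_lit 0) (nat_lit 0) (XT.lf (nat_lit 0) (nat_lit 13898947532) (nat_lit 380) (nat_lit 15081556590) (nat_lit 76) (nat_lit 994790291) (nat_lit 18) (nat_lit 5) (nat_lit 23) (nat_lit 5) (nat_lit 19) (nat_lit 5) (nat_lit 277) (nat_lit 271) (nat_lit 232)) (XT.lf (nat_lit 0) (nat_lit 19031224622) (nat_lit 380) (nat_lit 232486527) (nat_lit 76) (nat_lit 13298870001) (nat_lit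 18) (nat_lit 5) (nat_lit 23) (nat_lit 5) (nat_lit 19) (nat_lit 5) (nat_lit 278) (nat_lit 271) (nat_lit 231)))) (XT.nd (nat_lit 156) (nat_lit 228) (nat_lit 0) (XT.nd (nat_lit 78) (nat_lit 76) (nat_lit 0) (XT.lf (nat_lit 0) (nat_lit 18471636324) (nat_lit 152) (nat_lit 7212740301) (nat_lit 228) (nat_lit 9740984978) (nat_lit 16) (nat_lit 5) (nat_lit 18) (nat_lit 5) (nat_lit 19) (nat_lit 5) (nat_lit 279) (nat_lit 271) (nat_lit 230)) (XT.lf (nat_lit 0) (nat_lit 1095714440) (nat_lit 76) (nat_lit 32560247544) (nat_lit 152) (nat_lit 5013576496) (nat_lit 15) (nat_lit 5) (nat_lit 16) (nat_lit 5) (nat_lit 17) (nat_lit 4) (nat_lit 280) (nat_lit 271) (nat_lit 229))) (XT.nd (nat_lit 78) (nat_lit 152) (nat_lit 0) (XT.lf (nat_lit 0) (nat_lit 1644704164) (nat_lit 152) (nat_lit 18930927014) (nat_lit 76) (nat_lit 21633208229) (nat_lit 14) (nat_lit 5) (nat_lit 16) (nat_lit 5) (nat_lit 15) (nat_lit 5) (nat_lit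 281) (nat_lit 271) (nat_lit 228)) (XT.nd (nat_lit 78) (nat_lit 0) (nat_lit 0) (XT.lf (nat_lit 0) (nat_lit 2474024023) (nat_lit 152) (nat_lit 6406010595) (nat_lit 228) (nat_lit 37349481081) (nat_lit 12) (nat_lit 5) (nat_lit 14) (nat_lit 5) (nat_lit 15) (nat_lit 5) (nat_lit 282) (nat_lit 271) (nat_lit 227)) (XT.lf (nat_lit 0) (nat_lit 18636575340) (nat_lit 228) (nat_lit 21960664361) (nat_lit 76) (nat_lit 10040694825) (nat_lit 12) (nat_lit 5) (nat_lit 15) (nat_lit 5) (nat_lit 13) (nat_lit 4) (nat_lit 283) (nat_lit 271) (nat_lit 226)))))) (XT.nd (nat_lit 390) (nat_lit 228) (nat_lit 0) (XT.nd (nat_lit 156) (nat_lit 152) (nat_lit 0) (XT.nd (nat_lit 78) (nat_lit 0) (nat_lit 0) (XT.lf (nat_lit 0) (nat_lit 3056067413) (nat_lit 76) (nat_lit 27223194833) (nat_lit 152) (nat_lit 25364978253) (nat_lit 11) (nat_lit 5) (nat_lit 12) (nat_lit 5) (nat_lit 13) (nat_lit 4) (nat_lit 284) (nat_lit 271) (nat_lit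 225)) (XT.lf (nat_lit 0) (nat_lit 34279696387) (nat_lit 76) (nat_lit 10528268950) (nat_lit 152) (nat_lit 16422606001) (nat_lit 11) (nat_lit 5) (nat_lit 12) (nat_lit 5) (nat_lit 13) (nat_lit 4) (nat_lit 285) (nat_lit 271) (nat_lit 224))) (XT.nd (nat_lit 78) (nat_lit 76) (nat_lit 0) (XT.lf (nat_lit 0) (nat_lit 2371263164) (nat_lit 76) (nat_lit 59594505887) (nat_lit 76) (nat_lit 5621631689) (nat_lit 10) (nat_lit 4) (nat_lit 11) (nat_lit 5) (nat_lit 11) (nat_lit 4) (nat_lit 286) (nat_lit 271) (nat_lit 223)) (XT.nd (nat_lit 78) (nat_lit 0) (nat_lit 0) (XT.lf (nat_lit 0) (nat_lit 8164058472) (nat_lit 152) (nat_lit 36428750551) (nat_lit 76) (nat_lit 29967240369) (nat_lit 9) (nat_lit 5) (nat_lit 11) (nat_lit 5) (nat_lit 10) (nat_lit 4) (nat_lit 287) (nat_lit 271) (nat_lit 222)) (XT.lf (nat_lit 0) (nat_lit 23435688784) (nat_lit 152) (nat_lit 3602225442) (nat_lit 76) (nat_lit 55501493382) (nat_lit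 9) (nat_lit 5) (nat_lit 11) (nat_lit 5) (nat_lit 10) (nat_lit 4) (nat_lit 288) (nat_lit 271) (nat_lit 221))))) (XT.nd (nat_lit 156) (nat_lit 152) (nat_lit 0) (XT.nd (nat_lit 78) (nat_lit 0) (nat_lit 0) (XT.lf (nat_lit 0) (nat_lit 37474735748) (nat_lit 76) (nat_lit 5069541682) (nat_lit 152) (nat_lit 48939470470) (nat_lit 8) (nat_lit 5) (nat_lit 9) (nat_lit 5) (nat_lit 10) (nat_lit 4) (nat_lit 289) (nat_lit 271) (nat_lit 220)) (XT.lf (nat_lit 0) (nat_lit 65547240457) (nat_lit 152) (nat_lit 17478547273) (nat_lit 0) (nat_lit 18589747649) (nat_lit 8) (nat_lit 5) (nat_lit 10) (nat_lit 4) (nat_lit 8) (nat_lit 4) (nat_lit 290) (nat_lit 271) (nat_lit 219))) (XT.nd (nat_lit 78) (nat_lit 76) (nat_lit 0) (XT.lf (nat_lit 0) (nat_lit 26654363049) (nat_lit 76) (nat_lit 66686720043) (nat_lit 76) (nat_lit 19724950486) (nat_lit 7) (nat_lit 4) (nat_lit 8) (nat_lit 5) (nat_lit 8) (nat_lit 4) (nat_lit 291)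 (nat_lit 271) (nat_lit 218)) (XT.nd (nat_lit 78) (nat_lit 0) (nat_lit 0) (XT.lf (nat_lit 0) (nat_lit 105237105) (nat_lit 152) (nat_lit 46739228692) (nat_lit 76) (nat_lit 79252543136) (nat_lit 6) (nat_lit 5) (nat_lit 8) (nat_lit 5) (nat_lit 7) (nat_lit 4) (nat_lit 292) (nat_lit 271) (nat_lit 217)) (XT.lf (nat_lit 0) (nat_lit 20886475032) (nat_lit 152) (nat_lit 2062800985) (nat_lit 76) (nat_lit 117993070034) (nat_lit 6) (nat_lit 5) (nat_lit 8) (nat_lit 5) (nat_lit 7) (nat_lit 4) (nat_lit 293) (nat_lit 271) (nat_lit 216))))))))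
noncomputable def xc71 : XT := (XT.nd (nat_lit 1404) (nat_lit 0) (nat_lit 0) (XT.nd (nat_lit 702) (nat_lit 76) (nat_lit 0) (XT.nd (nat_lit 312) (nat_lit 152) (nat_lit 0) (XT.nd (nat_lit 156) (nat_lit 76) (nat_lit 0) (XT.nd (nat_lit 78) (nat_lit 0) (nat_lit 0) (XT.lf (nat_lit 0) (nat_lit 47316884059) (nat_lit 152) (nat_lit 103845734777) (nat_lit 0) (nat_lit 6472071591) (nat_lit 5) (nat_lit 5) (nat_lit 7) (nat_lit 4) (nat_lit 5) (nat_lit 4) (nat_lit 294) (nat_lit 271) (nat_lit 215)) (XT.lf (nat_lit 0) (nat_lit 78914215801) (nat_lit 152) (nat_lit 59669043336) (nat_lit 0) (nat_lit 38067277033) (nat_lit 5) (nat_lit 5) (nat_lit 7) (nat_lit 4) (nat_lit 5) (nat_lit 4) (nat_lit 295) (nat_lit 271) (nat_lit 214))) (XT.nd (nat_lit 78) (nat_lit 76) (nat_lit 0) (XT.lf (nat_lit 0) (nat_lit 115248169723) (nat_lit 152) (nat_lit 8871657093) (nat_lit 0) (nat_lit 74399381998) (nat_lit 5) (nat_lit 5) (nat_lit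 7) (nat_lit 4) (nat_lit 5) (nat_lit 4) (nat_lit 296) (nat_lit 271) (nat_lit 213)) (XT.lf (nat_lit 0) (nat_lit 54381722884) (nat_lit 76) (nat_lit 104899735824) (nat_lit 76) (nat_lit 64049340311) (nat_lit 4) (nat_lit 4) (nat_lit 5) (nat_lit 5) (nat_lit 5) (nat_lit 4) (nat_lit 297) (nat_lit 271) (nat_lit 212)))) (XT.nd (nat_lit 156) (nat_lit 152) (nat_lit 0) (XT.nd (nat_lit 78) (nat_lit 0) (nat_lit 0) (XT.lf (nat_lit 0) (nat_lit 128115341511) (nat_lit 76) (nat_lit 82265694110) (nat_lit 76) (nat_lit 41413900520) (nat_lit 4) (nat_lit 4) (nat_lit 5) (nat_lit 5) (nat_lit 5) (nat_lit 4) (nat_lit 298) (nat_lit 271) (nat_lit 211)) (XT.lf (nat_lit 0) (nat_lit 212904810213) (nat_lit 76) (nat_lit 56238607440) (nat_lit 76) (nat_lit 15385598131) (nat_lit 4) (nat_lit 4) (nat_lit 5) (nat_lit 5) (nat_lit 5) (nat_lit 4) (nat_lit 299) (nat_lit 271) (nat_lit 210))) (XT.nd (nat_lit 78) (nat_lit 76) (nat_lit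 0) (XT.lf (nat_lit 0) (nat_lit 13249936129) (nat_lit 152) (nat_lit 12366703777) (nat_lit 76) (nat_lit 296466506949) (nat_lit 3) (nat_lit 5) (nat_lit 5) (nat_lit 5) (nat_lit 4) (nat_lit 4) (nat_lit 300) (nat_lit 271) (nat_lit 209)) (XT.nd (nat_lit 78) (nat_lit 0) (nat_lit 0) (XT.lf (nat_lit 0) (nat_lit 47657312807) (nat_lit 152) (nat_lit 304914195180) (nat_lit 0) (nat_lit 12131238273) (nat_lit 2) (nat_lit 5) (nat_lit 4) (nat_lit 4) (nat_lit 2) (nat_lit 4) (nat_lit 301) (nat_lit 271) (nat_lit 208)) (XT.lf (nat_lit 0) (nat_lit 89121193240) (nat_lit 152) (nat_lit 270715360411) (nat_lit 0) (nat_lit 53594423615) (nat_lit 2) (nat_lit 5) (nat_lit 4) (nat_lit 4) (nat_lit 2) (nat_lit 4) (nat_lit 302) (nat_lit 271) (nat_lit 207)))))) (XT.nd (nat_lit 312) (nat_lit 76) (nat_lit 0) (XT.nd (nat_lit 156) (nat_lit 0) (nat_lit 0) (XT.nd (nat_lit 78) (nat_lit 0) (nat_lit 0) (XT.lf (nat_lit 0) (nat_lit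 136803206177) (nat_lit 152) (nat_lit 231389623169) (nat_lit 0) (nat_lit 101275832125) (nat_lit 2) (nat_lit 5) (nat_lit 4) (nat_lit 4) (nat_lit 2) (nat_lit 4) (nat_lit 303) (nat_lit 271) (nat_lit 206)) (XT.lf (nat_lit 0) (nat_lit 191636260566) (nat_lit 152) (nat_lit 186167566855) (nat_lit 0) (nat_lit 156108360925) (nat_lit 2) (nat_lit 5) (nat_lit 4) (nat_lit 4) (nat_lit 2) (nat_lit 4) (nat_lit 304) (nat_lit 271) (nat_lit 205))) (XT.nd (nat_lit 78) (nat_lit 0) (nat_lit 0) (XT.lf (nat_lit 0) (nat_lit 254693177037) (nat_lit 152) (nat_lit 134164412108) (nat_lit 0) (nat_lit 219164820362) (nat_lit 2) (nat_lit 5) (nat_lit 4) (nat_lit 4) (nat_lit 2) (nat_lit 4) (nat_lit 305) (nat_lit 271) (nat_lit 204)) (XT.lf (nat_lit 0) (nat_lit 327207677868) (nat_lit 152) (nat_lit 74362705899) (nat_lit 0) (nat_lit 291678923772) (nat_lit 2) (nat_lit 5) (nat_lit 4) (nat_lit 4) (nat_lit 2) (nat_lit 4) (nat_lit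 306) (nat_lit 271) (nat_lit 203)))) (XT.nd (nat_lit 156) (nat_lit 0) (nat_lit 0) (XT.nd (nat_lit 78) (nat_lit 76) (nat_lit 0) (XT.lf (nat_lit 0) (nat_lit 410598525032) (nat_lit 152) (nat_lit 5592414847) (nat_lit 0) (nat_lit 375069425353) (nat_lit 2) (nat_lit 5) (nat_lit 4) (nat_lit 4) (nat_lit 2) (nat_lit 4) (nat_lit 307) (nat_lit 271) (nat_lit 202)) (XT.lf (nat_lit 0) (nat_lit 80674136220) (nat_lit 76) (nat_lit 429163686304) (nat_lit 76) (nat_lit 393634286118) (nat_lit 1) (nat_lit 4) (nat_lit 2) (nat_lit 5) (nat_lit 2) (nat_lit 4) (nat_lit 308) (nat_lit 271) (nat_lit 201))) (XT.nd (nat_lit 78) (nat_lit 0) (nat_lit 0) (XT.lf (nat_lit 0) (nat_lit 180507794048) (nat_lit 76) (nat_lit 443746867248) (nat_lit 76) (nat_lit 408217205752) (nat_lit 1) (nat_lit 4) (nat_lit 2) (nat_lit 5) (nat_lit 2) (nat_lit 4) (nat_lit 309) (nat_lit 271) (nat_lit 200)) (XT.nd (nat_lit 78) (nat_lit 0) (nat_lit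 0) (XT.lf (nat_lit 0) (nat_lit 295315294404) (nat_lit 76) (nat_lit 460518136593) (nat_lit 76) (nat_lit 424988247870) (nat_lit 1) (nat_lit 4) (nat_lit 2) (nat_lit 5) (nat_lit 2) (nat_lit 4) (nat_lit 310) (nat_lit 271) (nat_lit 199)) (XT.lf (nat_lit 0) (nat_lit 427342870989) (nat_lit 76) (nat_lit 479805627868) (nat_lit 76) (nat_lit 444275541557) (nat_lit 1) (nat_lit 4) (nat_lit 2) (nat_lit 5) (nat_lit 2) (nat_lit 4) (nat_lit 311) (nat_lit 271) (nat_lit 198))))))) (XT.nd (nat_lit 702) (nat_lit 0) (nat_lit 0) (XT.nd (nat_lit 312) (nat_lit 0) (nat_lit 0) (XT.nd (nat_lit 156) (nat_lit 0) (nat_lit 0) (XT.nd (nat_lit 78) (nat_lit 0) (nat_lit 0) (XT.lf (nat_lit 0) (nat_lit 579173672043) (nat_lit 76) (nat_lit 501986705035) (nat_lit 76) (nat_lit 466456446907) (nat_lit 1) (nat_lit 4) (nat_lit 2) (nat_lit 5) (nat_lit 2) (nat_lit 4) (nat_lit 312) (nat_lit 271) (nat_lit 197)) (XT.lf (nat_lit 0) (nat_lit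 753778300193) (nat_lit 76) (nat_lit 527495345688) (nat_lit 76) (nat_lit 491964938156) (nat_lit 1) (nat_lit 4) (nat_lit 2) (nat_lit 5) (nat_lit 2) (nat_lit 4) (nat_lit 313) (nat_lit 271) (nat_lit 196))) (XT.nd (nat_lit 78) (nat_lit 0) (nat_lit 0) (XT.lf (nat_lit 0) (nat_lit 954572932948) (nat_lit 76) (nat_lit 556830631930) (nat_lit 76) (nat_lit 521300094479) (nat_lit 1) (nat_lit 4) (nat_lit 2) (nat_lit 5) (nat_lit 2) (nat_lit 4) (nat_lit 314) (nat_lit 271) (nat_lit 195)) (XT.lf (nat_lit 0) (nat_lit 1185486160947) (nat_lit 76) (nat_lit 590566515010) (nat_lit 76) (nat_lit 555035864589) (nat_lit 1) (nat_lit 4) (nat_lit 2) (nat_lit 5) (nat_lit 2) (nat_lit 4) (nat_lit 315) (nat_lit 271) (nat_lit 194)))) (XT.nd (nat_lit 156) (nat_lit 0) (nat_lit 0) (XT.nd (nat_lit 78) (nat_lit 0) (nat_lit 0) (XT.lf (nat_lit 0) (nat_lit 1451035851697) (nat_lit 76) (nat_lit 629363044818) (nat_lit 76) (nat_lit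 593832296159) (nat_lit 1) (nat_lit 4) (nat_lit 2) (nat_lit 5) (nat_lit 2) (nat_lit 4) (nat_lit 316) (nat_lit 271) (nat_lit 193)) (XT.lf (nat_lit 0) (nat_lit 1756417542623) (nat_lit 76) (nat_lit 673979283891) (nat_lit 76) (nat_lit 638448449810) (nat_lit 1) (nat_lit 4) (nat_lit 2) (nat_lit 5) (nat_lit 2) (nat_lit 4) (nat_lit 317) (nat_lit 271) (nat_lit 192))) (XT.nd (nat_lit 78) (nat_lit 0) (nat_lit 0) (XT.lf (nat_lit 0) (nat_lit 2107606092897) (nat_lit 76) (nat_lit 725288158646) (nat_lit 76) (nat_lit 689757250284) (nat_lit 1) (nat_lit 4) (nat_lit 2) (nat_lit 5) (nat_lit 2) (nat_lit 4) (nat_lit 318) (nat_lit 271) (nat_lit 191)) (XT.nd (nat_lit 78) (nat_lit 0) (nat_lit 0) (XT.lf (nat_lit 0) (nat_lit 2511472582850) (nat_lit 76) (nat_lit 784293538373) (nat_lit 76) (nat_lit 748762565419) (nat_lit 1) (nat_lit 4) (nat_lit 2) (nat_lit 5) (nat_lit 2) (nat_lit 4) (nat_lit 319) (nat_lit 271) (nat_lit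 190)) (XT.lf (nat_lit 0) (nat_lit 2975918748155) (nat_lit 76) (nat_lit 852149876152) (nat_lit 76) (nat_lit 816618847032) (nat_lit 1) (nat_lit 4) (nat_lit 2) (nat_lit 5) (nat_lit 2) (nat_lit 4) (nat_lit 320) (nat_lit 271) (nat_lit 189)))))) (XT.nd (nat_lit 390) (nat_lit 0) (nat_lit 0) (XT.nd (nat_lit 156) (nat_lit 0) (nat_lit 0) (XT.nd (nat_lit 78) (nat_lit 0) (nat_lit 0) (XT.lf (nat_lit 0) (nat_lit 3510031579002) (nat_lit 76) (nat_lit 930184795985) (nat_lit 76) (nat_lit 894653718023) (nat_lit 1) (nat_lit 4) (nat_lit 2) (nat_lit 5) (nat_lit 2) (nat_lit 4) (nat_lit 321) (nat_lit 271) (nat_lit 188)) (XT.lf (nat_lit 0) (nat_lit 4124261109039) (nat_lit 76) (nat_lit 1019925068041) (nat_lit 76) (nat_lit 984393947609) (nat_lit 1) (nat_lit 4) (nat_lit 2) (nat_lit 5) (nat_lit 2) (nat_lit 4) (nat_lit 322) (nat_lit 271) (nat_lit 187))) (XT.nd (nat_lit 78) (nat_lit 0) (nat_lit 0) (XT.lf (nat_lit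 0) (nat_lit 4830624872549) (nat_lit 76) (nat_lit 1123126480252) (nat_lit 76) (nat_lit 1087595322889) (nat_lit 1) (nat_lit 4) (nat_lit 2) (nat_lit 5) (nat_lit 2) (nat_lit 4) (nat_lit 323) (nat_lit 271) (nat_lit 186)) (XT.nd (nat_lit 78) (nat_lit 0) (nat_lit 0) (XT.lf (nat_lit 0) (nat_lit 5642943030123) (nat_lit 76) (nat_lit 1241808190683) (nat_lit 76) (nat_lit 1206277001207) (nat_lit 1) (nat_lit 4) (nat_lit 2) (nat_lit 5) (nat_lit 2) (nat_lit 4) (nat_lit 324) (nat_lit 271) (nat_lit 185)) (XT.lf (nat_lit 0) (nat_lit 6577108763103) (nat_lit 76) (nat_lit 1378292232799) (nat_lit 76) (nat_lit 1342761015398) (nat_lit 1) (nat_lit 4) (nat_lit 2) (nat_lit 5) (nat_lit 2) (nat_lit 4) (nat_lit 325) (nat_lit 271) (nat_lit 184))))) (XT.nd (nat_lit 156) (nat_lit 0) (nat_lit 0) (XT.nd (nat_lit 78) (nat_lit 0) (nat_lit 0) (XT.lf (nat_lit 0) (nat_lit 7651399227136) (nat_lit 76) (nat_lit 1535248946555)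 (nat_lit 76) (nat_lit 1499717704871) (nat_lit 1) (nat_lit 4) (nat_lit 2) (nat_lit 5) (nat_lit 2) (nat_lit 4) (nat_lit 326) (nat_lit 271) (nat_lit 183)) (XT.lf (nat_lit 0) (nat_lit 8886833148692) (nat_lit 76) (nat_lit 1715749224175) (nat_lit 76) (nat_lit 1680217961376) (nat_lit 1) (nat_lit 4) (nat_lit 2) (nat_lit 5) (nat_lit 2) (nat_lit 4) (nat_lit 327) (nat_lit 271) (nat_lit 182))) (XT.nd (nat_lit 78) (nat_lit 0) (nat_lit 0) (XT.lf (nat_lit 0) (nat_lit 10307582061019) (nat_lit 76) (nat_lit 1923324592832) (nat_lit 76) (nat_lit 1887793311672) (nat_lit 1) (nat_lit 4) (nat_lit 2) (nat_lit 5) (nat_lit 2) (nat_lit 4) (nat_lit 328) (nat_lit 271) (nat_lit 181)) (XT.nd (nat_lit 78) (nat_lit 0) (nat_lit 0) (XT.lf (nat_lit 0) (nat_lit 11941443225444) (nat_lit 76) (nat_lit 2162036309737) (nat_lit 76) (nat_lit 2126505012611) (nat_lit 1) (nat_lit 4) (nat_lit 2) (nat_lit 5) (nat_lit 2) (nat_lit 4)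 (nat_lit 329) (nat_lit 271) (nat_lit 180)) (XT.lf (nat_lit 0) (nat_lit 13820383490837) (nat_lit 76) (nat_lit 2436554821526) (nat_lit 76) (nat_lit 2401023510517) (nat_lit 1) (nat_lit 4) (nat_lit 2) (nat_lit 5) (nat_lit 2) (nat_lit 4) (nat_lit 330) (nat_lit 271) (nat_lit 179))))))))
noncomputable def xc72 : XT := (XT.nd (nat_lit 36660) (nat_lit 0) (nat_lit 304) (XT.nd (nat_lit 702) (nat_lit 0) (nat_lit 0) (XT.nd (nat_lit 312) (nat_lit 0) (nat_lit 0) (XT.nd (nat_lit 156) (nat_lit 0) (nat_lit 0) (XT.nd (nat_lit 78) (nat_lit 0) (nat_lit 0) (XT.lf (nat_lit 0) (nat_lit 15981164731956) (nat_lit 76) (nat_lit 2752251142560) (nat_lit 76) (nat_lit 2716719819478) (nat_lit 1) (nat_lit 4) (nat_lit 2) (nat_lit 5) (nat_lit 2) (nat_lit 4) (nat_lit 331) (nat_lit 271) (nat_lit 178)) (XT.lf (nat_lit 0) (nat_lit 18466063103518) (nat_lit 76) (nat_lit 3115301939990) (nat_lit 76) (nat_lit 3079770606410) (nat_lit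 1) (nat_lit 4) (nat_lit 2) (nat_lit 5) (nat_lit 2) (nat_lit 4) (nat_lit 332) (nat_lit 271) (nat_lit 177))) (XT.nd (nat_lit 78) (nat_lit 0) (nat_lit 0) (XT.lf (nat_lit 0) (nat_lit 21323696182358) (nat_lit 76) (nat_lit 3532810381591) (nat_lit 76) (nat_lit 3497279038882) (nat_lit 1) (nat_lit 4) (nat_lit 2) (nat_lit 5) (nat_lit 2) (nat_lit 4) (nat_lit 333) (nat_lit 271) (nat_lit 176)) (XT.lf (nat_lit 0) (nat_lit 24609974180887) (nat_lit 76) (nat_lit 4012945110787) (nat_lit 76) (nat_lit 3977413760140) (nat_lit 1) (nat_lit 4) (nat_lit 2) (nat_lit 5) (nat_lit 2) (nat_lit 4) (nat_lit 334) (nat_lit 271) (nat_lit 175)))) (XT.nd (nat_lit 156) (nat_lit 0) (nat_lit 0) (XT.nd (nat_lit 78) (nat_lit 0) (nat_lit 0) (XT.lf (nat_lit 0) (nat_lit 28389193842557) (nat_lit 76) (nat_lit 4565100067930) (nat_lit 76) (nat_lit 4529568710380) (nat_lit 1) (nat_lit 4) (nat_lit 2) (nat_lit 5) (nat_lit 2) (nat_lit 4)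 (nat_lit 335) (nat_lit 271) (nat_lit 174)) (XT.lf (nat_lit 0) (nat_lit 32735296421616) (nat_lit 76) (nat_lit 5200078284791) (nat_lit 76) (nat_lit 5164546921239) (nat_lit 1) (nat_lit 4) (nat_lit 2) (nat_lit 5) (nat_lit 2) (nat_lit 4) (nat_lit 336) (nat_lit 271) (nat_lit 173))) (XT.nd (nat_lit 78) (nat_lit 0) (nat_lit 0) (XT.lf (nat_lit 0) (nat_lit 37733314359829) (nat_lit 76) (nat_lit 5930303248222) (nat_lit 76) (nat_lit 5894771879451) (nat_lit 1) (nat_lit 4) (nat_lit 2) (nat_lit 5) (nat_lit 2) (nat_lit 4) (nat_lit 337) (nat_lit 271) (nat_lit 172)) (XT.nd (nat_lit 78) (nat_lit 0) (nat_lit 0) (XT.lf (nat_lit 0) (nat_lit 43481034964683) (nat_lit 76) (nat_lit 6770061968377) (nat_lit 76) (nat_lit 6734530595067) (nat_lit 1) (nat_lit 4) (nat_lit 2) (nat_lit 5) (nat_lit 2) (nat_lit 4) (nat_lit 338) (nat_lit 271) (nat_lit 171)) (XT.lf (nat_lit 0) (nat_lit 50090913639316) (nat_lit 76) (nat_lit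 7735784507172) (nat_lit 76) (nat_lit 7700253129915) (nat_lit 1) (nat_lit 4) (nat_lit 2) (nat_lit 5) (nat_lit 2) (nat_lit 4) (nat_lit 339) (nat_lit 271) (nat_lit 170)))))) (XT.nd (nat_lit 35568) (nat_lit 0) (nat_lit 1292) (XT.nd (nat_lit 35412) (nat_lit 0) (nat_lit 1444) (XT.nd (nat_lit 35334) (nat_lit 0) (nat_lit 1444) (XT.lf (nat_lit 0) (nat_lit 57692274096927) (nat_lit 76) (nat_lit 8846365436018) (nat_lit 76) (nat_lit 8810834055329) (nat_lit 1) (nat_lit 4) (nat_lit 2) (nat_lit 5) (nat_lit 2) (nat_lit 4) (nat_lit 340) (nat_lit 271) (nat_lit 169)) (XT.lf (nat_lit 0) (nat_lit 1225386224) (nat_lit 380) (nat_lit 4860018345) (nat_lit 380) (nat_lit 4860018345) (nat_lit 20) (nat_lit 3) (nat_lit 25) (nat_lit 3) (nat_lit 25) (nat_lit 5) (nat_lit 272) (nat_lit 272) (nat_lit 236))) (XT.nd (nat_lit 78) (nat_lit 0) (nat_lit 76) (XT.lf (nat_lit 76) (nat_lit 443152645) (nat_lit 0) (nat_lit 2334369269)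 (nat_lit 380) (nat_lit 20733148912) (nat_lit 21) (nat_lit 5) (nat_lit 20) (nat_lit 3) (nat_lit 25) (nat_lit 5) (nat_lit 273) (nat_lit 272) (nat_lit 235)) (XT.lf (nat_lit 0) (nat_lit 4034906814) (nat_lit 304) (nat_lit 12487900100) (nat_lit 380) (nat_lit 8718516636) (nat_lit 21) (nat_lit 5) (nat_lit 25) (nat_lit 5) (nat_lit 26) (nat_lit 5) (nat_lit 274) (nat_lit 272) (nat_lit 234)))) (XT.nd (nat_lit 156) (nat_lit 228) (nat_lit 0) (XT.nd (nat_lit 78) (nat_lit 0) (nat_lit 76) (XT.lf (nat_lit 0) (nat_lit 5572576976) (nat_lit 304) (nat_lit 448090072) (nat_lit 380) (nat_lit 21197240233) (nat_lit 21) (nat_lit 5) (nat_lit 25) (nat_lit 5) (nat_lit 26) (nat_lit 5) (nat_lit 275) (nat_lit 272) (nat_lit 233)) (XT.lf (nat_lit 0) (nat_lit 8212234817) (nat_lit 304) (nat_lit 14990117458) (nat_lit 76) (nat_lit 6157999395) (nat_lit 22) (nat_lit 5) (nat_lit 26) (nat_lit 5) (nat_lit 23) (nat_lit 5) (nat_lit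 276) (nat_lit 272) (nat_lit 232))) (XT.nd (nat_lit 78) (nat_lit 304) (nat_lit 0) (XT.lf (nat_lit 0) (nat_lit 11543906667) (nat_lit 304) (nat_lit 662187907) (nat_lit 76) (nat_lit 19573722408) (nat_lit 22) (nat_lit 5) (nat_lit 26) (nat_lit 5) (nat_lit 23) (nat_lit 5) (nat_lit 277) (nat_lit 272) (nat_lit 231)) (XT.nd (nat_lit 78) (nat_lit 0) (nat_lit 0) (XT.lf (nat_lit 0) (nat_lit 16132786504) (nat_lit 380) (nat_lit 17163106803) (nat_lit 76) (nat_lit 1152745911) (nat_lit 18) (nat_lit 5) (nat_lit 23) (nat_lit 5) (nat_lit 19) (nat_lit 5) (nat_lit 278) (nat_lit 272) (nat_lit 230)) (XT.lf (nat_lit 0) (nat_lit 22015470787) (nat_lit 380) (nat_lit 110243614) (nat_lit 76) (nat_lit 15301297959) (nat_lit 18) (nat_lit 5) (nat_lit 23) (nat_lit 5) (nat_lit 19) (nat_lit 5) (nat_lit 279) (nat_lit 272) (nat_lit 229))))))) (XT.nd (nat_lit 702) (nat_lit 304) (nat_lit 0) (XT.nd (nat_lit 312) (nat_lit 228)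 (nat_lit 0) (XT.nd (nat_lit 156) (nat_lit 228) (nat_lit 0) (XT.nd (nat_lit 78) (nat_lit 76) (nat_lit 0) (XT.lf (nat_lit 0) (nat_lit 21392356033) (nat_lit 152) (nat_lit 8263550218) (nat_lit 228) (nat_lit 11064975064) (nat_lit 16) (nat_lit 5) (nat_lit 18) (nat_lit 5) (nat_lit 19) (nat_lit 5) (nat_lit 280) (nat_lit 272) (nat_lit 228)) (XT.lf (nat_lit 0) (nat_lit 1419452974) (nat_lit 76) (nat_lit 37395990746) (nat_lit 152) (nat_lit 5637468019) (nat_lit 15) (nat_lit 5) (nat_lit 16) (nat_lit 5) (nat_lit 17) (nat_lit 4) (nat_lit 281) (nat_lit 272) (nat_lit 227))) (XT.nd (nat_lit 78) (nat_lit 152) (nat_lit 0) (XT.lf (nat_lit 0) (nat_lit 1992919877) (nat_lit 152) (nat_lit 21621755047) (nat_lit 76) (nat_lit 24909965660) (nat_lit 14) (nat_lit 5) (nat_lit 16) (nat_lit 5) (nat_lit 15) (nat_lit 5) (nat_lit 282) (nat_lit 272) (nat_lit 226)) (XT.lf (nat_lit 0) (nat_lit 2987174509) (nat_lit 152) (nat_lit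 7319016802) (nat_lit 228) (nat_lit 42843369694) (nat_lit 12) (nat_lit 5) (nat_lit 14) (nat_lit 5) (nat_lit 15) (nat_lit 5) (nat_lit 283) (nat_lit 272) (nat_lit 225)))) (XT.nd (nat_lit 156) (nat_lit 152) (nat_lit 0) (XT.nd (nat_lit 78) (nat_lit 76) (nat_lit 0) (XT.lf (nat_lit 0) (nat_lit 21515657072) (nat_lit 228) (nat_lit 25120463419) (nat_lit 76) (nat_lit 11584739400) (nat_lit 12) (nat_lit 5) (nat_lit 15) (nat_lit 5) (nat_lit 13) (nat_lit 4) (nat_lit 284) (nat_lit 272) (nat_lit 224)) (XT.lf (nat_lit 0) (nat_lit 3642673548) (nat_lit 76) (nat_lit 31256478038) (nat_lit 152) (nat_lit 29079828901) (nat_lit 11) (nat_lit 5) (nat_lit 12) (nat_lit 5) (nat_lit 13) (nat_lit 4) (nat_lit 285) (nat_lit 272) (nat_lit 223))) (XT.nd (nat_lit 78) (nat_lit 152) (nat_lit 0) (XT.lf (nat_lit 0) (nat_lit 39533125648) (nat_lit 76) (nat_lit 12063860580) (nat_lit 152) (nat_lit 18807826388) (nat_lit 11) (nat_lit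 5) (nat_lit 12) (nat_lit 5) (nat_lit 13) (nat_lit 4) (nat_lit 286) (nat_lit 272) (nat_lit 222)) (XT.nd (nat_lit 78) (nat_lit 76) (nat_lit 0) (XT.lf (nat_lit 0) (nat_lit 2841509381) (nat_lit 76) (nat_lit 68484419439) (nat_lit 76) (nat_lit 6389639601) (nat_lit 10) (nat_lit 4) (nat_lit 11) (nat_lit 5) (nat_lit 11) (nat_lit 4) (nat_lit 287) (nat_lit 272) (nat_lit 221)) (XT.lf (nat_lit 0) (nat_lit 9448266145) (nat_lit 152) (nat_lit 41787512024) (nat_lit 76) (nat_lit 34499226683) (nat_lit 9) (nat_lit 5) (nat_lit 11) (nat_lit 5) (nat_lit 10) (nat_lit 4) (nat_lit 288) (nat_lit 272) (nat_lit 220)))))) (XT.nd (nat_lit 312) (nat_lit 152) (nat_lit 0) (XT.nd (nat_lit 156) (nat_lit 76) (nat_lit 0) (XT.nd (nat_lit 78) (nat_lit 76) (nat_lit 0) (XT.lf (nat_lit 0) (nat_lit 27002867234) (nat_lit 152) (nat_lit 4050775685) (nat_lit 76) (nat_lit 63858804571) (nat_lit 9) (nat_lit 5) (nat_lit 11) (nat_lit 5)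 (nat_lit 10) (nat_lit 4) (nat_lit 289) (nat_lit 272) (nat_lit 219)) (XT.lf (nat_lit 0) (nat_lit 43183557703) (nat_lit 76) (nat_lit 5791054484) (nat_lit 152) (nat_lit 56224309154) (nat_lit 8) (nat_lit 5) (nat_lit 9) (nat_lit 5) (nat_lit 10) (nat_lit 4) (nat_lit 290) (nat_lit 272) (nat_lit 218))) (XT.nd (nat_lit 78) (nat_lit 76) (nat_lit 0) (XT.lf (nat_lit 0) (nat_lit 75423069719) (nat_lit 152) (nat_lit 20019121705) (nat_lit 0) (nat_lit 21409039067) (nat_lit 8) (nat_lit 5) (nat_lit 10) (nat_lit 4) (nat_lit 8) (nat_lit 4) (nat_lit 291) (nat_lit 272) (nat_lit 217)) (XT.lf (nat_lit 0) (nat_lit 30730033908) (nat_lit 76) (nat_lit 76653458997) (nat_lit 76) (nat_lit 22636194508) (nat_lit 7) (nat_lit 4) (nat_lit 8) (nat_lit 5) (nat_lit 8) (nat_lit 4) (nat_lit 292) (nat_lit 272) (nat_lit 216)))) (XT.nd (nat_lit 156) (nat_lit 76) (nat_lit 0) (XT.nd (nat_lit 78) (nat_lit 0) (nat_lit 0) (XT.lf (nat_lit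 0) (nat_lit 158648672) (nat_lit 152) (nat_lit 53678981874) (nat_lit 76) (nat_lit 91168237357) (nat_lit 6) (nat_lit 5) (nat_lit 8) (nat_lit 5) (nat_lit 7) (nat_lit 4) (nat_lit 293) (nat_lit 272) (nat_lit 215)) (XT.lf (nat_lit 0) (nat_lit 24052164549) (nat_lit 152) (nat_lit 2310367983) (nat_lit 76) (nat_lit 135716215540) (nat_lit 6) (nat_lit 5) (nat_lit 8) (nat_lit 5) (nat_lit 7) (nat_lit 4) (nat_lit 294) (nat_lit 272) (nat_lit 214))) (XT.nd (nat_lit 78) (nat_lit 0) (nat_lit 0) (XT.lf (nat_lit 0) (nat_lit 54446477593) (nat_lit 152) (nat_lit 119360047857) (nat_lit 0) (nat_lit 7468522753) (nat_lit 5) (nat_lit 5) (nat_lit 7) (nat_lit 4) (nat_lit 5) (nat_lit 4) (nat_lit 295) (nat_lit 272) (nat_lit 213)) (XT.nd (nat_lit 78) (nat_lit 0) (nat_lit 0) (XT.lf (nat_lit 0) (nat_lit 90779227236) (nat_lit 152) (nat_lit 68565011022) (nat_lit 0) (nat_lit 43799664608) (nat_lit 5) (nat_lit 5) (nat_lit 7)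 (nat_lit 4) (nat_lit 5) (nat_lit 4) (nat_lit 296) (nat_lit 272) (nat_lit 212)) (XT.lf (nat_lit 0) (nat_lit 132559637847) (nat_lit 152) (nat_lit 10155111036) (nat_lit 0) (nat_lit 85578677142) (nat_lit 5) (nat_lit 5) (nat_lit 7) (nat_lit 4) (nat_lit 5) (nat_lit 4) (nat_lit 297) (nat_lit 272) (nat_lit 211))))))))
noncomputable def xc73 : XT := (XT.nd (nat_lit 1404) (nat_lit 0) (nat_lit 0) (XT.nd (nat_lit 702) (nat_lit 76) (nat_lit 0) (XT.nd (nat_lit 312) (nat_lit 76) (nat_lit 0) (XT.nd (nat_lit 156) (nat_lit 76) (nat_lit 0) (XT.nd (nat_lit 78) (nat_lit 0) (nat_lit 0) (XT.lf (nat_lit 0) (nat_lit 62584126183) (nat_lit 76) (nat_lit 120612501263) (nat_lit 76) (nat_lit 73630324839) (nat_lit 4) (nat_lit 4) (nat_lit 5) (nat_lit 5) (nat_lit 5) (nat_lit 4) (nat_lit 298) (nat_lit 272) (nat_lit 210)) (XT.lf (nat_lit 0) (nat_lit 147371899143) (nat_lit 76) (nat_lit 94586248284) (nat_lit 76) (nat_lit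 47603014713) (nat_lit 4) (nat_lit 4) (nat_lit 5) (nat_lit 5) (nat_lit 5) (nat_lit 4) (nat_lit 299) (nat_lit 272) (nat_lit 209))) (XT.nd (nat_lit 78) (nat_lit 76) (nat_lit 0) (XT.lf (nat_lit 0) (nat_lit 244874667749) (nat_lit 76) (nat_lit 64657615997) (nat_lit 76) (nat_lit 17673463167) (nat_lit 4) (nat_lit 4) (nat_lit 5) (nat_lit 5) (nat_lit 5) (nat_lit 4) (nat_lit 300) (nat_lit 272) (nat_lit 208)) (XT.lf (nat_lit 0) (nat_lit 15253249504) (nat_lit 152) (nat_lit 14190465749) (nat_lit 76) (nat_lit 340949516409) (nat_lit 3) (nat_lit 5) (nat_lit 5) (nat_lit 5) (nat_lit 4) (nat_lit 4) (nat_lit 301) (nat_lit 272) (nat_lit 207)))) (XT.nd (nat_lit 156) (nat_lit 0) (nat_lit 0) (XT.nd (nat_lit 78) (nat_lit 0) (nat_lit 0) (XT.lf (nat_lit 0) (nat_lit 54821517799) (nat_lit 152) (nat_lit 350619853997) (nat_lit 0) (nat_lit 13964433211) (nat_lit 2) (nat_lit 5) (nat_lit 4) (nat_lit 4) (nat_lit 2) (nat_lit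 4) (nat_lit 302) (nat_lit 272) (nat_lit 206)) (XT.lf (nat_lit 0) (nat_lit 102502944462) (nat_lit 152) (nat_lit 311295298855) (nat_lit 0) (nat_lit 61645334286) (nat_lit 2) (nat_lit 5) (nat_lit 4) (nat_lit 4) (nat_lit 2) (nat_lit 4) (nat_lit 303) (nat_lit 272) (nat_lit 205))) (XT.nd (nat_lit 78) (nat_lit 0) (nat_lit 0) (XT.lf (nat_lit 0) (nat_lit 157335489048) (nat_lit 152) (nat_lit 266074270455) (nat_lit 0) (nat_lit 116477421838) (nat_lit 2) (nat_lit 5) (nat_lit 4) (nat_lit 4) (nat_lit 2) (nat_lit 4) (nat_lit 304) (nat_lit 272) (nat_lit 204)) (XT.nd (nat_lit 78) (nat_lit 0) (nat_lit 0) (XT.lf (nat_lit 0) (nat_lit 220391962211) (nat_lit 152) (nat_lit 214072009545) (nat_lit 0) (nat_lit 179533497581) (nat_lit 2) (nat_lit 5) (nat_lit 4) (nat_lit 4) (nat_lit 2) (nat_lit 4) (nat_lit 305) (nat_lit 272) (nat_lit 203)) (XT.lf (nat_lit 0) (nat_lit 292906077558) (nat_lit 152) (nat_lit 154271080587)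 (nat_lit 0) (nat_lit 252047267344) (nat_lit 2) (nat_lit 5) (nat_lit 4) (nat_lit 4) (nat_lit 2) (nat_lit 4) (nat_lit 306) (nat_lit 272) (nat_lit 202)))))) (XT.nd (nat_lit 312) (nat_lit 0) (nat_lit 0) (XT.nd (nat_lit 156) (nat_lit 76) (nat_lit 0) (XT.nd (nat_lit 78) (nat_lit 0) (nat_lit 0) (XT.lf (nat_lit 0) (nat_lit 376296589518) (nat_lit 152) (nat_lit 85501465404) (nat_lit 0) (nat_lit 335437478797) (nat_lit 2) (nat_lit 5) (nat_lit 4) (nat_lit 4) (nat_lit 2) (nat_lit 4) (nat_lit 307) (nat_lit 272) (nat_lit 201)) (XT.lf (nat_lit 0) (nat_lit 472195051586) (nat_lit 152) (nat_lit 6417671526) (nat_lit 0) (nat_lit 431335679555) (nat_lit 2) (nat_lit 5) (nat_lit 4) (nat_lit 4) (nat_lit 2) (nat_lit 4) (nat_lit 308) (nat_lit 272) (nat_lit 200))) (XT.nd (nat_lit 78) (nat_lit 0) (nat_lit 0) (XT.lf (nat_lit 0) (nat_lit 92788243767) (nat_lit 76) (nat_lit 493531657556) (nat_lit 76) (nat_lit 452672058298)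 (nat_lit 1) (nat_lit 4) (nat_lit 2) (nat_lit 5) (nat_lit 2) (nat_lit 4) (nat_lit 309) (nat_lit 272) (nat_lit 199)) (XT.lf (nat_lit 0) (nat_lit 207595256298) (nat_lit 76) (nat_lit 510303174124) (nat_lit 76) (nat_lit 469443377277) (nat_lit 1) (nat_lit 4) (nat_lit 2) (nat_lit 5) (nat_lit 2) (nat_lit 4) (nat_lit 310) (nat_lit 272) (nat_lit 198)))) (XT.nd (nat_lit 156) (nat_lit 0) (nat_lit 0) (XT.nd (nat_lit 78) (nat_lit 0) (nat_lit 0) (XT.lf (nat_lit 0) (nat_lit 339622408688) (nat_lit 76) (nat_lit 529590880376) (nat_lit 76) (nat_lit 488730911713) (nat_lit 1) (nat_lit 4) (nat_lit 2) (nat_lit 5) (nat_lit 2) (nat_lit 4) (nat_lit 311) (nat_lit 272) (nat_lit 197)) (XT.lf (nat_lit 0) (nat_lit 491452840876) (nat_lit 76) (nat_lit 551772144478) (nat_lit 76) (nat_lit 510912026411) (nat_lit 1) (nat_lit 4) (nat_lit 2) (nat_lit 5) (nat_lit 2) (nat_lit 4) (nat_lit 312) (nat_lit 272) (nat_lit 196))) (XT.nd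 (nat_lit 78) (nat_lit 0) (nat_lit 0) (XT.lf (nat_lit 0) (nat_lit 666057148274) (nat_lit 76) (nat_lit 577280947685) (nat_lit 76) (nat_lit 536420699700) (nat_lit 1) (nat_lit 4) (nat_lit 2) (nat_lit 5) (nat_lit 2) (nat_lit 4) (nat_lit 313) (nat_lit 272) (nat_lit 195)) (XT.nd (nat_lit 78) (nat_lit 0) (nat_lit 0) (XT.lf (nat_lit 0) (nat_lit 866851502113) (nat_lit 76) (nat_lit 606616375277) (nat_lit 76) (nat_lit 565756014320) (nat_lit 1) (nat_lit 4) (nat_lit 2) (nat_lit 5) (nat_lit 2) (nat_lit 4) (nat_lit 314) (nat_lit 272) (nat_lit 194)) (XT.lf (nat_lit 0) (nat_lit 1097764487578) (nat_lit 76) (nat_lit 640352381271) (nat_lit 76) (nat_lit 599491922078) (nat_lit 1) (nat_lit 4) (nat_lit 2) (nat_lit 5) (nat_lit 2) (nat_lit 4) (nat_lit 315) (nat_lit 272) (nat_lit 193))))))) (XT.nd (nat_lit 702) (nat_lit 0) (nat_lit 0) (XT.nd (nat_lit 312) (nat_lit 0) (nat_lit 0) (XT.nd (nat_lit 156) (nat_lit 0)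 (nat_lit 0) (XT.nd (nat_lit 78) (nat_lit 0) (nat_lit 0) (XT.lf (nat_lit 0) (nat_lit 1363313967427) (nat_lit 76) (nat_lit 679149017960) (nat_lit 76) (nat_lit 638288473344) (nat_lit 1) (nat_lit 4) (nat_lit 2) (nat_lit 5) (nat_lit 2) (nat_lit 4) (nat_lit 316) (nat_lit 272) (nat_lit 192)) (XT.lf (nat_lit 0) (nat_lit 1668695474962) (nat_lit 76) (nat_lit 723765349973) (nat_lit 76) (nat_lit 682904731076) (nat_lit 1) (nat_lit 4) (nat_lit 2) (nat_lit 5) (nat_lit 2) (nat_lit 4) (nat_lit 317) (nat_lit 272) (nat_lit 191))) (XT.nd (nat_lit 78) (nat_lit 0) (nat_lit 0) (XT.lf (nat_lit 0) (nat_lit 2019883865765) (nat_lit 76) (nat_lit 775074305546) (nat_lit 76) (nat_lit 734213622057) (nat_lit 1) (nat_lit 4) (nat_lit 2) (nat_lit 5) (nat_lit 2) (nat_lit 4) (nat_lit 318) (nat_lit 272) (nat_lit 190)) (XT.lf (nat_lit 0) (nat_lit 2423750217048) (nat_lit 76) (nat_lit 834079755549) (nat_lit 76) (nat_lit 793219015893)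 (nat_lit 1) (nat_lit 4) (nat_lit 2) (nat_lit 5) (nat_lit 2) (nat_lit 4) (nat_lit 319) (nat_lit 272) (nat_lit 189)))) (XT.nd (nat_lit 156) (nat_lit 0) (nat_lit 0) (XT.nd (nat_lit 78) (nat_lit 0) (nat_lit 0) (XT.lf (nat_lit 0) (nat_lit 2888196261770) (nat_lit 76) (nat_lit 901936154438) (nat_lit 76) (nat_lit 861075365942) (nat_lit 1) (nat_lit 4) (nat_lit 2) (nat_lit 5) (nat_lit 2) (nat_lit 4) (nat_lit 320) (nat_lit 272) (nat_lit 188)) (XT.lf (nat_lit 0) (nat_lit 3422308987762) (nat_lit 76) (nat_lit 979971127410) (nat_lit 76) (nat_lit 939110296443) (nat_lit 1) (nat_lit 4) (nat_lit 2) (nat_lit 5) (nat_lit 2) (nat_lit 4) (nat_lit 321) (nat_lit 272) (nat_lit 187))) (XT.nd (nat_lit 78) (nat_lit 0) (nat_lit 0) (XT.lf (nat_lit 0) (nat_lit 4036538426621) (nat_lit 76) (nat_lit 1069711445674) (nat_lit 76) (nat_lit 1028850577776) (nat_lit 1) (nat_lit 4) (nat_lit 2) (nat_lit 5) (nat_lit 2) (nat_lit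 4) (nat_lit 322) (nat_lit 272) (nat_lit 186)) (XT.nd (nat_lit 78) (nat_lit 0) (nat_lit 0) (XT.lf (nat_lit 0) (nat_lit 4742902110846) (nat_lit 76) (nat_lit 1172912898065) (nat_lit 76) (nat_lit 1132051998054) (nat_lit 1) (nat_lit 4) (nat_lit 2) (nat_lit 5) (nat_lit 2) (nat_lit 4) (nat_lit 323) (nat_lit 272) (nat_lit 185)) (XT.lf (nat_lit 0) (nat_lit 5555220199476) (nat_lit 76) (nat_lit 1291594643436) (nat_lit 76) (nat_lit 1250733715500) (nat_lit 1) (nat_lit 4) (nat_lit 2) (nat_lit 5) (nat_lit 2) (nat_lit 4) (nat_lit 324) (nat_lit 272) (nat_lit 184)))))) (XT.nd (nat_lit 390) (nat_lit 0) (nat_lit 0) (XT.nd (nat_lit 156) (nat_lit 0) (nat_lit 0) (XT.nd (nat_lit 78) (nat_lit 0) (nat_lit 0) (XT.lf (nat_lit 0) (nat_lit 6489385872506) (nat_lit 76) (nat_lit 1428078715934) (nat_lit 76) (nat_lit 1387217763716) (nat_lit 1) (nat_lit 4) (nat_lit 2) (nat_lit 5) (nat_lit 2) (nat_lit 4) (nat_lit 325) (nat_lit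 272) (nat_lit 183)) (XT.lf (nat_lit 0) (nat_lit 7563676284408) (nat_lit 76) (nat_lit 1585035456109) (nat_lit 76) (nat_lit 1544174482776) (nat_lit 1) (nat_lit 4) (nat_lit 2) (nat_lit 5) (nat_lit 2) (nat_lit 4) (nat_lit 326) (nat_lit 272) (nat_lit 182))) (XT.nd (nat_lit 78) (nat_lit 0) (nat_lit 0) (XT.lf (nat_lit 0) (nat_lit 8799110160632) (nat_lit 76) (nat_lit 1765535756703) (nat_lit 76) (nat_lit 1724674765008) (nat_lit 1) (nat_lit 4) (nat_lit 2) (nat_lit 5) (nat_lit 2) (nat_lit 4) (nat_lit 327) (nat_lit 272) (nat_lit 181)) (XT.nd (nat_lit 78) (nat_lit 0) (nat_lit 0) (XT.lf (nat_lit 0) (nat_lit 10219859033540) (nat_lit 76) (nat_lit 1973111145337) (nat_lit 76) (nat_lit 1932250137676) (nat_lit 1) (nat_lit 4) (nat_lit 2) (nat_lit 5) (nat_lit 2) (nat_lit 4) (nat_lit 328) (nat_lit 272) (nat_lit 180)) (XT.lf (nat_lit 0) (nat_lit 11853720163688) (nat_lit 76) (nat_lit 2211822879613) (nat_lit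 76) (nat_lit 2170961858069) (nat_lit 1) (nat_lit 4) (nat_lit 2) (nat_lit 5) (nat_lit 2) (nat_lit 4) (nat_lit 329) (nat_lit 272) (nat_lit 179))))) (XT.nd (nat_lit 156) (nat_lit 0) (nat_lit 0) (XT.nd (nat_lit 78) (nat_lit 0) (nat_lit 0) (XT.lf (nat_lit 0) (nat_lit 13732660399275) (nat_lit 76) (nat_lit 2486341406508) (nat_lit 76) (nat_lit 2445480372891) (nat_lit 1) (nat_lit 4) (nat_lit 2) (nat_lit 5) (nat_lit 2) (nat_lit 4) (nat_lit 330) (nat_lit 272) (nat_lit 178)) (XT.lf (nat_lit 0) (nat_lit 15893441614475) (nat_lit 76) (nat_lit 2802037740677) (nat_lit 76) (nat_lit 2761176696562) (nat_lit 1) (nat_lit 4) (nat_lit 2) (nat_lit 5) (nat_lit 2) (nat_lit 4) (nat_lit 331) (nat_lit 272) (nat_lit 177))) (XT.nd (nat_lit 78) (nat_lit 0) (nat_lit 0) (XT.lf (nat_lit 0) (nat_lit 18378339963499) (nat_lit 76) (nat_lit 3165088549529) (nat_lit 76) (nat_lit 3124227496285) (nat_lit 1) (nat_lit 4) (nat_lit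 2) (nat_lit 5) (nat_lit 2) (nat_lit 4) (nat_lit 332) (nat_lit 272) (nat_lit 176)) (XT.nd (nat_lit 78) (nat_lit 0) (nat_lit 0) (XT.lf (nat_lit 0) (nat_lit 21235973022741) (nat_lit 76) (nat_lit 3582597001062) (nat_lit 76) (nat_lit 3541735939880) (nat_lit 1) (nat_lit 4) (nat_lit 2) (nat_lit 5) (nat_lit 2) (nat_lit 4) (nat_lit 333) (nat_lit 272) (nat_lit 175)) (XT.lf (nat_lit 0) (nat_lit 24522251004229) (nat_lit 76) (nat_lit 4062731738894) (nat_lit 76) (nat_lit 4021870670809) (nat_lit 1) (nat_lit 4) (nat_lit 2) (nat_lit 5) (nat_lit 2) (nat_lit 4) (nat_lit 334) (nat_lit 272) (nat_lit 174))))))))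
noncomputable def xc74 : XT := (XT.nd (nat_lit 36816) (nat_lit 0) (nat_lit 76) (XT.nd (nat_lit 36114) (nat_lit 0) (nat_lit 836) (XT.nd (nat_lit 312) (nat_lit 0) (nat_lit 0) (XT.nd (nat_lit 156) (nat_lit 0) (nat_lit 0) (XT.nd (nat_lit 78) (nat_lit 0) (nat_lit 0) (XT.lf (nat_lit 0) (nat_lit 28301470651080) (nat_lit 76) (nat_lit 4614886703547) (nat_lit 76) (nat_lit 4574025629460) (nat_lit 1) (nat_lit 4) (nat_lit 2) (nat_lit 5) (nat_lit 2) (nat_lit 4) (nat_lit 335) (nat_lit 272) (nat_lit 173)) (XT.lf (nat_lit 0) (nat_lit 32647573217253) (nat_lit 76) (nat_lit 5249864926939) (nat_lit 76) (nat_lit 5209003847633) (nat_lit 1) (nat_lit 4) (nat_lit 2) (nat_lit 5) (nat_lit 2) (nat_lit 4) (nat_lit 336) (nat_lit 272) (nat_lit 172))) (XT.nd (nat_lit 78) (nat_lit 0) (nat_lit 0) (XT.lf (nat_lit 0) (nat_lit 37645591144261) (nat_lit 76) (nat_lit 5980089896049) (nat_lit 76) (nat_lit 5939228812204) (nat_lit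 1) (nat_lit 4) (nat_lit 2) (nat_lit 5) (nat_lit 2) (nat_lit 4) (nat_lit 337) (nat_lit 272) (nat_lit 171)) (XT.lf (nat_lit 0) (nat_lit 43393311739371) (nat_lit 76) (nat_lit 6819848621141) (nat_lit 76) (nat_lit 6778987533350) (nat_lit 1) (nat_lit 4) (nat_lit 2) (nat_lit 5) (nat_lit 2) (nat_lit 4) (nat_lit 338) (nat_lit 272) (nat_lit 170)))) (XT.nd (nat_lit 35568) (nat_lit 0) (nat_lit 1444) (XT.nd (nat_lit 35490) (nat_lit 0) (nat_lit 1444) (XT.lf (nat_lit 0) (nat_lit 50003190405531) (nat_lit 76) (nat_lit 7785571164230) (nat_lit 76) (nat_lit 7744710073007) (nat_lit 1) (nat_lit 4) (nat_lit 2) (nat_lit 5) (nat_lit 2) (nat_lit 4) (nat_lit 339) (nat_lit 272) (nat_lit 169)) (XT.lf (nat_lit 0) (nat_lit 1528626614) (nat_lit 380) (nat_lit 5520085158) (nat_lit 380) (nat_lit 5520085158) (nat_lit 20) (nat_lit 3) (nat_lit 25) (nat_lit 3) (nat_lit 25) (nat_lit 5) (nat_lit 273) (nat_lit 273) (nat_lit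 234))) (XT.nd (nat_lit 78) (nat_lit 0) (nat_lit 76) (XT.lf (nat_lit 76) (nat_lit 641230516) (nat_lit 0) (nat_lit 2766077785) (nat_lit 380) (nat_lit 23597077167) (nat_lit 21) (nat_lit 5) (nat_lit 20) (nat_lit 3) (nat_lit 25) (nat_lit 5) (nat_lit 274) (nat_lit 273) (nat_lit 233)) (XT.nd (nat_lit 78) (nat_lit 0) (nat_lit 0) (XT.lf (nat_lit 0) (nat_lit 4822561235) (nat_lit 304) (nat_lit 14215113031) (nat_lit 380) (nat_lit 9961691782) (nat_lit 21) (nat_lit 5) (nat_lit 25) (nat_lit 5) (nat_lit 26) (nat_lit 5) (nat_lit 275) (nat_lit 273) (nat_lit 232)) (XT.lf (nat_lit 0) (nat_lit 6567088217) (nat_lit 304) (nat_lit 388371335) (nat_lit 380) (nat_lit 24320650312) (nat_lit 21) (nat_lit 5) (nat_lit 25) (nat_lit 5) (nat_lit 26) (nat_lit 5) (nat_lit 276) (nat_lit 273) (nat_lit 231)))))) (XT.nd (nat_lit 312) (nat_lit 456) (nat_lit 0) (XT.nd (nat_lit 156) (nat_lit 304) (nat_lit 0) (XT.nd (nat_lit 78)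 (nat_lit 0) (nat_lit 0) (XT.lf (nat_lit 0) (nat_lit 9586119405) (nat_lit 304) (nat_lit 17094527671) (nat_lit 76) (nat_lit 7061850110) (nat_lit 22) (nat_lit 5) (nat_lit 26) (nat_lit 5) (nat_lit 23) (nat_lit 5) (nat_lit 277) (nat_lit 273) (nat_lit 230)) (XT.lf (nat_lit 0) (nat_lit 13399013855) (nat_lit 304) (nat_lit 636205305) (nat_lit 76) (nat_lit 22492520600) (nat_lit 22) (nat_lit 5) (nat_lit 26) (nat_lit 5) (nat_lit 23) (nat_lit 5) (nat_lit 278) (nat_lit 273) (nat_lit 229))) (XT.nd (nat_lit 78) (nat_lit 0) (nat_lit 0) (XT.lf (nat_lit 0) (nat_lit 18665367499) (nat_lit 380) (nat_lit 19600950309) (nat_lit 76) (nat_lit 1332264283) (nat_lit 18) (nat_lit 5) (nat_lit 23) (nat_lit 5) (nat_lit 19) (nat_lit 5) (nat_lit 279) (nat_lit 273) (nat_lit 228)) (XT.lf (nat_lit 0) (nat_lit 25415759247) (nat_lit 380) (nat_lit 7977970) (nat_lit 76) (nat_lit 17602237423) (nat_lit 18) (nat_lit 5) (nat_lit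 23) (nat_lit 5) (nat_lit 19) (nat_lit 5) (nat_lit 280) (nat_lit 273) (nat_lit 227)))) (XT.nd (nat_lit 156) (nat_lit 228) (nat_lit 0) (XT.nd (nat_lit 78) (nat_lit 76) (nat_lit 0) (XT.lf (nat_lit 0) (nat_lit 24714611525) (nat_lit 152) (nat_lit 9479565831) (nat_lit 228) (nat_lit 12621010427) (nat_lit 16) (nat_lit 5) (nat_lit 18) (nat_lit 5) (nat_lit 19) (nat_lit 5) (nat_lit 281) (nat_lit 273) (nat_lit 226)) (XT.lf (nat_lit 0) (nat_lit 1752886133) (nat_lit 76) (nat_lit 42968872208) (nat_lit 152) (nat_lit 6386192229) (nat_lit 15) (nat_lit 5) (nat_lit 16) (nat_lit 5) (nat_lit 17) (nat_lit 4) (nat_lit 282) (nat_lit 273) (nat_lit 225))) (XT.nd (nat_lit 78) (nat_lit 152) (nat_lit 0) (XT.lf (nat_lit 0) (nat_lit 2368614069) (nat_lit 152) (nat_lit 24752495794) (nat_lit 76) (nat_lit 28670487879) (nat_lit 14) (nat_lit 5) (nat_lit 16) (nat_lit 5) (nat_lit 15) (nat_lit 5) (nat_lit 283) (nat_lit 273)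 (nat_lit 224)) (XT.nd (nat_lit 78) (nat_lit 0) (nat_lit 0) (XT.lf (nat_lit 0) (nat_lit 3542658536) (nat_lit 152) (nat_lit 8380653533) (nat_lit 228) (nat_lit 49187808192) (nat_lit 12) (nat_lit 5) (nat_lit 14) (nat_lit 5) (nat_lit 15) (nat_lit 5) (nat_lit 284) (nat_lit 273) (nat_lit 223)) (XT.lf (nat_lit 0) (nat_lit 24806215789) (nat_lit 228) (nat_lit 28786982387) (nat_lit 76) (nat_lit 13351138666) (nat_lit 12) (nat_lit 5) (nat_lit 15) (nat_lit 5) (nat_lit 13) (nat_lit 4) (nat_lit 285) (nat_lit 273) (nat_lit 222))))))) (XT.nd (nat_lit 702) (nat_lit 304) (nat_lit 0) (XT.nd (nat_lit 312) (nat_lit 228) (nat_lit 0) (XT.nd (nat_lit 156) (nat_lit 152) (nat_lit 0) (XT.nd (nat_lit 78) (nat_lit 0) (nat_lit 0) (XT.lf (nat_lit 0) (nat_lit 4286009192) (nat_lit 76) (nat_lit 35906994341) (nat_lit 152) (nat_lit 33373828877) (nat_lit 11) (nat_lit 5) (nat_lit 12) (nat_lit 5) (nat_lit 13) (nat_lit 4) (nat_lit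 286) (nat_lit 273) (nat_lit 221)) (XT.lf (nat_lit 0) (nat_lit 45547385461) (nat_lit 76) (nat_lit 13840434970) (nat_lit 152) (nat_lit 21569892208) (nat_lit 11) (nat_lit 5) (nat_lit 12) (nat_lit 5) (nat_lit 13) (nat_lit 4) (nat_lit 287) (nat_lit 273) (nat_lit 220))) (XT.nd (nat_lit 78) (nat_lit 76) (nat_lit 0) (XT.lf (nat_lit 0) (nat_lit 3354357144) (nat_lit 76) (nat_lit 78719832955) (nat_lit 76) (nat_lit 7291195679) (nat_lit 10) (nat_lit 4) (nat_lit 11) (nat_lit 5) (nat_lit 11) (nat_lit 4) (nat_lit 288) (nat_lit 273) (nat_lit 219)) (XT.lf (nat_lit 0) (nat_lit 10910571400) (nat_lit 152) (nat_lit 47975827025) (nat_lit 76) (nat_lit 39702012582) (nat_lit 9) (nat_lit 5) (nat_lit 11) (nat_lit 5) (nat_lit 10) (nat_lit 4) (nat_lit 289) (nat_lit 273) (nat_lit 218)))) (XT.nd (nat_lit 156) (nat_lit 152) (nat_lit 0) (XT.nd (nat_lit 78) (nat_lit 76) (nat_lit 0) (XT.lf (nat_lit 0) (nat_lit 31092484565)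 (nat_lit 152) (nat_lit 4588990470) (nat_lit 76) (nat_lit 73461887776) (nat_lit 9) (nat_lit 5) (nat_lit 11) (nat_lit 5) (nat_lit 10) (nat_lit 4) (nat_lit 290) (nat_lit 273) (nat_lit 217)) (XT.lf (nat_lit 0) (nat_lit 49727338310) (nat_lit 76) (nat_lit 6630284716) (nat_lit 152) (nat_lit 64615549564) (nat_lit 8) (nat_lit 5) (nat_lit 9) (nat_lit 5) (nat_lit 10) (nat_lit 4) (nat_lit 291) (nat_lit 273) (nat_lit 216))) (XT.nd (nat_lit 78) (nat_lit 152) (nat_lit 0) (XT.lf (nat_lit 0) (nat_lit 86769606315) (nat_lit 152) (nat_lit 22960585305) (nat_lit 0) (nat_lit 24643706285) (nat_lit 8) (nat_lit 5) (nat_lit 10) (nat_lit 4) (nat_lit 8) (nat_lit 4) (nat_lit 292) (nat_lit 273) (nat_lit 215)) (XT.nd (nat_lit 78) (nat_lit 76) (nat_lit 0) (XT.lf (nat_lit 0) (nat_lit 35398152530) (nat_lit 76) (nat_lit 88124053231) (nat_lit 76) (nat_lit 25995707956) (nat_lit 7) (nat_lit 4) (nat_lit 8) (nat_lit 5) (nat_lit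 8) (nat_lit 4) (nat_lit 293) (nat_lit 273) (nat_lit 214)) (XT.lf (nat_lit 0) (nat_lit 210896636) (nat_lit 152) (nat_lit 61677043807) (nat_lit 76) (nat_lit 104864503397) (nat_lit 6) (nat_lit 5) (nat_lit 8) (nat_lit 5) (nat_lit 7) (nat_lit 4) (nat_lit 294) (nat_lit 273) (nat_lit 213)))))) (XT.nd (nat_lit 390) (nat_lit 152) (nat_lit 0) (XT.nd (nat_lit 156) (nat_lit 76) (nat_lit 0) (XT.nd (nat_lit 78) (nat_lit 76) (nat_lit 0) (XT.lf (nat_lit 0) (nat_lit 27684728938) (nat_lit 152) (nat_lit 2610153313) (nat_lit 76) (nat_lit 156091935206) (nat_lit 6) (nat_lit 5) (nat_lit 8) (nat_lit 5) (nat_lit 7) (nat_lit 4) (nat_lit 295) (nat_lit 273) (nat_lit 212)) (XT.lf (nat_lit 0) (nat_lit 62637691897) (nat_lit 152) (nat_lit 137216760414) (nat_lit 0) (nat_lit 8608189010) (nat_lit 5) (nat_lit 5) (nat_lit 7) (nat_lit 4) (nat_lit 5) (nat_lit 4) (nat_lit 296) (nat_lit 273) (nat_lit 211))) (XT.nd (nat_lit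 78) (nat_lit 76) (nat_lit 0) (XT.lf (nat_lit 0) (nat_lit 104417191900) (nat_lit 152) (nat_lit 78808636918) (nat_lit 0) (nat_lit 50386473293) (nat_lit 5) (nat_lit 5) (nat_lit 7) (nat_lit 4) (nat_lit 5) (nat_lit 4) (nat_lit 297) (nat_lit 273) (nat_lit 210)) (XT.nd (nat_lit 78) (nat_lit 76) (nat_lit 0) (XT.lf (nat_lit 0) (nat_lit 152461914462) (nat_lit 152) (nat_lit 11642616163) (nat_lit 0) (nat_lit 98430138708) (nat_lit 5) (nat_lit 5) (nat_lit 7) (nat_lit 4) (nat_lit 5) (nat_lit 4) (nat_lit 298) (nat_lit 273) (nat_lit 209)) (XT.lf (nat_lit 0) (nat_lit 72005881114) (nat_lit 76) (nat_lit 138687593893) (nat_lit 76) (nat_lit 84654898882) (nat_lit 4) (nat_lit 4) (nat_lit 5) (nat_lit 5) (nat_lit 5) (nat_lit 4) (nat_lit 299) (nat_lit 273) (nat_lit 208))))) (XT.nd (nat_lit 156) (nat_lit 152) (nat_lit 0) (XT.nd (nat_lit 78) (nat_lit 0) (nat_lit 0) (XT.lf (nat_lit 0) (nat_lit 169507367497) (nat_lit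 76) (nat_lit 108759591996) (nat_lit 76) (nat_lit 54726097630) (nat_lit 4) (nat_lit 4) (nat_lit 5) (nat_lit 5) (nat_lit 5) (nat_lit 4) (nat_lit 300) (nat_lit 273) (nat_lit 207)) (XT.lf (nat_lit 0) (nat_lit 281631679635) (nat_lit 76) (nat_lit 74343568370) (nat_lit 76) (nat_lit 20309378912) (nat_lit 4) (nat_lit 4) (nat_lit 5) (nat_lit 5) (nat_lit 5) (nat_lit 4) (nat_lit 301) (nat_lit 273) (nat_lit 206))) (XT.nd (nat_lit 78) (nat_lit 76) (nat_lit 0) (XT.lf (nat_lit 0) (nat_lit 17553201357) (nat_lit 152) (nat_lit 16295410966) (nat_lit 76) (nat_lit 392101799007) (nat_lit 3) (nat_lit 5) (nat_lit 5) (nat_lit 5) (nat_lit 4) (nat_lit 4) (nat_lit 302) (nat_lit 273) (nat_lit 205)) (XT.nd (nat_lit 78) (nat_lit 0) (nat_lit 0) (XT.lf (nat_lit 0) (nat_lit 63056547412) (nat_lit 152) (nat_lit 403189035908) (nat_lit 0) (nat_lit 16069313087) (nat_lit 2) (nat_lit 5) (nat_lit 4) (nat_lit 4) (nat_lit 2) (nat_lit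 4) (nat_lit 303) (nat_lit 273) (nat_lit 204)) (XT.lf (nat_lit 0) (nat_lit 117888648691) (nat_lit 152) (nat_lit 357968901345) (nat_lit 0) (nat_lit 70901016945) (nat_lit 2) (nat_lit 5) (nat_lit 4) (nat_lit 4) (nat_lit 2) (nat_lit 4) (nat_lit 304) (nat_lit 273) (nat_lit 203))))))))
noncomputable def xc75 : XT := (XT.nd (nat_lit 1404) (nat_lit 0) (nat_lit 0) (XT.nd (nat_lit 702) (nat_lit 0) (nat_lit 0) (XT.nd (nat_lit 312) (nat_lit 76) (nat_lit 0) (XT.nd (nat_lit 156) (nat_lit 0) (nat_lit 0) (XT.nd (nat_lit 78) (nat_lit 0) (nat_lit 0) (XT.lf (nat_lit 0) (nat_lit 180944736370) (nat_lit 152) (nat_lit 305967417686) (nat_lit 0) (nat_lit 133956759041) (nat_lit 2) (nat_lit 5) (nat_lit 4) (nat_lit 4) (nat_lit 2) (nat_lit 4) (nat_lit 305) (nat_lit 273) (nat_lit 202)) (XT.lf (nat_lit 0) (nat_lit 253458516513) (nat_lit 152) (nat_lit 246167164597) (nat_lit 0) (nat_lit 206470238676) (nat_lit 2) (nat_lit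 5) (nat_lit 4) (nat_lit 4) (nat_lit 2) (nat_lit 4) (nat_lit 306) (nat_lit 273) (nat_lit 201))) (XT.nd (nat_lit 78) (nat_lit 0) (nat_lit 0) (XT.lf (nat_lit 0) (nat_lit 336848736991) (nat_lit 152) (nat_lit 177398137126) (nat_lit 0) (nat_lit 289860197844) (nat_lit 2) (nat_lit 5) (nat_lit 4) (nat_lit 4) (nat_lit 2) (nat_lit 4) (nat_lit 307) (nat_lit 273) (nat_lit 200)) (XT.lf (nat_lit 0) (nat_lit 432746945598) (nat_lit 152) (nat_lit 98314854303) (nat_lit 0) (nat_lit 385758179224) (nat_lit 2) (nat_lit 5) (nat_lit 4) (nat_lit 4) (nat_lit 2) (nat_lit 4) (nat_lit 308) (nat_lit 273) (nat_lit 199)))) (XT.nd (nat_lit 156) (nat_lit 0) (nat_lit 0) (XT.nd (nat_lit 78) (nat_lit 76) (nat_lit 0) (XT.lf (nat_lit 0) (nat_lit 543029411630) (nat_lit 152) (nat_lit 7370034506) (nat_lit 0) (nat_lit 496040447669) (nat_lit 2) (nat_lit 5) (nat_lit 4) (nat_lit 4) (nat_lit 2) (nat_lit 4) (nat_lit 309) (nat_lit 273)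 (nat_lit 198)) (XT.lf (nat_lit 0) (nat_lit 106716300457) (nat_lit 76) (nat_lit 567556429484) (nat_lit 76) (nat_lit 520567293706) (nat_lit 1) (nat_lit 4) (nat_lit 2) (nat_lit 5) (nat_lit 2) (nat_lit 4) (nat_lit 310) (nat_lit 273) (nat_lit 197))) (XT.nd (nat_lit 78) (nat_lit 0) (nat_lit 0) (XT.lf (nat_lit 0) (nat_lit 238743083981) (nat_lit 76) (nat_lit 586844322672) (nat_lit 76) (nat_lit 539855037489) (nat_lit 1) (nat_lit 4) (nat_lit 2) (nat_lit 5) (nat_lit 2) (nat_lit 4) (nat_lit 311) (nat_lit 273) (nat_lit 196)) (XT.nd (nat_lit 78) (nat_lit 0) (nat_lit 0) (XT.lf (nat_lit 0) (nat_lit 390573195416) (nat_lit 76) (nat_lit 609025749328) (nat_lit 76) (nat_lit 562036334227) (nat_lit 1) (nat_lit 4) (nat_lit 2) (nat_lit 5) (nat_lit 2) (nat_lit 4) (nat_lit 312) (nat_lit 273) (nat_lit 195)) (XT.lf (nat_lit 0) (nat_lit 565177223899) (nat_lit 76) (nat_lit 634534693885) (nat_lit 76) (nat_lit 587545165813)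 (nat_lit 1) (nat_lit 4) (nat_lit 2) (nat_lit 5) (nat_lit 2) (nat_lit 4) (nat_lit 313) (nat_lit 273) (nat_lit 194)))))) (XT.nd (nat_lit 312) (nat_lit 0) (nat_lit 0) (XT.nd (nat_lit 156) (nat_lit 0) (nat_lit 0) (XT.nd (nat_lit 78) (nat_lit 0) (nat_lit 0) (XT.lf (nat_lit 0) (nat_lit 765971335203) (nat_lit 76) (nat_lit 663870244390) (nat_lit 76) (nat_lit 616880618082) (nat_lit 1) (nat_lit 4) (nat_lit 2) (nat_lit 5) (nat_lit 2) (nat_lit 4) (nat_lit 314) (nat_lit 273) (nat_lit 193)) (XT.lf (nat_lit 0) (nat_lit 996884109768) (nat_lit 76) (nat_lit 697606357266) (nat_lit 76) (nat_lit 650616645535) (nat_lit 1) (nat_lit 4) (nat_lit 2) (nat_lit 5) (nat_lit 2) (nat_lit 4) (nat_lit 315) (nat_lit 273) (nat_lit 192))) (XT.nd (nat_lit 78) (nat_lit 0) (nat_lit 0) (XT.lf (nat_lit 0) (nat_lit 1262433406225) (nat_lit 76) (nat_lit 736403086895) (nat_lit 76) (nat_lit 689413300883) (nat_lit 1) (nat_lit 4) (nat_lit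 2) (nat_lit 5) (nat_lit 2) (nat_lit 4) (nat_lit 316) (nat_lit 273) (nat_lit 191)) (XT.lf (nat_lit 0) (nat_lit 1567814754290) (nat_lit 76) (nat_lit 781019499726) (nat_lit 76) (nat_lit 734029649122) (nat_lit 1) (nat_lit 4) (nat_lit 2) (nat_lit 5) (nat_lit 2) (nat_lit 4) (nat_lit 317) (nat_lit 273) (nat_lit 190)))) (XT.nd (nat_lit 156) (nat_lit 0) (nat_lit 0) (XT.nd (nat_lit 78) (nat_lit 0) (nat_lit 0) (XT.lf (nat_lit 0) (nat_lit 1919003006422) (nat_lit 76) (nat_lit 832328525575) (nat_lit 76) (nat_lit 785338618804) (nat_lit 1) (nat_lit 4) (nat_lit 2) (nat_lit 5) (nat_lit 2) (nat_lit 4) (nat_lit 318) (nat_lit 273) (nat_lit 189)) (XT.lf (nat_lit 0) (nat_lit 2322869237122) (nat_lit 76) (nat_lit 891334036688) (nat_lit 76) (nat_lit 844344081076) (nat_lit 1) (nat_lit 4) (nat_lit 2) (nat_lit 5) (nat_lit 2) (nat_lit 4) (nat_lit 319) (nat_lit 273) (nat_lit 188))) (XT.nd (nat_lit 78) (nat_lit 0)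 (nat_lit 0) (XT.lf (nat_lit 0) (nat_lit 2787315176989) (nat_lit 76) (nat_lit 959190488716) (nat_lit 76) (nat_lit 912200490634) (nat_lit 1) (nat_lit 4) (nat_lit 2) (nat_lit 5) (nat_lit 2) (nat_lit 4) (nat_lit 320) (nat_lit 273) (nat_lit 187)) (XT.nd (nat_lit 78) (nat_lit 0) (nat_lit 0) (XT.lf (nat_lit 0) (nat_lit 3321427811804) (nat_lit 76) (nat_lit 1037225507895) (nat_lit 76) (nat_lit 990235472882) (nat_lit 1) (nat_lit 4) (nat_lit 2) (nat_lit 5) (nat_lit 2) (nat_lit 4) (nat_lit 321) (nat_lit 273) (nat_lit 186)) (XT.lf (nat_lit 0) (nat_lit 3935657171378) (nat_lit 76) (nat_lit 1126965866339) (nat_lit 76) (nat_lit 1079975799213) (nat_lit 1) (nat_lit 4) (nat_lit 2) (nat_lit 5) (nat_lit 2) (nat_lit 4) (nat_lit 322) (nat_lit 273) (nat_lit 185))))))) (XT.nd (nat_lit 702) (nat_lit 0) (nat_lit 0) (XT.nd (nat_lit 312) (nat_lit 0) (nat_lit 0) (XT.nd (nat_lit 156) (nat_lit 0) (nat_lit 0) (XT.nd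 (nat_lit 78) (nat_lit 0) (nat_lit 0) (XT.lf (nat_lit 0) (nat_lit 4642020786659) (nat_lit 76) (nat_lit 1230167353671) (nat_lit 76) (nat_lit 1183177258619) (nat_lit 1) (nat_lit 4) (nat_lit 2) (nat_lit 5) (nat_lit 2) (nat_lit 4) (nat_lit 323) (nat_lit 273) (nat_lit 184)) (XT.lf (nat_lit 0) (nat_lit 5454338815338) (nat_lit 76) (nat_lit 1348849129424) (nat_lit 76) (nat_lit 1301859010090) (nat_lit 1) (nat_lit 4) (nat_lit 2) (nat_lit 5) (nat_lit 2) (nat_lit 4) (nat_lit 324) (nat_lit 273) (nat_lit 183))) (XT.nd (nat_lit 78) (nat_lit 0) (nat_lit 0) (XT.lf (nat_lit 0) (nat_lit 6388504436237) (nat_lit 76) (nat_lit 1485333228342) (nat_lit 76) (nat_lit 1438343087893) (nat_lit 1) (nat_lit 4) (nat_lit 2) (nat_lit 5) (nat_lit 2) (nat_lit 4) (nat_lit 325) (nat_lit 273) (nat_lit 182)) (XT.lf (nat_lit 0) (nat_lit 7462794802807) (nat_lit 76) (nat_lit 1642289991490) (nat_lit 76) (nat_lit 1595299832680) (nat_lit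 1) (nat_lit 4) (nat_lit 2) (nat_lit 5) (nat_lit 2) (nat_lit 4) (nat_lit 326) (nat_lit 273) (nat_lit 181)))) (XT.nd (nat_lit 156) (nat_lit 0) (nat_lit 0) (XT.nd (nat_lit 78) (nat_lit 0) (nat_lit 0) (XT.lf (nat_lit 0) (nat_lit 8698228639613) (nat_lit 76) (nat_lit 1822790312061) (nat_lit 76) (nat_lit 1775800137285) (nat_lit 1) (nat_lit 4) (nat_lit 2) (nat_lit 5) (nat_lit 2) (nat_lit 4) (nat_lit 327) (nat_lit 273) (nat_lit 180)) (XT.lf (nat_lit 0) (nat_lit 10118977478244) (nat_lit 76) (nat_lit 2030365718066) (nat_lit 76) (nat_lit 1983375529406) (nat_lit 1) (nat_lit 4) (nat_lit 2) (nat_lit 5) (nat_lit 2) (nat_lit 4) (nat_lit 328) (nat_lit 273) (nat_lit 179))) (XT.nd (nat_lit 78) (nat_lit 0) (nat_lit 0) (XT.lf (nat_lit 0) (nat_lit 11752838578585) (nat_lit 76) (nat_lit 2269077467447) (nat_lit 76) (nat_lit 2222087266715) (nat_lit 1) (nat_lit 4) (nat_lit 2) (nat_lit 5) (nat_lit 2) (nat_lit 4)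 (nat_lit 329) (nat_lit 273) (nat_lit 178)) (XT.nd (nat_lit 78) (nat_lit 0) (nat_lit 0) (XT.lf (nat_lit 0) (nat_lit 13631778788254) (nat_lit 76) (nat_lit 2543596007477) (nat_lit 76) (nat_lit 2496605796247) (nat_lit 1) (nat_lit 4) (nat_lit 2) (nat_lit 5) (nat_lit 2) (nat_lit 4) (nat_lit 330) (nat_lit 273) (nat_lit 177)) (XT.lf (nat_lit 0) (nat_lit 15792559980916) (nat_lit 76) (nat_lit 2859292353068) (nat_lit 76) (nat_lit 2812302132709) (nat_lit 1) (nat_lit 4) (nat_lit 2) (nat_lit 5) (nat_lit 2) (nat_lit 4) (nat_lit 331) (nat_lit 273) (nat_lit 176)))))) (XT.nd (nat_lit 390) (nat_lit 0) (nat_lit 0) (XT.nd (nat_lit 156) (nat_lit 0) (nat_lit 0) (XT.nd (nat_lit 78) (nat_lit 0) (nat_lit 0) (XT.lf (nat_lit 0) (nat_lit 18277458310342) (nat_lit 76) (nat_lit 3222343171852) (nat_lit 76) (nat_lit 3175352943555) (nat_lit 1) (nat_lit 4) (nat_lit 2) (nat_lit 5) (nat_lit 2) (nat_lit 4) (nat_lit 332) (nat_lit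 273) (nat_lit 175)) (XT.lf (nat_lit 0) (nat_lit 21135091352542) (nat_lit 76) (nat_lit 3639851632022) (nat_lit 76) (nat_lit 3592861396822) (nat_lit 1) (nat_lit 4) (nat_lit 2) (nat_lit 5) (nat_lit 2) (nat_lit 4) (nat_lit 333) (nat_lit 273) (nat_lit 174))) (XT.nd (nat_lit 78) (nat_lit 0) (nat_lit 0) (XT.lf (nat_lit 0) (nat_lit 24421369319211) (nat_lit 76) (nat_lit 4119986377364) (nat_lit 76) (nat_lit 4072996136162) (nat_lit 1) (nat_lit 4) (nat_lit 2) (nat_lit 5) (nat_lit 2) (nat_lit 4) (nat_lit 334) (nat_lit 273) (nat_lit 173)) (XT.nd (nat_lit 78) (nat_lit 0) (nat_lit 0) (XT.lf (nat_lit 0) (nat_lit 28200588953176) (nat_lit 76) (nat_lit 4672141348547) (nat_lit 76) (nat_lit 4625151102126) (nat_lit 1) (nat_lit 4) (nat_lit 2) (nat_lit 5) (nat_lit 2) (nat_lit 4) (nat_lit 335) (nat_lit 273) (nat_lit 172)) (XT.lf (nat_lit 0) (nat_lit 32546691508144) (nat_lit 76) (nat_lit 5307119577618) (nat_lit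 76) (nat_lit 5260129326658) (nat_lit 1) (nat_lit 4) (nat_lit 2) (nat_lit 5) (nat_lit 2) (nat_lit 4) (nat_lit 336) (nat_lit 273) (nat_lit 171))))) (XT.nd (nat_lit 156) (nat_lit 0) (nat_lit 0) (XT.nd (nat_lit 78) (nat_lit 0) (nat_lit 0) (XT.lf (nat_lit 0) (nat_lit 37544709425408) (nat_lit 76) (nat_lit 6037344551666) (nat_lit 76) (nat_lit 5990354296759) (nat_lit 1) (nat_lit 4) (nat_lit 2) (nat_lit 5) (nat_lit 2) (nat_lit 4) (nat_lit 337) (nat_lit 273) (nat_lit 170)) (XT.lf (nat_lit 0) (nat_lit 43292430012045) (nat_lit 76) (nat_lit 6877103281052) (nat_lit 76) (nat_lit 6830113022714) (nat_lit 1) (nat_lit 4) (nat_lit 2) (nat_lit 5) (nat_lit 2) (nat_lit 4) (nat_lit 338) (nat_lit 273) (nat_lit 169))) (XT.nd (nat_lit 546) (nat_lit 0) (nat_lit 0) (XT.lf (nat_lit 0) (nat_lit 49902308670837) (nat_lit 76) (nat_lit 7842825827875) (nat_lit 76) (nat_lit 7795835566552) (nat_lit 1) (nat_lit 4) (nat_lit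 2) (nat_lit 5) (nat_lit 2) (nat_lit 4) (nat_lit 339) (nat_lit 273) (nat_lit 168)) (XT.nd (nat_lit 78) (nat_lit 0) (nat_lit 0) (XT.lf (nat_lit 0) (nat_lit 134025038105033) (nat_lit 76) (nat_lit 20133402179467) (nat_lit 76) (nat_lit 20086411905729) (nat_lit 1) (nat_lit 4) (nat_lit 2) (nat_lit 5) (nat_lit 2) (nat_lit 4) (nat_lit 346) (nat_lit 273) (nat_lit 161)) (XT.lf (nat_lit 0) (nat_lit 154244807906693) (nat_lit 76) (nat_lit 23087569597075) (nat_lit 76) (nat_lit 23040579322361) (nat_lit 1) (nat_lit 4) (nat_lit 2) (nat_lit 5) (nat_lit 2) (nat_lit 4) (nat_lit 347) (nat_lit 273) (nat_lit 160))))))))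
noncomputable def xc76 : XT := (XT.nd (nat_lit 36192) (nat_lit 0) (nat_lit 76) (XT.nd (nat_lit 35490) (nat_lit 0) (nat_lit 608) (XT.nd (nat_lit 35100) (nat_lit 0) (nat_lit 1140) (XT.nd (nat_lit 34944) (nat_lit 0) (nat_lit 1444) (XT.nd (nat_lit 34866) (nat_lit 0) (nat_lit 1444) (XT.lf (nat_lit 0) (nat_lit 177497543174098) (nat_lit 76) (nat_lit 26484862129605) (nat_lit 76) (nat_lit 26437871854043) (nat_lit 1) (nat_lit 4) (nat_lit 2) (nat_lit 5) (nat_lit 2) (nat_lit 4) (nat_lit 348) (nat_lit 273) (nat_lit 159)) (XT.lf (nat_lit 0) (nat_lit 1848228701) (nat_lit 380) (nat_lit 6295972458) (nat_lit 380) (nat_lit 6295972458) (nat_lit 20) (nat_lit 3) (nat_lit 25) (nat_lit 3) (nat_lit 25) (nat_lit 5) (nat_lit 274) (nat_lit 274) (nat_lit 232))) (XT.nd (nat_lit 78) (nat_lit 0) (nat_lit 76) (XT.lf (nat_lit 76) (nat_lit 836927360) (nat_lit 0) (nat_lit 3242655332) (nat_lit 380) (nat_lit 26950594068)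 (nat_lit 21) (nat_lit 5) (nat_lit 20) (nat_lit 3) (nat_lit 25) (nat_lit 5) (nat_lit 275) (nat_lit 274) (nat_lit 231)) (XT.lf (nat_lit 0) (nat_lit 5683879938) (nat_lit 304) (nat_lit 16237004119) (nat_lit 380) (nat_lit 11407096891) (nat_lit 21) (nat_lit 5) (nat_lit 25) (nat_lit 5) (nat_lit 26) (nat_lit 5) (nat_lit 276) (nat_lit 274) (nat_lit 230)))) (XT.nd (nat_lit 156) (nat_lit 380) (nat_lit 0) (XT.nd (nat_lit 78) (nat_lit 0) (nat_lit 76) (XT.lf (nat_lit 0) (nat_lit 7672094508) (nat_lit 304) (nat_lit 350648021) (nat_lit 380) (nat_lit 27926270765) (nat_lit 21) (nat_lit 5) (nat_lit 25) (nat_lit 5) (nat_lit 26) (nat_lit 5) (nat_lit 277) (nat_lit 274) (nat_lit 229)) (XT.lf (nat_lit 0) (nat_lit 11131447044) (nat_lit 304) (nat_lit 19549740919) (nat_lit 76) (nat_lit 8106118784) (nat_lit 22) (nat_lit 5) (nat_lit 26) (nat_lit 5) (nat_lit 23) (nat_lit 5) (nat_lit 278) (nat_lit 274) (nat_lit 228)))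 (XT.nd (nat_lit 78) (nat_lit 456) (nat_lit 0) (XT.lf (nat_lit 0) (nat_lit 15502265697) (nat_lit 304) (nat_lit 636883142) (nat_lit 76) (nat_lit 25853347523) (nat_lit 22) (nat_lit 5) (nat_lit 26) (nat_lit 5) (nat_lit 23) (nat_lit 5) (nat_lit 279) (nat_lit 274) (nat_lit 227)) (XT.nd (nat_lit 78) (nat_lit 152) (nat_lit 0) (XT.lf (nat_lit 0) (nat_lit 21550362052) (nat_lit 380) (nat_lit 22437786606) (nat_lit 76) (nat_lit 1537099378) (nat_lit 18) (nat_lit 5) (nat_lit 23) (nat_lit 5) (nat_lit 19) (nat_lit 5) (nat_lit 280) (nat_lit 274) (nat_lit 226)) (XT.lf (nat_lit 0) (nat_lit 88539230) (nat_lit 152) (nat_lit 29217327888) (nat_lit 228) (nat_lit 20162043898) (nat_lit 16) (nat_lit 5) (nat_lit 18) (nat_lit 5) (nat_lit 19) (nat_lit 5) (nat_lit 281) (nat_lit 274) (nat_lit 225)))))) (XT.nd (nat_lit 312) (nat_lit 228) (nat_lit 0) (XT.nd (nat_lit 156) (nat_lit 228) (nat_lit 0) (XT.nd (nat_lit 78) (nat_lit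 76) (nat_lit 0) (XT.lf (nat_lit 0) (nat_lit 28507551524) (nat_lit 152) (nat_lit 10883718535) (nat_lit 228) (nat_lit 14435741654) (nat_lit 16) (nat_lit 5) (nat_lit 18) (nat_lit 5) (nat_lit 19) (nat_lit 5) (nat_lit 282) (nat_lit 274) (nat_lit 224)) (XT.lf (nat_lit 0) (nat_lit 2106945867) (nat_lit 76) (nat_lit 49386590828) (nat_lit 152) (nat_lit 7270853771) (nat_lit 15) (nat_lit 5) (nat_lit 16) (nat_lit 5) (nat_lit 17) (nat_lit 4) (nat_lit 283) (nat_lit 274) (nat_lit 223))) (XT.nd (nat_lit 78) (nat_lit 152) (nat_lit 0) (XT.lf (nat_lit 0) (nat_lit 2781944902) (nat_lit 152) (nat_lit 28380286979) (nat_lit 76) (nat_lit 32989229204) (nat_lit 14) (nat_lit 5) (nat_lit 16) (nat_lit 5) (nat_lit 15) (nat_lit 5) (nat_lit 284) (nat_lit 274) (nat_lit 222)) (XT.lf (nat_lit 0) (nat_lit 4155273083) (nat_lit 152) (nat_lit 9610367223) (nat_lit 228) (nat_lit 56503925012) (nat_lit 12) (nat_lit 5) (nat_lit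 14) (nat_lit 5) (nat_lit 15) (nat_lit 5) (nat_lit 285) (nat_lit 274) (nat_lit 221)))) (XT.nd (nat_lit 156) (nat_lit 152) (nat_lit 0) (XT.nd (nat_lit 78) (nat_lit 76) (nat_lit 0) (XT.lf (nat_lit 0) (nat_lit 28574944117) (nat_lit 228) (nat_lit 33028242944) (nat_lit 76) (nat_lit 15375501984) (nat_lit 12) (nat_lit 5) (nat_lit 15) (nat_lit 5) (nat_lit 13) (nat_lit 4) (nat_lit 286) (nat_lit 274) (nat_lit 220)) (XT.lf (nat_lit 0) (nat_lit 5002207063) (nat_lit 76) (nat_lit 41264343755) (nat_lit 152) (nat_lit 38328504828) (nat_lit 11) (nat_lit 5) (nat_lit 12) (nat_lit 5) (nat_lit 13) (nat_lit 4) (nat_lit 287) (nat_lit 274) (nat_lit 219))) (XT.nd (nat_lit 78) (nat_lit 152) (nat_lit 0) (XT.lf (nat_lit 0) (nat_lit 52443229361) (nat_lit 76) (nat_lit 15891543922) (nat_lit 152) (nat_lit 24760681795) (nat_lit 11) (nat_lit 5) (nat_lit 12) (nat_lit 5) (nat_lit 13) (nat_lit 4) (nat_lit 288) (nat_lit 274)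 (nat_lit 218)) (XT.nd (nat_lit 78) (nat_lit 76) (nat_lit 0) (XT.lf (nat_lit 0) (nat_lit 3923008905) (nat_lit 76) (nat_lit 90499642001) (nat_lit 76) (nat_lit 8341858123) (nat_lit 10) (nat_lit 4) (nat_lit 11) (nat_lit 5) (nat_lit 11) (nat_lit 4) (nat_lit 289) (nat_lit 274) (nat_lit 217)) (XT.lf (nat_lit 0) (nat_lit 12581232976) (nat_lit 152) (nat_lit 55111851890) (nat_lit 76) (nat_lit 45678412312) (nat_lit 9) (nat_lit 5) (nat_lit 11) (nat_lit 5) (nat_lit 10) (nat_lit 4) (nat_lit 290) (nat_lit 274) (nat_lit 216))))))) (XT.nd (nat_lit 702) (nat_lit 228) (nat_lit 0) (XT.nd (nat_lit 312) (nat_lit 152) (nat_lit 0) (XT.nd (nat_lit 156) (nat_lit 76) (nat_lit 0) (XT.nd (nat_lit 78) (nat_lit 76) (nat_lit 0) (XT.lf (nat_lit 0) (nat_lit 35785988438) (nat_lit 152) (nat_lit 5224861485) (nat_lit 76) (nat_lit 84499516893) (nat_lit 9) (nat_lit 5) (nat_lit 11) (nat_lit 5) (nat_lit 10) (nat_lit 4) (nat_lit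 291) (nat_lit 274) (nat_lit 215)) (XT.lf (nat_lit 0) (nat_lit 57236531269) (nat_lit 76) (nat_lit 7602575674) (nat_lit 152) (nat_lit 74275816998) (nat_lit 8) (nat_lit 5) (nat_lit 9) (nat_lit 5) (nat_lit 10) (nat_lit 4) (nat_lit 292) (nat_lit 274) (nat_lit 214))) (XT.nd (nat_lit 78) (nat_lit 76) (nat_lit 0) (XT.lf (nat_lit 0) (nat_lit 99810057575) (nat_lit 152) (nat_lit 26358242358) (nat_lit 0) (nat_lit 28357888963) (nat_lit 8) (nat_lit 5) (nat_lit 10) (nat_lit 4) (nat_lit 8) (nat_lit 4) (nat_lit 293) (nat_lit 274) (nat_lit 213)) (XT.lf (nat_lit 0) (nat_lit 40752195664) (nat_lit 76) (nat_lit 101321924267) (nat_lit 76) (nat_lit 29867906698) (nat_lit 7) (nat_lit 4) (nat_lit 8) (nat_lit 5) (nat_lit 8) (nat_lit 4) (nat_lit 294) (nat_lit 274) (nat_lit 212)))) (XT.nd (nat_lit 156) (nat_lit 76) (nat_lit 0) (XT.nd (nat_lit 78) (nat_lit 0) (nat_lit 0) (XT.lf (nat_lit 0) (nat_lit 264043920) (nat_lit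 152) (nat_lit 70887930929) (nat_lit 76) (nat_lit 120610080937) (nat_lit 6) (nat_lit 5) (nat_lit 8) (nat_lit 5) (nat_lit 7) (nat_lit 4) (nat_lit 295) (nat_lit 274) (nat_lit 211)) (XT.lf (nat_lit 0) (nat_lit 31856145052) (nat_lit 152) (nat_lit 2966311571) (nat_lit 76) (nat_lit 179519553340) (nat_lit 6) (nat_lit 5) (nat_lit 8) (nat_lit 5) (nat_lit 7) (nat_lit 4) (nat_lit 296) (nat_lit 274) (nat_lit 210))) (XT.nd (nat_lit 78) (nat_lit 0) (nat_lit 0) (XT.lf (nat_lit 0) (nat_lit 72051676620) (nat_lit 152) (nat_lit 157763512948) (nat_lit 0) (nat_lit 9914077356) (nat_lit 5) (nat_lit 5) (nat_lit 7) (nat_lit 4) (nat_lit 5) (nat_lit 4) (nat_lit 297) (nat_lit 274) (nat_lit 209)) (XT.nd (nat_lit 78) (nat_lit 0) (nat_lit 0) (XT.lf (nat_lit 0) (nat_lit 120095710631) (nat_lit 152) (nat_lit 90598835475) (nat_lit 0) (nat_lit 57957192109) (nat_lit 5) (nat_lit 5) (nat_lit 7) (nat_lit 4) (nat_lit 5) (nat_lit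 4) (nat_lit 298) (nat_lit 274) (nat_lit 208)) (XT.lf (nat_lit 0) (nat_lit 175345062454) (nat_lit 152) (nat_lit 13361967734) (nat_lit 0) (nat_lit 113205744577) (nat_lit 5) (nat_lit 5) (nat_lit 7) (nat_lit 4) (nat_lit 5) (nat_lit 4) (nat_lit 299) (nat_lit 274) (nat_lit 207)))))) (XT.nd (nat_lit 312) (nat_lit 76) (nat_lit 0) (XT.nd (nat_lit 156) (nat_lit 76) (nat_lit 0) (XT.nd (nat_lit 78) (nat_lit 0) (nat_lit 0) (XT.lf (nat_lit 0) (nat_lit 82832575005) (nat_lit 76) (nat_lit 159478042952) (nat_lit 76) (nat_lit 97338029984) (nat_lit 4) (nat_lit 4) (nat_lit 5) (nat_lit 5) (nat_lit 5) (nat_lit 4) (nat_lit 300) (nat_lit 274) (nat_lit 206)) (XT.lf (nat_lit 0) (nat_lit 194955917598) (nat_lit 76) (nat_lit 125062495991) (nat_lit 76) (nat_lit 62921878596) (nat_lit 4) (nat_lit 4) (nat_lit 5) (nat_lit 5) (nat_lit 5) (nat_lit 4) (nat_lit 301) (nat_lit 274) (nat_lit 205))) (XT.nd (nat_lit 78) (nat_lit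 76) (nat_lit 0) (XT.lf (nat_lit 0) (nat_lit 323895948952) (nat_lit 76) (nat_lit 85485508143) (nat_lit 76) (nat_lit 23344365159) (nat_lit 4) (nat_lit 4) (nat_lit 5) (nat_lit 5) (nat_lit 5) (nat_lit 4) (nat_lit 302) (nat_lit 274) (nat_lit 204)) (XT.lf (nat_lit 0) (nat_lit 20195228387) (nat_lit 152) (nat_lit 18721858984) (nat_lit 76) (nat_lit 450924520756) (nat_lit 3) (nat_lit 5) (nat_lit 5) (nat_lit 5) (nat_lit 4) (nat_lit 4) (nat_lit 303) (nat_lit 274) (nat_lit 203)))) (XT.nd (nat_lit 156) (nat_lit 0) (nat_lit 0) (XT.nd (nat_lit 78) (nat_lit 0) (nat_lit 0) (XT.lf (nat_lit 0) (nat_lit 72523953490) (nat_lit 152) (nat_lit 463649397957) (nat_lit 0) (nat_lit 18487433978) (nat_lit 2) (nat_lit 5) (nat_lit 4) (nat_lit 4) (nat_lit 2) (nat_lit 4) (nat_lit 304) (nat_lit 274) (nat_lit 202)) (XT.lf (nat_lit 0) (nat_lit 135579705965) (nat_lit 152) (nat_lit 411648590167) (nat_lit 0) (nat_lit 81542885946)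 (nat_lit 2) (nat_lit 5) (nat_lit 4) (nat_lit 4) (nat_lit 2) (nat_lit 4) (nat_lit 305) (nat_lit 274) (nat_lit 201))) (XT.nd (nat_lit 78) (nat_lit 0) (nat_lit 0) (XT.lf (nat_lit 0) (nat_lit 208093194626) (nat_lit 152) (nat_lit 351848924790) (nat_lit 0) (nat_lit 154056113296) (nat_lit 2) (nat_lit 5) (nat_lit 4) (nat_lit 4) (nat_lit 2) (nat_lit 4) (nat_lit 306) (nat_lit 274) (nat_lit 200)) (XT.nd (nat_lit 78) (nat_lit 0) (nat_lit 0) (XT.lf (nat_lit 0) (nat_lit 291483161642) (nat_lit 152) (nat_lit 283080408375) (nat_lit 0) (nat_lit 237445853086) (nat_lit 2) (nat_lit 5) (nat_lit 4) (nat_lit 4) (nat_lit 2) (nat_lit 4) (nat_lit 307) (nat_lit 274) (nat_lit 199)) (XT.lf (nat_lit 0) (nat_lit 387381149846) (nat_lit 152) (nat_lit 203997569946) (nat_lit 0) (nat_lit 333343643702) (nat_lit 2) (nat_lit 5) (nat_lit 4) (nat_lit 4) (nat_lit 2) (nat_lit 4) (nat_lit 308) (nat_lit 274) (nat_lit 198))))))))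
noncomputable def xc77 : XT := (XT.nd (nat_lit 1404) (nat_lit 0) (nat_lit 0) (XT.nd (nat_lit 702) (nat_lit 0) (nat_lit 0) (XT.nd (nat_lit 312) (nat_lit 0) (nat_lit 0) (XT.nd (nat_lit 156) (nat_lit 76) (nat_lit 0) (XT.nd (nat_lit 78) (nat_lit 0) (nat_lit 0) (XT.lf (nat_lit 0) (nat_lit 497663424225) (nat_lit 152) (nat_lit 113053136580) (nat_lit 0) (nat_lit 443625746265) (nat_lit 2) (nat_lit 5) (nat_lit 4) (nat_lit 4) (nat_lit 2) (nat_lit 4) (nat_lit 309) (nat_lit 274) (nat_lit 197)) (XT.lf (nat_lit 0) (nat_lit 624487681452) (nat_lit 152) (nat_lit 8467760665) (nat_lit 0) (nat_lit 570449854086) (nat_lit 2) (nat_lit 5) (nat_lit 4) (nat_lit 4) (nat_lit 2) (nat_lit 4) (nat_lit 310) (nat_lit 274) (nat_lit 196))) (XT.nd (nat_lit 78) (nat_lit 0) (nat_lit 0) (XT.lf (nat_lit 0) (nat_lit 122731170950) (nat_lit 76) (nat_lit 652686130802) (nat_lit 76) (nat_lit 598648173519) (nat_lit 1) (nat_lit 4)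 (nat_lit 2) (nat_lit 5) (nat_lit 2) (nat_lit 4) (nat_lit 311) (nat_lit 274) (nat_lit 195)) (XT.lf (nat_lit 0) (nat_lit 274561003470) (nat_lit 76) (nat_lit 674867698808) (nat_lit 76) (nat_lit 620829628553) (nat_lit 1) (nat_lit 4) (nat_lit 2) (nat_lit 5) (nat_lit 2) (nat_lit 4) (nat_lit 312) (nat_lit 274) (nat_lit 194)))) (XT.nd (nat_lit 156) (nat_lit 0) (nat_lit 0) (XT.nd (nat_lit 78) (nat_lit 0) (nat_lit 0) (XT.lf (nat_lit 0) (nat_lit 449164789417) (nat_lit 76) (nat_lit 700376766279) (nat_lit 76) (nat_lit 646338597788) (nat_lit 1) (nat_lit 4) (nat_lit 2) (nat_lit 5) (nat_lit 2) (nat_lit 4) (nat_lit 313) (nat_lit 274) (nat_lit 193)) (XT.lf (nat_lit 0) (nat_lit 649958689821) (nat_lit 76) (nat_lit 729712423666) (nat_lit 76) (nat_lit 675674169752) (nat_lit 1) (nat_lit 4) (nat_lit 2) (nat_lit 5) (nat_lit 2) (nat_lit 4) (nat_lit 314) (nat_lit 274) (nat_lit 192))) (XT.nd (nat_lit 78) (nat_lit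 0) (nat_lit 0) (XT.lf (nat_lit 0) (nat_lit 880871280994) (nat_lit 76) (nat_lit 763448629482) (nat_lit 76) (nat_lit 709410301287) (nat_lit 1) (nat_lit 4) (nat_lit 2) (nat_lit 5) (nat_lit 2) (nat_lit 4) (nat_lit 315) (nat_lit 274) (nat_lit 191)) (XT.nd (nat_lit 78) (nat_lit 0) (nat_lit 0) (XT.lf (nat_lit 0) (nat_lit 1146420417981) (nat_lit 76) (nat_lit 802245439928) (nat_lit 76) (nat_lit 748207047141) (nat_lit 1) (nat_lit 4) (nat_lit 2) (nat_lit 5) (nat_lit 2) (nat_lit 4) (nat_lit 316) (nat_lit 274) (nat_lit 190)) (XT.lf (nat_lit 0) (nat_lit 1451801627375) (nat_lit 76) (nat_lit 846861923035) (nat_lit 76) (nat_lit 792823474081) (nat_lit 1) (nat_lit 4) (nat_lit 2) (nat_lit 5) (nat_lit 2) (nat_lit 4) (nat_lit 317) (nat_lit 274) (nat_lit 189)))))) (XT.nd (nat_lit 312) (nat_lit 0) (nat_lit 0) (XT.nd (nat_lit 156) (nat_lit 0) (nat_lit 0) (XT.nd (nat_lit 78) (nat_lit 0) (nat_lit 0) (XT.lf (nat_lit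 0) (nat_lit 1802989758925) (nat_lit 76) (nat_lit 898171009994) (nat_lit 76) (nat_lit 844132512200) (nat_lit 1) (nat_lit 4) (nat_lit 2) (nat_lit 5) (nat_lit 2) (nat_lit 4) (nat_lit 318) (nat_lit 274) (nat_lit 188)) (XT.lf (nat_lit 0) (nat_lit 2206855884770) (nat_lit 76) (nat_lit 957176574246) (nat_lit 76) (nat_lit 903138033981) (nat_lit 1) (nat_lit 4) (nat_lit 2) (nat_lit 5) (nat_lit 2) (nat_lit 4) (nat_lit 319) (nat_lit 274) (nat_lit 187))) (XT.nd (nat_lit 78) (nat_lit 0) (nat_lit 0) (XT.lf (nat_lit 0) (nat_lit 2671301733460) (nat_lit 76) (nat_lit 1025033072482) (nat_lit 76) (nat_lit 970994495286) (nat_lit 1) (nat_lit 4) (nat_lit 2) (nat_lit 5) (nat_lit 2) (nat_lit 4) (nat_lit 320) (nat_lit 274) (nat_lit 186)) (XT.lf (nat_lit 0) (nat_lit 3205414288989) (nat_lit 76) (nat_lit 1103068131841) (nat_lit 76) (nat_lit 1049029522532) (nat_lit 1) (nat_lit 4) (nat_lit 2) (nat_lit 5) (nat_lit 2)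 (nat_lit 4) (nat_lit 321) (nat_lit 274) (nat_lit 185)))) (XT.nd (nat_lit 156) (nat_lit 0) (nat_lit 0) (XT.nd (nat_lit 78) (nat_lit 0) (nat_lit 0) (XT.lf (nat_lit 0) (nat_lit 3819643579620) (nat_lit 76) (nat_lit 1192808525226) (nat_lit 76) (nat_lit 1138769887992) (nat_lit 1) (nat_lit 4) (nat_lit 2) (nat_lit 5) (nat_lit 2) (nat_lit 4) (nat_lit 322) (nat_lit 274) (nat_lit 184)) (XT.lf (nat_lit 0) (nat_lit 4526007134950) (nat_lit 76) (nat_lit 1296010042939) (nat_lit 76) (nat_lit 1241971381423) (nat_lit 1) (nat_lit 4) (nat_lit 2) (nat_lit 5) (nat_lit 2) (nat_lit 4) (nat_lit 323) (nat_lit 274) (nat_lit 183))) (XT.nd (nat_lit 78) (nat_lit 0) (nat_lit 0) (XT.lf (nat_lit 0) (nat_lit 5338325111498) (nat_lit 76) (nat_lit 1414691845112) (nat_lit 76) (nat_lit 1360653162480) (nat_lit 1) (nat_lit 4) (nat_lit 2) (nat_lit 5) (nat_lit 2) (nat_lit 4) (nat_lit 324) (nat_lit 274) (nat_lit 182)) (XT.nd (nat_lit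 78) (nat_lit 0) (nat_lit 0) (XT.lf (nat_lit 0) (nat_lit 6272490687065) (nat_lit 76) (nat_lit 1551175967003) (nat_lit 76) (nat_lit 1497137266010) (nat_lit 1) (nat_lit 4) (nat_lit 2) (nat_lit 5) (nat_lit 2) (nat_lit 4) (nat_lit 325) (nat_lit 274) (nat_lit 181)) (XT.lf (nat_lit 0) (nat_lit 7346781014216) (nat_lit 76) (nat_lit 1708132750128) (nat_lit 76) (nat_lit 1654094033169) (nat_lit 1) (nat_lit 4) (nat_lit 2) (nat_lit 5) (nat_lit 2) (nat_lit 4) (nat_lit 326) (nat_lit 274) (nat_lit 180))))))) (XT.nd (nat_lit 702) (nat_lit 0) (nat_lit 0) (XT.nd (nat_lit 312) (nat_lit 0) (nat_lit 0) (XT.nd (nat_lit 156) (nat_lit 0) (nat_lit 0) (XT.nd (nat_lit 78) (nat_lit 0) (nat_lit 0) (XT.lf (nat_lit 0) (nat_lit 8582214816745) (nat_lit 76) (nat_lit 1888633088070) (nat_lit 76) (nat_lit 1834594357228) (nat_lit 1) (nat_lit 4) (nat_lit 2) (nat_lit 5) (nat_lit 2) (nat_lit 4) (nat_lit 327) (nat_lit 274) (nat_lit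 179)) (XT.lf (nat_lit 0) (nat_lit 10002963625569) (nat_lit 76) (nat_lit 2096208509180) (nat_lit 76) (nat_lit 2042169766265) (nat_lit 1) (nat_lit 4) (nat_lit 2) (nat_lit 5) (nat_lit 2) (nat_lit 4) (nat_lit 328) (nat_lit 274) (nat_lit 178))) (XT.nd (nat_lit 78) (nat_lit 0) (nat_lit 0) (XT.lf (nat_lit 0) (nat_lit 11636824699992) (nat_lit 76) (nat_lit 2334920271697) (nat_lit 76) (nat_lit 2280881518284) (nat_lit 1) (nat_lit 4) (nat_lit 2) (nat_lit 5) (nat_lit 2) (nat_lit 4) (nat_lit 329) (nat_lit 274) (nat_lit 177)) (XT.lf (nat_lit 0) (nat_lit 13515764887123) (nat_lit 76) (nat_lit 2609438823149) (nat_lit 76) (nat_lit 2555400060607) (nat_lit 1) (nat_lit 4) (nat_lit 2) (nat_lit 5) (nat_lit 2) (nat_lit 4) (nat_lit 330) (nat_lit 274) (nat_lit 176)))) (XT.nd (nat_lit 156) (nat_lit 0) (nat_lit 0) (XT.nd (nat_lit 78) (nat_lit 0) (nat_lit 0) (XT.lf (nat_lit 0) (nat_lit 15676546060187) (nat_lit 76)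 (nat_lit 2925135178672) (nat_lit 76) (nat_lit 2871096408192) (nat_lit 1) (nat_lit 4) (nat_lit 2) (nat_lit 5) (nat_lit 2) (nat_lit 4) (nat_lit 331) (nat_lit 274) (nat_lit 175)) (XT.lf (nat_lit 0) (nat_lit 18161444372572) (nat_lit 76) (nat_lit 3288186006092) (nat_lit 76) (nat_lit 3234147228710) (nat_lit 1) (nat_lit 4) (nat_lit 2) (nat_lit 5) (nat_lit 2) (nat_lit 4) (nat_lit 332) (nat_lit 274) (nat_lit 174))) (XT.nd (nat_lit 78) (nat_lit 0) (nat_lit 0) (XT.lf (nat_lit 0) (nat_lit 21019077399953) (nat_lit 76) (nat_lit 3705694473772) (nat_lit 76) (nat_lit 3651655690387) (nat_lit 1) (nat_lit 4) (nat_lit 2) (nat_lit 5) (nat_lit 2) (nat_lit 4) (nat_lit 333) (nat_lit 274) (nat_lit 173)) (XT.nd (nat_lit 78) (nat_lit 0) (nat_lit 0) (XT.lf (nat_lit 0) (nat_lit 24305355353736) (nat_lit 76) (nat_lit 4185829225645) (nat_lit 76) (nat_lit 4131790437040) (nat_lit 1) (nat_lit 4) (nat_lit 2) (nat_lit 5)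 (nat_lit 2) (nat_lit 4) (nat_lit 334) (nat_lit 274) (nat_lit 172)) (XT.lf (nat_lit 0) (nat_lit 28084574976495) (nat_lit 76) (nat_lit 4737984202507) (nat_lit 76) (nat_lit 4683945409364) (nat_lit 1) (nat_lit 4) (nat_lit 2) (nat_lit 5) (nat_lit 2) (nat_lit 4) (nat_lit 335) (nat_lit 274) (nat_lit 171)))))) (XT.nd (nat_lit 702) (nat_lit 0) (nat_lit 0) (XT.nd (nat_lit 156) (nat_lit 0) (nat_lit 0) (XT.nd (nat_lit 78) (nat_lit 0) (nat_lit 0) (XT.lf (nat_lit 0) (nat_lit 32430677521719) (nat_lit 76) (nat_lit 5372962436515) (nat_lit 76) (nat_lit 5318923639426) (nat_lit 1) (nat_lit 4) (nat_lit 2) (nat_lit 5) (nat_lit 2) (nat_lit 4) (nat_lit 336) (nat_lit 274) (nat_lit 170)) (XT.lf (nat_lit 0) (nat_lit 37428695430510) (nat_lit 76) (nat_lit 6103187414857) (nat_lit 76) (nat_lit 6049148614336) (nat_lit 1) (nat_lit 4) (nat_lit 2) (nat_lit 5) (nat_lit 2) (nat_lit 4) (nat_lit 337) (nat_lit 274) (nat_lit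 169))) (XT.nd (nat_lit 78) (nat_lit 0) (nat_lit 0) (XT.lf (nat_lit 0) (nat_lit 43176416009780) (nat_lit 76) (nat_lit 6942946147978) (nat_lit 76) (nat_lit 6888907344472) (nat_lit 1) (nat_lit 4) (nat_lit 2) (nat_lit 5) (nat_lit 2) (nat_lit 4) (nat_lit 338) (nat_lit 274) (nat_lit 168)) (XT.nd (nat_lit 78) (nat_lit 0) (nat_lit 0) (XT.lf (nat_lit 0) (nat_lit 49786294662166) (nat_lit 76) (nat_lit 7908668698047) (nat_lit 76) (nat_lit 7854629891947) (nat_lit 1) (nat_lit 4) (nat_lit 2) (nat_lit 5) (nat_lit 2) (nat_lit 4) (nat_lit 339) (nat_lit 274) (nat_lit 167)) (XT.lf (nat_lit 0) (nat_lit 57387655100431) (nat_lit 76) (nat_lit 9019249636696) (nat_lit 76) (nat_lit 8965210828340) (nat_lit 1) (nat_lit 4) (nat_lit 2) (nat_lit 5) (nat_lit 2) (nat_lit 4) (nat_lit 340) (nat_lit 274) (nat_lit 166))))) (XT.nd (nat_lit 156) (nat_lit 0) (nat_lit 0) (XT.nd (nat_lit 78) (nat_lit 0) (nat_lit 0) (XT.lf (nat_lit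 0) (nat_lit 116326615544431) (nat_lit 76) (nat_lit 17630403831506) (nat_lit 76) (nat_lit 17576365015586) (nat_lit 1) (nat_lit 4) (nat_lit 2) (nat_lit 5) (nat_lit 2) (nat_lit 4) (nat_lit 345) (nat_lit 274) (nat_lit 161)) (XT.lf (nat_lit 0) (nat_lit 133909024069707) (nat_lit 76) (nat_lit 20199245063147) (nat_lit 76) (nat_lit 20145206246251) (nat_lit 1) (nat_lit 4) (nat_lit 2) (nat_lit 5) (nat_lit 2) (nat_lit 4) (nat_lit 346) (nat_lit 274) (nat_lit 160))) (XT.nd (nat_lit 78) (nat_lit 0) (nat_lit 0) (XT.lf (nat_lit 0) (nat_lit 154128793869272) (nat_lit 76) (nat_lit 23153412481816) (nat_lit 76) (nat_lit 23099373664071) (nat_lit 1) (nat_lit 4) (nat_lit 2) (nat_lit 5) (nat_lit 2) (nat_lit 4) (nat_lit 347) (nat_lit 274) (nat_lit 159)) (XT.nd (nat_lit 34944) (nat_lit 0) (nat_lit 1444) (XT.lf (nat_lit 0) (nat_lit 177381529134856) (nat_lit 76) (nat_lit 26550705015270) (nat_lit 76) (nat_lit 26496666196787)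 (nat_lit 1) (nat_lit 4) (nat_lit 2) (nat_lit 5) (nat_lit 2) (nat_lit 4) (nat_lit 348) (nat_lit 274) (nat_lit 158)) (XT.lf (nat_lit 0) (nat_lit 2193748900) (nat_lit 380) (nat_lit 7200953981) (nat_lit 380) (nat_lit 7200953981) (nat_lit 20) (nat_lit 3) (nat_lit 25) (nat_lit 3) (nat_lit 25) (nat_lit 5) (nat_lit 275) (nat_lit 275) (nat_lit 230))))))))
noncomputable def xc78 : XT := (XT.nd (nat_lit 1404) (nat_lit 532) (nat_lit 0) (XT.nd (nat_lit 702) (nat_lit 532) (nat_lit 0) (XT.nd (nat_lit 312) (nat_lit 380) (nat_lit 0) (XT.nd (nat_lit 156) (nat_lit 0) (nat_lit 76) (XT.nd (nat_lit 78) (nat_lit 0) (nat_lit 76) (XT.lf (nat_lit 76) (nat_lit 1037712035) (nat_lit 0) (nat_lit 3775681896) (nat_lit 380) (nat_lit 30852506676) (nat_lit 21) (nat_lit 5) (nat_lit 20) (nat_lit 3) (nat_lit 25) (nat_lit 5) (nat_lit 276) (nat_lit 275) (nat_lit 229)) (XT.lf (nat_lit 0) (nat_lit 6640760240) (nat_lit 304) (nat_lit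 18589094724) (nat_lit 380) (nat_lit 13081224822) (nat_lit 21) (nat_lit 5) (nat_lit 25) (nat_lit 5) (nat_lit 26) (nat_lit 5) (nat_lit 277) (nat_lit 275) (nat_lit 228))) (XT.nd (nat_lit 78) (nat_lit 0) (nat_lit 76) (XT.lf (nat_lit 0) (nat_lit 8913602868) (nat_lit 304) (nat_lit 330671300) (nat_lit 380) (nat_lit 32083092594) (nat_lit 21) (nat_lit 5) (nat_lit 25) (nat_lit 5) (nat_lit 26) (nat_lit 5) (nat_lit 278) (nat_lit 275) (nat_lit 227)) (XT.lf (nat_lit 0) (nat_lit 12882381287) (nat_lit 304) (nat_lit 22399808180) (nat_lit 76) (nat_lit 9310687760) (nat_lit 22) (nat_lit 5) (nat_lit 26) (nat_lit 5) (nat_lit 23) (nat_lit 5) (nat_lit 279) (nat_lit 275) (nat_lit 226)))) (XT.nd (nat_lit 156) (nat_lit 228) (nat_lit 0) (XT.nd (nat_lit 78) (nat_lit 304) (nat_lit 0) (XT.lf (nat_lit 0) (nat_lit 17898229192) (nat_lit 304) (nat_lit 660768764) (nat_lit 76) (nat_lit 29721481093) (nat_lit 22) (nat_lit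 5) (nat_lit 26) (nat_lit 5) (nat_lit 23) (nat_lit 5) (nat_lit 280) (nat_lit 275) (nat_lit 225)) (XT.lf (nat_lit 0) (nat_lit 24847331806) (nat_lit 380) (nat_lit 25725340230) (nat_lit 76) (nat_lit 1771441564) (nat_lit 18) (nat_lit 5) (nat_lit 23) (nat_lit 5) (nat_lit 19) (nat_lit 5) (nat_lit 281) (nat_lit 275) (nat_lit 224))) (XT.nd (nat_lit 78) (nat_lit 76) (nat_lit 0) (XT.lf (nat_lit 0) (nat_lit 176383827) (nat_lit 152) (nat_lit 33584464315) (nat_lit 228) (nat_lit 23118158885) (nat_lit 16) (nat_lit 5) (nat_lit 18) (nat_lit 5) (nat_lit 19) (nat_lit 5) (nat_lit 282) (nat_lit 275) (nat_lit 223)) (XT.nd (nat_lit 78) (nat_lit 76) (nat_lit 0) (XT.lf (nat_lit 0) (nat_lit 32848522264) (nat_lit 152) (nat_lit 12502830439) (nat_lit 228) (nat_lit 16541805860) (nat_lit 16) (nat_lit 5) (nat_lit 18) (nat_lit 5) (nat_lit 19) (nat_lit 5) (nat_lit 283) (nat_lit 275) (nat_lit 222)) (XT.lf (nat_lit 0) (nat_lit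 2491892711) (nat_lit 76) (nat_lit 56773700654) (nat_lit 152) (nat_lit 8306081238) (nat_lit 15) (nat_lit 5) (nat_lit 16) (nat_lit 5) (nat_lit 17) (nat_lit 4) (nat_lit 284) (nat_lit 275) (nat_lit 221)))))) (XT.nd (nat_lit 312) (nat_lit 228) (nat_lit 0) (XT.nd (nat_lit 156) (nat_lit 76) (nat_lit 0) (XT.nd (nat_lit 78) (nat_lit 152) (nat_lit 0) (XT.lf (nat_lit 0) (nat_lit 3243122250) (nat_lit 152) (nat_lit 32572994916) (nat_lit 76) (nat_lit 37951351311) (nat_lit 14) (nat_lit 5) (nat_lit 16) (nat_lit 5) (nat_lit 15) (nat_lit 5) (nat_lit 285) (nat_lit 275) (nat_lit 220)) (XT.lf (nat_lit 0) (nat_lit 4839974832) (nat_lit 152) (nat_lit 11031215811) (nat_lit 228) (nat_lit 64932591716) (nat_lit 12) (nat_lit 5) (nat_lit 14) (nat_lit 5) (nat_lit 15) (nat_lit 5) (nat_lit 286) (nat_lit 275) (nat_lit 219))) (XT.nd (nat_lit 78) (nat_lit 76) (nat_lit 0) (XT.lf (nat_lit 0) (nat_lit 32897326347) (nat_lit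 228) (nat_lit 37924417532) (nat_lit 76) (nat_lit 17698229943) (nat_lit 12) (nat_lit 5) (nat_lit 15) (nat_lit 5) (nat_lit 13) (nat_lit 4) (nat_lit 287) (nat_lit 275) (nat_lit 218)) (XT.lf (nat_lit 0) (nat_lit 5807960801) (nat_lit 76) (nat_lit 47432294194) (nat_lit 152) (nat_lit 44038915992) (nat_lit 11) (nat_lit 5) (nat_lit 12) (nat_lit 5) (nat_lit 13) (nat_lit 4) (nat_lit 288) (nat_lit 275) (nat_lit 217)))) (XT.nd (nat_lit 156) (nat_lit 152) (nat_lit 0) (XT.nd (nat_lit 78) (nat_lit 76) (nat_lit 0) (XT.lf (nat_lit 0) (nat_lit 60357907398) (nat_lit 76) (nat_lit 18256404967) (nat_lit 152) (nat_lit 28440988794) (nat_lit 11) (nat_lit 5) (nat_lit 12) (nat_lit 5) (nat_lit 13) (nat_lit 4) (nat_lit 289) (nat_lit 275) (nat_lit 216)) (XT.lf (nat_lit 0) (nat_lit 4560986281) (nat_lit 76) (nat_lit 104053290836) (nat_lit 76) (nat_lit 9560609878) (nat_lit 10) (nat_lit 4) (nat_lit 11) (nat_lit 5) (nat_lit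 11) (nat_lit 4) (nat_lit 290) (nat_lit 275) (nat_lit 215))) (XT.nd (nat_lit 78) (nat_lit 76) (nat_lit 0) (XT.lf (nat_lit 0) (nat_lit 14494184173) (nat_lit 152) (nat_lit 63332997016) (nat_lit 76) (nat_lit 52546127159) (nat_lit 9) (nat_lit 5) (nat_lit 11) (nat_lit 5) (nat_lit 10) (nat_lit 4) (nat_lit 291) (nat_lit 275) (nat_lit 214)) (XT.nd (nat_lit 78) (nat_lit 76) (nat_lit 0) (XT.lf (nat_lit 0) (nat_lit 41176292138) (nat_lit 152) (nat_lit 5968910136) (nat_lit 76) (nat_lit 97188316601) (nat_lit 9) (nat_lit 5) (nat_lit 11) (nat_lit 5) (nat_lit 10) (nat_lit 4) (nat_lit 292) (nat_lit 275) (nat_lit 213)) (XT.lf (nat_lit 0) (nat_lit 65859887869) (nat_lit 76) (nat_lit 8726136504) (nat_lit 152) (nat_lit 85392943801) (nat_lit 8) (nat_lit 5) (nat_lit 9) (nat_lit 5) (nat_lit 10) (nat_lit 4) (nat_lit 293) (nat_lit 275) (nat_lit 212))))))) (XT.nd (nat_lit 702) (nat_lit 228) (nat_lit 0) (XT.nd (nat_lit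 312) (nat_lit 152) (nat_lit 0) (XT.nd (nat_lit 156) (nat_lit 76) (nat_lit 0) (XT.nd (nat_lit 78) (nat_lit 76) (nat_lit 0) (XT.lf (nat_lit 0) (nat_lit 114800477601) (nat_lit 152) (nat_lit 30276870400) (nat_lit 0) (nat_lit 32624900652) (nat_lit 8) (nat_lit 5) (nat_lit 10) (nat_lit 4) (nat_lit 8) (nat_lit 4) (nat_lit 294) (nat_lit 275) (nat_lit 211)) (XT.lf (nat_lit 0) (nat_lit 46898537493) (nat_lit 76) (nat_lit 116504532795) (nat_lit 76) (nat_lit 34327557769) (nat_lit 7) (nat_lit 4) (nat_lit 8) (nat_lit 5) (nat_lit 8) (nat_lit 4) (nat_lit 295) (nat_lit 275) (nat_lit 210))) (XT.nd (nat_lit 78) (nat_lit 0) (nat_lit 0) (XT.lf (nat_lit 0) (nat_lit 319917266) (nat_lit 152) (nat_lit 81490368621) (nat_lit 76) (nat_lit 138713617297) (nat_lit 6) (nat_lit 5) (nat_lit 8) (nat_lit 5) (nat_lit 7) (nat_lit 4) (nat_lit 296) (nat_lit 275) (nat_lit 209)) (XT.lf (nat_lit 0) (nat_lit 36648711817) (nat_lit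 152) (nat_lit 3384517483) (nat_lit 76) (nat_lit 206457942185) (nat_lit 6) (nat_lit 5) (nat_lit 8) (nat_lit 5) (nat_lit 7) (nat_lit 4) (nat_lit 297) (nat_lit 275) (nat_lit 208)))) (XT.nd (nat_lit 156) (nat_lit 76) (nat_lit 0) (XT.nd (nat_lit 78) (nat_lit 0) (nat_lit 0) (XT.lf (nat_lit 0) (nat_lit 82873288935) (nat_lit 152) (nat_lit 181400999037) (nat_lit 0) (nat_lit 11412274022) (nat_lit 5) (nat_lit 5) (nat_lit 7) (nat_lit 4) (nat_lit 5) (nat_lit 4) (nat_lit 298) (nat_lit 275) (nat_lit 207)) (XT.lf (nat_lit 0) (nat_lit 138122120115) (nat_lit 152) (nat_lit 104165147011) (nat_lit 0) (nat_lit 66660410110) (nat_lit 5) (nat_lit 5) (nat_lit 7) (nat_lit 4) (nat_lit 5) (nat_lit 4) (nat_lit 299) (nat_lit 275) (nat_lit 206))) (XT.nd (nat_lit 78) (nat_lit 76) (nat_lit 0) (XT.lf (nat_lit 0) (nat_lit 201657302595) (nat_lit 152) (nat_lit 15345816124) (nat_lit 0) (nat_lit 130194988163) (nat_lit 5) (nat_lit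 5) (nat_lit 7) (nat_lit 4) (nat_lit 5) (nat_lit 4) (nat_lit 300) (nat_lit 275) (nat_lit 205)) (XT.nd (nat_lit 78) (nat_lit 0) (nat_lit 0) (XT.lf (nat_lit 0) (nat_lit 95276978627) (nat_lit 76) (nat_lit 183390153912) (nat_lit 76) (nat_lit 111927313891) (nat_lit 4) (nat_lit 4) (nat_lit 5) (nat_lit 5) (nat_lit 5) (nat_lit 4) (nat_lit 301) (nat_lit 275) (nat_lit 204)) (XT.lf (nat_lit 0) (nat_lit 224216276865) (nat_lit 76) (nat_lit 143813526492) (nat_lit 76) (nat_lit 72350229437) (nat_lit 4) (nat_lit 4) (nat_lit 5) (nat_lit 5) (nat_lit 5) (nat_lit 4) (nat_lit 302) (nat_lit 275) (nat_lit 203)))))) (XT.nd (nat_lit 390) (nat_lit 76) (nat_lit 0) (XT.nd (nat_lit 156) (nat_lit 76) (nat_lit 0) (XT.nd (nat_lit 78) (nat_lit 76) (nat_lit 0) (XT.lf (nat_lit 0) (nat_lit 372495099231) (nat_lit 76) (nat_lit 98301078801) (nat_lit 76) (nat_lit 26837384326) (nat_lit 4) (nat_lit 4) (nat_lit 5) (nat_lit 5) (nat_lit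 5) (nat_lit 4) (nat_lit 303) (nat_lit 275) (nat_lit 202)) (XT.lf (nat_lit 0) (nat_lit 23231353345) (nat_lit 152) (nat_lit 21516630364) (nat_lit 76) (nat_lit 518568833576) (nat_lit 3) (nat_lit 5) (nat_lit 5) (nat_lit 5) (nat_lit 4) (nat_lit 4) (nat_lit 304) (nat_lit 275) (nat_lit 201))) (XT.nd (nat_lit 78) (nat_lit 0) (nat_lit 0) (XT.lf (nat_lit 0) (nat_lit 83409294313) (nat_lit 152) (nat_lit 533183202102) (nat_lit 0) (nat_lit 21266389473) (nat_lit 2) (nat_lit 5) (nat_lit 4) (nat_lit 4) (nat_lit 2) (nat_lit 4) (nat_lit 305) (nat_lit 275) (nat_lit 200)) (XT.nd (nat_lit 78) (nat_lit 0) (nat_lit 0) (XT.lf (nat_lit 0) (nat_lit 155922529511) (nat_lit 152) (nat_lit 473384047780) (nat_lit 0) (nat_lit 93779397445) (nat_lit 2) (nat_lit 5) (nat_lit 4) (nat_lit 4) (nat_lit 2) (nat_lit 4) (nat_lit 306) (nat_lit 275) (nat_lit 199)) (XT.lf (nat_lit 0) (nat_lit 239312276126) (nat_lit 152) (nat_lit 404615975760)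 (nat_lit 0) (nat_lit 177168946471) (nat_lit 2) (nat_lit 5) (nat_lit 4) (nat_lit 4) (nat_lit 2) (nat_lit 4) (nat_lit 307) (nat_lit 275) (nat_lit 198))))) (XT.nd (nat_lit 156) (nat_lit 76) (nat_lit 0) (XT.nd (nat_lit 78) (nat_lit 0) (nat_lit 0) (XT.lf (nat_lit 0) (nat_lit 335210072676) (nat_lit 152) (nat_lit 325533523762) (nat_lit 0) (nat_lit 273066571206) (nat_lit 2) (nat_lit 5) (nat_lit 4) (nat_lit 4) (nat_lit 2) (nat_lit 4) (nat_lit 308) (nat_lit 275) (nat_lit 197)) (XT.lf (nat_lit 0) (nat_lit 445492180399) (nat_lit 152) (nat_lit 234589426422) (nat_lit 0) (nat_lit 383348529524) (nat_lit 2) (nat_lit 5) (nat_lit 4) (nat_lit 4) (nat_lit 2) (nat_lit 4) (nat_lit 309) (nat_lit 275) (nat_lit 196))) (XT.nd (nat_lit 78) (nat_lit 76) (nat_lit 0) (XT.lf (nat_lit 0) (nat_lit 572316292708) (nat_lit 152) (nat_lit 130004342704) (nat_lit 0) (nat_lit 510172511915) (nat_lit 2) (nat_lit 5) (nat_lit 4)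 (nat_lit 4) (nat_lit 2) (nat_lit 4) (nat_lit 310) (nat_lit 275) (nat_lit 195)) (XT.nd (nat_lit 78) (nat_lit 76) (nat_lit 0) (XT.lf (nat_lit 0) (nat_lit 718163750929) (nat_lit 152) (nat_lit 9732042711) (nat_lit 0) (nat_lit 656019857165) (nat_lit 2) (nat_lit 5) (nat_lit 4) (nat_lit 4) (nat_lit 2) (nat_lit 4) (nat_lit 311) (nat_lit 275) (nat_lit 194)) (XT.lf (nat_lit 0) (nat_lit 141146461280) (nat_lit 76) (nat_lit 750586204975) (nat_lit 76) (nat_lit 688442212974) (nat_lit 1) (nat_lit 4) (nat_lit 2) (nat_lit 5) (nat_lit 2) (nat_lit 4) (nat_lit 312) (nat_lit 275) (nat_lit 193))))))))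
noncomputable def xc79 : XT := (XT.nd (nat_lit 1404) (nat_lit 0) (nat_lit 0) (XT.nd (nat_lit 702) (nat_lit 0) (nat_lit 0) (XT.nd (nat_lit 312) (nat_lit 0) (nat_lit 0) (XT.nd (nat_lit 156) (nat_lit 0) (nat_lit 0) (XT.nd (nat_lit 78) (nat_lit 0) (nat_lit 0) (XT.lf (nat_lit 0) (nat_lit 315750036328) (nat_lit 76) (nat_lit 776095379327) (nat_lit 76) (nat_lit 713951301903) (nat_lit 1) (nat_lit 4) (nat_lit 2) (nat_lit 5) (nat_lit 2) (nat_lit 4) (nat_lit 313) (nat_lit 275) (nat_lit 192)) (XT.lf (nat_lit 0) (nat_lit 516543753340) (nat_lit 76) (nat_lit 805431129654) (nat_lit 76) (nat_lit 743286977949) (nat_lit 1) (nat_lit 4) (nat_lit 2) (nat_lit 5) (nat_lit 2) (nat_lit 4) (nat_lit 314) (nat_lit 275) (nat_lit 191))) (XT.nd (nat_lit 78) (nat_lit 0) (nat_lit 0) (XT.lf (nat_lit 0) (nat_lit 747456185043) (nat_lit 76) (nat_lit 839167416287) (nat_lit 76) (nat_lit 777023199991) (nat_lit 1) (nat_lit 4)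 (nat_lit 2) (nat_lit 5) (nat_lit 2) (nat_lit 4) (nat_lit 315) (nat_lit 275) (nat_lit 190)) (XT.lf (nat_lit 0) (nat_lit 1013005183359) (nat_lit 76) (nat_lit 877964297010) (nat_lit 76) (nat_lit 815820024546) (nat_lit 1) (nat_lit 4) (nat_lit 2) (nat_lit 5) (nat_lit 2) (nat_lit 4) (nat_lit 316) (nat_lit 275) (nat_lit 189)))) (XT.nd (nat_lit 156) (nat_lit 0) (nat_lit 0) (XT.nd (nat_lit 78) (nat_lit 0) (nat_lit 0) (XT.lf (nat_lit 0) (nat_lit 1318386272171) (nat_lit 76) (nat_lit 922580841227) (nat_lit 76) (nat_lit 860436519922) (nat_lit 1) (nat_lit 4) (nat_lit 2) (nat_lit 5) (nat_lit 2) (nat_lit 4) (nat_lit 317) (nat_lit 275) (nat_lit 188)) (XT.lf (nat_lit 0) (nat_lit 1669574298866) (nat_lit 76) (nat_lit 973889981325) (nat_lit 76) (nat_lit 911745617550) (nat_lit 1) (nat_lit 4) (nat_lit 2) (nat_lit 5) (nat_lit 2) (nat_lit 4) (nat_lit 318) (nat_lit 275) (nat_lit 187))) (XT.nd (nat_lit 78) (nat_lit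 0) (nat_lit 0) (XT.lf (nat_lit 0) (nat_lit 2073440333533) (nat_lit 76) (nat_lit 1032895591784) (nat_lit 76) (nat_lit 970751191079) (nat_lit 1) (nat_lit 4) (nat_lit 2) (nat_lit 5) (nat_lit 2) (nat_lit 4) (nat_lit 319) (nat_lit 275) (nat_lit 186)) (XT.nd (nat_lit 78) (nat_lit 0) (nat_lit 0) (XT.lf (nat_lit 0) (nat_lit 2537886102937) (nat_lit 76) (nat_lit 1100752130201) (nat_lit 76) (nat_lit 1038607697382) (nat_lit 1) (nat_lit 4) (nat_lit 2) (nat_lit 5) (nat_lit 2) (nat_lit 4) (nat_lit 320) (nat_lit 275) (nat_lit 185)) (XT.lf (nat_lit 0) (nat_lit 3071998589523) (nat_lit 76) (nat_lit 1178787224500) (nat_lit 76) (nat_lit 1116642763756) (nat_lit 1) (nat_lit 4) (nat_lit 2) (nat_lit 5) (nat_lit 2) (nat_lit 4) (nat_lit 321) (nat_lit 275) (nat_lit 184)))))) (XT.nd (nat_lit 312) (nat_lit 0) (nat_lit 0) (XT.nd (nat_lit 156) (nat_lit 0) (nat_lit 0) (XT.nd (nat_lit 78) (nat_lit 0) (nat_lit 0) (XT.lf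 (nat_lit 0) (nat_lit 3686227820203) (nat_lit 76) (nat_lit 1268527648267) (nat_lit 76) (nat_lit 1206383163240) (nat_lit 1) (nat_lit 4) (nat_lit 2) (nat_lit 5) (nat_lit 2) (nat_lit 4) (nat_lit 322) (nat_lit 275) (nat_lit 183)) (XT.lf (nat_lit 0) (nat_lit 4392591323402) (nat_lit 76) (nat_lit 1371729192400) (nat_lit 76) (nat_lit 1309584686258) (nat_lit 1) (nat_lit 4) (nat_lit 2) (nat_lit 5) (nat_lit 2) (nat_lit 4) (nat_lit 323) (nat_lit 275) (nat_lit 182))) (XT.nd (nat_lit 78) (nat_lit 0) (nat_lit 0) (XT.lf (nat_lit 0) (nat_lit 5204909254618) (nat_lit 76) (nat_lit 1490411017546) (nat_lit 76) (nat_lit 1428266493043) (nat_lit 1) (nat_lit 4) (nat_lit 2) (nat_lit 5) (nat_lit 2) (nat_lit 4) (nat_lit 324) (nat_lit 275) (nat_lit 181)) (XT.lf (nat_lit 0) (nat_lit 6139074790766) (nat_lit 76) (nat_lit 1626895159414) (nat_lit 76) (nat_lit 1564750618945) (nat_lit 1) (nat_lit 4) (nat_lit 2) (nat_lit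 5) (nat_lit 2) (nat_lit 4) (nat_lit 325) (nat_lit 275) (nat_lit 180)))) (XT.nd (nat_lit 156) (nat_lit 0) (nat_lit 0) (XT.nd (nat_lit 78) (nat_lit 0) (nat_lit 0) (XT.lf (nat_lit 0) (nat_lit 7213365083641) (nat_lit 76) (nat_lit 1783851959910) (nat_lit 76) (nat_lit 1721707405558) (nat_lit 1) (nat_lit 4) (nat_lit 2) (nat_lit 5) (nat_lit 2) (nat_lit 4) (nat_lit 326) (nat_lit 275) (nat_lit 179)) (XT.lf (nat_lit 0) (nat_lit 8448798856363) (nat_lit 76) (nat_lit 1964352312958) (nat_lit 76) (nat_lit 1902207746533) (nat_lit 1) (nat_lit 4) (nat_lit 2) (nat_lit 5) (nat_lit 2) (nat_lit 4) (nat_lit 327) (nat_lit 275) (nat_lit 178))) (XT.nd (nat_lit 78) (nat_lit 0) (nat_lit 0) (XT.lf (nat_lit 0) (nat_lit 9869547639269) (nat_lit 76) (nat_lit 2171927747203) (nat_lit 76) (nat_lit 2109783170280) (nat_lit 1) (nat_lit 4) (nat_lit 2) (nat_lit 5) (nat_lit 2) (nat_lit 4) (nat_lit 328) (nat_lit 275) (nat_lit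 177)) (XT.nd (nat_lit 78) (nat_lit 0) (nat_lit 0) (XT.lf (nat_lit 0) (nat_lit 11503408691154) (nat_lit 76) (nat_lit 2410639521142) (nat_lit 76) (nat_lit 2348494935090) (nat_lit 1) (nat_lit 4) (nat_lit 2) (nat_lit 5) (nat_lit 2) (nat_lit 4) (nat_lit 329) (nat_lit 275) (nat_lit 176)) (XT.lf (nat_lit 0) (nat_lit 13382348858687) (nat_lit 76) (nat_lit 2685158082525) (nat_lit 76) (nat_lit 2623013488535) (nat_lit 1) (nat_lit 4) (nat_lit 2) (nat_lit 5) (nat_lit 2) (nat_lit 4) (nat_lit 330) (nat_lit 275) (nat_lit 175))))))) (XT.nd (nat_lit 1092) (nat_lit 0) (nat_lit 0) (XT.nd (nat_lit 312) (nat_lit 0) (nat_lit 0) (XT.nd (nat_lit 156) (nat_lit 0) (nat_lit 0) (XT.nd (nat_lit 78) (nat_lit 0) (nat_lit 0) (XT.lf (nat_lit 0) (nat_lit 15543130014709) (nat_lit 76) (nat_lit 3000854446685) (nat_lit 76) (nat_lit 2938709845793) (nat_lit 1) (nat_lit 4) (nat_lit 2) (nat_lit 5) (nat_lit 2) (nat_lit 4) (nat_lit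 331) (nat_lit 275) (nat_lit 174)) (XT.lf (nat_lit 0) (nat_lit 18028028312275) (nat_lit 76) (nat_lit 3363905281615) (nat_lit 76) (nat_lit 3301760674721) (nat_lit 1) (nat_lit 4) (nat_lit 2) (nat_lit 5) (nat_lit 2) (nat_lit 4) (nat_lit 332) (nat_lit 275) (nat_lit 173))) (XT.nd (nat_lit 78) (nat_lit 0) (nat_lit 0) (XT.lf (nat_lit 0) (nat_lit 20885661326770) (nat_lit 76) (nat_lit 3781413755826) (nat_lit 76) (nat_lit 3719269143712) (nat_lit 1) (nat_lit 4) (nat_lit 2) (nat_lit 5) (nat_lit 2) (nat_lit 4) (nat_lit 333) (nat_lit 275) (nat_lit 172)) (XT.lf (nat_lit 0) (nat_lit 24171939269347) (nat_lit 76) (nat_lit 4261548513377) (nat_lit 76) (nat_lit 4199403896724) (nat_lit 1) (nat_lit 4) (nat_lit 2) (nat_lit 5) (nat_lit 2) (nat_lit 4) (nat_lit 334) (nat_lit 275) (nat_lit 171)))) (XT.nd (nat_lit 156) (nat_lit 0) (nat_lit 0) (XT.nd (nat_lit 78) (nat_lit 0) (nat_lit 0) (XT.lf (nat_lit 0) (nat_lit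 27951158882363) (nat_lit 76) (nat_lit 4813703495177) (nat_lit 76) (nat_lit 4751558874578) (nat_lit 1) (nat_lit 4) (nat_lit 2) (nat_lit 5) (nat_lit 2) (nat_lit 4) (nat_lit 335) (nat_lit 275) (nat_lit 170)) (XT.lf (nat_lit 0) (nat_lit 32297261419114) (nat_lit 76) (nat_lit 5448681733479) (nat_lit 76) (nat_lit 5386537109448) (nat_lit 1) (nat_lit 4) (nat_lit 2) (nat_lit 5) (nat_lit 2) (nat_lit 4) (nat_lit 336) (nat_lit 275) (nat_lit 169))) (XT.nd (nat_lit 78) (nat_lit 0) (nat_lit 0) (XT.lf (nat_lit 0) (nat_lit 37295279320538) (nat_lit 76) (nat_lit 6178906715555) (nat_lit 76) (nat_lit 6116762088540) (nat_lit 1) (nat_lit 4) (nat_lit 2) (nat_lit 5) (nat_lit 2) (nat_lit 4) (nat_lit 337) (nat_lit 275) (nat_lit 168)) (XT.nd (nat_lit 78) (nat_lit 0) (nat_lit 0) (XT.lf (nat_lit 0) (nat_lit 43042999893401) (nat_lit 76) (nat_lit 7018665451922) (nat_lit 76) (nat_lit 6956520822312) (nat_lit 1) (nat_lit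 4) (nat_lit 2) (nat_lit 5) (nat_lit 2) (nat_lit 4) (nat_lit 338) (nat_lit 275) (nat_lit 167)) (XT.lf (nat_lit 0) (nat_lit 49652878540215) (nat_lit 76) (nat_lit 7984388004815) (nat_lit 76) (nat_lit 7922243372948) (nat_lit 1) (nat_lit 4) (nat_lit 2) (nat_lit 5) (nat_lit 2) (nat_lit 4) (nat_lit 339) (nat_lit 275) (nat_lit 166)))))) (XT.nd (nat_lit 35334) (nat_lit 0) (nat_lit 1444) (XT.nd (nat_lit 156) (nat_lit 0) (nat_lit 0) (XT.nd (nat_lit 78) (nat_lit 0) (nat_lit 0) (XT.lf (nat_lit 0) (nat_lit 116193199401397) (nat_lit 76) (nat_lit 17706123148959) (nat_lit 76) (nat_lit 17643978508553) (nat_lit 1) (nat_lit 4) (nat_lit 2) (nat_lit 5) (nat_lit 2) (nat_lit 4) (nat_lit 345) (nat_lit 275) (nat_lit 160)) (XT.lf (nat_lit 0) (nat_lit 133775607924579) (nat_lit 76) (nat_lit 20274964381661) (nat_lit 76) (nat_lit 20212819740407) (nat_lit 1) (nat_lit 4) (nat_lit 2) (nat_lit 5) (nat_lit 2) (nat_lit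 4) (nat_lit 346) (nat_lit 275) (nat_lit 159))) (XT.nd (nat_lit 78) (nat_lit 0) (nat_lit 0) (XT.lf (nat_lit 0) (nat_lit 153995377722323) (nat_lit 76) (nat_lit 23229131801253) (nat_lit 76) (nat_lit 23166987159261) (nat_lit 1) (nat_lit 4) (nat_lit 2) (nat_lit 5) (nat_lit 2) (nat_lit 4) (nat_lit 347) (nat_lit 275) (nat_lit 158)) (XT.nd (nat_lit 35022) (nat_lit 0) (nat_lit 1444) (XT.lf (nat_lit 0) (nat_lit 177248112986324) (nat_lit 76) (nat_lit 26626424335509) (nat_lit 76) (nat_lit 26564279692876) (nat_lit 1) (nat_lit 4) (nat_lit 2) (nat_lit 5) (nat_lit 2) (nat_lit 4) (nat_lit 348) (nat_lit 275) (nat_lit 157)) (XT.lf (nat_lit 0) (nat_lit 2574445181) (nat_lit 380) (nat_lit 8251294169) (nat_lit 380) (nat_lit 8251294169) (nat_lit 20) (nat_lit 3) (nat_lit 25) (nat_lit 3) (nat_lit 25) (nat_lit 5) (nat_lit 276) (nat_lit 276) (nat_lit 228))))) (XT.nd (nat_lit 156) (nat_lit 0) (nat_lit 76) (XT.nd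 (nat_lit 78) (nat_lit 0) (nat_lit 76) (XT.lf (nat_lit 76) (nat_lit 1250265303) (nat_lit 0) (nat_lit 4377291848) (nat_lit 380) (nat_lit 35374011032) (nat_lit 21) (nat_lit 5) (nat_lit 20) (nat_lit 3) (nat_lit 25) (nat_lit 5) (nat_lit 277) (nat_lit 276) (nat_lit 227)) (XT.lf (nat_lit 0) (nat_lit 7715738784) (nat_lit 304) (nat_lit 21314351172) (nat_lit 380) (nat_lit 15015479166) (nat_lit 21) (nat_lit 5) (nat_lit 25) (nat_lit 5) (nat_lit 26) (nat_lit 5) (nat_lit 278) (nat_lit 276) (nat_lit 226))) (XT.nd (nat_lit 78) (nat_lit 0) (nat_lit 76) (XT.lf (nat_lit 0) (nat_lit 10319221131) (nat_lit 304) (nat_lit 325395682) (nat_lit 380) (nat_lit 36871270067) (nat_lit 21) (nat_lit 5) (nat_lit 25) (nat_lit 5) (nat_lit 26) (nat_lit 5) (nat_lit 279) (nat_lit 276) (nat_lit 225)) (XT.nd (nat_lit 78) (nat_lit 0) (nat_lit 0) (XT.lf (nat_lit 0) (nat_lit 14876150341) (nat_lit 304) (nat_lit 25697477799) (nat_lit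 76) (nat_lit 10698709569) (nat_lit 22) (nat_lit 5) (nat_lit 26) (nat_lit 5) (nat_lit 23) (nat_lit 5) (nat_lit 280) (nat_lit 276) (nat_lit 224)) (XT.lf (nat_lit 0) (nat_lit 20636365189) (nat_lit 304) (nat_lit 705708767) (nat_lit 76) (nat_lit 34172241210) (nat_lit 22) (nat_lit 5) (nat_lit 26) (nat_lit 5) (nat_lit 23) (nat_lit 5) (nat_lit 281) (nat_lit 276) (nat_lit 223))))))))
noncomputable def xc80 : XT := (XT.nd (nat_lit 1404) (nat_lit 304) (nat_lit 0) (XT.nd (nat_lit 702) (nat_lit 456) (nat_lit 0) (XT.nd (nat_lit 312) (nat_lit 304) (nat_lit 0) (XT.nd (nat_lit 156) (nat_lit 76) (nat_lit 0) (XT.nd (nat_lit 78) (nat_lit 152) (nat_lit 0) (XT.lf (nat_lit 0) (nat_lit 28623138909) (nat_lit 380) (nat_lit 29525075582) (nat_lit 76) (nat_lit 2040013964) (nat_lit 18) (nat_lit 5) (nat_lit 23) (nat_lit 5) (nat_lit 19) (nat_lit 5) (nat_lit 282) (nat_lit 276) (nat_lit 222)) (XT.lf (nat_lit 0) (nat_lit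 259222281) (nat_lit 152) (nat_lit 38610441896) (nat_lit 228) (nat_lit 26534320073) (nat_lit 16) (nat_lit 5) (nat_lit 18) (nat_lit 5) (nat_lit 19) (nat_lit 5) (nat_lit 283) (nat_lit 276) (nat_lit 221))) (XT.nd (nat_lit 78) (nat_lit 76) (nat_lit 0) (XT.lf (nat_lit 0) (nat_lit 37824827456) (nat_lit 152) (nat_lit 14368087991) (nat_lit 228) (nat_lit 18978239656) (nat_lit 16) (nat_lit 5) (nat_lit 18) (nat_lit 5) (nat_lit 19) (nat_lit 5) (nat_lit 284) (nat_lit 276) (nat_lit 220)) (XT.lf (nat_lit 0) (nat_lit 2917778670) (nat_lit 76) (nat_lit 65273968380) (nat_lit 152) (nat_lit 9510102612) (nat_lit 15) (nat_lit 5) (nat_lit 16) (nat_lit 5) (nat_lit 17) (nat_lit 4) (nat_lit 285) (nat_lit 276) (nat_lit 219)))) (XT.nd (nat_lit 156) (nat_lit 76) (nat_lit 0) (XT.nd (nat_lit 78) (nat_lit 152) (nat_lit 0) (XT.lf (nat_lit 0) (nat_lit 3762774416) (nat_lit 152) (nat_lit 37410297567) (nat_lit 76) (nat_lit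 43654441703) (nat_lit 14) (nat_lit 5) (nat_lit 16) (nat_lit 5) (nat_lit 15) (nat_lit 5) (nat_lit 286) (nat_lit 276) (nat_lit 218)) (XT.lf (nat_lit 0) (nat_lit 5612406435) (nat_lit 152) (nat_lit 12670241098) (nat_lit 228) (nat_lit 74637000664) (nat_lit 12) (nat_lit 5) (nat_lit 14) (nat_lit 5) (nat_lit 15) (nat_lit 5) (nat_lit 287) (nat_lit 276) (nat_lit 217))) (XT.nd (nat_lit 78) (nat_lit 76) (nat_lit 0) (XT.lf (nat_lit 0) (nat_lit 37859252794) (nat_lit 228) (nat_lit 43569177059) (nat_lit 76) (nat_lit 20365367203) (nat_lit 12) (nat_lit 5) (nat_lit 15) (nat_lit 5) (nat_lit 13) (nat_lit 4) (nat_lit 288) (nat_lit 276) (nat_lit 216)) (XT.nd (nat_lit 78) (nat_lit 0) (nat_lit 0) (XT.lf (nat_lit 0) (nat_lit 6721062429) (nat_lit 76) (nat_lit 54530729155) (nat_lit 152) (nat_lit 50615366200) (nat_lit 11) (nat_lit 5) (nat_lit 12) (nat_lit 5) (nat_lit 13) (nat_lit 4) (nat_lit 289) (nat_lit 276) (nat_lit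 215)) (XT.lf (nat_lit 0) (nat_lit 69448034819) (nat_lit 76) (nat_lit 20980596871) (nat_lit 152) (nat_lit 32681583034) (nat_lit 11) (nat_lit 5) (nat_lit 12) (nat_lit 5) (nat_lit 13) (nat_lit 4) (nat_lit 290) (nat_lit 276) (nat_lit 214)))))) (XT.nd (nat_lit 312) (nat_lit 228) (nat_lit 0) (XT.nd (nat_lit 156) (nat_lit 76) (nat_lit 0) (XT.nd (nat_lit 78) (nat_lit 76) (nat_lit 0) (XT.lf (nat_lit 0) (nat_lit 5282583026) (nat_lit 76) (nat_lit 119645180518) (nat_lit 76) (nat_lit 10970106303) (nat_lit 10) (nat_lit 4) (nat_lit 11) (nat_lit 5) (nat_lit 11) (nat_lit 4) (nat_lit 291) (nat_lit 276) (nat_lit 213)) (XT.lf (nat_lit 0) (nat_lit 16687794786) (nat_lit 152) (nat_lit 72798441723) (nat_lit 76) (nat_lit 60440108993) (nat_lit 9) (nat_lit 5) (nat_lit 11) (nat_lit 5) (nat_lit 10) (nat_lit 4) (nat_lit 292) (nat_lit 276) (nat_lit 212))) (XT.nd (nat_lit 78) (nat_lit 76) (nat_lit 0) (XT.lf (nat_lit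 0) (nat_lit 47369677687) (nat_lit 152) (nat_lit 6834242443) (nat_lit 76) (nat_lit 111777053448) (nat_lit 9) (nat_lit 5) (nat_lit 11) (nat_lit 5) (nat_lit 10) (nat_lit 4) (nat_lit 293) (nat_lit 276) (nat_lit 211)) (XT.lf (nat_lit 0) (nat_lit 75767511434) (nat_lit 76) (nat_lit 10022334469) (nat_lit 152) (nat_lit 98183552103) (nat_lit 8) (nat_lit 5) (nat_lit 9) (nat_lit 5) (nat_lit 10) (nat_lit 4) (nat_lit 294) (nat_lit 276) (nat_lit 210)))) (XT.nd (nat_lit 156) (nat_lit 152) (nat_lit 0) (XT.nd (nat_lit 78) (nat_lit 76) (nat_lit 0) (XT.lf (nat_lit 0) (nat_lit 132034848969) (nat_lit 152) (nat_lit 34791854033) (nat_lit 0) (nat_lit 37528713893) (nat_lit 8) (nat_lit 5) (nat_lit 10) (nat_lit 4) (nat_lit 8) (nat_lit 4) (nat_lit 295) (nat_lit 276) (nat_lit 209)) (XT.lf (nat_lit 0) (nat_lit 53958658366) (nat_lit 76) (nat_lit 133968356296) (nat_lit 76) (nat_lit 39461164074) (nat_lit 7) (nat_lit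 4) (nat_lit 8) (nat_lit 5) (nat_lit 8) (nat_lit 4) (nat_lit 296) (nat_lit 276) (nat_lit 208))) (XT.nd (nat_lit 78) (nat_lit 76) (nat_lit 0) (XT.lf (nat_lit 0) (nat_lit 380204863) (nat_lit 152) (nat_lit 93690671024) (nat_lit 76) (nat_lit 159529751930) (nat_lit 6) (nat_lit 5) (nat_lit 8) (nat_lit 5) (nat_lit 7) (nat_lit 4) (nat_lit 297) (nat_lit 276) (nat_lit 207)) (XT.nd (nat_lit 78) (nat_lit 76) (nat_lit 0) (XT.lf (nat_lit 0) (nat_lit 42156714248) (nat_lit 152) (nat_lit 3871975202) (nat_lit 76) (nat_lit 237434539632) (nat_lit 6) (nat_lit 5) (nat_lit 8) (nat_lit 5) (nat_lit 7) (nat_lit 4) (nat_lit 298) (nat_lit 276) (nat_lit 206)) (XT.lf (nat_lit 0) (nat_lit 95314763049) (nat_lit 152) (nat_lit 208590702123) (nat_lit 0) (nat_lit 13132497025) (nat_lit 5) (nat_lit 5) (nat_lit 7) (nat_lit 4) (nat_lit 5) (nat_lit 4) (nat_lit 299) (nat_lit 276) (nat_lit 205))))))) (XT.nd (nat_lit 702) (nat_lit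 76) (nat_lit 0) (XT.nd (nat_lit 312) (nat_lit 152) (nat_lit 0) (XT.nd (nat_lit 156) (nat_lit 76) (nat_lit 0) (XT.nd (nat_lit 78) (nat_lit 0) (nat_lit 0) (XT.lf (nat_lit 0) (nat_lit 158849551848) (nat_lit 152) (nat_lit 119772139262) (nat_lit 0) (nat_lit 76666760236) (nat_lit 5) (nat_lit 5) (nat_lit 7) (nat_lit 4) (nat_lit 5) (nat_lit 4) (nat_lit 300) (nat_lit 276) (nat_lit 204)) (XT.lf (nat_lit 0) (nat_lit 231913822955) (nat_lit 152) (nat_lit 17632227847) (nat_lit 0) (nat_lit 149730574309) (nat_lit 5) (nat_lit 5) (nat_lit 7) (nat_lit 4) (nat_lit 5) (nat_lit 4) (nat_lit 301) (nat_lit 276) (nat_lit 203))) (XT.nd (nat_lit 78) (nat_lit 0) (nat_lit 0) (XT.lf (nat_lit 0) (nat_lit 109583283358) (nat_lit 76) (nat_lit 210891421435) (nat_lit 76) (nat_lit 128707775368) (nat_lit 4) (nat_lit 4) (nat_lit 5) (nat_lit 5) (nat_lit 5) (nat_lit 4) (nat_lit 302) (nat_lit 276) (nat_lit 202)) (XT.lf (nat_lit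 0) (nat_lit 257861551383) (nat_lit 76) (nat_lit 165379246280) (nat_lit 76) (nat_lit 83195254630) (nat_lit 4) (nat_lit 4) (nat_lit 5) (nat_lit 5) (nat_lit 5) (nat_lit 4) (nat_lit 303) (nat_lit 276) (nat_lit 201)))) (XT.nd (nat_lit 156) (nat_lit 76) (nat_lit 0) (XT.nd (nat_lit 78) (nat_lit 76) (nat_lit 0) (XT.lf (nat_lit 0) (nat_lit 428380523236) (nat_lit 76) (nat_lit 113040754373) (nat_lit 76) (nat_lit 30856462216) (nat_lit 4) (nat_lit 4) (nat_lit 5) (nat_lit 5) (nat_lit 5) (nat_lit 4) (nat_lit 304) (nat_lit 276) (nat_lit 200)) (XT.lf (nat_lit 0) (nat_lit 26721228900) (nat_lit 152) (nat_lit 24733911332) (nat_lit 76) (nat_lit 596358419260) (nat_lit 3) (nat_lit 5) (nat_lit 5) (nat_lit 5) (nat_lit 4) (nat_lit 4) (nat_lit 305) (nat_lit 276) (nat_lit 199))) (XT.nd (nat_lit 78) (nat_lit 0) (nat_lit 0) (XT.lf (nat_lit 0) (nat_lit 95925790766) (nat_lit 152) (nat_lit 613150394668) (nat_lit 0)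 (nat_lit 24460764075) (nat_lit 2) (nat_lit 5) (nat_lit 4) (nat_lit 4) (nat_lit 2) (nat_lit 4) (nat_lit 306) (nat_lit 276) (nat_lit 198)) (XT.nd (nat_lit 78) (nat_lit 0) (nat_lit 0) (XT.lf (nat_lit 0) (nat_lit 179315345726) (nat_lit 152) (nat_lit 544382709079) (nat_lit 0) (nat_lit 107850147219) (nat_lit 2) (nat_lit 5) (nat_lit 4) (nat_lit 4) (nat_lit 2) (nat_lit 4) (nat_lit 307) (nat_lit 276) (nat_lit 197)) (XT.lf (nat_lit 0) (nat_lit 275212975621) (nat_lit 152) (nat_lit 465300593107) (nat_lit 0) (nat_lit 203747627709) (nat_lit 2) (nat_lit 5) (nat_lit 4) (nat_lit 4) (nat_lit 2) (nat_lit 4) (nat_lit 308) (nat_lit 276) (nat_lit 196)))))) (XT.nd (nat_lit 312) (nat_lit 76) (nat_lit 0) (XT.nd (nat_lit 156) (nat_lit 0) (nat_lit 0) (XT.nd (nat_lit 78) (nat_lit 0) (nat_lit 0) (XT.lf (nat_lit 0) (nat_lit 385494938427) (nat_lit 152) (nat_lit 374356787964) (nat_lit 0) (nat_lit 314029460597) (nat_lit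 2) (nat_lit 5) (nat_lit 4) (nat_lit 4) (nat_lit 2) (nat_lit 4) (nat_lit 309) (nat_lit 276) (nat_lit 195)) (XT.lf (nat_lit 0) (nat_lit 512318924720) (nat_lit 152) (nat_lit 269771958331) (nat_lit 0) (nat_lit 440853333918) (nat_lit 2) (nat_lit 5) (nat_lit 4) (nat_lit 4) (nat_lit 2) (nat_lit 4) (nat_lit 310) (nat_lit 276) (nat_lit 194))) (XT.nd (nat_lit 78) (nat_lit 0) (nat_lit 0) (XT.lf (nat_lit 0) (nat_lit 658166273362) (nat_lit 152) (nat_lit 149499879281) (nat_lit 0) (nat_lit 586700584325) (nat_lit 2) (nat_lit 5) (nat_lit 4) (nat_lit 4) (nat_lit 2) (nat_lit 4) (nat_lit 311) (nat_lit 276) (nat_lit 193)) (XT.lf (nat_lit 0) (nat_lit 825890519437) (nat_lit 152) (nat_lit 11187401440) (nat_lit 0) (nat_lit 754424744976) (nat_lit 2) (nat_lit 5) (nat_lit 4) (nat_lit 4) (nat_lit 2) (nat_lit 4) (nat_lit 312) (nat_lit 276) (nat_lit 192)))) (XT.nd (nat_lit 156) (nat_lit 0) (nat_lit 0) (XT.nd (nat_lit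 78) (nat_lit 0) (nat_lit 0) (XT.lf (nat_lit 0) (nat_lit 162322675983) (nat_lit 76) (nat_lit 863171984154) (nat_lit 76) (nat_lit 791706135413) (nat_lit 1) (nat_lit 4) (nat_lit 2) (nat_lit 5) (nat_lit 2) (nat_lit 4) (nat_lit 313) (nat_lit 276) (nat_lit 191)) (XT.lf (nat_lit 0) (nat_lit 363116233525) (nat_lit 76) (nat_lit 892507815298) (nat_lit 76) (nat_lit 821041901965) (nat_lit 1) (nat_lit 4) (nat_lit 2) (nat_lit 5) (nat_lit 2) (nat_lit 4) (nat_lit 314) (nat_lit 276) (nat_lit 190))) (XT.nd (nat_lit 78) (nat_lit 0) (nat_lit 0) (XT.lf (nat_lit 0) (nat_lit 594028526557) (nat_lit 76) (nat_lit 926244172208) (nat_lit 76) (nat_lit 854778202708) (nat_lit 1) (nat_lit 4) (nat_lit 2) (nat_lit 5) (nat_lit 2) (nat_lit 4) (nat_lit 315) (nat_lit 276) (nat_lit 189)) (XT.nd (nat_lit 78) (nat_lit 0) (nat_lit 0) (XT.lf (nat_lit 0) (nat_lit 859577404291) (nat_lit 76) (nat_lit 965041114040) (nat_lit 76) (nat_lit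 893575095699) (nat_lit 1) (nat_lit 4) (nat_lit 2) (nat_lit 5) (nat_lit 2) (nat_lit 4) (nat_lit 316) (nat_lit 276) (nat_lit 188)) (XT.lf (nat_lit 0) (nat_lit 1164958388248) (nat_lit 76) (nat_lit 1009657711396) (nat_lit 76) (nat_lit 938191650585) (nat_lit 1) (nat_lit 4) (nat_lit 2) (nat_lit 5) (nat_lit 2) (nat_lit 4) (nat_lit 317) (nat_lit 276) (nat_lit 187))))))))
noncomputable def xc81 : XT := (XT.nd (nat_lit 1404) (nat_lit 0) (nat_lit 0) (XT.nd (nat_lit 702) (nat_lit 0) (nat_lit 0) (XT.nd (nat_lit 312) (nat_lit 0) (nat_lit 0) (XT.nd (nat_lit 156) (nat_lit 0) (nat_lit 0) (XT.nd (nat_lit 78) (nat_lit 0) (nat_lit 0) (XT.lf (nat_lit 0) (nat_lit 1516146323765) (nat_lit 76) (nat_lit 1060966897702) (nat_lit 76) (nat_lit 989500799960) (nat_lit 1) (nat_lit 4) (nat_lit 2) (nat_lit 5) (nat_lit 2) (nat_lit 4) (nat_lit 318) (nat_lit 276) (nat_lit 186)) (XT.lf (nat_lit 0) (nat_lit 1920012279147)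 (nat_lit 76) (nat_lit 1119972548342) (nat_lit 76) (nat_lit 1048506418486) (nat_lit 1) (nat_lit 4) (nat_lit 2) (nat_lit 5) (nat_lit 2) (nat_lit 4) (nat_lit 319) (nat_lit 276) (nat_lit 185))) (XT.nd (nat_lit 78) (nat_lit 0) (nat_lit 0) (XT.lf (nat_lit 0) (nat_lit 2384457979608) (nat_lit 76) (nat_lit 1187829121698) (nat_lit 76) (nat_lit 1116362963918) (nat_lit 1) (nat_lit 4) (nat_lit 2) (nat_lit 5) (nat_lit 2) (nat_lit 4) (nat_lit 320) (nat_lit 276) (nat_lit 184)) (XT.lf (nat_lit 0) (nat_lit 2918570406243) (nat_lit 76) (nat_lit 1265864246380) (nat_lit 76) (nat_lit 1194398064317) (nat_lit 1) (nat_lit 4) (nat_lit 2) (nat_lit 5) (nat_lit 2) (nat_lit 4) (nat_lit 321) (nat_lit 276) (nat_lit 183)))) (XT.nd (nat_lit 156) (nat_lit 0) (nat_lit 0) (XT.nd (nat_lit 78) (nat_lit 0) (nat_lit 0) (XT.lf (nat_lit 0) (nat_lit 3532799584791) (nat_lit 76) (nat_lit 1355604696566) (nat_lit 76) (nat_lit 1284138493387)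 (nat_lit 1) (nat_lit 4) (nat_lit 2) (nat_lit 5) (nat_lit 2) (nat_lit 4) (nat_lit 322) (nat_lit 276) (nat_lit 182)) (XT.lf (nat_lit 0) (nat_lit 4239163042659) (nat_lit 76) (nat_lit 1458806263672) (nat_lit 76) (nat_lit 1387340042133) (nat_lit 1) (nat_lit 4) (nat_lit 2) (nat_lit 5) (nat_lit 2) (nat_lit 4) (nat_lit 323) (nat_lit 276) (nat_lit 181))) (XT.nd (nat_lit 78) (nat_lit 0) (nat_lit 0) (XT.lf (nat_lit 0) (nat_lit 5051480934456) (nat_lit 76) (nat_lit 1577488108795) (nat_lit 76) (nat_lit 1506021871290) (nat_lit 1) (nat_lit 4) (nat_lit 2) (nat_lit 5) (nat_lit 2) (nat_lit 4) (nat_lit 324) (nat_lit 276) (nat_lit 180)) (XT.nd (nat_lit 78) (nat_lit 0) (nat_lit 0) (XT.lf (nat_lit 0) (nat_lit 5985646436327) (nat_lit 76) (nat_lit 1713972268034) (nat_lit 76) (nat_lit 1642506016645) (nat_lit 1) (nat_lit 4) (nat_lit 2) (nat_lit 5) (nat_lit 2) (nat_lit 4) (nat_lit 325) (nat_lit 276) (nat_lit 179))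 (XT.lf (nat_lit 0) (nat_lit 7059936699395) (nat_lit 76) (nat_lit 1870929083636) (nat_lit 76) (nat_lit 1799462820174) (nat_lit 1) (nat_lit 4) (nat_lit 2) (nat_lit 5) (nat_lit 2) (nat_lit 4) (nat_lit 326) (nat_lit 276) (nat_lit 178)))))) (XT.nd (nat_lit 312) (nat_lit 0) (nat_lit 0) (XT.nd (nat_lit 156) (nat_lit 0) (nat_lit 0) (XT.nd (nat_lit 78) (nat_lit 0) (nat_lit 0) (XT.lf (nat_lit 0) (nat_lit 8295370446199) (nat_lit 76) (nat_lit 2051429449819) (nat_lit 76) (nat_lit 1979963175859) (nat_lit 1) (nat_lit 4) (nat_lit 2) (nat_lit 5) (nat_lit 2) (nat_lit 4) (nat_lit 327) (nat_lit 276) (nat_lit 177)) (XT.lf (nat_lit 0) (nat_lit 9716119206567) (nat_lit 76) (nat_lit 2259004895486) (nat_lit 76) (nat_lit 2187538612397) (nat_lit 1) (nat_lit 4) (nat_lit 2) (nat_lit 5) (nat_lit 2) (nat_lit 4) (nat_lit 328) (nat_lit 276) (nat_lit 176))) (XT.nd (nat_lit 78) (nat_lit 0) (nat_lit 0) (XT.lf (nat_lit 0)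 (nat_lit 11349980238855) (nat_lit 76) (nat_lit 2497716679357) (nat_lit 76) (nat_lit 2426250388330) (nat_lit 1) (nat_lit 4) (nat_lit 2) (nat_lit 5) (nat_lit 2) (nat_lit 4) (nat_lit 329) (nat_lit 276) (nat_lit 175)) (XT.lf (nat_lit 0) (nat_lit 13228920389345) (nat_lit 76) (nat_lit 2772235249377) (nat_lit 76) (nat_lit 2700768951448) (nat_lit 1) (nat_lit 4) (nat_lit 2) (nat_lit 5) (nat_lit 2) (nat_lit 4) (nat_lit 330) (nat_lit 276) (nat_lit 174)))) (XT.nd (nat_lit 156) (nat_lit 0) (nat_lit 0) (XT.nd (nat_lit 78) (nat_lit 0) (nat_lit 0) (XT.lf (nat_lit 0) (nat_lit 15389701530549) (nat_lit 76) (nat_lit 3087931621047) (nat_lit 76) (nat_lit 3016465317115) (nat_lit 1) (nat_lit 4) (nat_lit 2) (nat_lit 5) (nat_lit 2) (nat_lit 4) (nat_lit 331) (nat_lit 276) (nat_lit 173)) (XT.lf (nat_lit 0) (nat_lit 17874599815228) (nat_lit 76) (nat_lit 3450982462507) (nat_lit 76) (nat_lit 3379516153357) (nat_lit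 1) (nat_lit 4) (nat_lit 2) (nat_lit 5) (nat_lit 2) (nat_lit 4) (nat_lit 332) (nat_lit 276) (nat_lit 172))) (XT.nd (nat_lit 78) (nat_lit 0) (nat_lit 0) (XT.lf (nat_lit 0) (nat_lit 20732232818518) (nat_lit 76) (nat_lit 3868490942396) (nat_lit 76) (nat_lit 3797024628707) (nat_lit 1) (nat_lit 4) (nat_lit 2) (nat_lit 5) (nat_lit 2) (nat_lit 4) (nat_lit 333) (nat_lit 276) (nat_lit 171)) (XT.nd (nat_lit 78) (nat_lit 0) (nat_lit 0) (XT.lf (nat_lit 0) (nat_lit 24018510751352) (nat_lit 76) (nat_lit 4348625704885) (nat_lit 76) (nat_lit 4277159387250) (nat_lit 1) (nat_lit 4) (nat_lit 2) (nat_lit 5) (nat_lit 2) (nat_lit 4) (nat_lit 334) (nat_lit 276) (nat_lit 170)) (XT.lf (nat_lit 0) (nat_lit 27797730355895) (nat_lit 76) (nat_lit 4900780690980) (nat_lit 76) (nat_lit 4829314369912) (nat_lit 1) (nat_lit 4) (nat_lit 2) (nat_lit 5) (nat_lit 2) (nat_lit 4) (nat_lit 335) (nat_lit 276) (nat_lit 169)))))))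 (XT.nd (nat_lit 36036) (nat_lit 0) (nat_lit 1064) (XT.nd (nat_lit 624) (nat_lit 0) (nat_lit 0) (XT.nd (nat_lit 156) (nat_lit 0) (nat_lit 0) (XT.nd (nat_lit 78) (nat_lit 0) (nat_lit 0) (XT.lf (nat_lit 0) (nat_lit 32143832885278) (nat_lit 76) (nat_lit 5535758933016) (nat_lit 76) (nat_lit 5464292608964) (nat_lit 1) (nat_lit 4) (nat_lit 2) (nat_lit 5) (nat_lit 2) (nat_lit 4) (nat_lit 336) (nat_lit 276) (nat_lit 168)) (XT.lf (nat_lit 0) (nat_lit 37141850780295) (nat_lit 76) (nat_lit 6265983918338) (nat_lit 76) (nat_lit 6194517591691) (nat_lit 1) (nat_lit 4) (nat_lit 2) (nat_lit 5) (nat_lit 2) (nat_lit 4) (nat_lit 337) (nat_lit 276) (nat_lit 167))) (XT.nd (nat_lit 78) (nat_lit 0) (nat_lit 0) (XT.lf (nat_lit 0) (nat_lit 42889571347587) (nat_lit 76) (nat_lit 7105742657529) (nat_lit 76) (nat_lit 7034276328625) (nat_lit 1) (nat_lit 4) (nat_lit 2) (nat_lit 5) (nat_lit 2) (nat_lit 4) (nat_lit 338)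 (nat_lit 276) (nat_lit 166)) (XT.lf (nat_lit 0) (nat_lit 49499449989558) (nat_lit 76) (nat_lit 8071465212876) (nat_lit 76) (nat_lit 7999998882011) (nat_lit 1) (nat_lit 4) (nat_lit 2) (nat_lit 5) (nat_lit 2) (nat_lit 4) (nat_lit 339) (nat_lit 276) (nat_lit 165)))) (XT.nd (nat_lit 156) (nat_lit 0) (nat_lit 0) (XT.nd (nat_lit 78) (nat_lit 0) (nat_lit 0) (XT.lf (nat_lit 0) (nat_lit 100750719940861) (nat_lit 76) (nat_lit 15559425382276) (nat_lit 76) (nat_lit 15487959044833) (nat_lit 1) (nat_lit 4) (nat_lit 2) (nat_lit 5) (nat_lit 2) (nat_lit 4) (nat_lit 344) (nat_lit 276) (nat_lit 160)) (XT.lf (nat_lit 0) (nat_lit 116039770832406) (nat_lit 76) (nat_lit 17793200366311) (nat_lit 76) (nat_lit 17721734028020) (nat_lit 1) (nat_lit 4) (nat_lit 2) (nat_lit 5) (nat_lit 2) (nat_lit 4) (nat_lit 345) (nat_lit 276) (nat_lit 159))) (XT.nd (nat_lit 78) (nat_lit 0) (nat_lit 0) (XT.lf (nat_lit 0) (nat_lit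 133622179353767) (nat_lit 76) (nat_lit 20362041599937) (nat_lit 76) (nat_lit 20290575260908) (nat_lit 1) (nat_lit 4) (nat_lit 2) (nat_lit 5) (nat_lit 2) (nat_lit 4) (nat_lit 346) (nat_lit 276) (nat_lit 158)) (XT.nd (nat_lit 78) (nat_lit 0) (nat_lit 0) (XT.lf (nat_lit 0) (nat_lit 153841949149928) (nat_lit 76) (nat_lit 23316209020331) (nat_lit 76) (nat_lit 23244742680661) (nat_lit 1) (nat_lit 4) (nat_lit 2) (nat_lit 5) (nat_lit 2) (nat_lit 4) (nat_lit 347) (nat_lit 276) (nat_lit 157)) (XT.lf (nat_lit 0) (nat_lit 177094684412551) (nat_lit 76) (nat_lit 26713501555285) (nat_lit 76) (nat_lit 26642035215057) (nat_lit 1) (nat_lit 4) (nat_lit 2) (nat_lit 5) (nat_lit 2) (nat_lit 4) (nat_lit 348) (nat_lit 276) (nat_lit 156)))))) (XT.nd (nat_lit 390) (nat_lit 380) (nat_lit 0) (XT.nd (nat_lit 156) (nat_lit 0) (nat_lit 76) (XT.nd (nat_lit 78) (nat_lit 0) (nat_lit 0) (XT.lf (nat_lit 0) (nat_lit 2999654640)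 (nat_lit 380) (nat_lit 9466453014) (nat_lit 380) (nat_lit 9466453014) (nat_lit 20) (nat_lit 3) (nat_lit 25) (nat_lit 3) (nat_lit 25) (nat_lit 5) (nat_lit 277) (nat_lit 277) (nat_lit 226)) (XT.lf (nat_lit 76) (nat_lit 1480826998) (nat_lit 0) (nat_lit 5060545487) (nat_lit 380) (nat_lit 40599680440) (nat_lit 21) (nat_lit 5) (nat_lit 20) (nat_lit 3) (nat_lit 25) (nat_lit 5) (nat_lit 278) (nat_lit 277) (nat_lit 225))) (XT.nd (nat_lit 78) (nat_lit 0) (nat_lit 0) (XT.lf (nat_lit 0) (nat_lit 8932732500) (nat_lit 304) (nat_lit 24463785315) (nat_lit 380) (nat_lit 17246682418) (nat_lit 21) (nat_lit 5) (nat_lit 25) (nat_lit 5) (nat_lit 26) (nat_lit 5) (nat_lit 279) (nat_lit 277) (nat_lit 224)) (XT.nd (nat_lit 78) (nat_lit 0) (nat_lit 76) (XT.lf (nat_lit 0) (nat_lit 11918958995) (nat_lit 304) (nat_lit 332710657) (nat_lit 380) (nat_lit 42383596557) (nat_lit 21) (nat_lit 5) (nat_lit 25) (nat_lit 5)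 (nat_lit 26) (nat_lit 5) (nat_lit 280) (nat_lit 277) (nat_lit 223)) (XT.lf (nat_lit 0) (nat_lit 17154009082) (nat_lit 304) (nat_lit 29504990502) (nat_lit 76) (nat_lit 12297027267) (nat_lit 22) (nat_lit 5) (nat_lit 26) (nat_lit 5) (nat_lit 23) (nat_lit 5) (nat_lit 281) (nat_lit 277) (nat_lit 222))))) (XT.nd (nat_lit 156) (nat_lit 228) (nat_lit 0) (XT.nd (nat_lit 78) (nat_lit 304) (nat_lit 0) (XT.lf (nat_lit 0) (nat_lit 23772199263) (nat_lit 304) (nat_lit 770600763) (nat_lit 76) (nat_lit 39292435011) (nat_lit 22) (nat_lit 5) (nat_lit 26) (nat_lit 5) (nat_lit 23) (nat_lit 5) (nat_lit 282) (nat_lit 277) (nat_lit 221)) (XT.lf (nat_lit 0) (nat_lit 32953439486) (nat_lit 380) (nat_lit 33909174777) (nat_lit 76) (nat_lit 2348175731) (nat_lit 18) (nat_lit 5) (nat_lit 23) (nat_lit 5) (nat_lit 19) (nat_lit 5) (nat_lit 283) (nat_lit 277) (nat_lit 220))) (XT.nd (nat_lit 78) (nat_lit 76) (nat_lit 0)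 (XT.lf (nat_lit 0) (nat_lit 340737668) (nat_lit 152) (nat_lit 44393167299) (nat_lit 228) (nat_lit 30475479317) (nat_lit 16) (nat_lit 5) (nat_lit 18) (nat_lit 5) (nat_lit 19) (nat_lit 5) (nat_lit 284) (nat_lit 277) (nat_lit 219)) (XT.nd (nat_lit 78) (nat_lit 76) (nat_lit 0) (XT.lf (nat_lit 0) (nat_lit 43535622917) (nat_lit 152) (nat_lit 16515613467) (nat_lit 228) (nat_lit 21791072329) (nat_lit 16) (nat_lit 5) (nat_lit 18) (nat_lit 5) (nat_lit 19) (nat_lit 5) (nat_lit 285) (nat_lit 277) (nat_lit 218)) (XT.lf (nat_lit 0) (nat_lit 3394842107) (nat_lit 76) (nat_lit 75053126116) (nat_lit 152) (nat_lit 10904942532) (nat_lit 15) (nat_lit 5) (nat_lit 16) (nat_lit 5) (nat_lit 17) (nat_lit 4) (nat_lit 286) (nat_lit 277) (nat_lit 217))))))))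
noncomputable def xc82 : XT := (XT.nd (nat_lit 1404) (nat_lit 228) (nat_lit 0) (XT.nd (nat_lit 702) (nat_lit 304) (nat_lit 0) (XT.nd (nat_lit 312) (nat_lit 228) (nat_lit 0) (XT.nd (nat_lit 156) (nat_lit 76) (nat_lit 0) (XT.nd (nat_lit 78) (nat_lit 152) (nat_lit 0) (XT.lf (nat_lit 0) (nat_lit 4352282320) (nat_lit 152) (nat_lit 42985058394) (nat_lit 76) (nat_lit 50210462548) (nat_lit 14) (nat_lit 5) (nat_lit 16) (nat_lit 5) (nat_lit 15) (nat_lit 5) (nat_lit 287) (nat_lit 277) (nat_lit 216)) (XT.lf (nat_lit 0) (nat_lit 6489379218) (nat_lit 152) (nat_lit 14558938257) (nat_lit 228) (nat_lit 85805722930) (nat_lit 12) (nat_lit 5) (nat_lit 14) (nat_lit 5) (nat_lit 15) (nat_lit 5) (nat_lit 288) (nat_lit 277) (nat_lit 215))) (XT.nd (nat_lit 78) (nat_lit 76) (nat_lit 0) (XT.lf (nat_lit 0) (nat_lit 43558804225) (nat_lit 228) (nat_lit 50071356565) (nat_lit 76) (nat_lit 23429550558) (nat_lit 12) (nat_lit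 5) (nat_lit 15) (nat_lit 5) (nat_lit 13) (nat_lit 4) (nat_lit 289) (nat_lit 277) (nat_lit 214)) (XT.lf (nat_lit 0) (nat_lit 7760909889) (nat_lit 76) (nat_lit 62697930840) (nat_lit 152) (nat_lit 58185450191) (nat_lit 11) (nat_lit 5) (nat_lit 12) (nat_lit 5) (nat_lit 13) (nat_lit 4) (nat_lit 290) (nat_lit 277) (nat_lit 213)))) (XT.nd (nat_lit 156) (nat_lit 152) (nat_lit 0) (XT.nd (nat_lit 78) (nat_lit 76) (nat_lit 0) (XT.lf (nat_lit 0) (nat_lit 79892794908) (nat_lit 76) (nat_lit 24116897107) (nat_lit 152) (nat_lit 37564497934) (nat_lit 11) (nat_lit 5) (nat_lit 12) (nat_lit 5) (nat_lit 13) (nat_lit 4) (nat_lit 291) (nat_lit 277) (nat_lit 212)) (XT.lf (nat_lit 0) (nat_lit 6103287155) (nat_lit 76) (nat_lit 137579780701) (nat_lit 76) (nat_lit 12597024852) (nat_lit 10) (nat_lit 4) (nat_lit 11) (nat_lit 5) (nat_lit 11) (nat_lit 4) (nat_lit 292) (nat_lit 277) (nat_lit 211))) (XT.nd (nat_lit 78)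 (nat_lit 76) (nat_lit 0) (XT.lf (nat_lit 0) (nat_lit 19205695941) (nat_lit 152) (nat_lit 83692117362) (nat_lit 76) (nat_lit 69515246522) (nat_lit 9) (nat_lit 5) (nat_lit 11) (nat_lit 5) (nat_lit 10) (nat_lit 4) (nat_lit 293) (nat_lit 277) (nat_lit 210)) (XT.nd (nat_lit 78) (nat_lit 76) (nat_lit 0) (XT.lf (nat_lit 0) (nat_lit 54487939720) (nat_lit 152) (nat_lit 7836691314) (nat_lit 76) (nat_lit 128551542926) (nat_lit 9) (nat_lit 5) (nat_lit 11) (nat_lit 5) (nat_lit 10) (nat_lit 4) (nat_lit 294) (nat_lit 277) (nat_lit 209)) (XT.lf (nat_lit 0) (nat_lit 87154294395) (nat_lit 76) (nat_lit 11516064594) (nat_lit 152) (nat_lit 112897222334) (nat_lit 8) (nat_lit 5) (nat_lit 9) (nat_lit 5) (nat_lit 10) (nat_lit 4) (nat_lit 295) (nat_lit 277) (nat_lit 208)))))) (XT.nd (nat_lit 312) (nat_lit 152) (nat_lit 0) (XT.nd (nat_lit 156) (nat_lit 76) (nat_lit 0) (XT.nd (nat_lit 78) (nat_lit 76) (nat_lit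 0) (XT.lf (nat_lit 0) (nat_lit 151850888963) (nat_lit 152) (nat_lit 39990558846) (nat_lit 0) (nat_lit 43165641501) (nat_lit 8) (nat_lit 5) (nat_lit 10) (nat_lit 4) (nat_lit 8) (nat_lit 4) (nat_lit 296) (nat_lit 277) (nat_lit 207)) (XT.lf (nat_lit 0) (nat_lit 62071617990) (nat_lit 76) (nat_lit 154054644586) (nat_lit 76) (nat_lit 45368597769) (nat_lit 7) (nat_lit 4) (nat_lit 8) (nat_lit 5) (nat_lit 8) (nat_lit 4) (nat_lit 297) (nat_lit 277) (nat_lit 206))) (XT.nd (nat_lit 78) (nat_lit 0) (nat_lit 0) (XT.lf (nat_lit 0) (nat_lit 446536164) (nat_lit 152) (nat_lit 107726689152) (nat_lit 76) (nat_lit 183466089606) (nat_lit 6) (nat_lit 5) (nat_lit 8) (nat_lit 5) (nat_lit 7) (nat_lit 4) (nat_lit 298) (nat_lit 277) (nat_lit 205)) (XT.lf (nat_lit 0) (nat_lit 48488308839) (nat_lit 152) (nat_lit 4437482329) (nat_lit 76) (nat_lit 273055698739) (nat_lit 6) (nat_lit 5) (nat_lit 8) (nat_lit 5) (nat_lit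 7) (nat_lit 4) (nat_lit 299) (nat_lit 277) (nat_lit 204)))) (XT.nd (nat_lit 156) (nat_lit 76) (nat_lit 0) (XT.nd (nat_lit 78) (nat_lit 0) (nat_lit 0) (XT.lf (nat_lit 0) (nat_lit 109619902477) (nat_lit 152) (nat_lit 239863846746) (nat_lit 0) (nat_lit 15108709500) (nat_lit 5) (nat_lit 5) (nat_lit 7) (nat_lit 4) (nat_lit 5) (nat_lit 4) (nat_lit 300) (nat_lit 277) (nat_lit 203)) (XT.lf (nat_lit 0) (nat_lit 182683875904) (nat_lit 152) (nat_lit 137724516069) (nat_lit 0) (nat_lit 88172285506) (nat_lit 5) (nat_lit 5) (nat_lit 7) (nat_lit 4) (nat_lit 5) (nat_lit 4) (nat_lit 301) (nat_lit 277) (nat_lit 202))) (XT.nd (nat_lit 78) (nat_lit 76) (nat_lit 0) (XT.lf (nat_lit 0) (nat_lit 266706888814) (nat_lit 152) (nat_lit 20265371517) (nat_lit 0) (nat_lit 172194952833) (nat_lit 5) (nat_lit 5) (nat_lit 7) (nat_lit 4) (nat_lit 5) (nat_lit 4) (nat_lit 302) (nat_lit 277) (nat_lit 201)) (XT.nd (nat_lit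 78) (nat_lit 0) (nat_lit 0) (XT.lf (nat_lit 0) (nat_lit 126031934982) (nat_lit 76) (nat_lit 242519648402) (nat_lit 76) (nat_lit 148007411914) (nat_lit 4) (nat_lit 4) (nat_lit 5) (nat_lit 5) (nat_lit 5) (nat_lit 4) (nat_lit 303) (nat_lit 277) (nat_lit 200)) (XT.lf (nat_lit 0) (nat_lit 296550487674) (nat_lit 76) (nat_lit 190181362571) (nat_lit 76) (nat_lit 95668864772) (nat_lit 4) (nat_lit 4) (nat_lit 5) (nat_lit 5) (nat_lit 5) (nat_lit 4) (nat_lit 304) (nat_lit 277) (nat_lit 199))))))) (XT.nd (nat_lit 702) (nat_lit 76) (nat_lit 0) (XT.nd (nat_lit 312) (nat_lit 0) (nat_lit 0) (XT.nd (nat_lit 156) (nat_lit 76) (nat_lit 0) (XT.nd (nat_lit 78) (nat_lit 76) (nat_lit 0) (XT.lf (nat_lit 0) (nat_lit 492646039620) (nat_lit 76) (nat_lit 129992719137) (nat_lit 76) (nat_lit 35479994112) (nat_lit 4) (nat_lit 4) (nat_lit 5) (nat_lit 5) (nat_lit 5) (nat_lit 4) (nat_lit 305) (nat_lit 277) (nat_lit 198))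 (XT.lf (nat_lit 0) (nat_lit 30733324427) (nat_lit 152) (nat_lit 28436275094) (nat_lit 76) (nat_lit 685815403810) (nat_lit 3) (nat_lit 5) (nat_lit 5) (nat_lit 5) (nat_lit 4) (nat_lit 4) (nat_lit 306) (nat_lit 277) (nat_lit 197))) (XT.nd (nat_lit 78) (nat_lit 0) (nat_lit 0) (XT.lf (nat_lit 0) (nat_lit 110318517457) (nat_lit 152) (nat_lit 705115174852) (nat_lit 0) (nat_lit 28133217953) (nat_lit 2) (nat_lit 5) (nat_lit 4) (nat_lit 4) (nat_lit 2) (nat_lit 4) (nat_lit 307) (nat_lit 277) (nat_lit 196)) (XT.lf (nat_lit 0) (nat_lit 206216002434) (nat_lit 152) (nat_lit 626033351078) (nat_lit 0) (nat_lit 124030573013) (nat_lit 2) (nat_lit 5) (nat_lit 4) (nat_lit 4) (nat_lit 2) (nat_lit 4) (nat_lit 308) (nat_lit 277) (nat_lit 195)))) (XT.nd (nat_lit 156) (nat_lit 0) (nat_lit 0) (XT.nd (nat_lit 78) (nat_lit 0) (nat_lit 0) (XT.lf (nat_lit 0) (nat_lit 316497839224) (nat_lit 152) (nat_lit 535089800020)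 (nat_lit 0) (nat_lit 234312296831) (nat_lit 2) (nat_lit 5) (nat_lit 4) (nat_lit 4) (nat_lit 2) (nat_lit 4) (nat_lit 309) (nat_lit 277) (nat_lit 194)) (XT.lf (nat_lit 0) (nat_lit 443321715938) (nat_lit 152) (nat_lit 430505191330) (nat_lit 0) (nat_lit 361136075309) (nat_lit 2) (nat_lit 5) (nat_lit 4) (nat_lit 4) (nat_lit 2) (nat_lit 4) (nat_lit 310) (nat_lit 277) (nat_lit 193))) (XT.nd (nat_lit 78) (nat_lit 0) (nat_lit 0) (XT.lf (nat_lit 0) (nat_lit 589168969295) (nat_lit 152) (nat_lit 310233304403) (nat_lit 0) (nat_lit 506983243243) (nat_lit 2) (nat_lit 5) (nat_lit 4) (nat_lit 4) (nat_lit 2) (nat_lit 4) (nat_lit 311) (nat_lit 277) (nat_lit 192)) (XT.nd (nat_lit 78) (nat_lit 0) (nat_lit 0) (XT.lf (nat_lit 0) (nat_lit 756893132512) (nat_lit 152) (nat_lit 171920993627) (nat_lit 0) (nat_lit 674707332179) (nat_lit 2) (nat_lit 5) (nat_lit 4) (nat_lit 4) (nat_lit 2) (nat_lit 4) (nat_lit 312)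 (nat_lit 277) (nat_lit 191)) (XT.lf (nat_lit 0) (nat_lit 949775765305) (nat_lit 152) (nat_lit 12862148572) (nat_lit 0) (nat_lit 867589900380) (nat_lit 2) (nat_lit 5) (nat_lit 4) (nat_lit 4) (nat_lit 2) (nat_lit 4) (nat_lit 313) (nat_lit 277) (nat_lit 190)))))) (XT.nd (nat_lit 390) (nat_lit 0) (nat_lit 0) (XT.nd (nat_lit 156) (nat_lit 0) (nat_lit 0) (XT.nd (nat_lit 78) (nat_lit 0) (nat_lit 0) (XT.lf (nat_lit 0) (nat_lit 186674287597) (nat_lit 76) (nat_lit 992646154883) (nat_lit 76) (nat_lit 910460233791) (nat_lit 1) (nat_lit 4) (nat_lit 2) (nat_lit 5) (nat_lit 2) (nat_lit 4) (nat_lit 314) (nat_lit 277) (nat_lit 189)) (XT.lf (nat_lit 0) (nat_lit 417586460046) (nat_lit 76) (nat_lit 1026382572902) (nat_lit 76) (nat_lit 944196602970) (nat_lit 1) (nat_lit 4) (nat_lit 2) (nat_lit 5) (nat_lit 2) (nat_lit 4) (nat_lit 315) (nat_lit 277) (nat_lit 188))) (XT.nd (nat_lit 78) (nat_lit 0) (nat_lit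 0) (XT.lf (nat_lit 0) (nat_lit 683135232926) (nat_lit 76) (nat_lit 1065179567874) (nat_lit 76) (nat_lit 982993555470) (nat_lit 1) (nat_lit 4) (nat_lit 2) (nat_lit 5) (nat_lit 2) (nat_lit 4) (nat_lit 316) (nat_lit 277) (nat_lit 187)) (XT.nd (nat_lit 78) (nat_lit 0) (nat_lit 0) (XT.lf (nat_lit 0) (nat_lit 988516125704) (nat_lit 76) (nat_lit 1109796211437) (nat_lit 76) (nat_lit 1027610162103) (nat_lit 1) (nat_lit 4) (nat_lit 2) (nat_lit 5) (nat_lit 2) (nat_lit 4) (nat_lit 317) (nat_lit 277) (nat_lit 186)) (XT.lf (nat_lit 0) (nat_lit 1339703981937) (nat_lit 76) (nat_lit 1161105437923) (nat_lit 76) (nat_lit 1078919356476) (nat_lit 1) (nat_lit 4) (nat_lit 2) (nat_lit 5) (nat_lit 2) (nat_lit 4) (nat_lit 318) (nat_lit 277) (nat_lit 185))))) (XT.nd (nat_lit 156) (nat_lit 0) (nat_lit 0) (XT.nd (nat_lit 78) (nat_lit 0) (nat_lit 0) (XT.lf (nat_lit 0) (nat_lit 1743569868375) (nat_lit 76) (nat_lit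 1220111123503) (nat_lit 76) (nat_lit 1137925014131) (nat_lit 1) (nat_lit 4) (nat_lit 2) (nat_lit 5) (nat_lit 2) (nat_lit 4) (nat_lit 319) (nat_lit 277) (nat_lit 184)) (XT.lf (nat_lit 0) (nat_lit 2208015508885) (nat_lit 76) (nat_lit 1287967727242) (nat_lit 76) (nat_lit 1205781593587) (nat_lit 1) (nat_lit 4) (nat_lit 2) (nat_lit 5) (nat_lit 2) (nat_lit 4) (nat_lit 320) (nat_lit 277) (nat_lit 183))) (XT.nd (nat_lit 78) (nat_lit 0) (nat_lit 0) (XT.lf (nat_lit 0) (nat_lit 2742127883388) (nat_lit 76) (nat_lit 1366002878343) (nat_lit 76) (nat_lit 1283816723573) (nat_lit 1) (nat_lit 4) (nat_lit 2) (nat_lit 5) (nat_lit 2) (nat_lit 4) (nat_lit 321) (nat_lit 277) (nat_lit 182)) (XT.nd (nat_lit 78) (nat_lit 0) (nat_lit 0) (XT.lf (nat_lit 0) (nat_lit 3356357016605) (nat_lit 76) (nat_lit 1455743351502) (nat_lit 76) (nat_lit 1373557178371) (nat_lit 1) (nat_lit 4) (nat_lit 2) (nat_lit 5) (nat_lit 2)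 (nat_lit 4) (nat_lit 322) (nat_lit 277) (nat_lit 181)) (XT.lf (nat_lit 0) (nat_lit 4062720435054) (nat_lit 76) (nat_lit 1558944938586) (nat_lit 76) (nat_lit 1476758749488) (nat_lit 1) (nat_lit 4) (nat_lit 2) (nat_lit 5) (nat_lit 2) (nat_lit 4) (nat_lit 323) (nat_lit 277) (nat_lit 180))))))))
noncomputable def xc83 : XT := (XT.nd (nat_lit 1794) (nat_lit 0) (nat_lit 0) (XT.nd (nat_lit 702) (nat_lit 0) (nat_lit 0) (XT.nd (nat_lit 312) (nat_lit 0) (nat_lit 0) (XT.nd (nat_lit 156) (nat_lit 0) (nat_lit 0) (XT.nd (nat_lit 78) (nat_lit 0) (nat_lit 0) (XT.lf (nat_lit 0) (nat_lit 4875038292574) (nat_lit 76) (nat_lit 1677626801080) (nat_lit 76) (nat_lit 1595440598099) (nat_lit 1) (nat_lit 4) (nat_lit 2) (nat_lit 5) (nat_lit 2) (nat_lit 4) (nat_lit 324) (nat_lit 277) (nat_lit 179)) (XT.lf (nat_lit 0) (nat_lit 5809203764639) (nat_lit 76) (nat_lit 1814110975424) (nat_lit 76) (nat_lit 1731924760371)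 (nat_lit 1) (nat_lit 4) (nat_lit 2) (nat_lit 5) (nat_lit 2) (nat_lit 4) (nat_lit 325) (nat_lit 277) (nat_lit 178))) (XT.nd (nat_lit 78) (nat_lit 0) (nat_lit 0) (XT.lf (nat_lit 0) (nat_lit 6883494001788) (nat_lit 76) (nat_lit 1971067804161) (nat_lit 76) (nat_lit 1888881578610) (nat_lit 1) (nat_lit 4) (nat_lit 2) (nat_lit 5) (nat_lit 2) (nat_lit 4) (nat_lit 326) (nat_lit 277) (nat_lit 177)) (XT.lf (nat_lit 0) (nat_lit 8118927726054) (nat_lit 76) (nat_lit 2151568181766) (nat_lit 76) (nat_lit 2069381947086) (nat_lit 1) (nat_lit 4) (nat_lit 2) (nat_lit 5) (nat_lit 2) (nat_lit 4) (nat_lit 327) (nat_lit 277) (nat_lit 176)))) (XT.nd (nat_lit 156) (nat_lit 0) (nat_lit 0) (XT.nd (nat_lit 78) (nat_lit 0) (nat_lit 0) (XT.lf (nat_lit 0) (nat_lit 9539676466825) (nat_lit 76) (nat_lit 2359143637365) (nat_lit 76) (nat_lit 2276957394747) (nat_lit 1) (nat_lit 4) (nat_lit 2) (nat_lit 5) (nat_lit 2) (nat_lit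 4) (nat_lit 328) (nat_lit 277) (nat_lit 175)) (XT.lf (nat_lit 0) (nat_lit 11173537482070) (nat_lit 76) (nat_lit 2597855429872) (nat_lit 76) (nat_lit 2515669180351) (nat_lit 1) (nat_lit 4) (nat_lit 2) (nat_lit 5) (nat_lit 2) (nat_lit 4) (nat_lit 329) (nat_lit 277) (nat_lit 174))) (XT.nd (nat_lit 78) (nat_lit 0) (nat_lit 0) (XT.lf (nat_lit 0) (nat_lit 13052477617742) (nat_lit 76) (nat_lit 2872374007403) (nat_lit 76) (nat_lit 2790187751879) (nat_lit 1) (nat_lit 4) (nat_lit 2) (nat_lit 5) (nat_lit 2) (nat_lit 4) (nat_lit 330) (nat_lit 277) (nat_lit 173)) (XT.nd (nat_lit 78) (nat_lit 0) (nat_lit 0) (XT.lf (nat_lit 0) (nat_lit 15213258746060) (nat_lit 76) (nat_lit 3188070385603) (nat_lit 76) (nat_lit 3105884124860) (nat_lit 1) (nat_lit 4) (nat_lit 2) (nat_lit 5) (nat_lit 2) (nat_lit 4) (nat_lit 331) (nat_lit 277) (nat_lit 172)) (XT.lf (nat_lit 0) (nat_lit 17698157019533) (nat_lit 76) (nat_lit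 3551121232742) (nat_lit 76) (nat_lit 3468934967461) (nat_lit 1) (nat_lit 4) (nat_lit 2) (nat_lit 5) (nat_lit 2) (nat_lit 4) (nat_lit 332) (nat_lit 277) (nat_lit 171)))))) (XT.nd (nat_lit 312) (nat_lit 0) (nat_lit 0) (XT.nd (nat_lit 156) (nat_lit 0) (nat_lit 0) (XT.nd (nat_lit 78) (nat_lit 0) (nat_lit 0) (XT.lf (nat_lit 0) (nat_lit 20555790013079) (nat_lit 76) (nat_lit 3968629717569) (nat_lit 76) (nat_lit 3886443448342) (nat_lit 1) (nat_lit 4) (nat_lit 2) (nat_lit 5) (nat_lit 2) (nat_lit 4) (nat_lit 333) (nat_lit 277) (nat_lit 170)) (XT.lf (nat_lit 0) (nat_lit 23842067937441) (nat_lit 76) (nat_lit 4448764484352) (nat_lit 76) (nat_lit 4366578211693) (nat_lit 1) (nat_lit 4) (nat_lit 2) (nat_lit 5) (nat_lit 2) (nat_lit 4) (nat_lit 334) (nat_lit 277) (nat_lit 169))) (XT.nd (nat_lit 78) (nat_lit 0) (nat_lit 0) (XT.lf (nat_lit 0) (nat_lit 27621287534616) (nat_lit 76) (nat_lit 5000919474180)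 (nat_lit 76) (nat_lit 4918733198537) (nat_lit 1) (nat_lit 4) (nat_lit 2) (nat_lit 5) (nat_lit 2) (nat_lit 4) (nat_lit 335) (nat_lit 277) (nat_lit 168)) (XT.lf (nat_lit 0) (nat_lit 31967390057593) (nat_lit 76) (nat_lit 5635897719463) (nat_lit 76) (nat_lit 5553711441225) (nat_lit 1) (nat_lit 4) (nat_lit 2) (nat_lit 5) (nat_lit 2) (nat_lit 4) (nat_lit 336) (nat_lit 277) (nat_lit 167)))) (XT.nd (nat_lit 546) (nat_lit 0) (nat_lit 0) (XT.nd (nat_lit 78) (nat_lit 0) (nat_lit 0) (XT.lf (nat_lit 0) (nat_lit 36965407947039) (nat_lit 76) (nat_lit 6366122707609) (nat_lit 76) (nat_lit 6283936427114) (nat_lit 1) (nat_lit 4) (nat_lit 2) (nat_lit 5) (nat_lit 2) (nat_lit 4) (nat_lit 337) (nat_lit 277) (nat_lit 166)) (XT.lf (nat_lit 0) (nat_lit 42713128509486) (nat_lit 76) (nat_lit 7205881449254) (nat_lit 76) (nat_lit 7123695166797) (nat_lit 1) (nat_lit 4) (nat_lit 2) (nat_lit 5) (nat_lit 2) (nat_lit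 4) (nat_lit 338) (nat_lit 277) (nat_lit 165))) (XT.nd (nat_lit 78) (nat_lit 0) (nat_lit 0) (XT.lf (nat_lit 0) (nat_lit 100574277084427) (nat_lit 76) (nat_lit 15659564183293) (nat_lit 76) (nat_lit 15577377893410) (nat_lit 1) (nat_lit 4) (nat_lit 2) (nat_lit 5) (nat_lit 2) (nat_lit 4) (nat_lit 344) (nat_lit 277) (nat_lit 159)) (XT.nd (nat_lit 78) (nat_lit 0) (nat_lit 0) (XT.lf (nat_lit 0) (nat_lit 115863327974150) (nat_lit 76) (nat_lit 17893339168251) (nat_lit 76) (nat_lit 17811152877631) (nat_lit 1) (nat_lit 4) (nat_lit 2) (nat_lit 5) (nat_lit 2) (nat_lit 4) (nat_lit 345) (nat_lit 277) (nat_lit 158)) (XT.lf (nat_lit 0) (nat_lit 133445736493928) (nat_lit 76) (nat_lit 20462180402679) (nat_lit 76) (nat_lit 20379994111417) (nat_lit 1) (nat_lit 4) (nat_lit 2) (nat_lit 5) (nat_lit 2) (nat_lit 4) (nat_lit 346) (nat_lit 277) (nat_lit 157))))))) (XT.nd (nat_lit 35802) (nat_lit 0) (nat_lit 608)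 (XT.nd (nat_lit 35412) (nat_lit 0) (nat_lit 1292) (XT.nd (nat_lit 35256) (nat_lit 0) (nat_lit 1444) (XT.nd (nat_lit 78) (nat_lit 0) (nat_lit 0) (XT.lf (nat_lit 0) (nat_lit 153665506288711) (nat_lit 76) (nat_lit 23416347823771) (nat_lit 76) (nat_lit 23334161531952) (nat_lit 1) (nat_lit 4) (nat_lit 2) (nat_lit 5) (nat_lit 2) (nat_lit 4) (nat_lit 347) (nat_lit 277) (nat_lit 156)) (XT.lf (nat_lit 0) (nat_lit 176918241550137) (nat_lit 76) (nat_lit 26813640359332) (nat_lit 76) (nat_lit 26731454067027) (nat_lit 1) (nat_lit 4) (nat_lit 2) (nat_lit 5) (nat_lit 2) (nat_lit 4) (nat_lit 348) (nat_lit 277) (nat_lit 155))) (XT.nd (nat_lit 78) (nat_lit 0) (nat_lit 0) (XT.lf (nat_lit 0) (nat_lit 3479124713) (nat_lit 380) (nat_lit 10869381056) (nat_lit 380) (nat_lit 10869381056) (nat_lit 20) (nat_lit 3) (nat_lit 25) (nat_lit 3) (nat_lit 25) (nat_lit 5) (nat_lit 278) (nat_lit 278) (nat_lit 224)) (XT.lf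 (nat_lit 76) (nat_lit 1735481784) (nat_lit 0) (nat_lit 5839785995) (nat_lit 380) (nat_lit 46628814172) (nat_lit 21) (nat_lit 5) (nat_lit 20) (nat_lit 3) (nat_lit 25) (nat_lit 5) (nat_lit 279) (nat_lit 278) (nat_lit 223)))) (XT.nd (nat_lit 156) (nat_lit 228) (nat_lit 0) (XT.nd (nat_lit 78) (nat_lit 0) (nat_lit 0) (XT.lf (nat_lit 0) (nat_lit 10317733413) (nat_lit 304) (nat_lit 28097271046) (nat_lit 380) (nat_lit 19817716068) (nat_lit 21) (nat_lit 5) (nat_lit 25) (nat_lit 5) (nat_lit 26) (nat_lit 5) (nat_lit 280) (nat_lit 278) (nat_lit 222)) (XT.lf (nat_lit 0) (nat_lit 13746012443) (nat_lit 304) (nat_lit 351241546) (nat_lit 380) (nat_lit 48727250204) (nat_lit 21) (nat_lit 5) (nat_lit 25) (nat_lit 5) (nat_lit 26) (nat_lit 5) (nat_lit 281) (nat_lit 278) (nat_lit 221))) (XT.nd (nat_lit 78) (nat_lit 304) (nat_lit 0) (XT.lf (nat_lit 0) (nat_lit 19762222875) (nat_lit 304) (nat_lit 33895117930)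 (nat_lit 76) (nat_lit 14136674940) (nat_lit 22) (nat_lit 5) (nat_lit 26) (nat_lit 5) (nat_lit 23) (nat_lit 5) (nat_lit 282) (nat_lit 278) (nat_lit 220)) (XT.nd (nat_lit 78) (nat_lit 304) (nat_lit 0) (XT.lf (nat_lit 0) (nat_lit 27368561700) (nat_lit 304) (nat_lit 855215967) (nat_lit 76) (nat_lit 45182033813) (nat_lit 22) (nat_lit 5) (nat_lit 26) (nat_lit 5) (nat_lit 23) (nat_lit 5) (nat_lit 283) (nat_lit 278) (nat_lit 219)) (XT.lf (nat_lit 0) (nat_lit 37924303984) (nat_lit 380) (nat_lit 38961779997) (nat_lit 76) (nat_lit 2702035113) (nat_lit 18) (nat_lit 5) (nat_lit 23) (nat_lit 5) (nat_lit 19) (nat_lit 5) (nat_lit 284) (nat_lit 278) (nat_lit 218)))))) (XT.nd (nat_lit 390) (nat_lit 228) (nat_lit 0) (XT.nd (nat_lit 156) (nat_lit 304) (nat_lit 0) (XT.nd (nat_lit 78) (nat_lit 0) (nat_lit 0) (XT.lf (nat_lit 0) (nat_lit 424084270) (nat_lit 152) (nat_lit 51045457418) (nat_lit 228) (nat_lit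 35017320105) (nat_lit 16) (nat_lit 5) (nat_lit 18) (nat_lit 5) (nat_lit 19) (nat_lit 5) (nat_lit 285) (nat_lit 278) (nat_lit 217)) (XT.lf (nat_lit 0) (nat_lit 50093997617) (nat_lit 152) (nat_lit 18987142464) (nat_lit 228) (nat_lit 25034097431) (nat_lit 16) (nat_lit 5) (nat_lit 18) (nat_lit 5) (nat_lit 19) (nat_lit 5) (nat_lit 286) (nat_lit 278) (nat_lit 216))) (XT.nd (nat_lit 78) (nat_lit 228) (nat_lit 0) (XT.lf (nat_lit 0) (nat_lit 3933857940) (nat_lit 76) (nat_lit 86302068553) (nat_lit 152) (nat_lit 12516732704) (nat_lit 15) (nat_lit 5) (nat_lit 16) (nat_lit 5) (nat_lit 17) (nat_lit 4) (nat_lit 287) (nat_lit 278) (nat_lit 215)) (XT.nd (nat_lit 78) (nat_lit 152) (nat_lit 0) (XT.lf (nat_lit 0) (nat_lit 5024097629) (nat_lit 152) (nat_lit 49405003310) (nat_lit 76) (nat_lit 57747971128) (nat_lit 14) (nat_lit 5) (nat_lit 16) (nat_lit 5) (nat_lit 15) (nat_lit 5) (nat_lit 288) (nat_lit 278)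 (nat_lit 214)) (XT.lf (nat_lit 0) (nat_lit 7489335678) (nat_lit 152) (nat_lit 16733827006) (nat_lit 228) (nat_lit 98656295673) (nat_lit 12) (nat_lit 5) (nat_lit 14) (nat_lit 5) (nat_lit 15) (nat_lit 5) (nat_lit 289) (nat_lit 278) (nat_lit 213))))) (XT.nd (nat_lit 156) (nat_lit 152) (nat_lit 0) (XT.nd (nat_lit 78) (nat_lit 76) (nat_lit 0) (XT.lf (nat_lit 0) (nat_lit 50108249442) (nat_lit 228) (nat_lit 57556958308) (nat_lit 76) (nat_lit 26951074464) (nat_lit 12) (nat_lit 5) (nat_lit 15) (nat_lit 5) (nat_lit 13) (nat_lit 4) (nat_lit 290) (nat_lit 278) (nat_lit 212)) (XT.lf (nat_lit 0) (nat_lit 8949007126) (nat_lit 76) (nat_lit 72093238472) (nat_lit 152) (nat_lit 66896465498) (nat_lit 11) (nat_lit 5) (nat_lit 12) (nat_lit 5) (nat_lit 13) (nat_lit 4) (nat_lit 291) (nat_lit 278) (nat_lit 211))) (XT.nd (nat_lit 78) (nat_lit 152) (nat_lit 0) (XT.lf (nat_lit 0) (nat_lit 91897549582) (nat_lit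 76) (nat_lit 27726273417) (nat_lit 152) (nat_lit 43184561997) (nat_lit 11) (nat_lit 5) (nat_lit 12) (nat_lit 5) (nat_lit 13) (nat_lit 4) (nat_lit 292) (nat_lit 278) (nat_lit 210)) (XT.nd (nat_lit 78) (nat_lit 76) (nat_lit 0) (XT.lf (nat_lit 0) (nat_lit 7040191702) (nat_lit 76) (nat_lit 158207540324) (nat_lit 76) (nat_lit 14472516276) (nat_lit 10) (nat_lit 4) (nat_lit 11) (nat_lit 5) (nat_lit 11) (nat_lit 4) (nat_lit 293) (nat_lit 278) (nat_lit 209)) (XT.lf (nat_lit 0) (nat_lit 22097689794) (nat_lit 152) (nat_lit 96226206709) (nat_lit 76) (nat_lit 79949430423) (nat_lit 9) (nat_lit 5) (nat_lit 11) (nat_lit 5) (nat_lit 10) (nat_lit 4) (nat_lit 294) (nat_lit 278) (nat_lit 208))))))))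
noncomputable def xc84 : XT := (XT.nd (nat_lit 1404) (nat_lit 76) (nat_lit 0) (XT.nd (nat_lit 702) (nat_lit 228) (nat_lit 0) (XT.nd (nat_lit 312) (nat_lit 152) (nat_lit 0) (XT.nd (nat_lit 156) (nat_lit 76) (nat_lit 0) (XT.nd (nat_lit 78) (nat_lit 76) (nat_lit 0) (XT.lf (nat_lit 0) (nat_lit 62670817166) (nat_lit 152) (nat_lit 8995040005) (nat_lit 76) (nat_lit 147840271688) (nat_lit 9) (nat_lit 5) (nat_lit 11) (nat_lit 5) (nat_lit 10) (nat_lit 4) (nat_lit 295) (nat_lit 278) (nat_lit 207)) (XT.lf (nat_lit 0) (nat_lit 100243813788) (nat_lit 76) (nat_lit 13236200147) (nat_lit 152) (nat_lit 129821323578) (nat_lit 8) (nat_lit 5) (nat_lit 9) (nat_lit 5) (nat_lit 10) (nat_lit 4) (nat_lit 296) (nat_lit 278) (nat_lit 206))) (XT.nd (nat_lit 78) (nat_lit 76) (nat_lit 0) (XT.lf (nat_lit 0) (nat_lit 174636698223) (nat_lit 152) (nat_lit 45973964381) (nat_lit 0) (nat_lit 49646249938) (nat_lit 8) (nat_lit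 5) (nat_lit 10) (nat_lit 4) (nat_lit 8) (nat_lit 4) (nat_lit 297) (nat_lit 278) (nat_lit 205)) (XT.lf (nat_lit 0) (nat_lit 71396849059) (nat_lit 76) (nat_lit 177156062328) (nat_lit 76) (nat_lit 52165009616) (nat_lit 7) (nat_lit 4) (nat_lit 8) (nat_lit 5) (nat_lit 8) (nat_lit 4) (nat_lit 298) (nat_lit 278) (nat_lit 204)))) (XT.nd (nat_lit 156) (nat_lit 76) (nat_lit 0) (XT.nd (nat_lit 78) (nat_lit 0) (nat_lit 0) (XT.lf (nat_lit 0) (nat_lit 520549158) (nat_lit 152) (nat_lit 123872397610) (nat_lit 76) (nat_lit 210991201449) (nat_lit 6) (nat_lit 5) (nat_lit 8) (nat_lit 5) (nat_lit 7) (nat_lit 4) (nat_lit 299) (nat_lit 278) (nat_lit 203)) (XT.lf (nat_lit 0) (nat_lit 55767670442) (nat_lit 152) (nat_lit 5091543883) (nat_lit 76) (nat_lit 314018573900) (nat_lit 6) (nat_lit 5) (nat_lit 8) (nat_lit 5) (nat_lit 7) (nat_lit 4) (nat_lit 300) (nat_lit 278) (nat_lit 202))) (XT.nd (nat_lit 78) (nat_lit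 0) (nat_lit 0) (XT.lf (nat_lit 0) (nat_lit 126068880264) (nat_lit 152) (nat_lit 275831733251) (nat_lit 0) (nat_lit 17379808303) (nat_lit 5) (nat_lit 5) (nat_lit 7) (nat_lit 4) (nat_lit 5) (nat_lit 4) (nat_lit 301) (nat_lit 278) (nat_lit 201)) (XT.nd (nat_lit 78) (nat_lit 0) (nat_lit 0) (XT.lf (nat_lit 0) (nat_lit 210091668086) (nat_lit 152) (nat_lit 158373027821) (nat_lit 0) (nat_lit 101402295618) (nat_lit 5) (nat_lit 5) (nat_lit 7) (nat_lit 4) (nat_lit 5) (nat_lit 4) (nat_lit 302) (nat_lit 278) (nat_lit 200)) (XT.lf (nat_lit 0) (nat_lit 306717453264) (nat_lit 152) (nat_lit 23296337542) (nat_lit 0) (nat_lit 198027819485) (nat_lit 5) (nat_lit 5) (nat_lit 7) (nat_lit 4) (nat_lit 5) (nat_lit 4) (nat_lit 303) (nat_lit 278) (nat_lit 199)))))) (XT.nd (nat_lit 312) (nat_lit 76) (nat_lit 0) (XT.nd (nat_lit 156) (nat_lit 76) (nat_lit 0) (XT.nd (nat_lit 78) (nat_lit 0) (nat_lit 0) (XT.lf (nat_lit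 0) (nat_lit 144945163128) (nat_lit 76) (nat_lit 278893447270) (nat_lit 76) (nat_lit 170203586265) (nat_lit 4) (nat_lit 4) (nat_lit 5) (nat_lit 5) (nat_lit 5) (nat_lit 4) (nat_lit 304) (nat_lit 278) (nat_lit 198)) (XT.lf (nat_lit 0) (nat_lit 341040398128) (nat_lit 76) (nat_lit 218704959659) (nat_lit 76) (nat_lit 110014901066) (nat_lit 4) (nat_lit 4) (nat_lit 5) (nat_lit 5) (nat_lit 5) (nat_lit 4) (nat_lit 305) (nat_lit 278) (nat_lit 197))) (XT.nd (nat_lit 78) (nat_lit 76) (nat_lit 0) (XT.lf (nat_lit 0) (nat_lit 566549325826) (nat_lit 76) (nat_lit 149488490228) (nat_lit 76) (nat_lit 40798259818) (nat_lit 4) (nat_lit 4) (nat_lit 5) (nat_lit 5) (nat_lit 5) (nat_lit 4) (nat_lit 306) (nat_lit 278) (nat_lit 196)) (XT.lf (nat_lit 0) (nat_lit 35346280515) (nat_lit 152) (nat_lit 32695876707) (nat_lit 76) (nat_lit 788690150421) (nat_lit 3) (nat_lit 5) (nat_lit 5) (nat_lit 5) (nat_lit 4) (nat_lit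 4) (nat_lit 307) (nat_lit 278) (nat_lit 195)))) (XT.nd (nat_lit 156) (nat_lit 0) (nat_lit 0) (XT.nd (nat_lit 78) (nat_lit 0) (nat_lit 0) (XT.lf (nat_lit 0) (nat_lit 126869212336) (nat_lit 152) (nat_lit 810876569026) (nat_lit 0) (nat_lit 32355725612) (nat_lit 2) (nat_lit 5) (nat_lit 4) (nat_lit 4) (nat_lit 2) (nat_lit 4) (nat_lit 308) (nat_lit 278) (nat_lit 194)) (XT.lf (nat_lit 0) (nat_lit 237150939547) (nat_lit 152) (nat_lit 719933238911) (nat_lit 0) (nat_lit 142637354587) (nat_lit 2) (nat_lit 5) (nat_lit 4) (nat_lit 4) (nat_lit 2) (nat_lit 4) (nat_lit 309) (nat_lit 278) (nat_lit 193))) (XT.nd (nat_lit 78) (nat_lit 0) (nat_lit 0) (XT.lf (nat_lit 0) (nat_lit 363974720976) (nat_lit 152) (nat_lit 615348822345) (nat_lit 0) (nat_lit 269461050593) (nat_lit 2) (nat_lit 5) (nat_lit 4) (nat_lit 4) (nat_lit 2) (nat_lit 4) (nat_lit 310) (nat_lit 278) (nat_lit 192)) (XT.nd (nat_lit 78) (nat_lit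 0) (nat_lit 0) (XT.lf (nat_lit 0) (nat_lit 509821891475) (nat_lit 152) (nat_lit 495077102483) (nat_lit 0) (nat_lit 415308146811) (nat_lit 2) (nat_lit 5) (nat_lit 4) (nat_lit 4) (nat_lit 2) (nat_lit 4) (nat_lit 311) (nat_lit 278) (nat_lit 191)) (XT.lf (nat_lit 0) (nat_lit 677545982643) (nat_lit 152) (nat_lit 356764936980) (nat_lit 0) (nat_lit 583032173387) (nat_lit 2) (nat_lit 5) (nat_lit 4) (nat_lit 4) (nat_lit 2) (nat_lit 4) (nat_lit 312) (nat_lit 278) (nat_lit 190))))))) (XT.nd (nat_lit 702) (nat_lit 0) (nat_lit 0) (XT.nd (nat_lit 312) (nat_lit 0) (nat_lit 0) (XT.nd (nat_lit 156) (nat_lit 76) (nat_lit 0) (XT.nd (nat_lit 78) (nat_lit 0) (nat_lit 0) (XT.lf (nat_lit 0) (nat_lit 870428552783) (nat_lit 152) (nat_lit 197706218251) (nat_lit 0) (nat_lit 775914687360) (nat_lit 2) (nat_lit 5) (nat_lit 4) (nat_lit 4) (nat_lit 2) (nat_lit 4) (nat_lit 313) (nat_lit 278) (nat_lit 189)) (XT.lf (nat_lit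 0) (nat_lit 1092243391313) (nat_lit 152) (nat_lit 14788927884) (nat_lit 0) (nat_lit 997729477049) (nat_lit 2) (nat_lit 5) (nat_lit 4) (nat_lit 4) (nat_lit 2) (nat_lit 4) (nat_lit 314) (nat_lit 278) (nat_lit 188))) (XT.nd (nat_lit 78) (nat_lit 0) (nat_lit 0) (XT.lf (nat_lit 0) (nat_lit 214677858121) (nat_lit 76) (nat_lit 1141541847950) (nat_lit 76) (nat_lit 1047027891216) (nat_lit 1) (nat_lit 4) (nat_lit 2) (nat_lit 5) (nat_lit 2) (nat_lit 4) (nat_lit 315) (nat_lit 278) (nat_lit 187)) (XT.lf (nat_lit 0) (nat_lit 480226539822) (nat_lit 76) (nat_lit 1180338889129) (nat_lit 76) (nat_lit 1085824895464) (nat_lit 1) (nat_lit 4) (nat_lit 2) (nat_lit 5) (nat_lit 2) (nat_lit 4) (nat_lit 316) (nat_lit 278) (nat_lit 186)))) (XT.nd (nat_lit 156) (nat_lit 0) (nat_lit 0) (XT.nd (nat_lit 78) (nat_lit 0) (nat_lit 0) (XT.lf (nat_lit 0) (nat_lit 785607353316) (nat_lit 76) (nat_lit 1224955572873) (nat_lit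 76) (nat_lit 1130441547095) (nat_lit 1) (nat_lit 4) (nat_lit 2) (nat_lit 5) (nat_lit 2) (nat_lit 4) (nat_lit 317) (nat_lit 278) (nat_lit 185)) (XT.lf (nat_lit 0) (nat_lit 1136795140605) (nat_lit 76) (nat_lit 1276264834299) (nat_lit 76) (nat_lit 1181750780596) (nat_lit 1) (nat_lit 4) (nat_lit 2) (nat_lit 5) (nat_lit 2) (nat_lit 4) (nat_lit 318) (nat_lit 278) (nat_lit 184))) (XT.nd (nat_lit 78) (nat_lit 0) (nat_lit 0) (XT.lf (nat_lit 0) (nat_lit 1540660967092) (nat_lit 76) (nat_lit 1335270550261) (nat_lit 76) (nat_lit 1240756472275) (nat_lit 1) (nat_lit 4) (nat_lit 2) (nat_lit 5) (nat_lit 2) (nat_lit 4) (nat_lit 319) (nat_lit 278) (nat_lit 183)) (XT.nd (nat_lit 78) (nat_lit 0) (nat_lit 0) (XT.lf (nat_lit 0) (nat_lit 2005106555470) (nat_lit 76) (nat_lit 1403127180419) (nat_lit 76) (nat_lit 1308613081318) (nat_lit 1) (nat_lit 4) (nat_lit 2) (nat_lit 5) (nat_lit 2) (nat_lit 4) (nat_lit 320)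 (nat_lit 278) (nat_lit 182)) (XT.lf (nat_lit 0) (nat_lit 2539218884643) (nat_lit 76) (nat_lit 1481162354494) (nat_lit 76) (nat_lit 1386648237032) (nat_lit 1) (nat_lit 4) (nat_lit 2) (nat_lit 5) (nat_lit 2) (nat_lit 4) (nat_lit 321) (nat_lit 278) (nat_lit 181)))))) (XT.nd (nat_lit 312) (nat_lit 0) (nat_lit 0) (XT.nd (nat_lit 156) (nat_lit 0) (nat_lit 0) (XT.nd (nat_lit 78) (nat_lit 0) (nat_lit 0) (XT.lf (nat_lit 0) (nat_lit 3153447978440) (nat_lit 76) (nat_lit 1570902847630) (nat_lit 76) (nat_lit 1476388714202) (nat_lit 1) (nat_lit 4) (nat_lit 2) (nat_lit 5) (nat_lit 2) (nat_lit 4) (nat_lit 322) (nat_lit 278) (nat_lit 180)) (XT.lf (nat_lit 0) (nat_lit 3859811362612) (nat_lit 76) (nat_lit 1674104452084) (nat_lit 76) (nat_lit 1579590304773) (nat_lit 1) (nat_lit 4) (nat_lit 2) (nat_lit 5) (nat_lit 2) (nat_lit 4) (nat_lit 323) (nat_lit 278) (nat_lit 179))) (XT.nd (nat_lit 78) (nat_lit 0)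 (nat_lit 0) (XT.lf (nat_lit 0) (nat_lit 4672129190326) (nat_lit 76) (nat_lit 1792786329684) (nat_lit 76) (nat_lit 1698272170299) (nat_lit 1) (nat_lit 4) (nat_lit 2) (nat_lit 5) (nat_lit 2) (nat_lit 4) (nat_lit 324) (nat_lit 278) (nat_lit 178)) (XT.lf (nat_lit 0) (nat_lit 5606294636472) (nat_lit 76) (nat_lit 1929270517164) (nat_lit 76) (nat_lit 1834756347281) (nat_lit 1) (nat_lit 4) (nat_lit 2) (nat_lit 5) (nat_lit 2) (nat_lit 4) (nat_lit 325) (nat_lit 278) (nat_lit 177)))) (XT.nd (nat_lit 156) (nat_lit 0) (nat_lit 0) (XT.nd (nat_lit 78) (nat_lit 0) (nat_lit 0) (XT.lf (nat_lit 0) (nat_lit 6680584851084) (nat_lit 76) (nat_lit 2086227357322) (nat_lit 76) (nat_lit 1991713178311) (nat_lit 1) (nat_lit 4) (nat_lit 2) (nat_lit 5) (nat_lit 2) (nat_lit 4) (nat_lit 326) (nat_lit 278) (nat_lit 176)) (XT.lf (nat_lit 0) (nat_lit 7916018555752) (nat_lit 76) (nat_lit 2266727744859) (nat_lit 76) (nat_lit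 2172213557910) (nat_lit 1) (nat_lit 4) (nat_lit 2) (nat_lit 5) (nat_lit 2) (nat_lit 4) (nat_lit 327) (nat_lit 278) (nat_lit 175))) (XT.nd (nat_lit 78) (nat_lit 0) (nat_lit 0) (XT.lf (nat_lit 0) (nat_lit 9336767279481) (nat_lit 76) (nat_lit 2474303209095) (nat_lit 76) (nat_lit 2379789015243) (nat_lit 1) (nat_lit 4) (nat_lit 2) (nat_lit 5) (nat_lit 2) (nat_lit 4) (nat_lit 328) (nat_lit 278) (nat_lit 174)) (XT.nd (nat_lit 78) (nat_lit 0) (nat_lit 0) (XT.lf (nat_lit 0) (nat_lit 10970628279907) (nat_lit 76) (nat_lit 2713015009112) (nat_lit 76) (nat_lit 2618500809258) (nat_lit 1) (nat_lit 4) (nat_lit 2) (nat_lit 5) (nat_lit 2) (nat_lit 4) (nat_lit 329) (nat_lit 278) (nat_lit 173)) (XT.lf (nat_lit 0) (nat_lit 12849568402693) (nat_lit 76) (nat_lit 2987533593173) (nat_lit 76) (nat_lit 2893019388099) (nat_lit 1) (nat_lit 4) (nat_lit 2) (nat_lit 5) (nat_lit 2) (nat_lit 4) (nat_lit 330) (nat_lit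 278) (nat_lit 172))))))))
noncomputable def xc85 : XT := (XT.nd (nat_lit 36972) (nat_lit 0) (nat_lit 304) (XT.nd (nat_lit 1092) (nat_lit 0) (nat_lit 0) (XT.nd (nat_lit 312) (nat_lit 0) (nat_lit 0) (XT.nd (nat_lit 156) (nat_lit 0) (nat_lit 0) (XT.nd (nat_lit 78) (nat_lit 0) (nat_lit 0) (XT.lf (nat_lit 0) (nat_lit 15010349519805) (nat_lit 76) (nat_lit 3303229977052) (nat_lit 76) (nat_lit 3208715767440) (nat_lit 1) (nat_lit 4) (nat_lit 2) (nat_lit 5) (nat_lit 2) (nat_lit 4) (nat_lit 331) (nat_lit 278) (nat_lit 171)) (XT.lf (nat_lit 0) (nat_lit 17495247783535) (nat_lit 76) (nat_lit 3666280829129) (nat_lit 76) (nat_lit 3571766615571) (nat_lit 1) (nat_lit 4) (nat_lit 2) (nat_lit 5) (nat_lit 2) (nat_lit 4) (nat_lit 332) (nat_lit 278) (nat_lit 170))) (XT.nd (nat_lit 78) (nat_lit 0) (nat_lit 0) (XT.lf (nat_lit 0) (nat_lit 20352880768609) (nat_lit 76) (nat_lit 4083789318250) (nat_lit 76) (nat_lit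 3989275101260) (nat_lit 1) (nat_lit 4) (nat_lit 2) (nat_lit 5) (nat_lit 2) (nat_lit 4) (nat_lit 333) (nat_lit 278) (nat_lit 169)) (XT.lf (nat_lit 0) (nat_lit 23639158685602) (nat_lit 76) (nat_lit 4563924088767) (nat_lit 76) (nat_lit 4469409868792) (nat_lit 1) (nat_lit 4) (nat_lit 2) (nat_lit 5) (nat_lit 2) (nat_lit 4) (nat_lit 334) (nat_lit 278) (nat_lit 168)))) (XT.nd (nat_lit 156) (nat_lit 0) (nat_lit 0) (XT.nd (nat_lit 78) (nat_lit 0) (nat_lit 0) (XT.lf (nat_lit 0) (nat_lit 27418378276371) (nat_lit 76) (nat_lit 5116079081842) (nat_lit 76) (nat_lit 5021564859272) (nat_lit 1) (nat_lit 4) (nat_lit 2) (nat_lit 5) (nat_lit 2) (nat_lit 4) (nat_lit 335) (nat_lit 278) (nat_lit 167)) (XT.lf (nat_lit 0) (nat_lit 31764480793777) (nat_lit 76) (nat_lit 5751057329948) (nat_lit 76) (nat_lit 5656543105122) (nat_lit 1) (nat_lit 4) (nat_lit 2) (nat_lit 5) (nat_lit 2) (nat_lit 4) (nat_lit 336) (nat_lit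 278) (nat_lit 166))) (XT.nd (nat_lit 78) (nat_lit 0) (nat_lit 0) (XT.lf (nat_lit 0) (nat_lit 36762498678378) (nat_lit 76) (nat_lit 6481282320548) (nat_lit 76) (nat_lit 6386768093760) (nat_lit 1) (nat_lit 4) (nat_lit 2) (nat_lit 5) (nat_lit 2) (nat_lit 4) (nat_lit 337) (nat_lit 278) (nat_lit 165)) (XT.nd (nat_lit 468) (nat_lit 0) (nat_lit 0) (XT.lf (nat_lit 0) (nat_lit 42510219236613) (nat_lit 76) (nat_lit 7321041064329) (nat_lit 76) (nat_lit 7226526835835) (nat_lit 1) (nat_lit 4) (nat_lit 2) (nat_lit 5) (nat_lit 2) (nat_lit 4) (nat_lit 338) (nat_lit 278) (nat_lit 164)) (XT.lf (nat_lit 0) (nat_lit 100371367795612) (nat_lit 76) (nat_lit 15774723806447) (nat_lit 76) (nat_lit 15680209571495) (nat_lit 1) (nat_lit 4) (nat_lit 2) (nat_lit 5) (nat_lit 2) (nat_lit 4) (nat_lit 344) (nat_lit 278) (nat_lit 158)))))) (XT.nd (nat_lit 35490) (nat_lit 0) (nat_lit 1444) (XT.nd (nat_lit 156) (nat_lit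 0) (nat_lit 0) (XT.nd (nat_lit 78) (nat_lit 0) (nat_lit 0) (XT.lf (nat_lit 0) (nat_lit 115660418683752) (nat_lit 76) (nat_lit 18008498792208) (nat_lit 76) (nat_lit 17913984556615) (nat_lit 1) (nat_lit 4) (nat_lit 2) (nat_lit 5) (nat_lit 2) (nat_lit 4) (nat_lit 345) (nat_lit 278) (nat_lit 157)) (XT.lf (nat_lit 0) (nat_lit 133242827202152) (nat_lit 76) (nat_lit 20577340027333) (nat_lit 76) (nat_lit 20482825791183) (nat_lit 1) (nat_lit 4) (nat_lit 2) (nat_lit 5) (nat_lit 2) (nat_lit 4) (nat_lit 346) (nat_lit 278) (nat_lit 156))) (XT.nd (nat_lit 78) (nat_lit 0) (nat_lit 0) (XT.lf (nat_lit 0) (nat_lit 153462596995738) (nat_lit 76) (nat_lit 23531507449032) (nat_lit 76) (nat_lit 23436993212397) (nat_lit 1) (nat_lit 4) (nat_lit 2) (nat_lit 5) (nat_lit 2) (nat_lit 4) (nat_lit 347) (nat_lit 278) (nat_lit 155)) (XT.lf (nat_lit 0) (nat_lit 176715332256123) (nat_lit 76) (nat_lit 26928799985121) (nat_lit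 76) (nat_lit 26834285748064) (nat_lit 1) (nat_lit 4) (nat_lit 2) (nat_lit 5) (nat_lit 2) (nat_lit 4) (nat_lit 348) (nat_lit 278) (nat_lit 154)))) (XT.nd (nat_lit 156) (nat_lit 0) (nat_lit 76) (XT.nd (nat_lit 78) (nat_lit 0) (nat_lit 0) (XT.lf (nat_lit 0) (nat_lit 4023316200) (nat_lit 380) (nat_lit 12486903595) (nat_lit 380) (nat_lit 12486903595) (nat_lit 20) (nat_lit 3) (nat_lit 25) (nat_lit 3) (nat_lit 25) (nat_lit 5) (nat_lit 279) (nat_lit 279) (nat_lit 222)) (XT.lf (nat_lit 76) (nat_lit 2020401962) (nat_lit 0) (nat_lit 6730996757) (nat_lit 380) (nat_lit 53577148900) (nat_lit 21) (nat_lit 5) (nat_lit 20) (nat_lit 3) (nat_lit 25) (nat_lit 5) (nat_lit 280) (nat_lit 279) (nat_lit 221))) (XT.nd (nat_lit 78) (nat_lit 0) (nat_lit 0) (XT.lf (nat_lit 0) (nat_lit 11899488728) (nat_lit 304) (nat_lit 32284578477) (nat_lit 380) (nat_lit 22778298837) (nat_lit 21) (nat_lit 5) (nat_lit 25) (nat_lit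 5) (nat_lit 26) (nat_lit 5) (nat_lit 281) (nat_lit 279) (nat_lit 220)) (XT.nd (nat_lit 78) (nat_lit 0) (nat_lit 76) (XT.lf (nat_lit 0) (nat_lit 15837562399) (nat_lit 304) (nat_lit 380203233) (nat_lit 380) (nat_lit 56025838046) (nat_lit 21) (nat_lit 5) (nat_lit 25) (nat_lit 5) (nat_lit 26) (nat_lit 5) (nat_lit 282) (nat_lit 279) (nat_lit 219)) (XT.lf (nat_lit 0) (nat_lit 22753106348) (nat_lit 304) (nat_lit 38952450915) (nat_lit 76) (nat_lit 16253466225) (nat_lit 22) (nat_lit 5) (nat_lit 26) (nat_lit 5) (nat_lit 23) (nat_lit 5) (nat_lit 283) (nat_lit 279) (nat_lit 218))))))) (XT.nd (nat_lit 702) (nat_lit 456) (nat_lit 0) (XT.nd (nat_lit 312) (nat_lit 380) (nat_lit 0) (XT.nd (nat_lit 156) (nat_lit 152) (nat_lit 0) (XT.nd (nat_lit 78) (nat_lit 304) (nat_lit 0) (XT.lf (nat_lit 0) (nat_lit 31496932949) (nat_lit 304) (nat_lit 960076880) (nat_lit 76) (nat_lit 51956112836) (nat_lit 22) (nat_lit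 5) (nat_lit 26) (nat_lit 5) (nat_lit 23) (nat_lit 5) (nat_lit 284) (nat_lit 279) (nat_lit 217)) (XT.lf (nat_lit 0) (nat_lit 43634007106) (nat_lit 380) (nat_lit 44780511272) (nat_lit 76) (nat_lit 3108575179) (nat_lit 18) (nat_lit 5) (nat_lit 23) (nat_lit 5) (nat_lit 19) (nat_lit 5) (nat_lit 285) (nat_lit 279) (nat_lit 216))) (XT.nd (nat_lit 78) (nat_lit 0) (nat_lit 0) (XT.lf (nat_lit 0) (nat_lit 512071920) (nat_lit 152) (nat_lit 58697221228) (nat_lit 228) (nat_lit 40247626166) (nat_lit 16) (nat_lit 5) (nat_lit 18) (nat_lit 5) (nat_lit 19) (nat_lit 5) (nat_lit 286) (nat_lit 279) (nat_lit 215)) (XT.lf (nat_lit 0) (nat_lit 57629292920) (nat_lit 152) (nat_lit 21830818353) (nat_lit 228) (nat_lit 28769827737) (nat_lit 16) (nat_lit 5) (nat_lit 18) (nat_lit 5) (nat_lit 19) (nat_lit 5) (nat_lit 287) (nat_lit 279) (nat_lit 214)))) (XT.nd (nat_lit 156) (nat_lit 228) (nat_lit 0) (XT.nd (nat_lit 78)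 (nat_lit 76) (nat_lit 0) (XT.lf (nat_lit 0) (nat_lit 4546461786) (nat_lit 76) (nat_lit 99240553520) (nat_lit 152) (nat_lit 14376132056) (nat_lit 15) (nat_lit 5) (nat_lit 16) (nat_lit 5) (nat_lit 17) (nat_lit 4) (nat_lit 288) (nat_lit 279) (nat_lit 213)) (XT.lf (nat_lit 0) (nat_lit 5792058558) (nat_lit 152) (nat_lit 56794722545) (nat_lit 76) (nat_lit 66414657685) (nat_lit 14) (nat_lit 5) (nat_lit 16) (nat_lit 5) (nat_lit 15) (nat_lit 5) (nat_lit 289) (nat_lit 279) (nat_lit 212))) (XT.nd (nat_lit 78) (nat_lit 76) (nat_lit 0) (XT.lf (nat_lit 0) (nat_lit 8632811325) (nat_lit 152) (nat_lit 19237132067) (nat_lit 228) (nat_lit 113439401124) (nat_lit 12) (nat_lit 5) (nat_lit 14) (nat_lit 5) (nat_lit 15) (nat_lit 5) (nat_lit 290) (nat_lit 279) (nat_lit 211)) (XT.nd (nat_lit 78) (nat_lit 76) (nat_lit 0) (XT.lf (nat_lit 0) (nat_lit 57636301289) (nat_lit 228) (nat_lit 66171521531) (nat_lit 76) (nat_lit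 30999097693) (nat_lit 12) (nat_lit 5) (nat_lit 15) (nat_lit 5) (nat_lit 13) (nat_lit 4) (nat_lit 291) (nat_lit 279) (nat_lit 210)) (XT.lf (nat_lit 0) (nat_lit 10309475967) (nat_lit 76) (nat_lit 82900130106) (nat_lit 152) (nat_lit 76918230429) (nat_lit 11) (nat_lit 5) (nat_lit 12) (nat_lit 5) (nat_lit 13) (nat_lit 4) (nat_lit 292) (nat_lit 279) (nat_lit 209)))))) (XT.nd (nat_lit 390) (nat_lit 228) (nat_lit 0) (XT.nd (nat_lit 156) (nat_lit 152) (nat_lit 0) (XT.nd (nat_lit 78) (nat_lit 76) (nat_lit 0) (XT.lf (nat_lit 0) (nat_lit 105697936604) (nat_lit 76) (nat_lit 31879045615) (nat_lit 152) (nat_lit 49651198563) (nat_lit 11) (nat_lit 5) (nat_lit 12) (nat_lit 5) (nat_lit 13) (nat_lit 4) (nat_lit 293) (nat_lit 279) (nat_lit 208)) (XT.lf (nat_lit 0) (nat_lit 8112410608) (nat_lit 76) (nat_lit 181931709194) (nat_lit 76) (nat_lit 16632760595) (nat_lit 10) (nat_lit 4) (nat_lit 11) (nat_lit 5)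 (nat_lit 11) (nat_lit 4) (nat_lit 294) (nat_lit 279) (nat_lit 207))) (XT.nd (nat_lit 78) (nat_lit 76) (nat_lit 0) (XT.lf (nat_lit 0) (nat_lit 25420766296) (nat_lit 152) (nat_lit 110645220319) (nat_lit 76) (nat_lit 91947060050) (nat_lit 9) (nat_lit 5) (nat_lit 11) (nat_lit 5) (nat_lit 10) (nat_lit 4) (nat_lit 295) (nat_lit 279) (nat_lit 206)) (XT.nd (nat_lit 78) (nat_lit 76) (nat_lit 0) (XT.lf (nat_lit 0) (nat_lit 72078764118) (nat_lit 152) (nat_lit 10331324357) (nat_lit 76) (nat_lit 170020847280) (nat_lit 9) (nat_lit 5) (nat_lit 11) (nat_lit 5) (nat_lit 10) (nat_lit 4) (nat_lit 296) (nat_lit 279) (nat_lit 205)) (XT.lf (nat_lit 0) (nat_lit 115292767885) (nat_lit 76) (nat_lit 15216129876) (nat_lit 152) (nat_lit 149286596137) (nat_lit 8) (nat_lit 5) (nat_lit 9) (nat_lit 5) (nat_lit 10) (nat_lit 4) (nat_lit 297) (nat_lit 279) (nat_lit 204))))) (XT.nd (nat_lit 156) (nat_lit 152) (nat_lit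 0) (XT.nd (nat_lit 78) (nat_lit 76) (nat_lit 0) (XT.lf (nat_lit 0) (nat_lit 200838385123) (nat_lit 152) (nat_lit 52858582069) (nat_lit 0) (nat_lit 57097544488) (nat_lit 8) (nat_lit 5) (nat_lit 10) (nat_lit 4) (nat_lit 8) (nat_lit 4) (nat_lit 298) (nat_lit 279) (nat_lit 203)) (XT.lf (nat_lit 0) (nat_lit 82117331706) (nat_lit 76) (nat_lit 203724345821) (nat_lit 76) (nat_lit 59983048152) (nat_lit 7) (nat_lit 4) (nat_lit 8) (nat_lit 5) (nat_lit 8) (nat_lit 4) (nat_lit 299) (nat_lit 279) (nat_lit 202))) (XT.nd (nat_lit 78) (nat_lit 76) (nat_lit 0) (XT.lf (nat_lit 0) (nat_lit 603949164) (nat_lit 152) (nat_lit 142443204385) (nat_lit 76) (nat_lit 242643812405) (nat_lit 6) (nat_lit 5) (nat_lit 8) (nat_lit 5) (nat_lit 7) (nat_lit 4) (nat_lit 300) (nat_lit 279) (nat_lit 201)) (XT.nd (nat_lit 78) (nat_lit 76) (nat_lit 0) (XT.lf (nat_lit 0) (nat_lit 64137445037) (nat_lit 152) (nat_lit 5846533843)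 (nat_lit 76) (nat_lit 361124778019) (nat_lit 6) (nat_lit 5) (nat_lit 8) (nat_lit 5) (nat_lit 7) (nat_lit 4) (nat_lit 301) (nat_lit 279) (nat_lit 200)) (XT.lf (nat_lit 0) (nat_lit 144983743432) (nat_lit 152) (nat_lit 317197653535) (nat_lit 0) (nat_lit 19990403275) (nat_lit 5) (nat_lit 5) (nat_lit 7) (nat_lit 4) (nat_lit 5) (nat_lit 4) (nat_lit 302) (nat_lit 279) (nat_lit 199))))))))
noncomputable def xc86 : XT := (XT.nd (nat_lit 1404) (nat_lit 0) (nat_lit 0) (XT.nd (nat_lit 702) (nat_lit 76) (nat_lit 0) (XT.nd (nat_lit 312) (nat_lit 152) (nat_lit 0) (XT.nd (nat_lit 156) (nat_lit 76) (nat_lit 0) (XT.nd (nat_lit 78) (nat_lit 0) (nat_lit 0) (XT.lf (nat_lit 0) (nat_lit 241609358410) (nat_lit 152) (nat_lit 182121295296) (nat_lit 0) (nat_lit 116615791027) (nat_lit 5) (nat_lit 5) (nat_lit 7) (nat_lit 4) (nat_lit 5) (nat_lit 4) (nat_lit 303) (nat_lit 279) (nat_lit 198)) (XT.lf (nat_lit 0) (nat_lit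 352728497437) (nat_lit 152) (nat_lit 26784104088) (nat_lit 0) (nat_lit 227734732466) (nat_lit 5) (nat_lit 5) (nat_lit 7) (nat_lit 4) (nat_lit 5) (nat_lit 4) (nat_lit 304) (nat_lit 279) (nat_lit 197))) (XT.nd (nat_lit 78) (nat_lit 0) (nat_lit 0) (XT.lf (nat_lit 0) (nat_lit 166693317861) (nat_lit 76) (nat_lit 320724327581) (nat_lit 76) (nat_lit 195730390794) (nat_lit 4) (nat_lit 4) (nat_lit 5) (nat_lit 5) (nat_lit 5) (nat_lit 4) (nat_lit 305) (nat_lit 279) (nat_lit 196)) (XT.lf (nat_lit 0) (nat_lit 392202005902) (nat_lit 76) (nat_lit 251507975973) (nat_lit 76) (nat_lit 126513889781) (nat_lit 4) (nat_lit 4) (nat_lit 5) (nat_lit 5) (nat_lit 5) (nat_lit 4) (nat_lit 306) (nat_lit 279) (nat_lit 195)))) (XT.nd (nat_lit 156) (nat_lit 76) (nat_lit 0) (XT.nd (nat_lit 78) (nat_lit 76) (nat_lit 0) (XT.lf (nat_lit 0) (nat_lit 651536549096) (nat_lit 76) (nat_lit 171909391905) (nat_lit 76) (nat_lit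 46915175795) (nat_lit 4) (nat_lit 4) (nat_lit 5) (nat_lit 5) (nat_lit 5) (nat_lit 4) (nat_lit 307) (nat_lit 279) (nat_lit 194)) (XT.lf (nat_lit 0) (nat_lit 40650458829) (nat_lit 152) (nat_lit 37595842597) (nat_lit 76) (nat_lit 906995514979) (nat_lit 3) (nat_lit 5) (nat_lit 5) (nat_lit 5) (nat_lit 4) (nat_lit 4) (nat_lit 308) (nat_lit 279) (nat_lit 193))) (XT.nd (nat_lit 78) (nat_lit 0) (nat_lit 0) (XT.lf (nat_lit 0) (nat_lit 145901800054) (nat_lit 152) (nat_lit 932503606702) (nat_lit 0) (nat_lit 37210993691) (nat_lit 2) (nat_lit 5) (nat_lit 4) (nat_lit 4) (nat_lit 2) (nat_lit 4) (nat_lit 309) (nat_lit 279) (nat_lit 192)) (XT.nd (nat_lit 78) (nat_lit 0) (nat_lit 0) (XT.lf (nat_lit 0) (nat_lit 272725498625) (nat_lit 152) (nat_lit 827919357201) (nat_lit 0) (nat_lit 164034617981) (nat_lit 2) (nat_lit 5) (nat_lit 4) (nat_lit 4) (nat_lit 2) (nat_lit 4) (nat_lit 310) (nat_lit 279) (nat_lit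 191)) (XT.lf (nat_lit 0) (nat_lit 418572597075) (nat_lit 152) (nat_lit 707647782613) (nat_lit 0) (nat_lit 309881651839) (nat_lit 2) (nat_lit 5) (nat_lit 4) (nat_lit 4) (nat_lit 2) (nat_lit 4) (nat_lit 311) (nat_lit 279) (nat_lit 190)))))) (XT.nd (nat_lit 312) (nat_lit 76) (nat_lit 0) (XT.nd (nat_lit 156) (nat_lit 0) (nat_lit 0) (XT.nd (nat_lit 78) (nat_lit 0) (nat_lit 0) (XT.lf (nat_lit 0) (nat_lit 586296625590) (nat_lit 152) (nat_lit 569335743435) (nat_lit 0) (nat_lit 477605624187) (nat_lit 2) (nat_lit 5) (nat_lit 4) (nat_lit 4) (nat_lit 2) (nat_lit 4) (nat_lit 312) (nat_lit 279) (nat_lit 189)) (XT.lf (nat_lit 0) (nat_lit 779179141251) (nat_lit 152) (nat_lit 410277134553) (nat_lit 0) (nat_lit 670488091007) (nat_lit 2) (nat_lit 5) (nat_lit 4) (nat_lit 4) (nat_lit 2) (nat_lit 4) (nat_lit 313) (nat_lit 279) (nat_lit 188))) (XT.nd (nat_lit 78) (nat_lit 0) (nat_lit 0) (XT.lf (nat_lit 0)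 (nat_lit 1000993932407) (nat_lit 152) (nat_lit 227359939706) (nat_lit 0) (nat_lit 892302839693) (nat_lit 2) (nat_lit 5) (nat_lit 4) (nat_lit 4) (nat_lit 2) (nat_lit 4) (nat_lit 314) (nat_lit 279) (nat_lit 187)) (XT.lf (nat_lit 0) (nat_lit 1256080853667) (nat_lit 152) (nat_lit 17005344213) (nat_lit 0) (nat_lit 1147389724022) (nat_lit 2) (nat_lit 5) (nat_lit 4) (nat_lit 4) (nat_lit 2) (nat_lit 4) (nat_lit 315) (nat_lit 279) (nat_lit 186)))) (XT.nd (nat_lit 156) (nat_lit 0) (nat_lit 0) (XT.nd (nat_lit 78) (nat_lit 0) (nat_lit 0) (XT.lf (nat_lit 0) (nat_lit 246881372291) (nat_lit 76) (nat_lit 1312772194960) (nat_lit 76) (nat_lit 1204081033202) (nat_lit 1) (nat_lit 4) (nat_lit 2) (nat_lit 5) (nat_lit 2) (nat_lit 4) (nat_lit 316) (nat_lit 279) (nat_lit 185)) (XT.lf (nat_lit 0) (nat_lit 552262116841) (nat_lit 76) (nat_lit 1357388913644) (nat_lit 76) (nat_lit 1248697723961) (nat_lit 1) (nat_lit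 4) (nat_lit 2) (nat_lit 5) (nat_lit 2) (nat_lit 4) (nat_lit 317) (nat_lit 279) (nat_lit 184))) (XT.nd (nat_lit 78) (nat_lit 0) (nat_lit 0) (XT.lf (nat_lit 0) (nat_lit 903449844178) (nat_lit 76) (nat_lit 1408698205453) (nat_lit 76) (nat_lit 1300006991487) (nat_lit 1) (nat_lit 4) (nat_lit 2) (nat_lit 5) (nat_lit 2) (nat_lit 4) (nat_lit 318) (nat_lit 279) (nat_lit 183)) (XT.nd (nat_lit 78) (nat_lit 0) (nat_lit 0) (XT.lf (nat_lit 0) (nat_lit 1307315618534) (nat_lit 76) (nat_lit 1467703947834) (nat_lit 76) (nat_lit 1359012712753) (nat_lit 1) (nat_lit 4) (nat_lit 2) (nat_lit 5) (nat_lit 2) (nat_lit 4) (nat_lit 319) (nat_lit 279) (nat_lit 182)) (XT.lf (nat_lit 0) (nat_lit 1771761161581) (nat_lit 76) (nat_lit 1535560600966) (nat_lit 76) (nat_lit 1426869347523) (nat_lit 1) (nat_lit 4) (nat_lit 2) (nat_lit 5) (nat_lit 2) (nat_lit 4) (nat_lit 320) (nat_lit 279) (nat_lit 181))))))) (XT.nd (nat_lit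 702) (nat_lit 0) (nat_lit 0) (XT.nd (nat_lit 312) (nat_lit 0) (nat_lit 0) (XT.nd (nat_lit 156) (nat_lit 0) (nat_lit 0) (XT.nd (nat_lit 78) (nat_lit 0) (nat_lit 0) (XT.lf (nat_lit 0) (nat_lit 2305873451335) (nat_lit 76) (nat_lit 1613595795017) (nat_lit 76) (nat_lit 1504904525609) (nat_lit 1) (nat_lit 4) (nat_lit 2) (nat_lit 5) (nat_lit 2) (nat_lit 4) (nat_lit 321) (nat_lit 279) (nat_lit 180)) (XT.lf (nat_lit 0) (nat_lit 2920102510855) (nat_lit 76) (nat_lit 1703336305524) (nat_lit 76) (nat_lit 1594645022232) (nat_lit 1) (nat_lit 4) (nat_lit 2) (nat_lit 5) (nat_lit 2) (nat_lit 4) (nat_lit 322) (nat_lit 279) (nat_lit 179))) (XT.nd (nat_lit 78) (nat_lit 0) (nat_lit 0) (XT.lf (nat_lit 0) (nat_lit 3626465865221) (nat_lit 76) (nat_lit 1806537925084) (nat_lit 76) (nat_lit 1697846629720) (nat_lit 1) (nat_lit 4) (nat_lit 2) (nat_lit 5) (nat_lit 2) (nat_lit 4) (nat_lit 323) (nat_lit 279) (nat_lit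 178)) (XT.lf (nat_lit 0) (nat_lit 4438783667016) (nat_lit 76) (nat_lit 1925219815819) (nat_lit 76) (nat_lit 1816528509956) (nat_lit 1) (nat_lit 4) (nat_lit 2) (nat_lit 5) (nat_lit 2) (nat_lit 4) (nat_lit 324) (nat_lit 279) (nat_lit 177)))) (XT.nd (nat_lit 156) (nat_lit 0) (nat_lit 0) (XT.nd (nat_lit 78) (nat_lit 0) (nat_lit 0) (XT.lf (nat_lit 0) (nat_lit 5372949090625) (nat_lit 76) (nat_lit 2061704014721) (nat_lit 76) (nat_lit 1953012699729) (nat_lit 1) (nat_lit 4) (nat_lit 2) (nat_lit 5) (nat_lit 2) (nat_lit 4) (nat_lit 325) (nat_lit 279) (nat_lit 176)) (XT.lf (nat_lit 0) (nat_lit 6447239285639) (nat_lit 76) (nat_lit 2218660864812) (nat_lit 76) (nat_lit 2109969541882) (nat_lit 1) (nat_lit 4) (nat_lit 2) (nat_lit 5) (nat_lit 2) (nat_lit 4) (nat_lit 326) (nat_lit 279) (nat_lit 175))) (XT.nd (nat_lit 78) (nat_lit 0) (nat_lit 0) (XT.lf (nat_lit 0) (nat_lit 7682672973265) (nat_lit 76) (nat_lit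 2399161260985) (nat_lit 76) (nat_lit 2290469931153) (nat_lit 1) (nat_lit 4) (nat_lit 2) (nat_lit 5) (nat_lit 2) (nat_lit 4) (nat_lit 327) (nat_lit 279) (nat_lit 174)) (XT.nd (nat_lit 78) (nat_lit 0) (nat_lit 0) (XT.lf (nat_lit 0) (nat_lit 9103421682174) (nat_lit 76) (nat_lit 2606736732730) (nat_lit 76) (nat_lit 2498045396896) (nat_lit 1) (nat_lit 4) (nat_lit 2) (nat_lit 5) (nat_lit 2) (nat_lit 4) (nat_lit 328) (nat_lit 279) (nat_lit 173)) (XT.lf (nat_lit 0) (nat_lit 10737282669715) (nat_lit 76) (nat_lit 2845448539278) (nat_lit 76) (nat_lit 2736757198225) (nat_lit 1) (nat_lit 4) (nat_lit 2) (nat_lit 5) (nat_lit 2) (nat_lit 4) (nat_lit 329) (nat_lit 279) (nat_lit 172)))))) (XT.nd (nat_lit 390) (nat_lit 0) (nat_lit 0) (XT.nd (nat_lit 156) (nat_lit 0) (nat_lit 0) (XT.nd (nat_lit 78) (nat_lit 0) (nat_lit 0) (XT.lf (nat_lit 0) (nat_lit 12616222781295) (nat_lit 76) (nat_lit 3119967129018) (nat_lit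 76) (nat_lit 3011275783425) (nat_lit 1) (nat_lit 4) (nat_lit 2) (nat_lit 5) (nat_lit 2) (nat_lit 4) (nat_lit 330) (nat_lit 279) (nat_lit 171)) (XT.lf (nat_lit 0) (nat_lit 14777003888664) (nat_lit 76) (nat_lit 3435663517834) (nat_lit 76) (nat_lit 3326972168296) (nat_lit 1) (nat_lit 4) (nat_lit 2) (nat_lit 5) (nat_lit 2) (nat_lit 4) (nat_lit 331) (nat_lit 279) (nat_lit 170))) (XT.nd (nat_lit 78) (nat_lit 0) (nat_lit 0) (XT.lf (nat_lit 0) (nat_lit 17261902143921) (nat_lit 76) (nat_lit 3798714374206) (nat_lit 76) (nat_lit 3690023021235) (nat_lit 1) (nat_lit 4) (nat_lit 2) (nat_lit 5) (nat_lit 2) (nat_lit 4) (nat_lit 332) (nat_lit 279) (nat_lit 169)) (XT.nd (nat_lit 78) (nat_lit 0) (nat_lit 0) (XT.lf (nat_lit 0) (nat_lit 20119535121627) (nat_lit 76) (nat_lit 4216222867061) (nat_lit 76) (nat_lit 4107531511106) (nat_lit 1) (nat_lit 4) (nat_lit 2) (nat_lit 5) (nat_lit 2) (nat_lit 4) (nat_lit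 333) (nat_lit 279) (nat_lit 168)) (XT.lf (nat_lit 0) (nat_lit 23405813032214) (nat_lit 76) (nat_lit 4696357640824) (nat_lit 76) (nat_lit 4587666282274) (nat_lit 1) (nat_lit 4) (nat_lit 2) (nat_lit 5) (nat_lit 2) (nat_lit 4) (nat_lit 334) (nat_lit 279) (nat_lit 167))))) (XT.nd (nat_lit 156) (nat_lit 0) (nat_lit 0) (XT.nd (nat_lit 78) (nat_lit 0) (nat_lit 0) (XT.lf (nat_lit 0) (nat_lit 27185032617411) (nat_lit 76) (nat_lit 5248512636722) (nat_lit 76) (nat_lit 5139821275916) (nat_lit 1) (nat_lit 4) (nat_lit 2) (nat_lit 5) (nat_lit 2) (nat_lit 4) (nat_lit 335) (nat_lit 279) (nat_lit 166)) (XT.lf (nat_lit 0) (nat_lit 31531135129973) (nat_lit 76) (nat_lit 5883490887284) (nat_lit 76) (nat_lit 5774799524515) (nat_lit 1) (nat_lit 4) (nat_lit 2) (nat_lit 5) (nat_lit 2) (nat_lit 4) (nat_lit 336) (nat_lit 279) (nat_lit 165))) (XT.nd (nat_lit 36192) (nat_lit 0) (nat_lit 1444) (XT.lf (nat_lit 0) (nat_lit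 36529153010362) (nat_lit 76) (nat_lit 6613715880019) (nat_lit 76) (nat_lit 6505024515544) (nat_lit 1) (nat_lit 4) (nat_lit 2) (nat_lit 5) (nat_lit 2) (nat_lit 4) (nat_lit 337) (nat_lit 279) (nat_lit 164)) (XT.nd (nat_lit 78) (nat_lit 0) (nat_lit 0) (XT.lf (nat_lit 0) (nat_lit 4643692858) (nat_lit 380) (nat_lit 14350196511) (nat_lit 380) (nat_lit 14350196511) (nat_lit 20) (nat_lit 3) (nat_lit 25) (nat_lit 3) (nat_lit 25) (nat_lit 5) (nat_lit 280) (nat_lit 280) (nat_lit 220)) (XT.lf (nat_lit 76) (nat_lit 2342061811) (nat_lit 0) (nat_lit 7752172064) (nat_lit 380) (nat_lit 61578948155) (nat_lit 21) (nat_lit 5) (nat_lit 20) (nat_lit 3) (nat_lit 25) (nat_lit 5) (nat_lit 281) (nat_lit 280) (nat_lit 219))))))))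
noncomputable def xc87 : XT := (XT.nd (nat_lit 1404) (nat_lit 532) (nat_lit 0) (XT.nd (nat_lit 702) (nat_lit 456) (nat_lit 0) (XT.nd (nat_lit 312) (nat_lit 532) (nat_lit 0) (XT.nd (nat_lit 156) (nat_lit 0) (nat_lit 76) (XT.nd (nat_lit 78) (nat_lit 0) (nat_lit 0) (XT.lf (nat_lit 0) (nat_lit 13710192985) (nat_lit 304) (nat_lit 37106635209) (nat_lit 380) (nat_lit 26185913500) (nat_lit 21) (nat_lit 5) (nat_lit 25) (nat_lit 5) (nat_lit 26) (nat_lit 5) (nat_lit 282) (nat_lit 280) (nat_lit 218)) (XT.lf (nat_lit 0) (nat_lit 18235614974) (nat_lit 304) (nat_lit 419294554) (nat_lit 380) (nat_lit 64421774481) (nat_lit 21) (nat_lit 5) (nat_lit 25) (nat_lit 5) (nat_lit 26) (nat_lit 5) (nat_lit 283) (nat_lit 280) (nat_lit 217))) (XT.nd (nat_lit 78) (nat_lit 0) (nat_lit 0) (XT.lf (nat_lit 0) (nat_lit 26186147947) (nat_lit 304) (nat_lit 44774952047) (nat_lit 76) (nat_lit 18688680899) (nat_lit 22) (nat_lit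 5) (nat_lit 26) (nat_lit 5) (nat_lit 23) (nat_lit 5) (nat_lit 284) (nat_lit 280) (nat_lit 216)) (XT.lf (nat_lit 0) (nat_lit 36238929975) (nat_lit 304) (nat_lit 1086378407) (nat_lit 76) (nat_lit 59747090405) (nat_lit 22) (nat_lit 5) (nat_lit 26) (nat_lit 5) (nat_lit 23) (nat_lit 5) (nat_lit 285) (nat_lit 280) (nat_lit 215)))) (XT.nd (nat_lit 156) (nat_lit 152) (nat_lit 0) (XT.nd (nat_lit 78) (nat_lit 152) (nat_lit 0) (XT.lf (nat_lit 0) (nat_lit 50195030685) (nat_lit 380) (nat_lit 51478279286) (nat_lit 76) (nat_lit 3575795142) (nat_lit 18) (nat_lit 5) (nat_lit 23) (nat_lit 5) (nat_lit 19) (nat_lit 5) (nat_lit 286) (nat_lit 280) (nat_lit 214)) (XT.lf (nat_lit 0) (nat_lit 607313718) (nat_lit 152) (nat_lit 67497982255) (nat_lit 228) (nat_lit 46267914171) (nat_lit 16) (nat_lit 5) (nat_lit 18) (nat_lit 5) (nat_lit 19) (nat_lit 5) (nat_lit 287) (nat_lit 280) (nat_lit 213))) (XT.nd (nat_lit 78)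 (nat_lit 152) (nat_lit 0) (XT.lf (nat_lit 0) (nat_lit 66289713823) (nat_lit 152) (nat_lit 25102117492) (nat_lit 228) (nat_lit 33070644576) (nat_lit 16) (nat_lit 5) (nat_lit 18) (nat_lit 5) (nat_lit 19) (nat_lit 5) (nat_lit 288) (nat_lit 280) (nat_lit 212)) (XT.nd (nat_lit 78) (nat_lit 76) (nat_lit 0) (XT.lf (nat_lit 0) (nat_lit 5245463307) (nat_lit 76) (nat_lit 114121475628) (nat_lit 152) (nat_lit 16518857683) (nat_lit 15) (nat_lit 5) (nat_lit 16) (nat_lit 5) (nat_lit 17) (nat_lit 4) (nat_lit 289) (nat_lit 280) (nat_lit 211)) (XT.lf (nat_lit 0) (nat_lit 6671715194) (nat_lit 152) (nat_lit 65298028271) (nat_lit 76) (nat_lit 76380252093) (nat_lit 14) (nat_lit 5) (nat_lit 16) (nat_lit 5) (nat_lit 15) (nat_lit 5) (nat_lit 290) (nat_lit 280) (nat_lit 210)))))) (XT.nd (nat_lit 312) (nat_lit 228) (nat_lit 0) (XT.nd (nat_lit 156) (nat_lit 76) (nat_lit 0) (XT.nd (nat_lit 78) (nat_lit 0) (nat_lit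 0) (XT.lf (nat_lit 0) (nat_lit 9942912832) (nat_lit 152) (nat_lit 22117583548) (nat_lit 228) (nat_lit 130443712880) (nat_lit 12) (nat_lit 5) (nat_lit 14) (nat_lit 5) (nat_lit 15) (nat_lit 5) (nat_lit 291) (nat_lit 280) (nat_lit 209)) (XT.lf (nat_lit 0) (nat_lit 66290679889) (nat_lit 228) (nat_lit 76082897759) (nat_lit 76) (nat_lit 35653016834) (nat_lit 12) (nat_lit 5) (nat_lit 15) (nat_lit 5) (nat_lit 13) (nat_lit 4) (nat_lit 292) (nat_lit 280) (nat_lit 208))) (XT.nd (nat_lit 78) (nat_lit 0) (nat_lit 0) (XT.lf (nat_lit 0) (nat_lit 11869597001) (nat_lit 76) (nat_lit 95329785436) (nat_lit 152) (nat_lit 88446358268) (nat_lit 11) (nat_lit 5) (nat_lit 12) (nat_lit 5) (nat_lit 13) (nat_lit 4) (nat_lit 293) (nat_lit 280) (nat_lit 207)) (XT.lf (nat_lit 0) (nat_lit 121564539824) (nat_lit 76) (nat_lit 36656237948) (nat_lit 152) (nat_lit 57090524673) (nat_lit 11) (nat_lit 5) (nat_lit 12) (nat_lit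 5) (nat_lit 13) (nat_lit 4) (nat_lit 294) (nat_lit 280) (nat_lit 206)))) (XT.nd (nat_lit 156) (nat_lit 76) (nat_lit 0) (XT.nd (nat_lit 78) (nat_lit 76) (nat_lit 0) (XT.lf (nat_lit 0) (nat_lit 9341514280) (nat_lit 76) (nat_lit 209216201166) (nat_lit 76) (nat_lit 19119634517) (nat_lit 10) (nat_lit 4) (nat_lit 11) (nat_lit 5) (nat_lit 11) (nat_lit 4) (nat_lit 295) (nat_lit 280) (nat_lit 205)) (XT.lf (nat_lit 0) (nat_lit 29240250263) (nat_lit 152) (nat_lit 127230723672) (nat_lit 76) (nat_lit 105743062396) (nat_lit 9) (nat_lit 5) (nat_lit 11) (nat_lit 5) (nat_lit 10) (nat_lit 4) (nat_lit 296) (nat_lit 280) (nat_lit 204))) (XT.nd (nat_lit 78) (nat_lit 76) (nat_lit 0) (XT.lf (nat_lit 0) (nat_lit 82896117017) (nat_lit 152) (nat_lit 11871214580) (nat_lit 76) (nat_lit 195527403362) (nat_lit 9) (nat_lit 5) (nat_lit 11) (nat_lit 5) (nat_lit 10) (nat_lit 4) (nat_lit 297) (nat_lit 280) (nat_lit 203))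 (XT.nd (nat_lit 78) (nat_lit 0) (nat_lit 0) (XT.lf (nat_lit 0) (nat_lit 132596045660) (nat_lit 76) (nat_lit 17494390347) (nat_lit 152) (nat_lit 171673592380) (nat_lit 8) (nat_lit 5) (nat_lit 9) (nat_lit 5) (nat_lit 10) (nat_lit 4) (nat_lit 298) (nat_lit 280) (nat_lit 202)) (XT.lf (nat_lit 0) (nat_lit 230968817498) (nat_lit 152) (nat_lit 60778691142) (nat_lit 0) (nat_lit 65665470724) (nat_lit 8) (nat_lit 5) (nat_lit 10) (nat_lit 4) (nat_lit 8) (nat_lit 4) (nat_lit 299) (nat_lit 280) (nat_lit 201))))))) (XT.nd (nat_lit 702) (nat_lit 228) (nat_lit 0) (XT.nd (nat_lit 312) (nat_lit 76) (nat_lit 0) (XT.nd (nat_lit 156) (nat_lit 76) (nat_lit 0) (XT.nd (nat_lit 78) (nat_lit 76) (nat_lit 0) (XT.lf (nat_lit 0) (nat_lit 94443215235) (nat_lit 76) (nat_lit 234279121810) (nat_lit 76) (nat_lit 68975429453) (nat_lit 7) (nat_lit 4) (nat_lit 8) (nat_lit 5) (nat_lit 8) (nat_lit 4) (nat_lit 300) (nat_lit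 280) (nat_lit 200)) (XT.lf (nat_lit 0) (nat_lit 698562433) (nat_lit 152) (nat_lit 163802083632) (nat_lit 76) (nat_lit 279043356470) (nat_lit 6) (nat_lit 5) (nat_lit 8) (nat_lit 5) (nat_lit 7) (nat_lit 4) (nat_lit 301) (nat_lit 280) (nat_lit 199))) (XT.nd (nat_lit 78) (nat_lit 76) (nat_lit 0) (XT.lf (nat_lit 0) (nat_lit 73761558222) (nat_lit 152) (nat_lit 6716903997) (nat_lit 76) (nat_lit 415296079246) (nat_lit 6) (nat_lit 5) (nat_lit 8) (nat_lit 5) (nat_lit 7) (nat_lit 4) (nat_lit 302) (nat_lit 280) (nat_lit 198)) (XT.lf (nat_lit 0) (nat_lit 166734731130) (nat_lit 152) (nat_lit 364770617480) (nat_lit 0) (nat_lit 22991703824) (nat_lit 5) (nat_lit 5) (nat_lit 7) (nat_lit 4) (nat_lit 5) (nat_lit 4) (nat_lit 303) (nat_lit 280) (nat_lit 197)))) (XT.nd (nat_lit 156) (nat_lit 76) (nat_lit 0) (XT.nd (nat_lit 78) (nat_lit 0) (nat_lit 0) (XT.lf (nat_lit 0) (nat_lit 277853741462) (nat_lit 152)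 (nat_lit 209433677342) (nat_lit 0) (nat_lit 134110542340) (nat_lit 5) (nat_lit 5) (nat_lit 7) (nat_lit 4) (nat_lit 5) (nat_lit 4) (nat_lit 304) (nat_lit 280) (nat_lit 196)) (XT.lf (nat_lit 0) (nat_lit 405640362739) (nat_lit 152) (nat_lit 30796665572) (nat_lit 0) (nat_lit 261897014213) (nat_lit 5) (nat_lit 5) (nat_lit 7) (nat_lit 4) (nat_lit 5) (nat_lit 4) (nat_lit 305) (nat_lit 280) (nat_lit 195))) (XT.nd (nat_lit 78) (nat_lit 0) (nat_lit 0) (XT.lf (nat_lit 0) (nat_lit 191702139935) (nat_lit 76) (nat_lit 368830604861) (nat_lit 76) (nat_lit 225087126417) (nat_lit 4) (nat_lit 4) (nat_lit 5) (nat_lit 5) (nat_lit 5) (nat_lit 4) (nat_lit 306) (nat_lit 280) (nat_lit 194)) (XT.nd (nat_lit 78) (nat_lit 0) (nat_lit 0) (XT.lf (nat_lit 0) (nat_lit 451036501914) (nat_lit 76) (nat_lit 289232109885) (nat_lit 76) (nat_lit 145488518470) (nat_lit 4) (nat_lit 4) (nat_lit 5) (nat_lit 5) (nat_lit 5) (nat_lit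 4) (nat_lit 307) (nat_lit 280) (nat_lit 193)) (XT.lf (nat_lit 0) (nat_lit 749270679397) (nat_lit 76) (nat_lit 197694007227) (nat_lit 76) (nat_lit 53950317575) (nat_lit 4) (nat_lit 4) (nat_lit 5) (nat_lit 5) (nat_lit 5) (nat_lit 4) (nat_lit 308) (nat_lit 280) (nat_lit 192)))))) (XT.nd (nat_lit 390) (nat_lit 76) (nat_lit 0) (XT.nd (nat_lit 156) (nat_lit 0) (nat_lit 0) (XT.nd (nat_lit 78) (nat_lit 76) (nat_lit 0) (XT.lf (nat_lit 0) (nat_lit 46749718570) (nat_lit 152) (nat_lit 43231880148) (nat_lit 76) (nat_lit 1043046235039) (nat_lit 3) (nat_lit 5) (nat_lit 5) (nat_lit 5) (nat_lit 4) (nat_lit 4) (nat_lit 309) (nat_lit 280) (nat_lit 191)) (XT.lf (nat_lit 0) (nat_lit 167788738015) (nat_lit 152) (nat_lit 1072375784624) (nat_lit 0) (nat_lit 42794086402) (nat_lit 2) (nat_lit 5) (nat_lit 4) (nat_lit 4) (nat_lit 2) (nat_lit 4) (nat_lit 310) (nat_lit 280) (nat_lit 190))) (XT.nd (nat_lit 78) (nat_lit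 0) (nat_lit 0) (XT.lf (nat_lit 0) (nat_lit 313635773813) (nat_lit 152) (nat_lit 952104336361) (nat_lit 0) (nat_lit 188641066032) (nat_lit 2) (nat_lit 5) (nat_lit 4) (nat_lit 4) (nat_lit 2) (nat_lit 4) (nat_lit 311) (nat_lit 280) (nat_lit 189)) (XT.nd (nat_lit 78) (nat_lit 0) (nat_lit 0) (XT.lf (nat_lit 0) (nat_lit 481359747848) (nat_lit 152) (nat_lit 813792407031) (nat_lit 0) (nat_lit 356364991227) (nat_lit 2) (nat_lit 5) (nat_lit 4) (nat_lit 4) (nat_lit 2) (nat_lit 4) (nat_lit 312) (nat_lit 280) (nat_lit 188)) (XT.lf (nat_lit 0) (nat_lit 674242216135) (nat_lit 152) (nat_lit 654733893669) (nat_lit 0) (nat_lit 549247417043) (nat_lit 2) (nat_lit 5) (nat_lit 4) (nat_lit 4) (nat_lit 2) (nat_lit 4) (nat_lit 313) (nat_lit 280) (nat_lit 187))))) (XT.nd (nat_lit 156) (nat_lit 76) (nat_lit 0) (XT.nd (nat_lit 78) (nat_lit 0) (nat_lit 0) (XT.lf (nat_lit 0) (nat_lit 896056966096) (nat_lit 152) (nat_lit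 471816781882) (nat_lit 0) (nat_lit 771062130074) (nat_lit 2) (nat_lit 5) (nat_lit 4) (nat_lit 4) (nat_lit 2) (nat_lit 4) (nat_lit 314) (nat_lit 280) (nat_lit 186)) (XT.lf (nat_lit 0) (nat_lit 1151143851535) (nat_lit 152) (nat_lit 261462258616) (nat_lit 0) (nat_lit 1026148983399) (nat_lit 2) (nat_lit 5) (nat_lit 4) (nat_lit 4) (nat_lit 2) (nat_lit 4) (nat_lit 315) (nat_lit 280) (nat_lit 185))) (XT.nd (nat_lit 78) (nat_lit 76) (nat_lit 0) (XT.lf (nat_lit 0) (nat_lit 1444493702820) (nat_lit 152) (nat_lit 19554691891) (nat_lit 0) (nat_lit 1319498806759) (nat_lit 2) (nat_lit 5) (nat_lit 4) (nat_lit 4) (nat_lit 2) (nat_lit 4) (nat_lit 316) (nat_lit 280) (nat_lit 184)) (XT.nd (nat_lit 78) (nat_lit 0) (nat_lit 0) (XT.lf (nat_lit 0) (nat_lit 283914965999) (nat_lit 76) (nat_lit 1509687320853) (nat_lit 76) (nat_lit 1384692400510) (nat_lit 1) (nat_lit 4) (nat_lit 2) (nat_lit 5) (nat_lit 2) (nat_lit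 4) (nat_lit 317) (nat_lit 280) (nat_lit 183)) (XT.lf (nat_lit 0) (nat_lit 635102641206) (nat_lit 76) (nat_lit 1560996639081) (nat_lit 76) (nat_lit 1436001697623) (nat_lit 1) (nat_lit 4) (nat_lit 2) (nat_lit 5) (nat_lit 2) (nat_lit 4) (nat_lit 318) (nat_lit 280) (nat_lit 182))))))))
noncomputable def xc88 : XT := (XT.nd (nat_lit 37674) (nat_lit 0) (nat_lit 608) (XT.nd (nat_lit 702) (nat_lit 0) (nat_lit 0) (XT.nd (nat_lit 312) (nat_lit 0) (nat_lit 0) (XT.nd (nat_lit 156) (nat_lit 0) (nat_lit 0) (XT.nd (nat_lit 78) (nat_lit 0) (nat_lit 0) (XT.lf (nat_lit 0) (nat_lit 1038968370230) (nat_lit 76) (nat_lit 1620002404436) (nat_lit 76) (nat_lit 1495007444616) (nat_lit 1) (nat_lit 4) (nat_lit 2) (nat_lit 5) (nat_lit 2) (nat_lit 4) (nat_lit 319) (nat_lit 280) (nat_lit 181)) (XT.lf (nat_lit 0) (nat_lit 1503413873858) (nat_lit 76) (nat_lit 1687859077545) (nat_lit 76) (nat_lit 1562864101759) (nat_lit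 1) (nat_lit 4) (nat_lit 2) (nat_lit 5) (nat_lit 2) (nat_lit 4) (nat_lit 320) (nat_lit 280) (nat_lit 180))) (XT.nd (nat_lit 78) (nat_lit 0) (nat_lit 0) (XT.lf (nat_lit 0) (nat_lit 2037526129335) (nat_lit 76) (nat_lit 1765894288967) (nat_lit 76) (nat_lit 1640899299298) (nat_lit 1) (nat_lit 4) (nat_lit 2) (nat_lit 5) (nat_lit 2) (nat_lit 4) (nat_lit 321) (nat_lit 280) (nat_lit 179)) (XT.lf (nat_lit 0) (nat_lit 2651755159049) (nat_lit 76) (nat_lit 1855634814580) (nat_lit 76) (nat_lit 1730639812838) (nat_lit 1) (nat_lit 4) (nat_lit 2) (nat_lit 5) (nat_lit 2) (nat_lit 4) (nat_lit 322) (nat_lit 280) (nat_lit 178)))) (XT.nd (nat_lit 156) (nat_lit 0) (nat_lit 0) (XT.nd (nat_lit 78) (nat_lit 0) (nat_lit 0) (XT.lf (nat_lit 0) (nat_lit 3358118487496) (nat_lit 76) (nat_lit 1958836447275) (nat_lit 76) (nat_lit 1833841435035) (nat_lit 1) (nat_lit 4) (nat_lit 2) (nat_lit 5) (nat_lit 2) (nat_lit 4) (nat_lit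 323) (nat_lit 280) (nat_lit 177)) (XT.lf (nat_lit 0) (nat_lit 4170436266754) (nat_lit 76) (nat_lit 2077518349431) (nat_lit 76) (nat_lit 1952523328063) (nat_lit 1) (nat_lit 4) (nat_lit 2) (nat_lit 5) (nat_lit 2) (nat_lit 4) (nat_lit 324) (nat_lit 280) (nat_lit 176))) (XT.nd (nat_lit 78) (nat_lit 0) (nat_lit 0) (XT.lf (nat_lit 0) (nat_lit 5104601670764) (nat_lit 76) (nat_lit 2214002558265) (nat_lit 76) (nat_lit 2089007528958) (nat_lit 1) (nat_lit 4) (nat_lit 2) (nat_lit 5) (nat_lit 2) (nat_lit 4) (nat_lit 325) (nat_lit 280) (nat_lit 175)) (XT.nd (nat_lit 78) (nat_lit 0) (nat_lit 0) (XT.lf (nat_lit 0) (nat_lit 6178891848736) (nat_lit 76) (nat_lit 2370959416993) (nat_lit 76) (nat_lit 2245964380783) (nat_lit 1) (nat_lit 4) (nat_lit 2) (nat_lit 5) (nat_lit 2) (nat_lit 4) (nat_lit 326) (nat_lit 280) (nat_lit 174)) (XT.lf (nat_lit 0) (nat_lit 7414325521544) (nat_lit 76) (nat_lit 2551459820676)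 (nat_lit 76) (nat_lit 2426464778464) (nat_lit 1) (nat_lit 4) (nat_lit 2) (nat_lit 5) (nat_lit 2) (nat_lit 4) (nat_lit 327) (nat_lit 280) (nat_lit 173)))))) (XT.nd (nat_lit 312) (nat_lit 0) (nat_lit 0) (XT.nd (nat_lit 156) (nat_lit 0) (nat_lit 0) (XT.nd (nat_lit 78) (nat_lit 0) (nat_lit 0) (XT.lf (nat_lit 0) (nat_lit 8835074217567) (nat_lit 76) (nat_lit 2759035298952) (nat_lit 76) (nat_lit 2634040251521) (nat_lit 1) (nat_lit 4) (nat_lit 2) (nat_lit 5) (nat_lit 2) (nat_lit 4) (nat_lit 328) (nat_lit 280) (nat_lit 172)) (XT.lf (nat_lit 0) (nat_lit 10468935193902) (nat_lit 76) (nat_lit 2997747111178) (nat_lit 76) (nat_lit 2872752059209) (nat_lit 1) (nat_lit 4) (nat_lit 2) (nat_lit 5) (nat_lit 2) (nat_lit 4) (nat_lit 329) (nat_lit 280) (nat_lit 171))) (XT.nd (nat_lit 78) (nat_lit 0) (nat_lit 0) (XT.lf (nat_lit 0) (nat_lit 12347875295739) (nat_lit 76) (nat_lit 3272265705856) (nat_lit 76) (nat_lit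 3147270649940) (nat_lit 1) (nat_lit 4) (nat_lit 2) (nat_lit 5) (nat_lit 2) (nat_lit 4) (nat_lit 330) (nat_lit 280) (nat_lit 170)) (XT.lf (nat_lit 0) (nat_lit 14508656394635) (nat_lit 76) (nat_lit 3587962098967) (nat_lit 76) (nat_lit 3462967039619) (nat_lit 1) (nat_lit 4) (nat_lit 2) (nat_lit 5) (nat_lit 2) (nat_lit 4) (nat_lit 331) (nat_lit 280) (nat_lit 169)))) (XT.nd (nat_lit 156) (nat_lit 0) (nat_lit 0) (XT.nd (nat_lit 78) (nat_lit 0) (nat_lit 0) (XT.lf (nat_lit 0) (nat_lit 16993554642524) (nat_lit 76) (nat_lit 3951012959072) (nat_lit 76) (nat_lit 3826017896740) (nat_lit 1) (nat_lit 4) (nat_lit 2) (nat_lit 5) (nat_lit 2) (nat_lit 4) (nat_lit 332) (nat_lit 280) (nat_lit 168)) (XT.lf (nat_lit 0) (nat_lit 19851187613823) (nat_lit 76) (nat_lit 4368521455173) (nat_lit 76) (nat_lit 4243526390246) (nat_lit 1) (nat_lit 4) (nat_lit 2) (nat_lit 5) (nat_lit 2) (nat_lit 4) (nat_lit 333) (nat_lit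 280) (nat_lit 167))) (XT.nd (nat_lit 78) (nat_lit 0) (nat_lit 0) (XT.lf (nat_lit 0) (nat_lit 23137465518839) (nat_lit 76) (nat_lit 4848656231760) (nat_lit 76) (nat_lit 4723661164577) (nat_lit 1) (nat_lit 4) (nat_lit 2) (nat_lit 5) (nat_lit 2) (nat_lit 4) (nat_lit 334) (nat_lit 280) (nat_lit 166)) (XT.nd (nat_lit 78) (nat_lit 0) (nat_lit 0) (XT.lf (nat_lit 0) (nat_lit 26916685099192) (nat_lit 76) (nat_lit 5400811230113) (nat_lit 76) (nat_lit 5275816160968) (nat_lit 1) (nat_lit 4) (nat_lit 2) (nat_lit 5) (nat_lit 2) (nat_lit 4) (nat_lit 335) (nat_lit 280) (nat_lit 165)) (XT.lf (nat_lit 0) (nat_lit 31262787607542) (nat_lit 76) (nat_lit 6035789482810) (nat_lit 76) (nat_lit 5910794411958) (nat_lit 1) (nat_lit 4) (nat_lit 2) (nat_lit 5) (nat_lit 2) (nat_lit 4) (nat_lit 336) (nat_lit 280) (nat_lit 164))))))) (XT.nd (nat_lit 702) (nat_lit 532) (nat_lit 0) (XT.nd (nat_lit 312) (nat_lit 304) (nat_lit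 0) (XT.nd (nat_lit 156) (nat_lit 0) (nat_lit 76) (XT.nd (nat_lit 78) (nat_lit 0) (nat_lit 0) (XT.lf (nat_lit 0) (nat_lit 5353009909) (nat_lit 380) (nat_lit 16495359164) (nat_lit 380) (nat_lit 16495359164) (nat_lit 20) (nat_lit 3) (nat_lit 25) (nat_lit 3) (nat_lit 25) (nat_lit 5) (nat_lit 281) (nat_lit 281) (nat_lit 218)) (XT.lf (nat_lit 76) (nat_lit 2707435018) (nat_lit 0) (nat_lit 8923713030) (nat_lit 380) (nat_lit 70789496934) (nat_lit 21) (nat_lit 5) (nat_lit 20) (nat_lit 3) (nat_lit 25) (nat_lit 5) (nat_lit 282) (nat_lit 281) (nat_lit 217))) (XT.nd (nat_lit 78) (nat_lit 0) (nat_lit 0) (XT.lf (nat_lit 0) (nat_lit 15786216033) (nat_lit 304) (nat_lit 42657031218) (nat_lit 380) (nat_lit 30106896809) (nat_lit 21) (nat_lit 5) (nat_lit 25) (nat_lit 5) (nat_lit 26) (nat_lit 5) (nat_lit 283) (nat_lit 281) (nat_lit 216)) (XT.lf (nat_lit 0) (nat_lit 20987908612) (nat_lit 304) (nat_lit 468624152)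 (nat_lit 380) (nat_lit 74079037422) (nat_lit 21) (nat_lit 5) (nat_lit 25) (nat_lit 5) (nat_lit 26) (nat_lit 5) (nat_lit 284) (nat_lit 281) (nat_lit 215)))) (XT.nd (nat_lit 156) (nat_lit 456) (nat_lit 0) (XT.nd (nat_lit 78) (nat_lit 0) (nat_lit 0) (XT.lf (nat_lit 0) (nat_lit 30129250212) (nat_lit 304) (nat_lit 51475794849) (nat_lit 76) (nat_lit 21489861854) (nat_lit 22) (nat_lit 5) (nat_lit 26) (nat_lit 5) (nat_lit 23) (nat_lit 5) (nat_lit 285) (nat_lit 281) (nat_lit 214)) (XT.lf (nat_lit 0) (nat_lit 41687969534) (nat_lit 304) (nat_lit 1235943859) (nat_lit 76) (nat_lit 68707309462) (nat_lit 22) (nat_lit 5) (nat_lit 26) (nat_lit 5) (nat_lit 23) (nat_lit 5) (nat_lit 286) (nat_lit 281) (nat_lit 213))) (XT.nd (nat_lit 78) (nat_lit 152) (nat_lit 0) (XT.lf (nat_lit 0) (nat_lit 57736324995) (nat_lit 380) (nat_lit 59185421046) (nat_lit 76) (nat_lit 4112870414) (nat_lit 18) (nat_lit 5) (nat_lit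 23) (nat_lit 5) (nat_lit 19) (nat_lit 5) (nat_lit 287) (nat_lit 281) (nat_lit 212)) (XT.nd (nat_lit 78) (nat_lit 0) (nat_lit 0) (XT.lf (nat_lit 0) (nat_lit 712347267) (nat_lit 152) (nat_lit 77619789493) (nat_lit 228) (nat_lit 53195355799) (nat_lit 16) (nat_lit 5) (nat_lit 18) (nat_lit 5) (nat_lit 19) (nat_lit 5) (nat_lit 288) (nat_lit 281) (nat_lit 211)) (XT.lf (nat_lit 0) (nat_lit 76245289585) (nat_lit 152) (nat_lit 28864921985) (nat_lit 228) (nat_lit 38020158221) (nat_lit 16) (nat_lit 5) (nat_lit 18) (nat_lit 5) (nat_lit 19) (nat_lit 5) (nat_lit 289) (nat_lit 281) (nat_lit 210)))))) (XT.nd (nat_lit 312) (nat_lit 228) (nat_lit 0) (XT.nd (nat_lit 156) (nat_lit 152) (nat_lit 0) (XT.nd (nat_lit 78) (nat_lit 76) (nat_lit 0) (XT.lf (nat_lit 0) (nat_lit 6045161634) (nat_lit 76) (nat_lit 131235794575) (nat_lit 152) (nat_lit 18986331568) (nat_lit 15) (nat_lit 5) (nat_lit 16) (nat_lit 5) (nat_lit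 17) (nat_lit 4) (nat_lit 290) (nat_lit 281) (nat_lit 209)) (XT.lf (nat_lit 0) (nat_lit 7680675008) (nat_lit 152) (nat_lit 75080707820) (nat_lit 76) (nat_lit 87839857587) (nat_lit 14) (nat_lit 5) (nat_lit 16) (nat_lit 5) (nat_lit 15) (nat_lit 5) (nat_lit 291) (nat_lit 281) (nat_lit 208))) (XT.nd (nat_lit 78) (nat_lit 0) (nat_lit 0) (XT.lf (nat_lit 0) (nat_lit 11445827872) (nat_lit 152) (nat_lit 25431350888) (nat_lit 228) (nat_lit 150001499745) (nat_lit 12) (nat_lit 5) (nat_lit 14) (nat_lit 5) (nat_lit 15) (nat_lit 5) (nat_lit 292) (nat_lit 281) (nat_lit 207)) (XT.lf (nat_lit 0) (nat_lit 76241036811) (nat_lit 228) (nat_lit 87484480247) (nat_lit 76) (nat_lit 41004035133) (nat_lit 12) (nat_lit 5) (nat_lit 15) (nat_lit 5) (nat_lit 13) (nat_lit 4) (nat_lit 293) (nat_lit 281) (nat_lit 206)))) (XT.nd (nat_lit 156) (nat_lit 152) (nat_lit 0) (XT.nd (nat_lit 78) (nat_lit 0) (nat_lit 0) (XT.lf (nat_lit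 0) (nat_lit 13660395446) (nat_lit 76) (nat_lit 109625197156) (nat_lit 152) (nat_lit 101706047945) (nat_lit 11) (nat_lit 5) (nat_lit 12) (nat_lit 5) (nat_lit 13) (nat_lit 4) (nat_lit 294) (nat_lit 281) (nat_lit 205)) (XT.lf (nat_lit 0) (nat_lit 139808228532) (nat_lit 76) (nat_lit 42151146601) (nat_lit 152) (nat_lit 65647786797) (nat_lit 11) (nat_lit 5) (nat_lit 12) (nat_lit 5) (nat_lit 13) (nat_lit 4) (nat_lit 295) (nat_lit 281) (nat_lit 204))) (XT.nd (nat_lit 78) (nat_lit 76) (nat_lit 0) (XT.lf (nat_lit 0) (nat_lit 10751998193) (nat_lit 76) (nat_lit 240594650692) (nat_lit 76) (nat_lit 21981500173) (nat_lit 10) (nat_lit 4) (nat_lit 11) (nat_lit 5) (nat_lit 11) (nat_lit 4) (nat_lit 296) (nat_lit 281) (nat_lit 203)) (XT.nd (nat_lit 78) (nat_lit 0) (nat_lit 0) (XT.lf (nat_lit 0) (nat_lit 33631103699) (nat_lit 152) (nat_lit 146306803153) (nat_lit 76) (nat_lit 121607503485) (nat_lit 9) (nat_lit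 5) (nat_lit 11) (nat_lit 5) (nat_lit 10) (nat_lit 4) (nat_lit 297) (nat_lit 281) (nat_lit 202)) (XT.lf (nat_lit 0) (nat_lit 95334722305) (nat_lit 152) (nat_lit 13644480184) (nat_lit 76) (nat_lit 224859106674) (nat_lit 9) (nat_lit 5) (nat_lit 11) (nat_lit 5) (nat_lit 10) (nat_lit 4) (nat_lit 298) (nat_lit 281) (nat_lit 201))))))))
noncomputable def xc89 : XT := (XT.nd (nat_lit 1404) (nat_lit 76) (nat_lit 0) (XT.nd (nat_lit 702) (nat_lit 152) (nat_lit 0) (XT.nd (nat_lit 312) (nat_lit 152) (nat_lit 0) (XT.nd (nat_lit 156) (nat_lit 152) (nat_lit 0) (XT.nd (nat_lit 78) (nat_lit 0) (nat_lit 0) (XT.lf (nat_lit 0) (nat_lit 152492531974) (nat_lit 76) (nat_lit 20115404089) (nat_lit 152) (nat_lit 197420099533) (nat_lit 8) (nat_lit 5) (nat_lit 9) (nat_lit 5) (nat_lit 10) (nat_lit 4) (nat_lit 299) (nat_lit 281) (nat_lit 200)) (XT.lf (nat_lit 0) (nat_lit 265617674796) (nat_lit 152) (nat_lit 69888932819)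 (nat_lit 0) (nat_lit 75517782495) (nat_lit 8) (nat_lit 5) (nat_lit 10) (nat_lit 4) (nat_lit 8) (nat_lit 4) (nat_lit 300) (nat_lit 281) (nat_lit 199))) (XT.nd (nat_lit 78) (nat_lit 76) (nat_lit 0) (XT.lf (nat_lit 0) (nat_lit 108615961242) (nat_lit 76) (nat_lit 269418059356) (nat_lit 76) (nat_lit 79317905745) (nat_lit 7) (nat_lit 4) (nat_lit 8) (nat_lit 5) (nat_lit 8) (nat_lit 4) (nat_lit 301) (nat_lit 281) (nat_lit 198)) (XT.lf (nat_lit 0) (nat_lit 806387171) (nat_lit 152) (nat_lit 188366648418) (nat_lit 76) (nat_lit 320902107353) (nat_lit 6) (nat_lit 5) (nat_lit 8) (nat_lit 5) (nat_lit 7) (nat_lit 4) (nat_lit 302) (nat_lit 281) (nat_lit 197)))) (XT.nd (nat_lit 156) (nat_lit 76) (nat_lit 0) (XT.nd (nat_lit 78) (nat_lit 76) (nat_lit 0) (XT.lf (nat_lit 0) (nat_lit 84828435758) (nat_lit 152) (nat_lit 7719441545) (nat_lit 76) (nat_lit 477592445405) (nat_lit 6) (nat_lit 5) (nat_lit 8) (nat_lit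 5) (nat_lit 7) (nat_lit 4) (nat_lit 303) (nat_lit 281) (nat_lit 196)) (XT.lf (nat_lit 0) (nat_lit 191747531486) (nat_lit 152) (nat_lit 419481155974) (nat_lit 0) (nat_lit 26442531276) (nat_lit 5) (nat_lit 5) (nat_lit 7) (nat_lit 4) (nat_lit 5) (nat_lit 4) (nat_lit 304) (nat_lit 281) (nat_lit 195))) (XT.nd (nat_lit 78) (nat_lit 76) (nat_lit 0) (XT.lf (nat_lit 0) (nat_lit 319534055452) (nat_lit 152) (nat_lit 240844334049) (nat_lit 0) (nat_lit 154228925324) (nat_lit 5) (nat_lit 5) (nat_lit 7) (nat_lit 4) (nat_lit 5) (nat_lit 4) (nat_lit 305) (nat_lit 281) (nat_lit 194)) (XT.nd (nat_lit 78) (nat_lit 76) (nat_lit 0) (XT.lf (nat_lit 0) (nat_lit 466488376082) (nat_lit 152) (nat_lit 35412343761) (nat_lit 0) (nat_lit 301183132982) (nat_lit 5) (nat_lit 5) (nat_lit 7) (nat_lit 4) (nat_lit 5) (nat_lit 4) (nat_lit 306) (nat_lit 281) (nat_lit 193)) (XT.lf (nat_lit 0) (nat_lit 220461108862) (nat_lit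 76) (nat_lit 424153402126) (nat_lit 76) (nat_lit 258848060790) (nat_lit 4) (nat_lit 4) (nat_lit 5) (nat_lit 5) (nat_lit 5) (nat_lit 4) (nat_lit 307) (nat_lit 281) (nat_lit 192)))))) (XT.nd (nat_lit 312) (nat_lit 0) (nat_lit 0) (XT.nd (nat_lit 156) (nat_lit 152) (nat_lit 0) (XT.nd (nat_lit 78) (nat_lit 0) (nat_lit 0) (XT.lf (nat_lit 0) (nat_lit 518695149320) (nat_lit 76) (nat_lit 332615366834) (nat_lit 76) (nat_lit 167309940075) (nat_lit 4) (nat_lit 4) (nat_lit 5) (nat_lit 5) (nat_lit 5) (nat_lit 4) (nat_lit 308) (nat_lit 281) (nat_lit 191)) (XT.lf (nat_lit 0) (nat_lit 861664039670) (nat_lit 76) (nat_lit 227346752194) (nat_lit 76) (nat_lit 62041251154) (nat_lit 4) (nat_lit 4) (nat_lit 5) (nat_lit 5) (nat_lit 5) (nat_lit 4) (nat_lit 309) (nat_lit 281) (nat_lit 190))) (XT.nd (nat_lit 78) (nat_lit 76) (nat_lit 0) (XT.lf (nat_lit 0) (nat_lit 53763454932) (nat_lit 152) (nat_lit 49714137527)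 (nat_lit 76) (nat_lit 1199504223462) (nat_lit 3) (nat_lit 5) (nat_lit 5) (nat_lit 5) (nat_lit 4) (nat_lit 4) (nat_lit 310) (nat_lit 281) (nat_lit 189)) (XT.lf (nat_lit 0) (nat_lit 192958309930) (nat_lit 152) (nat_lit 1233229609344) (nat_lit 0) (nat_lit 49214290974) (nat_lit 2) (nat_lit 5) (nat_lit 4) (nat_lit 4) (nat_lit 2) (nat_lit 4) (nat_lit 311) (nat_lit 281) (nat_lit 188)))) (XT.nd (nat_lit 156) (nat_lit 0) (nat_lit 0) (XT.nd (nat_lit 78) (nat_lit 0) (nat_lit 0) (XT.lf (nat_lit 0) (nat_lit 360682236591) (nat_lit 152) (nat_lit 1094917775533) (nat_lit 0) (nat_lit 216938175165) (nat_lit 2) (nat_lit 5) (nat_lit 4) (nat_lit 4) (nat_lit 2) (nat_lit 4) (nat_lit 312) (nat_lit 281) (nat_lit 187)) (XT.lf (nat_lit 0) (nat_lit 553564663683) (nat_lit 152) (nat_lit 935859345232) (nat_lit 0) (nat_lit 409820565327) (nat_lit 2) (nat_lit 5) (nat_lit 4) (nat_lit 4) (nat_lit 2) (nat_lit 4) (nat_lit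 313) (nat_lit 281) (nat_lit 186))) (XT.nd (nat_lit 78) (nat_lit 0) (nat_lit 0) (XT.lf (nat_lit 0) (nat_lit 775379377823) (nat_lit 152) (nat_lit 752942305672) (nat_lit 0) (nat_lit 631635247353) (nat_lit 2) (nat_lit 5) (nat_lit 4) (nat_lit 4) (nat_lit 2) (nat_lit 4) (nat_lit 314) (nat_lit 281) (nat_lit 185)) (XT.nd (nat_lit 78) (nat_lit 0) (nat_lit 0) (XT.lf (nat_lit 0) (nat_lit 1030466232113) (nat_lit 152) (nat_lit 542587845211) (nat_lit 0) (nat_lit 886722073718) (nat_lit 2) (nat_lit 5) (nat_lit 4) (nat_lit 4) (nat_lit 2) (nat_lit 4) (nat_lit 315) (nat_lit 281) (nat_lit 184)) (XT.lf (nat_lit 0) (nat_lit 1323816056311) (nat_lit 152) (nat_lit 300680333100) (nat_lit 0) (nat_lit 1180071873634) (nat_lit 2) (nat_lit 5) (nat_lit 4) (nat_lit 4) (nat_lit 2) (nat_lit 4) (nat_lit 316) (nat_lit 281) (nat_lit 183))))))) (XT.nd (nat_lit 702) (nat_lit 0) (nat_lit 0) (XT.nd (nat_lit 312) (nat_lit 0)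 (nat_lit 0) (XT.nd (nat_lit 156) (nat_lit 0) (nat_lit 0) (XT.nd (nat_lit 78) (nat_lit 76) (nat_lit 0) (XT.lf (nat_lit 0) (nat_lit 1661168303499) (nat_lit 152) (nat_lit 22486796277) (nat_lit 0) (nat_lit 1517424099707) (nat_lit 2) (nat_lit 5) (nat_lit 4) (nat_lit 4) (nat_lit 2) (nat_lit 4) (nat_lit 317) (nat_lit 281) (nat_lit 182)) (XT.lf (nat_lit 0) (nat_lit 326503260325) (nat_lit 76) (nat_lit 1736139887147) (nat_lit 76) (nat_lit 1592395664993) (nat_lit 1) (nat_lit 4) (nat_lit 2) (nat_lit 5) (nat_lit 2) (nat_lit 4) (nat_lit 318) (nat_lit 281) (nat_lit 181))) (XT.nd (nat_lit 78) (nat_lit 0) (nat_lit 0) (XT.lf (nat_lit 0) (nat_lit 730368949931) (nat_lit 76) (nat_lit 1795145672479) (nat_lit 76) (nat_lit 1651401434359) (nat_lit 1) (nat_lit 4) (nat_lit 2) (nat_lit 5) (nat_lit 2) (nat_lit 4) (nat_lit 319) (nat_lit 281) (nat_lit 180)) (XT.lf (nat_lit 0) (nat_lit 1194814419281) (nat_lit 76) (nat_lit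 1863002362958) (nat_lit 76) (nat_lit 1719258110955) (nat_lit 1) (nat_lit 4) (nat_lit 2) (nat_lit 5) (nat_lit 2) (nat_lit 4) (nat_lit 320) (nat_lit 281) (nat_lit 179)))) (XT.nd (nat_lit 156) (nat_lit 0) (nat_lit 0) (XT.nd (nat_lit 78) (nat_lit 0) (nat_lit 0) (XT.lf (nat_lit 0) (nat_lit 1728926644952) (nat_lit 76) (nat_lit 1941037589486) (nat_lit 76) (nat_lit 1797293325410) (nat_lit 1) (nat_lit 4) (nat_lit 2) (nat_lit 5) (nat_lit 2) (nat_lit 4) (nat_lit 321) (nat_lit 281) (nat_lit 178)) (XT.lf (nat_lit 0) (nat_lit 2343155648747) (nat_lit 76) (nat_lit 2030778128234) (nat_lit 76) (nat_lit 1887033853660) (nat_lit 1) (nat_lit 4) (nat_lit 2) (nat_lit 5) (nat_lit 2) (nat_lit 4) (nat_lit 322) (nat_lit 281) (nat_lit 177))) (XT.nd (nat_lit 78) (nat_lit 0) (nat_lit 0) (XT.lf (nat_lit 0) (nat_lit 3049518954657) (nat_lit 76) (nat_lit 2133979772351) (nat_lit 76) (nat_lit 1990235488648) (nat_lit 1)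 (nat_lit 4) (nat_lit 2) (nat_lit 5) (nat_lit 2) (nat_lit 4) (nat_lit 323) (nat_lit 281) (nat_lit 176)) (XT.nd (nat_lit 78) (nat_lit 0) (nat_lit 0) (XT.lf (nat_lit 0) (nat_lit 3861836714316) (nat_lit 76) (nat_lit 2252661684440) (nat_lit 76) (nat_lit 2108917392799) (nat_lit 1) (nat_lit 4) (nat_lit 2) (nat_lit 5) (nat_lit 2) (nat_lit 4) (nat_lit 324) (nat_lit 281) (nat_lit 175)) (XT.lf (nat_lit 0) (nat_lit 4796002101285) (nat_lit 76) (nat_lit 2389145901910) (nat_lit 76) (nat_lit 2245401603367) (nat_lit 1) (nat_lit 4) (nat_lit 2) (nat_lit 5) (nat_lit 2) (nat_lit 4) (nat_lit 325) (nat_lit 281) (nat_lit 174)))))) (XT.nd (nat_lit 390) (nat_lit 0) (nat_lit 0) (XT.nd (nat_lit 156) (nat_lit 0) (nat_lit 0) (XT.nd (nat_lit 78) (nat_lit 0) (nat_lit 0) (XT.lf (nat_lit 0) (nat_lit 5870292264438) (nat_lit 76) (nat_lit 2546102768147) (nat_lit 76) (nat_lit 2402358463602) (nat_lit 1) (nat_lit 4) (nat_lit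 2) (nat_lit 5) (nat_lit 2) (nat_lit 4) (nat_lit 326) (nat_lit 281) (nat_lit 173)) (XT.lf (nat_lit 0) (nat_lit 7105725924359) (nat_lit 76) (nat_lit 2726603178361) (nat_lit 76) (nat_lit 2582858868596) (nat_lit 1) (nat_lit 4) (nat_lit 2) (nat_lit 5) (nat_lit 2) (nat_lit 4) (nat_lit 327) (nat_lit 281) (nat_lit 172))) (XT.nd (nat_lit 78) (nat_lit 0) (nat_lit 0) (XT.lf (nat_lit 0) (nat_lit 8526474609177) (nat_lit 76) (nat_lit 2934178662316) (nat_lit 76) (nat_lit 2790434348012) (nat_lit 1) (nat_lit 4) (nat_lit 2) (nat_lit 5) (nat_lit 2) (nat_lit 4) (nat_lit 328) (nat_lit 281) (nat_lit 171)) (XT.nd (nat_lit 78) (nat_lit 0) (nat_lit 0) (XT.lf (nat_lit 0) (nat_lit 10160335575769) (nat_lit 76) (nat_lit 3172890479480) (nat_lit 76) (nat_lit 3029146161230) (nat_lit 1) (nat_lit 4) (nat_lit 2) (nat_lit 5) (nat_lit 2) (nat_lit 4) (nat_lit 329) (nat_lit 281) (nat_lit 170)) (XT.lf (nat_lit 0) (nat_lit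 12039275669133) (nat_lit 76) (nat_lit 3447409078452) (nat_lit 76) (nat_lit 3303664756770) (nat_lit 1) (nat_lit 4) (nat_lit 2) (nat_lit 5) (nat_lit 2) (nat_lit 4) (nat_lit 330) (nat_lit 281) (nat_lit 169))))) (XT.nd (nat_lit 156) (nat_lit 0) (nat_lit 0) (XT.nd (nat_lit 78) (nat_lit 0) (nat_lit 0) (XT.lf (nat_lit 0) (nat_lit 14200056760661) (nat_lit 76) (nat_lit 3763105475296) (nat_lit 76) (nat_lit 3619361150630) (nat_lit 1) (nat_lit 4) (nat_lit 2) (nat_lit 5) (nat_lit 2) (nat_lit 4) (nat_lit 331) (nat_lit 281) (nat_lit 168)) (XT.lf (nat_lit 0) (nat_lit 16684955002144) (nat_lit 76) (nat_lit 4126156338648) (nat_lit 76) (nat_lit 3982412011387) (nat_lit 1) (nat_lit 4) (nat_lit 2) (nat_lit 5) (nat_lit 2) (nat_lit 4) (nat_lit 332) (nat_lit 281) (nat_lit 167))) (XT.nd (nat_lit 78) (nat_lit 0) (nat_lit 0) (XT.lf (nat_lit 0) (nat_lit 19542587967872) (nat_lit 76) (nat_lit 4543664837573) (nat_lit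 76) (nat_lit 4399920508055) (nat_lit 1) (nat_lit 4) (nat_lit 2) (nat_lit 5) (nat_lit 2) (nat_lit 4) (nat_lit 333) (nat_lit 281) (nat_lit 166)) (XT.nd (nat_lit 78) (nat_lit 0) (nat_lit 0) (XT.lf (nat_lit 0) (nat_lit 22828865868043) (nat_lit 76) (nat_lit 5023799616615) (nat_lit 76) (nat_lit 4880055285135) (nat_lit 1) (nat_lit 4) (nat_lit 2) (nat_lit 5) (nat_lit 2) (nat_lit 4) (nat_lit 334) (nat_lit 281) (nat_lit 165)) (XT.lf (nat_lit 0) (nat_lit 26608085444184) (nat_lit 76) (nat_lit 5575954617103) (nat_lit 76) (nat_lit 5432210283917) (nat_lit 1) (nat_lit 4) (nat_lit 2) (nat_lit 5) (nat_lit 2) (nat_lit 4) (nat_lit 335) (nat_lit 281) (nat_lit 164))))))))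
noncomputable def xc90 : XT := (XT.nd (nat_lit 37752) (nat_lit 0) (nat_lit 76) (XT.nd (nat_lit 37050) (nat_lit 0) (nat_lit 608) (XT.nd (nat_lit 36660) (nat_lit 0) (nat_lit 1140) (XT.nd (nat_lit 36504) (nat_lit 0) (nat_lit 1444) (XT.nd (nat_lit 36426) (nat_lit 0) (nat_lit 1444) (XT.lf (nat_lit 0) (nat_lit 30954187948870) (nat_lit 76) (nat_lit 6210932871656) (nat_lit 76) (nat_lit 6067188536986) (nat_lit 1) (nat_lit 4) (nat_lit 2) (nat_lit 5) (nat_lit 2) (nat_lit 4) (nat_lit 336) (nat_lit 281) (nat_lit 163)) (XT.lf (nat_lit 0) (nat_lit 6165612149) (nat_lit 380) (nat_lit 18964092662) (nat_lit 380) (nat_lit 18964092662) (nat_lit 20) (nat_lit 3) (nat_lit 25) (nat_lit 3) (nat_lit 25) (nat_lit 5) (nat_lit 282) (nat_lit 282) (nat_lit 216))) (XT.nd (nat_lit 78) (nat_lit 0) (nat_lit 76) (XT.lf (nat_lit 76) (nat_lit 3124184627) (nat_lit 0) (nat_lit 10268859894) (nat_lit 380) (nat_lit 81388039853)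 (nat_lit 21) (nat_lit 5) (nat_lit 20) (nat_lit 3) (nat_lit 25) (nat_lit 5) (nat_lit 283) (nat_lit 282) (nat_lit 215)) (XT.lf (nat_lit 0) (nat_lit 18168888779) (nat_lit 304) (nat_lit 49043790609) (nat_lit 380) (nat_lit 34617711130) (nat_lit 21) (nat_lit 5) (nat_lit 25) (nat_lit 5) (nat_lit 26) (nat_lit 5) (nat_lit 284) (nat_lit 282) (nat_lit 214)))) (XT.nd (nat_lit 156) (nat_lit 380) (nat_lit 0) (XT.nd (nat_lit 78) (nat_lit 0) (nat_lit 76) (XT.lf (nat_lit 0) (nat_lit 24148912591) (nat_lit 304) (nat_lit 528661000) (nat_lit 380) (nat_lit 85186353731) (nat_lit 21) (nat_lit 5) (nat_lit 25) (nat_lit 5) (nat_lit 26) (nat_lit 5) (nat_lit 285) (nat_lit 282) (nat_lit 213)) (XT.lf (nat_lit 0) (nat_lit 34660116059) (nat_lit 304) (nat_lit 59185519460) (nat_lit 76) (nat_lit 24711737216) (nat_lit 22) (nat_lit 5) (nat_lit 26) (nat_lit 5) (nat_lit 23) (nat_lit 5) (nat_lit 286) (nat_lit 282) (nat_lit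 212))) (XT.nd (nat_lit 78) (nat_lit 456) (nat_lit 0) (XT.lf (nat_lit 0) (nat_lit 47951146109) (nat_lit 304) (nat_lit 1411209685) (nat_lit 76) (nat_lit 79012011172) (nat_lit 22) (nat_lit 5) (nat_lit 26) (nat_lit 5) (nat_lit 23) (nat_lit 5) (nat_lit 287) (nat_lit 282) (nat_lit 211)) (XT.nd (nat_lit 78) (nat_lit 152) (nat_lit 0) (XT.lf (nat_lit 0) (nat_lit 66405877493) (nat_lit 380) (nat_lit 68052194404) (nat_lit 76) (nat_lit 4730334814) (nat_lit 18) (nat_lit 5) (nat_lit 23) (nat_lit 5) (nat_lit 19) (nat_lit 5) (nat_lit 288) (nat_lit 282) (nat_lit 210)) (XT.lf (nat_lit 0) (nat_lit 829737346) (nat_lit 152) (nat_lit 89260572587) (nat_lit 228) (nat_lit 61165021742) (nat_lit 16) (nat_lit 5) (nat_lit 18) (nat_lit 5) (nat_lit 19) (nat_lit 5) (nat_lit 289) (nat_lit 282) (nat_lit 209)))))) (XT.nd (nat_lit 312) (nat_lit 228) (nat_lit 0) (XT.nd (nat_lit 156) (nat_lit 228) (nat_lit 0) (XT.nd (nat_lit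 78) (nat_lit 76) (nat_lit 0) (XT.lf (nat_lit 0) (nat_lit 87691246492) (nat_lit 152) (nat_lit 33192759995) (nat_lit 228) (nat_lit 43714801583) (nat_lit 16) (nat_lit 5) (nat_lit 18) (nat_lit 5) (nat_lit 19) (nat_lit 5) (nat_lit 290) (nat_lit 282) (nat_lit 208)) (XT.lf (nat_lit 0) (nat_lit 6961674125) (nat_lit 76) (nat_lit 150918212989) (nat_lit 152) (nat_lit 21826451611) (nat_lit 15) (nat_lit 5) (nat_lit 16) (nat_lit 5) (nat_lit 17) (nat_lit 4) (nat_lit 291) (nat_lit 282) (nat_lit 207))) (XT.nd (nat_lit 78) (nat_lit 152) (nat_lit 0) (XT.lf (nat_lit 0) (nat_lit 8838978554) (nat_lit 152) (nat_lit 86333721598) (nat_lit 76) (nat_lit 101017777759) (nat_lit 14) (nat_lit 5) (nat_lit 16) (nat_lit 5) (nat_lit 15) (nat_lit 5) (nat_lit 292) (nat_lit 282) (nat_lit 206)) (XT.lf (nat_lit 0) (nat_lit 13171381157) (nat_lit 152) (nat_lit 29243127100) (nat_lit 228) (nat_lit 172495093277) (nat_lit 12) (nat_lit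 5) (nat_lit 14) (nat_lit 5) (nat_lit 15) (nat_lit 5) (nat_lit 293) (nat_lit 282) (nat_lit 205)))) (XT.nd (nat_lit 156) (nat_lit 152) (nat_lit 0) (XT.nd (nat_lit 78) (nat_lit 76) (nat_lit 0) (XT.lf (nat_lit 0) (nat_lit 87682300037) (nat_lit 228) (nat_lit 100598946480) (nat_lit 76) (nat_lit 47156958569) (nat_lit 12) (nat_lit 5) (nat_lit 15) (nat_lit 5) (nat_lit 13) (nat_lit 4) (nat_lit 294) (nat_lit 282) (nat_lit 204)) (XT.lf (nat_lit 0) (nat_lit 15717287576) (nat_lit 76) (nat_lit 126065909739) (nat_lit 152) (nat_lit 116956462460) (nat_lit 11) (nat_lit 5) (nat_lit 12) (nat_lit 5) (nat_lit 13) (nat_lit 4) (nat_lit 295) (nat_lit 282) (nat_lit 203))) (XT.nd (nat_lit 78) (nat_lit 152) (nat_lit 0) (XT.lf (nat_lit 0) (nat_lit 160786273954) (nat_lit 76) (nat_lit 48471151643) (nat_lit 152) (nat_lit 75490178576) (nat_lit 11) (nat_lit 5) (nat_lit 12) (nat_lit 5) (nat_lit 13) (nat_lit 4) (nat_lit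 296) (nat_lit 282) (nat_lit 202)) (XT.nd (nat_lit 78) (nat_lit 76) (nat_lit 0) (XT.lf (nat_lit 0) (nat_lit 12371797371) (nat_lit 76) (nat_lit 276680838354) (nat_lit 76) (nat_lit 25274128207) (nat_lit 10) (nat_lit 4) (nat_lit 11) (nat_lit 5) (nat_lit 11) (nat_lit 4) (nat_lit 297) (nat_lit 282) (nat_lit 201)) (XT.lf (nat_lit 0) (nat_lit 38679410764) (nat_lit 152) (nat_lit 168246374424) (nat_lit 76) (nat_lit 139850883624) (nat_lit 9) (nat_lit 5) (nat_lit 11) (nat_lit 5) (nat_lit 10) (nat_lit 4) (nat_lit 298) (nat_lit 282) (nat_lit 200))))))) (XT.nd (nat_lit 702) (nat_lit 228) (nat_lit 0) (XT.nd (nat_lit 312) (nat_lit 152) (nat_lit 0) (XT.nd (nat_lit 156) (nat_lit 76) (nat_lit 0) (XT.nd (nat_lit 78) (nat_lit 76) (nat_lit 0) (XT.lf (nat_lit 0) (nat_lit 109638097181) (nat_lit 152) (nat_lit 15685544210) (nat_lit 76) (nat_lit 258589933211) (nat_lit 9) (nat_lit 5) (nat_lit 11) (nat_lit 5) (nat_lit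 10) (nat_lit 4) (nat_lit 299) (nat_lit 282) (nat_lit 199)) (XT.lf (nat_lit 0) (nat_lit 175371764863) (nat_lit 76) (nat_lit 23130336774) (nat_lit 152) (nat_lit 227029687845) (nat_lit 8) (nat_lit 5) (nat_lit 9) (nat_lit 5) (nat_lit 10) (nat_lit 4) (nat_lit 300) (nat_lit 282) (nat_lit 198))) (XT.nd (nat_lit 78) (nat_lit 76) (nat_lit 0) (XT.lf (nat_lit 0) (nat_lit 305462998737) (nat_lit 152) (nat_lit 80367310931) (nat_lit 0) (nat_lit 86847333547) (nat_lit 8) (nat_lit 5) (nat_lit 10) (nat_lit 4) (nat_lit 8) (nat_lit 4) (nat_lit 301) (nat_lit 282) (nat_lit 197)) (XT.lf (nat_lit 0) (nat_lit 124913091702) (nat_lit 76) (nat_lit 309828552211) (nat_lit 76) (nat_lit 91212689432) (nat_lit 7) (nat_lit 4) (nat_lit 8) (nat_lit 5) (nat_lit 8) (nat_lit 4) (nat_lit 302) (nat_lit 282) (nat_lit 196)))) (XT.nd (nat_lit 156) (nat_lit 76) (nat_lit 0) (XT.nd (nat_lit 78) (nat_lit 0) (nat_lit 0) (XT.lf (nat_lit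 0) (nat_lit 929644206) (nat_lit 152) (nat_lit 216617299550) (nat_lit 76) (nat_lit 369039122823) (nat_lit 6) (nat_lit 5) (nat_lit 8) (nat_lit 5) (nat_lit 7) (nat_lit 4) (nat_lit 303) (nat_lit 282) (nat_lit 195)) (XT.lf (nat_lit 0) (nat_lit 97554700217) (nat_lit 152) (nat_lit 8873578532) (nat_lit 76) (nat_lit 549232789926) (nat_lit 6) (nat_lit 5) (nat_lit 8) (nat_lit 5) (nat_lit 7) (nat_lit 4) (nat_lit 304) (nat_lit 282) (nat_lit 194))) (XT.nd (nat_lit 78) (nat_lit 0) (nat_lit 0) (XT.lf (nat_lit 0) (nat_lit 220511620141) (nat_lit 152) (nat_lit 482399507722) (nat_lit 0) (nat_lit 30410477604) (nat_lit 5) (nat_lit 5) (nat_lit 7) (nat_lit 4) (nat_lit 5) (nat_lit 4) (nat_lit 305) (nat_lit 282) (nat_lit 193)) (XT.nd (nat_lit 78) (nat_lit 0) (nat_lit 0) (XT.lf (nat_lit 0) (nat_lit 367465867189) (nat_lit 152) (nat_lit 276967660984) (nat_lit 0) (nat_lit 177364626416) (nat_lit 5) (nat_lit 5) (nat_lit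 7) (nat_lit 4) (nat_lit 5) (nat_lit 4) (nat_lit 306) (nat_lit 282) (nat_lit 192)) (XT.lf (nat_lit 0) (nat_lit 536463113728) (nat_lit 152) (nat_lit 40721305611) (nat_lit 0) (nat_lit 346361787532) (nat_lit 5) (nat_lit 5) (nat_lit 7) (nat_lit 4) (nat_lit 5) (nat_lit 4) (nat_lit 307) (nat_lit 282) (nat_lit 191)))))) (XT.nd (nat_lit 390) (nat_lit 0) (nat_lit 0) (XT.nd (nat_lit 156) (nat_lit 152) (nat_lit 0) (XT.nd (nat_lit 78) (nat_lit 0) (nat_lit 0) (XT.lf (nat_lit 0) (nat_lit 253533033555) (nat_lit 76) (nat_lit 487775056329) (nat_lit 76) (nat_lit 297673655852) (nat_lit 4) (nat_lit 4) (nat_lit 5) (nat_lit 5) (nat_lit 5) (nat_lit 4) (nat_lit 308) (nat_lit 282) (nat_lit 190)) (XT.lf (nat_lit 0) (nat_lit 596501820295) (nat_lit 76) (nat_lit 382506492627) (nat_lit 76) (nat_lit 192405027559) (nat_lit 4) (nat_lit 4) (nat_lit 5) (nat_lit 5) (nat_lit 5) (nat_lit 4) (nat_lit 309) (nat_lit 282) (nat_lit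 189))) (XT.nd (nat_lit 78) (nat_lit 152) (nat_lit 0) (XT.lf (nat_lit 0) (nat_lit 990915731340) (nat_lit 76) (nat_lit 261447739604) (nat_lit 76) (nat_lit 71346218369) (nat_lit 4) (nat_lit 4) (nat_lit 5) (nat_lit 5) (nat_lit 5) (nat_lit 4) (nat_lit 310) (nat_lit 282) (nat_lit 188)) (XT.nd (nat_lit 78) (nat_lit 76) (nat_lit 0) (XT.lf (nat_lit 0) (nat_lit 61828939958) (nat_lit 152) (nat_lit 57169349164) (nat_lit 76) (nat_lit 1379430653327) (nat_lit 3) (nat_lit 5) (nat_lit 5) (nat_lit 5) (nat_lit 4) (nat_lit 4) (nat_lit 311) (nat_lit 282) (nat_lit 187)) (XT.lf (nat_lit 0) (nat_lit 221903010077) (nat_lit 152) (nat_lit 1418212127892) (nat_lit 0) (nat_lit 56597260036) (nat_lit 2) (nat_lit 5) (nat_lit 4) (nat_lit 4) (nat_lit 2) (nat_lit 4) (nat_lit 312) (nat_lit 282) (nat_lit 186))))) (XT.nd (nat_lit 156) (nat_lit 0) (nat_lit 0) (XT.nd (nat_lit 78) (nat_lit 0) (nat_lit 0) (XT.lf (nat_lit 0) (nat_lit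 414785401347) (nat_lit 152) (nat_lit 1259153769817) (nat_lit 0) (nat_lit 249479619193) (nat_lit 2) (nat_lit 5) (nat_lit 4) (nat_lit 4) (nat_lit 2) (nat_lit 4) (nat_lit 313) (nat_lit 282) (nat_lit 185)) (XT.lf (nat_lit 0) (nat_lit 636600084338) (nat_lit 152) (nat_lit 1076236793063) (nat_lit 0) (nat_lit 471294274259) (nat_lit 2) (nat_lit 5) (nat_lit 4) (nat_lit 4) (nat_lit 2) (nat_lit 4) (nat_lit 314) (nat_lit 282) (nat_lit 184))) (XT.nd (nat_lit 78) (nat_lit 0) (nat_lit 0) (XT.lf (nat_lit 0) (nat_lit 891686911542) (nat_lit 152) (nat_lit 865882387215) (nat_lit 0) (nat_lit 726381077180) (nat_lit 2) (nat_lit 5) (nat_lit 4) (nat_lit 4) (nat_lit 2) (nat_lit 4) (nat_lit 315) (nat_lit 282) (nat_lit 183)) (XT.nd (nat_lit 78) (nat_lit 0) (nat_lit 0) (XT.lf (nat_lit 0) (nat_lit 1185036712187) (nat_lit 152) (nat_lit 623974922595) (nat_lit 0) (nat_lit 1019730856710) (nat_lit 2) (nat_lit 5) (nat_lit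 4) (nat_lit 4) (nat_lit 2) (nat_lit 4) (nat_lit 316) (nat_lit 282) (nat_lit 182)) (XT.lf (nat_lit 0) (nat_lit 1522388938894) (nat_lit 152) (nat_lit 345781427067) (nat_lit 0) (nat_lit 1357083065056) (nat_lit 2) (nat_lit 5) (nat_lit 4) (nat_lit 4) (nat_lit 2) (nat_lit 4) (nat_lit 317) (nat_lit 282) (nat_lit 181))))))))
noncomputable def xc91 : XT := (XT.nd (nat_lit 1404) (nat_lit 0) (nat_lit 0) (XT.nd (nat_lit 702) (nat_lit 0) (nat_lit 0) (XT.nd (nat_lit 312) (nat_lit 0) (nat_lit 0) (XT.nd (nat_lit 156) (nat_lit 0) (nat_lit 0) (XT.nd (nat_lit 78) (nat_lit 76) (nat_lit 0) (XT.lf (nat_lit 0) (nat_lit 1910343961317) (nat_lit 152) (nat_lit 25858984416) (nat_lit 0) (nat_lit 1745038071513) (nat_lit 2) (nat_lit 5) (nat_lit 4) (nat_lit 4) (nat_lit 2) (nat_lit 4) (nat_lit 318) (nat_lit 282) (nat_lit 180)) (XT.lf (nat_lit 0) (nat_lit 375479542890) (nat_lit 76) (nat_lit 1996560468076) (nat_lit 76)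 (nat_lit 1831254564388) (nat_lit 1) (nat_lit 4) (nat_lit 2) (nat_lit 5) (nat_lit 2) (nat_lit 4) (nat_lit 319) (nat_lit 282) (nat_lit 179))) (XT.nd (nat_lit 78) (nat_lit 0) (nat_lit 0) (XT.lf (nat_lit 0) (nat_lit 839924982434) (nat_lit 76) (nat_lit 2064417173661) (nat_lit 76) (nat_lit 1899111257901) (nat_lit 1) (nat_lit 4) (nat_lit 2) (nat_lit 5) (nat_lit 2) (nat_lit 4) (nat_lit 320) (nat_lit 282) (nat_lit 178)) (XT.lf (nat_lit 0) (nat_lit 1374037182186) (nat_lit 76) (nat_lit 2142452413324) (nat_lit 76) (nat_lit 1977146487066) (nat_lit 1) (nat_lit 4) (nat_lit 2) (nat_lit 5) (nat_lit 2) (nat_lit 4) (nat_lit 321) (nat_lit 282) (nat_lit 177)))) (XT.nd (nat_lit 156) (nat_lit 0) (nat_lit 0) (XT.nd (nat_lit 78) (nat_lit 0) (nat_lit 0) (XT.lf (nat_lit 0) (nat_lit 1988266163444) (nat_lit 76) (nat_lit 2232192963494) (nat_lit 76) (nat_lit 2066887028107) (nat_lit 1) (nat_lit 4) (nat_lit 2) (nat_lit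 5) (nat_lit 2) (nat_lit 4) (nat_lit 322) (nat_lit 282) (nat_lit 176)) (XT.lf (nat_lit 0) (nat_lit 2694629449755) (nat_lit 76) (nat_lit 2335394617543) (nat_lit 76) (nat_lit 2170088674218) (nat_lit 1) (nat_lit 4) (nat_lit 2) (nat_lit 5) (nat_lit 2) (nat_lit 4) (nat_lit 323) (nat_lit 282) (nat_lit 175))) (XT.nd (nat_lit 78) (nat_lit 0) (nat_lit 0) (XT.lf (nat_lit 0) (nat_lit 3506947192373) (nat_lit 76) (nat_lit 2454076538268) (nat_lit 76) (nat_lit 2288770588040) (nat_lit 1) (nat_lit 4) (nat_lit 2) (nat_lit 5) (nat_lit 2) (nat_lit 4) (nat_lit 324) (nat_lit 282) (nat_lit 174)) (XT.nd (nat_lit 78) (nat_lit 0) (nat_lit 0) (XT.lf (nat_lit 0) (nat_lit 4441112564523) (nat_lit 76) (nat_lit 2590560763248) (nat_lit 76) (nat_lit 2425254807018) (nat_lit 1) (nat_lit 4) (nat_lit 2) (nat_lit 5) (nat_lit 2) (nat_lit 4) (nat_lit 325) (nat_lit 282) (nat_lit 173)) (XT.lf (nat_lit 0) (nat_lit 5515402714790)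 (nat_lit 76) (nat_lit 2747517636016) (nat_lit 76) (nat_lit 2582211674567) (nat_lit 1) (nat_lit 4) (nat_lit 2) (nat_lit 5) (nat_lit 2) (nat_lit 4) (nat_lit 326) (nat_lit 282) (nat_lit 172)))))) (XT.nd (nat_lit 312) (nat_lit 0) (nat_lit 0) (XT.nd (nat_lit 156) (nat_lit 0) (nat_lit 0) (XT.nd (nat_lit 78) (nat_lit 0) (nat_lit 0) (XT.lf (nat_lit 0) (nat_lit 6750836363506) (nat_lit 76) (nat_lit 2928018051908) (nat_lit 76) (nat_lit 2762712085920) (nat_lit 1) (nat_lit 4) (nat_lit 2) (nat_lit 5) (nat_lit 2) (nat_lit 4) (nat_lit 327) (nat_lit 282) (nat_lit 171)) (XT.lf (nat_lit 0) (nat_lit 8171585038580) (nat_lit 76) (nat_lit 3135593540801) (nat_lit 76) (nat_lit 2970287570867) (nat_lit 1) (nat_lit 4) (nat_lit 2) (nat_lit 5) (nat_lit 2) (nat_lit 4) (nat_lit 328) (nat_lit 282) (nat_lit 170))) (XT.nd (nat_lit 78) (nat_lit 0) (nat_lit 0) (XT.lf (nat_lit 0) (nat_lit 9805445996699) (nat_lit 76) (nat_lit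 3374305362260) (nat_lit 76) (nat_lit 3208999388893) (nat_lit 1) (nat_lit 4) (nat_lit 2) (nat_lit 5) (nat_lit 2) (nat_lit 4) (nat_lit 329) (nat_lit 282) (nat_lit 169)) (XT.lf (nat_lit 0) (nat_lit 11684386082695) (nat_lit 76) (nat_lit 3648823964965) (nat_lit 76) (nat_lit 3483517988614) (nat_lit 1) (nat_lit 4) (nat_lit 2) (nat_lit 5) (nat_lit 2) (nat_lit 4) (nat_lit 330) (nat_lit 282) (nat_lit 168)))) (XT.nd (nat_lit 156) (nat_lit 0) (nat_lit 0) (XT.nd (nat_lit 78) (nat_lit 0) (nat_lit 0) (XT.lf (nat_lit 0) (nat_lit 13845167167817) (nat_lit 76) (nat_lit 3964520365056) (nat_lit 76) (nat_lit 3799214386111) (nat_lit 1) (nat_lit 4) (nat_lit 2) (nat_lit 5) (nat_lit 2) (nat_lit 4) (nat_lit 331) (nat_lit 282) (nat_lit 167)) (XT.lf (nat_lit 0) (nat_lit 16330065403729) (nat_lit 76) (nat_lit 4327571231231) (nat_lit 76) (nat_lit 4162265250029) (nat_lit 1) (nat_lit 4) (nat_lit 2) (nat_lit 5) (nat_lit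 2) (nat_lit 4) (nat_lit 332) (nat_lit 282) (nat_lit 166))) (XT.nd (nat_lit 78) (nat_lit 0) (nat_lit 0) (XT.lf (nat_lit 0) (nat_lit 19187698364612) (nat_lit 76) (nat_lit 4745079732611) (nat_lit 76) (nat_lit 4579773749447) (nat_lit 1) (nat_lit 4) (nat_lit 2) (nat_lit 5) (nat_lit 2) (nat_lit 4) (nat_lit 333) (nat_lit 282) (nat_lit 165)) (XT.nd (nat_lit 78) (nat_lit 0) (nat_lit 0) (XT.lf (nat_lit 0) (nat_lit 22473976260571) (nat_lit 76) (nat_lit 5225214513788) (nat_lit 76) (nat_lit 5059908528918) (nat_lit 1) (nat_lit 4) (nat_lit 2) (nat_lit 5) (nat_lit 2) (nat_lit 4) (nat_lit 334) (nat_lit 282) (nat_lit 164)) (XT.lf (nat_lit 0) (nat_lit 26253195833049) (nat_lit 76) (nat_lit 5777369516132) (nat_lit 76) (nat_lit 5612063529779) (nat_lit 1) (nat_lit 4) (nat_lit 2) (nat_lit 5) (nat_lit 2) (nat_lit 4) (nat_lit 335) (nat_lit 282) (nat_lit 163))))))) (XT.nd (nat_lit 36972) (nat_lit 0) (nat_lit 684)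 (XT.nd (nat_lit 36582) (nat_lit 0) (nat_lit 1444) (XT.nd (nat_lit 1560) (nat_lit 0) (nat_lit 0) (XT.nd (nat_lit 1482) (nat_lit 0) (nat_lit 0) (XT.lf (nat_lit 0) (nat_lit 30599298334550) (nat_lit 76) (nat_lit 6412347772299) (nat_lit 76) (nat_lit 6247041784655) (nat_lit 1) (nat_lit 4) (nat_lit 2) (nat_lit 5) (nat_lit 2) (nat_lit 4) (nat_lit 336) (nat_lit 282) (nat_lit 162)) (XT.lf (nat_lit 0) (nat_lit 471483504496468) (nat_lit 76) (nat_lit 70826817988412) (nat_lit 76) (nat_lit 70661511992772) (nat_lit 1) (nat_lit 4) (nat_lit 2) (nat_lit 5) (nat_lit 2) (nat_lit 4) (nat_lit 355) (nat_lit 282) (nat_lit 143))) (XT.nd (nat_lit 34944) (nat_lit 0) (nat_lit 1444) (XT.lf (nat_lit 0) (nat_lit 542614153254616) (nat_lit 76) (nat_lit 81219213537145) (nat_lit 76) (nat_lit 81053907541425) (nat_lit 1) (nat_lit 4) (nat_lit 2) (nat_lit 5) (nat_lit 2) (nat_lit 4) (nat_lit 356) (nat_lit 282) (nat_lit 142))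 (XT.lf (nat_lit 0) (nat_lit 7097751328) (nat_lit 380) (nat_lit 21804494556) (nat_lit 380) (nat_lit 21804494556) (nat_lit 20) (nat_lit 3) (nat_lit 25) (nat_lit 3) (nat_lit 25) (nat_lit 5) (nat_lit 283) (nat_lit 283) (nat_lit 214)))) (XT.nd (nat_lit 156) (nat_lit 0) (nat_lit 76) (XT.nd (nat_lit 78) (nat_lit 0) (nat_lit 76) (XT.lf (nat_lit 76) (nat_lit 3600853421) (nat_lit 0) (nat_lit 11814171797) (nat_lit 380) (nat_lit 93581212469) (nat_lit 21) (nat_lit 5) (nat_lit 20) (nat_lit 3) (nat_lit 25) (nat_lit 5) (nat_lit 284) (nat_lit 283) (nat_lit 213)) (XT.lf (nat_lit 0) (nat_lit 20905367910) (nat_lit 304) (nat_lit 56391440265) (nat_lit 380) (nat_lit 39806420578) (nat_lit 21) (nat_lit 5) (nat_lit 25) (nat_lit 5) (nat_lit 26) (nat_lit 5) (nat_lit 285) (nat_lit 283) (nat_lit 212))) (XT.nd (nat_lit 78) (nat_lit 0) (nat_lit 76) (XT.lf (nat_lit 0) (nat_lit 27780941493) (nat_lit 304) (nat_lit 600204554)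 (nat_lit 380) (nat_lit 97960874424) (nat_lit 21) (nat_lit 5) (nat_lit 25) (nat_lit 5) (nat_lit 26) (nat_lit 5) (nat_lit 286) (nat_lit 283) (nat_lit 211)) (XT.nd (nat_lit 78) (nat_lit 0) (nat_lit 0) (XT.lf (nat_lit 0) (nat_lit 39867812724) (nat_lit 304) (nat_lit 68054542376) (nat_lit 76) (nat_lit 28417285007) (nat_lit 22) (nat_lit 5) (nat_lit 26) (nat_lit 5) (nat_lit 23) (nat_lit 5) (nat_lit 287) (nat_lit 283) (nat_lit 210)) (XT.lf (nat_lit 0) (nat_lit 55151365204) (nat_lit 304) (nat_lit 1615234614) (nat_lit 76) (nat_lit 90862758246) (nat_lit 22) (nat_lit 5) (nat_lit 26) (nat_lit 5) (nat_lit 23) (nat_lit 5) (nat_lit 288) (nat_lit 283) (nat_lit 209)))))) (XT.nd (nat_lit 390) (nat_lit 304) (nat_lit 0) (XT.nd (nat_lit 156) (nat_lit 152) (nat_lit 0) (XT.nd (nat_lit 78) (nat_lit 152) (nat_lit 0) (XT.lf (nat_lit 0) (nat_lit 76373642859) (nat_lit 380) (nat_lit 78251675891) (nat_lit 76) (nat_lit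 5440288694) (nat_lit 18) (nat_lit 5) (nat_lit 23) (nat_lit 5) (nat_lit 19) (nat_lit 5) (nat_lit 289) (nat_lit 283) (nat_lit 208)) (XT.lf (nat_lit 0) (nat_lit 962166182) (nat_lit 152) (nat_lit 102648006051) (nat_lit 228) (nat_lit 70332487724) (nat_lit 16) (nat_lit 5) (nat_lit 18) (nat_lit 5) (nat_lit 19) (nat_lit 5) (nat_lit 290) (nat_lit 283) (nat_lit 207))) (XT.nd (nat_lit 78) (nat_lit 152) (nat_lit 0) (XT.lf (nat_lit 0) (nat_lit 100851862365) (nat_lit 152) (nat_lit 38170237104) (nat_lit 228) (nat_lit 50265685056) (nat_lit 16) (nat_lit 5) (nat_lit 18) (nat_lit 5) (nat_lit 19) (nat_lit 5) (nat_lit 291) (nat_lit 283) (nat_lit 206)) (XT.nd (nat_lit 78) (nat_lit 76) (nat_lit 0) (XT.lf (nat_lit 0) (nat_lit 8013288757) (nat_lit 76) (nat_lit 173553713729) (nat_lit 152) (nat_lit 25094498980) (nat_lit 15) (nat_lit 5) (nat_lit 16) (nat_lit 5) (nat_lit 17) (nat_lit 4) (nat_lit 292) (nat_lit 283)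 (nat_lit 205)) (XT.lf (nat_lit 0) (nat_lit 10169515163) (nat_lit 152) (nat_lit 99276904681) (nat_lit 76) (nat_lit 116171912502) (nat_lit 14) (nat_lit 5) (nat_lit 16) (nat_lit 5) (nat_lit 15) (nat_lit 5) (nat_lit 293) (nat_lit 283) (nat_lit 204))))) (XT.nd (nat_lit 156) (nat_lit 152) (nat_lit 0) (XT.nd (nat_lit 78) (nat_lit 0) (nat_lit 0) (XT.lf (nat_lit 0) (nat_lit 15153650980) (nat_lit 152) (nat_lit 33627383371) (nat_lit 228) (nat_lit 198364342955) (nat_lit 12) (nat_lit 5) (nat_lit 14) (nat_lit 5) (nat_lit 15) (nat_lit 5) (nat_lit 294) (nat_lit 283) (nat_lit 203)) (XT.lf (nat_lit 0) (nat_lit 100838507201) (nat_lit 228) (nat_lit 115682583686) (nat_lit 76) (nat_lit 54232255221) (nat_lit 12) (nat_lit 5) (nat_lit 15) (nat_lit 5) (nat_lit 13) (nat_lit 4) (nat_lit 295) (nat_lit 283) (nat_lit 202))) (XT.nd (nat_lit 78) (nat_lit 76) (nat_lit 0) (XT.lf (nat_lit 0) (nat_lit 18080803444) (nat_lit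 76) (nat_lit 144973477114) (nat_lit 152) (nat_lit 134495778577) (nat_lit 11) (nat_lit 5) (nat_lit 12) (nat_lit 5) (nat_lit 13) (nat_lit 4) (nat_lit 296) (nat_lit 283) (nat_lit 201)) (XT.nd (nat_lit 78) (nat_lit 76) (nat_lit 0) (XT.lf (nat_lit 0) (nat_lit 184909365248) (nat_lit 76) (nat_lit 55739807793) (nat_lit 152) (nat_lit 86810093839) (nat_lit 11) (nat_lit 5) (nat_lit 12) (nat_lit 5) (nat_lit 13) (nat_lit 4) (nat_lit 297) (nat_lit 283) (nat_lit 200)) (XT.lf (nat_lit 0) (nat_lit 14232859565) (nat_lit 76) (nat_lit 318180688158) (nat_lit 76) (nat_lit 29061771451) (nat_lit 10) (nat_lit 4) (nat_lit 11) (nat_lit 5) (nat_lit 11) (nat_lit 4) (nat_lit 298) (nat_lit 283) (nat_lit 199))))))))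
noncomputable def xc92 : XT := (XT.nd (nat_lit 1404) (nat_lit 76) (nat_lit 0) (XT.nd (nat_lit 702) (nat_lit 228) (nat_lit 0) (XT.nd (nat_lit 312) (nat_lit 228) (nat_lit 0) (XT.nd (nat_lit 156) (nat_lit 76) (nat_lit 0) (XT.nd (nat_lit 78) (nat_lit 0) (nat_lit 0) (XT.lf (nat_lit 0) (nat_lit 44484075883) (nat_lit 152) (nat_lit 193478454064) (nat_lit 76) (nat_lit 160830220981) (nat_lit 9) (nat_lit 5) (nat_lit 11) (nat_lit 5) (nat_lit 10) (nat_lit 4) (nat_lit 299) (nat_lit 283) (nat_lit 198)) (XT.lf (nat_lit 0) (nat_lit 126086206110) (nat_lit 152) (nat_lit 18034135386) (nat_lit 76) (nat_lit 297379905640) (nat_lit 9) (nat_lit 5) (nat_lit 11) (nat_lit 5) (nat_lit 10) (nat_lit 4) (nat_lit 300) (nat_lit 283) (nat_lit 197))) (XT.nd (nat_lit 78) (nat_lit 0) (nat_lit 0) (XT.lf (nat_lit 0) (nat_lit 201681577300) (nat_lit 76) (nat_lit 26598089235) (nat_lit 152) (nat_lit 261081550005) (nat_lit 8) (nat_lit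 5) (nat_lit 9) (nat_lit 5) (nat_lit 10) (nat_lit 4) (nat_lit 301) (nat_lit 283) (nat_lit 196)) (XT.lf (nat_lit 0) (nat_lit 351284469509) (nat_lit 152) (nat_lit 92418655729) (nat_lit 0) (nat_lit 99875857909) (nat_lit 8) (nat_lit 5) (nat_lit 10) (nat_lit 4) (nat_lit 8) (nat_lit 4) (nat_lit 302) (nat_lit 283) (nat_lit 195)))) (XT.nd (nat_lit 156) (nat_lit 76) (nat_lit 0) (XT.nd (nat_lit 78) (nat_lit 76) (nat_lit 0) (XT.lf (nat_lit 0) (nat_lit 143653636761) (nat_lit 76) (nat_lit 356301159391) (nat_lit 76) (nat_lit 104892398386) (nat_lit 7) (nat_lit 4) (nat_lit 8) (nat_lit 5) (nat_lit 8) (nat_lit 4) (nat_lit 303) (nat_lit 283) (nat_lit 194)) (XT.lf (nat_lit 0) (nat_lit 1070829180) (nat_lit 152) (nat_lit 249106608183) (nat_lit 76) (nat_lit 424396276212) (nat_lit 6) (nat_lit 5) (nat_lit 8) (nat_lit 5) (nat_lit 7) (nat_lit 4) (nat_lit 304) (nat_lit 283) (nat_lit 193))) (XT.nd (nat_lit 78) (nat_lit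 76) (nat_lit 0) (XT.lf (nat_lit 0) (nat_lit 112189416852) (nat_lit 152) (nat_lit 10201757660) (nat_lit 76) (nat_lit 631618825777) (nat_lit 6) (nat_lit 5) (nat_lit 8) (nat_lit 5) (nat_lit 7) (nat_lit 4) (nat_lit 305) (nat_lit 283) (nat_lit 192)) (XT.nd (nat_lit 78) (nat_lit 0) (nat_lit 0) (XT.lf (nat_lit 0) (nat_lit 253589844395) (nat_lit 152) (nat_lit 554756544166) (nat_lit 0) (nat_lit 34973233847) (nat_lit 5) (nat_lit 5) (nat_lit 7) (nat_lit 4) (nat_lit 5) (nat_lit 4) (nat_lit 306) (nat_lit 283) (nat_lit 191)) (XT.lf (nat_lit 0) (nat_lit 422587035296) (nat_lit 152) (nat_lit 318510297337) (nat_lit 0) (nat_lit 203970350468) (nat_lit 5) (nat_lit 5) (nat_lit 7) (nat_lit 4) (nat_lit 5) (nat_lit 4) (nat_lit 307) (nat_lit 283) (nat_lit 190)))))) (XT.nd (nat_lit 312) (nat_lit 152) (nat_lit 0) (XT.nd (nat_lit 156) (nat_lit 0) (nat_lit 0) (XT.nd (nat_lit 78) (nat_lit 76) (nat_lit 0) (XT.lf (nat_lit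 0) (nat_lit 616933700813) (nat_lit 152) (nat_lit 46827316413) (nat_lit 0) (nat_lit 398316951392) (nat_lit 5) (nat_lit 5) (nat_lit 7) (nat_lit 4) (nat_lit 5) (nat_lit 4) (nat_lit 308) (nat_lit 283) (nat_lit 189)) (XT.lf (nat_lit 0) (nat_lit 291565074308) (nat_lit 76) (nat_lit 560940289359) (nat_lit 76) (nat_lit 342323483771) (nat_lit 4) (nat_lit 4) (nat_lit 5) (nat_lit 5) (nat_lit 5) (nat_lit 4) (nat_lit 309) (nat_lit 283) (nat_lit 188))) (XT.nd (nat_lit 78) (nat_lit 0) (nat_lit 0) (XT.lf (nat_lit 0) (nat_lit 685978907009) (nat_lit 76) (nat_lit 439881574853) (nat_lit 76) (nat_lit 221264720424) (nat_lit 4) (nat_lit 4) (nat_lit 5) (nat_lit 5) (nat_lit 5) (nat_lit 4) (nat_lit 310) (nat_lit 283) (nat_lit 187)) (XT.lf (nat_lit 0) (nat_lit 1139554668145) (nat_lit 76) (nat_lit 300664125181) (nat_lit 76) (nat_lit 82047228282) (nat_lit 4) (nat_lit 4) (nat_lit 5) (nat_lit 5) (nat_lit 5) (nat_lit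 4) (nat_lit 311) (nat_lit 283) (nat_lit 186)))) (XT.nd (nat_lit 156) (nat_lit 0) (nat_lit 0) (XT.nd (nat_lit 78) (nat_lit 76) (nat_lit 0) (XT.lf (nat_lit 0) (nat_lit 71104011982) (nat_lit 152) (nat_lit 65743308066) (nat_lit 76) (nat_lit 1586345853478) (nat_lit 3) (nat_lit 5) (nat_lit 5) (nat_lit 5) (nat_lit 4) (nat_lit 4) (nat_lit 312) (nat_lit 283) (nat_lit 185)) (XT.lf (nat_lit 0) (nat_lit 255189182690) (nat_lit 152) (nat_lit 1630942493122) (nat_lit 0) (nat_lit 65087473175) (nat_lit 2) (nat_lit 5) (nat_lit 4) (nat_lit 4) (nat_lit 2) (nat_lit 4) (nat_lit 313) (nat_lit 283) (nat_lit 184))) (XT.nd (nat_lit 78) (nat_lit 0) (nat_lit 0) (XT.lf (nat_lit 0) (nat_lit 477003838595) (nat_lit 152) (nat_lit 1448025570982) (nat_lit 0) (nat_lit 286902104796) (nat_lit 2) (nat_lit 5) (nat_lit 4) (nat_lit 4) (nat_lit 2) (nat_lit 4) (nat_lit 314) (nat_lit 283) (nat_lit 183)) (XT.nd (nat_lit 78) (nat_lit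 0) (nat_lit 0) (XT.lf (nat_lit 0) (nat_lit 732090642245) (nat_lit 152) (nat_lit 1237671212624) (nat_lit 0) (nat_lit 541988887332) (nat_lit 2) (nat_lit 5) (nat_lit 4) (nat_lit 4) (nat_lit 2) (nat_lit 4) (nat_lit 315) (nat_lit 283) (nat_lit 182)) (XT.lf (nat_lit 0) (nat_lit 1025440422409) (nat_lit 152) (nat_lit 995763789300) (nat_lit 0) (nat_lit 835338649135) (nat_lit 2) (nat_lit 5) (nat_lit 4) (nat_lit 4) (nat_lit 2) (nat_lit 4) (nat_lit 316) (nat_lit 283) (nat_lit 181))))))) (XT.nd (nat_lit 702) (nat_lit 0) (nat_lit 0) (XT.nd (nat_lit 312) (nat_lit 0) (nat_lit 0) (XT.nd (nat_lit 156) (nat_lit 76) (nat_lit 0) (XT.nd (nat_lit 78) (nat_lit 0) (nat_lit 0) (XT.lf (nat_lit 0) (nat_lit 1362792631307) (nat_lit 152) (nat_lit 717570329681) (nat_lit 0) (nat_lit 1172690842066) (nat_lit 2) (nat_lit 5) (nat_lit 4) (nat_lit 4) (nat_lit 2) (nat_lit 4) (nat_lit 317) (nat_lit 283) (nat_lit 180)) (XT.lf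 (nat_lit 0) (nat_lit 1750747638243) (nat_lit 152) (nat_lit 397647918255) (nat_lit 0) (nat_lit 1560645835119) (nat_lit 2) (nat_lit 5) (nat_lit 4) (nat_lit 4) (nat_lit 2) (nat_lit 4) (nat_lit 318) (nat_lit 283) (nat_lit 179))) (XT.nd (nat_lit 78) (nat_lit 76) (nat_lit 0) (XT.lf (nat_lit 0) (nat_lit 2196895867267) (nat_lit 152) (nat_lit 29737203494) (nat_lit 0) (nat_lit 2006794052070) (nat_lit 2) (nat_lit 5) (nat_lit 4) (nat_lit 4) (nat_lit 2) (nat_lit 4) (nat_lit 319) (nat_lit 283) (nat_lit 178)) (XT.lf (nat_lit 0) (nat_lit 431802074336) (nat_lit 76) (nat_lit 2296044234209) (nat_lit 76) (nat_lit 2105942408514) (nat_lit 1) (nat_lit 4) (nat_lit 2) (nat_lit 5) (nat_lit 2) (nat_lit 4) (nat_lit 320) (nat_lit 283) (nat_lit 177)))) (XT.nd (nat_lit 156) (nat_lit 0) (nat_lit 0) (XT.nd (nat_lit 78) (nat_lit 0) (nat_lit 0) (XT.lf (nat_lit 0) (nat_lit 965914251549) (nat_lit 76) (nat_lit 2374079485294)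 (nat_lit 76) (nat_lit 2183977650470) (nat_lit 1) (nat_lit 4) (nat_lit 2) (nat_lit 5) (nat_lit 2) (nat_lit 4) (nat_lit 321) (nat_lit 283) (nat_lit 176)) (XT.lf (nat_lit 0) (nat_lit 1580143213210) (nat_lit 76) (nat_lit 2463820045396) (nat_lit 76) (nat_lit 2273718202634) (nat_lit 1) (nat_lit 4) (nat_lit 2) (nat_lit 5) (nat_lit 2) (nat_lit 4) (nat_lit 322) (nat_lit 283) (nat_lit 175))) (XT.nd (nat_lit 78) (nat_lit 0) (nat_lit 0) (XT.lf (nat_lit 0) (nat_lit 2286506482479) (nat_lit 76) (nat_lit 2567021708082) (nat_lit 76) (nat_lit 2376919858417) (nat_lit 1) (nat_lit 4) (nat_lit 2) (nat_lit 5) (nat_lit 2) (nat_lit 4) (nat_lit 323) (nat_lit 283) (nat_lit 174)) (XT.nd (nat_lit 78) (nat_lit 0) (nat_lit 0) (XT.lf (nat_lit 0) (nat_lit 3098824210278) (nat_lit 76) (nat_lit 2685703636317) (nat_lit 76) (nat_lit 2495601780650) (nat_lit 1) (nat_lit 4) (nat_lit 2) (nat_lit 5) (nat_lit 2) (nat_lit 4) (nat_lit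 324) (nat_lit 283) (nat_lit 173)) (XT.lf (nat_lit 0) (nat_lit 4032989569541) (nat_lit 76) (nat_lit 2822187867827) (nat_lit 76) (nat_lit 2632086006941) (nat_lit 1) (nat_lit 4) (nat_lit 2) (nat_lit 5) (nat_lit 2) (nat_lit 4) (nat_lit 325) (nat_lit 283) (nat_lit 172)))))) (XT.nd (nat_lit 312) (nat_lit 0) (nat_lit 0) (XT.nd (nat_lit 156) (nat_lit 0) (nat_lit 0) (XT.nd (nat_lit 78) (nat_lit 0) (nat_lit 0) (XT.lf (nat_lit 0) (nat_lit 5107279708603) (nat_lit 76) (nat_lit 2979144746274) (nat_lit 76) (nat_lit 2789042880849) (nat_lit 1) (nat_lit 4) (nat_lit 2) (nat_lit 5) (nat_lit 2) (nat_lit 4) (nat_lit 326) (nat_lit 283) (nat_lit 171)) (XT.lf (nat_lit 0) (nat_lit 6342713347575) (nat_lit 76) (nat_lit 3159645167104) (nat_lit 76) (nat_lit 2969543297733) (nat_lit 1) (nat_lit 4) (nat_lit 2) (nat_lit 5) (nat_lit 2) (nat_lit 4) (nat_lit 327) (nat_lit 283) (nat_lit 170))) (XT.nd (nat_lit 78) (nat_lit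 0) (nat_lit 0) (XT.lf (nat_lit 0) (nat_lit 7763462014177) (nat_lit 76) (nat_lit 3367220660291) (nat_lit 76) (nat_lit 3177118787488) (nat_lit 1) (nat_lit 4) (nat_lit 2) (nat_lit 5) (nat_lit 2) (nat_lit 4) (nat_lit 328) (nat_lit 283) (nat_lit 169)) (XT.lf (nat_lit 0) (nat_lit 9397322964928) (nat_lit 76) (nat_lit 3605932485483) (nat_lit 76) (nat_lit 3415830609696) (nat_lit 1) (nat_lit 4) (nat_lit 2) (nat_lit 5) (nat_lit 2) (nat_lit 4) (nat_lit 329) (nat_lit 283) (nat_lit 168)))) (XT.nd (nat_lit 156) (nat_lit 0) (nat_lit 0) (XT.nd (nat_lit 78) (nat_lit 0) (nat_lit 0) (XT.lf (nat_lit 0) (nat_lit 11276263044518) (nat_lit 76) (nat_lit 3880451091435) (nat_lit 76) (nat_lit 3690349213053) (nat_lit 1) (nat_lit 4) (nat_lit 2) (nat_lit 5) (nat_lit 2) (nat_lit 4) (nat_lit 330) (nat_lit 283) (nat_lit 167)) (XT.lf (nat_lit 0) (nat_lit 13437044124068) (nat_lit 76) (nat_lit 4196147494350) (nat_lit 76)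 (nat_lit 4006045613711) (nat_lit 1) (nat_lit 4) (nat_lit 2) (nat_lit 5) (nat_lit 2) (nat_lit 4) (nat_lit 331) (nat_lit 283) (nat_lit 166))) (XT.nd (nat_lit 78) (nat_lit 0) (nat_lit 0) (XT.lf (nat_lit 0) (nat_lit 15921942355136) (nat_lit 76) (nat_lit 4559198362980) (nat_lit 76) (nat_lit 4369096480379) (nat_lit 1) (nat_lit 4) (nat_lit 2) (nat_lit 5) (nat_lit 2) (nat_lit 4) (nat_lit 332) (nat_lit 283) (nat_lit 165)) (XT.nd (nat_lit 78) (nat_lit 0) (nat_lit 0) (XT.lf (nat_lit 0) (nat_lit 18779575311807) (nat_lit 76) (nat_lit 4976706866495) (nat_lit 76) (nat_lit 4786604982188) (nat_lit 1) (nat_lit 4) (nat_lit 2) (nat_lit 5) (nat_lit 2) (nat_lit 4) (nat_lit 333) (nat_lit 283) (nat_lit 164)) (XT.lf (nat_lit 0) (nat_lit 22065853204103) (nat_lit 76) (nat_lit 5456841649528) (nat_lit 76) (nat_lit 5266739763737) (nat_lit 1) (nat_lit 4) (nat_lit 2) (nat_lit 5) (nat_lit 2) (nat_lit 4) (nat_lit 334)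 (nat_lit 283) (nat_lit 163))))))))
noncomputable def xc93 : XT := (XT.nd (nat_lit 37674) (nat_lit 0) (nat_lit 76) (XT.nd (nat_lit 36972) (nat_lit 0) (nat_lit 836) (XT.nd (nat_lit 1638) (nat_lit 0) (nat_lit 0) (XT.nd (nat_lit 1482) (nat_lit 0) (nat_lit 0) (XT.nd (nat_lit 78) (nat_lit 0) (nat_lit 0) (XT.lf (nat_lit 0) (nat_lit 25845072773395) (nat_lit 76) (nat_lit 6008996653487) (nat_lit 76) (nat_lit 5818894766406) (nat_lit 1) (nat_lit 4) (nat_lit 2) (nat_lit 5) (nat_lit 2) (nat_lit 4) (nat_lit 335) (nat_lit 283) (nat_lit 162)) (XT.lf (nat_lit 0) (nat_lit 30191175272127) (nat_lit 76) (nat_lit 6643974911057) (nat_lit 76) (nat_lit 6453873022854) (nat_lit 1) (nat_lit 4) (nat_lit 2) (nat_lit 5) (nat_lit 2) (nat_lit 4) (nat_lit 336) (nat_lit 283) (nat_lit 161))) (XT.nd (nat_lit 78) (nat_lit 0) (nat_lit 0) (XT.lf (nat_lit 0) (nat_lit 409222643366143) (nat_lit 76) (nat_lit 62021579441407) (nat_lit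 76) (nat_lit 61831477546329) (nat_lit 1) (nat_lit 4) (nat_lit 2) (nat_lit 5) (nat_lit 2) (nat_lit 4) (nat_lit 354) (nat_lit 283) (nat_lit 143)) (XT.lf (nat_lit 0) (nat_lit 471075381416876) (nat_lit 76) (nat_lit 71058445135870) (nat_lit 76) (nat_lit 70868343240715) (nat_lit 1) (nat_lit 4) (nat_lit 2) (nat_lit 5) (nat_lit 2) (nat_lit 4) (nat_lit 355) (nat_lit 283) (nat_lit 142)))) (XT.nd (nat_lit 35100) (nat_lit 0) (nat_lit 1444) (XT.nd (nat_lit 35022) (nat_lit 0) (nat_lit 1444) (XT.lf (nat_lit 0) (nat_lit 542206030174856) (nat_lit 76) (nat_lit 81450840684689) (nat_lit 76) (nat_lit 81260738789464) (nat_lit 1) (nat_lit 4) (nat_lit 2) (nat_lit 5) (nat_lit 2) (nat_lit 4) (nat_lit 356) (nat_lit 283) (nat_lit 141)) (XT.lf (nat_lit 0) (nat_lit 8167931877) (nat_lit 380) (nat_lit 25071983859) (nat_lit 380) (nat_lit 25071983859) (nat_lit 20) (nat_lit 3) (nat_lit 25) (nat_lit 3) (nat_lit 25) (nat_lit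 5) (nat_lit 284) (nat_lit 284) (nat_lit 212))) (XT.nd (nat_lit 78) (nat_lit 0) (nat_lit 76) (XT.lf (nat_lit 76) (nat_lit 4147061662) (nat_lit 0) (nat_lit 13590065369) (nat_lit 380) (nat_lit 107607026958) (nat_lit 21) (nat_lit 5) (nat_lit 20) (nat_lit 3) (nat_lit 25) (nat_lit 5) (nat_lit 285) (nat_lit 284) (nat_lit 211)) (XT.nd (nat_lit 78) (nat_lit 0) (nat_lit 0) (XT.lf (nat_lit 0) (nat_lit 24049600934) (nat_lit 304) (nat_lit 64843412309) (nat_lit 380) (nat_lit 45774398999) (nat_lit 21) (nat_lit 5) (nat_lit 25) (nat_lit 5) (nat_lit 26) (nat_lit 5) (nat_lit 286) (nat_lit 284) (nat_lit 210)) (XT.lf (nat_lit 0) (nat_lit 31955411271) (nat_lit 304) (nat_lit 684370893) (nat_lit 380) (nat_lit 112652410225) (nat_lit 21) (nat_lit 5) (nat_lit 25) (nat_lit 5) (nat_lit 26) (nat_lit 5) (nat_lit 287) (nat_lit 284) (nat_lit 209)))))) (XT.nd (nat_lit 312) (nat_lit 304) (nat_lit 0) (XT.nd (nat_lit 156)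 (nat_lit 456) (nat_lit 0) (XT.nd (nat_lit 78) (nat_lit 0) (nat_lit 0) (XT.lf (nat_lit 0) (nat_lit 45854547397) (nat_lit 304) (nat_lit 78256065886) (nat_lit 76) (nat_lit 32678960713) (nat_lit 22) (nat_lit 5) (nat_lit 26) (nat_lit 5) (nat_lit 23) (nat_lit 5) (nat_lit 288) (nat_lit 284) (nat_lit 208)) (XT.lf (nat_lit 0) (nat_lit 63429776737) (nat_lit 304) (nat_lit 1851730374) (nat_lit 76) (nat_lit 104491374553) (nat_lit 22) (nat_lit 5) (nat_lit 26) (nat_lit 5) (nat_lit 23) (nat_lit 5) (nat_lit 289) (nat_lit 284) (nat_lit 207))) (XT.nd (nat_lit 78) (nat_lit 152) (nat_lit 0) (XT.lf (nat_lit 0) (nat_lit 87834894386) (nat_lit 380) (nat_lit 89983115234) (nat_lit 76) (nat_lit 6256637222) (nat_lit 18) (nat_lit 5) (nat_lit 23) (nat_lit 5) (nat_lit 19) (nat_lit 5) (nat_lit 290) (nat_lit 284) (nat_lit 206)) (XT.lf (nat_lit 0) (nat_lit 1112516239) (nat_lit 152) (nat_lit 118043957488) (nat_lit 228)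 (nat_lit 80876850653) (nat_lit 16) (nat_lit 5) (nat_lit 18) (nat_lit 5) (nat_lit 19) (nat_lit 5) (nat_lit 291) (nat_lit 284) (nat_lit 205)))) (XT.nd (nat_lit 156) (nat_lit 228) (nat_lit 0) (XT.nd (nat_lit 78) (nat_lit 76) (nat_lit 0) (XT.lf (nat_lit 0) (nat_lit 115984880963) (nat_lit 152) (nat_lit 43894686175) (nat_lit 228) (nat_lit 57800746310) (nat_lit 16) (nat_lit 5) (nat_lit 18) (nat_lit 5) (nat_lit 19) (nat_lit 5) (nat_lit 292) (nat_lit 284) (nat_lit 204)) (XT.lf (nat_lit 0) (nat_lit 9220849944) (nat_lit 76) (nat_lit 199585083675) (nat_lit 152) (nat_lit 28854197175) (nat_lit 15) (nat_lit 5) (nat_lit 16) (nat_lit 5) (nat_lit 17) (nat_lit 4) (nat_lit 293) (nat_lit 284) (nat_lit 203))) (XT.nd (nat_lit 78) (nat_lit 152) (nat_lit 0) (XT.lf (nat_lit 0) (nat_lit 11698488620) (nat_lit 152) (nat_lit 114163241777) (nat_lit 76) (nat_lit 133598809456) (nat_lit 14) (nat_lit 5) (nat_lit 16) (nat_lit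 5) (nat_lit 15) (nat_lit 5) (nat_lit 294) (nat_lit 284) (nat_lit 202)) (XT.nd (nat_lit 78) (nat_lit 0) (nat_lit 0) (XT.lf (nat_lit 0) (nat_lit 17431660933) (nat_lit 152) (nat_lit 38669817685) (nat_lit 228) (nat_lit 228115202857) (nat_lit 12) (nat_lit 5) (nat_lit 14) (nat_lit 5) (nat_lit 15) (nat_lit 5) (nat_lit 295) (nat_lit 284) (nat_lit 201)) (XT.lf (nat_lit 0) (nat_lit 115967203628) (nat_lit 228) (nat_lit 133030279544) (nat_lit 76) (nat_lit 62368418924) (nat_lit 12) (nat_lit 5) (nat_lit 15) (nat_lit 5) (nat_lit 13) (nat_lit 4) (nat_lit 296) (nat_lit 284) (nat_lit 200))))))) (XT.nd (nat_lit 702) (nat_lit 304) (nat_lit 0) (XT.nd (nat_lit 312) (nat_lit 228) (nat_lit 0) (XT.nd (nat_lit 156) (nat_lit 152) (nat_lit 0) (XT.nd (nat_lit 78) (nat_lit 0) (nat_lit 0) (XT.lf (nat_lit 0) (nat_lit 20797402397) (nat_lit 76) (nat_lit 166717745120) (nat_lit 152) (nat_lit 154667004908) (nat_lit 11)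 (nat_lit 5) (nat_lit 12) (nat_lit 5) (nat_lit 13) (nat_lit 4) (nat_lit 297) (nat_lit 284) (nat_lit 199)) (XT.lf (nat_lit 0) (nat_lit 212649664328) (nat_lit 76) (nat_lit 64099254125) (nat_lit 152) (nat_lit 99828877084) (nat_lit 11) (nat_lit 5) (nat_lit 12) (nat_lit 5) (nat_lit 13) (nat_lit 4) (nat_lit 298) (nat_lit 284) (nat_lit 198))) (XT.nd (nat_lit 78) (nat_lit 76) (nat_lit 0) (XT.lf (nat_lit 0) (nat_lit 16371790458) (nat_lit 76) (nat_lit 365906070438) (nat_lit 76) (nat_lit 33418408824) (nat_lit 10) (nat_lit 4) (nat_lit 11) (nat_lit 5) (nat_lit 11) (nat_lit 4) (nat_lit 299) (nat_lit 284) (nat_lit 197)) (XT.lf (nat_lit 0) (nat_lit 51158769310) (nat_lit 152) (nat_lit 222496534821) (nat_lit 76) (nat_lit 184956043212) (nat_lit 9) (nat_lit 5) (nat_lit 11) (nat_lit 5) (nat_lit 10) (nat_lit 4) (nat_lit 300) (nat_lit 284) (nat_lit 196)))) (XT.nd (nat_lit 156) (nat_lit 152) (nat_lit 0) (XT.nd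 (nat_lit 78) (nat_lit 76) (nat_lit 0) (XT.lf (nat_lit 0) (nat_lit 145000947500) (nat_lit 152) (nat_lit 20736049301) (nat_lit 76) (nat_lit 341988012428) (nat_lit 9) (nat_lit 5) (nat_lit 11) (nat_lit 5) (nat_lit 10) (nat_lit 4) (nat_lit 301) (nat_lit 284) (nat_lit 195)) (XT.lf (nat_lit 0) (nat_lit 231936874543) (nat_lit 76) (nat_lit 30586443032) (nat_lit 152) (nat_lit 300241823325) (nat_lit 8) (nat_lit 5) (nat_lit 9) (nat_lit 5) (nat_lit 10) (nat_lit 4) (nat_lit 302) (nat_lit 284) (nat_lit 194))) (XT.nd (nat_lit 78) (nat_lit 152) (nat_lit 0) (XT.lf (nat_lit 0) (nat_lit 403978668072) (nat_lit 152) (nat_lit 106278617157) (nat_lit 0) (nat_lit 114858313594) (nat_lit 8) (nat_lit 5) (nat_lit 10) (nat_lit 4) (nat_lit 8) (nat_lit 4) (nat_lit 303) (nat_lit 284) (nat_lit 193)) (XT.nd (nat_lit 78) (nat_lit 76) (nat_lit 0) (XT.lf (nat_lit 0) (nat_lit 165204390255) (nat_lit 76) (nat_lit 409745066266)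 (nat_lit 76) (nat_lit 120624598816) (nat_lit 7) (nat_lit 4) (nat_lit 8) (nat_lit 5) (nat_lit 8) (nat_lit 4) (nat_lit 304) (nat_lit 284) (nat_lit 192)) (XT.lf (nat_lit 0) (nat_lit 1232767995) (nat_lit 152) (nat_lit 286470114495) (nat_lit 76) (nat_lit 488056689262) (nat_lit 6) (nat_lit 5) (nat_lit 8) (nat_lit 5) (nat_lit 7) (nat_lit 4) (nat_lit 305) (nat_lit 284) (nat_lit 191)))))) (XT.nd (nat_lit 390) (nat_lit 152) (nat_lit 0) (XT.nd (nat_lit 156) (nat_lit 76) (nat_lit 0) (XT.nd (nat_lit 78) (nat_lit 76) (nat_lit 0) (XT.lf (nat_lit 0) (nat_lit 129018972369) (nat_lit 152) (nat_lit 11729860514) (nat_lit 76) (nat_lit 726362494529) (nat_lit 6) (nat_lit 5) (nat_lit 8) (nat_lit 5) (nat_lit 7) (nat_lit 4) (nat_lit 306) (nat_lit 284) (nat_lit 190)) (XT.lf (nat_lit 0) (nat_lit 291629441080) (nat_lit 152) (nat_lit 637967840752) (nat_lit 0) (nat_lit 40220114654) (nat_lit 5) (nat_lit 5) (nat_lit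 7) (nat_lit 4) (nat_lit 5) (nat_lit 4) (nat_lit 307) (nat_lit 284) (nat_lit 189))) (XT.nd (nat_lit 78) (nat_lit 76) (nat_lit 0) (XT.lf (nat_lit 0) (nat_lit 485976064526) (nat_lit 152) (nat_lit 366284941903) (nat_lit 0) (nat_lit 234566681933) (nat_lit 5) (nat_lit 5) (nat_lit 7) (nat_lit 4) (nat_lit 5) (nat_lit 4) (nat_lit 308) (nat_lit 284) (nat_lit 188)) (XT.nd (nat_lit 78) (nat_lit 76) (nat_lit 0) (XT.lf (nat_lit 0) (nat_lit 709474602835) (nat_lit 152) (nat_lit 53849761671) (nat_lit 0) (nat_lit 458065171401) (nat_lit 5) (nat_lit 5) (nat_lit 7) (nat_lit 4) (nat_lit 5) (nat_lit 4) (nat_lit 309) (nat_lit 284) (nat_lit 187)) (XT.lf (nat_lit 0) (nat_lit 335301412558) (nat_lit 76) (nat_lit 645080557399) (nat_lit 76) (nat_lit 393671083495) (nat_lit 4) (nat_lit 4) (nat_lit 5) (nat_lit 5) (nat_lit 5) (nat_lit 4) (nat_lit 310) (nat_lit 284) (nat_lit 186))))) (XT.nd (nat_lit 156) (nat_lit 152)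 (nat_lit 0) (XT.nd (nat_lit 78) (nat_lit 0) (nat_lit 0) (XT.lf (nat_lit 0) (nat_lit 788877114454) (nat_lit 76) (nat_lit 505863136851) (nat_lit 76) (nat_lit 254453626017) (nat_lit 4) (nat_lit 4) (nat_lit 5) (nat_lit 5) (nat_lit 5) (nat_lit 4) (nat_lit 311) (nat_lit 284) (nat_lit 185)) (XT.lf (nat_lit 0) (nat_lit 1310489060883) (nat_lit 76) (nat_lit 345763157671) (nat_lit 76) (nat_lit 94353614723) (nat_lit 4) (nat_lit 4) (nat_lit 5) (nat_lit 5) (nat_lit 5) (nat_lit 4) (nat_lit 312) (nat_lit 284) (nat_lit 184))) (XT.nd (nat_lit 78) (nat_lit 76) (nat_lit 0) (XT.lf (nat_lit 0) (nat_lit 81770166543) (nat_lit 152) (nat_lit 75603712804) (nat_lit 76) (nat_lit 1824298186812) (nat_lit 3) (nat_lit 5) (nat_lit 5) (nat_lit 5) (nat_lit 4) (nat_lit 4) (nat_lit 313) (nat_lit 284) (nat_lit 183)) (XT.nd (nat_lit 78) (nat_lit 0) (nat_lit 0) (XT.lf (nat_lit 0) (nat_lit 293468105351) (nat_lit 152) (nat_lit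 1875582767692) (nat_lit 0) (nat_lit 74851066085) (nat_lit 2) (nat_lit 5) (nat_lit 4) (nat_lit 4) (nat_lit 2) (nat_lit 4) (nat_lit 314) (nat_lit 284) (nat_lit 182)) (XT.lf (nat_lit 0) (nat_lit 548554888520) (nat_lit 152) (nat_lit 1665228450631) (nat_lit 0) (nat_lit 329937830893) (nat_lit 2) (nat_lit 5) (nat_lit 4) (nat_lit 4) (nat_lit 2) (nat_lit 4) (nat_lit 315) (nat_lit 284) (nat_lit 181))))))))
noncomputable def xc94 : XT := (XT.nd (nat_lit 1404) (nat_lit 0) (nat_lit 0) (XT.nd (nat_lit 702) (nat_lit 0) (nat_lit 0) (XT.nd (nat_lit 312) (nat_lit 76) (nat_lit 0) (XT.nd (nat_lit 156) (nat_lit 0) (nat_lit 0) (XT.nd (nat_lit 78) (nat_lit 0) (nat_lit 0) (XT.lf (nat_lit 0) (nat_lit 841904650875) (nat_lit 152) (nat_lit 1423321063215) (nat_lit 0) (nat_lit 623287577282) (nat_lit 2) (nat_lit 5) (nat_lit 4) (nat_lit 4) (nat_lit 2) (nat_lit 4) (nat_lit 316) (nat_lit 284) (nat_lit 180)) (XT.lf (nat_lit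 0) (nat_lit 1179256844286) (nat_lit 152) (nat_lit 1145127634823) (nat_lit 0) (nat_lit 960639756809) (nat_lit 2) (nat_lit 5) (nat_lit 4) (nat_lit 4) (nat_lit 2) (nat_lit 4) (nat_lit 317) (nat_lit 284) (nat_lit 179))) (XT.nd (nat_lit 78) (nat_lit 0) (nat_lit 0) (XT.lf (nat_lit 0) (nat_lit 1567211837755) (nat_lit 152) (nat_lit 825205250549) (nat_lit 0) (nat_lit 1348594738206) (nat_lit 2) (nat_lit 5) (nat_lit 4) (nat_lit 4) (nat_lit 2) (nat_lit 4) (nat_lit 318) (nat_lit 284) (nat_lit 178)) (XT.lf (nat_lit 0) (nat_lit 2013360055069) (nat_lit 152) (nat_lit 457294559399) (nat_lit 0) (nat_lit 1794742945022) (nat_lit 2) (nat_lit 5) (nat_lit 4) (nat_lit 4) (nat_lit 2) (nat_lit 4) (nat_lit 319) (nat_lit 284) (nat_lit 177)))) (XT.nd (nat_lit 156) (nat_lit 0) (nat_lit 0) (XT.nd (nat_lit 78) (nat_lit 76) (nat_lit 0) (XT.lf (nat_lit 0) (nat_lit 2526430483086) (nat_lit 152) (nat_lit 34197308718) (nat_lit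 0) (nat_lit 2307813363910) (nat_lit 2) (nat_lit 5) (nat_lit 4) (nat_lit 4) (nat_lit 2) (nat_lit 4) (nat_lit 320) (nat_lit 284) (nat_lit 176)) (XT.lf (nat_lit 0) (nat_lit 496572839181) (nat_lit 76) (nat_lit 2640450639414) (nat_lit 76) (nat_lit 2421833512300) (nat_lit 1) (nat_lit 4) (nat_lit 2) (nat_lit 5) (nat_lit 2) (nat_lit 4) (nat_lit 321) (nat_lit 284) (nat_lit 175))) (XT.nd (nat_lit 78) (nat_lit 0) (nat_lit 0) (XT.lf (nat_lit 0) (nat_lit 1110801783800) (nat_lit 76) (nat_lit 2730191208152) (nat_lit 76) (nat_lit 2511574074136) (nat_lit 1) (nat_lit 4) (nat_lit 2) (nat_lit 5) (nat_lit 2) (nat_lit 4) (nat_lit 322) (nat_lit 284) (nat_lit 174)) (XT.nd (nat_lit 78) (nat_lit 0) (nat_lit 0) (XT.lf (nat_lit 0) (nat_lit 1817165038250) (nat_lit 76) (nat_lit 2833392878348) (nat_lit 76) (nat_lit 2614775738329) (nat_lit 1) (nat_lit 4) (nat_lit 2) (nat_lit 5) (nat_lit 2) (nat_lit 4) (nat_lit 323)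 (nat_lit 284) (nat_lit 173)) (XT.lf (nat_lit 0) (nat_lit 2629482753163) (nat_lit 76) (nat_lit 2952074813113) (nat_lit 76) (nat_lit 2733457667875) (nat_lit 1) (nat_lit 4) (nat_lit 2) (nat_lit 5) (nat_lit 2) (nat_lit 4) (nat_lit 324) (nat_lit 284) (nat_lit 172)))))) (XT.nd (nat_lit 312) (nat_lit 0) (nat_lit 0) (XT.nd (nat_lit 156) (nat_lit 0) (nat_lit 0) (XT.nd (nat_lit 78) (nat_lit 0) (nat_lit 0) (XT.lf (nat_lit 0) (nat_lit 3563648101221) (nat_lit 76) (nat_lit 3088559050303) (nat_lit 76) (nat_lit 2869941900526) (nat_lit 1) (nat_lit 4) (nat_lit 2) (nat_lit 5) (nat_lit 2) (nat_lit 4) (nat_lit 325) (nat_lit 284) (nat_lit 171)) (XT.lf (nat_lit 0) (nat_lit 4637938230539) (nat_lit 76) (nat_lit 3245515933687) (nat_lit 76) (nat_lit 3026898779964) (nat_lit 1) (nat_lit 4) (nat_lit 2) (nat_lit 5) (nat_lit 2) (nat_lit 4) (nat_lit 326) (nat_lit 284) (nat_lit 170))) (XT.nd (nat_lit 78) (nat_lit 0)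 (nat_lit 0) (XT.lf (nat_lit 0) (nat_lit 5873371861039) (nat_lit 76) (nat_lit 3426016358811) (nat_lit 76) (nat_lit 3207399201656) (nat_lit 1) (nat_lit 4) (nat_lit 2) (nat_lit 5) (nat_lit 2) (nat_lit 4) (nat_lit 327) (nat_lit 284) (nat_lit 169)) (XT.lf (nat_lit 0) (nat_lit 7294120520272) (nat_lit 76) (nat_lit 3633591855732) (nat_lit 76) (nat_lit 3414974695593) (nat_lit 1) (nat_lit 4) (nat_lit 2) (nat_lit 5) (nat_lit 2) (nat_lit 4) (nat_lit 328) (nat_lit 284) (nat_lit 168)))) (XT.nd (nat_lit 156) (nat_lit 0) (nat_lit 0) (XT.nd (nat_lit 78) (nat_lit 0) (nat_lit 0) (XT.lf (nat_lit 0) (nat_lit 8927981464617) (nat_lit 76) (nat_lit 3872303684171) (nat_lit 76) (nat_lit 3653686521437) (nat_lit 1) (nat_lit 4) (nat_lit 2) (nat_lit 5) (nat_lit 2) (nat_lit 4) (nat_lit 329) (nat_lit 284) (nat_lit 167)) (XT.lf (nat_lit 0) (nat_lit 10806921538636) (nat_lit 76) (nat_lit 4146822292946) (nat_lit 76) (nat_lit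 3928205127955) (nat_lit 1) (nat_lit 4) (nat_lit 2) (nat_lit 5) (nat_lit 2) (nat_lit 4) (nat_lit 330) (nat_lit 284) (nat_lit 166))) (XT.nd (nat_lit 78) (nat_lit 0) (nat_lit 0) (XT.lf (nat_lit 0) (nat_lit 12967702613342) (nat_lit 76) (nat_lit 4462518698316) (nat_lit 76) (nat_lit 4243901531363) (nat_lit 1) (nat_lit 4) (nat_lit 2) (nat_lit 5) (nat_lit 2) (nat_lit 4) (nat_lit 331) (nat_lit 284) (nat_lit 165)) (XT.nd (nat_lit 78) (nat_lit 0) (nat_lit 0) (XT.lf (nat_lit 0) (nat_lit 15452600840197) (nat_lit 76) (nat_lit 4825569569081) (nat_lit 76) (nat_lit 4606952400422) (nat_lit 1) (nat_lit 4) (nat_lit 2) (nat_lit 5) (nat_lit 2) (nat_lit 4) (nat_lit 332) (nat_lit 284) (nat_lit 164)) (XT.lf (nat_lit 0) (nat_lit 18310233793205) (nat_lit 76) (nat_lit 5243078074452) (nat_lit 76) (nat_lit 5024460904309) (nat_lit 1) (nat_lit 4) (nat_lit 2) (nat_lit 5) (nat_lit 2) (nat_lit 4) (nat_lit 333) (nat_lit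 284) (nat_lit 163))))))) (XT.nd (nat_lit 37050) (nat_lit 0) (nat_lit 836) (XT.nd (nat_lit 1638) (nat_lit 0) (nat_lit 0) (XT.nd (nat_lit 156) (nat_lit 0) (nat_lit 0) (XT.nd (nat_lit 78) (nat_lit 0) (nat_lit 0) (XT.lf (nat_lit 0) (nat_lit 21596511682316) (nat_lit 76) (nat_lit 5723212859100) (nat_lit 76) (nat_lit 5504595687667) (nat_lit 1) (nat_lit 4) (nat_lit 2) (nat_lit 5) (nat_lit 2) (nat_lit 4) (nat_lit 334) (nat_lit 284) (nat_lit 162)) (XT.lf (nat_lit 0) (nat_lit 25375731248839) (nat_lit 76) (nat_lit 6275367864462) (nat_lit 76) (nat_lit 6056750691907) (nat_lit 1) (nat_lit 4) (nat_lit 2) (nat_lit 5) (nat_lit 2) (nat_lit 4) (nat_lit 335) (nat_lit 284) (nat_lit 161))) (XT.nd (nat_lit 1404) (nat_lit 0) (nat_lit 0) (XT.lf (nat_lit 0) (nat_lit 29721833745161) (nat_lit 76) (nat_lit 6910346123253) (nat_lit 76) (nat_lit 6691728949723) (nat_lit 1) (nat_lit 4) (nat_lit 2) (nat_lit 5) (nat_lit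 2) (nat_lit 4) (nat_lit 336) (nat_lit 284) (nat_lit 160)) (XT.lf (nat_lit 0) (nat_lit 408753301824419) (nat_lit 76) (nat_lit 62287950661082) (nat_lit 76) (nat_lit 62069333481574) (nat_lit 1) (nat_lit 4) (nat_lit 2) (nat_lit 5) (nat_lit 2) (nat_lit 4) (nat_lit 354) (nat_lit 284) (nat_lit 142)))) (XT.nd (nat_lit 35178) (nat_lit 0) (nat_lit 1444) (XT.nd (nat_lit 78) (nat_lit 0) (nat_lit 0) (XT.lf (nat_lit 0) (nat_lit 470606039874983) (nat_lit 76) (nat_lit 71324816355632) (nat_lit 76) (nat_lit 71106199176055) (nat_lit 1) (nat_lit 4) (nat_lit 2) (nat_lit 5) (nat_lit 2) (nat_lit 4) (nat_lit 355) (nat_lit 284) (nat_lit 141)) (XT.lf (nat_lit 0) (nat_lit 541736688632815) (nat_lit 76) (nat_lit 81717211904524) (nat_lit 76) (nat_lit 81498594724889) (nat_lit 1) (nat_lit 4) (nat_lit 2) (nat_lit 5) (nat_lit 2) (nat_lit 4) (nat_lit 356) (nat_lit 284) (nat_lit 140))) (XT.nd (nat_lit 78) (nat_lit 0) (nat_lit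 0) (XT.lf (nat_lit 0) (nat_lit 9397293946) (nat_lit 380) (nat_lit 28830373210) (nat_lit 380) (nat_lit 28830373210) (nat_lit 20) (nat_lit 3) (nat_lit 25) (nat_lit 3) (nat_lit 25) (nat_lit 5) (nat_lit 285) (nat_lit 285) (nat_lit 210)) (XT.nd (nat_lit 78) (nat_lit 0) (nat_lit 76) (XT.lf (nat_lit 76) (nat_lit 4773718437) (nat_lit 0) (nat_lit 15631424175) (nat_lit 380) (nat_lit 123739485629) (nat_lit 21) (nat_lit 5) (nat_lit 20) (nat_lit 3) (nat_lit 25) (nat_lit 5) (nat_lit 286) (nat_lit 285) (nat_lit 209)) (XT.lf (nat_lit 0) (nat_lit 27663413731) (nat_lit 304) (nat_lit 74564824725) (nat_lit 380) (nat_lit 52638302012) (nat_lit 21) (nat_lit 5) (nat_lit 25) (nat_lit 5) (nat_lit 26) (nat_lit 5) (nat_lit 287) (nat_lit 285) (nat_lit 208)))))) (XT.nd (nat_lit 390) (nat_lit 304) (nat_lit 0) (XT.nd (nat_lit 156) (nat_lit 380) (nat_lit 0) (XT.nd (nat_lit 78) (nat_lit 0) (nat_lit 76) (XT.lf (nat_lit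 0) (nat_lit 36754264402) (nat_lit 304) (nat_lit 782592240) (nat_lit 380) (nat_lit 129548309292) (nat_lit 21) (nat_lit 5) (nat_lit 25) (nat_lit 5) (nat_lit 26) (nat_lit 5) (nat_lit 288) (nat_lit 285) (nat_lit 207)) (XT.lf (nat_lit 0) (nat_lit 52737691900) (nat_lit 304) (nat_lit 89989441480) (nat_lit 76) (nat_lit 37580111403) (nat_lit 22) (nat_lit 5) (nat_lit 26) (nat_lit 5) (nat_lit 23) (nat_lit 5) (nat_lit 289) (nat_lit 285) (nat_lit 206))) (XT.nd (nat_lit 78) (nat_lit 456) (nat_lit 0) (XT.lf (nat_lit 0) (nat_lit 72948558371) (nat_lit 304) (nat_lit 2125112288) (nat_lit 76) (nat_lit 120164477765) (nat_lit 22) (nat_lit 5) (nat_lit 26) (nat_lit 5) (nat_lit 23) (nat_lit 5) (nat_lit 290) (nat_lit 285) (nat_lit 205)) (XT.nd (nat_lit 78) (nat_lit 152) (nat_lit 0) (XT.lf (nat_lit 0) (nat_lit 101014064346) (nat_lit 380) (nat_lit 103475809709) (nat_lit 76) (nat_lit 7195363598) (nat_lit 18) (nat_lit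 5) (nat_lit 23) (nat_lit 5) (nat_lit 19) (nat_lit 5) (nat_lit 291) (nat_lit 285) (nat_lit 204)) (XT.lf (nat_lit 0) (nat_lit 1283949539) (nat_lit 152) (nat_lit 135749606333) (nat_lit 228) (nat_lit 93004211725) (nat_lit 16) (nat_lit 5) (nat_lit 18) (nat_lit 5) (nat_lit 19) (nat_lit 5) (nat_lit 292) (nat_lit 285) (nat_lit 203))))) (XT.nd (nat_lit 156) (nat_lit 228) (nat_lit 0) (XT.nd (nat_lit 78) (nat_lit 76) (nat_lit 0) (XT.lf (nat_lit 0) (nat_lit 133386574728) (nat_lit 152) (nat_lit 50478067554) (nat_lit 228) (nat_lit 66467235191) (nat_lit 16) (nat_lit 5) (nat_lit 18) (nat_lit 5) (nat_lit 19) (nat_lit 5) (nat_lit 293) (nat_lit 285) (nat_lit 202)) (XT.lf (nat_lit 0) (nat_lit 10608187549) (nat_lit 76) (nat_lit 229521570526) (nat_lit 152) (nat_lit 33178941760) (nat_lit 15) (nat_lit 5) (nat_lit 16) (nat_lit 5) (nat_lit 17) (nat_lit 4) (nat_lit 294) (nat_lit 285) (nat_lit 201))) (XT.nd (nat_lit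 78) (nat_lit 152) (nat_lit 0) (XT.lf (nat_lit 0) (nat_lit 13455943336) (nat_lit 152) (nat_lit 131283797150) (nat_lit 76) (nat_lit 153639470254) (nat_lit 14) (nat_lit 5) (nat_lit 16) (nat_lit 5) (nat_lit 15) (nat_lit 5) (nat_lit 295) (nat_lit 285) (nat_lit 200)) (XT.nd (nat_lit 78) (nat_lit 0) (nat_lit 0) (XT.lf (nat_lit 0) (nat_lit 20050162289) (nat_lit 152) (nat_lit 44469025166) (nat_lit 228) (nat_lit 262329616335) (nat_lit 12) (nat_lit 5) (nat_lit 14) (nat_lit 5) (nat_lit 15) (nat_lit 5) (nat_lit 296) (nat_lit 285) (nat_lit 199)) (XT.lf (nat_lit 0) (nat_lit 133364492373) (nat_lit 228) (nat_lit 152981273880) (nat_lit 76) (nat_lit 71724683969) (nat_lit 12) (nat_lit 5) (nat_lit 15) (nat_lit 5) (nat_lit 13) (nat_lit 4) (nat_lit 297) (nat_lit 285) (nat_lit 198))))))))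
noncomputable def xc95 : XT := (XT.nd (nat_lit 1404) (nat_lit 76) (nat_lit 0) (XT.nd (nat_lit 702) (nat_lit 304) (nat_lit 0) (XT.nd (nat_lit 312) (nat_lit 228) (nat_lit 0) (XT.nd (nat_lit 156) (nat_lit 152) (nat_lit 0) (XT.nd (nat_lit 78) (nat_lit 0) (nat_lit 0) (XT.lf (nat_lit 0) (nat_lit 23920399098) (nat_lit 76) (nat_lit 191724080943) (nat_lit 152) (nat_lit 177864681009) (nat_lit 11) (nat_lit 5) (nat_lit 12) (nat_lit 5) (nat_lit 13) (nat_lit 4) (nat_lit 298) (nat_lit 285) (nat_lit 197)) (XT.lf (nat_lit 0) (nat_lit 244550058622) (nat_lit 76) (nat_lit 73712989249) (nat_lit 152) (nat_lit 114801143747) (nat_lit 11) (nat_lit 5) (nat_lit 12) (nat_lit 5) (nat_lit 13) (nat_lit 4) (nat_lit 299) (nat_lit 285) (nat_lit 196))) (XT.nd (nat_lit 78) (nat_lit 76) (nat_lit 0) (XT.lf (nat_lit 0) (nat_lit 18830585081) (nat_lit 76) (nat_lit 420790679722) (nat_lit 76) (nat_lit 38429182741) (nat_lit 10)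 (nat_lit 4) (nat_lit 11) (nat_lit 5) (nat_lit 11) (nat_lit 4) (nat_lit 300) (nat_lit 285) (nat_lit 195)) (XT.lf (nat_lit 0) (nat_lit 58834159032) (nat_lit 152) (nat_lit 255868226876) (nat_lit 76) (nat_lit 212700424427) (nat_lit 9) (nat_lit 5) (nat_lit 11) (nat_lit 5) (nat_lit 10) (nat_lit 4) (nat_lit 301) (nat_lit 285) (nat_lit 194)))) (XT.nd (nat_lit 156) (nat_lit 152) (nat_lit 0) (XT.nd (nat_lit 78) (nat_lit 76) (nat_lit 0) (XT.lf (nat_lit 0) (nat_lit 166752458604) (nat_lit 152) (nat_lit 23844032202) (nat_lit 76) (nat_lit 393287061887) (nat_lit 9) (nat_lit 5) (nat_lit 11) (nat_lit 5) (nat_lit 10) (nat_lit 4) (nat_lit 302) (nat_lit 285) (nat_lit 193)) (XT.lf (nat_lit 0) (nat_lit 266729720015) (nat_lit 76) (nat_lit 35173381443) (nat_lit 152) (nat_lit 345276615402) (nat_lit 8) (nat_lit 5) (nat_lit 9) (nat_lit 5) (nat_lit 10) (nat_lit 4) (nat_lit 303) (nat_lit 285) (nat_lit 192))) (XT.nd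 (nat_lit 78) (nat_lit 152) (nat_lit 0) (XT.lf (nat_lit 0) (nat_lit 464576623774) (nat_lit 152) (nat_lit 122218264603) (nat_lit 0) (nat_lit 132087874999) (nat_lit 8) (nat_lit 5) (nat_lit 10) (nat_lit 4) (nat_lit 8) (nat_lit 4) (nat_lit 304) (nat_lit 285) (nat_lit 191)) (XT.nd (nat_lit 78) (nat_lit 76) (nat_lit 0) (XT.lf (nat_lit 0) (nat_lit 189987096415) (nat_lit 76) (nat_lit 471205868147) (nat_lit 76) (nat_lit 138717033948) (nat_lit 7) (nat_lit 4) (nat_lit 8) (nat_lit 5) (nat_lit 8) (nat_lit 4) (nat_lit 305) (nat_lit 285) (nat_lit 190)) (XT.lf (nat_lit 0) (nat_lit 1418677098) (nat_lit 152) (nat_lit 329438752717) (nat_lit 76) (nat_lit 561265927334) (nat_lit 6) (nat_lit 5) (nat_lit 8) (nat_lit 5) (nat_lit 7) (nat_lit 4) (nat_lit 306) (nat_lit 285) (nat_lit 189)))))) (XT.nd (nat_lit 312) (nat_lit 228) (nat_lit 0) (XT.nd (nat_lit 156) (nat_lit 0) (nat_lit 0) (XT.nd (nat_lit 78) (nat_lit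 76) (nat_lit 0) (XT.lf (nat_lit 0) (nat_lit 148372682489) (nat_lit 152) (nat_lit 13487705719) (nat_lit 76) (nat_lit 835317507563) (nat_lit 6) (nat_lit 5) (nat_lit 8) (nat_lit 5) (nat_lit 7) (nat_lit 4) (nat_lit 307) (nat_lit 285) (nat_lit 188)) (XT.lf (nat_lit 0) (nat_lit 335374704143) (nat_lit 152) (nat_lit 733661364661) (nat_lit 0) (nat_lit 46253809153) (nat_lit 5) (nat_lit 5) (nat_lit 7) (nat_lit 4) (nat_lit 5) (nat_lit 4) (nat_lit 308) (nat_lit 285) (nat_lit 187))) (XT.nd (nat_lit 78) (nat_lit 0) (nat_lit 0) (XT.lf (nat_lit 0) (nat_lit 558873210640) (nat_lit 152) (nat_lit 421226246490) (nat_lit 0) (nat_lit 269752273180) (nat_lit 5) (nat_lit 5) (nat_lit 7) (nat_lit 4) (nat_lit 5) (nat_lit 4) (nat_lit 309) (nat_lit 285) (nat_lit 186)) (XT.lf (nat_lit 0) (nat_lit 815896433638) (nat_lit 152) (nat_lit 61925976619) (nat_lit 0) (nat_lit 526775459248) (nat_lit 5) (nat_lit 5) (nat_lit 7)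 (nat_lit 4) (nat_lit 5) (nat_lit 4) (nat_lit 310) (nat_lit 285) (nat_lit 185)))) (XT.nd (nat_lit 156) (nat_lit 152) (nat_lit 0) (XT.nd (nat_lit 78) (nat_lit 0) (nat_lit 0) (XT.lf (nat_lit 0) (nat_lit 385597816958) (nat_lit 76) (nat_lit 741842054722) (nat_lit 76) (nat_lit 452721048218) (nat_lit 4) (nat_lit 4) (nat_lit 5) (nat_lit 5) (nat_lit 5) (nat_lit 4) (nat_lit 311) (nat_lit 285) (nat_lit 184)) (XT.lf (nat_lit 0) (nat_lit 907209718594) (nat_lit 76) (nat_lit 581742097564) (nat_lit 76) (nat_lit 292621063136) (nat_lit 4) (nat_lit 4) (nat_lit 5) (nat_lit 5) (nat_lit 5) (nat_lit 4) (nat_lit 312) (nat_lit 285) (nat_lit 183))) (XT.nd (nat_lit 78) (nat_lit 152) (nat_lit 0) (XT.lf (nat_lit 0) (nat_lit 1507063321730) (nat_lit 76) (nat_lit 397627188005) (nat_lit 76) (nat_lit 108506129294) (nat_lit 4) (nat_lit 4) (nat_lit 5) (nat_lit 5) (nat_lit 5) (nat_lit 4) (nat_lit 313) (nat_lit 285) (nat_lit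 182)) (XT.nd (nat_lit 78) (nat_lit 76) (nat_lit 0) (XT.lf (nat_lit 0) (nat_lit 94036109493) (nat_lit 152) (nat_lit 86943444415) (nat_lit 76) (nat_lit 2097943259116) (nat_lit 3) (nat_lit 5) (nat_lit 5) (nat_lit 5) (nat_lit 4) (nat_lit 4) (nat_lit 314) (nat_lit 285) (nat_lit 181)) (XT.lf (nat_lit 0) (nat_lit 337488733446) (nat_lit 152) (nat_lit 2156919351543) (nat_lit 0) (nat_lit 86079082848) (nat_lit 2) (nat_lit 5) (nat_lit 4) (nat_lit 4) (nat_lit 2) (nat_lit 4) (nat_lit 315) (nat_lit 285) (nat_lit 180))))))) (XT.nd (nat_lit 702) (nat_lit 0) (nat_lit 0) (XT.nd (nat_lit 312) (nat_lit 76) (nat_lit 0) (XT.nd (nat_lit 156) (nat_lit 0) (nat_lit 0) (XT.nd (nat_lit 78) (nat_lit 0) (nat_lit 0) (XT.lf (nat_lit 0) (nat_lit 630838480314) (nat_lit 152) (nat_lit 1915011995353) (nat_lit 0) (nat_lit 379428815832) (nat_lit 2) (nat_lit 5) (nat_lit 4) (nat_lit 4) (nat_lit 2) (nat_lit 4) (nat_lit 316) (nat_lit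 285) (nat_lit 179)) (XT.lf (nat_lit 0) (nat_lit 968190660258) (nat_lit 152) (nat_lit 1636818594113) (nat_lit 0) (nat_lit 716780983704) (nat_lit 2) (nat_lit 5) (nat_lit 4) (nat_lit 4) (nat_lit 2) (nat_lit 4) (nat_lit 317) (nat_lit 285) (nat_lit 178))) (XT.nd (nat_lit 78) (nat_lit 0) (nat_lit 0) (XT.lf (nat_lit 0) (nat_lit 1356145642018) (nat_lit 152) (nat_lit 1316896233451) (nat_lit 0) (nat_lit 1104735954965) (nat_lit 2) (nat_lit 5) (nat_lit 4) (nat_lit 4) (nat_lit 2) (nat_lit 4) (nat_lit 318) (nat_lit 285) (nat_lit 177)) (XT.lf (nat_lit 0) (nat_lit 1802293849148) (nat_lit 152) (nat_lit 948985562832) (nat_lit 0) (nat_lit 1550884152967) (nat_lit 2) (nat_lit 5) (nat_lit 4) (nat_lit 4) (nat_lit 2) (nat_lit 4) (nat_lit 319) (nat_lit 285) (nat_lit 176)))) (XT.nd (nat_lit 156) (nat_lit 76) (nat_lit 0) (XT.nd (nat_lit 78) (nat_lit 0) (nat_lit 0) (XT.lf (nat_lit 0) (nat_lit 2315364268311) (nat_lit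 152) (nat_lit 525888330004) (nat_lit 0) (nat_lit 2063954564192) (nat_lit 2) (nat_lit 5) (nat_lit 4) (nat_lit 4) (nat_lit 2) (nat_lit 4) (nat_lit 320) (nat_lit 285) (nat_lit 175)) (XT.lf (nat_lit 0) (nat_lit 2905395233795) (nat_lit 152) (nat_lit 39326545630) (nat_lit 0) (nat_lit 2653985522773) (nat_lit 2) (nat_lit 5) (nat_lit 4) (nat_lit 4) (nat_lit 2) (nat_lit 4) (nat_lit 321) (nat_lit 285) (nat_lit 174))) (XT.nd (nat_lit 78) (nat_lit 0) (nat_lit 0) (XT.lf (nat_lit 0) (nat_lit 571059108118) (nat_lit 76) (nat_lit 3036518061468) (nat_lit 76) (nat_lit 2785108344444) (nat_lit 1) (nat_lit 4) (nat_lit 2) (nat_lit 5) (nat_lit 2) (nat_lit 4) (nat_lit 322) (nat_lit 285) (nat_lit 173)) (XT.nd (nat_lit 78) (nat_lit 0) (nat_lit 0) (XT.lf (nat_lit 0) (nat_lit 1277422349682) (nat_lit 76) (nat_lit 3139719738194) (nat_lit 76) (nat_lit 2888310015951) (nat_lit 1) (nat_lit 4) (nat_lit 2) (nat_lit 5) (nat_lit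 2) (nat_lit 4) (nat_lit 323) (nat_lit 285) (nat_lit 172)) (XT.lf (nat_lit 0) (nat_lit 2089740053389) (nat_lit 76) (nat_lit 3258401678639) (nat_lit 76) (nat_lit 3006991951857) (nat_lit 1) (nat_lit 4) (nat_lit 2) (nat_lit 5) (nat_lit 2) (nat_lit 4) (nat_lit 324) (nat_lit 285) (nat_lit 171)))))) (XT.nd (nat_lit 390) (nat_lit 0) (nat_lit 0) (XT.nd (nat_lit 156) (nat_lit 0) (nat_lit 0) (XT.nd (nat_lit 78) (nat_lit 0) (nat_lit 0) (XT.lf (nat_lit 0) (nat_lit 3023905391704) (nat_lit 76) (nat_lit 3394885920766) (nat_lit 76) (nat_lit 3143476190038) (nat_lit 1) (nat_lit 4) (nat_lit 2) (nat_lit 5) (nat_lit 2) (nat_lit 4) (nat_lit 325) (nat_lit 285) (nat_lit 170)) (XT.lf (nat_lit 0) (nat_lit 4098195512549) (nat_lit 76) (nat_lit 3551842808445) (nat_lit 76) (nat_lit 3300433074284) (nat_lit 1) (nat_lit 4) (nat_lit 2) (nat_lit 5) (nat_lit 2) (nat_lit 4) (nat_lit 326) (nat_lit 285) (nat_lit 169))) (XT.nd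 (nat_lit 78) (nat_lit 0) (nat_lit 0) (XT.lf (nat_lit 0) (nat_lit 5333629135681) (nat_lit 76) (nat_lit 3732343237303) (nat_lit 76) (nat_lit 3480933500158) (nat_lit 1) (nat_lit 4) (nat_lit 2) (nat_lit 5) (nat_lit 2) (nat_lit 4) (nat_lit 327) (nat_lit 285) (nat_lit 168)) (XT.nd (nat_lit 78) (nat_lit 0) (nat_lit 0) (XT.lf (nat_lit 0) (nat_lit 6754377788508) (nat_lit 76) (nat_lit 3939918737470) (nat_lit 76) (nat_lit 3688508997730) (nat_lit 1) (nat_lit 4) (nat_lit 2) (nat_lit 5) (nat_lit 2) (nat_lit 4) (nat_lit 328) (nat_lit 285) (nat_lit 167)) (XT.lf (nat_lit 0) (nat_lit 8388238727282) (nat_lit 76) (nat_lit 4178630568732) (nat_lit 76) (nat_lit 3927220826736) (nat_lit 1) (nat_lit 4) (nat_lit 2) (nat_lit 5) (nat_lit 2) (nat_lit 4) (nat_lit 329) (nat_lit 285) (nat_lit 166))))) (XT.nd (nat_lit 156) (nat_lit 0) (nat_lit 0) (XT.nd (nat_lit 78) (nat_lit 0) (nat_lit 0) (XT.lf (nat_lit 0) (nat_lit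 10267178796456) (nat_lit 76) (nat_lit 4453149179962) (nat_lit 76) (nat_lit 4201739436004) (nat_lit 1) (nat_lit 4) (nat_lit 2) (nat_lit 5) (nat_lit 2) (nat_lit 4) (nat_lit 330) (nat_lit 285) (nat_lit 165)) (XT.lf (nat_lit 0) (nat_lit 12427959866950) (nat_lit 76) (nat_lit 4768845587467) (nat_lit 76) (nat_lit 4517435841803) (nat_lit 1) (nat_lit 4) (nat_lit 2) (nat_lit 5) (nat_lit 2) (nat_lit 4) (nat_lit 331) (nat_lit 285) (nat_lit 164))) (XT.nd (nat_lit 78) (nat_lit 0) (nat_lit 0) (XT.lf (nat_lit 0) (nat_lit 14912858090142) (nat_lit 76) (nat_lit 5131896460089) (nat_lit 76) (nat_lit 4880486712941) (nat_lit 1) (nat_lit 4) (nat_lit 2) (nat_lit 5) (nat_lit 2) (nat_lit 4) (nat_lit 332) (nat_lit 285) (nat_lit 163)) (XT.nd (nat_lit 78) (nat_lit 0) (nat_lit 0) (XT.lf (nat_lit 0) (nat_lit 17770491039965) (nat_lit 76) (nat_lit 5549404967074) (nat_lit 76) (nat_lit 5297995218636) (nat_lit 1) (nat_lit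 4) (nat_lit 2) (nat_lit 5) (nat_lit 2) (nat_lit 4) (nat_lit 333) (nat_lit 285) (nat_lit 162)) (XT.lf (nat_lit 0) (nat_lit 21056768926306) (nat_lit 76) (nat_lit 6029539753125) (nat_lit 76) (nat_lit 5778130003565) (nat_lit 1) (nat_lit 4) (nat_lit 2) (nat_lit 5) (nat_lit 2) (nat_lit 4) (nat_lit 334) (nat_lit 285) (nat_lit 161))))))))
noncomputable def xc96 : XT := (XT.nd (nat_lit 37908) (nat_lit 0) (nat_lit 76) (XT.nd (nat_lit 37206) (nat_lit 0) (nat_lit 760) (XT.nd (nat_lit 36816) (nat_lit 0) (nat_lit 1444) (XT.nd (nat_lit 1482) (nat_lit 0) (nat_lit 0) (XT.nd (nat_lit 78) (nat_lit 0) (nat_lit 0) (XT.lf (nat_lit 0) (nat_lit 24835988490420) (nat_lit 76) (nat_lit 6581694759708) (nat_lit 76) (nat_lit 6330285009172) (nat_lit 1) (nat_lit 4) (nat_lit 2) (nat_lit 5) (nat_lit 2) (nat_lit 4) (nat_lit 335) (nat_lit 285) (nat_lit 160)) (XT.lf (nat_lit 0) (nat_lit 29182090984649) (nat_lit 76) (nat_lit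 7216673019560) (nat_lit 76) (nat_lit 6965263268177) (nat_lit 1) (nat_lit 4) (nat_lit 2) (nat_lit 5) (nat_lit 2) (nat_lit 4) (nat_lit 336) (nat_lit 285) (nat_lit 159))) (XT.nd (nat_lit 78) (nat_lit 0) (nat_lit 0) (XT.lf (nat_lit 0) (nat_lit 408213559051072) (nat_lit 76) (nat_lit 62594277563894) (nat_lit 76) (nat_lit 62342867807311) (nat_lit 1) (nat_lit 4) (nat_lit 2) (nat_lit 5) (nat_lit 2) (nat_lit 4) (nat_lit 354) (nat_lit 285) (nat_lit 141)) (XT.lf (nat_lit 0) (nat_lit 470066297101489) (nat_lit 76) (nat_lit 71631143258518) (nat_lit 76) (nat_lit 71379733501876) (nat_lit 1) (nat_lit 4) (nat_lit 2) (nat_lit 5) (nat_lit 2) (nat_lit 4) (nat_lit 355) (nat_lit 285) (nat_lit 140)))) (XT.nd (nat_lit 156) (nat_lit 0) (nat_lit 76) (XT.nd (nat_lit 78) (nat_lit 0) (nat_lit 0) (XT.lf (nat_lit 0) (nat_lit 10810042886) (nat_lit 380) (nat_lit 33153108226) (nat_lit 380) (nat_lit 33153108226) (nat_lit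 20) (nat_lit 3) (nat_lit 25) (nat_lit 3) (nat_lit 25) (nat_lit 5) (nat_lit 286) (nat_lit 286) (nat_lit 208)) (XT.lf (nat_lit 76) (nat_lit 5493252592) (nat_lit 0) (nat_lit 17978292054) (nat_lit 380) (nat_lit 142293909136) (nat_lit 21) (nat_lit 5) (nat_lit 20) (nat_lit 3) (nat_lit 25) (nat_lit 5) (nat_lit 287) (nat_lit 286) (nat_lit 207))) (XT.nd (nat_lit 78) (nat_lit 0) (nat_lit 0) (XT.lf (nat_lit 0) (nat_lit 31817744434) (nat_lit 304) (nat_lit 85745692532) (nat_lit 380) (nat_lit 60532340821) (nat_lit 21) (nat_lit 5) (nat_lit 25) (nat_lit 5) (nat_lit 26) (nat_lit 5) (nat_lit 288) (nat_lit 286) (nat_lit 206)) (XT.nd (nat_lit 78) (nat_lit 0) (nat_lit 76) (XT.lf (nat_lit 0) (nat_lit 42271594187) (nat_lit 304) (nat_lit 896628118) (nat_lit 380) (nat_lit 148979071780) (nat_lit 21) (nat_lit 5) (nat_lit 25) (nat_lit 5) (nat_lit 26) (nat_lit 5) (nat_lit 289) (nat_lit 286) (nat_lit 205)) (XT.lf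 (nat_lit 0) (nat_lit 60652097967) (nat_lit 304) (nat_lit 103484051057) (nat_lit 76) (nat_lit 43216603790) (nat_lit 22) (nat_lit 5) (nat_lit 26) (nat_lit 5) (nat_lit 23) (nat_lit 5) (nat_lit 290) (nat_lit 286) (nat_lit 204)))))) (XT.nd (nat_lit 312) (nat_lit 380) (nat_lit 0) (XT.nd (nat_lit 156) (nat_lit 152) (nat_lit 0) (XT.nd (nat_lit 78) (nat_lit 304) (nat_lit 0) (XT.lf (nat_lit 0) (nat_lit 83894104981) (nat_lit 304) (nat_lit 2440569004) (nat_lit 76) (nat_lit 138188693496) (nat_lit 22) (nat_lit 5) (nat_lit 26) (nat_lit 5) (nat_lit 23) (nat_lit 5) (nat_lit 291) (nat_lit 286) (nat_lit 203)) (XT.lf (nat_lit 0) (nat_lit 116169150029) (nat_lit 380) (nat_lit 118993572236) (nat_lit 76) (nat_lit 8274842650) (nat_lit 18) (nat_lit 5) (nat_lit 23) (nat_lit 5) (nat_lit 19) (nat_lit 5) (nat_lit 292) (nat_lit 286) (nat_lit 202))) (XT.nd (nat_lit 78) (nat_lit 0) (nat_lit 0) (XT.lf (nat_lit 0) (nat_lit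 1479986857) (nat_lit 152) (nat_lit 156111332895) (nat_lit 228) (nat_lit 106951692992) (nat_lit 16) (nat_lit 5) (nat_lit 18) (nat_lit 5) (nat_lit 19) (nat_lit 5) (nat_lit 293) (nat_lit 286) (nat_lit 201)) (XT.lf (nat_lit 0) (nat_lit 153397556491) (nat_lit 152) (nat_lit 58049156480) (nat_lit 228) (nat_lit 76434580911) (nat_lit 16) (nat_lit 5) (nat_lit 18) (nat_lit 5) (nat_lit 19) (nat_lit 5) (nat_lit 294) (nat_lit 286) (nat_lit 200)))) (XT.nd (nat_lit 156) (nat_lit 228) (nat_lit 0) (XT.nd (nat_lit 78) (nat_lit 76) (nat_lit 0) (XT.lf (nat_lit 0) (nat_lit 12202599131) (nat_lit 76) (nat_lit 263948841492) (nat_lit 152) (nat_lit 38153223483) (nat_lit 15) (nat_lit 5) (nat_lit 16) (nat_lit 5) (nat_lit 17) (nat_lit 4) (nat_lit 295) (nat_lit 286) (nat_lit 199)) (XT.lf (nat_lit 0) (nat_lit 15476362377) (nat_lit 152) (nat_lit 150973394403) (nat_lit 76) (nat_lit 176686025483) (nat_lit 14) (nat_lit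 5) (nat_lit 16) (nat_lit 5) (nat_lit 15) (nat_lit 5) (nat_lit 296) (nat_lit 286) (nat_lit 198))) (XT.nd (nat_lit 78) (nat_lit 76) (nat_lit 0) (XT.lf (nat_lit 0) (nat_lit 23060523847) (nat_lit 152) (nat_lit 51138422288) (nat_lit 228) (nat_lit 301676890959) (nat_lit 12) (nat_lit 5) (nat_lit 14) (nat_lit 5) (nat_lit 15) (nat_lit 5) (nat_lit 297) (nat_lit 286) (nat_lit 197)) (XT.nd (nat_lit 78) (nat_lit 76) (nat_lit 0) (XT.lf (nat_lit 0) (nat_lit 153370835947) (nat_lit 228) (nat_lit 175925782470) (nat_lit 76) (nat_lit 82484144377) (nat_lit 12) (nat_lit 5) (nat_lit 15) (nat_lit 5) (nat_lit 13) (nat_lit 4) (nat_lit 298) (nat_lit 286) (nat_lit 196)) (XT.lf (nat_lit 0) (nat_lit 27511019523) (nat_lit 76) (nat_lit 220481690480) (nat_lit 152) (nat_lit 204542587595) (nat_lit 11) (nat_lit 5) (nat_lit 12) (nat_lit 5) (nat_lit 13) (nat_lit 4) (nat_lit 299) (nat_lit 286) (nat_lit 195))))))) (XT.nd (nat_lit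 702) (nat_lit 304) (nat_lit 0) (XT.nd (nat_lit 312) (nat_lit 228) (nat_lit 0) (XT.nd (nat_lit 156) (nat_lit 76) (nat_lit 0) (XT.nd (nat_lit 78) (nat_lit 76) (nat_lit 0) (XT.lf (nat_lit 0) (nat_lit 281234793989) (nat_lit 76) (nat_lit 84769065806) (nat_lit 152) (nat_lit 132019753947) (nat_lit 11) (nat_lit 5) (nat_lit 12) (nat_lit 5) (nat_lit 13) (nat_lit 4) (nat_lit 300) (nat_lit 286) (nat_lit 194)) (XT.lf (nat_lit 0) (nat_lit 21657460976) (nat_lit 76) (nat_lit 483908297725) (nat_lit 76) (nat_lit 44192057388) (nat_lit 10) (nat_lit 4) (nat_lit 11) (nat_lit 5) (nat_lit 11) (nat_lit 4) (nat_lit 301) (nat_lit 286) (nat_lit 193))) (XT.nd (nat_lit 78) (nat_lit 0) (nat_lit 0) (XT.lf (nat_lit 0) (nat_lit 67660473303) (nat_lit 152) (nat_lit 294246352652) (nat_lit 76) (nat_lit 244606225129) (nat_lit 9) (nat_lit 5) (nat_lit 11) (nat_lit 5) (nat_lit 10) (nat_lit 4) (nat_lit 302) (nat_lit 286) (nat_lit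 192)) (XT.lf (nat_lit 0) (nat_lit 191766362539) (nat_lit 152) (nat_lit 27418803767) (nat_lit 76) (nat_lit 452280762072) (nat_lit 9) (nat_lit 5) (nat_lit 11) (nat_lit 5) (nat_lit 10) (nat_lit 4) (nat_lit 303) (nat_lit 286) (nat_lit 191)))) (XT.nd (nat_lit 156) (nat_lit 152) (nat_lit 0) (XT.nd (nat_lit 78) (nat_lit 0) (nat_lit 0) (XT.lf (nat_lit 0) (nat_lit 306740927952) (nat_lit 76) (nat_lit 40448611310) (nat_lit 152) (nat_lit 397066987545) (nat_lit 8) (nat_lit 5) (nat_lit 9) (nat_lit 5) (nat_lit 10) (nat_lit 4) (nat_lit 304) (nat_lit 286) (nat_lit 190)) (XT.lf (nat_lit 0) (nat_lit 534263991058) (nat_lit 152) (nat_lit 140549382269) (nat_lit 0) (nat_lit 151901672026) (nat_lit 8) (nat_lit 5) (nat_lit 10) (nat_lit 4) (nat_lit 8) (nat_lit 4) (nat_lit 305) (nat_lit 286) (nat_lit 189))) (XT.nd (nat_lit 78) (nat_lit 76) (nat_lit 0) (XT.lf (nat_lit 0) (nat_lit 218486709174) (nat_lit 76) (nat_lit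 541886023938) (nat_lit 76) (nat_lit 159523640315) (nat_lit 7) (nat_lit 4) (nat_lit 8) (nat_lit 5) (nat_lit 8) (nat_lit 4) (nat_lit 306) (nat_lit 286) (nat_lit 188)) (XT.nd (nat_lit 78) (nat_lit 0) (nat_lit 0) (XT.lf (nat_lit 0) (nat_lit 1632230196) (nat_lit 152) (nat_lit 378853144867) (nat_lit 76) (nat_lit 645456371961) (nat_lit 6) (nat_lit 5) (nat_lit 8) (nat_lit 5) (nat_lit 7) (nat_lit 4) (nat_lit 307) (nat_lit 286) (nat_lit 187)) (XT.lf (nat_lit 0) (nat_lit 170629238370) (nat_lit 152) (nat_lit 15509626135) (nat_lit 76) (nat_lit 960615616764) (nat_lit 6) (nat_lit 5) (nat_lit 8) (nat_lit 5) (nat_lit 7) (nat_lit 4) (nat_lit 308) (nat_lit 286) (nat_lit 186)))))) (XT.nd (nat_lit 312) (nat_lit 152) (nat_lit 0) (XT.nd (nat_lit 156) (nat_lit 76) (nat_lit 0) (XT.nd (nat_lit 78) (nat_lit 0) (nat_lit 0) (XT.lf (nat_lit 0) (nat_lit 385681550142) (nat_lit 152) (nat_lit 843709320057) (nat_lit 0)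 (nat_lit 53192392663) (nat_lit 5) (nat_lit 5) (nat_lit 7) (nat_lit 4) (nat_lit 5) (nat_lit 4) (nat_lit 309) (nat_lit 286) (nat_lit 185)) (XT.lf (nat_lit 0) (nat_lit 642704749086) (nat_lit 152) (nat_lit 484409097113) (nat_lit 0) (nat_lit 310215559493) (nat_lit 5) (nat_lit 5) (nat_lit 7) (nat_lit 4) (nat_lit 5) (nat_lit 4) (nat_lit 310) (nat_lit 286) (nat_lit 184))) (XT.nd (nat_lit 78) (nat_lit 76) (nat_lit 0) (XT.lf (nat_lit 0) (nat_lit 938281382902) (nat_lit 152) (nat_lit 71213928459) (nat_lit 0) (nat_lit 605792165384) (nat_lit 5) (nat_lit 5) (nat_lit 7) (nat_lit 4) (nat_lit 5) (nat_lit 4) (nat_lit 311) (nat_lit 286) (nat_lit 183)) (XT.lf (nat_lit 0) (nat_lit 443438391216) (nat_lit 76) (nat_lit 853117919614) (nat_lit 76) (nat_lit 520628677813) (nat_lit 4) (nat_lit 4) (nat_lit 5) (nat_lit 5) (nat_lit 5) (nat_lit 4) (nat_lit 312) (nat_lit 286) (nat_lit 182)))) (XT.nd (nat_lit 156) (nat_lit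 152) (nat_lit 0) (XT.nd (nat_lit 78) (nat_lit 0) (nat_lit 0) (XT.lf (nat_lit 0) (nat_lit 1043291960482) (nat_lit 76) (nat_lit 669003026706) (nat_lit 76) (nat_lit 336513763790) (nat_lit 4) (nat_lit 4) (nat_lit 5) (nat_lit 5) (nat_lit 5) (nat_lit 4) (nat_lit 313) (nat_lit 286) (nat_lit 181)) (XT.lf (nat_lit 0) (nat_lit 1733123501815) (nat_lit 76) (nat_lit 457270930995) (nat_lit 76) (nat_lit 124781649718) (nat_lit 4) (nat_lit 4) (nat_lit 5) (nat_lit 5) (nat_lit 5) (nat_lit 4) (nat_lit 314) (nat_lit 286) (nat_lit 180))) (XT.nd (nat_lit 78) (nat_lit 76) (nat_lit 0) (XT.lf (nat_lit 0) (nat_lit 108141841962) (nat_lit 152) (nat_lit 99984337024) (nat_lit 76) (nat_lit 2412635008311) (nat_lit 3) (nat_lit 5) (nat_lit 5) (nat_lit 5) (nat_lit 4) (nat_lit 4) (nat_lit 315) (nat_lit 286) (nat_lit 179)) (XT.nd (nat_lit 78) (nat_lit 0) (nat_lit 0) (XT.lf (nat_lit 0) (nat_lit 388112355215) (nat_lit 152)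 (nat_lit 2480456625691) (nat_lit 0) (nat_lit 98991215105) (nat_lit 2) (nat_lit 5) (nat_lit 4) (nat_lit 4) (nat_lit 2) (nat_lit 4) (nat_lit 316) (nat_lit 286) (nat_lit 178)) (XT.lf (nat_lit 0) (nat_lit 725464523450) (nat_lit 152) (nat_lit 2202263248061) (nat_lit 0) (nat_lit 436343372841) (nat_lit 2) (nat_lit 5) (nat_lit 4) (nat_lit 4) (nat_lit 2) (nat_lit 4) (nat_lit 317) (nat_lit 286) (nat_lit 177))))))))
noncomputable def xc97 : XT := (XT.nd (nat_lit 1404) (nat_lit 0) (nat_lit 0) (XT.nd (nat_lit 702) (nat_lit 0) (nat_lit 0) (XT.nd (nat_lit 312) (nat_lit 76) (nat_lit 0) (XT.nd (nat_lit 156) (nat_lit 0) (nat_lit 0) (XT.nd (nat_lit 78) (nat_lit 0) (nat_lit 0) (XT.lf (nat_lit 0) (nat_lit 1113419495027) (nat_lit 152) (nat_lit 1882340907930) (nat_lit 0) (nat_lit 824298335290) (nat_lit 2) (nat_lit 5) (nat_lit 4) (nat_lit 4) (nat_lit 2) (nat_lit 4) (nat_lit 318) (nat_lit 286) (nat_lit 176))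 (XT.lf (nat_lit 0) (nat_lit 1559567693303) (nat_lit 152) (nat_lit 1514430255164) (nat_lit 0) (nat_lit 1270446525628) (nat_lit 2) (nat_lit 5) (nat_lit 4) (nat_lit 4) (nat_lit 2) (nat_lit 4) (nat_lit 319) (nat_lit 286) (nat_lit 175))) (XT.nd (nat_lit 78) (nat_lit 0) (nat_lit 0) (XT.lf (nat_lit 0) (nat_lit 2072638104766) (nat_lit 152) (nat_lit 1091333037861) (nat_lit 0) (nat_lit 1783516930189) (nat_lit 2) (nat_lit 5) (nat_lit 4) (nat_lit 4) (nat_lit 2) (nat_lit 4) (nat_lit 320) (nat_lit 286) (nat_lit 174)) (XT.lf (nat_lit 0) (nat_lit 2662669063554) (nat_lit 152) (nat_lit 604771266987) (nat_lit 0) (nat_lit 2373547882974) (nat_lit 2) (nat_lit 5) (nat_lit 4) (nat_lit 4) (nat_lit 2) (nat_lit 4) (nat_lit 321) (nat_lit 286) (nat_lit 173)))) (XT.nd (nat_lit 156) (nat_lit 0) (nat_lit 0) (XT.nd (nat_lit 78) (nat_lit 76) (nat_lit 0) (XT.lf (nat_lit 0) (nat_lit 3341204653643) (nat_lit 152) (nat_lit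 45225255721) (nat_lit 0) (nat_lit 3052083467844) (nat_lit 2) (nat_lit 5) (nat_lit 4) (nat_lit 4) (nat_lit 2) (nat_lit 4) (nat_lit 322) (nat_lit 286) (nat_lit 172)) (XT.lf (nat_lit 0) (nat_lit 656718233737) (nat_lit 76) (nat_lit 3491995639227) (nat_lit 76) (nat_lit 3202874448890) (nat_lit 1) (nat_lit 4) (nat_lit 2) (nat_lit 5) (nat_lit 2) (nat_lit 4) (nat_lit 323) (nat_lit 286) (nat_lit 171))) (XT.nd (nat_lit 78) (nat_lit 0) (nat_lit 0) (XT.lf (nat_lit 0) (nat_lit 1469035927701) (nat_lit 76) (nat_lit 3610677584609) (nat_lit 76) (nat_lit 3321556390325) (nat_lit 1) (nat_lit 4) (nat_lit 2) (nat_lit 5) (nat_lit 2) (nat_lit 4) (nat_lit 324) (nat_lit 286) (nat_lit 170)) (XT.nd (nat_lit 78) (nat_lit 0) (nat_lit 0) (XT.lf (nat_lit 0) (nat_lit 2403201257543) (nat_lit 76) (nat_lit 3747161831031) (nat_lit 76) (nat_lit 3458040633315) (nat_lit 1) (nat_lit 4) (nat_lit 2) (nat_lit 5) (nat_lit 2) (nat_lit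 4) (nat_lit 325) (nat_lit 286) (nat_lit 169)) (XT.lf (nat_lit 0) (nat_lit 3477491371021) (nat_lit 76) (nat_lit 3904118722443) (nat_lit 76) (nat_lit 3614997521743) (nat_lit 1) (nat_lit 4) (nat_lit 2) (nat_lit 5) (nat_lit 2) (nat_lit 4) (nat_lit 326) (nat_lit 286) (nat_lit 168)))))) (XT.nd (nat_lit 312) (nat_lit 0) (nat_lit 0) (XT.nd (nat_lit 156) (nat_lit 0) (nat_lit 0) (XT.nd (nat_lit 78) (nat_lit 0) (nat_lit 0) (XT.lf (nat_lit 0) (nat_lit 4712924987746) (nat_lit 76) (nat_lit 4084619154548) (nat_lit 76) (nat_lit 3795497951253) (nat_lit 1) (nat_lit 4) (nat_lit 2) (nat_lit 5) (nat_lit 2) (nat_lit 4) (nat_lit 327) (nat_lit 286) (nat_lit 167)) (XT.lf (nat_lit 0) (nat_lit 6133673635002) (nat_lit 76) (nat_lit 4292194657538) (nat_lit 76) (nat_lit 4003073451987) (nat_lit 1) (nat_lit 4) (nat_lit 2) (nat_lit 5) (nat_lit 2) (nat_lit 4) (nat_lit 328) (nat_lit 286) (nat_lit 166))) (XT.nd (nat_lit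 78) (nat_lit 0) (nat_lit 0) (XT.lf (nat_lit 0) (nat_lit 7767534568931) (nat_lit 76) (nat_lit 4530906491256) (nat_lit 76) (nat_lit 4241785283742) (nat_lit 1) (nat_lit 4) (nat_lit 2) (nat_lit 5) (nat_lit 2) (nat_lit 4) (nat_lit 329) (nat_lit 286) (nat_lit 165)) (XT.lf (nat_lit 0) (nat_lit 9646474633893) (nat_lit 76) (nat_lit 4805425104621) (nat_lit 76) (nat_lit 4516303895401) (nat_lit 1) (nat_lit 4) (nat_lit 2) (nat_lit 5) (nat_lit 2) (nat_lit 4) (nat_lit 330) (nat_lit 286) (nat_lit 164)))) (XT.nd (nat_lit 156) (nat_lit 0) (nat_lit 0) (XT.nd (nat_lit 78) (nat_lit 0) (nat_lit 0) (XT.lf (nat_lit 0) (nat_lit 11807255700724) (nat_lit 76) (nat_lit 5121121513982) (nat_lit 76) (nat_lit 4832000303278) (nat_lit 1) (nat_lit 4) (nat_lit 2) (nat_lit 5) (nat_lit 2) (nat_lit 4) (nat_lit 331) (nat_lit 286) (nat_lit 163)) (XT.lf (nat_lit 0) (nat_lit 14292153920731) (nat_lit 76) (nat_lit 5484172388218)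 (nat_lit 76) (nat_lit 5195051176224) (nat_lit 1) (nat_lit 4) (nat_lit 2) (nat_lit 5) (nat_lit 2) (nat_lit 4) (nat_lit 332) (nat_lit 286) (nat_lit 162))) (XT.nd (nat_lit 78) (nat_lit 0) (nat_lit 0) (XT.lf (nat_lit 0) (nat_lit 17149786867784) (nat_lit 76) (nat_lit 5901680896607) (nat_lit 76) (nat_lit 5612559683491) (nat_lit 1) (nat_lit 4) (nat_lit 2) (nat_lit 5) (nat_lit 2) (nat_lit 4) (nat_lit 333) (nat_lit 286) (nat_lit 161)) (XT.nd (nat_lit 78) (nat_lit 0) (nat_lit 0) (XT.lf (nat_lit 0) (nat_lit 20436064751716) (nat_lit 76) (nat_lit 6381815683878) (nat_lit 76) (nat_lit 6092694469787) (nat_lit 1) (nat_lit 4) (nat_lit 2) (nat_lit 5) (nat_lit 2) (nat_lit 4) (nat_lit 334) (nat_lit 286) (nat_lit 160)) (XT.lf (nat_lit 0) (nat_lit 24215284313736) (nat_lit 76) (nat_lit 6933970691523) (nat_lit 76) (nat_lit 6644849476583) (nat_lit 1) (nat_lit 4) (nat_lit 2) (nat_lit 5) (nat_lit 2) (nat_lit 4)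 (nat_lit 335) (nat_lit 286) (nat_lit 159))))))) (XT.nd (nat_lit 37362) (nat_lit 0) (nat_lit 608) (XT.nd (nat_lit 36972) (nat_lit 0) (nat_lit 1292) (XT.nd (nat_lit 36816) (nat_lit 0) (nat_lit 1444) (XT.nd (nat_lit 78) (nat_lit 0) (nat_lit 0) (XT.lf (nat_lit 0) (nat_lit 28561386806144) (nat_lit 76) (nat_lit 7568948952298) (nat_lit 76) (nat_lit 7279827736621) (nat_lit 1) (nat_lit 4) (nat_lit 2) (nat_lit 5) (nat_lit 2) (nat_lit 4) (nat_lit 336) (nat_lit 286) (nat_lit 158)) (XT.lf (nat_lit 0) (nat_lit 33559404669007) (nat_lit 76) (nat_lit 8299173953915) (nat_lit 76) (nat_lit 8010052737596) (nat_lit 1) (nat_lit 4) (nat_lit 2) (nat_lit 5) (nat_lit 2) (nat_lit 4) (nat_lit 337) (nat_lit 286) (nat_lit 157))) (XT.nd (nat_lit 78) (nat_lit 0) (nat_lit 0) (XT.lf (nat_lit 0) (nat_lit 12433934838) (nat_lit 380) (nat_lit 38124697548) (nat_lit 380) (nat_lit 38124697548) (nat_lit 20) (nat_lit 3) (nat_lit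 25) (nat_lit 3) (nat_lit 25) (nat_lit 5) (nat_lit 287) (nat_lit 287) (nat_lit 206)) (XT.lf (nat_lit 76) (nat_lit 6319869131) (nat_lit 0) (nat_lit 20676664788) (nat_lit 380) (nat_lit 163633081074) (nat_lit 21) (nat_lit 5) (nat_lit 20) (nat_lit 3) (nat_lit 25) (nat_lit 5) (nat_lit 288) (nat_lit 287) (nat_lit 205)))) (XT.nd (nat_lit 156) (nat_lit 228) (nat_lit 0) (XT.nd (nat_lit 78) (nat_lit 0) (nat_lit 0) (XT.lf (nat_lit 0) (nat_lit 36594049686) (nat_lit 304) (nat_lit 98604630796) (nat_lit 380) (nat_lit 69610901590) (nat_lit 21) (nat_lit 5) (nat_lit 25) (nat_lit 5) (nat_lit 26) (nat_lit 5) (nat_lit 289) (nat_lit 287) (nat_lit 204)) (XT.lf (nat_lit 0) (nat_lit 48615501651) (nat_lit 304) (nat_lit 1028587018) (nat_lit 380) (nat_lit 171324810500) (nat_lit 21) (nat_lit 5) (nat_lit 25) (nat_lit 5) (nat_lit 26) (nat_lit 5) (nat_lit 290) (nat_lit 287) (nat_lit 203))) (XT.nd (nat_lit 78) (nat_lit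 304) (nat_lit 0) (XT.lf (nat_lit 0) (nat_lit 69752749926) (nat_lit 304) (nat_lit 119003780344) (nat_lit 76) (nat_lit 49698697895) (nat_lit 22) (nat_lit 5) (nat_lit 26) (nat_lit 5) (nat_lit 23) (nat_lit 5) (nat_lit 291) (nat_lit 287) (nat_lit 202)) (XT.nd (nat_lit 78) (nat_lit 304) (nat_lit 0) (XT.lf (nat_lit 0) (nat_lit 96480687914) (nat_lit 304) (nat_lit 2804151424) (nat_lit 76) (nat_lit 158916652770) (nat_lit 22) (nat_lit 5) (nat_lit 26) (nat_lit 5) (nat_lit 23) (nat_lit 5) (nat_lit 292) (nat_lit 287) (nat_lit 201)) (XT.lf (nat_lit 0) (nat_lit 133596772841) (nat_lit 380) (nat_lit 136839879202) (nat_lit 76) (nat_lit 9516201004) (nat_lit 18) (nat_lit 5) (nat_lit 23) (nat_lit 5) (nat_lit 19) (nat_lit 5) (nat_lit 293) (nat_lit 287) (nat_lit 200)))))) (XT.nd (nat_lit 390) (nat_lit 228) (nat_lit 0) (XT.nd (nat_lit 156) (nat_lit 304) (nat_lit 0) (XT.nd (nat_lit 78) (nat_lit 0) (nat_lit 0)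 (XT.lf (nat_lit 0) (nat_lit 1704589716) (nat_lit 152) (nat_lit 179527492649) (nat_lit 228) (nat_lit 122992064716) (nat_lit 16) (nat_lit 5) (nat_lit 18) (nat_lit 5) (nat_lit 19) (nat_lit 5) (nat_lit 294) (nat_lit 287) (nat_lit 199)) (XT.lf (nat_lit 0) (nat_lit 176409455034) (nat_lit 152) (nat_lit 66756060230) (nat_lit 228) (nat_lit 87897696549) (nat_lit 16) (nat_lit 5) (nat_lit 18) (nat_lit 5) (nat_lit 19) (nat_lit 5) (nat_lit 295) (nat_lit 287) (nat_lit 198))) (XT.nd (nat_lit 78) (nat_lit 228) (nat_lit 0) (XT.lf (nat_lit 0) (nat_lit 14035396146) (nat_lit 76) (nat_lit 303540438330) (nat_lit 152) (nat_lit 43874271626) (nat_lit 15) (nat_lit 5) (nat_lit 16) (nat_lit 5) (nat_lit 17) (nat_lit 4) (nat_lit 296) (nat_lit 287) (nat_lit 197)) (XT.nd (nat_lit 78) (nat_lit 152) (nat_lit 0) (XT.lf (nat_lit 0) (nat_lit 17799349846) (nat_lit 152) (nat_lit 173617156063) (nat_lit 76) (nat_lit 203189409223)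 (nat_lit 14) (nat_lit 5) (nat_lit 16) (nat_lit 5) (nat_lit 15) (nat_lit 5) (nat_lit 297) (nat_lit 287) (nat_lit 196)) (XT.lf (nat_lit 0) (nat_lit 26521747766) (nat_lit 152) (nat_lit 58808462265) (nat_lit 228) (nat_lit 346926785415) (nat_lit 12) (nat_lit 5) (nat_lit 14) (nat_lit 5) (nat_lit 15) (nat_lit 5) (nat_lit 298) (nat_lit 287) (nat_lit 195))))) (XT.nd (nat_lit 156) (nat_lit 152) (nat_lit 0) (XT.nd (nat_lit 78) (nat_lit 76) (nat_lit 0) (XT.lf (nat_lit 0) (nat_lit 176377723886) (nat_lit 228) (nat_lit 202312621491) (nat_lit 76) (nat_lit 94857339049) (nat_lit 12) (nat_lit 5) (nat_lit 15) (nat_lit 5) (nat_lit 13) (nat_lit 4) (nat_lit 299) (nat_lit 287) (nat_lit 194)) (XT.lf (nat_lit 0) (nat_lit 31639608603) (nat_lit 76) (nat_lit 253553185939) (nat_lit 152) (nat_lit 235222618029) (nat_lit 11) (nat_lit 5) (nat_lit 12) (nat_lit 5) (nat_lit 13) (nat_lit 4) (nat_lit 300) (nat_lit 287) (nat_lit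 193))) (XT.nd (nat_lit 78) (nat_lit 152) (nat_lit 0) (XT.lf (nat_lit 0) (nat_lit 323421696698) (nat_lit 76) (nat_lit 97483766448) (nat_lit 152) (nat_lit 151821536426) (nat_lit 11) (nat_lit 5) (nat_lit 12) (nat_lit 5) (nat_lit 13) (nat_lit 4) (nat_lit 301) (nat_lit 287) (nat_lit 192)) (XT.nd (nat_lit 78) (nat_lit 76) (nat_lit 0) (XT.lf (nat_lit 0) (nat_lit 24907810279) (nat_lit 76) (nat_lit 556493798373) (nat_lit 76) (nat_lit 50819729690) (nat_lit 10) (nat_lit 4) (nat_lit 11) (nat_lit 5) (nat_lit 11) (nat_lit 4) (nat_lit 302) (nat_lit 287) (nat_lit 191)) (XT.lf (nat_lit 0) (nat_lit 77810444424) (nat_lit 152) (nat_lit 338381711406) (nat_lit 76) (nat_lit 281297716205) (nat_lit 9) (nat_lit 5) (nat_lit 11) (nat_lit 5) (nat_lit 10) (nat_lit 4) (nat_lit 303) (nat_lit 287) (nat_lit 190))))))))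
noncomputable def xc98 : XT := (XT.nd (nat_lit 1404) (nat_lit 76) (nat_lit 0) (XT.nd (nat_lit 702) (nat_lit 228) (nat_lit 0) (XT.nd (nat_lit 312) (nat_lit 152) (nat_lit 0) (XT.nd (nat_lit 156) (nat_lit 76) (nat_lit 0) (XT.nd (nat_lit 78) (nat_lit 76) (nat_lit 0) (XT.lf (nat_lit 0) (nat_lit 220532099638) (nat_lit 152) (nat_lit 31530238120) (nat_lit 76) (nat_lit 520123360998) (nat_lit 9) (nat_lit 5) (nat_lit 11) (nat_lit 5) (nat_lit 10) (nat_lit 4) (nat_lit 304) (nat_lit 287) (nat_lit 189)) (XT.lf (nat_lit 0) (nat_lit 352753390348) (nat_lit 76) (nat_lit 46515315219) (nat_lit 152) (nat_lit 456626188669) (nat_lit 8) (nat_lit 5) (nat_lit 9) (nat_lit 5) (nat_lit 10) (nat_lit 4) (nat_lit 305) (nat_lit 287) (nat_lit 188))) (XT.nd (nat_lit 78) (nat_lit 76) (nat_lit 0) (XT.lf (nat_lit 0) (nat_lit 614404250373) (nat_lit 152) (nat_lit 161630563126) (nat_lit 0) (nat_lit 174687388447) (nat_lit 8)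 (nat_lit 5) (nat_lit 10) (nat_lit 4) (nat_lit 8) (nat_lit 4) (nat_lit 306) (nat_lit 287) (nat_lit 187)) (XT.lf (nat_lit 0) (nat_lit 251260886285) (nat_lit 76) (nat_lit 623168379756) (nat_lit 76) (nat_lit 183451468989) (nat_lit 7) (nat_lit 4) (nat_lit 8) (nat_lit 5) (nat_lit 8) (nat_lit 4) (nat_lit 307) (nat_lit 287) (nat_lit 186)))) (XT.nd (nat_lit 156) (nat_lit 76) (nat_lit 0) (XT.nd (nat_lit 78) (nat_lit 0) (nat_lit 0) (XT.lf (nat_lit 0) (nat_lit 1877632993) (nat_lit 152) (nat_lit 435680042300) (nat_lit 76) (nat_lit 742275247812) (nat_lit 6) (nat_lit 5) (nat_lit 8) (nat_lit 5) (nat_lit 7) (nat_lit 4) (nat_lit 308) (nat_lit 287) (nat_lit 185)) (XT.lf (nat_lit 0) (nat_lit 196224118271) (nat_lit 152) (nat_lit 17835135884) (nat_lit 76) (nat_lit 1104708324546) (nat_lit 6) (nat_lit 5) (nat_lit 8) (nat_lit 5) (nat_lit 7) (nat_lit 4) (nat_lit 309) (nat_lit 287) (nat_lit 184))) (XT.nd (nat_lit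 78) (nat_lit 0) (nat_lit 0) (XT.lf (nat_lit 0) (nat_lit 443534266881) (nat_lit 152) (nat_lit 970264773413) (nat_lit 0) (nat_lit 61171638811) (nat_lit 5) (nat_lit 5) (nat_lit 7) (nat_lit 4) (nat_lit 5) (nat_lit 4) (nat_lit 310) (nat_lit 287) (nat_lit 183)) (XT.nd (nat_lit 78) (nat_lit 0) (nat_lit 0) (XT.lf (nat_lit 0) (nat_lit 739110882509) (nat_lit 152) (nat_lit 557069640242) (nat_lit 0) (nat_lit 356748230155) (nat_lit 5) (nat_lit 5) (nat_lit 7) (nat_lit 4) (nat_lit 5) (nat_lit 4) (nat_lit 311) (nat_lit 287) (nat_lit 182)) (XT.lf (nat_lit 0) (nat_lit 1079023956476) (nat_lit 152) (nat_lit 81895303434) (nat_lit 0) (nat_lit 696661283007) (nat_lit 5) (nat_lit 5) (nat_lit 7) (nat_lit 4) (nat_lit 5) (nat_lit 4) (nat_lit 312) (nat_lit 287) (nat_lit 181)))))) (XT.nd (nat_lit 312) (nat_lit 76) (nat_lit 0) (XT.nd (nat_lit 156) (nat_lit 76) (nat_lit 0) (XT.nd (nat_lit 78) (nat_lit 0) (nat_lit 0)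 (XT.lf (nat_lit 0) (nat_lit 509954831724) (nat_lit 76) (nat_lit 981085272344) (nat_lit 76) (nat_lit 598722580515) (nat_lit 4) (nat_lit 4) (nat_lit 5) (nat_lit 5) (nat_lit 5) (nat_lit 4) (nat_lit 313) (nat_lit 287) (nat_lit 180)) (XT.lf (nat_lit 0) (nat_lit 1199786347446) (nat_lit 76) (nat_lit 769353189224) (nat_lit 76) (nat_lit 386990481428) (nat_lit 4) (nat_lit 4) (nat_lit 5) (nat_lit 5) (nat_lit 5) (nat_lit 4) (nat_lit 314) (nat_lit 287) (nat_lit 179))) (XT.nd (nat_lit 78) (nat_lit 76) (nat_lit 0) (XT.lf (nat_lit 0) (nat_lit 1993092542645) (nat_lit 76) (nat_lit 525861317176) (nat_lit 76) (nat_lit 143498595497) (nat_lit 4) (nat_lit 4) (nat_lit 5) (nat_lit 5) (nat_lit 5) (nat_lit 4) (nat_lit 315) (nat_lit 287) (nat_lit 178)) (XT.lf (nat_lit 0) (nat_lit 124363357231) (nat_lit 152) (nat_lit 114981515704) (nat_lit 76) (nat_lit 2774530456402) (nat_lit 3) (nat_lit 5) (nat_lit 5) (nat_lit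 5) (nat_lit 4) (nat_lit 4) (nat_lit 316) (nat_lit 287) (nat_lit 177)))) (XT.nd (nat_lit 156) (nat_lit 0) (nat_lit 0) (XT.nd (nat_lit 78) (nat_lit 0) (nat_lit 0) (XT.lf (nat_lit 0) (nat_lit 446329444227) (nat_lit 152) (nat_lit 2852524644244) (nat_lit 0) (nat_lit 113840101401) (nat_lit 2) (nat_lit 5) (nat_lit 4) (nat_lit 4) (nat_lit 2) (nat_lit 4) (nat_lit 317) (nat_lit 287) (nat_lit 176)) (XT.lf (nat_lit 0) (nat_lit 834284406949) (nat_lit 152) (nat_lit 2532602321966) (nat_lit 0) (nat_lit 501795056185) (nat_lit 2) (nat_lit 5) (nat_lit 4) (nat_lit 4) (nat_lit 2) (nat_lit 4) (nat_lit 318) (nat_lit 287) (nat_lit 175))) (XT.nd (nat_lit 78) (nat_lit 0) (nat_lit 0) (XT.lf (nat_lit 0) (nat_lit 1280432597526) (nat_lit 152) (nat_lit 2164691684725) (nat_lit 0) (nat_lit 947943239859) (nat_lit 2) (nat_lit 5) (nat_lit 4) (nat_lit 4) (nat_lit 2) (nat_lit 4) (nat_lit 319) (nat_lit 287) (nat_lit 174))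 (XT.nd (nat_lit 78) (nat_lit 0) (nat_lit 0) (XT.lf (nat_lit 0) (nat_lit 1793503002294) (nat_lit 152) (nat_lit 1741594480922) (nat_lit 0) (nat_lit 1461013638625) (nat_lit 2) (nat_lit 5) (nat_lit 4) (nat_lit 4) (nat_lit 2) (nat_lit 4) (nat_lit 320) (nat_lit 287) (nat_lit 173)) (XT.lf (nat_lit 0) (nat_lit 2383533955260) (nat_lit 152) (nat_lit 1255032721786) (nat_lit 0) (nat_lit 2051044586372) (nat_lit 2) (nat_lit 5) (nat_lit 4) (nat_lit 4) (nat_lit 2) (nat_lit 4) (nat_lit 321) (nat_lit 287) (nat_lit 172))))))) (XT.nd (nat_lit 702) (nat_lit 0) (nat_lit 0) (XT.nd (nat_lit 312) (nat_lit 0) (nat_lit 0) (XT.nd (nat_lit 156) (nat_lit 76) (nat_lit 0) (XT.nd (nat_lit 78) (nat_lit 0) (nat_lit 0) (XT.lf (nat_lit 0) (nat_lit 3062069540287) (nat_lit 152) (nat_lit 695486720727) (nat_lit 0) (nat_lit 2729580166860) (nat_lit 2) (nat_lit 5) (nat_lit 4) (nat_lit 4) (nat_lit 2) (nat_lit 4) (nat_lit 322) (nat_lit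 287) (nat_lit 171)) (XT.lf (nat_lit 0) (nat_lit 3842385453602) (nat_lit 152) (nat_lit 52008838593) (nat_lit 0) (nat_lit 3509896076229) (nat_lit 2) (nat_lit 5) (nat_lit 4) (nat_lit 4) (nat_lit 2) (nat_lit 4) (nat_lit 323) (nat_lit 287) (nat_lit 170))) (XT.nd (nat_lit 78) (nat_lit 0) (nat_lit 0) (XT.lf (nat_lit 0) (nat_lit 755226164943) (nat_lit 76) (nat_lit 4015794885708) (nat_lit 76) (nat_lit 3683305504902) (nat_lit 1) (nat_lit 4) (nat_lit 2) (nat_lit 5) (nat_lit 2) (nat_lit 4) (nat_lit 324) (nat_lit 287) (nat_lit 169)) (XT.lf (nat_lit 0) (nat_lit 1689391487417) (nat_lit 76) (nat_lit 4152279135863) (nat_lit 76) (nat_lit 3819789752073) (nat_lit 1) (nat_lit 4) (nat_lit 2) (nat_lit 5) (nat_lit 2) (nat_lit 4) (nat_lit 325) (nat_lit 287) (nat_lit 168)))) (XT.nd (nat_lit 156) (nat_lit 0) (nat_lit 0) (XT.nd (nat_lit 78) (nat_lit 0) (nat_lit 0) (XT.lf (nat_lit 0) (nat_lit 2763681594488) (nat_lit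 76) (nat_lit 4309236030522) (nat_lit 76) (nat_lit 3976746644138) (nat_lit 1) (nat_lit 4) (nat_lit 2) (nat_lit 5) (nat_lit 2) (nat_lit 4) (nat_lit 326) (nat_lit 287) (nat_lit 167)) (XT.lf (nat_lit 0) (nat_lit 3999115205643) (nat_lit 76) (nat_lit 4489736465450) (nat_lit 76) (nat_lit 4157247076809) (nat_lit 1) (nat_lit 4) (nat_lit 2) (nat_lit 5) (nat_lit 2) (nat_lit 4) (nat_lit 327) (nat_lit 287) (nat_lit 166))) (XT.nd (nat_lit 78) (nat_lit 0) (nat_lit 0) (XT.lf (nat_lit 0) (nat_lit 5419863848054) (nat_lit 76) (nat_lit 4697311970896) (nat_lit 76) (nat_lit 4364822580293) (nat_lit 1) (nat_lit 4) (nat_lit 2) (nat_lit 5) (nat_lit 2) (nat_lit 4) (nat_lit 328) (nat_lit 287) (nat_lit 165)) (XT.nd (nat_lit 78) (nat_lit 0) (nat_lit 0) (XT.lf (nat_lit 0) (nat_lit 7053724777771) (nat_lit 76) (nat_lit 4936023806748) (nat_lit 76) (nat_lit 4603534414439) (nat_lit 1) (nat_lit 4) (nat_lit 2) (nat_lit 5)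 (nat_lit 2) (nat_lit 4) (nat_lit 329) (nat_lit 287) (nat_lit 164)) (XT.lf (nat_lit 0) (nat_lit 8932664839070) (nat_lit 76) (nat_lit 5210542421969) (nat_lit 76) (nat_lit 4878053028176) (nat_lit 1) (nat_lit 4) (nat_lit 2) (nat_lit 5) (nat_lit 2) (nat_lit 4) (nat_lit 330) (nat_lit 287) (nat_lit 163)))))) (XT.nd (nat_lit 390) (nat_lit 0) (nat_lit 0) (XT.nd (nat_lit 156) (nat_lit 0) (nat_lit 0) (XT.nd (nat_lit 78) (nat_lit 0) (nat_lit 0) (XT.lf (nat_lit 0) (nat_lit 11093445902715) (nat_lit 76) (nat_lit 5526238832945) (nat_lit 76) (nat_lit 5193749437862) (nat_lit 1) (nat_lit 4) (nat_lit 2) (nat_lit 5) (nat_lit 2) (nat_lit 4) (nat_lit 331) (nat_lit 287) (nat_lit 162)) (XT.lf (nat_lit 0) (nat_lit 13578344119953) (nat_lit 76) (nat_lit 5889289708584) (nat_lit 76) (nat_lit 5556800312379) (nat_lit 1) (nat_lit 4) (nat_lit 2) (nat_lit 5) (nat_lit 2) (nat_lit 4) (nat_lit 332) (nat_lit 287) (nat_lit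 161))) (XT.nd (nat_lit 78) (nat_lit 0) (nat_lit 0) (XT.lf (nat_lit 0) (nat_lit 16435977064597) (nat_lit 76) (nat_lit 6306798218194) (nat_lit 76) (nat_lit 5974308821013) (nat_lit 1) (nat_lit 4) (nat_lit 2) (nat_lit 5) (nat_lit 2) (nat_lit 4) (nat_lit 333) (nat_lit 287) (nat_lit 160)) (XT.nd (nat_lit 78) (nat_lit 0) (nat_lit 0) (XT.lf (nat_lit 0) (nat_lit 19722254946435) (nat_lit 76) (nat_lit 6786933006527) (nat_lit 76) (nat_lit 6454443608498) (nat_lit 1) (nat_lit 4) (nat_lit 2) (nat_lit 5) (nat_lit 2) (nat_lit 4) (nat_lit 334) (nat_lit 287) (nat_lit 159)) (XT.lf (nat_lit 0) (nat_lit 23501474506634) (nat_lit 76) (nat_lit 7339088015094) (nat_lit 76) (nat_lit 7006598616327) (nat_lit 1) (nat_lit 4) (nat_lit 2) (nat_lit 5) (nat_lit 2) (nat_lit 4) (nat_lit 335) (nat_lit 287) (nat_lit 158))))) (XT.nd (nat_lit 36894) (nat_lit 0) (nat_lit 1444) (XT.nd (nat_lit 78) (nat_lit 0) (nat_lit 0) (XT.lf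 (nat_lit 0) (nat_lit 27847576997458) (nat_lit 76) (nat_lit 7974066276672) (nat_lit 76) (nat_lit 7641576877264) (nat_lit 1) (nat_lit 4) (nat_lit 2) (nat_lit 5) (nat_lit 2) (nat_lit 4) (nat_lit 336) (nat_lit 287) (nat_lit 157)) (XT.lf (nat_lit 0) (nat_lit 32845594858944) (nat_lit 76) (nat_lit 8704291278987) (nat_lit 76) (nat_lit 8371801879021) (nat_lit 1) (nat_lit 4) (nat_lit 2) (nat_lit 5) (nat_lit 2) (nat_lit 4) (nat_lit 337) (nat_lit 287) (nat_lit 156))) (XT.nd (nat_lit 78) (nat_lit 0) (nat_lit 0) (XT.lf (nat_lit 0) (nat_lit 14300828859) (nat_lit 380) (nat_lit 43842361037) (nat_lit 380) (nat_lit 43842361037) (nat_lit 20) (nat_lit 3) (nat_lit 25) (nat_lit 3) (nat_lit 25) (nat_lit 5) (nat_lit 288) (nat_lit 288) (nat_lit 204)) (XT.nd (nat_lit 78) (nat_lit 0) (nat_lit 76) (XT.lf (nat_lit 76) (nat_lit 7269837137) (nat_lit 0) (nat_lit 23779396207) (nat_lit 380) (nat_lit 188174327218) (nat_lit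 21) (nat_lit 5) (nat_lit 20) (nat_lit 3) (nat_lit 25) (nat_lit 5) (nat_lit 289) (nat_lit 288) (nat_lit 203)) (XT.lf (nat_lit 0) (nat_lit 42085912214) (nat_lit 304) (nat_lit 113393120791) (nat_lit 380) (nat_lit 80051561136) (nat_lit 21) (nat_lit 5) (nat_lit 25) (nat_lit 5) (nat_lit 26) (nat_lit 5) (nat_lit 290) (nat_lit 288) (nat_lit 202))))))))
noncomputable def xc99 : XT := (XT.nd (nat_lit 1404) (nat_lit 456) (nat_lit 0) (XT.nd (nat_lit 702) (nat_lit 380) (nat_lit 0) (XT.nd (nat_lit 312) (nat_lit 456) (nat_lit 0) (XT.nd (nat_lit 156) (nat_lit 228) (nat_lit 0) (XT.nd (nat_lit 78) (nat_lit 0) (nat_lit 76) (XT.lf (nat_lit 0) (nat_lit 55910222616) (nat_lit 304) (nat_lit 1180958006) (nat_lit 380) (nat_lit 197022683646) (nat_lit 21) (nat_lit 5) (nat_lit 25) (nat_lit 5) (nat_lit 26) (nat_lit 5) (nat_lit 291) (nat_lit 288) (nat_lit 201)) (XT.lf (nat_lit 0) (nat_lit 80217807794) (nat_lit 304)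 (nat_lit 136852170934) (nat_lit 76) (nat_lit 57153202796) (nat_lit 22) (nat_lit 5) (nat_lit 26) (nat_lit 5) (nat_lit 23) (nat_lit 5) (nat_lit 292) (nat_lit 288) (nat_lit 200))) (XT.nd (nat_lit 78) (nat_lit 304) (nat_lit 0) (XT.lf (nat_lit 0) (nat_lit 110954656649) (nat_lit 304) (nat_lit 3222881562) (nat_lit 76) (nat_lit 182753890004) (nat_lit 22) (nat_lit 5) (nat_lit 26) (nat_lit 5) (nat_lit 23) (nat_lit 5) (nat_lit 293) (nat_lit 288) (nat_lit 199)) (XT.lf (nat_lit 0) (nat_lit 153637990323) (nat_lit 380) (nat_lit 157363797665) (nat_lit 76) (nat_lit 10943730933) (nat_lit 18) (nat_lit 5) (nat_lit 23) (nat_lit 5) (nat_lit 19) (nat_lit 5) (nat_lit 294) (nat_lit 288) (nat_lit 198)))) (XT.nd (nat_lit 156) (nat_lit 304) (nat_lit 0) (XT.nd (nat_lit 78) (nat_lit 0) (nat_lit 0) (XT.lf (nat_lit 0) (nat_lit 1962247799) (nat_lit 152) (nat_lit 206456208092) (nat_lit 228) (nat_lit 141439073120) (nat_lit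 16) (nat_lit 5) (nat_lit 18) (nat_lit 5) (nat_lit 19) (nat_lit 5) (nat_lit 295) (nat_lit 288) (nat_lit 197)) (XT.lf (nat_lit 0) (nat_lit 202872586008) (nat_lit 152) (nat_lit 76769114087) (nat_lit 228) (nat_lit 101080784680) (nat_lit 16) (nat_lit 5) (nat_lit 18) (nat_lit 5) (nat_lit 19) (nat_lit 5) (nat_lit 296) (nat_lit 288) (nat_lit 196))) (XT.nd (nat_lit 78) (nat_lit 228) (nat_lit 0) (XT.lf (nat_lit 0) (nat_lit 16142525716) (nat_lit 76) (nat_lit 349070952559) (nat_lit 152) (nat_lit 50453948944) (nat_lit 15) (nat_lit 5) (nat_lit 16) (nat_lit 5) (nat_lit 17) (nat_lit 4) (nat_lit 297) (nat_lit 288) (nat_lit 195)) (XT.nd (nat_lit 78) (nat_lit 152) (nat_lit 0) (XT.lf (nat_lit 0) (nat_lit 20470411577) (nat_lit 152) (nat_lit 199658030039) (nat_lit 76) (nat_lit 233668183493) (nat_lit 14) (nat_lit 5) (nat_lit 16) (nat_lit 5) (nat_lit 15) (nat_lit 5) (nat_lit 298) (nat_lit 288) (nat_lit 194))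 (XT.lf (nat_lit 0) (nat_lit 30501632117) (nat_lit 152) (nat_lit 67629184636) (nat_lit 228) (nat_lit 398964563765) (nat_lit 12) (nat_lit 5) (nat_lit 14) (nat_lit 5) (nat_lit 15) (nat_lit 5) (nat_lit 299) (nat_lit 288) (nat_lit 193)))))) (XT.nd (nat_lit 312) (nat_lit 228) (nat_lit 0) (XT.nd (nat_lit 156) (nat_lit 76) (nat_lit 0) (XT.nd (nat_lit 78) (nat_lit 76) (nat_lit 0) (XT.lf (nat_lit 0) (nat_lit 202835337135) (nat_lit 228) (nat_lit 232657980992) (nat_lit 76) (nat_lit 109086373189) (nat_lit 12) (nat_lit 5) (nat_lit 15) (nat_lit 5) (nat_lit 13) (nat_lit 4) (nat_lit 300) (nat_lit 288) (nat_lit 192)) (XT.lf (nat_lit 0) (nat_lit 36387013902) (nat_lit 76) (nat_lit 291585590587) (nat_lit 152) (nat_lit 270504984113) (nat_lit 11) (nat_lit 5) (nat_lit 12) (nat_lit 5) (nat_lit 13) (nat_lit 4) (nat_lit 301) (nat_lit 288) (nat_lit 191))) (XT.nd (nat_lit 78) (nat_lit 76) (nat_lit 0) (XT.lf (nat_lit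 0) (nat_lit 371936224254) (nat_lit 76) (nat_lit 112105832944) (nat_lit 152) (nat_lit 174593874177) (nat_lit 11) (nat_lit 5) (nat_lit 12) (nat_lit 5) (nat_lit 13) (nat_lit 4) (nat_lit 302) (nat_lit 288) (nat_lit 190)) (XT.lf (nat_lit 0) (nat_lit 28645290068) (nat_lit 76) (nat_lit 639967305549) (nat_lit 76) (nat_lit 58441829932) (nat_lit 10) (nat_lit 4) (nat_lit 11) (nat_lit 5) (nat_lit 11) (nat_lit 4) (nat_lit 303) (nat_lit 288) (nat_lit 189)))) (XT.nd (nat_lit 156) (nat_lit 152) (nat_lit 0) (XT.nd (nat_lit 78) (nat_lit 0) (nat_lit 0) (XT.lf (nat_lit 0) (nat_lit 89482691712) (nat_lit 152) (nat_lit 389137762715) (nat_lit 76) (nat_lit 323492795040) (nat_lit 9) (nat_lit 5) (nat_lit 11) (nat_lit 5) (nat_lit 10) (nat_lit 4) (nat_lit 304) (nat_lit 288) (nat_lit 188)) (XT.lf (nat_lit 0) (nat_lit 253612506430) (nat_lit 152) (nat_lit 36258725662) (nat_lit 76) (nat_lit 598142231585) (nat_lit 9)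 (nat_lit 5) (nat_lit 11) (nat_lit 5) (nat_lit 10) (nat_lit 4) (nat_lit 305) (nat_lit 288) (nat_lit 187))) (XT.nd (nat_lit 78) (nat_lit 76) (nat_lit 0) (XT.lf (nat_lit 0) (nat_lit 405667399432) (nat_lit 76) (nat_lit 53492168050) (nat_lit 152) (nat_lit 525119476510) (nat_lit 8) (nat_lit 5) (nat_lit 9) (nat_lit 5) (nat_lit 10) (nat_lit 4) (nat_lit 306) (nat_lit 288) (nat_lit 186)) (XT.nd (nat_lit 78) (nat_lit 76) (nat_lit 0) (XT.lf (nat_lit 0) (nat_lit 706565387479) (nat_lit 152) (nat_lit 185874220197) (nat_lit 0) (nat_lit 200890848786) (nat_lit 8) (nat_lit 5) (nat_lit 10) (nat_lit 4) (nat_lit 8) (nat_lit 4) (nat_lit 307) (nat_lit 288) (nat_lit 185)) (XT.lf (nat_lit 0) (nat_lit 288950904471) (nat_lit 76) (nat_lit 716643222524) (nat_lit 76) (nat_lit 210968646900) (nat_lit 7) (nat_lit 4) (nat_lit 8) (nat_lit 5) (nat_lit 8) (nat_lit 4) (nat_lit 308) (nat_lit 288) (nat_lit 184))))))) (XT.nd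 (nat_lit 702) (nat_lit 152) (nat_lit 0) (XT.nd (nat_lit 312) (nat_lit 152) (nat_lit 0) (XT.nd (nat_lit 156) (nat_lit 76) (nat_lit 0) (XT.nd (nat_lit 78) (nat_lit 0) (nat_lit 0) (XT.lf (nat_lit 0) (nat_lit 2159707634) (nat_lit 152) (nat_lit 501031236322) (nat_lit 76) (nat_lit 853616852608) (nat_lit 6) (nat_lit 5) (nat_lit 8) (nat_lit 5) (nat_lit 7) (nat_lit 4) (nat_lit 309) (nat_lit 288) (nat_lit 183)) (XT.lf (nat_lit 0) (nat_lit 225658109657) (nat_lit 152) (nat_lit 20509699899) (nat_lit 76) (nat_lit 1270414849422) (nat_lit 6) (nat_lit 5) (nat_lit 8) (nat_lit 5) (nat_lit 7) (nat_lit 4) (nat_lit 310) (nat_lit 288) (nat_lit 182))) (XT.nd (nat_lit 78) (nat_lit 0) (nat_lit 0) (XT.lf (nat_lit 0) (nat_lit 510064773052) (nat_lit 152) (nat_lit 1115803775132) (nat_lit 0) (nat_lit 70347677448) (nat_lit 5) (nat_lit 5) (nat_lit 7) (nat_lit 4) (nat_lit 5) (nat_lit 4) (nat_lit 311) (nat_lit 288) (nat_lit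 181)) (XT.lf (nat_lit 0) (nat_lit 849977833266) (nat_lit 152) (nat_lit 640629465154) (nat_lit 0) (nat_lit 410260719301) (nat_lit 5) (nat_lit 5) (nat_lit 7) (nat_lit 4) (nat_lit 5) (nat_lit 4) (nat_lit 312) (nat_lit 288) (nat_lit 180)))) (XT.nd (nat_lit 156) (nat_lit 76) (nat_lit 0) (XT.nd (nat_lit 78) (nat_lit 76) (nat_lit 0) (XT.lf (nat_lit 0) (nat_lit 1240877826800) (nat_lit 152) (nat_lit 94179058841) (nat_lit 0) (nat_lit 801160696869) (nat_lit 5) (nat_lit 5) (nat_lit 7) (nat_lit 4) (nat_lit 5) (nat_lit 4) (nat_lit 313) (nat_lit 288) (nat_lit 179)) (XT.lf (nat_lit 0) (nat_lit 586448572041) (nat_lit 76) (nat_lit 1128247809728) (nat_lit 76) (nat_lit 688530665913) (nat_lit 4) (nat_lit 4) (nat_lit 5) (nat_lit 5) (nat_lit 5) (nat_lit 4) (nat_lit 314) (nat_lit 288) (nat_lit 178))) (XT.nd (nat_lit 78) (nat_lit 76) (nat_lit 0) (XT.lf (nat_lit 0) (nat_lit 1379754747874) (nat_lit 76) (nat_lit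 884755947201) (nat_lit 76) (nat_lit 445038791313) (nat_lit 4) (nat_lit 4) (nat_lit 5) (nat_lit 5) (nat_lit 5) (nat_lit 4) (nat_lit 315) (nat_lit 288) (nat_lit 177)) (XT.nd (nat_lit 78) (nat_lit 76) (nat_lit 0) (XT.lf (nat_lit 0) (nat_lit 2292056813878) (nat_lit 76) (nat_lit 604740323094) (nat_lit 76) (nat_lit 165023156709) (nat_lit 4) (nat_lit 4) (nat_lit 5) (nat_lit 5) (nat_lit 5) (nat_lit 4) (nat_lit 316) (nat_lit 288) (nat_lit 176)) (XT.lf (nat_lit 0) (nat_lit 143018041515) (nat_lit 152) (nat_lit 132228386255) (nat_lit 76) (nat_lit 3190710173705) (nat_lit 3) (nat_lit 5) (nat_lit 5) (nat_lit 5) (nat_lit 4) (nat_lit 4) (nat_lit 317) (nat_lit 288) (nat_lit 175)))))) (XT.nd (nat_lit 390) (nat_lit 76) (nat_lit 0) (XT.nd (nat_lit 156) (nat_lit 0) (nat_lit 0) (XT.nd (nat_lit 78) (nat_lit 0) (nat_lit 0) (XT.lf (nat_lit 0) (nat_lit 513279039107) (nat_lit 152) (nat_lit 3280402981486) (nat_lit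 0) (nat_lit 130916270887) (nat_lit 2) (nat_lit 5) (nat_lit 4) (nat_lit 4) (nat_lit 2) (nat_lit 4) (nat_lit 318) (nat_lit 288) (nat_lit 174)) (XT.lf (nat_lit 0) (nat_lit 959427222988) (nat_lit 152) (nat_lit 2912492357744) (nat_lit 0) (nat_lit 577064448766) (nat_lit 2) (nat_lit 5) (nat_lit 4) (nat_lit 4) (nat_lit 2) (nat_lit 4) (nat_lit 319) (nat_lit 288) (nat_lit 173))) (XT.nd (nat_lit 78) (nat_lit 0) (nat_lit 0) (XT.lf (nat_lit 0) (nat_lit 1472497621934) (nat_lit 152) (nat_lit 2489395165679) (nat_lit 0) (nat_lit 1090134842493) (nat_lit 2) (nat_lit 5) (nat_lit 4) (nat_lit 4) (nat_lit 2) (nat_lit 4) (nat_lit 320) (nat_lit 288) (nat_lit 172)) (XT.nd (nat_lit 78) (nat_lit 0) (nat_lit 0) (XT.lf (nat_lit 0) (nat_lit 2062528569838) (nat_lit 152) (nat_lit 2002833416752) (nat_lit 0) (nat_lit 1680165785858) (nat_lit 2) (nat_lit 5) (nat_lit 4) (nat_lit 4) (nat_lit 2) (nat_lit 4) (nat_lit 321) (nat_lit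 288) (nat_lit 171)) (XT.lf (nat_lit 0) (nat_lit 2741064150462) (nat_lit 152) (nat_lit 1443287424569) (nat_lit 0) (nat_lit 2358701362536) (nat_lit 2) (nat_lit 5) (nat_lit 4) (nat_lit 4) (nat_lit 2) (nat_lit 4) (nat_lit 322) (nat_lit 288) (nat_lit 170))))) (XT.nd (nat_lit 156) (nat_lit 76) (nat_lit 0) (XT.nd (nat_lit 78) (nat_lit 0) (nat_lit 0) (XT.lf (nat_lit 0) (nat_lit 3521380059949) (nat_lit 152) (nat_lit 799809550154) (nat_lit 0) (nat_lit 3139017268591) (nat_lit 2) (nat_lit 5) (nat_lit 4) (nat_lit 4) (nat_lit 2) (nat_lit 4) (nat_lit 323) (nat_lit 288) (nat_lit 169)) (XT.lf (nat_lit 0) (nat_lit 4418743348703) (nat_lit 152) (nat_lit 59810009006) (nat_lit 0) (nat_lit 4036380554361) (nat_lit 2) (nat_lit 5) (nat_lit 4) (nat_lit 4) (nat_lit 2) (nat_lit 4) (nat_lit 324) (nat_lit 288) (nat_lit 168))) (XT.nd (nat_lit 78) (nat_lit 0) (nat_lit 0) (XT.lf (nat_lit 0) (nat_lit 868510237999) (nat_lit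 76) (nat_lit 4618164043401) (nat_lit 76) (nat_lit 4235801246463) (nat_lit 1) (nat_lit 4) (nat_lit 2) (nat_lit 5) (nat_lit 2) (nat_lit 4) (nat_lit 325) (nat_lit 288) (nat_lit 167)) (XT.nd (nat_lit 78) (nat_lit 0) (nat_lit 0) (XT.lf (nat_lit 0) (nat_lit 1942800339499) (nat_lit 76) (nat_lit 4775120940883) (nat_lit 76) (nat_lit 4392758141689) (nat_lit 1) (nat_lit 4) (nat_lit 2) (nat_lit 5) (nat_lit 2) (nat_lit 4) (nat_lit 326) (nat_lit 288) (nat_lit 166)) (XT.lf (nat_lit 0) (nat_lit 3178233945808) (nat_lit 76) (nat_lit 4955621378266) (nat_lit 76) (nat_lit 4573258577110) (nat_lit 1) (nat_lit 4) (nat_lit 2) (nat_lit 5) (nat_lit 2) (nat_lit 4) (nat_lit 327) (nat_lit 288) (nat_lit 165))))))))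
noncomputable def xc100 : XT := (XT.nd (nat_lit 38064) (nat_lit 0) (nat_lit 304) (XT.nd (nat_lit 702) (nat_lit 0) (nat_lit 0) (XT.nd (nat_lit 312) (nat_lit 0) (nat_lit 0) (XT.nd (nat_lit 156) (nat_lit 0) (nat_lit 0) (XT.nd (nat_lit 78) (nat_lit 0) (nat_lit 0) (XT.lf (nat_lit 0) (nat_lit 4598982584008) (nat_lit 76) (nat_lit 5163196885846) (nat_lit 76) (nat_lit 4780834082985) (nat_lit 1) (nat_lit 4) (nat_lit 2) (nat_lit 5) (nat_lit 2) (nat_lit 4) (nat_lit 328) (nat_lit 288) (nat_lit 164)) (XT.lf (nat_lit 0) (nat_lit 6232843510062) (nat_lit 76) (nat_lit 5401908723555) (nat_lit 76) (nat_lit 5019545919210) (nat_lit 1) (nat_lit 4) (nat_lit 2) (nat_lit 5) (nat_lit 2) (nat_lit 4) (nat_lit 329) (nat_lit 288) (nat_lit 163))) (XT.nd (nat_lit 78) (nat_lit 0) (nat_lit 0) (XT.lf (nat_lit 0) (nat_lit 8111783568175) (nat_lit 76) (nat_lit 5676427340391) (nat_lit 76) (nat_lit 5294064534755) (nat_lit 1)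 (nat_lit 4) (nat_lit 2) (nat_lit 5) (nat_lit 2) (nat_lit 4) (nat_lit 330) (nat_lit 288) (nat_lit 162)) (XT.lf (nat_lit 0) (nat_lit 10272564629051) (nat_lit 76) (nat_lit 5992123752770) (nat_lit 76) (nat_lit 5609760946012) (nat_lit 1) (nat_lit 4) (nat_lit 2) (nat_lit 5) (nat_lit 2) (nat_lit 4) (nat_lit 331) (nat_lit 288) (nat_lit 161)))) (XT.nd (nat_lit 156) (nat_lit 0) (nat_lit 0) (XT.nd (nat_lit 78) (nat_lit 0) (nat_lit 0) (XT.lf (nat_lit 0) (nat_lit 12757462843879) (nat_lit 76) (nat_lit 6355174629630) (nat_lit 76) (nat_lit 5972811821897) (nat_lit 1) (nat_lit 4) (nat_lit 2) (nat_lit 5) (nat_lit 2) (nat_lit 4) (nat_lit 332) (nat_lit 288) (nat_lit 160)) (XT.lf (nat_lit 0) (nat_lit 15615095786430) (nat_lit 76) (nat_lit 6772683140301) (nat_lit 76) (nat_lit 6390320331719) (nat_lit 1) (nat_lit 4) (nat_lit 2) (nat_lit 5) (nat_lit 2) (nat_lit 4) (nat_lit 333) (nat_lit 288) (nat_lit 159))) (XT.nd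 (nat_lit 78) (nat_lit 0) (nat_lit 0) (XT.lf (nat_lit 0) (nat_lit 18901373666447) (nat_lit 76) (nat_lit 7252817929557) (nat_lit 76) (nat_lit 6870455120238) (nat_lit 1) (nat_lit 4) (nat_lit 2) (nat_lit 5) (nat_lit 2) (nat_lit 4) (nat_lit 334) (nat_lit 288) (nat_lit 158)) (XT.nd (nat_lit 78) (nat_lit 0) (nat_lit 0) (XT.lf (nat_lit 0) (nat_lit 22680593225062) (nat_lit 76) (nat_lit 7804972938927) (nat_lit 76) (nat_lit 7422610128966) (nat_lit 1) (nat_lit 4) (nat_lit 2) (nat_lit 5) (nat_lit 2) (nat_lit 4) (nat_lit 335) (nat_lit 288) (nat_lit 157)) (XT.lf (nat_lit 0) (nat_lit 27026695714508) (nat_lit 76) (nat_lit 8439951201202) (nat_lit 76) (nat_lit 8057588390684) (nat_lit 1) (nat_lit 4) (nat_lit 2) (nat_lit 5) (nat_lit 2) (nat_lit 4) (nat_lit 336) (nat_lit 288) (nat_lit 156)))))) (XT.nd (nat_lit 36972) (nat_lit 0) (nat_lit 1444) (XT.nd (nat_lit 234) (nat_lit 0) (nat_lit 0) (XT.nd (nat_lit 156)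 (nat_lit 0) (nat_lit 0) (XT.lf (nat_lit 0) (nat_lit 32024713574797) (nat_lit 76) (nat_lit 9170176204124) (nat_lit 76) (nat_lit 8787813393121) (nat_lit 1) (nat_lit 4) (nat_lit 2) (nat_lit 5) (nat_lit 2) (nat_lit 4) (nat_lit 337) (nat_lit 288) (nat_lit 155)) (XT.lf (nat_lit 0) (nat_lit 44382312727602) (nat_lit 76) (nat_lit 10975657527274) (nat_lit 76) (nat_lit 10593294715483) (nat_lit 1) (nat_lit 4) (nat_lit 2) (nat_lit 5) (nat_lit 2) (nat_lit 4) (nat_lit 339) (nat_lit 288) (nat_lit 153))) (XT.nd (nat_lit 36660) (nat_lit 0) (nat_lit 1444) (XT.lf (nat_lit 0) (nat_lit 51983673133977) (nat_lit 76) (nat_lit 12086238482086) (nat_lit 76) (nat_lit 11703875669975) (nat_lit 1) (nat_lit 4) (nat_lit 2) (nat_lit 5) (nat_lit 2) (nat_lit 4) (nat_lit 340) (nat_lit 288) (nat_lit 152)) (XT.lf (nat_lit 0) (nat_lit 16447317116) (nat_lit 380) (nat_lit 50417927938) (nat_lit 380) (nat_lit 50417927938) (nat_lit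 20) (nat_lit 3) (nat_lit 25) (nat_lit 3) (nat_lit 25) (nat_lit 5) (nat_lit 289) (nat_lit 289) (nat_lit 202)))) (XT.nd (nat_lit 156) (nat_lit 0) (nat_lit 76) (XT.nd (nat_lit 78) (nat_lit 0) (nat_lit 76) (XT.lf (nat_lit 76) (nat_lit 8361815647) (nat_lit 0) (nat_lit 27347236981) (nat_lit 380) (nat_lit 216397666458) (nat_lit 21) (nat_lit 5) (nat_lit 20) (nat_lit 3) (nat_lit 25) (nat_lit 5) (nat_lit 290) (nat_lit 289) (nat_lit 201)) (XT.lf (nat_lit 0) (nat_lit 48400882278) (nat_lit 304) (nat_lit 130400421898) (nat_lit 380) (nat_lit 92058557542) (nat_lit 21) (nat_lit 5) (nat_lit 25) (nat_lit 5) (nat_lit 26) (nat_lit 5) (nat_lit 291) (nat_lit 289) (nat_lit 200))) (XT.nd (nat_lit 78) (nat_lit 0) (nat_lit 76) (XT.lf (nat_lit 0) (nat_lit 64298567515) (nat_lit 304) (nat_lit 1356652130) (nat_lit 380) (nat_lit 226575444659) (nat_lit 21) (nat_lit 5) (nat_lit 25) (nat_lit 5) (nat_lit 26) (nat_lit 5)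 (nat_lit 292) (nat_lit 289) (nat_lit 199)) (XT.nd (nat_lit 78) (nat_lit 0) (nat_lit 0) (XT.lf (nat_lit 0) (nat_lit 92252101178) (nat_lit 304) (nat_lit 157378350856) (nat_lit 76) (nat_lit 65725956536) (nat_lit 22) (nat_lit 5) (nat_lit 26) (nat_lit 5) (nat_lit 23) (nat_lit 5) (nat_lit 293) (nat_lit 289) (nat_lit 198)) (XT.lf (nat_lit 0) (nat_lit 127599265768) (nat_lit 304) (nat_lit 3704882737) (nat_lit 76) (nat_lit 210166776392) (nat_lit 22) (nat_lit 5) (nat_lit 26) (nat_lit 5) (nat_lit 23) (nat_lit 5) (nat_lit 294) (nat_lit 289) (nat_lit 197))))))) (XT.nd (nat_lit 702) (nat_lit 456) (nat_lit 0) (XT.nd (nat_lit 312) (nat_lit 304) (nat_lit 0) (XT.nd (nat_lit 156) (nat_lit 76) (nat_lit 0) (XT.nd (nat_lit 78) (nat_lit 152) (nat_lit 0) (XT.lf (nat_lit 0) (nat_lit 176684975492) (nat_lit 380) (nat_lit 180966807075) (nat_lit 76) (nat_lit 12585366020) (nat_lit 18) (nat_lit 5) (nat_lit 23) (nat_lit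 5) (nat_lit 19) (nat_lit 5) (nat_lit 295) (nat_lit 289) (nat_lit 196)) (XT.lf (nat_lit 0) (nat_lit 2258074289) (nat_lit 152) (nat_lit 237424330456) (nat_lit 228) (nat_lit 162653572043) (nat_lit 16) (nat_lit 5) (nat_lit 18) (nat_lit 5) (nat_lit 19) (nat_lit 5) (nat_lit 296) (nat_lit 289) (nat_lit 195))) (XT.nd (nat_lit 78) (nat_lit 76) (nat_lit 0) (XT.lf (nat_lit 0) (nat_lit 233304768970) (nat_lit 152) (nat_lit 88284212635) (nat_lit 228) (nat_lit 116241717995) (nat_lit 16) (nat_lit 5) (nat_lit 18) (nat_lit 5) (nat_lit 19) (nat_lit 5) (nat_lit 297) (nat_lit 289) (nat_lit 194)) (XT.lf (nat_lit 0) (nat_lit 18565280867) (nat_lit 76) (nat_lit 401431178414) (nat_lit 152) (nat_lit 58020934726) (nat_lit 15) (nat_lit 5) (nat_lit 16) (nat_lit 5) (nat_lit 17) (nat_lit 4) (nat_lit 298) (nat_lit 289) (nat_lit 193)))) (XT.nd (nat_lit 156) (nat_lit 76) (nat_lit 0) (XT.nd (nat_lit 78) (nat_lit 152) (nat_lit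 0) (XT.lf (nat_lit 0) (nat_lit 23541849875) (nat_lit 152) (nat_lit 229605449529) (nat_lit 76) (nat_lit 268718685412) (nat_lit 14) (nat_lit 5) (nat_lit 16) (nat_lit 5) (nat_lit 15) (nat_lit 5) (nat_lit 299) (nat_lit 289) (nat_lit 192)) (XT.lf (nat_lit 0) (nat_lit 35078103541) (nat_lit 152) (nat_lit 77773148744) (nat_lit 228) (nat_lit 458808311119) (nat_lit 12) (nat_lit 5) (nat_lit 14) (nat_lit 5) (nat_lit 15) (nat_lit 5) (nat_lit 300) (nat_lit 289) (nat_lit 191))) (XT.nd (nat_lit 78) (nat_lit 76) (nat_lit 0) (XT.lf (nat_lit 0) (nat_lit 233261359570) (nat_lit 228) (nat_lit 267555518425) (nat_lit 76) (nat_lit 125449656790) (nat_lit 12) (nat_lit 5) (nat_lit 15) (nat_lit 5) (nat_lit 13) (nat_lit 4) (nat_lit 301) (nat_lit 289) (nat_lit 190)) (XT.nd (nat_lit 78) (nat_lit 0) (nat_lit 0) (XT.lf (nat_lit 0) (nat_lit 41846172988) (nat_lit 76) (nat_lit 335322995721) (nat_lit 152) (nat_lit 311079955457)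 (nat_lit 11) (nat_lit 5) (nat_lit 12) (nat_lit 5) (nat_lit 13) (nat_lit 4) (nat_lit 302) (nat_lit 289) (nat_lit 189)) (XT.lf (nat_lit 0) (nat_lit 427727620501) (nat_lit 76) (nat_lit 128921330969) (nat_lit 152) (nat_lit 200782280284) (nat_lit 11) (nat_lit 5) (nat_lit 12) (nat_lit 5) (nat_lit 13) (nat_lit 4) (nat_lit 303) (nat_lit 289) (nat_lit 188)))))) (XT.nd (nat_lit 312) (nat_lit 228) (nat_lit 0) (XT.nd (nat_lit 156) (nat_lit 76) (nat_lit 0) (XT.nd (nat_lit 78) (nat_lit 76) (nat_lit 0) (XT.lf (nat_lit 0) (nat_lit 32943072801) (nat_lit 76) (nat_lit 735961975990) (nat_lit 76) (nat_lit 67207454736) (nat_lit 10) (nat_lit 4) (nat_lit 11) (nat_lit 5) (nat_lit 11) (nat_lit 4) (nat_lit 304) (nat_lit 289) (nat_lit 187)) (XT.lf (nat_lit 0) (nat_lit 102905610118) (nat_lit 152) (nat_lit 447507515665) (nat_lit 76) (nat_lit 372017032938) (nat_lit 9) (nat_lit 5) (nat_lit 11) (nat_lit 5) (nat_lit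 10) (nat_lit 4) (nat_lit 305) (nat_lit 289) (nat_lit 186))) (XT.nd (nat_lit 78) (nat_lit 76) (nat_lit 0) (XT.lf (nat_lit 0) (nat_lit 291654829916) (nat_lit 152) (nat_lit 41696741940) (nat_lit 76) (nat_lit 687863843403) (nat_lit 9) (nat_lit 5) (nat_lit 11) (nat_lit 5) (nat_lit 10) (nat_lit 4) (nat_lit 306) (nat_lit 289) (nat_lit 185)) (XT.lf (nat_lit 0) (nat_lit 466518265892) (nat_lit 76) (nat_lit 61515657188) (nat_lit 152) (nat_lit 603886913707) (nat_lit 8) (nat_lit 5) (nat_lit 9) (nat_lit 5) (nat_lit 10) (nat_lit 4) (nat_lit 307) (nat_lit 289) (nat_lit 184)))) (XT.nd (nat_lit 156) (nat_lit 152) (nat_lit 0) (XT.nd (nat_lit 78) (nat_lit 76) (nat_lit 0) (XT.lf (nat_lit 0) (nat_lit 812550573333) (nat_lit 152) (nat_lit 213754651981) (nat_lit 0) (nat_lit 231024742322) (nat_lit 8) (nat_lit 5) (nat_lit 10) (nat_lit 4) (nat_lit 8) (nat_lit 4) (nat_lit 308) (nat_lit 289) (nat_lit 183)) (XT.lf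 (nat_lit 0) (nat_lit 332294209513) (nat_lit 76) (nat_lit 824139392711) (nat_lit 76) (nat_lit 242613533775) (nat_lit 7) (nat_lit 4) (nat_lit 8) (nat_lit 5) (nat_lit 8) (nat_lit 4) (nat_lit 309) (nat_lit 289) (nat_lit 182))) (XT.nd (nat_lit 78) (nat_lit 76) (nat_lit 0) (XT.lf (nat_lit 0) (nat_lit 2483988688) (nat_lit 152) (nat_lit 576185307537) (nat_lit 76) (nat_lit 981659620669) (nat_lit 6) (nat_lit 5) (nat_lit 8) (nat_lit 5) (nat_lit 7) (nat_lit 4) (nat_lit 310) (nat_lit 289) (nat_lit 181)) (XT.nd (nat_lit 78) (nat_lit 76) (nat_lit 0) (XT.lf (nat_lit 0) (nat_lit 259507108635) (nat_lit 152) (nat_lit 23585620768) (nat_lit 76) (nat_lit 1460977285679) (nat_lit 6) (nat_lit 5) (nat_lit 8) (nat_lit 5) (nat_lit 7) (nat_lit 4) (nat_lit 311) (nat_lit 289) (nat_lit 180)) (XT.lf (nat_lit 0) (nat_lit 586574765863) (nat_lit 152) (nat_lit 1283173801293) (nat_lit 0) (nat_lit 80900050476) (nat_lit 5)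 (nat_lit 5) (nat_lit 7) (nat_lit 4) (nat_lit 5) (nat_lit 4) (nat_lit 312) (nat_lit 289) (nat_lit 179))))))))
noncomputable def xc101 : XT := (XT.nd (nat_lit 1404) (nat_lit 0) (nat_lit 0) (XT.nd (nat_lit 702) (nat_lit 76) (nat_lit 0) (XT.nd (nat_lit 312) (nat_lit 152) (nat_lit 0) (XT.nd (nat_lit 156) (nat_lit 76) (nat_lit 0) (XT.nd (nat_lit 78) (nat_lit 0) (nat_lit 0) (XT.lf (nat_lit 0) (nat_lit 977474748998) (nat_lit 152) (nat_lit 736723415268) (nat_lit 0) (nat_lit 471800019727) (nat_lit 5) (nat_lit 5) (nat_lit 7) (nat_lit 4) (nat_lit 5) (nat_lit 4) (nat_lit 313) (nat_lit 289) (nat_lit 178)) (XT.lf (nat_lit 0) (nat_lit 1427009710161) (nat_lit 152) (nat_lit 108305509268) (nat_lit 0) (nat_lit 921334968818) (nat_lit 5) (nat_lit 5) (nat_lit 7) (nat_lit 4) (nat_lit 5) (nat_lit 4) (nat_lit 314) (nat_lit 289) (nat_lit 177))) (XT.nd (nat_lit 78) (nat_lit 0) (nat_lit 0) (XT.lf (nat_lit 0) (nat_lit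 674416247683) (nat_lit 76) (nat_lit 1297484789529) (nat_lit 76) (nat_lit 791810037688) (nat_lit 4) (nat_lit 4) (nat_lit 5) (nat_lit 5) (nat_lit 5) (nat_lit 4) (nat_lit 315) (nat_lit 289) (nat_lit 176)) (XT.lf (nat_lit 0) (nat_lit 1586718299043) (nat_lit 76) (nat_lit 1017469172622) (nat_lit 76) (nat_lit 511794411652) (nat_lit 4) (nat_lit 4) (nat_lit 5) (nat_lit 5) (nat_lit 5) (nat_lit 4) (nat_lit 316) (nat_lit 289) (nat_lit 175)))) (XT.nd (nat_lit 156) (nat_lit 76) (nat_lit 0) (XT.nd (nat_lit 78) (nat_lit 76) (nat_lit 0) (XT.lf (nat_lit 0) (nat_lit 2635865630732) (nat_lit 76) (nat_lit 695451226638) (nat_lit 76) (nat_lit 189776457730) (nat_lit 4) (nat_lit 4) (nat_lit 5) (nat_lit 5) (nat_lit 5) (nat_lit 4) (nat_lit 317) (nat_lit 289) (nat_lit 174)) (XT.lf (nat_lit 0) (nat_lit 164470884377) (nat_lit 152) (nat_lit 152062374398) (nat_lit 76) (nat_lit 3669316812307) (nat_lit 3) (nat_lit 5)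 (nat_lit 5) (nat_lit 5) (nat_lit 4) (nat_lit 4) (nat_lit 318) (nat_lit 289) (nat_lit 173))) (XT.nd (nat_lit 78) (nat_lit 0) (nat_lit 0) (XT.lf (nat_lit 0) (nat_lit 590271029752) (nat_lit 152) (nat_lit 3772463156954) (nat_lit 0) (nat_lit 150553828175) (nat_lit 2) (nat_lit 5) (nat_lit 4) (nat_lit 4) (nat_lit 2) (nat_lit 4) (nat_lit 319) (nat_lit 289) (nat_lit 172)) (XT.nd (nat_lit 78) (nat_lit 0) (nat_lit 0) (XT.lf (nat_lit 0) (nat_lit 1103341423635) (nat_lit 152) (nat_lit 3349365975097) (nat_lit 0) (nat_lit 663624217520) (nat_lit 2) (nat_lit 5) (nat_lit 4) (nat_lit 4) (nat_lit 2) (nat_lit 4) (nat_lit 320) (nat_lit 289) (nat_lit 171)) (XT.lf (nat_lit 0) (nat_lit 1693372367137) (nat_lit 152) (nat_lit 2862804235046) (nat_lit 0) (nat_lit 1253655157075) (nat_lit 2) (nat_lit 5) (nat_lit 4) (nat_lit 4) (nat_lit 2) (nat_lit 4) (nat_lit 321) (nat_lit 289) (nat_lit 170)))))) (XT.nd (nat_lit 312)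 (nat_lit 76) (nat_lit 0) (XT.nd (nat_lit 156) (nat_lit 0) (nat_lit 0) (XT.nd (nat_lit 78) (nat_lit 0) (nat_lit 0) (XT.lf (nat_lit 0) (nat_lit 2371907943933) (nat_lit 152) (nat_lit 2303258250582) (nat_lit 0) (nat_lit 1932190730439) (nat_lit 2) (nat_lit 5) (nat_lit 4) (nat_lit 4) (nat_lit 2) (nat_lit 4) (nat_lit 322) (nat_lit 289) (nat_lit 169)) (XT.lf (nat_lit 0) (nat_lit 3152223850092) (nat_lit 152) (nat_lit 1659780382878) (nat_lit 0) (nat_lit 2712506633614) (nat_lit 2) (nat_lit 5) (nat_lit 4) (nat_lit 4) (nat_lit 2) (nat_lit 4) (nat_lit 323) (nat_lit 289) (nat_lit 168))) (XT.nd (nat_lit 78) (nat_lit 0) (nat_lit 0) (XT.lf (nat_lit 0) (nat_lit 4049587135951) (nat_lit 152) (nat_lit 919780847567) (nat_lit 0) (nat_lit 3609869916878) (nat_lit 2) (nat_lit 5) (nat_lit 4) (nat_lit 4) (nat_lit 2) (nat_lit 4) (nat_lit 324) (nat_lit 289) (nat_lit 167)) (XT.lf (nat_lit 0) (nat_lit 5081554909277)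 (nat_lit 152) (nat_lit 68781392870) (nat_lit 0) (nat_lit 4641837687948) (nat_lit 2) (nat_lit 5) (nat_lit 4) (nat_lit 4) (nat_lit 2) (nat_lit 4) (nat_lit 325) (nat_lit 289) (nat_lit 166)))) (XT.nd (nat_lit 156) (nat_lit 0) (nat_lit 0) (XT.nd (nat_lit 78) (nat_lit 0) (nat_lit 0) (XT.lf (nat_lit 0) (nat_lit 998786885845) (nat_lit 76) (nat_lit 5310888593076) (nat_lit 76) (nat_lit 4871171369785) (nat_lit 1) (nat_lit 4) (nat_lit 2) (nat_lit 5) (nat_lit 2) (nat_lit 4) (nat_lit 326) (nat_lit 289) (nat_lit 165)) (XT.lf (nat_lit 0) (nat_lit 2234220487942) (nat_lit 76) (nat_lit 5491389032594) (nat_lit 76) (nat_lit 5051671807597) (nat_lit 1) (nat_lit 4) (nat_lit 2) (nat_lit 5) (nat_lit 2) (nat_lit 4) (nat_lit 327) (nat_lit 289) (nat_lit 164))) (XT.nd (nat_lit 78) (nat_lit 0) (nat_lit 0) (XT.lf (nat_lit 0) (nat_lit 3654969122479) (nat_lit 76) (nat_lit 5698964542031) (nat_lit 76) (nat_lit 5259247315550)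 (nat_lit 1) (nat_lit 4) (nat_lit 2) (nat_lit 5) (nat_lit 2) (nat_lit 4) (nat_lit 328) (nat_lit 289) (nat_lit 163)) (XT.nd (nat_lit 78) (nat_lit 0) (nat_lit 0) (XT.lf (nat_lit 0) (nat_lit 5288830045347) (nat_lit 76) (nat_lit 5937676381354) (nat_lit 76) (nat_lit 5497959153583) (nat_lit 1) (nat_lit 4) (nat_lit 2) (nat_lit 5) (nat_lit 2) (nat_lit 4) (nat_lit 329) (nat_lit 289) (nat_lit 162)) (XT.lf (nat_lit 0) (nat_lit 7167770100691) (nat_lit 76) (nat_lit 6212194999593) (nat_lit 76) (nat_lit 5772477770700) (nat_lit 1) (nat_lit 4) (nat_lit 2) (nat_lit 5) (nat_lit 2) (nat_lit 4) (nat_lit 330) (nat_lit 289) (nat_lit 161))))))) (XT.nd (nat_lit 702) (nat_lit 0) (nat_lit 0) (XT.nd (nat_lit 312) (nat_lit 0) (nat_lit 0) (XT.nd (nat_lit 156) (nat_lit 0) (nat_lit 0) (XT.nd (nat_lit 78) (nat_lit 0) (nat_lit 0) (XT.lf (nat_lit 0) (nat_lit 9328551159158) (nat_lit 76) (nat_lit 6527891413193) (nat_lit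 76) (nat_lit 6088174183324) (nat_lit 1) (nat_lit 4) (nat_lit 2) (nat_lit 5) (nat_lit 2) (nat_lit 4) (nat_lit 331) (nat_lit 289) (nat_lit 160)) (XT.lf (nat_lit 0) (nat_lit 11813449371893) (nat_lit 76) (nat_lit 6890942291114) (nat_lit 76) (nat_lit 6451225060397) (nat_lit 1) (nat_lit 4) (nat_lit 2) (nat_lit 5) (nat_lit 2) (nat_lit 4) (nat_lit 332) (nat_lit 289) (nat_lit 159))) (XT.nd (nat_lit 78) (nat_lit 0) (nat_lit 0) (XT.lf (nat_lit 0) (nat_lit 14671082312622) (nat_lit 76) (nat_lit 7308450802708) (nat_lit 76) (nat_lit 6868733571254) (nat_lit 1) (nat_lit 4) (nat_lit 2) (nat_lit 5) (nat_lit 2) (nat_lit 4) (nat_lit 333) (nat_lit 289) (nat_lit 158)) (XT.lf (nat_lit 0) (nat_lit 17957360191055) (nat_lit 76) (nat_lit 7788585592767) (nat_lit 76) (nat_lit 7348868360671) (nat_lit 1) (nat_lit 4) (nat_lit 2) (nat_lit 5) (nat_lit 2) (nat_lit 4) (nat_lit 334) (nat_lit 289) (nat_lit 157)))) (XT.nd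 (nat_lit 156) (nat_lit 0) (nat_lit 0) (XT.nd (nat_lit 78) (nat_lit 0) (nat_lit 0) (XT.lf (nat_lit 0) (nat_lit 21736579748293) (nat_lit 76) (nat_lit 8340740602834) (nat_lit 76) (nat_lit 7901023370181) (nat_lit 1) (nat_lit 4) (nat_lit 2) (nat_lit 5) (nat_lit 2) (nat_lit 4) (nat_lit 335) (nat_lit 289) (nat_lit 156)) (XT.lf (nat_lit 0) (nat_lit 26082682236542) (nat_lit 76) (nat_lit 8975718865717) (nat_lit 76) (nat_lit 8536001632578) (nat_lit 1) (nat_lit 4) (nat_lit 2) (nat_lit 5) (nat_lit 2) (nat_lit 4) (nat_lit 336) (nat_lit 289) (nat_lit 155))) (XT.nd (nat_lit 78) (nat_lit 0) (nat_lit 0) (XT.lf (nat_lit 0) (nat_lit 31080700095790) (nat_lit 76) (nat_lit 9705943869167) (nat_lit 76) (nat_lit 9266226635606) (nat_lit 1) (nat_lit 4) (nat_lit 2) (nat_lit 5) (nat_lit 2) (nat_lit 4) (nat_lit 337) (nat_lit 289) (nat_lit 154)) (XT.nd (nat_lit 78) (nat_lit 0) (nat_lit 0) (XT.lf (nat_lit 0) (nat_lit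 36828420631978) (nat_lit 76) (nat_lit 10545702624120) (nat_lit 76) (nat_lit 10105985390193) (nat_lit 1) (nat_lit 4) (nat_lit 2) (nat_lit 5) (nat_lit 2) (nat_lit 4) (nat_lit 338) (nat_lit 289) (nat_lit 153)) (XT.lf (nat_lit 0) (nat_lit 43438299246902) (nat_lit 76) (nat_lit 11511425193175) (nat_lit 76) (nat_lit 11071707958928) (nat_lit 1) (nat_lit 4) (nat_lit 2) (nat_lit 5) (nat_lit 2) (nat_lit 4) (nat_lit 339) (nat_lit 289) (nat_lit 152)))))) (XT.nd (nat_lit 37050) (nat_lit 0) (nat_lit 1140) (XT.nd (nat_lit 36816) (nat_lit 0) (nat_lit 1444) (XT.nd (nat_lit 36738) (nat_lit 0) (nat_lit 1444) (XT.lf (nat_lit 0) (nat_lit 51039659652592) (nat_lit 76) (nat_lit 12622006148333) (nat_lit 76) (nat_lit 12182288913810) (nat_lit 1) (nat_lit 4) (nat_lit 2) (nat_lit 5) (nat_lit 2) (nat_lit 4) (nat_lit 340) (nat_lit 289) (nat_lit 151)) (XT.lf (nat_lit 0) (nat_lit 18915446009) (nat_lit 380) (nat_lit 57980021852)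 (nat_lit 380) (nat_lit 57980021852) (nat_lit 20) (nat_lit 3) (nat_lit 25) (nat_lit 3) (nat_lit 25) (nat_lit 5) (nat_lit 290) (nat_lit 290) (nat_lit 200))) (XT.nd (nat_lit 78) (nat_lit 0) (nat_lit 76) (XT.lf (nat_lit 76) (nat_lit 9617224432) (nat_lit 0) (nat_lit 31450026758) (nat_lit 380) (nat_lit 248855191781) (nat_lit 21) (nat_lit 5) (nat_lit 20) (nat_lit 3) (nat_lit 25) (nat_lit 5) (nat_lit 291) (nat_lit 290) (nat_lit 199)) (XT.nd (nat_lit 78) (nat_lit 0) (nat_lit 0) (XT.lf (nat_lit 0) (nat_lit 55662589843) (nat_lit 304) (nat_lit 149959224681) (nat_lit 380) (nat_lit 105866783318) (nat_lit 21) (nat_lit 5) (nat_lit 25) (nat_lit 5) (nat_lit 26) (nat_lit 5) (nat_lit 292) (nat_lit 290) (nat_lit 198)) (XT.lf (nat_lit 0) (nat_lit 73944722402) (nat_lit 304) (nat_lit 1559053862) (nat_lit 380) (nat_lit 260561276267) (nat_lit 21) (nat_lit 5) (nat_lit 25) (nat_lit 5) (nat_lit 26) (nat_lit 5) (nat_lit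 293) (nat_lit 290) (nat_lit 197))))) (XT.nd (nat_lit 156) (nat_lit 456) (nat_lit 0) (XT.nd (nat_lit 78) (nat_lit 0) (nat_lit 0) (XT.lf (nat_lit 0) (nat_lit 106091142982) (nat_lit 304) (nat_lit 180983859085) (nat_lit 76) (nat_lit 75584678615) (nat_lit 22) (nat_lit 5) (nat_lit 26) (nat_lit 5) (nat_lit 23) (nat_lit 5) (nat_lit 294) (nat_lit 290) (nat_lit 196)) (XT.lf (nat_lit 0) (nat_lit 146740222266) (nat_lit 304) (nat_lit 4259533061) (nat_lit 76) (nat_lit 241691643806) (nat_lit 22) (nat_lit 5) (nat_lit 26) (nat_lit 5) (nat_lit 23) (nat_lit 5) (nat_lit 295) (nat_lit 290) (nat_lit 195))) (XT.nd (nat_lit 78) (nat_lit 152) (nat_lit 0) (XT.lf (nat_lit 0) (nat_lit 203188694686) (nat_lit 380) (nat_lit 208110648371) (nat_lit 76) (nat_lit 14473227971) (nat_lit 18) (nat_lit 5) (nat_lit 23) (nat_lit 5) (nat_lit 19) (nat_lit 5) (nat_lit 296) (nat_lit 290) (nat_lit 194)) (XT.nd (nat_lit 78) (nat_lit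 0) (nat_lit 0) (XT.lf (nat_lit 0) (nat_lit 2597911572) (nat_lit 152) (nat_lit 273037746490) (nat_lit 228) (nat_lit 187050577948) (nat_lit 16) (nat_lit 5) (nat_lit 18) (nat_lit 5) (nat_lit 19) (nat_lit 5) (nat_lit 297) (nat_lit 290) (nat_lit 193)) (XT.lf (nat_lit 0) (nat_lit 268301463567) (nat_lit 152) (nat_lit 101526641457) (nat_lit 228) (nat_lit 133677080128) (nat_lit 16) (nat_lit 5) (nat_lit 18) (nat_lit 5) (nat_lit 19) (nat_lit 5) (nat_lit 298) (nat_lit 290) (nat_lit 192))))))))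
noncomputable def xc102 : XT := (XT.nd (nat_lit 1404) (nat_lit 228) (nat_lit 0) (XT.nd (nat_lit 702) (nat_lit 380) (nat_lit 0) (XT.nd (nat_lit 312) (nat_lit 228) (nat_lit 0) (XT.nd (nat_lit 156) (nat_lit 152) (nat_lit 0) (XT.nd (nat_lit 78) (nat_lit 76) (nat_lit 0) (XT.lf (nat_lit 0) (nat_lit 21351113672) (nat_lit 76) (nat_lit 461645539843) (nat_lit 152) (nat_lit 66723238217) (nat_lit 15) (nat_lit 5) (nat_lit 16) (nat_lit 5) (nat_lit 17) (nat_lit 4) (nat_lit 299) (nat_lit 290) (nat_lit 191)) (XT.lf (nat_lit 0) (nat_lit 27073790163) (nat_lit 152) (nat_lit 264045295301) (nat_lit 76) (nat_lit 309026695705) (nat_lit 14) (nat_lit 5) (nat_lit 16) (nat_lit 5) (nat_lit 15) (nat_lit 5) (nat_lit 300) (nat_lit 290) (nat_lit 190))) (XT.nd (nat_lit 78) (nat_lit 0) (nat_lit 0) (XT.lf (nat_lit 0) (nat_lit 40340746563) (nat_lit 152) (nat_lit 89438808325) (nat_lit 228) (nat_lit 527628849121) (nat_lit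 12) (nat_lit 5) (nat_lit 14) (nat_lit 5) (nat_lit 15) (nat_lit 5) (nat_lit 301) (nat_lit 290) (nat_lit 189)) (XT.lf (nat_lit 0) (nat_lit 268251109339) (nat_lit 228) (nat_lit 307687969278) (nat_lit 76) (nat_lit 144267353039) (nat_lit 12) (nat_lit 5) (nat_lit 15) (nat_lit 5) (nat_lit 13) (nat_lit 4) (nat_lit 302) (nat_lit 290) (nat_lit 188)))) (XT.nd (nat_lit 156) (nat_lit 152) (nat_lit 0) (XT.nd (nat_lit 78) (nat_lit 0) (nat_lit 0) (XT.lf (nat_lit 0) (nat_lit 48123935988) (nat_lit 76) (nat_lit 385621117326) (nat_lit 152) (nat_lit 357741361802) (nat_lit 11) (nat_lit 5) (nat_lit 12) (nat_lit 5) (nat_lit 13) (nat_lit 4) (nat_lit 303) (nat_lit 290) (nat_lit 187)) (XT.lf (nat_lit 0) (nat_lit 491887491448) (nat_lit 76) (nat_lit 148259245612) (nat_lit 152) (nat_lit 230899111915) (nat_lit 11) (nat_lit 5) (nat_lit 12) (nat_lit 5) (nat_lit 13) (nat_lit 4) (nat_lit 304) (nat_lit 290) (nat_lit 186)))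 (XT.nd (nat_lit 78) (nat_lit 76) (nat_lit 0) (XT.lf (nat_lit 0) (nat_lit 37885281716) (nat_lit 76) (nat_lit 846355950732) (nat_lit 76) (nat_lit 77288081690) (nat_lit 10) (nat_lit 4) (nat_lit 11) (nat_lit 5) (nat_lit 11) (nat_lit 4) (nat_lit 305) (nat_lit 290) (nat_lit 185)) (XT.nd (nat_lit 78) (nat_lit 0) (nat_lit 0) (XT.lf (nat_lit 0) (nat_lit 118341840785) (nat_lit 152) (nat_lit 514632953822) (nat_lit 76) (nat_lit 427819828818) (nat_lit 9) (nat_lit 5) (nat_lit 11) (nat_lit 5) (nat_lit 10) (nat_lit 4) (nat_lit 306) (nat_lit 290) (nat_lit 184)) (XT.lf (nat_lit 0) (nat_lit 335403392794) (nat_lit 152) (nat_lit 47950653934) (nat_lit 76) (nat_lit 791043629426) (nat_lit 9) (nat_lit 5) (nat_lit 11) (nat_lit 5) (nat_lit 10) (nat_lit 4) (nat_lit 307) (nat_lit 290) (nat_lit 183)))))) (XT.nd (nat_lit 312) (nat_lit 152) (nat_lit 0) (XT.nd (nat_lit 156) (nat_lit 152) (nat_lit 0) (XT.nd (nat_lit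 78) (nat_lit 0) (nat_lit 0) (XT.lf (nat_lit 0) (nat_lit 536496577833) (nat_lit 76) (nat_lit 70742751650) (nat_lit 152) (nat_lit 694469584578) (nat_lit 8) (nat_lit 5) (nat_lit 9) (nat_lit 5) (nat_lit 10) (nat_lit 4) (nat_lit 308) (nat_lit 290) (nat_lit 182)) (XT.lf (nat_lit 0) (nat_lit 934433444953) (nat_lit 152) (nat_lit 245817319535) (nat_lit 0) (nat_lit 265678654969) (nat_lit 8) (nat_lit 5) (nat_lit 10) (nat_lit 4) (nat_lit 8) (nat_lit 4) (nat_lit 309) (nat_lit 290) (nat_lit 181))) (XT.nd (nat_lit 78) (nat_lit 76) (nat_lit 0) (XT.lf (nat_lit 0) (nat_lit 382138847081) (nat_lit 76) (nat_lit 947760064800) (nat_lit 76) (nat_lit 279005253701) (nat_lit 7) (nat_lit 4) (nat_lit 8) (nat_lit 5) (nat_lit 8) (nat_lit 4) (nat_lit 310) (nat_lit 290) (nat_lit 180)) (XT.lf (nat_lit 0) (nat_lit 2856832670) (nat_lit 152) (nat_lit 662612639219) (nat_lit 76) (nat_lit 1128908745372) (nat_lit 6) (nat_lit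 5) (nat_lit 8) (nat_lit 5) (nat_lit 7) (nat_lit 4) (nat_lit 311) (nat_lit 290) (nat_lit 179)))) (XT.nd (nat_lit 156) (nat_lit 76) (nat_lit 0) (XT.nd (nat_lit 78) (nat_lit 76) (nat_lit 0) (XT.lf (nat_lit 0) (nat_lit 298433388563) (nat_lit 152) (nat_lit 27123060015) (nat_lit 76) (nat_lit 1680124036446) (nat_lit 6) (nat_lit 5) (nat_lit 8) (nat_lit 5) (nat_lit 7) (nat_lit 4) (nat_lit 312) (nat_lit 290) (nat_lit 178)) (XT.lf (nat_lit 0) (nat_lit 674561190083) (nat_lit 152) (nat_lit 1475649463088) (nat_lit 0) (nat_lit 93035225466) (nat_lit 5) (nat_lit 5) (nat_lit 7) (nat_lit 4) (nat_lit 5) (nat_lit 4) (nat_lit 313) (nat_lit 290) (nat_lit 177))) (XT.nd (nat_lit 78) (nat_lit 76) (nat_lit 0) (XT.lf (nat_lit 0) (nat_lit 1124096143383) (nat_lit 152) (nat_lit 847231572428) (nat_lit 0) (nat_lit 542570168268) (nat_lit 5) (nat_lit 5) (nat_lit 7) (nat_lit 4) (nat_lit 5) (nat_lit 4) (nat_lit 314) (nat_lit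 290) (nat_lit 176)) (XT.nd (nat_lit 78) (nat_lit 76) (nat_lit 0) (XT.lf (nat_lit 0) (nat_lit 1641061324977) (nat_lit 152) (nat_lit 124551026850) (nat_lit 0) (nat_lit 1059535340733) (nat_lit 5) (nat_lit 5) (nat_lit 7) (nat_lit 4) (nat_lit 5) (nat_lit 4) (nat_lit 315) (nat_lit 290) (nat_lit 175)) (XT.lf (nat_lit 0) (nat_lit 775578979607) (nat_lit 76) (nat_lit 1492107363038) (nat_lit 76) (nat_lit 910581370855) (nat_lit 4) (nat_lit 4) (nat_lit 5) (nat_lit 5) (nat_lit 5) (nat_lit 4) (nat_lit 316) (nat_lit 290) (nat_lit 174))))))) (XT.nd (nat_lit 702) (nat_lit 76) (nat_lit 0) (XT.nd (nat_lit 312) (nat_lit 0) (nat_lit 0) (XT.nd (nat_lit 156) (nat_lit 152) (nat_lit 0) (XT.nd (nat_lit 78) (nat_lit 0) (nat_lit 0) (XT.lf (nat_lit 0) (nat_lit 1824726300223) (nat_lit 76) (nat_lit 1170089422497) (nat_lit 76) (nat_lit 588563423412) (nat_lit 4) (nat_lit 4) (nat_lit 5) (nat_lit 5) (nat_lit 5) (nat_lit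 4) (nat_lit 317) (nat_lit 290) (nat_lit 173)) (XT.lf (nat_lit 0) (nat_lit 3031245698232) (nat_lit 76) (nat_lit 799768801052) (nat_lit 76) (nat_lit 218242795965) (nat_lit 4) (nat_lit 4) (nat_lit 5) (nat_lit 5) (nat_lit 5) (nat_lit 4) (nat_lit 318) (nat_lit 290) (nat_lit 172))) (XT.nd (nat_lit 78) (nat_lit 76) (nat_lit 0) (XT.lf (nat_lit 0) (nat_lit 189141620349) (nat_lit 152) (nat_lit 174871526554) (nat_lit 76) (nat_lit 4219714419254) (nat_lit 3) (nat_lit 5) (nat_lit 5) (nat_lit 5) (nat_lit 4) (nat_lit 4) (nat_lit 319) (nat_lit 290) (nat_lit 171)) (XT.lf (nat_lit 0) (nat_lit 678811786127) (nat_lit 152) (nat_lit 4338332425012) (nat_lit 0) (nat_lit 173136990610) (nat_lit 2) (nat_lit 5) (nat_lit 4) (nat_lit 4) (nat_lit 2) (nat_lit 4) (nat_lit 320) (nat_lit 290) (nat_lit 170)))) (XT.nd (nat_lit 156) (nat_lit 0) (nat_lit 0) (XT.nd (nat_lit 78) (nat_lit 0) (nat_lit 0) (XT.lf (nat_lit 0) (nat_lit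 1268842725800) (nat_lit 152) (nat_lit 3851770692679) (nat_lit 0) (nat_lit 763167926851) (nat_lit 2) (nat_lit 5) (nat_lit 4) (nat_lit 4) (nat_lit 2) (nat_lit 4) (nat_lit 321) (nat_lit 290) (nat_lit 169)) (XT.lf (nat_lit 0) (nat_lit 1947378299268) (nat_lit 152) (nat_lit 3292224714927) (nat_lit 0) (nat_lit 1441703497334) (nat_lit 2) (nat_lit 5) (nat_lit 4) (nat_lit 4) (nat_lit 2) (nat_lit 4) (nat_lit 322) (nat_lit 290) (nat_lit 168))) (XT.nd (nat_lit 78) (nat_lit 0) (nat_lit 0) (XT.lf (nat_lit 0) (nat_lit 2727694202532) (nat_lit 152) (nat_lit 2648746853059) (nat_lit 0) (nat_lit 2222019398003) (nat_lit 2) (nat_lit 5) (nat_lit 4) (nat_lit 4) (nat_lit 2) (nat_lit 4) (nat_lit 323) (nat_lit 290) (nat_lit 167)) (XT.nd (nat_lit 78) (nat_lit 0) (nat_lit 0) (XT.lf (nat_lit 0) (nat_lit 3625057485874) (nat_lit 152) (nat_lit 1908747322823) (nat_lit 0) (nat_lit 3119382679089) (nat_lit 2) (nat_lit 5)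 (nat_lit 4) (nat_lit 4) (nat_lit 2) (nat_lit 4) (nat_lit 324) (nat_lit 290) (nat_lit 166)) (XT.lf (nat_lit 0) (nat_lit 4657025257012) (nat_lit 152) (nat_lit 1057747872539) (nat_lit 0) (nat_lit 4151350448265) (nat_lit 2) (nat_lit 5) (nat_lit 4) (nat_lit 4) (nat_lit 2) (nat_lit 4) (nat_lit 325) (nat_lit 290) (nat_lit 165)))))) (XT.nd (nat_lit 390) (nat_lit 0) (nat_lit 0) (XT.nd (nat_lit 156) (nat_lit 0) (nat_lit 0) (XT.nd (nat_lit 78) (nat_lit 76) (nat_lit 0) (XT.lf (nat_lit 0) (nat_lit 5843788189729) (nat_lit 152) (nat_lit 79098512964) (nat_lit 0) (nat_lit 5338113379275) (nat_lit 2) (nat_lit 5) (nat_lit 4) (nat_lit 4) (nat_lit 2) (nat_lit 4) (nat_lit 326) (nat_lit 290) (nat_lit 164)) (XT.lf (nat_lit 0) (nat_lit 1148605003521) (nat_lit 76) (nat_lit 6107521839063) (nat_lit 76) (nat_lit 5601847027126) (nat_lit 1) (nat_lit 4) (nat_lit 2) (nat_lit 5) (nat_lit 2) (nat_lit 4) (nat_lit 327) (nat_lit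 290) (nat_lit 163))) (XT.nd (nat_lit 78) (nat_lit 0) (nat_lit 0) (XT.lf (nat_lit 0) (nat_lit 2569353634872) (nat_lit 76) (nat_lit 6315097350114) (nat_lit 76) (nat_lit 5809422536887) (nat_lit 1) (nat_lit 4) (nat_lit 2) (nat_lit 5) (nat_lit 2) (nat_lit 4) (nat_lit 328) (nat_lit 290) (nat_lit 162)) (XT.nd (nat_lit 78) (nat_lit 0) (nat_lit 0) (XT.lf (nat_lit 0) (nat_lit 4203214554971) (nat_lit 76) (nat_lit 6553809190841) (nat_lit 76) (nat_lit 6048134376492) (nat_lit 1) (nat_lit 4) (nat_lit 2) (nat_lit 5) (nat_lit 2) (nat_lit 4) (nat_lit 329) (nat_lit 290) (nat_lit 161)) (XT.lf (nat_lit 0) (nat_lit 6082154607906) (nat_lit 76) (nat_lit 6828327810300) (nat_lit 76) (nat_lit 6322652994976) (nat_lit 1) (nat_lit 4) (nat_lit 2) (nat_lit 5) (nat_lit 2) (nat_lit 4) (nat_lit 330) (nat_lit 290) (nat_lit 160))))) (XT.nd (nat_lit 156) (nat_lit 0) (nat_lit 0) (XT.nd (nat_lit 78) (nat_lit 0) (nat_lit 0)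 (XT.lf (nat_lit 0) (nat_lit 8242935664279) (nat_lit 76) (nat_lit 7144024224961) (nat_lit 76) (nat_lit 6638349408789) (nat_lit 1) (nat_lit 4) (nat_lit 2) (nat_lit 5) (nat_lit 2) (nat_lit 4) (nat_lit 331) (nat_lit 290) (nat_lit 159)) (XT.lf (nat_lit 0) (nat_lit 10727833875192) (nat_lit 76) (nat_lit 7507075103806) (nat_lit 76) (nat_lit 7001400286895) (nat_lit 1) (nat_lit 4) (nat_lit 2) (nat_lit 5) (nat_lit 2) (nat_lit 4) (nat_lit 332) (nat_lit 290) (nat_lit 158))) (XT.nd (nat_lit 78) (nat_lit 0) (nat_lit 0) (XT.lf (nat_lit 0) (nat_lit 13585466814337) (nat_lit 76) (nat_lit 7924583616202) (nat_lit 76) (nat_lit 7418908798650) (nat_lit 1) (nat_lit 4) (nat_lit 2) (nat_lit 5) (nat_lit 2) (nat_lit 4) (nat_lit 333) (nat_lit 290) (nat_lit 157)) (XT.nd (nat_lit 78) (nat_lit 0) (nat_lit 0) (XT.lf (nat_lit 0) (nat_lit 16871744691394) (nat_lit 76) (nat_lit 8404718406959) (nat_lit 76) (nat_lit 7899043588849)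 (nat_lit 1) (nat_lit 4) (nat_lit 2) (nat_lit 5) (nat_lit 2) (nat_lit 4) (nat_lit 334) (nat_lit 290) (nat_lit 156)) (XT.lf (nat_lit 0) (nat_lit 20650964247434) (nat_lit 76) (nat_lit 8956873417633) (nat_lit 76) (nat_lit 8451198599039) (nat_lit 1) (nat_lit 4) (nat_lit 2) (nat_lit 5) (nat_lit 2) (nat_lit 4) (nat_lit 335) (nat_lit 290) (nat_lit 155))))))))
noncomputable def xc103 : XT := (XT.nd (nat_lit 38142) (nat_lit 0) (nat_lit 76) (XT.nd (nat_lit 37440) (nat_lit 0) (nat_lit 836) (XT.nd (nat_lit 312) (nat_lit 0) (nat_lit 0) (XT.nd (nat_lit 156) (nat_lit 0) (nat_lit 0) (XT.nd (nat_lit 78) (nat_lit 0) (nat_lit 0) (XT.lf (nat_lit 0) (nat_lit 24997066734642) (nat_lit 76) (nat_lit 9591851681043) (nat_lit 76) (nat_lit 9086176862027) (nat_lit 1) (nat_lit 4) (nat_lit 2) (nat_lit 5) (nat_lit 2) (nat_lit 4) (nat_lit 336) (nat_lit 290) (nat_lit 154)) (XT.lf (nat_lit 0) (nat_lit 29995084592984) (nat_lit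 76) (nat_lit 10322076684952) (nat_lit 76) (nat_lit 9816401865569) (nat_lit 1) (nat_lit 4) (nat_lit 2) (nat_lit 5) (nat_lit 2) (nat_lit 4) (nat_lit 337) (nat_lit 290) (nat_lit 153))) (XT.nd (nat_lit 78) (nat_lit 0) (nat_lit 0) (XT.lf (nat_lit 0) (nat_lit 35742805128385) (nat_lit 76) (nat_lit 11161835440304) (nat_lit 76) (nat_lit 10656160620602) (nat_lit 1) (nat_lit 4) (nat_lit 2) (nat_lit 5) (nat_lit 2) (nat_lit 4) (nat_lit 338) (nat_lit 290) (nat_lit 152)) (XT.lf (nat_lit 0) (nat_lit 42352683742624) (nat_lit 76) (nat_lit 12127558009706) (nat_lit 76) (nat_lit 11621883189727) (nat_lit 1) (nat_lit 4) (nat_lit 2) (nat_lit 5) (nat_lit 2) (nat_lit 4) (nat_lit 339) (nat_lit 290) (nat_lit 151)))) (XT.nd (nat_lit 36894) (nat_lit 0) (nat_lit 1444) (XT.nd (nat_lit 36816) (nat_lit 0) (nat_lit 1444) (XT.lf (nat_lit 0) (nat_lit 49954044147719) (nat_lit 76) (nat_lit 13238138965166) (nat_lit 76) (nat_lit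 12732464144946) (nat_lit 1) (nat_lit 4) (nat_lit 2) (nat_lit 5) (nat_lit 2) (nat_lit 4) (nat_lit 340) (nat_lit 290) (nat_lit 150)) (XT.lf (nat_lit 0) (nat_lit 21753542741) (nat_lit 380) (nat_lit 66676575015) (nat_lit 380) (nat_lit 66676575015) (nat_lit 20) (nat_lit 3) (nat_lit 25) (nat_lit 3) (nat_lit 25) (nat_lit 5) (nat_lit 291) (nat_lit 291) (nat_lit 198))) (XT.nd (nat_lit 78) (nat_lit 0) (nat_lit 76) (XT.lf (nat_lit 76) (nat_lit 11060667408) (nat_lit 0) (nat_lit 36168063270) (nat_lit 380) (nat_lit 286181864012) (nat_lit 21) (nat_lit 5) (nat_lit 20) (nat_lit 3) (nat_lit 25) (nat_lit 5) (nat_lit 292) (nat_lit 291) (nat_lit 197)) (XT.nd (nat_lit 78) (nat_lit 0) (nat_lit 0) (XT.lf (nat_lit 0) (nat_lit 64013169415) (nat_lit 304) (nat_lit 172452155263) (nat_lit 380) (nat_lit 121746378997) (nat_lit 21) (nat_lit 5) (nat_lit 25) (nat_lit 5) (nat_lit 26) (nat_lit 5) (nat_lit 293) (nat_lit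 291) (nat_lit 196)) (XT.lf (nat_lit 0) (nat_lit 85037466497) (nat_lit 304) (nat_lit 1792083141) (nat_lit 380) (nat_lit 299645100908) (nat_lit 21) (nat_lit 5) (nat_lit 25) (nat_lit 5) (nat_lit 26) (nat_lit 5) (nat_lit 294) (nat_lit 291) (nat_lit 195)))))) (XT.nd (nat_lit 312) (nat_lit 304) (nat_lit 0) (XT.nd (nat_lit 156) (nat_lit 456) (nat_lit 0) (XT.nd (nat_lit 78) (nat_lit 0) (nat_lit 0) (XT.lf (nat_lit 0) (nat_lit 122005741937) (nat_lit 304) (nat_lit 208130497003) (nat_lit 76) (nat_lit 86922250802) (nat_lit 22) (nat_lit 5) (nat_lit 26) (nat_lit 5) (nat_lit 23) (nat_lit 5) (nat_lit 295) (nat_lit 291) (nat_lit 194)) (XT.lf (nat_lit 0) (nat_lit 168752062133) (nat_lit 304) (nat_lit 4897644808) (nat_lit 76) (nat_lit 277945277677) (nat_lit 22) (nat_lit 5) (nat_lit 26) (nat_lit 5) (nat_lit 23) (nat_lit 5) (nat_lit 296) (nat_lit 291) (nat_lit 193))) (XT.nd (nat_lit 78) (nat_lit 152) (nat_lit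 0) (XT.lf (nat_lit 0) (nat_lit 233667734518) (nat_lit 380) (nat_lit 239326353555) (nat_lit 76) (nat_lit 16644255304) (nat_lit 18) (nat_lit 5) (nat_lit 23) (nat_lit 5) (nat_lit 19) (nat_lit 5) (nat_lit 297) (nat_lit 291) (nat_lit 192)) (XT.lf (nat_lit 0) (nat_lit 2988449832) (nat_lit 152) (nat_lit 313993231877) (nat_lit 228) (nat_lit 215107385887) (nat_lit 16) (nat_lit 5) (nat_lit 18) (nat_lit 5) (nat_lit 19) (nat_lit 5) (nat_lit 298) (nat_lit 291) (nat_lit 191)))) (XT.nd (nat_lit 156) (nat_lit 228) (nat_lit 0) (XT.nd (nat_lit 78) (nat_lit 76) (nat_lit 0) (XT.lf (nat_lit 0) (nat_lit 308547423558) (nat_lit 152) (nat_lit 116755484122) (nat_lit 228) (nat_lit 153727964970) (nat_lit 16) (nat_lit 5) (nat_lit 18) (nat_lit 5) (nat_lit 19) (nat_lit 5) (nat_lit 299) (nat_lit 291) (nat_lit 190)) (XT.lf (nat_lit 0) (nat_lit 24554567623) (nat_lit 76) (nat_lit 530892132382) (nat_lit 152) (nat_lit 76731091270)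 (nat_lit 15) (nat_lit 5) (nat_lit 16) (nat_lit 5) (nat_lit 17) (nat_lit 4) (nat_lit 300) (nat_lit 291) (nat_lit 189))) (XT.nd (nat_lit 78) (nat_lit 152) (nat_lit 0) (XT.lf (nat_lit 0) (nat_lit 31135359865) (nat_lit 152) (nat_lit 303651354884) (nat_lit 76) (nat_lit 355380856947) (nat_lit 14) (nat_lit 5) (nat_lit 16) (nat_lit 5) (nat_lit 15) (nat_lit 5) (nat_lit 301) (nat_lit 291) (nat_lit 188)) (XT.nd (nat_lit 78) (nat_lit 0) (nat_lit 0) (XT.lf (nat_lit 0) (nat_lit 46392559863) (nat_lit 152) (nat_lit 102854393104) (nat_lit 228) (nat_lit 606772640635) (nat_lit 12) (nat_lit 5) (nat_lit 14) (nat_lit 5) (nat_lit 15) (nat_lit 5) (nat_lit 302) (nat_lit 291) (nat_lit 187)) (XT.lf (nat_lit 0) (nat_lit 308489188469) (nat_lit 228) (nat_lit 353840501598) (nat_lit 76) (nat_lit 165907643315) (nat_lit 12) (nat_lit 5) (nat_lit 15) (nat_lit 5) (nat_lit 13) (nat_lit 4) (nat_lit 303) (nat_lit 291) (nat_lit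 186))))))) (XT.nd (nat_lit 702) (nat_lit 304) (nat_lit 0) (XT.nd (nat_lit 312) (nat_lit 228) (nat_lit 0) (XT.nd (nat_lit 156) (nat_lit 152) (nat_lit 0) (XT.nd (nat_lit 78) (nat_lit 0) (nat_lit 0) (XT.lf (nat_lit 0) (nat_lit 55343159318) (nat_lit 76) (nat_lit 443464037097) (nat_lit 152) (nat_lit 411402122236) (nat_lit 11) (nat_lit 5) (nat_lit 12) (nat_lit 5) (nat_lit 13) (nat_lit 4) (nat_lit 304) (nat_lit 291) (nat_lit 185)) (XT.lf (nat_lit 0) (nat_lit 565671165540) (nat_lit 76) (nat_lit 170497916950) (nat_lit 152) (nat_lit 265533592757) (nat_lit 11) (nat_lit 5) (nat_lit 12) (nat_lit 5) (nat_lit 13) (nat_lit 4) (nat_lit 305) (nat_lit 291) (nat_lit 184))) (XT.nd (nat_lit 78) (nat_lit 76) (nat_lit 0) (XT.lf (nat_lit 0) (nat_lit 43568639565) (nat_lit 76) (nat_lit 973309100123) (nat_lit 76) (nat_lit 88880922483) (nat_lit 10) (nat_lit 4) (nat_lit 11) (nat_lit 5) (nat_lit 11) (nat_lit 4) (nat_lit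 306) (nat_lit 291) (nat_lit 183)) (XT.lf (nat_lit 0) (nat_lit 136093411156) (nat_lit 152) (nat_lit 591827375767) (nat_lit 76) (nat_lit 491992985325) (nat_lit 9) (nat_lit 5) (nat_lit 11) (nat_lit 5) (nat_lit 10) (nat_lit 4) (nat_lit 307) (nat_lit 291) (nat_lit 182)))) (XT.nd (nat_lit 156) (nat_lit 152) (nat_lit 0) (XT.nd (nat_lit 78) (nat_lit 76) (nat_lit 0) (XT.lf (nat_lit 0) (nat_lit 385714157586) (nat_lit 152) (nat_lit 55142798868) (nat_lit 76) (nat_lit 909700332261) (nat_lit 9) (nat_lit 5) (nat_lit 11) (nat_lit 5) (nat_lit 10) (nat_lit 4) (nat_lit 308) (nat_lit 291) (nat_lit 181)) (XT.lf (nat_lit 0) (nat_lit 616971497065) (nat_lit 76) (nat_lit 81353972249) (nat_lit 152) (nat_lit 798639745377) (nat_lit 8) (nat_lit 5) (nat_lit 9) (nat_lit 5) (nat_lit 10) (nat_lit 4) (nat_lit 309) (nat_lit 291) (nat_lit 180))) (XT.nd (nat_lit 78) (nat_lit 152) (nat_lit 0) (XT.lf (nat_lit 0) (nat_lit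 1074598677666) (nat_lit 152) (nat_lit 282689516526) (nat_lit 0) (nat_lit 305530605425) (nat_lit 8) (nat_lit 5) (nat_lit 10) (nat_lit 4) (nat_lit 8) (nat_lit 4) (nat_lit 310) (nat_lit 291) (nat_lit 179)) (XT.nd (nat_lit 78) (nat_lit 76) (nat_lit 0) (XT.lf (nat_lit 0) (nat_lit 439460056858) (nat_lit 76) (nat_lit 1089923895452) (nat_lit 76) (nat_lit 320855807245) (nat_lit 7) (nat_lit 4) (nat_lit 8) (nat_lit 5) (nat_lit 8) (nat_lit 4) (nat_lit 311) (nat_lit 291) (nat_lit 178)) (XT.lf (nat_lit 0) (nat_lit 3285543338) (nat_lit 152) (nat_lit 762004183913) (nat_lit 76) (nat_lit 1298245194495) (nat_lit 6) (nat_lit 5) (nat_lit 8) (nat_lit 5) (nat_lit 7) (nat_lit 4) (nat_lit 312) (nat_lit 291) (nat_lit 177)))))) (XT.nd (nat_lit 390) (nat_lit 152) (nat_lit 0) (XT.nd (nat_lit 156) (nat_lit 76) (nat_lit 0) (XT.nd (nat_lit 78) (nat_lit 76) (nat_lit 0) (XT.lf (nat_lit 0) (nat_lit 343198558384) (nat_lit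 152) (nat_lit 31191213635) (nat_lit 76) (nat_lit 1932142761319) (nat_lit 6) (nat_lit 5) (nat_lit 8) (nat_lit 5) (nat_lit 7) (nat_lit 4) (nat_lit 313) (nat_lit 291) (nat_lit 176)) (XT.lf (nat_lit 0) (nat_lit 775745526888) (nat_lit 152) (nat_lit 1696996573742) (nat_lit 0) (nat_lit 106990635878) (nat_lit 5) (nat_lit 5) (nat_lit 7) (nat_lit 4) (nat_lit 5) (nat_lit 4) (nat_lit 314) (nat_lit 291) (nat_lit 175))) (XT.nd (nat_lit 78) (nat_lit 76) (nat_lit 0) (XT.lf (nat_lit 0) (nat_lit 1292710702536) (nat_lit 152) (nat_lit 974316039763) (nat_lit 0) (nat_lit 623955803588) (nat_lit 5) (nat_lit 5) (nat_lit 7) (nat_lit 4) (nat_lit 5) (nat_lit 4) (nat_lit 315) (nat_lit 291) (nat_lit 174)) (XT.nd (nat_lit 78) (nat_lit 76) (nat_lit 0) (XT.lf (nat_lit 0) (nat_lit 1887220643415) (nat_lit 152) (nat_lit 143233447374) (nat_lit 0) (nat_lit 1218465737564) (nat_lit 5) (nat_lit 5) (nat_lit 7) (nat_lit 4) (nat_lit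 5) (nat_lit 4) (nat_lit 316) (nat_lit 291) (nat_lit 173)) (XT.lf (nat_lit 0) (nat_lit 891916049438) (nat_lit 76) (nat_lit 1715923357912) (nat_lit 76) (nat_lit 1047168446060) (nat_lit 4) (nat_lit 4) (nat_lit 5) (nat_lit 5) (nat_lit 5) (nat_lit 4) (nat_lit 317) (nat_lit 291) (nat_lit 172))))) (XT.nd (nat_lit 156) (nat_lit 152) (nat_lit 0) (XT.nd (nat_lit 78) (nat_lit 0) (nat_lit 0) (XT.lf (nat_lit 0) (nat_lit 2098435439074) (nat_lit 76) (nat_lit 1345602740584) (nat_lit 76) (nat_lit 676847823512) (nat_lit 4) (nat_lit 4) (nat_lit 5) (nat_lit 5) (nat_lit 5) (nat_lit 4) (nat_lit 318) (nat_lit 291) (nat_lit 171)) (XT.lf (nat_lit 0) (nat_lit 3485932721503) (nat_lit 76) (nat_lit 919734038351) (nat_lit 76) (nat_lit 250979116740) (nat_lit 4) (nat_lit 4) (nat_lit 5) (nat_lit 5) (nat_lit 5) (nat_lit 4) (nat_lit 319) (nat_lit 291) (nat_lit 170))) (XT.nd (nat_lit 78) (nat_lit 76) (nat_lit 0) (XT.lf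 (nat_lit 0) (nat_lit 217512941523) (nat_lit 152) (nat_lit 201102101281) (nat_lit 76) (nat_lit 4852671646491) (nat_lit 3) (nat_lit 5) (nat_lit 5) (nat_lit 5) (nat_lit 4) (nat_lit 4) (nat_lit 320) (nat_lit 291) (nat_lit 169)) (XT.nd (nat_lit 78) (nat_lit 0) (nat_lit 0) (XT.lf (nat_lit 0) (nat_lit 780633631107) (nat_lit 152) (nat_lit 4989082133388) (nat_lit 0) (nat_lit 199107605899) (nat_lit 2) (nat_lit 5) (nat_lit 4) (nat_lit 4) (nat_lit 2) (nat_lit 4) (nat_lit 321) (nat_lit 291) (nat_lit 168)) (XT.lf (nat_lit 0) (nat_lit 1459169201679) (nat_lit 152) (nat_lit 4429536161471) (nat_lit 0) (nat_lit 877643173877) (nat_lit 2) (nat_lit 5) (nat_lit 4) (nat_lit 4) (nat_lit 2) (nat_lit 4) (nat_lit 322) (nat_lit 291) (nat_lit 167))))))))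
noncomputable def xc104 : XT := (XT.nd (nat_lit 38220) (nat_lit 0) (nat_lit 608) (XT.nd (nat_lit 702) (nat_lit 0) (nat_lit 0) (XT.nd (nat_lit 312) (nat_lit 76) (nat_lit 0) (XT.nd (nat_lit 156) (nat_lit 0) (nat_lit 0) (XT.nd (nat_lit 78) (nat_lit 0) (nat_lit 0) (XT.lf (nat_lit 0) (nat_lit 2239485102427) (nat_lit 152) (nat_lit 3786058304679) (nat_lit 0) (nat_lit 1657959072367) (nat_lit 2) (nat_lit 5) (nat_lit 4) (nat_lit 4) (nat_lit 2) (nat_lit 4) (nat_lit 323) (nat_lit 291) (nat_lit 166)) (XT.lf (nat_lit 0) (nat_lit 3136848383580) (nat_lit 152) (nat_lit 3046058778856) (nat_lit 0) (nat_lit 2555322351559) (nat_lit 2) (nat_lit 5) (nat_lit 4) (nat_lit 4) (nat_lit 2) (nat_lit 4) (nat_lit 324) (nat_lit 291) (nat_lit 165))) (XT.nd (nat_lit 78) (nat_lit 0) (nat_lit 0) (XT.lf (nat_lit 0) (nat_lit 4168816152815) (nat_lit 152) (nat_lit 2195059332409) (nat_lit 0) (nat_lit 3587290119087) (nat_lit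 2) (nat_lit 5) (nat_lit 4) (nat_lit 4) (nat_lit 2) (nat_lit 4) (nat_lit 325) (nat_lit 291) (nat_lit 164)) (XT.lf (nat_lit 0) (nat_lit 5355579083876) (nat_lit 152) (nat_lit 1216409976171) (nat_lit 0) (nat_lit 4774053048665) (nat_lit 2) (nat_lit 5) (nat_lit 4) (nat_lit 4) (nat_lit 2) (nat_lit 4) (nat_lit 326) (nat_lit 291) (nat_lit 163)))) (XT.nd (nat_lit 156) (nat_lit 0) (nat_lit 0) (XT.nd (nat_lit 78) (nat_lit 76) (nat_lit 0) (XT.lf (nat_lit 0) (nat_lit 6720356451503) (nat_lit 152) (nat_lit 90963222735) (nat_lit 0) (nat_lit 6138830415002) (nat_lit 2) (nat_lit 5) (nat_lit 4) (nat_lit 4) (nat_lit 2) (nat_lit 4) (nat_lit 327) (nat_lit 291) (nat_lit 162)) (XT.lf (nat_lit 0) (nat_lit 1320895818169) (nat_lit 76) (nat_lit 7023650082427) (nat_lit 76) (nat_lit 6442124044804) (nat_lit 1) (nat_lit 4) (nat_lit 2) (nat_lit 5) (nat_lit 2) (nat_lit 4) (nat_lit 328) (nat_lit 291) (nat_lit 161))) (XT.nd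 (nat_lit 78) (nat_lit 0) (nat_lit 0) (XT.lf (nat_lit 0) (nat_lit 2954756735859) (nat_lit 76) (nat_lit 7262361924374) (nat_lit 76) (nat_lit 6680835885776) (nat_lit 1) (nat_lit 4) (nat_lit 2) (nat_lit 5) (nat_lit 2) (nat_lit 4) (nat_lit 329) (nat_lit 291) (nat_lit 160)) (XT.nd (nat_lit 78) (nat_lit 0) (nat_lit 0) (XT.lf (nat_lit 0) (nat_lit 4833696786700) (nat_lit 76) (nat_lit 7536880544896) (nat_lit 76) (nat_lit 6955354505449) (nat_lit 1) (nat_lit 4) (nat_lit 2) (nat_lit 5) (nat_lit 2) (nat_lit 4) (nat_lit 330) (nat_lit 291) (nat_lit 159)) (XT.lf (nat_lit 0) (nat_lit 6994477841252) (nat_lit 76) (nat_lit 7852576960479) (nat_lit 76) (nat_lit 7271050920295) (nat_lit 1) (nat_lit 4) (nat_lit 2) (nat_lit 5) (nat_lit 2) (nat_lit 4) (nat_lit 331) (nat_lit 291) (nat_lit 158)))))) (XT.nd (nat_lit 312) (nat_lit 0) (nat_lit 0) (XT.nd (nat_lit 156) (nat_lit 0) (nat_lit 0) (XT.nd (nat_lit 78) (nat_lit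 0) (nat_lit 0) (XT.lf (nat_lit 0) (nat_lit 9479376050582) (nat_lit 76) (nat_lit 8215627840126) (nat_lit 76) (nat_lit 7634101799300) (nat_lit 1) (nat_lit 4) (nat_lit 2) (nat_lit 5) (nat_lit 2) (nat_lit 4) (nat_lit 332) (nat_lit 291) (nat_lit 157)) (XT.lf (nat_lit 0) (nat_lit 12337008988350) (nat_lit 76) (nat_lit 8633136353221) (nat_lit 76) (nat_lit 8051610311837) (nat_lit 1) (nat_lit 4) (nat_lit 2) (nat_lit 5) (nat_lit 2) (nat_lit 4) (nat_lit 333) (nat_lit 291) (nat_lit 156))) (XT.nd (nat_lit 78) (nat_lit 0) (nat_lit 0) (XT.lf (nat_lit 0) (nat_lit 15623286864209) (nat_lit 76) (nat_lit 9113271144584) (nat_lit 76) (nat_lit 8531745102715) (nat_lit 1) (nat_lit 4) (nat_lit 2) (nat_lit 5) (nat_lit 2) (nat_lit 4) (nat_lit 334) (nat_lit 291) (nat_lit 155)) (XT.lf (nat_lit 0) (nat_lit 19402506419208) (nat_lit 76) (nat_lit 9665426155786) (nat_lit 76) (nat_lit 9083900113496) (nat_lit 1) (nat_lit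 4) (nat_lit 2) (nat_lit 5) (nat_lit 2) (nat_lit 4) (nat_lit 335) (nat_lit 291) (nat_lit 154)))) (XT.nd (nat_lit 156) (nat_lit 0) (nat_lit 0) (XT.nd (nat_lit 78) (nat_lit 0) (nat_lit 0) (XT.lf (nat_lit 0) (nat_lit 23748608905511) (nat_lit 76) (nat_lit 10300404419655) (nat_lit 76) (nat_lit 9718878376998) (nat_lit 1) (nat_lit 4) (nat_lit 2) (nat_lit 5) (nat_lit 2) (nat_lit 4) (nat_lit 336) (nat_lit 291) (nat_lit 153)) (XT.lf (nat_lit 0) (nat_lit 28746626763066) (nat_lit 76) (nat_lit 11030629423963) (nat_lit 76) (nat_lit 10449103380987) (nat_lit 1) (nat_lit 4) (nat_lit 2) (nat_lit 5) (nat_lit 2) (nat_lit 4) (nat_lit 337) (nat_lit 291) (nat_lit 152))) (XT.nd (nat_lit 78) (nat_lit 0) (nat_lit 0) (XT.lf (nat_lit 0) (nat_lit 34494347297782) (nat_lit 76) (nat_lit 11870388179662) (nat_lit 76) (nat_lit 11288862136409) (nat_lit 1) (nat_lit 4) (nat_lit 2) (nat_lit 5) (nat_lit 2) (nat_lit 4) (nat_lit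 338) (nat_lit 291) (nat_lit 151)) (XT.nd (nat_lit 78) (nat_lit 0) (nat_lit 0) (XT.lf (nat_lit 0) (nat_lit 41104225911425) (nat_lit 76) (nat_lit 12836110749366) (nat_lit 76) (nat_lit 12254584705871) (nat_lit 1) (nat_lit 4) (nat_lit 2) (nat_lit 5) (nat_lit 2) (nat_lit 4) (nat_lit 339) (nat_lit 291) (nat_lit 150)) (XT.lf (nat_lit 0) (nat_lit 48705586316003) (nat_lit 76) (nat_lit 13946691705088) (nat_lit 76) (nat_lit 13365165661384) (nat_lit 1) (nat_lit 4) (nat_lit 2) (nat_lit 5) (nat_lit 2) (nat_lit 4) (nat_lit 340) (nat_lit 291) (nat_lit 149))))))) (XT.nd (nat_lit 702) (nat_lit 532) (nat_lit 0) (XT.nd (nat_lit 312) (nat_lit 304) (nat_lit 0) (XT.nd (nat_lit 156) (nat_lit 0) (nat_lit 76) (XT.nd (nat_lit 78) (nat_lit 0) (nat_lit 0) (XT.lf (nat_lit 0) (nat_lit 25017163815) (nat_lit 380) (nat_lit 76677720916) (nat_lit 380) (nat_lit 76677720916) (nat_lit 20) (nat_lit 3) (nat_lit 25) (nat_lit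 3) (nat_lit 25) (nat_lit 5) (nat_lit 292) (nat_lit 292) (nat_lit 196)) (XT.lf (nat_lit 76) (nat_lit 12720417281) (nat_lit 0) (nat_lit 41593675406) (nat_lit 380) (nat_lit 329107928841) (nat_lit 21) (nat_lit 5) (nat_lit 20) (nat_lit 3) (nat_lit 25) (nat_lit 5) (nat_lit 293) (nat_lit 292) (nat_lit 195))) (XT.nd (nat_lit 78) (nat_lit 0) (nat_lit 0) (XT.lf (nat_lit 0) (nat_lit 73616045466) (nat_lit 304) (nat_lit 198319257857) (nat_lit 380) (nat_lit 140008016891) (nat_lit 21) (nat_lit 5) (nat_lit 25) (nat_lit 5) (nat_lit 26) (nat_lit 5) (nat_lit 294) (nat_lit 292) (nat_lit 194)) (XT.lf (nat_lit 0) (nat_lit 97793869636) (nat_lit 304) (nat_lit 2060268921) (nat_lit 380) (nat_lit 344591588691) (nat_lit 21) (nat_lit 5) (nat_lit 25) (nat_lit 5) (nat_lit 26) (nat_lit 5) (nat_lit 295) (nat_lit 292) (nat_lit 193)))) (XT.nd (nat_lit 156) (nat_lit 456) (nat_lit 0) (XT.nd (nat_lit 78) (nat_lit 0) (nat_lit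 0) (XT.lf (nat_lit 0) (nat_lit 140307304555) (nat_lit 304) (nat_lit 239349360065) (nat_lit 76) (nat_lit 99960490423) (nat_lit 22) (nat_lit 5) (nat_lit 26) (nat_lit 5) (nat_lit 23) (nat_lit 5) (nat_lit 296) (nat_lit 292) (nat_lit 192)) (XT.lf (nat_lit 0) (nat_lit 194065481304) (nat_lit 304) (nat_lit 5631672843) (nat_lit 76) (nat_lit 319636984112) (nat_lit 22) (nat_lit 5) (nat_lit 26) (nat_lit 5) (nat_lit 23) (nat_lit 5) (nat_lit 297) (nat_lit 292) (nat_lit 191))) (XT.nd (nat_lit 78) (nat_lit 152) (nat_lit 0) (XT.lf (nat_lit 0) (nat_lit 268718450937) (nat_lit 380) (nat_lit 275224632053) (nat_lit 76) (nat_lit 19140926217) (nat_lit 18) (nat_lit 5) (nat_lit 23) (nat_lit 5) (nat_lit 19) (nat_lit 5) (nat_lit 298) (nat_lit 292) (nat_lit 190)) (XT.nd (nat_lit 78) (nat_lit 0) (nat_lit 0) (XT.lf (nat_lit 0) (nat_lit 3437361180) (nat_lit 152) (nat_lit 361092083134) (nat_lit 228) (nat_lit 247372904921)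 (nat_lit 16) (nat_lit 5) (nat_lit 18) (nat_lit 5) (nat_lit 19) (nat_lit 5) (nat_lit 299) (nat_lit 292) (nat_lit 189)) (XT.lf (nat_lit 0) (nat_lit 354830096982) (nat_lit 152) (nat_lit 134268690633) (nat_lit 228) (nat_lit 176786647673) (nat_lit 16) (nat_lit 5) (nat_lit 18) (nat_lit 5) (nat_lit 19) (nat_lit 5) (nat_lit 300) (nat_lit 292) (nat_lit 188)))))) (XT.nd (nat_lit 312) (nat_lit 228) (nat_lit 0) (XT.nd (nat_lit 156) (nat_lit 152) (nat_lit 0) (XT.nd (nat_lit 78) (nat_lit 76) (nat_lit 0) (XT.lf (nat_lit 0) (nat_lit 28238347776) (nat_lit 76) (nat_lit 610525771946) (nat_lit 152) (nat_lit 88240276564) (nat_lit 15) (nat_lit 5) (nat_lit 16) (nat_lit 5) (nat_lit 17) (nat_lit 4) (nat_lit 301) (nat_lit 292) (nat_lit 187)) (XT.lf (nat_lit 0) (nat_lit 35806042807) (nat_lit 152) (nat_lit 349198502569) (nat_lit 76) (nat_lit 408688104118) (nat_lit 14) (nat_lit 5) (nat_lit 16) (nat_lit 5) (nat_lit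 15) (nat_lit 5) (nat_lit 302) (nat_lit 292) (nat_lit 186))) (XT.nd (nat_lit 78) (nat_lit 0) (nat_lit 0) (XT.lf (nat_lit 0) (nat_lit 53351974139) (nat_lit 152) (nat_lit 118282373264) (nat_lit 228) (nat_lit 697788131549) (nat_lit 12) (nat_lit 5) (nat_lit 14) (nat_lit 5) (nat_lit 15) (nat_lit 5) (nat_lit 303) (nat_lit 292) (nat_lit 185)) (XT.lf (nat_lit 0) (nat_lit 354762878822) (nat_lit 228) (nat_lit 406916075461) (nat_lit 76) (nat_lit 190793931453) (nat_lit 12) (nat_lit 5) (nat_lit 15) (nat_lit 5) (nat_lit 13) (nat_lit 4) (nat_lit 304) (nat_lit 292) (nat_lit 184)))) (XT.nd (nat_lit 156) (nat_lit 152) (nat_lit 0) (XT.nd (nat_lit 78) (nat_lit 0) (nat_lit 0) (XT.lf (nat_lit 0) (nat_lit 63645111803) (nat_lit 76) (nat_lit 509983455267) (nat_lit 152) (nat_lit 473112104968) (nat_lit 11) (nat_lit 5) (nat_lit 12) (nat_lit 5) (nat_lit 13) (nat_lit 4) (nat_lit 305) (nat_lit 292) (nat_lit 183)) (XT.lf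 (nat_lit 0) (nat_lit 650522256534) (nat_lit 76) (nat_lit 196072441542) (nat_lit 152) (nat_lit 305363339841) (nat_lit 11) (nat_lit 5) (nat_lit 12) (nat_lit 5) (nat_lit 13) (nat_lit 4) (nat_lit 306) (nat_lit 292) (nat_lit 182))) (XT.nd (nat_lit 78) (nat_lit 76) (nat_lit 0) (XT.lf (nat_lit 0) (nat_lit 50104363168) (nat_lit 76) (nat_lit 1119305281233) (nat_lit 76) (nat_lit 102212779978) (nat_lit 10) (nat_lit 4) (nat_lit 11) (nat_lit 5) (nat_lit 11) (nat_lit 4) (nat_lit 307) (nat_lit 292) (nat_lit 181)) (XT.nd (nat_lit 78) (nat_lit 0) (nat_lit 0) (XT.lf (nat_lit 0) (nat_lit 156507645327) (nat_lit 152) (nat_lit 680601088084) (nat_lit 76) (nat_lit 565792070882) (nat_lit 9) (nat_lit 5) (nat_lit 11) (nat_lit 5) (nat_lit 10) (nat_lit 4) (nat_lit 308) (nat_lit 292) (nat_lit 180)) (XT.lf (nat_lit 0) (nat_lit 443571474699) (nat_lit 152) (nat_lit 63413876048) (nat_lit 76) (nat_lit 1046155501890) (nat_lit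 9) (nat_lit 5) (nat_lit 11) (nat_lit 5) (nat_lit 10) (nat_lit 4) (nat_lit 309) (nat_lit 292) (nat_lit 179))))))))
noncomputable def xc105 : XT := (XT.nd (nat_lit 1404) (nat_lit 76) (nat_lit 0) (XT.nd (nat_lit 702) (nat_lit 152) (nat_lit 0) (XT.nd (nat_lit 312) (nat_lit 152) (nat_lit 0) (XT.nd (nat_lit 156) (nat_lit 152) (nat_lit 0) (XT.nd (nat_lit 78) (nat_lit 0) (nat_lit 0) (XT.lf (nat_lit 0) (nat_lit 709517548700) (nat_lit 76) (nat_lit 93556922794) (nat_lit 152) (nat_lit 918435497816) (nat_lit 8) (nat_lit 5) (nat_lit 9) (nat_lit 5) (nat_lit 10) (nat_lit 4) (nat_lit 310) (nat_lit 292) (nat_lit 178)) (XT.lf (nat_lit 0) (nat_lit 1235788642620) (nat_lit 152) (nat_lit 325092640837) (nat_lit 0) (nat_lit 351360311332) (nat_lit 8) (nat_lit 5) (nat_lit 10) (nat_lit 4) (nat_lit 8) (nat_lit 4) (nat_lit 311) (nat_lit 292) (nat_lit 177))) (XT.nd (nat_lit 78) (nat_lit 76) (nat_lit 0) (XT.lf (nat_lit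 0) (nat_lit 505379354775) (nat_lit 76) (nat_lit 1253412344369) (nat_lit 76) (nat_lit 368984001009) (nat_lit 7) (nat_lit 4) (nat_lit 8) (nat_lit 5) (nat_lit 8) (nat_lit 4) (nat_lit 312) (nat_lit 292) (nat_lit 176)) (XT.lf (nat_lit 0) (nat_lit 3778515306) (nat_lit 152) (nat_lit 876304545950) (nat_lit 76) (nat_lit 1492982077501) (nat_lit 6) (nat_lit 5) (nat_lit 8) (nat_lit 5) (nat_lit 7) (nat_lit 4) (nat_lit 313) (nat_lit 292) (nat_lit 175)))) (XT.nd (nat_lit 156) (nat_lit 76) (nat_lit 0) (XT.nd (nat_lit 78) (nat_lit 76) (nat_lit 0) (XT.lf (nat_lit 0) (nat_lit 394678464287) (nat_lit 152) (nat_lit 35869664768) (nat_lit 76) (nat_lit 2221964265806) (nat_lit 6) (nat_lit 5) (nat_lit 8) (nat_lit 5) (nat_lit 7) (nat_lit 4) (nat_lit 314) (nat_lit 292) (nat_lit 174)) (XT.lf (nat_lit 0) (nat_lit 892107475612) (nat_lit 152) (nat_lit 1951545826300) (nat_lit 0) (nat_lit 123039326982) (nat_lit 5) (nat_lit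 5) (nat_lit 7) (nat_lit 4) (nat_lit 5) (nat_lit 4) (nat_lit 315) (nat_lit 292) (nat_lit 173))) (XT.nd (nat_lit 78) (nat_lit 76) (nat_lit 0) (XT.lf (nat_lit 0) (nat_lit 1486617411995) (nat_lit 152) (nat_lit 1120463242681) (nat_lit 0) (nat_lit 717549257363) (nat_lit 5) (nat_lit 5) (nat_lit 7) (nat_lit 4) (nat_lit 5) (nat_lit 4) (nat_lit 316) (nat_lit 292) (nat_lit 172)) (XT.nd (nat_lit 78) (nat_lit 76) (nat_lit 0) (XT.lf (nat_lit 0) (nat_lit 2170303830431) (nat_lit 152) (nat_lit 164718287917) (nat_lit 0) (nat_lit 1401235670579) (nat_lit 5) (nat_lit 5) (nat_lit 7) (nat_lit 4) (nat_lit 5) (nat_lit 4) (nat_lit 317) (nat_lit 292) (nat_lit 171)) (XT.lf (nat_lit 0) (nat_lit 1025703625391) (nat_lit 76) (nat_lit 1973311778740) (nat_lit 76) (nat_lit 1204243614350) (nat_lit 4) (nat_lit 4) (nat_lit 5) (nat_lit 5) (nat_lit 5) (nat_lit 4) (nat_lit 318) (nat_lit 292) (nat_lit 170)))))) (XT.nd (nat_lit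 312) (nat_lit 0) (nat_lit 0) (XT.nd (nat_lit 156) (nat_lit 152) (nat_lit 0) (XT.nd (nat_lit 78) (nat_lit 0) (nat_lit 0) (XT.lf (nat_lit 0) (nat_lit 2413200901489) (nat_lit 76) (nat_lit 1547443079620) (nat_lit 76) (nat_lit 778374911283) (nat_lit 4) (nat_lit 4) (nat_lit 5) (nat_lit 5) (nat_lit 5) (nat_lit 4) (nat_lit 319) (nat_lit 292) (nat_lit 169)) (XT.lf (nat_lit 0) (nat_lit 4008822757167) (nat_lit 76) (nat_lit 1057694081450) (nat_lit 76) (nat_lit 288625909681) (nat_lit 4) (nat_lit 4) (nat_lit 5) (nat_lit 5) (nat_lit 5) (nat_lit 4) (nat_lit 320) (nat_lit 292) (nat_lit 168))) (XT.nd (nat_lit 78) (nat_lit 76) (nat_lit 0) (XT.lf (nat_lit 0) (nat_lit 250139941823) (nat_lit 152) (nat_lit 231267299833) (nat_lit 76) (nat_lit 5580572442122) (nat_lit 3) (nat_lit 5) (nat_lit 5) (nat_lit 5) (nat_lit 4) (nat_lit 4) (nat_lit 321) (nat_lit 292) (nat_lit 167)) (XT.lf (nat_lit 0) (nat_lit 897728734041)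 (nat_lit 152) (nat_lit 5737444335909) (nat_lit 0) (nat_lit 228973797217) (nat_lit 2) (nat_lit 5) (nat_lit 4) (nat_lit 4) (nat_lit 2) (nat_lit 4) (nat_lit 322) (nat_lit 292) (nat_lit 166)))) (XT.nd (nat_lit 156) (nat_lit 0) (nat_lit 0) (XT.nd (nat_lit 78) (nat_lit 0) (nat_lit 0) (XT.lf (nat_lit 0) (nat_lit 1678044632600) (nat_lit 152) (nat_lit 5093966483529) (nat_lit 0) (nat_lit 1009289693813) (nat_lit 2) (nat_lit 5) (nat_lit 4) (nat_lit 4) (nat_lit 2) (nat_lit 4) (nat_lit 323) (nat_lit 292) (nat_lit 165)) (XT.lf (nat_lit 0) (nat_lit 2575407911850) (nat_lit 152) (nat_lit 4353966961544) (nat_lit 0) (nat_lit 1906652971357) (nat_lit 2) (nat_lit 5) (nat_lit 4) (nat_lit 4) (nat_lit 2) (nat_lit 4) (nat_lit 324) (nat_lit 292) (nat_lit 164))) (XT.nd (nat_lit 78) (nat_lit 0) (nat_lit 0) (XT.lf (nat_lit 0) (nat_lit 3607375679430) (nat_lit 152) (nat_lit 3502967518434) (nat_lit 0) (nat_lit 2938620737453)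 (nat_lit 2) (nat_lit 5) (nat_lit 4) (nat_lit 4) (nat_lit 2) (nat_lit 4) (nat_lit 325) (nat_lit 292) (nat_lit 163)) (XT.nd (nat_lit 78) (nat_lit 0) (nat_lit 0) (XT.lf (nat_lit 0) (nat_lit 4794138609052) (nat_lit 152) (nat_lit 2524318165097) (nat_lit 0) (nat_lit 4125383665786) (nat_lit 2) (nat_lit 5) (nat_lit 4) (nat_lit 4) (nat_lit 2) (nat_lit 4) (nat_lit 326) (nat_lit 292) (nat_lit 162)) (XT.lf (nat_lit 0) (nat_lit 6158915975428) (nat_lit 152) (nat_lit 1398871414185) (nat_lit 0) (nat_lit 5490161031039) (nat_lit 2) (nat_lit 5) (nat_lit 4) (nat_lit 4) (nat_lit 2) (nat_lit 4) (nat_lit 327) (nat_lit 292) (nat_lit 161))))))) (XT.nd (nat_lit 702) (nat_lit 0) (nat_lit 0) (XT.nd (nat_lit 312) (nat_lit 0) (nat_lit 0) (XT.nd (nat_lit 156) (nat_lit 0) (nat_lit 0) (XT.nd (nat_lit 78) (nat_lit 76) (nat_lit 0) (XT.lf (nat_lit 0) (nat_lit 7728409944420) (nat_lit 152) (nat_lit 104607655352) (nat_lit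 0) (nat_lit 7059654999056) (nat_lit 2) (nat_lit 5) (nat_lit 4) (nat_lit 4) (nat_lit 2) (nat_lit 4) (nat_lit 328) (nat_lit 292) (nat_lit 160)) (XT.lf (nat_lit 0) (nat_lit 1519030239379) (nat_lit 76) (nat_lit 8077197570220) (nat_lit 76) (nat_lit 7408442624008) (nat_lit 1) (nat_lit 4) (nat_lit 2) (nat_lit 5) (nat_lit 2) (nat_lit 4) (nat_lit 329) (nat_lit 292) (nat_lit 159))) (XT.nd (nat_lit 78) (nat_lit 0) (nat_lit 0) (XT.lf (nat_lit 0) (nat_lit 3397970288399) (nat_lit 76) (nat_lit 8351716191664) (nat_lit 76) (nat_lit 7682961244714) (nat_lit 1) (nat_lit 4) (nat_lit 2) (nat_lit 5) (nat_lit 2) (nat_lit 4) (nat_lit 330) (nat_lit 292) (nat_lit 158)) (XT.lf (nat_lit 0) (nat_lit 5558751341367) (nat_lit 76) (nat_lit 8667412608051) (nat_lit 76) (nat_lit 7998657660459) (nat_lit 1) (nat_lit 4) (nat_lit 2) (nat_lit 5) (nat_lit 2) (nat_lit 4) (nat_lit 331) (nat_lit 292) (nat_lit 157)))) (XT.nd (nat_lit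 156) (nat_lit 0) (nat_lit 0) (XT.nd (nat_lit 78) (nat_lit 0) (nat_lit 0) (XT.lf (nat_lit 0) (nat_lit 8043649549319) (nat_lit 76) (nat_lit 9030463488396) (nat_lit 76) (nat_lit 8361708540246) (nat_lit 1) (nat_lit 4) (nat_lit 2) (nat_lit 5) (nat_lit 2) (nat_lit 4) (nat_lit 332) (nat_lit 292) (nat_lit 156)) (XT.lf (nat_lit 0) (nat_lit 10901282485890) (nat_lit 76) (nat_lit 9447972002097) (nat_lit 76) (nat_lit 8779217053463) (nat_lit 1) (nat_lit 4) (nat_lit 2) (nat_lit 5) (nat_lit 2) (nat_lit 4) (nat_lit 333) (nat_lit 292) (nat_lit 155))) (XT.nd (nat_lit 78) (nat_lit 0) (nat_lit 0) (XT.lf (nat_lit 0) (nat_lit 14187560360708) (nat_lit 76) (nat_lit 9928106793988) (nat_lit 76) (nat_lit 9259351844932) (nat_lit 1) (nat_lit 4) (nat_lit 2) (nat_lit 5) (nat_lit 2) (nat_lit 4) (nat_lit 334) (nat_lit 292) (nat_lit 154)) (XT.nd (nat_lit 78) (nat_lit 0) (nat_lit 0) (XT.lf (nat_lit 0) (nat_lit 17966779914801)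 (nat_lit 76) (nat_lit 10480261805649) (nat_lit 76) (nat_lit 9811506856226) (nat_lit 1) (nat_lit 4) (nat_lit 2) (nat_lit 5) (nat_lit 2) (nat_lit 4) (nat_lit 335) (nat_lit 292) (nat_lit 153)) (XT.lf (nat_lit 0) (nat_lit 22312882400317) (nat_lit 76) (nat_lit 11115240069917) (nat_lit 76) (nat_lit 10446485120176) (nat_lit 1) (nat_lit 4) (nat_lit 2) (nat_lit 5) (nat_lit 2) (nat_lit 4) (nat_lit 336) (nat_lit 292) (nat_lit 152)))))) (XT.nd (nat_lit 37284) (nat_lit 0) (nat_lit 1444) (XT.nd (nat_lit 156) (nat_lit 0) (nat_lit 0) (XT.nd (nat_lit 78) (nat_lit 0) (nat_lit 0) (XT.lf (nat_lit 0) (nat_lit 27310900257187) (nat_lit 76) (nat_lit 11845465074571) (nat_lit 76) (nat_lit 11176710124553) (nat_lit 1) (nat_lit 4) (nat_lit 2) (nat_lit 5) (nat_lit 2) (nat_lit 4) (nat_lit 337) (nat_lit 292) (nat_lit 151)) (XT.lf (nat_lit 0) (nat_lit 33058620791308) (nat_lit 76) (nat_lit 12685223830573) (nat_lit 76)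 (nat_lit 12016468880313) (nat_lit 1) (nat_lit 4) (nat_lit 2) (nat_lit 5) (nat_lit 2) (nat_lit 4) (nat_lit 338) (nat_lit 292) (nat_lit 150))) (XT.nd (nat_lit 78) (nat_lit 0) (nat_lit 0) (XT.lf (nat_lit 0) (nat_lit 39668499404434) (nat_lit 76) (nat_lit 13650946400538) (nat_lit 76) (nat_lit 12982191450069) (nat_lit 1) (nat_lit 4) (nat_lit 2) (nat_lit 5) (nat_lit 2) (nat_lit 4) (nat_lit 339) (nat_lit 292) (nat_lit 149)) (XT.nd (nat_lit 36972) (nat_lit 0) (nat_lit 1444) (XT.lf (nat_lit 0) (nat_lit 47269859808561) (nat_lit 76) (nat_lit 14761527356489) (nat_lit 76) (nat_lit 14092772405837) (nat_lit 1) (nat_lit 4) (nat_lit 2) (nat_lit 5) (nat_lit 2) (nat_lit 4) (nat_lit 340) (nat_lit 292) (nat_lit 148)) (XT.lf (nat_lit 0) (nat_lit 28770184258) (nat_lit 380) (nat_lit 88179121699) (nat_lit 380) (nat_lit 88179121699) (nat_lit 20) (nat_lit 3) (nat_lit 25) (nat_lit 3) (nat_lit 25) (nat_lit 5) (nat_lit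 293) (nat_lit 293) (nat_lit 194))))) (XT.nd (nat_lit 156) (nat_lit 0) (nat_lit 76) (XT.nd (nat_lit 78) (nat_lit 0) (nat_lit 76) (XT.lf (nat_lit 76) (nat_lit 14628971187) (nat_lit 0) (nat_lit 47833031175) (nat_lit 380) (nat_lit 378473199625) (nat_lit 21) (nat_lit 5) (nat_lit 20) (nat_lit 3) (nat_lit 25) (nat_lit 5) (nat_lit 294) (nat_lit 293) (nat_lit 193)) (XT.lf (nat_lit 0) (nat_lit 84659133298) (nat_lit 304) (nat_lit 228066601587) (nat_lit 380) (nat_lit 161008978248) (nat_lit 21) (nat_lit 5) (nat_lit 25) (nat_lit 5) (nat_lit 26) (nat_lit 5) (nat_lit 295) (nat_lit 293) (nat_lit 192))) (XT.nd (nat_lit 78) (nat_lit 0) (nat_lit 76) (XT.lf (nat_lit 0) (nat_lit 112463542266) (nat_lit 304) (nat_lit 2368835390) (nat_lit 380) (nat_lit 396280117276) (nat_lit 21) (nat_lit 5) (nat_lit 25) (nat_lit 5) (nat_lit 26) (nat_lit 5) (nat_lit 296) (nat_lit 293) (nat_lit 191)) (XT.nd (nat_lit 78) (nat_lit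 0) (nat_lit 0) (XT.lf (nat_lit 0) (nat_lit 161353930544) (nat_lit 304) (nat_lit 275251226086) (nat_lit 76) (nat_lit 114954489885) (nat_lit 22) (nat_lit 5) (nat_lit 26) (nat_lit 5) (nat_lit 23) (nat_lit 5) (nat_lit 297) (nat_lit 293) (nat_lit 190)) (XT.lf (nat_lit 0) (nat_lit 223175764634) (nat_lit 304) (nat_lit 6475955953) (nat_lit 76) (nat_lit 367582467292) (nat_lit 22) (nat_lit 5) (nat_lit 26) (nat_lit 5) (nat_lit 23) (nat_lit 5) (nat_lit 298) (nat_lit 293) (nat_lit 189))))))))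
noncomputable def xc106 : XT := (XT.nd (nat_lit 1404) (nat_lit 304) (nat_lit 0) (XT.nd (nat_lit 702) (nat_lit 456) (nat_lit 0) (XT.nd (nat_lit 312) (nat_lit 304) (nat_lit 0) (XT.nd (nat_lit 156) (nat_lit 76) (nat_lit 0) (XT.nd (nat_lit 78) (nat_lit 152) (nat_lit 0) (XT.lf (nat_lit 0) (nat_lit 309026639177) (nat_lit 380) (nat_lit 316507816816) (nat_lit 76) (nat_lit 22012089813) (nat_lit 18) (nat_lit 5) (nat_lit 23) (nat_lit 5) (nat_lit 19) (nat_lit 5) (nat_lit 299) (nat_lit 293) (nat_lit 188)) (XT.lf (nat_lit 0) (nat_lit 3953452219) (nat_lit 152) (nat_lit 415255794641) (nat_lit 228) (nat_lit 284478395404) (nat_lit 16) (nat_lit 5) (nat_lit 18) (nat_lit 5) (nat_lit 19) (nat_lit 5) (nat_lit 300) (nat_lit 293) (nat_lit 187))) (XT.nd (nat_lit 78) (nat_lit 76) (nat_lit 0) (XT.lf (nat_lit 0) (nat_lit 408055034887) (nat_lit 152) (nat_lit 154408906433) (nat_lit 228) (nat_lit 203304257646) (nat_lit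 16) (nat_lit 5) (nat_lit 18) (nat_lit 5) (nat_lit 19) (nat_lit 5) (nat_lit 301) (nat_lit 293) (nat_lit 186)) (XT.lf (nat_lit 0) (nat_lit 32474549856) (nat_lit 76) (nat_lit 702104501411) (nat_lit 152) (nat_lit 101475956313) (nat_lit 15) (nat_lit 5) (nat_lit 16) (nat_lit 5) (nat_lit 17) (nat_lit 4) (nat_lit 302) (nat_lit 293) (nat_lit 185)))) (XT.nd (nat_lit 156) (nat_lit 76) (nat_lit 0) (XT.nd (nat_lit 78) (nat_lit 152) (nat_lit 0) (XT.lf (nat_lit 0) (nat_lit 41177235778) (nat_lit 152) (nat_lit 401577857881) (nat_lit 76) (nat_lit 469991409435) (nat_lit 14) (nat_lit 5) (nat_lit 16) (nat_lit 5) (nat_lit 15) (nat_lit 5) (nat_lit 303) (nat_lit 293) (nat_lit 184)) (XT.lf (nat_lit 0) (nat_lit 61355171239) (nat_lit 152) (nat_lit 136024594051) (nat_lit 228) (nat_lit 802456044905) (nat_lit 12) (nat_lit 5) (nat_lit 14) (nat_lit 5) (nat_lit 15) (nat_lit 5) (nat_lit 304) (nat_lit 293) (nat_lit 183)))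 (XT.nd (nat_lit 78) (nat_lit 76) (nat_lit 0) (XT.lf (nat_lit 0) (nat_lit 407977546624) (nat_lit 228) (nat_lit 467953107667) (nat_lit 76) (nat_lit 219413128271) (nat_lit 12) (nat_lit 5) (nat_lit 15) (nat_lit 5) (nat_lit 13) (nat_lit 4) (nat_lit 305) (nat_lit 293) (nat_lit 182)) (XT.nd (nat_lit 78) (nat_lit 0) (nat_lit 0) (XT.lf (nat_lit 0) (nat_lit 73192240454) (nat_lit 76) (nat_lit 586480831861) (nat_lit 152) (nat_lit 544078666948) (nat_lit 11) (nat_lit 5) (nat_lit 12) (nat_lit 5) (nat_lit 13) (nat_lit 4) (nat_lit 306) (nat_lit 293) (nat_lit 181)) (XT.lf (nat_lit 0) (nat_lit 748100909693) (nat_lit 76) (nat_lit 225483184558) (nat_lit 152) (nat_lit 351167620152) (nat_lit 11) (nat_lit 5) (nat_lit 12) (nat_lit 5) (nat_lit 13) (nat_lit 4) (nat_lit 307) (nat_lit 293) (nat_lit 180)))))) (XT.nd (nat_lit 312) (nat_lit 228) (nat_lit 0) (XT.nd (nat_lit 156) (nat_lit 76) (nat_lit 0) (XT.nd (nat_lit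 78) (nat_lit 76) (nat_lit 0) (XT.lf (nat_lit 0) (nat_lit 57620341022) (nat_lit 76) (nat_lit 1287200934357) (nat_lit 76) (nat_lit 117544484591) (nat_lit 10) (nat_lit 4) (nat_lit 11) (nat_lit 5) (nat_lit 11) (nat_lit 4) (nat_lit 308) (nat_lit 293) (nat_lit 179)) (XT.lf (nat_lit 0) (nat_lit 179983960366) (nat_lit 152) (nat_lit 782690953340) (nat_lit 76) (nat_lit 650660985679) (nat_lit 9) (nat_lit 5) (nat_lit 11) (nat_lit 5) (nat_lit 10) (nat_lit 4) (nat_lit 309) (nat_lit 293) (nat_lit 178))) (XT.nd (nat_lit 78) (nat_lit 76) (nat_lit 0) (XT.lf (nat_lit 0) (nat_lit 510107342200) (nat_lit 152) (nat_lit 72925698363) (nat_lit 76) (nat_lit 1203078917751) (nat_lit 9) (nat_lit 5) (nat_lit 11) (nat_lit 5) (nat_lit 10) (nat_lit 4) (nat_lit 310) (nat_lit 293) (nat_lit 177)) (XT.lf (nat_lit 0) (nat_lit 815945428321) (nat_lit 76) (nat_lit 107590351352) (nat_lit 152) (nat_lit 1056200664177) (nat_lit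 8) (nat_lit 5) (nat_lit 9) (nat_lit 5) (nat_lit 10) (nat_lit 4) (nat_lit 311) (nat_lit 293) (nat_lit 176)))) (XT.nd (nat_lit 156) (nat_lit 152) (nat_lit 0) (XT.nd (nat_lit 78) (nat_lit 76) (nat_lit 0) (XT.lf (nat_lit 0) (nat_lit 1421157062494) (nat_lit 152) (nat_lit 373856307724) (nat_lit 0) (nat_lit 404064445059) (nat_lit 8) (nat_lit 5) (nat_lit 10) (nat_lit 4) (nat_lit 8) (nat_lit 4) (nat_lit 312) (nat_lit 293) (nat_lit 175)) (XT.lf (nat_lit 0) (nat_lit 581186476809) (nat_lit 76) (nat_lit 1441424093641) (nat_lit 76) (nat_lit 424331467078) (nat_lit 7) (nat_lit 4) (nat_lit 8) (nat_lit 5) (nat_lit 8) (nat_lit 4) (nat_lit 313) (nat_lit 293) (nat_lit 174))) (XT.nd (nat_lit 78) (nat_lit 76) (nat_lit 0) (XT.lf (nat_lit 0) (nat_lit 4345398815) (nat_lit 152) (nat_lit 1007750027049) (nat_lit 76) (nat_lit 1716929467638) (nat_lit 6) (nat_lit 5) (nat_lit 8) (nat_lit 5) (nat_lit 7) (nat_lit 4) (nat_lit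 314) (nat_lit 293) (nat_lit 173)) (XT.nd (nat_lit 78) (nat_lit 76) (nat_lit 0) (XT.lf (nat_lit 0) (nat_lit 453880326290) (nat_lit 152) (nat_lit 41249939880) (nat_lit 76) (nat_lit 2555258973948) (nat_lit 6) (nat_lit 5) (nat_lit 8) (nat_lit 5) (nat_lit 7) (nat_lit 4) (nat_lit 315) (nat_lit 293) (nat_lit 172)) (XT.lf (nat_lit 0) (nat_lit 1025923687458) (nat_lit 152) (nat_lit 2244277523683) (nat_lit 0) (nat_lit 141495298409) (nat_lit 5) (nat_lit 5) (nat_lit 7) (nat_lit 4) (nat_lit 5) (nat_lit 4) (nat_lit 316) (nat_lit 293) (nat_lit 171))))))) (XT.nd (nat_lit 702) (nat_lit 76) (nat_lit 0) (XT.nd (nat_lit 312) (nat_lit 152) (nat_lit 0) (XT.nd (nat_lit 156) (nat_lit 76) (nat_lit 0) (XT.nd (nat_lit 78) (nat_lit 0) (nat_lit 0) (XT.lf (nat_lit 0) (nat_lit 1709610102494) (nat_lit 152) (nat_lit 1288532575551) (nat_lit 0) (nat_lit 825181708906) (nat_lit 5) (nat_lit 5) (nat_lit 7) (nat_lit 4) (nat_lit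 5) (nat_lit 4) (nat_lit 317) (nat_lit 293) (nat_lit 170)) (XT.lf (nat_lit 0) (nat_lit 2495849473429) (nat_lit 152) (nat_lit 189425897598) (nat_lit 0) (nat_lit 1611421075895) (nat_lit 5) (nat_lit 5) (nat_lit 7) (nat_lit 4) (nat_lit 5) (nat_lit 4) (nat_lit 318) (nat_lit 293) (nat_lit 169))) (XT.nd (nat_lit 78) (nat_lit 0) (nat_lit 0) (XT.lf (nat_lit 0) (nat_lit 1179559296638) (nat_lit 76) (nat_lit 2269308482898) (nat_lit 76) (nat_lit 1384880081932) (nat_lit 4) (nat_lit 4) (nat_lit 5) (nat_lit 5) (nat_lit 5) (nat_lit 4) (nat_lit 319) (nat_lit 293) (nat_lit 168)) (XT.lf (nat_lit 0) (nat_lit 2775181147528) (nat_lit 76) (nat_lit 1779559487082) (nat_lit 76) (nat_lit 895131083131) (nat_lit 4) (nat_lit 4) (nat_lit 5) (nat_lit 5) (nat_lit 5) (nat_lit 4) (nat_lit 320) (nat_lit 293) (nat_lit 167)))) (XT.nd (nat_lit 156) (nat_lit 76) (nat_lit 0) (XT.nd (nat_lit 78) (nat_lit 76) (nat_lit 0) (XT.lf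 (nat_lit 0) (nat_lit 4610146267103) (nat_lit 76) (nat_lit 1216348146293) (nat_lit 76) (nat_lit 331919739748) (nat_lit 4) (nat_lit 4) (nat_lit 5) (nat_lit 5) (nat_lit 5) (nat_lit 4) (nat_lit 321) (nat_lit 293) (nat_lit 166)) (XT.lf (nat_lit 0) (nat_lit 287660977762) (nat_lit 152) (nat_lit 265957306611) (nat_lit 76) (nat_lit 6417658345232) (nat_lit 3) (nat_lit 5) (nat_lit 5) (nat_lit 5) (nat_lit 4) (nat_lit 4) (nat_lit 322) (nat_lit 293) (nat_lit 165))) (XT.nd (nat_lit 78) (nat_lit 0) (nat_lit 0) (XT.lf (nat_lit 0) (nat_lit 1032388088207) (nat_lit 152) (nat_lit 6598060897458) (nat_lit 0) (nat_lit 263319904934) (nat_lit 2) (nat_lit 5) (nat_lit 4) (nat_lit 4) (nat_lit 2) (nat_lit 4) (nat_lit 323) (nat_lit 293) (nat_lit 164)) (XT.nd (nat_lit 78) (nat_lit 0) (nat_lit 0) (XT.lf (nat_lit 0) (nat_lit 1929751365803) (nat_lit 152) (nat_lit 5858061378809) (nat_lit 0) (nat_lit 1160683181046) (nat_lit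 2) (nat_lit 5) (nat_lit 4) (nat_lit 4) (nat_lit 2) (nat_lit 4) (nat_lit 324) (nat_lit 293) (nat_lit 163)) (XT.lf (nat_lit 0) (nat_lit 2961719131943) (nat_lit 152) (nat_lit 5007061938602) (nat_lit 0) (nat_lit 2192650945896) (nat_lit 2) (nat_lit 5) (nat_lit 4) (nat_lit 4) (nat_lit 2) (nat_lit 4) (nat_lit 325) (nat_lit 293) (nat_lit 162)))))) (XT.nd (nat_lit 390) (nat_lit 0) (nat_lit 0) (XT.nd (nat_lit 156) (nat_lit 76) (nat_lit 0) (XT.nd (nat_lit 78) (nat_lit 0) (nat_lit 0) (XT.lf (nat_lit 0) (nat_lit 4148482060314) (nat_lit 152) (nat_lit 4028412587788) (nat_lit 0) (nat_lit 3379413873146) (nat_lit 2) (nat_lit 5) (nat_lit 4) (nat_lit 4) (nat_lit 2) (nat_lit 4) (nat_lit 326) (nat_lit 293) (nat_lit 161)) (XT.lf (nat_lit 0) (nat_lit 5513259425602) (nat_lit 152) (nat_lit 2902965839069) (nat_lit 0) (nat_lit 4744191237457) (nat_lit 2) (nat_lit 5) (nat_lit 4) (nat_lit 4) (nat_lit 2) (nat_lit 4)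 (nat_lit 327) (nat_lit 293) (nat_lit 160))) (XT.nd (nat_lit 78) (nat_lit 76) (nat_lit 0) (XT.lf (nat_lit 0) (nat_lit 7082753393647) (nat_lit 152) (nat_lit 1608702082145) (nat_lit 0) (nat_lit 6313685204655) (nat_lit 2) (nat_lit 5) (nat_lit 4) (nat_lit 4) (nat_lit 2) (nat_lit 4) (nat_lit 328) (nat_lit 293) (nat_lit 159)) (XT.nd (nat_lit 78) (nat_lit 76) (nat_lit 0) (XT.lf (nat_lit 0) (nat_lit 8887671455131) (nat_lit 152) (nat_lit 120298765248) (nat_lit 0) (nat_lit 8118603265401) (nat_lit 2) (nat_lit 5) (nat_lit 4) (nat_lit 4) (nat_lit 2) (nat_lit 4) (nat_lit 329) (nat_lit 293) (nat_lit 158)) (XT.lf (nat_lit 0) (nat_lit 1746884811947) (nat_lit 76) (nat_lit 9288777187174) (nat_lit 76) (nat_lit 8519708996803) (nat_lit 1) (nat_lit 4) (nat_lit 2) (nat_lit 5) (nat_lit 2) (nat_lit 4) (nat_lit 330) (nat_lit 293) (nat_lit 157))))) (XT.nd (nat_lit 156) (nat_lit 0) (nat_lit 0) (XT.nd (nat_lit 78)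 (nat_lit 0) (nat_lit 0) (XT.lf (nat_lit 0) (nat_lit 3907665863537) (nat_lit 76) (nat_lit 9604473604258) (nat_lit 76) (nat_lit 8835405413329) (nat_lit 1) (nat_lit 4) (nat_lit 2) (nat_lit 5) (nat_lit 2) (nat_lit 4) (nat_lit 331) (nat_lit 293) (nat_lit 156)) (XT.lf (nat_lit 0) (nat_lit 6392564070292) (nat_lit 76) (nat_lit 9967524485210) (nat_lit 76) (nat_lit 9198456293796) (nat_lit 1) (nat_lit 4) (nat_lit 2) (nat_lit 5) (nat_lit 2) (nat_lit 4) (nat_lit 332) (nat_lit 293) (nat_lit 155))) (XT.nd (nat_lit 78) (nat_lit 0) (nat_lit 0) (XT.lf (nat_lit 0) (nat_lit 9250197005822) (nat_lit 76) (nat_lit 10385032999439) (nat_lit 76) (nat_lit 9615964807603) (nat_lit 1) (nat_lit 4) (nat_lit 2) (nat_lit 5) (nat_lit 2) (nat_lit 4) (nat_lit 333) (nat_lit 293) (nat_lit 154)) (XT.nd (nat_lit 78) (nat_lit 0) (nat_lit 0) (XT.lf (nat_lit 0) (nat_lit 12536474879734) (nat_lit 76) (nat_lit 10865167791789) (nat_lit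 76) (nat_lit 10096099599586) (nat_lit 1) (nat_lit 4) (nat_lit 2) (nat_lit 5) (nat_lit 2) (nat_lit 4) (nat_lit 334) (nat_lit 293) (nat_lit 153)) (XT.lf (nat_lit 0) (nat_lit 16315694433041) (nat_lit 76) (nat_lit 11417322803849) (nat_lit 76) (nat_lit 10648254611327) (nat_lit 1) (nat_lit 4) (nat_lit 2) (nat_lit 5) (nat_lit 2) (nat_lit 4) (nat_lit 335) (nat_lit 293) (nat_lit 152))))))))
noncomputable def xc107 : XT := (XT.nd (nat_lit 38376) (nat_lit 0) (nat_lit 76) (XT.nd (nat_lit 37674) (nat_lit 0) (nat_lit 836) (XT.nd (nat_lit 312) (nat_lit 0) (nat_lit 0) (XT.nd (nat_lit 156) (nat_lit 0) (nat_lit 0) (XT.nd (nat_lit 78) (nat_lit 0) (nat_lit 0) (XT.lf (nat_lit 0) (nat_lit 20661796917871) (nat_lit 76) (nat_lit 12052301068464) (nat_lit 76) (nat_lit 11283232875665) (nat_lit 1) (nat_lit 4) (nat_lit 2) (nat_lit 5) (nat_lit 2) (nat_lit 4) (nat_lit 336) (nat_lit 293) (nat_lit 151)) (XT.lf (nat_lit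 0) (nat_lit 25659814774146) (nat_lit 76) (nat_lit 12782526073420) (nat_lit 76) (nat_lit 12013457880380) (nat_lit 1) (nat_lit 4) (nat_lit 2) (nat_lit 5) (nat_lit 2) (nat_lit 4) (nat_lit 337) (nat_lit 293) (nat_lit 150))) (XT.nd (nat_lit 78) (nat_lit 0) (nat_lit 0) (XT.lf (nat_lit 0) (nat_lit 31407535307749) (nat_lit 76) (nat_lit 13622284829684) (nat_lit 76) (nat_lit 12853216636434) (nat_lit 1) (nat_lit 4) (nat_lit 2) (nat_lit 5) (nat_lit 2) (nat_lit 4) (nat_lit 338) (nat_lit 293) (nat_lit 149)) (XT.lf (nat_lit 0) (nat_lit 38017413920425) (nat_lit 76) (nat_lit 14588007399877) (nat_lit 76) (nat_lit 13818939206445) (nat_lit 1) (nat_lit 4) (nat_lit 2) (nat_lit 5) (nat_lit 2) (nat_lit 4) (nat_lit 339) (nat_lit 293) (nat_lit 148)))) (XT.nd (nat_lit 37128) (nat_lit 0) (nat_lit 1444) (XT.nd (nat_lit 37050) (nat_lit 0) (nat_lit 1444) (XT.lf (nat_lit 0) (nat_lit 45618774324161) (nat_lit 76) (nat_lit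 15698588356026) (nat_lit 76) (nat_lit 14929520162436) (nat_lit 1) (nat_lit 4) (nat_lit 2) (nat_lit 5) (nat_lit 2) (nat_lit 4) (nat_lit 340) (nat_lit 293) (nat_lit 147)) (XT.lf (nat_lit 0) (nat_lit 33086049039) (nat_lit 380) (nat_lit 101405795357) (nat_lit 380) (nat_lit 101405795357) (nat_lit 20) (nat_lit 3) (nat_lit 25) (nat_lit 3) (nat_lit 25) (nat_lit 5) (nat_lit 294) (nat_lit 294) (nat_lit 192))) (XT.nd (nat_lit 78) (nat_lit 0) (nat_lit 76) (XT.lf (nat_lit 76) (nat_lit 16823688368) (nat_lit 0) (nat_lit 55008216065) (nat_lit 380) (nat_lit 435243485018) (nat_lit 21) (nat_lit 5) (nat_lit 20) (nat_lit 3) (nat_lit 25) (nat_lit 5) (nat_lit 295) (nat_lit 294) (nat_lit 191)) (XT.nd (nat_lit 78) (nat_lit 0) (nat_lit 0) (XT.lf (nat_lit 0) (nat_lit 97358518236) (nat_lit 304) (nat_lit 262276179765) (nat_lit 380) (nat_lit 185160142622) (nat_lit 21) (nat_lit 5) (nat_lit 25) (nat_lit 5) (nat_lit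 26) (nat_lit 5) (nat_lit 296) (nat_lit 294) (nat_lit 190)) (XT.lf (nat_lit 0) (nat_lit 129333521383) (nat_lit 304) (nat_lit 2723802386) (nat_lit 380) (nat_lit 455721976291) (nat_lit 21) (nat_lit 5) (nat_lit 25) (nat_lit 5) (nat_lit 26) (nat_lit 5) (nat_lit 297) (nat_lit 294) (nat_lit 189)))))) (XT.nd (nat_lit 312) (nat_lit 304) (nat_lit 0) (XT.nd (nat_lit 156) (nat_lit 456) (nat_lit 0) (XT.nd (nat_lit 78) (nat_lit 0) (nat_lit 0) (XT.lf (nat_lit 0) (nat_lit 185557421112) (nat_lit 304) (nat_lit 316538503203) (nat_lit 76) (nat_lit 132197607336) (nat_lit 22) (nat_lit 5) (nat_lit 26) (nat_lit 5) (nat_lit 23) (nat_lit 5) (nat_lit 298) (nat_lit 294) (nat_lit 188)) (XT.lf (nat_lit 0) (nat_lit 256652478014) (nat_lit 304) (nat_lit 7446995611) (nat_lit 76) (nat_lit 422719788663) (nat_lit 22) (nat_lit 5) (nat_lit 26) (nat_lit 5) (nat_lit 23) (nat_lit 5) (nat_lit 299) (nat_lit 294) (nat_lit 187)))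 (XT.nd (nat_lit 78) (nat_lit 152) (nat_lit 0) (XT.lf (nat_lit 0) (nat_lit 355380953086) (nat_lit 380) (nat_lit 363983603671) (nat_lit 76) (nat_lit 25313921934) (nat_lit 18) (nat_lit 5) (nat_lit 23) (nat_lit 5) (nat_lit 19) (nat_lit 5) (nat_lit 300) (nat_lit 294) (nat_lit 186)) (XT.lf (nat_lit 0) (nat_lit 4546838189) (nat_lit 152) (nat_lit 477544087494) (nat_lit 228) (nat_lit 327149818038) (nat_lit 16) (nat_lit 5) (nat_lit 18) (nat_lit 5) (nat_lit 19) (nat_lit 5) (nat_lit 301) (nat_lit 294) (nat_lit 185)))) (XT.nd (nat_lit 156) (nat_lit 228) (nat_lit 0) (XT.nd (nat_lit 78) (nat_lit 76) (nat_lit 0) (XT.lf (nat_lit 0) (nat_lit 469263610239) (nat_lit 152) (nat_lit 177570176013) (nat_lit 228) (nat_lit 233799603531) (nat_lit 16) (nat_lit 5) (nat_lit 18) (nat_lit 5) (nat_lit 19) (nat_lit 5) (nat_lit 302) (nat_lit 294) (nat_lit 184)) (XT.lf (nat_lit 0) (nat_lit 37346072533) (nat_lit 76) (nat_lit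 807420073540) (nat_lit 152) (nat_lit 116697076235) (nat_lit 15) (nat_lit 5) (nat_lit 16) (nat_lit 5) (nat_lit 17) (nat_lit 4) (nat_lit 303) (nat_lit 294) (nat_lit 183))) (XT.nd (nat_lit 78) (nat_lit 152) (nat_lit 0) (XT.lf (nat_lit 0) (nat_lit 47354037817) (nat_lit 152) (nat_lit 461814218927) (nat_lit 76) (nat_lit 540490188677) (nat_lit 14) (nat_lit 5) (nat_lit 16) (nat_lit 5) (nat_lit 15) (nat_lit 5) (nat_lit 304) (nat_lit 294) (nat_lit 182)) (XT.nd (nat_lit 78) (nat_lit 0) (nat_lit 0) (XT.lf (nat_lit 0) (nat_lit 70558750124) (nat_lit 152) (nat_lit 156428180927) (nat_lit 228) (nat_lit 922824219976) (nat_lit 12) (nat_lit 5) (nat_lit 14) (nat_lit 5) (nat_lit 15) (nat_lit 5) (nat_lit 305) (nat_lit 294) (nat_lit 181)) (XT.lf (nat_lit 0) (nat_lit 469174357052) (nat_lit 228) (nat_lit 538145787154) (nat_lit 76) (nat_lit 252325178496) (nat_lit 12) (nat_lit 5) (nat_lit 15) (nat_lit 5) (nat_lit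 13) (nat_lit 4) (nat_lit 306) (nat_lit 294) (nat_lit 180))))))) (XT.nd (nat_lit 702) (nat_lit 304) (nat_lit 0) (XT.nd (nat_lit 312) (nat_lit 228) (nat_lit 0) (XT.nd (nat_lit 156) (nat_lit 152) (nat_lit 0) (XT.nd (nat_lit 78) (nat_lit 0) (nat_lit 0) (XT.lf (nat_lit 0) (nat_lit 84171350156) (nat_lit 76) (nat_lit 674452849497) (nat_lit 152) (nat_lit 625690275108) (nat_lit 11) (nat_lit 5) (nat_lit 12) (nat_lit 5) (nat_lit 13) (nat_lit 4) (nat_lit 307) (nat_lit 294) (nat_lit 179)) (XT.lf (nat_lit 0) (nat_lit 860316284089) (nat_lit 76) (nat_lit 259305569074) (nat_lit 152) (nat_lit 403842596321) (nat_lit 11) (nat_lit 5) (nat_lit 12) (nat_lit 5) (nat_lit 13) (nat_lit 4) (nat_lit 308) (nat_lit 294) (nat_lit 178))) (XT.nd (nat_lit 78) (nat_lit 76) (nat_lit 0) (XT.lf (nat_lit 0) (nat_lit 66263636696) (nat_lit 76) (nat_lit 1480280969361) (nat_lit 76) (nat_lit 135175996687) (nat_lit 10) (nat_lit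 4) (nat_lit 11) (nat_lit 5) (nat_lit 11) (nat_lit 4) (nat_lit 309) (nat_lit 294) (nat_lit 177)) (XT.lf (nat_lit 0) (nat_lit 206981681634) (nat_lit 152) (nat_lit 900094371043) (nat_lit 76) (nat_lit 748260212294) (nat_lit 9) (nat_lit 5) (nat_lit 11) (nat_lit 5) (nat_lit 10) (nat_lit 4) (nat_lit 310) (nat_lit 294) (nat_lit 176)))) (XT.nd (nat_lit 156) (nat_lit 152) (nat_lit 0) (XT.nd (nat_lit 78) (nat_lit 76) (nat_lit 0) (XT.lf (nat_lit 0) (nat_lit 586623554150) (nat_lit 152) (nat_lit 83864357206) (nat_lit 76) (nat_lit 1383540823904) (nat_lit 9) (nat_lit 5) (nat_lit 11) (nat_lit 5) (nat_lit 10) (nat_lit 4) (nat_lit 311) (nat_lit 294) (nat_lit 175)) (XT.lf (nat_lit 0) (nat_lit 938337429576) (nat_lit 76) (nat_lit 123728820983) (nat_lit 152) (nat_lit 1214630644097) (nat_lit 8) (nat_lit 5) (nat_lit 9) (nat_lit 5) (nat_lit 10) (nat_lit 4) (nat_lit 312) (nat_lit 294) (nat_lit 174))) (XT.nd (nat_lit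 78) (nat_lit 152) (nat_lit 0) (XT.lf (nat_lit 0) (nat_lit 1634330715238) (nat_lit 152) (nat_lit 429934580546) (nat_lit 0) (nat_lit 464674177623) (nat_lit 8) (nat_lit 5) (nat_lit 10) (nat_lit 4) (nat_lit 8) (nat_lit 4) (nat_lit 313) (nat_lit 294) (nat_lit 173)) (XT.nd (nat_lit 78) (nat_lit 76) (nat_lit 0) (XT.lf (nat_lit 0) (nat_lit 668364613789) (nat_lit 76) (nat_lit 1657637630272) (nat_lit 76) (nat_lit 487981085754) (nat_lit 7) (nat_lit 4) (nat_lit 8) (nat_lit 5) (nat_lit 8) (nat_lit 4) (nat_lit 314) (nat_lit 294) (nat_lit 172)) (XT.lf (nat_lit 0) (nat_lit 4997288949) (nat_lit 152) (nat_lit 1158912379277) (nat_lit 76) (nat_lit 1974468947150) (nat_lit 6) (nat_lit 5) (nat_lit 8) (nat_lit 5) (nat_lit 7) (nat_lit 4) (nat_lit 315) (nat_lit 294) (nat_lit 171)))))) (XT.nd (nat_lit 390) (nat_lit 152) (nat_lit 0) (XT.nd (nat_lit 156) (nat_lit 76) (nat_lit 0) (XT.nd (nat_lit 78) (nat_lit 76)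 (nat_lit 0) (XT.lf (nat_lit 0) (nat_lit 521962445070) (nat_lit 152) (nat_lit 47437298837) (nat_lit 76) (nat_lit 2938547871663) (nat_lit 6) (nat_lit 5) (nat_lit 8) (nat_lit 5) (nat_lit 7) (nat_lit 4) (nat_lit 316) (nat_lit 294) (nat_lit 170)) (XT.lf (nat_lit 0) (nat_lit 1179812309010) (nat_lit 152) (nat_lit 2580919018729) (nat_lit 0) (nat_lit 162719647899) (nat_lit 5) (nat_lit 5) (nat_lit 7) (nat_lit 4) (nat_lit 5) (nat_lit 4) (nat_lit 317) (nat_lit 294) (nat_lit 169))) (XT.nd (nat_lit 78) (nat_lit 76) (nat_lit 0) (XT.lf (nat_lit 0) (nat_lit 1966051677376) (nat_lit 152) (nat_lit 1481812345791) (nat_lit 0) (nat_lit 948959012833) (nat_lit 5) (nat_lit 5) (nat_lit 7) (nat_lit 4) (nat_lit 5) (nat_lit 4) (nat_lit 318) (nat_lit 294) (nat_lit 168)) (XT.nd (nat_lit 78) (nat_lit 76) (nat_lit 0) (XT.lf (nat_lit 0) (nat_lit 2870226946190) (nat_lit 152) (nat_lit 217839681288) (nat_lit 0) (nat_lit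 1853134278663) (nat_lit 5) (nat_lit 5) (nat_lit 7) (nat_lit 4) (nat_lit 5) (nat_lit 4) (nat_lit 319) (nat_lit 294) (nat_lit 167)) (XT.lf (nat_lit 0) (nat_lit 1356493287495) (nat_lit 76) (nat_lit 2609704707958) (nat_lit 76) (nat_lit 1592612037836) (nat_lit 4) (nat_lit 4) (nat_lit 5) (nat_lit 5) (nat_lit 5) (nat_lit 4) (nat_lit 320) (nat_lit 294) (nat_lit 166))))) (XT.nd (nat_lit 156) (nat_lit 152) (nat_lit 0) (XT.nd (nat_lit 78) (nat_lit 0) (nat_lit 0) (XT.lf (nat_lit 0) (nat_lit 3191458403450) (nat_lit 76) (nat_lit 2046493368948) (nat_lit 76) (nat_lit 1029400696570) (nat_lit 4) (nat_lit 4) (nat_lit 5) (nat_lit 5) (nat_lit 5) (nat_lit 4) (nat_lit 321) (nat_lit 294) (nat_lit 165)) (XT.lf (nat_lit 0) (nat_lit 5301668280032) (nat_lit 76) (nat_lit 1398800332415) (nat_lit 76) (nat_lit 381707658074) (nat_lit 4) (nat_lit 4) (nat_lit 5) (nat_lit 5) (nat_lit 5) (nat_lit 4) (nat_lit 322) (nat_lit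 294) (nat_lit 164))) (XT.nd (nat_lit 78) (nat_lit 76) (nat_lit 0) (XT.lf (nat_lit 0) (nat_lit 330810158201) (nat_lit 152) (nat_lit 305850835914) (nat_lit 76) (nat_lit 7380307124837) (nat_lit 3) (nat_lit 5) (nat_lit 5) (nat_lit 5) (nat_lit 4) (nat_lit 4) (nat_lit 323) (nat_lit 294) (nat_lit 163)) (XT.nd (nat_lit 78) (nat_lit 0) (nat_lit 0) (XT.lf (nat_lit 0) (nat_lit 1187246334754) (nat_lit 152) (nat_lit 7587769964904) (nat_lit 0) (nat_lit 302817919510) (nat_lit 2) (nat_lit 5) (nat_lit 4) (nat_lit 4) (nat_lit 2) (nat_lit 4) (nat_lit 324) (nat_lit 294) (nat_lit 162)) (XT.lf (nat_lit 0) (nat_lit 2219214099643) (nat_lit 152) (nat_lit 6736770527219) (nat_lit 0) (nat_lit 1334785683277) (nat_lit 2) (nat_lit 5) (nat_lit 4) (nat_lit 4) (nat_lit 2) (nat_lit 4) (nat_lit 325) (nat_lit 294) (nat_lit 161))))))))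
noncomputable def xc108 : XT := (XT.nd (nat_lit 38454) (nat_lit 0) (nat_lit 456) (XT.nd (nat_lit 702) (nat_lit 0) (nat_lit 0) (XT.nd (nat_lit 312) (nat_lit 76) (nat_lit 0) (XT.nd (nat_lit 156) (nat_lit 0) (nat_lit 0) (XT.nd (nat_lit 78) (nat_lit 0) (nat_lit 0) (XT.lf (nat_lit 0) (nat_lit 3405977026926) (nat_lit 152) (nat_lit 5758121178599) (nat_lit 0) (nat_lit 2521548609585) (nat_lit 2) (nat_lit 5) (nat_lit 4) (nat_lit 4) (nat_lit 2) (nat_lit 4) (nat_lit 326) (nat_lit 294) (nat_lit 160)) (XT.lf (nat_lit 0) (nat_lit 4770754391267) (nat_lit 152) (nat_lit 4632674431789) (nat_lit 0) (nat_lit 3886325973077) (nat_lit 2) (nat_lit 5) (nat_lit 4) (nat_lit 4) (nat_lit 2) (nat_lit 4) (nat_lit 327) (nat_lit 294) (nat_lit 159))) (XT.nd (nat_lit 78) (nat_lit 0) (nat_lit 0) (XT.lf (nat_lit 0) (nat_lit 6340248358490) (nat_lit 152) (nat_lit 3338410676523) (nat_lit 0) (nat_lit 5455819939563) (nat_lit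 2) (nat_lit 5) (nat_lit 4) (nat_lit 4) (nat_lit 2) (nat_lit 4) (nat_lit 328) (nat_lit 294) (nat_lit 158)) (XT.lf (nat_lit 0) (nat_lit 8145166419258) (nat_lit 152) (nat_lit 1850007361069) (nat_lit 0) (nat_lit 7260737999690) (nat_lit 2) (nat_lit 5) (nat_lit 4) (nat_lit 4) (nat_lit 2) (nat_lit 4) (nat_lit 329) (nat_lit 294) (nat_lit 157)))) (XT.nd (nat_lit 156) (nat_lit 0) (nat_lit 0) (XT.nd (nat_lit 78) (nat_lit 76) (nat_lit 0) (XT.lf (nat_lit 0) (nat_lit 10220822187804) (nat_lit 152) (nat_lit 138343550995) (nat_lit 0) (nat_lit 9336393767678) (nat_lit 2) (nat_lit 5) (nat_lit 4) (nat_lit 4) (nat_lit 2) (nat_lit 4) (nat_lit 330) (nat_lit 294) (nat_lit 156)) (XT.lf (nat_lit 0) (nat_lit 2008917561459) (nat_lit 76) (nat_lit 10682093751202) (nat_lit 76) (nat_lit 9797665330590) (nat_lit 1) (nat_lit 4) (nat_lit 2) (nat_lit 5) (nat_lit 2) (nat_lit 4) (nat_lit 331) (nat_lit 294) (nat_lit 155)))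 (XT.nd (nat_lit 78) (nat_lit 0) (nat_lit 0) (XT.lf (nat_lit 0) (nat_lit 4493815767173) (nat_lit 76) (nat_lit 11045144632681) (nat_lit 76) (nat_lit 10160716211648) (nat_lit 1) (nat_lit 4) (nat_lit 2) (nat_lit 5) (nat_lit 2) (nat_lit 4) (nat_lit 332) (nat_lit 294) (nat_lit 154)) (XT.nd (nat_lit 78) (nat_lit 0) (nat_lit 0) (XT.lf (nat_lit 0) (nat_lit 7351448701797) (nat_lit 76) (nat_lit 11462653147369) (nat_lit 76) (nat_lit 10578224725969) (nat_lit 1) (nat_lit 4) (nat_lit 2) (nat_lit 5) (nat_lit 2) (nat_lit 4) (nat_lit 333) (nat_lit 294) (nat_lit 153)) (XT.lf (nat_lit 0) (nat_lit 10637726574922) (nat_lit 76) (nat_lit 11942787940118) (nat_lit 76) (nat_lit 11058359518399) (nat_lit 1) (nat_lit 4) (nat_lit 2) (nat_lit 5) (nat_lit 2) (nat_lit 4) (nat_lit 334) (nat_lit 294) (nat_lit 152)))))) (XT.nd (nat_lit 312) (nat_lit 0) (nat_lit 0) (XT.nd (nat_lit 156) (nat_lit 0) (nat_lit 0) (XT.nd (nat_lit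 78) (nat_lit 0) (nat_lit 0) (XT.lf (nat_lit 0) (nat_lit 14416946127544) (nat_lit 76) (nat_lit 12494942952525) (nat_lit 76) (nat_lit 11610514530529) (nat_lit 1) (nat_lit 4) (nat_lit 2) (nat_lit 5) (nat_lit 2) (nat_lit 4) (nat_lit 335) (nat_lit 294) (nat_lit 151)) (XT.lf (nat_lit 0) (nat_lit 18763048611779) (nat_lit 76) (nat_lit 13129921217442) (nat_lit 76) (nat_lit 12245492795204) (nat_lit 1) (nat_lit 4) (nat_lit 2) (nat_lit 5) (nat_lit 2) (nat_lit 4) (nat_lit 336) (nat_lit 294) (nat_lit 150))) (XT.nd (nat_lit 78) (nat_lit 0) (nat_lit 0) (XT.lf (nat_lit 0) (nat_lit 23761066467537) (nat_lit 76) (nat_lit 13860146222660) (nat_lit 76) (nat_lit 12975717800213) (nat_lit 1) (nat_lit 4) (nat_lit 2) (nat_lit 5) (nat_lit 2) (nat_lit 4) (nat_lit 337) (nat_lit 294) (nat_lit 149)) (XT.lf (nat_lit 0) (nat_lit 29508787000690) (nat_lit 76) (nat_lit 14699904979152) (nat_lit 76) (nat_lit 13815476556522)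 (nat_lit 1) (nat_lit 4) (nat_lit 2) (nat_lit 5) (nat_lit 2) (nat_lit 4) (nat_lit 338) (nat_lit 294) (nat_lit 148)))) (XT.nd (nat_lit 37206) (nat_lit 0) (nat_lit 1444) (XT.nd (nat_lit 78) (nat_lit 0) (nat_lit 0) (XT.lf (nat_lit 0) (nat_lit 36118665612974) (nat_lit 76) (nat_lit 15665627549544) (nat_lit 76) (nat_lit 14781199126756) (nat_lit 1) (nat_lit 4) (nat_lit 2) (nat_lit 5) (nat_lit 2) (nat_lit 4) (nat_lit 339) (nat_lit 294) (nat_lit 147)) (XT.lf (nat_lit 0) (nat_lit 43720026016369) (nat_lit 76) (nat_lit 16776208505866) (nat_lit 76) (nat_lit 15891780082940) (nat_lit 1) (nat_lit 4) (nat_lit 2) (nat_lit 5) (nat_lit 2) (nat_lit 4) (nat_lit 340) (nat_lit 294) (nat_lit 146))) (XT.nd (nat_lit 78) (nat_lit 0) (nat_lit 0) (XT.lf (nat_lit 0) (nat_lit 38049211323) (nat_lit 380) (nat_lit 116616517517) (nat_lit 380) (nat_lit 116616517517) (nat_lit 20) (nat_lit 3) (nat_lit 25) (nat_lit 3) (nat_lit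 25) (nat_lit 5) (nat_lit 295) (nat_lit 295) (nat_lit 190)) (XT.nd (nat_lit 78) (nat_lit 0) (nat_lit 76) (XT.lf (nat_lit 76) (nat_lit 19347522534) (nat_lit 0) (nat_lit 63259622549) (nat_lit 380) (nat_lit 500529482591) (nat_lit 21) (nat_lit 5) (nat_lit 20) (nat_lit 3) (nat_lit 25) (nat_lit 5) (nat_lit 296) (nat_lit 295) (nat_lit 189)) (XT.lf (nat_lit 0) (nat_lit 111962685343) (nat_lit 304) (nat_lit 301617295153) (nat_lit 380) (nat_lit 212934026122) (nat_lit 21) (nat_lit 5) (nat_lit 25) (nat_lit 5) (nat_lit 26) (nat_lit 5) (nat_lit 297) (nat_lit 295) (nat_lit 188))))))) (XT.nd (nat_lit 702) (nat_lit 380) (nat_lit 0) (XT.nd (nat_lit 312) (nat_lit 456) (nat_lit 0) (XT.nd (nat_lit 156) (nat_lit 228) (nat_lit 0) (XT.nd (nat_lit 78) (nat_lit 0) (nat_lit 76) (XT.lf (nat_lit 0) (nat_lit 148733888174) (nat_lit 304) (nat_lit 3132101807) (nat_lit 380) (nat_lit 524080152827) (nat_lit 21) (nat_lit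 5) (nat_lit 25) (nat_lit 5) (nat_lit 26) (nat_lit 5) (nat_lit 298) (nat_lit 295) (nat_lit 187)) (XT.lf (nat_lit 0) (nat_lit 213391337483) (nat_lit 304) (nat_lit 364018971087) (nat_lit 76) (nat_lit 152027206068) (nat_lit 22) (nat_lit 5) (nat_lit 26) (nat_lit 5) (nat_lit 23) (nat_lit 5) (nat_lit 299) (nat_lit 295) (nat_lit 186))) (XT.nd (nat_lit 78) (nat_lit 304) (nat_lit 0) (XT.lf (nat_lit 0) (nat_lit 295150613371) (nat_lit 304) (nat_lit 8563777477) (nat_lit 76) (nat_lit 486127720120) (nat_lit 22) (nat_lit 5) (nat_lit 26) (nat_lit 5) (nat_lit 23) (nat_lit 5) (nat_lit 300) (nat_lit 295) (nat_lit 185)) (XT.lf (nat_lit 0) (nat_lit 408688336528) (nat_lit 380) (nat_lit 418580852602) (nat_lit 76) (nat_lit 29111024326) (nat_lit 18) (nat_lit 5) (nat_lit 23) (nat_lit 5) (nat_lit 19) (nat_lit 5) (nat_lit 301) (nat_lit 295) (nat_lit 184)))) (XT.nd (nat_lit 156) (nat_lit 304) (nat_lit 0) (XT.nd (nat_lit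 78) (nat_lit 0) (nat_lit 0) (XT.lf (nat_lit 0) (nat_lit 5229142282) (nat_lit 152) (nat_lit 549175642892) (nat_lit 228) (nat_lit 376222036168) (nat_lit 16) (nat_lit 5) (nat_lit 18) (nat_lit 5) (nat_lit 19) (nat_lit 5) (nat_lit 302) (nat_lit 295) (nat_lit 183)) (XT.lf (nat_lit 0) (nat_lit 539653393831) (nat_lit 152) (nat_lit 204205652219) (nat_lit 228) (nat_lit 268869322690) (nat_lit 16) (nat_lit 5) (nat_lit 18) (nat_lit 5) (nat_lit 19) (nat_lit 5) (nat_lit 303) (nat_lit 295) (nat_lit 182))) (XT.nd (nat_lit 78) (nat_lit 228) (nat_lit 0) (XT.lf (nat_lit 0) (nat_lit 42948240652) (nat_lit 76) (nat_lit 928533006625) (nat_lit 152) (nat_lit 134201430846) (nat_lit 15) (nat_lit 5) (nat_lit 16) (nat_lit 5) (nat_lit 17) (nat_lit 4) (nat_lit 304) (nat_lit 295) (nat_lit 181)) (XT.nd (nat_lit 78) (nat_lit 152) (nat_lit 0) (XT.lf (nat_lit 0) (nat_lit 54457307326) (nat_lit 152) (nat_lit 531086111587)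 (nat_lit 76) (nat_lit 621563768265) (nat_lit 14) (nat_lit 5) (nat_lit 16) (nat_lit 5) (nat_lit 15) (nat_lit 5) (nat_lit 305) (nat_lit 295) (nat_lit 180)) (XT.lf (nat_lit 0) (nat_lit 81142791904) (nat_lit 152) (nat_lit 179892330763) (nat_lit 228) (nat_lit 1061247677802) (nat_lit 12) (nat_lit 5) (nat_lit 14) (nat_lit 5) (nat_lit 15) (nat_lit 5) (nat_lit 306) (nat_lit 295) (nat_lit 179)))))) (XT.nd (nat_lit 312) (nat_lit 228) (nat_lit 0) (XT.nd (nat_lit 156) (nat_lit 76) (nat_lit 0) (XT.nd (nat_lit 78) (nat_lit 76) (nat_lit 0) (XT.lf (nat_lit 0) (nat_lit 539550645531) (nat_lit 228) (nat_lit 618867438468) (nat_lit 76) (nat_lit 290174016505) (nat_lit 12) (nat_lit 5) (nat_lit 15) (nat_lit 5) (nat_lit 13) (nat_lit 4) (nat_lit 307) (nat_lit 295) (nat_lit 178)) (XT.lf (nat_lit 0) (nat_lit 96797259586) (nat_lit 76) (nat_lit 775620695906) (nat_lit 152) (nat_lit 719543671283) (nat_lit 11) (nat_lit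 5) (nat_lit 12) (nat_lit 5) (nat_lit 13) (nat_lit 4) (nat_lit 308) (nat_lit 295) (nat_lit 177))) (XT.nd (nat_lit 78) (nat_lit 76) (nat_lit 0) (XT.lf (nat_lit 0) (nat_lit 989363906621) (nat_lit 76) (nat_lit 298201333987) (nat_lit 152) (nat_lit 464418859603) (nat_lit 11) (nat_lit 5) (nat_lit 12) (nat_lit 5) (nat_lit 13) (nat_lit 4) (nat_lit 309) (nat_lit 295) (nat_lit 176)) (XT.lf (nat_lit 0) (nat_lit 76203367093) (nat_lit 76) (nat_lit 1702323035256) (nat_lit 76) (nat_lit 155452274759) (nat_lit 10) (nat_lit 4) (nat_lit 11) (nat_lit 5) (nat_lit 11) (nat_lit 4) (nat_lit 310) (nat_lit 295) (nat_lit 175)))) (XT.nd (nat_lit 156) (nat_lit 152) (nat_lit 0) (XT.nd (nat_lit 78) (nat_lit 0) (nat_lit 0) (XT.lf (nat_lit 0) (nat_lit 238029030071) (nat_lit 152) (nat_lit 1035108356342) (nat_lit 76) (nat_lit 860499303694) (nat_lit 9) (nat_lit 5) (nat_lit 11) (nat_lit 5) (nat_lit 10) (nat_lit 4) (nat_lit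 311) (nat_lit 295) (nat_lit 174)) (XT.lf (nat_lit 0) (nat_lit 674617170918) (nat_lit 152) (nat_lit 96443862649) (nat_lit 76) (nat_lit 1591071999278) (nat_lit 9) (nat_lit 5) (nat_lit 11) (nat_lit 5) (nat_lit 10) (nat_lit 4) (nat_lit 312) (nat_lit 295) (nat_lit 173))) (XT.nd (nat_lit 78) (nat_lit 76) (nat_lit 0) (XT.lf (nat_lit 0) (nat_lit 1079088185416) (nat_lit 76) (nat_lit 142288081317) (nat_lit 152) (nat_lit 1396825150196) (nat_lit 8) (nat_lit 5) (nat_lit 9) (nat_lit 5) (nat_lit 10) (nat_lit 4) (nat_lit 313) (nat_lit 295) (nat_lit 172)) (XT.nd (nat_lit 78) (nat_lit 76) (nat_lit 0) (XT.lf (nat_lit 0) (nat_lit 1879480393124) (nat_lit 152) (nat_lit 494424636560) (nat_lit 0) (nat_lit 534375354024) (nat_lit 8) (nat_lit 5) (nat_lit 10) (nat_lit 4) (nat_lit 8) (nat_lit 4) (nat_lit 314) (nat_lit 295) (nat_lit 171)) (XT.lf (nat_lit 0) (nat_lit 768619430968) (nat_lit 76) (nat_lit 1906283216275)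 (nat_lit 76) (nat_lit 561178171955) (nat_lit 7) (nat_lit 4) (nat_lit 8) (nat_lit 5) (nat_lit 8) (nat_lit 4) (nat_lit 315) (nat_lit 295) (nat_lit 170))))))))
noncomputable def xc109 : XT := (XT.nd (nat_lit 1404) (nat_lit 0) (nat_lit 0) (XT.nd (nat_lit 702) (nat_lit 152) (nat_lit 0) (XT.nd (nat_lit 312) (nat_lit 152) (nat_lit 0) (XT.nd (nat_lit 156) (nat_lit 76) (nat_lit 0) (XT.nd (nat_lit 78) (nat_lit 0) (nat_lit 0) (XT.lf (nat_lit 0) (nat_lit 5746943020) (nat_lit 152) (nat_lit 1332749121364) (nat_lit 76) (nat_lit 2270639334112) (nat_lit 6) (nat_lit 5) (nat_lit 8) (nat_lit 5) (nat_lit 7) (nat_lit 4) (nat_lit 316) (nat_lit 295) (nat_lit 169)) (XT.lf (nat_lit 0) (nat_lit 600256864638) (nat_lit 152) (nat_lit 54552793832) (nat_lit 76) (nat_lit 3379330091446) (nat_lit 6) (nat_lit 5) (nat_lit 8) (nat_lit 5) (nat_lit 7) (nat_lit 4) (nat_lit 317) (nat_lit 295) (nat_lit 168))) (XT.nd (nat_lit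 78) (nat_lit 0) (nat_lit 0) (XT.lf (nat_lit 0) (nat_lit 1356784207108) (nat_lit 152) (nat_lit 2968056770588) (nat_lit 0) (nat_lit 187127636468) (nat_lit 5) (nat_lit 5) (nat_lit 7) (nat_lit 4) (nat_lit 5) (nat_lit 4) (nat_lit 318) (nat_lit 295) (nat_lit 167)) (XT.lf (nat_lit 0) (nat_lit 2260959473978) (nat_lit 152) (nat_lit 1704084109877) (nat_lit 0) (nat_lit 1091302900743) (nat_lit 5) (nat_lit 5) (nat_lit 7) (nat_lit 4) (nat_lit 5) (nat_lit 4) (nat_lit 319) (nat_lit 295) (nat_lit 166)))) (XT.nd (nat_lit 156) (nat_lit 76) (nat_lit 0) (XT.nd (nat_lit 78) (nat_lit 76) (nat_lit 0) (XT.lf (nat_lit 0) (nat_lit 3300761027245) (nat_lit 152) (nat_lit 250515557149) (nat_lit 0) (nat_lit 2131104451754) (nat_lit 5) (nat_lit 5) (nat_lit 7) (nat_lit 4) (nat_lit 5) (nat_lit 4) (nat_lit 320) (nat_lit 295) (nat_lit 165)) (XT.lf (nat_lit 0) (nat_lit 1559967353482) (nat_lit 76) (nat_lit 3001160378329) (nat_lit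 76) (nat_lit 1831503800875) (nat_lit 4) (nat_lit 4) (nat_lit 5) (nat_lit 5) (nat_lit 5) (nat_lit 4) (nat_lit 321) (nat_lit 295) (nat_lit 164))) (XT.nd (nat_lit 78) (nat_lit 76) (nat_lit 0) (XT.lf (nat_lit 0) (nat_lit 3670177227327) (nat_lit 76) (nat_lit 2353467343141) (nat_lit 76) (nat_lit 1183810763981) (nat_lit 4) (nat_lit 4) (nat_lit 5) (nat_lit 5) (nat_lit 5) (nat_lit 4) (nat_lit 322) (nat_lit 295) (nat_lit 163)) (XT.nd (nat_lit 78) (nat_lit 76) (nat_lit 0) (XT.lf (nat_lit 0) (nat_lit 6096918577132) (nat_lit 76) (nat_lit 1608620355190) (nat_lit 76) (nat_lit 438963774546) (nat_lit 4) (nat_lit 4) (nat_lit 5) (nat_lit 5) (nat_lit 5) (nat_lit 4) (nat_lit 323) (nat_lit 295) (nat_lit 162)) (XT.lf (nat_lit 0) (nat_lit 380431707469) (nat_lit 152) (nat_lit 351728410874) (nat_lit 76) (nat_lit 8487353214598) (nat_lit 3) (nat_lit 5) (nat_lit 5) (nat_lit 5) (nat_lit 4) (nat_lit 4) (nat_lit 324)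 (nat_lit 295) (nat_lit 161)))))) (XT.nd (nat_lit 312) (nat_lit 76) (nat_lit 0) (XT.nd (nat_lit 156) (nat_lit 0) (nat_lit 0) (XT.nd (nat_lit 78) (nat_lit 0) (nat_lit 0) (XT.lf (nat_lit 0) (nat_lit 1365333310158) (nat_lit 152) (nat_lit 8725935408846) (nat_lit 0) (nat_lit 348240629240) (nat_lit 2) (nat_lit 5) (nat_lit 4) (nat_lit 4) (nat_lit 2) (nat_lit 4) (nat_lit 325) (nat_lit 295) (nat_lit 160)) (XT.lf (nat_lit 0) (nat_lit 2552096236495) (nat_lit 152) (nat_lit 7747286062134) (nat_lit 0) (nat_lit 1535003554728) (nat_lit 2) (nat_lit 5) (nat_lit 4) (nat_lit 4) (nat_lit 2) (nat_lit 4) (nat_lit 326) (nat_lit 295) (nat_lit 159))) (XT.nd (nat_lit 78) (nat_lit 0) (nat_lit 0) (XT.lf (nat_lit 0) (nat_lit 3916873600013) (nat_lit 152) (nat_lit 6621839316983) (nat_lit 0) (nat_lit 2899780917509) (nat_lit 2) (nat_lit 5) (nat_lit 4) (nat_lit 4) (nat_lit 2) (nat_lit 4) (nat_lit 327) (nat_lit 295) (nat_lit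 158)) (XT.lf (nat_lit 0) (nat_lit 5486367566521) (nat_lit 152) (nat_lit 5327575563160) (nat_lit 0) (nat_lit 4469274883375) (nat_lit 2) (nat_lit 5) (nat_lit 4) (nat_lit 4) (nat_lit 2) (nat_lit 4) (nat_lit 328) (nat_lit 295) (nat_lit 157)))) (XT.nd (nat_lit 156) (nat_lit 76) (nat_lit 0) (XT.nd (nat_lit 78) (nat_lit 0) (nat_lit 0) (XT.lf (nat_lit 0) (nat_lit 7291285626667) (nat_lit 152) (nat_lit 3839172248961) (nat_lit 0) (nat_lit 6274192942963) (nat_lit 2) (nat_lit 5) (nat_lit 4) (nat_lit 4) (nat_lit 2) (nat_lit 4) (nat_lit 329) (nat_lit 295) (nat_lit 156)) (XT.lf (nat_lit 0) (nat_lit 9366941394672) (nat_lit 152) (nat_lit 2127508439977) (nat_lit 0) (nat_lit 8349848710483) (nat_lit 2) (nat_lit 5) (nat_lit 4) (nat_lit 4) (nat_lit 2) (nat_lit 4) (nat_lit 330) (nat_lit 295) (nat_lit 155))) (XT.nd (nat_lit 78) (nat_lit 76) (nat_lit 0) (XT.lf (nat_lit 0) (nat_lit 11753945526866) (nat_lit 152)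 (nat_lit 159095061685) (nat_lit 0) (nat_lit 10736852842256) (nat_lit 2) (nat_lit 5) (nat_lit 4) (nat_lit 4) (nat_lit 2) (nat_lit 4) (nat_lit 331) (nat_lit 295) (nat_lit 154)) (XT.nd (nat_lit 78) (nat_lit 0) (nat_lit 0) (XT.lf (nat_lit 0) (nat_lit 2310255216639) (nat_lit 76) (nat_lit 12284407803259) (nat_lit 76) (nat_lit 11267315118283) (nat_lit 1) (nat_lit 4) (nat_lit 2) (nat_lit 5) (nat_lit 2) (nat_lit 4) (nat_lit 332) (nat_lit 295) (nat_lit 153)) (XT.lf (nat_lit 0) (nat_lit 5167888150476) (nat_lit 76) (nat_lit 12701916318346) (nat_lit 76) (nat_lit 11684823633050) (nat_lit 1) (nat_lit 4) (nat_lit 2) (nat_lit 5) (nat_lit 2) (nat_lit 4) (nat_lit 333) (nat_lit 295) (nat_lit 152))))))) (XT.nd (nat_lit 38220) (nat_lit 0) (nat_lit 608) (XT.nd (nat_lit 37830) (nat_lit 0) (nat_lit 1292) (XT.nd (nat_lit 37674) (nat_lit 0) (nat_lit 1444) (XT.nd (nat_lit 78) (nat_lit 0) (nat_lit 0) (XT.lf (nat_lit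 0) (nat_lit 8454166022917) (nat_lit 76) (nat_lit 13182051111442) (nat_lit 76) (nat_lit 12164958425869) (nat_lit 1) (nat_lit 4) (nat_lit 2) (nat_lit 5) (nat_lit 2) (nat_lit 4) (nat_lit 334) (nat_lit 295) (nat_lit 151)) (XT.lf (nat_lit 0) (nat_lit 12233385574943) (nat_lit 76) (nat_lit 13734206124151) (nat_lit 76) (nat_lit 12717113438337) (nat_lit 1) (nat_lit 4) (nat_lit 2) (nat_lit 5) (nat_lit 2) (nat_lit 4) (nat_lit 335) (nat_lit 295) (nat_lit 150))) (XT.nd (nat_lit 78) (nat_lit 0) (nat_lit 0) (XT.lf (nat_lit 0) (nat_lit 43756785784) (nat_lit 380) (nat_lit 134108883883) (nat_lit 380) (nat_lit 134108883883) (nat_lit 20) (nat_lit 3) (nat_lit 25) (nat_lit 3) (nat_lit 25) (nat_lit 5) (nat_lit 296) (nat_lit 296) (nat_lit 188)) (XT.lf (nat_lit 76) (nat_lit 22249863322) (nat_lit 0) (nat_lit 72748697557) (nat_lit 380) (nat_lit 575608507869) (nat_lit 21) (nat_lit 5) (nat_lit 20) (nat_lit 3) (nat_lit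 25) (nat_lit 5) (nat_lit 297) (nat_lit 296) (nat_lit 187)))) (XT.nd (nat_lit 156) (nat_lit 228) (nat_lit 0) (XT.nd (nat_lit 78) (nat_lit 0) (nat_lit 0) (XT.lf (nat_lit 0) (nat_lit 128757382565) (nat_lit 304) (nat_lit 346859653829) (nat_lit 380) (nat_lit 244874025773) (nat_lit 21) (nat_lit 5) (nat_lit 25) (nat_lit 5) (nat_lit 26) (nat_lit 5) (nat_lit 298) (nat_lit 296) (nat_lit 186)) (XT.lf (nat_lit 0) (nat_lit 171044227418) (nat_lit 304) (nat_lit 3601712212) (nat_lit 380) (nat_lit 602692085084) (nat_lit 21) (nat_lit 5) (nat_lit 25) (nat_lit 5) (nat_lit 26) (nat_lit 5) (nat_lit 299) (nat_lit 296) (nat_lit 185))) (XT.nd (nat_lit 78) (nat_lit 304) (nat_lit 0) (XT.lf (nat_lit 0) (nat_lit 245400267371) (nat_lit 304) (nat_lit 418621584163) (nat_lit 76) (nat_lit 174831254942) (nat_lit 22) (nat_lit 5) (nat_lit 26) (nat_lit 5) (nat_lit 23) (nat_lit 5) (nat_lit 300) (nat_lit 296) (nat_lit 184))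 (XT.nd (nat_lit 78) (nat_lit 304) (nat_lit 0) (XT.lf (nat_lit 0) (nat_lit 339423404738) (nat_lit 304) (nat_lit 9848141849) (nat_lit 76) (nat_lit 559046850281) (nat_lit 22) (nat_lit 5) (nat_lit 26) (nat_lit 5) (nat_lit 23) (nat_lit 5) (nat_lit 301) (nat_lit 296) (nat_lit 183)) (XT.lf (nat_lit 0) (nat_lit 469991768843) (nat_lit 380) (nat_lit 481367759986) (nat_lit 76) (nat_lit 33477688638) (nat_lit 18) (nat_lit 5) (nat_lit 23) (nat_lit 5) (nat_lit 19) (nat_lit 5) (nat_lit 302) (nat_lit 296) (nat_lit 182)))))) (XT.nd (nat_lit 390) (nat_lit 228) (nat_lit 0) (XT.nd (nat_lit 156) (nat_lit 304) (nat_lit 0) (XT.nd (nat_lit 78) (nat_lit 0) (nat_lit 0) (XT.lf (nat_lit 0) (nat_lit 6013724108) (nat_lit 152) (nat_lit 631551945677) (nat_lit 228) (nat_lit 432655149097) (nat_lit 16) (nat_lit 5) (nat_lit 18) (nat_lit 5) (nat_lit 19) (nat_lit 5) (nat_lit 303) (nat_lit 296) (nat_lit 181)) (XT.lf (nat_lit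 0) (nat_lit 620601585935) (nat_lit 152) (nat_lit 234836462095) (nat_lit 228) (nat_lit 309199553706) (nat_lit 16) (nat_lit 5) (nat_lit 18) (nat_lit 5) (nat_lit 19) (nat_lit 5) (nat_lit 304) (nat_lit 296) (nat_lit 180))) (XT.nd (nat_lit 78) (nat_lit 228) (nat_lit 0) (XT.lf (nat_lit 0) (nat_lit 49390671259) (nat_lit 76) (nat_lit 1067812898681) (nat_lit 152) (nat_lit 154331489085) (nat_lit 15) (nat_lit 5) (nat_lit 16) (nat_lit 5) (nat_lit 17) (nat_lit 4) (nat_lit 305) (nat_lit 296) (nat_lit 179)) (XT.nd (nat_lit 78) (nat_lit 152) (nat_lit 0) (XT.lf (nat_lit 0) (nat_lit 62626027308) (nat_lit 152) (nat_lit 610748846716) (nat_lit 76) (nat_lit 714798372284) (nat_lit 14) (nat_lit 5) (nat_lit 16) (nat_lit 5) (nat_lit 15) (nat_lit 5) (nat_lit 306) (nat_lit 296) (nat_lit 178)) (XT.lf (nat_lit 0) (nat_lit 93314384044) (nat_lit 152) (nat_lit 206876121926) (nat_lit 228) (nat_lit 1220434697017) (nat_lit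 12) (nat_lit 5) (nat_lit 14) (nat_lit 5) (nat_lit 15) (nat_lit 5) (nat_lit 307) (nat_lit 296) (nat_lit 177))))) (XT.nd (nat_lit 156) (nat_lit 152) (nat_lit 0) (XT.nd (nat_lit 78) (nat_lit 76) (nat_lit 0) (XT.lf (nat_lit 0) (nat_lit 620483344381) (nat_lit 228) (nat_lit 711697390337) (nat_lit 76) (nat_lit 333700165284) (nat_lit 12) (nat_lit 5) (nat_lit 15) (nat_lit 5) (nat_lit 13) (nat_lit 4) (nat_lit 308) (nat_lit 296) (nat_lit 176)) (XT.lf (nat_lit 0) (nat_lit 111317004975) (nat_lit 76) (nat_lit 891963739032) (nat_lit 152) (nat_lit 827475112266) (nat_lit 11) (nat_lit 5) (nat_lit 12) (nat_lit 5) (nat_lit 13) (nat_lit 4) (nat_lit 309) (nat_lit 296) (nat_lit 175))) (XT.nd (nat_lit 78) (nat_lit 152) (nat_lit 0) (XT.lf (nat_lit 0) (nat_lit 1137768628659) (nat_lit 76) (nat_lit 342931480816) (nat_lit 152) (nat_lit 534081593144) (nat_lit 11) (nat_lit 5) (nat_lit 12) (nat_lit 5) (nat_lit 13)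 (nat_lit 4) (nat_lit 310) (nat_lit 296) (nat_lit 174)) (XT.nd (nat_lit 78) (nat_lit 76) (nat_lit 0) (XT.lf (nat_lit 0) (nat_lit 87634011962) (nat_lit 76) (nat_lit 1957671430425) (nat_lit 76) (nat_lit 178770024153) (nat_lit 10) (nat_lit 4) (nat_lit 11) (nat_lit 5) (nat_lit 11) (nat_lit 4) (nat_lit 311) (nat_lit 296) (nat_lit 173)) (XT.lf (nat_lit 0) (nat_lit 273733457316) (nat_lit 152) (nat_lit 1190374480978) (nat_lit 76) (nat_lit 989574244282) (nat_lit 9) (nat_lit 5) (nat_lit 11) (nat_lit 5) (nat_lit 10) (nat_lit 4) (nat_lit 312) (nat_lit 296) (nat_lit 172))))))))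
noncomputable def xc110 : XT := (XT.nd (nat_lit 1404) (nat_lit 76) (nat_lit 0) (XT.nd (nat_lit 702) (nat_lit 228) (nat_lit 0) (XT.nd (nat_lit 312) (nat_lit 152) (nat_lit 0) (XT.nd (nat_lit 156) (nat_lit 76) (nat_lit 0) (XT.nd (nat_lit 78) (nat_lit 76) (nat_lit 0) (XT.lf (nat_lit 0) (nat_lit 775809809803) (nat_lit 152) (nat_lit 110910330034) (nat_lit 76) (nat_lit 1829732838329) (nat_lit 9) (nat_lit 5) (nat_lit 11) (nat_lit 5) (nat_lit 10) (nat_lit 4) (nat_lit 313) (nat_lit 296) (nat_lit 171)) (XT.lf (nat_lit 0) (nat_lit 1240951520150) (nat_lit 76) (nat_lit 163631246019) (nat_lit 152) (nat_lit 1606348854283) (nat_lit 8) (nat_lit 5) (nat_lit 9) (nat_lit 5) (nat_lit 10) (nat_lit 4) (nat_lit 314) (nat_lit 296) (nat_lit 170))) (XT.nd (nat_lit 78) (nat_lit 76) (nat_lit 0) (XT.lf (nat_lit 0) (nat_lit 2161402505478) (nat_lit 152) (nat_lit 568588232937) (nat_lit 0) (nat_lit 614531694752) (nat_lit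 8) (nat_lit 5) (nat_lit 10) (nat_lit 4) (nat_lit 8) (nat_lit 4) (nat_lit 315) (nat_lit 296) (nat_lit 169)) (XT.lf (nat_lit 0) (nat_lit 883912440215) (nat_lit 76) (nat_lit 2192225654453) (nat_lit 76) (nat_lit 645354839781) (nat_lit 7) (nat_lit 4) (nat_lit 8) (nat_lit 5) (nat_lit 8) (nat_lit 4) (nat_lit 316) (nat_lit 296) (nat_lit 168)))) (XT.nd (nat_lit 156) (nat_lit 76) (nat_lit 0) (XT.nd (nat_lit 78) (nat_lit 0) (nat_lit 0) (XT.lf (nat_lit 0) (nat_lit 6609030392) (nat_lit 152) (nat_lit 1532661402760) (nat_lit 76) (nat_lit 2611235268172) (nat_lit 6) (nat_lit 5) (nat_lit 8) (nat_lit 5) (nat_lit 7) (nat_lit 4) (nat_lit 317) (nat_lit 296) (nat_lit 167)) (XT.lf (nat_lit 0) (nat_lit 690295434263) (nat_lit 152) (nat_lit 62735637421) (nat_lit 76) (nat_lit 3886229634679) (nat_lit 6) (nat_lit 5) (nat_lit 8) (nat_lit 5) (nat_lit 7) (nat_lit 4) (nat_lit 318) (nat_lit 296) (nat_lit 166))) (XT.nd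 (nat_lit 78) (nat_lit 0) (nat_lit 0) (XT.lf (nat_lit 0) (nat_lit 1560301877301) (nat_lit 152) (nat_lit 3413265209843) (nat_lit 0) (nat_lit 215196813229) (nat_lit 5) (nat_lit 5) (nat_lit 7) (nat_lit 4) (nat_lit 5) (nat_lit 4) (nat_lit 319) (nat_lit 296) (nat_lit 165)) (XT.nd (nat_lit 78) (nat_lit 0) (nat_lit 0) (XT.lf (nat_lit 0) (nat_lit 2600103429099) (nat_lit 152) (nat_lit 1959696659982) (nat_lit 0) (nat_lit 1254998363065) (nat_lit 5) (nat_lit 5) (nat_lit 7) (nat_lit 4) (nat_lit 5) (nat_lit 4) (nat_lit 320) (nat_lit 296) (nat_lit 164)) (XT.lf (nat_lit 0) (nat_lit 3795875210918) (nat_lit 152) (nat_lit 288092833002) (nat_lit 0) (nat_lit 2450770143178) (nat_lit 5) (nat_lit 5) (nat_lit 7) (nat_lit 4) (nat_lit 5) (nat_lit 4) (nat_lit 321) (nat_lit 296) (nat_lit 163)))))) (XT.nd (nat_lit 312) (nat_lit 76) (nat_lit 0) (XT.nd (nat_lit 156) (nat_lit 76) (nat_lit 0) (XT.nd (nat_lit 78) (nat_lit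 0) (nat_lit 0) (XT.lf (nat_lit 0) (nat_lit 1793962511600) (nat_lit 76) (nat_lit 3451334407992) (nat_lit 76) (nat_lit 2106229338768) (nat_lit 4) (nat_lit 4) (nat_lit 5) (nat_lit 5) (nat_lit 5) (nat_lit 4) (nat_lit 322) (nat_lit 296) (nat_lit 162)) (XT.lf (nat_lit 0) (nat_lit 4220703859335) (nat_lit 76) (nat_lit 2706487421058) (nat_lit 76) (nat_lit 1361382350544) (nat_lit 4) (nat_lit 4) (nat_lit 5) (nat_lit 5) (nat_lit 5) (nat_lit 4) (nat_lit 323) (nat_lit 296) (nat_lit 161))) (XT.nd (nat_lit 78) (nat_lit 76) (nat_lit 0) (XT.lf (nat_lit 0) (nat_lit 7011456405361) (nat_lit 76) (nat_lit 1849913387987) (nat_lit 76) (nat_lit 504808316351) (nat_lit 4) (nat_lit 4) (nat_lit 5) (nat_lit 5) (nat_lit 5) (nat_lit 4) (nat_lit 324) (nat_lit 296) (nat_lit 160)) (XT.lf (nat_lit 0) (nat_lit 437496482900) (nat_lit 152) (nat_lit 404487634376) (nat_lit 76) (nat_lit 9760456212694) (nat_lit 3) (nat_lit 5)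 (nat_lit 5) (nat_lit 5) (nat_lit 4) (nat_lit 4) (nat_lit 325) (nat_lit 296) (nat_lit 159)))) (XT.nd (nat_lit 156) (nat_lit 0) (nat_lit 0) (XT.nd (nat_lit 78) (nat_lit 0) (nat_lit 0) (XT.lf (nat_lit 0) (nat_lit 1570133325730) (nat_lit 152) (nat_lit 10034825681767) (nat_lit 0) (nat_lit 400476740113) (nat_lit 2) (nat_lit 5) (nat_lit 4) (nat_lit 4) (nat_lit 2) (nat_lit 4) (nat_lit 326) (nat_lit 296) (nat_lit 158)) (XT.lf (nat_lit 0) (nat_lit 2934910688533) (nat_lit 152) (nat_lit 8909378938057) (nat_lit 0) (nat_lit 1765254102274) (nat_lit 2) (nat_lit 5) (nat_lit 4) (nat_lit 4) (nat_lit 2) (nat_lit 4) (nat_lit 327) (nat_lit 296) (nat_lit 157))) (XT.nd (nat_lit 78) (nat_lit 0) (nat_lit 0) (XT.lf (nat_lit 0) (nat_lit 4504404654418) (nat_lit 152) (nat_lit 7615115185489) (nat_lit 0) (nat_lit 3334748067602) (nat_lit 2) (nat_lit 5) (nat_lit 4) (nat_lit 4) (nat_lit 2) (nat_lit 4) (nat_lit 328) (nat_lit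 296) (nat_lit 156)) (XT.nd (nat_lit 78) (nat_lit 0) (nat_lit 0) (XT.lf (nat_lit 0) (nat_lit 6309322714023) (nat_lit 152) (nat_lit 6126711872381) (nat_lit 0) (nat_lit 5139666126722) (nat_lit 2) (nat_lit 5) (nat_lit 4) (nat_lit 4) (nat_lit 2) (nat_lit 4) (nat_lit 329) (nat_lit 296) (nat_lit 155)) (XT.lf (nat_lit 0) (nat_lit 8384978481558) (nat_lit 152) (nat_lit 4415048064346) (nat_lit 0) (nat_lit 7215321893834) (nat_lit 2) (nat_lit 5) (nat_lit 4) (nat_lit 4) (nat_lit 2) (nat_lit 4) (nat_lit 330) (nat_lit 296) (nat_lit 154))))))) (XT.nd (nat_lit 38376) (nat_lit 0) (nat_lit 760) (XT.nd (nat_lit 37986) (nat_lit 0) (nat_lit 1444) (XT.nd (nat_lit 156) (nat_lit 76) (nat_lit 0) (XT.nd (nat_lit 78) (nat_lit 0) (nat_lit 0) (XT.lf (nat_lit 0) (nat_lit 10771982613343) (nat_lit 152) (nat_lit 2446634686879) (nat_lit 0) (nat_lit 9602326025253) (nat_lit 2) (nat_lit 5) (nat_lit 4) (nat_lit 4) (nat_lit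 2) (nat_lit 4) (nat_lit 331) (nat_lit 296) (nat_lit 153)) (XT.lf (nat_lit 0) (nat_lit 13517037364131) (nat_lit 152) (nat_lit 182959304334) (nat_lit 0) (nat_lit 12347380775722) (nat_lit 2) (nat_lit 5) (nat_lit 4) (nat_lit 4) (nat_lit 2) (nat_lit 4) (nat_lit 332) (nat_lit 296) (nat_lit 152))) (XT.nd (nat_lit 78) (nat_lit 0) (nat_lit 0) (XT.lf (nat_lit 0) (nat_lit 2656793514985) (nat_lit 76) (nat_lit 14127068965716) (nat_lit 76) (nat_lit 12957412377030) (nat_lit 1) (nat_lit 4) (nat_lit 2) (nat_lit 5) (nat_lit 2) (nat_lit 4) (nat_lit 333) (nat_lit 296) (nat_lit 151)) (XT.lf (nat_lit 0) (nat_lit 5943071386830) (nat_lit 76) (nat_lit 14607203759113) (nat_lit 76) (nat_lit 13437547170186) (nat_lit 1) (nat_lit 4) (nat_lit 2) (nat_lit 5) (nat_lit 2) (nat_lit 4) (nat_lit 334) (nat_lit 296) (nat_lit 150)))) (XT.nd (nat_lit 156) (nat_lit 0) (nat_lit 76) (XT.nd (nat_lit 78) (nat_lit 0) (nat_lit 0)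 (XT.lf (nat_lit 0) (nat_lit 50320449407) (nat_lit 380) (nat_lit 154225132336) (nat_lit 380) (nat_lit 154225132336) (nat_lit 20) (nat_lit 3) (nat_lit 25) (nat_lit 3) (nat_lit 25) (nat_lit 5) (nat_lit 297) (nat_lit 297) (nat_lit 186)) (XT.lf (nat_lit 76) (nat_lit 25587503432) (nat_lit 0) (nat_lit 83661101719) (nat_lit 380) (nat_lit 661949483776) (nat_lit 21) (nat_lit 5) (nat_lit 20) (nat_lit 3) (nat_lit 25) (nat_lit 5) (nat_lit 298) (nat_lit 297) (nat_lit 185))) (XT.nd (nat_lit 78) (nat_lit 0) (nat_lit 0) (XT.lf (nat_lit 0) (nat_lit 148071212574) (nat_lit 304) (nat_lit 398888423759) (nat_lit 380) (nat_lit 281605050798) (nat_lit 21) (nat_lit 5) (nat_lit 25) (nat_lit 5) (nat_lit 26) (nat_lit 5) (nat_lit 299) (nat_lit 297) (nat_lit 184)) (XT.nd (nat_lit 78) (nat_lit 0) (nat_lit 76) (XT.lf (nat_lit 0) (nat_lit 196701055117) (nat_lit 304) (nat_lit 4141814135) (nat_lit 380) (nat_lit 693095829289)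 (nat_lit 21) (nat_lit 5) (nat_lit 25) (nat_lit 5) (nat_lit 26) (nat_lit 5) (nat_lit 300) (nat_lit 297) (nat_lit 183)) (XT.lf (nat_lit 0) (nat_lit 282210480834) (nat_lit 304) (nat_lit 481414645919) (nat_lit 76) (nat_lit 201055918960) (nat_lit 22) (nat_lit 5) (nat_lit 26) (nat_lit 5) (nat_lit 23) (nat_lit 5) (nat_lit 301) (nat_lit 297) (nat_lit 182)))))) (XT.nd (nat_lit 390) (nat_lit 304) (nat_lit 0) (XT.nd (nat_lit 156) (nat_lit 228) (nat_lit 0) (XT.nd (nat_lit 78) (nat_lit 304) (nat_lit 0) (XT.lf (nat_lit 0) (nat_lit 390337066195) (nat_lit 304) (nat_lit 11325210197) (nat_lit 76) (nat_lit 642903856759) (nat_lit 22) (nat_lit 5) (nat_lit 26) (nat_lit 5) (nat_lit 23) (nat_lit 5) (nat_lit 302) (nat_lit 297) (nat_lit 181)) (XT.lf (nat_lit 0) (nat_lit 540490671664) (nat_lit 380) (nat_lit 553572757249) (nat_lit 76) (nat_lit 38499349996) (nat_lit 18) (nat_lit 5) (nat_lit 23) (nat_lit 5) (nat_lit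 19) (nat_lit 5) (nat_lit 303) (nat_lit 297) (nat_lit 180))) (XT.nd (nat_lit 78) (nat_lit 76) (nat_lit 0) (XT.lf (nat_lit 0) (nat_lit 6915941880) (nat_lit 152) (nat_lit 726284704524) (nat_lit 228) (nat_lit 497553275907) (nat_lit 16) (nat_lit 5) (nat_lit 18) (nat_lit 5) (nat_lit 19) (nat_lit 5) (nat_lit 304) (nat_lit 297) (nat_lit 179)) (XT.nd (nat_lit 78) (nat_lit 76) (nat_lit 0) (XT.lf (nat_lit 0) (nat_lit 713691962222) (nat_lit 152) (nat_lit 270061902710) (nat_lit 228) (nat_lit 355579360192) (nat_lit 16) (nat_lit 5) (nat_lit 18) (nat_lit 5) (nat_lit 19) (nat_lit 5) (nat_lit 305) (nat_lit 297) (nat_lit 178)) (XT.lf (nat_lit 0) (nat_lit 56799419025) (nat_lit 76) (nat_lit 1227984788917) (nat_lit 152) (nat_lit 177481094195) (nat_lit 15) (nat_lit 5) (nat_lit 16) (nat_lit 5) (nat_lit 17) (nat_lit 4) (nat_lit 306) (nat_lit 297) (nat_lit 177))))) (XT.nd (nat_lit 156) (nat_lit 76) (nat_lit 0)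 (XT.nd (nat_lit 78) (nat_lit 152) (nat_lit 0) (XT.lf (nat_lit 0) (nat_lit 72020025078) (nat_lit 152) (nat_lit 702361036400) (nat_lit 76) (nat_lit 822018157450) (nat_lit 14) (nat_lit 5) (nat_lit 16) (nat_lit 5) (nat_lit 15) (nat_lit 5) (nat_lit 307) (nat_lit 297) (nat_lit 176)) (XT.lf (nat_lit 0) (nat_lit 107311672732) (nat_lit 152) (nat_lit 237907496017) (nat_lit 228) (nat_lit 1403499801415) (nat_lit 12) (nat_lit 5) (nat_lit 14) (nat_lit 5) (nat_lit 15) (nat_lit 5) (nat_lit 308) (nat_lit 297) (nat_lit 175))) (XT.nd (nat_lit 78) (nat_lit 76) (nat_lit 0) (XT.lf (nat_lit 0) (nat_lit 713555923180) (nat_lit 228) (nat_lit 818451874955) (nat_lit 76) (nat_lit 383755225088) (nat_lit 12) (nat_lit 5) (nat_lit 15) (nat_lit 5) (nat_lit 13) (nat_lit 4) (nat_lit 309) (nat_lit 297) (nat_lit 174)) (XT.nd (nat_lit 78) (nat_lit 0) (nat_lit 0) (XT.lf (nat_lit 0) (nat_lit 128014674020) (nat_lit 76) (nat_lit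 1025758253566) (nat_lit 152) (nat_lit 951596296150) (nat_lit 11) (nat_lit 5) (nat_lit 12) (nat_lit 5) (nat_lit 13) (nat_lit 4) (nat_lit 310) (nat_lit 297) (nat_lit 173)) (XT.lf (nat_lit 0) (nat_lit 1308434025827) (nat_lit 76) (nat_lit 394371162660) (nat_lit 152) (nat_lit 614193759980) (nat_lit 11) (nat_lit 5) (nat_lit 12) (nat_lit 5) (nat_lit 13) (nat_lit 4) (nat_lit 311) (nat_lit 297) (nat_lit 172))))))))
noncomputable def xc111 : XT := (XT.nd (nat_lit 1404) (nat_lit 76) (nat_lit 0) (XT.nd (nat_lit 702) (nat_lit 228) (nat_lit 0) (XT.nd (nat_lit 312) (nat_lit 228) (nat_lit 0) (XT.nd (nat_lit 156) (nat_lit 76) (nat_lit 0) (XT.nd (nat_lit 78) (nat_lit 76) (nat_lit 0) (XT.lf (nat_lit 0) (nat_lit 100779219470) (nat_lit 76) (nat_lit 2251322099529) (nat_lit 76) (nat_lit 205585458348) (nat_lit 10) (nat_lit 4) (nat_lit 11) (nat_lit 5) (nat_lit 11) (nat_lit 4) (nat_lit 312) (nat_lit 297) (nat_lit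 171)) (XT.lf (nat_lit 0) (nat_lit 314793530912) (nat_lit 152) (nat_lit 1368930555722) (nat_lit 76) (nat_lit 1138010414976) (nat_lit 9) (nat_lit 5) (nat_lit 11) (nat_lit 5) (nat_lit 10) (nat_lit 4) (nat_lit 313) (nat_lit 297) (nat_lit 170))) (XT.nd (nat_lit 78) (nat_lit 76) (nat_lit 0) (XT.lf (nat_lit 0) (nat_lit 892181329098) (nat_lit 152) (nat_lit 127546794841) (nat_lit 76) (nat_lit 2104192793688) (nat_lit 9) (nat_lit 5) (nat_lit 11) (nat_lit 5) (nat_lit 10) (nat_lit 4) (nat_lit 314) (nat_lit 297) (nat_lit 169)) (XT.lf (nat_lit 0) (nat_lit 1427094329021) (nat_lit 76) (nat_lit 188175897007) (nat_lit 152) (nat_lit 1847301130674) (nat_lit 8) (nat_lit 5) (nat_lit 9) (nat_lit 5) (nat_lit 10) (nat_lit 4) (nat_lit 315) (nat_lit 297) (nat_lit 168)))) (XT.nd (nat_lit 156) (nat_lit 152) (nat_lit 0) (XT.nd (nat_lit 78) (nat_lit 76) (nat_lit 0) (XT.lf (nat_lit 0) (nat_lit 2485612921666) (nat_lit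 152) (nat_lit 653876392940) (nat_lit 0) (nat_lit 706711477415) (nat_lit 8) (nat_lit 5) (nat_lit 10) (nat_lit 4) (nat_lit 8) (nat_lit 4) (nat_lit 316) (nat_lit 297) (nat_lit 167)) (XT.lf (nat_lit 0) (nat_lit 1016499377779) (nat_lit 76) (nat_lit 2521059469152) (nat_lit 76) (nat_lit 742158021917) (nat_lit 7) (nat_lit 4) (nat_lit 8) (nat_lit 5) (nat_lit 8) (nat_lit 4) (nat_lit 317) (nat_lit 297) (nat_lit 166))) (XT.nd (nat_lit 78) (nat_lit 76) (nat_lit 0) (XT.lf (nat_lit 0) (nat_lit 7600419672) (nat_lit 152) (nat_lit 1762560547534) (nat_lit 76) (nat_lit 3002920584063) (nat_lit 6) (nat_lit 5) (nat_lit 8) (nat_lit 5) (nat_lit 7) (nat_lit 4) (nat_lit 318) (nat_lit 297) (nat_lit 165)) (XT.nd (nat_lit 78) (nat_lit 76) (nat_lit 0) (XT.lf (nat_lit 0) (nat_lit 793839779595) (nat_lit 152) (nat_lit 72145925956) (nat_lit 76) (nat_lit 4469164102199) (nat_lit 6) (nat_lit 5) (nat_lit 8) (nat_lit 5) (nat_lit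 7) (nat_lit 4) (nat_lit 319) (nat_lit 297) (nat_lit 164)) (XT.lf (nat_lit 0) (nat_lit 1794347188483) (nat_lit 152) (nat_lit 3925254933601) (nat_lit 0) (nat_lit 247476358875) (nat_lit 5) (nat_lit 5) (nat_lit 7) (nat_lit 4) (nat_lit 5) (nat_lit 4) (nat_lit 320) (nat_lit 297) (nat_lit 163)))))) (XT.nd (nat_lit 312) (nat_lit 152) (nat_lit 0) (XT.nd (nat_lit 156) (nat_lit 76) (nat_lit 0) (XT.nd (nat_lit 78) (nat_lit 0) (nat_lit 0) (XT.lf (nat_lit 0) (nat_lit 2990118969191) (nat_lit 152) (nat_lit 2253651108790) (nat_lit 0) (nat_lit 1443248138099) (nat_lit 5) (nat_lit 5) (nat_lit 7) (nat_lit 4) (nat_lit 5) (nat_lit 4) (nat_lit 321) (nat_lit 297) (nat_lit 162)) (XT.lf (nat_lit 0) (nat_lit 4365256514927) (nat_lit 152) (nat_lit 331306714309) (nat_lit 0) (nat_lit 2818385682546) (nat_lit 5) (nat_lit 5) (nat_lit 7) (nat_lit 4) (nat_lit 5) (nat_lit 4) (nat_lit 322) (nat_lit 297) (nat_lit 161))) (XT.nd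 (nat_lit 78) (nat_lit 0) (nat_lit 0) (XT.lf (nat_lit 0) (nat_lit 2063056930000) (nat_lit 76) (nat_lit 3969034548709) (nat_lit 76) (nat_lit 2422163715206) (nat_lit 4) (nat_lit 4) (nat_lit 5) (nat_lit 5) (nat_lit 5) (nat_lit 4) (nat_lit 323) (nat_lit 297) (nat_lit 160)) (XT.lf (nat_lit 0) (nat_lit 4853809474461) (nat_lit 76) (nat_lit 3112460516407) (nat_lit 76) (nat_lit 1565589681928) (nat_lit 4) (nat_lit 4) (nat_lit 5) (nat_lit 5) (nat_lit 5) (nat_lit 4) (nat_lit 324) (nat_lit 297) (nat_lit 159)))) (XT.nd (nat_lit 156) (nat_lit 76) (nat_lit 0) (XT.nd (nat_lit 78) (nat_lit 76) (nat_lit 0) (XT.lf (nat_lit 0) (nat_lit 8063174897666) (nat_lit 76) (nat_lit 2127400380698) (nat_lit 76) (nat_lit 580529545371) (nat_lit 4) (nat_lit 4) (nat_lit 5) (nat_lit 5) (nat_lit 5) (nat_lit 4) (nat_lit 325) (nat_lit 297) (nat_lit 158)) (XT.lf (nat_lit 0) (nat_lit 503120969936) (nat_lit 152) (nat_lit 465160750701)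 (nat_lit 76) (nat_lit 11224524656625) (nat_lit 3) (nat_lit 5) (nat_lit 5) (nat_lit 5) (nat_lit 4) (nat_lit 4) (nat_lit 326) (nat_lit 297) (nat_lit 157))) (XT.nd (nat_lit 78) (nat_lit 0) (nat_lit 0) (XT.lf (nat_lit 0) (nat_lit 1805653338993) (nat_lit 152) (nat_lit 11540049504991) (nat_lit 0) (nat_lit 460548263596) (nat_lit 2) (nat_lit 5) (nat_lit 4) (nat_lit 4) (nat_lit 2) (nat_lit 4) (nat_lit 327) (nat_lit 297) (nat_lit 156)) (XT.nd (nat_lit 78) (nat_lit 0) (nat_lit 0) (XT.lf (nat_lit 0) (nat_lit 3375147304337) (nat_lit 152) (nat_lit 10245785753513) (nat_lit 0) (nat_lit 2030042228455) (nat_lit 2) (nat_lit 5) (nat_lit 4) (nat_lit 4) (nat_lit 2) (nat_lit 4) (nat_lit 328) (nat_lit 297) (nat_lit 155)) (XT.lf (nat_lit 0) (nat_lit 5180065363472) (nat_lit 152) (nat_lit 8757382441353) (nat_lit 0) (nat_lit 3834960287168) (nat_lit 2) (nat_lit 5) (nat_lit 4) (nat_lit 4) (nat_lit 2) (nat_lit 4)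 (nat_lit 329) (nat_lit 297) (nat_lit 154))))))) (XT.nd (nat_lit 38376) (nat_lit 0) (nat_lit 836) (XT.nd (nat_lit 1326) (nat_lit 76) (nat_lit 0) (XT.nd (nat_lit 156) (nat_lit 0) (nat_lit 0) (XT.nd (nat_lit 78) (nat_lit 0) (nat_lit 0) (XT.lf (nat_lit 0) (nat_lit 7255721130597) (nat_lit 152) (nat_lit 7045718634143) (nat_lit 0) (nat_lit 5910616053927) (nat_lit 2) (nat_lit 5) (nat_lit 4) (nat_lit 4) (nat_lit 2) (nat_lit 4) (nat_lit 330) (nat_lit 297) (nat_lit 153)) (XT.lf (nat_lit 0) (nat_lit 9642725262026) (nat_lit 152) (nat_lit 5077305257393) (nat_lit 0) (nat_lit 8297620185037) (nat_lit 2) (nat_lit 5) (nat_lit 4) (nat_lit 4) (nat_lit 2) (nat_lit 4) (nat_lit 331) (nat_lit 297) (nat_lit 152))) (XT.nd (nat_lit 78) (nat_lit 0) (nat_lit 0) (XT.lf (nat_lit 0) (nat_lit 12387780012505) (nat_lit 152) (nat_lit 2813629875472) (nat_lit 0) (nat_lit 11042674935239) (nat_lit 2) (nat_lit 5) (nat_lit 4)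 (nat_lit 4) (nat_lit 2) (nat_lit 4) (nat_lit 332) (nat_lit 297) (nat_lit 151)) (XT.lf (nat_lit 0) (nat_lit 15544592974977) (nat_lit 152) (nat_lit 210403187428) (nat_lit 0) (nat_lit 14199487897470) (nat_lit 2) (nat_lit 5) (nat_lit 4) (nat_lit 4) (nat_lit 2) (nat_lit 4) (nat_lit 333) (nat_lit 297) (nat_lit 150)))) (XT.nd (nat_lit 36816) (nat_lit 0) (nat_lit 1444) (XT.nd (nat_lit 78) (nat_lit 0) (nat_lit 0) (XT.lf (nat_lit 0) (nat_lit 132878750609391) (nat_lit 76) (nat_lit 35213712793977) (nat_lit 76) (nat_lit 33868607715089) (nat_lit 1) (nat_lit 4) (nat_lit 2) (nat_lit 5) (nat_lit 2) (nat_lit 4) (nat_lit 347) (nat_lit 297) (nat_lit 136)) (XT.lf (nat_lit 0) (nat_lit 156131485863322) (nat_lit 76) (nat_lit 38611005333336) (nat_lit 76) (nat_lit 37265900254418) (nat_lit 1) (nat_lit 4) (nat_lit 2) (nat_lit 5) (nat_lit 2) (nat_lit 4) (nat_lit 348) (nat_lit 297) (nat_lit 135))) (XT.nd (nat_lit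 78) (nat_lit 0) (nat_lit 0) (XT.lf (nat_lit 0) (nat_lit 57868627031) (nat_lit 380) (nat_lit 177358838572) (nat_lit 380) (nat_lit 177358838572) (nat_lit 20) (nat_lit 3) (nat_lit 25) (nat_lit 3) (nat_lit 25) (nat_lit 5) (nat_lit 298) (nat_lit 298) (nat_lit 184)) (XT.nd (nat_lit 78) (nat_lit 0) (nat_lit 76) (XT.lf (nat_lit 76) (nat_lit 29425750392) (nat_lit 0) (nat_lit 96210342234) (nat_lit 380) (nat_lit 761241679293) (nat_lit 21) (nat_lit 5) (nat_lit 20) (nat_lit 3) (nat_lit 25) (nat_lit 5) (nat_lit 299) (nat_lit 298) (nat_lit 183)) (XT.lf (nat_lit 0) (nat_lit 170282062795) (nat_lit 304) (nat_lit 458721552619) (nat_lit 380) (nat_lit 323845748803) (nat_lit 21) (nat_lit 5) (nat_lit 25) (nat_lit 5) (nat_lit 26) (nat_lit 5) (nat_lit 300) (nat_lit 298) (nat_lit 182)))))) (XT.nd (nat_lit 390) (nat_lit 304) (nat_lit 0) (XT.nd (nat_lit 156) (nat_lit 380) (nat_lit 0) (XT.nd (nat_lit 78) (nat_lit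 0) (nat_lit 76) (XT.lf (nat_lit 0) (nat_lit 226206359763) (nat_lit 304) (nat_lit 4762969122) (nat_lit 380) (nat_lit 797060151843) (nat_lit 21) (nat_lit 5) (nat_lit 25) (nat_lit 5) (nat_lit 26) (nat_lit 5) (nat_lit 301) (nat_lit 298) (nat_lit 181)) (XT.lf (nat_lit 0) (nat_lit 324542184042) (nat_lit 304) (nat_lit 553626709824) (nat_lit 76) (nat_lit 231214288487) (nat_lit 22) (nat_lit 5) (nat_lit 26) (nat_lit 5) (nat_lit 23) (nat_lit 5) (nat_lit 302) (nat_lit 298) (nat_lit 180))) (XT.nd (nat_lit 78) (nat_lit 456) (nat_lit 0) (XT.lf (nat_lit 0) (nat_lit 448887740110) (nat_lit 304) (nat_lit 13023876089) (nat_lit 76) (nat_lit 739339419345) (nat_lit 22) (nat_lit 5) (nat_lit 26) (nat_lit 5) (nat_lit 23) (nat_lit 5) (nat_lit 303) (nat_lit 298) (nat_lit 179)) (XT.nd (nat_lit 78) (nat_lit 152) (nat_lit 0) (XT.lf (nat_lit 0) (nat_lit 621564376380) (nat_lit 380) (nat_lit 636608544761) (nat_lit 76)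 (nat_lit 44274258592) (nat_lit 18) (nat_lit 5) (nat_lit 23) (nat_lit 5) (nat_lit 19) (nat_lit 5) (nat_lit 304) (nat_lit 298) (nat_lit 178)) (XT.lf (nat_lit 0) (nat_lit 7953453507) (nat_lit 152) (nat_lit 835227385246) (nat_lit 228) (nat_lit 572186157233) (nat_lit 16) (nat_lit 5) (nat_lit 18) (nat_lit 5) (nat_lit 19) (nat_lit 5) (nat_lit 305) (nat_lit 298) (nat_lit 177))))) (XT.nd (nat_lit 156) (nat_lit 228) (nat_lit 0) (XT.nd (nat_lit 78) (nat_lit 76) (nat_lit 0) (XT.lf (nat_lit 0) (nat_lit 820745861203) (nat_lit 152) (nat_lit 310571166415) (nat_lit 228) (nat_lit 408916168517) (nat_lit 16) (nat_lit 5) (nat_lit 18) (nat_lit 5) (nat_lit 19) (nat_lit 5) (nat_lit 306) (nat_lit 298) (nat_lit 176)) (XT.lf (nat_lit 0) (nat_lit 65319443091) (nat_lit 76) (nat_lit 1412182473557) (nat_lit 152) (nat_lit 204103168909) (nat_lit 15) (nat_lit 5) (nat_lit 16) (nat_lit 5) (nat_lit 17) (nat_lit 4) (nat_lit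 307) (nat_lit 298) (nat_lit 175))) (XT.nd (nat_lit 78) (nat_lit 152) (nat_lit 0) (XT.lf (nat_lit 0) (nat_lit 82823099670) (nat_lit 152) (nat_lit 807715088024) (nat_lit 76) (nat_lit 945320903240) (nat_lit 14) (nat_lit 5) (nat_lit 16) (nat_lit 5) (nat_lit 15) (nat_lit 5) (nat_lit 308) (nat_lit 298) (nat_lit 174)) (XT.nd (nat_lit 78) (nat_lit 0) (nat_lit 0) (XT.lf (nat_lit 0) (nat_lit 123408522757) (nat_lit 152) (nat_lit 273593587000) (nat_lit 228) (nat_lit 1614024695896) (nat_lit 12) (nat_lit 5) (nat_lit 14) (nat_lit 5) (nat_lit 15) (nat_lit 5) (nat_lit 309) (nat_lit 298) (nat_lit 173)) (XT.lf (nat_lit 0) (nat_lit 820589369988) (nat_lit 228) (nat_lit 941219562488) (nat_lit 76) (nat_lit 441318535324) (nat_lit 12) (nat_lit 5) (nat_lit 15) (nat_lit 5) (nat_lit 13) (nat_lit 4) (nat_lit 310) (nat_lit 298) (nat_lit 172))))))))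
noncomputable def xc112 : XT := (XT.nd (nat_lit 1404) (nat_lit 76) (nat_lit 0) (XT.nd (nat_lit 702) (nat_lit 304) (nat_lit 0) (XT.nd (nat_lit 312) (nat_lit 228) (nat_lit 0) (XT.nd (nat_lit 156) (nat_lit 152) (nat_lit 0) (XT.nd (nat_lit 78) (nat_lit 0) (nat_lit 0) (XT.lf (nat_lit 0) (nat_lit 147216964575) (nat_lit 76) (nat_lit 1179621956576) (nat_lit 152) (nat_lit 1094335677846) (nat_lit 11) (nat_lit 5) (nat_lit 12) (nat_lit 5) (nat_lit 13) (nat_lit 4) (nat_lit 311) (nat_lit 298) (nat_lit 171)) (XT.lf (nat_lit 0) (nat_lit 1504699207485) (nat_lit 76) (nat_lit 453526806602) (nat_lit 152) (nat_lit 706322769432) (nat_lit 11) (nat_lit 5) (nat_lit 12) (nat_lit 5) (nat_lit 13) (nat_lit 4) (nat_lit 312) (nat_lit 298) (nat_lit 170))) (XT.nd (nat_lit 78) (nat_lit 76) (nat_lit 0) (XT.lf (nat_lit 0) (nat_lit 115896182325) (nat_lit 76) (nat_lit 2589020380085) (nat_lit 76) (nat_lit 236423224602) (nat_lit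 10) (nat_lit 4) (nat_lit 11) (nat_lit 5) (nat_lit 11) (nat_lit 4) (nat_lit 313) (nat_lit 298) (nat_lit 169)) (XT.lf (nat_lit 0) (nat_lit 362012602135) (nat_lit 152) (nat_lit 1574270065430) (nat_lit 76) (nat_lit 1308712002970) (nat_lit 9) (nat_lit 5) (nat_lit 11) (nat_lit 5) (nat_lit 10) (nat_lit 4) (nat_lit 314) (nat_lit 298) (nat_lit 168)))) (XT.nd (nat_lit 156) (nat_lit 152) (nat_lit 0) (XT.nd (nat_lit 78) (nat_lit 76) (nat_lit 0) (XT.lf (nat_lit 0) (nat_lit 1026008564625) (nat_lit 152) (nat_lit 146678750023) (nat_lit 76) (nat_lit 2419821735131) (nat_lit 9) (nat_lit 5) (nat_lit 11) (nat_lit 5) (nat_lit 10) (nat_lit 4) (nat_lit 315) (nat_lit 298) (nat_lit 167)) (XT.lf (nat_lit 0) (nat_lit 1641158539507) (nat_lit 76) (nat_lit 216402254403) (nat_lit 152) (nat_lit 2124396261142) (nat_lit 8) (nat_lit 5) (nat_lit 9) (nat_lit 5) (nat_lit 10) (nat_lit 4) (nat_lit 316) (nat_lit 298) (nat_lit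 166))) (XT.nd (nat_lit 78) (nat_lit 152) (nat_lit 0) (XT.lf (nat_lit 0) (nat_lit 2858454890438) (nat_lit 152) (nat_lit 751957795216) (nat_lit 0) (nat_lit 812718220539) (nat_lit 8) (nat_lit 5) (nat_lit 10) (nat_lit 4) (nat_lit 8) (nat_lit 4) (nat_lit 317) (nat_lit 298) (nat_lit 165)) (XT.nd (nat_lit 78) (nat_lit 76) (nat_lit 0) (XT.lf (nat_lit 0) (nat_lit 1168974338535) (nat_lit 76) (nat_lit 2899218364217) (nat_lit 76) (nat_lit 853481692061) (nat_lit 7) (nat_lit 4) (nat_lit 8) (nat_lit 5) (nat_lit 8) (nat_lit 4) (nat_lit 318) (nat_lit 298) (nat_lit 164)) (XT.lf (nat_lit 0) (nat_lit 8740508877) (nat_lit 152) (nat_lit 2026944580031) (nat_lit 76) (nat_lit 3453358691080) (nat_lit 6) (nat_lit 5) (nat_lit 8) (nat_lit 5) (nat_lit 7) (nat_lit 4) (nat_lit 319) (nat_lit 298) (nat_lit 163)))))) (XT.nd (nat_lit 312) (nat_lit 228) (nat_lit 0) (XT.nd (nat_lit 156) (nat_lit 0) (nat_lit 0) (XT.nd (nat_lit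 78) (nat_lit 76) (nat_lit 0) (XT.lf (nat_lit 0) (nat_lit 912915769364) (nat_lit 152) (nat_lit 82967771691) (nat_lit 76) (nat_lit 5139538734404) (nat_lit 6) (nat_lit 5) (nat_lit 8) (nat_lit 5) (nat_lit 7) (nat_lit 4) (nat_lit 320) (nat_lit 298) (nat_lit 162)) (XT.lf (nat_lit 0) (nat_lit 2063499289126) (nat_lit 152) (nat_lit 4514043129998) (nat_lit 0) (nat_lit 284597830597) (nat_lit 5) (nat_lit 5) (nat_lit 7) (nat_lit 4) (nat_lit 5) (nat_lit 4) (nat_lit 321) (nat_lit 298) (nat_lit 161))) (XT.nd (nat_lit 78) (nat_lit 0) (nat_lit 0) (XT.lf (nat_lit 0) (nat_lit 3438636834022) (nat_lit 152) (nat_lit 2591698737157) (nat_lit 0) (nat_lit 1659735374372) (nat_lit 5) (nat_lit 5) (nat_lit 7) (nat_lit 4) (nat_lit 5) (nat_lit 4) (nat_lit 322) (nat_lit 298) (nat_lit 160)) (XT.lf (nat_lit 0) (nat_lit 5020045009082) (nat_lit 152) (nat_lit 381002688455) (nat_lit 0) (nat_lit 3241143548456) (nat_lit 5) (nat_lit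 5) (nat_lit 7) (nat_lit 4) (nat_lit 5) (nat_lit 4) (nat_lit 323) (nat_lit 298) (nat_lit 159)))) (XT.nd (nat_lit 156) (nat_lit 152) (nat_lit 0) (XT.nd (nat_lit 78) (nat_lit 0) (nat_lit 0) (XT.lf (nat_lit 0) (nat_lit 2372515501000) (nat_lit 76) (nat_lit 4564389715529) (nat_lit 76) (nat_lit 2785488254054) (nat_lit 4) (nat_lit 4) (nat_lit 5) (nat_lit 5) (nat_lit 5) (nat_lit 4) (nat_lit 324) (nat_lit 298) (nat_lit 158)) (XT.lf (nat_lit 0) (nat_lit 5581880923022) (nat_lit 76) (nat_lit 3579329580401) (nat_lit 76) (nat_lit 1800428118189) (nat_lit 4) (nat_lit 4) (nat_lit 5) (nat_lit 5) (nat_lit 5) (nat_lit 4) (nat_lit 325) (nat_lit 298) (nat_lit 157))) (XT.nd (nat_lit 78) (nat_lit 152) (nat_lit 0) (XT.lf (nat_lit 0) (nat_lit 9272651156136) (nat_lit 76) (nat_lit 2446510426093) (nat_lit 76) (nat_lit 667608963239) (nat_lit 4) (nat_lit 4) (nat_lit 5) (nat_lit 5) (nat_lit 5) (nat_lit 4) (nat_lit 326)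 (nat_lit 298) (nat_lit 156)) (XT.nd (nat_lit 78) (nat_lit 76) (nat_lit 0) (XT.lf (nat_lit 0) (nat_lit 578589126467) (nat_lit 152) (nat_lit 534934841505) (nat_lit 76) (nat_lit 12908203364214) (nat_lit 3) (nat_lit 5) (nat_lit 5) (nat_lit 5) (nat_lit 4) (nat_lit 4) (nat_lit 327) (nat_lit 298) (nat_lit 155)) (XT.lf (nat_lit 0) (nat_lit 2076501350732) (nat_lit 152) (nat_lit 13271056908780) (nat_lit 0) (nat_lit 529630512562) (nat_lit 2) (nat_lit 5) (nat_lit 4) (nat_lit 4) (nat_lit 2) (nat_lit 4) (nat_lit 328) (nat_lit 298) (nat_lit 154))))))) (XT.nd (nat_lit 38454) (nat_lit 0) (nat_lit 988) (XT.nd (nat_lit 1326) (nat_lit 76) (nat_lit 0) (XT.nd (nat_lit 156) (nat_lit 0) (nat_lit 0) (XT.nd (nat_lit 78) (nat_lit 0) (nat_lit 0) (XT.lf (nat_lit 0) (nat_lit 3881419409458) (nat_lit 152) (nat_lit 11782653597445) (nat_lit 0) (nat_lit 2334548570921) (nat_lit 2) (nat_lit 5) (nat_lit 4) (nat_lit 4) (nat_lit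 2) (nat_lit 4) (nat_lit 329) (nat_lit 298) (nat_lit 153)) (XT.lf (nat_lit 0) (nat_lit 5957075176228) (nat_lit 152) (nat_lit 10070989790952) (nat_lit 0) (nat_lit 4410204337371) (nat_lit 2) (nat_lit 5) (nat_lit 4) (nat_lit 4) (nat_lit 2) (nat_lit 4) (nat_lit 330) (nat_lit 298) (nat_lit 152))) (XT.nd (nat_lit 78) (nat_lit 0) (nat_lit 0) (XT.lf (nat_lit 0) (nat_lit 8344079307348) (nat_lit 152) (nat_lit 8102576414826) (nat_lit 0) (nat_lit 6797208468214) (nat_lit 2) (nat_lit 5) (nat_lit 4) (nat_lit 4) (nat_lit 2) (nat_lit 4) (nat_lit 331) (nat_lit 298) (nat_lit 151)) (XT.lf (nat_lit 0) (nat_lit 11089134057557) (nat_lit 152) (nat_lit 5838901033447) (nat_lit 0) (nat_lit 9542263218182) (nat_lit 2) (nat_lit 5) (nat_lit 4) (nat_lit 4) (nat_lit 2) (nat_lit 4) (nat_lit 332) (nat_lit 298) (nat_lit 150)))) (XT.nd (nat_lit 156) (nat_lit 0) (nat_lit 0) (XT.nd (nat_lit 78) (nat_lit 0) (nat_lit 0) (XT.lf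 (nat_lit 0) (nat_lit 109338058162315) (nat_lit 76) (nat_lit 34144309747438) (nat_lit 76) (nat_lit 32597438906682) (nat_lit 1) (nat_lit 4) (nat_lit 2) (nat_lit 5) (nat_lit 2) (nat_lit 4) (nat_lit 346) (nat_lit 298) (nat_lit 136)) (XT.lf (nat_lit 0) (nat_lit 129557827948405) (nat_lit 76) (nat_lit 37098477172935) (nat_lit 76) (nat_lit 35551606332150) (nat_lit 1) (nat_lit 4) (nat_lit 2) (nat_lit 5) (nat_lit 2) (nat_lit 4) (nat_lit 347) (nat_lit 298) (nat_lit 135))) (XT.nd (nat_lit 36816) (nat_lit 0) (nat_lit 1444) (XT.lf (nat_lit 0) (nat_lit 152810563202273) (nat_lit 76) (nat_lit 40495769712327) (nat_lit 76) (nat_lit 38948898871516) (nat_lit 1) (nat_lit 4) (nat_lit 2) (nat_lit 5) (nat_lit 2) (nat_lit 4) (nat_lit 348) (nat_lit 298) (nat_lit 134)) (XT.nd (nat_lit 78) (nat_lit 0) (nat_lit 0) (XT.lf (nat_lit 0) (nat_lit 66549004422) (nat_lit 380) (nat_lit 203962616256) (nat_lit 380) (nat_lit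 203962616256) (nat_lit 20) (nat_lit 3) (nat_lit 25) (nat_lit 3) (nat_lit 25) (nat_lit 5) (nat_lit 299) (nat_lit 299) (nat_lit 182)) (XT.lf (nat_lit 76) (nat_lit 33839704781) (nat_lit 0) (nat_lit 110641950475) (nat_lit 380) (nat_lit 875427759505) (nat_lit 21) (nat_lit 5) (nat_lit 20) (nat_lit 3) (nat_lit 25) (nat_lit 5) (nat_lit 300) (nat_lit 299) (nat_lit 181)))))) (XT.nd (nat_lit 312) (nat_lit 532) (nat_lit 0) (XT.nd (nat_lit 156) (nat_lit 0) (nat_lit 76) (XT.nd (nat_lit 78) (nat_lit 0) (nat_lit 0) (XT.lf (nat_lit 0) (nat_lit 195824499501) (nat_lit 304) (nat_lit 527529683658) (nat_lit 380) (nat_lit 372422566045) (nat_lit 21) (nat_lit 5) (nat_lit 25) (nat_lit 5) (nat_lit 26) (nat_lit 5) (nat_lit 301) (nat_lit 299) (nat_lit 180)) (XT.lf (nat_lit 0) (nat_lit 260137424411) (nat_lit 304) (nat_lit 5477325921) (nat_lit 380) (nat_lit 916619135422) (nat_lit 21) (nat_lit 5) (nat_lit 25) (nat_lit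 5) (nat_lit 26) (nat_lit 5) (nat_lit 302) (nat_lit 299) (nat_lit 179))) (XT.nd (nat_lit 78) (nat_lit 0) (nat_lit 0) (XT.lf (nat_lit 0) (nat_lit 373223610767) (nat_lit 304) (nat_lit 636670615744) (nat_lit 76) (nat_lit 265896417910) (nat_lit 22) (nat_lit 5) (nat_lit 26) (nat_lit 5) (nat_lit 23) (nat_lit 5) (nat_lit 303) (nat_lit 299) (nat_lit 178)) (XT.lf (nat_lit 0) (nat_lit 516220987315) (nat_lit 304) (nat_lit 14977370065) (nat_lit 76) (nat_lit 850240320203) (nat_lit 22) (nat_lit 5) (nat_lit 26) (nat_lit 5) (nat_lit 23) (nat_lit 5) (nat_lit 304) (nat_lit 299) (nat_lit 177)))) (XT.nd (nat_lit 156) (nat_lit 152) (nat_lit 0) (XT.nd (nat_lit 78) (nat_lit 152) (nat_lit 0) (XT.lf (nat_lit 0) (nat_lit 714799111450) (nat_lit 380) (nat_lit 732099731145) (nat_lit 76) (nat_lit 50915401991) (nat_lit 18) (nat_lit 5) (nat_lit 23) (nat_lit 5) (nat_lit 19) (nat_lit 5) (nat_lit 305) (nat_lit 299) (nat_lit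 176)) (XT.lf (nat_lit 0) (nat_lit 9146562531) (nat_lit 152) (nat_lit 960511474162) (nat_lit 228) (nat_lit 658013997597) (nat_lit 16) (nat_lit 5) (nat_lit 18) (nat_lit 5) (nat_lit 19) (nat_lit 5) (nat_lit 306) (nat_lit 299) (nat_lit 175))) (XT.nd (nat_lit 78) (nat_lit 152) (nat_lit 0) (XT.lf (nat_lit 0) (nat_lit 943857819512) (nat_lit 152) (nat_lit 357156824968) (nat_lit 228) (nat_lit 470253521428) (nat_lit 16) (nat_lit 5) (nat_lit 18) (nat_lit 5) (nat_lit 19) (nat_lit 5) (nat_lit 307) (nat_lit 299) (nat_lit 174)) (XT.nd (nat_lit 78) (nat_lit 76) (nat_lit 0) (XT.lf (nat_lit 0) (nat_lit 75117443646) (nat_lit 76) (nat_lit 1624009819110) (nat_lit 152) (nat_lit 234718576634) (nat_lit 15) (nat_lit 5) (nat_lit 16) (nat_lit 5) (nat_lit 17) (nat_lit 4) (nat_lit 308) (nat_lit 299) (nat_lit 173)) (XT.lf (nat_lit 0) (nat_lit 95246618179) (nat_lit 152) (nat_lit 928872272713) (nat_lit 76) (nat_lit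 1087119055492) (nat_lit 14) (nat_lit 5) (nat_lit 16) (nat_lit 5) (nat_lit 15) (nat_lit 5) (nat_lit 309) (nat_lit 299) (nat_lit 172))))))))
noncomputable def xc113 : XT := (XT.nd (nat_lit 1404) (nat_lit 228) (nat_lit 0) (XT.nd (nat_lit 702) (nat_lit 304) (nat_lit 0) (XT.nd (nat_lit 312) (nat_lit 228) (nat_lit 0) (XT.nd (nat_lit 156) (nat_lit 76) (nat_lit 0) (XT.nd (nat_lit 78) (nat_lit 0) (nat_lit 0) (XT.lf (nat_lit 0) (nat_lit 141919876117) (nat_lit 152) (nat_lit 314632599780) (nat_lit 228) (nat_lit 1856128343016) (nat_lit 12) (nat_lit 5) (nat_lit 14) (nat_lit 5) (nat_lit 15) (nat_lit 5) (nat_lit 310) (nat_lit 299) (nat_lit 171)) (XT.lf (nat_lit 0) (nat_lit 943677819592) (nat_lit 228) (nat_lit 1082402426002) (nat_lit 76) (nat_lit 507516335641) (nat_lit 12) (nat_lit 5) (nat_lit 15) (nat_lit 5) (nat_lit 13) (nat_lit 4) (nat_lit 311) (nat_lit 299) (nat_lit 170))) (XT.nd (nat_lit 78) (nat_lit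 0) (nat_lit 0) (XT.lf (nat_lit 0) (nat_lit 169299576899) (nat_lit 76) (nat_lit 1356565223578) (nat_lit 152) (nat_lit 1258485982092) (nat_lit 11) (nat_lit 5) (nat_lit 12) (nat_lit 5) (nat_lit 13) (nat_lit 4) (nat_lit 312) (nat_lit 299) (nat_lit 169)) (XT.lf (nat_lit 0) (nat_lit 1730404147423) (nat_lit 76) (nat_lit 521555804563) (nat_lit 152) (nat_lit 812271143602) (nat_lit 11) (nat_lit 5) (nat_lit 12) (nat_lit 5) (nat_lit 13) (nat_lit 4) (nat_lit 313) (nat_lit 299) (nat_lit 168)))) (XT.nd (nat_lit 156) (nat_lit 76) (nat_lit 0) (XT.nd (nat_lit 78) (nat_lit 76) (nat_lit 0) (XT.lf (nat_lit 0) (nat_lit 133280670115) (nat_lit 76) (nat_lit 2977373411106) (nat_lit 76) (nat_lit 271886668596) (nat_lit 10) (nat_lit 4) (nat_lit 11) (nat_lit 5) (nat_lit 11) (nat_lit 4) (nat_lit 314) (nat_lit 299) (nat_lit 167)) (XT.lf (nat_lit 0) (nat_lit 416314523900) (nat_lit 152) (nat_lit 1810410519555) (nat_lit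 76) (nat_lit 1505018822885) (nat_lit 9) (nat_lit 5) (nat_lit 11) (nat_lit 5) (nat_lit 10) (nat_lit 4) (nat_lit 315) (nat_lit 299) (nat_lit 166))) (XT.nd (nat_lit 78) (nat_lit 76) (nat_lit 0) (XT.lf (nat_lit 0) (nat_lit 1179909876663) (nat_lit 152) (nat_lit 168680514100) (nat_lit 76) (nat_lit 2782795012331) (nat_lit 9) (nat_lit 5) (nat_lit 11) (nat_lit 5) (nat_lit 10) (nat_lit 4) (nat_lit 316) (nat_lit 299) (nat_lit 165)) (XT.nd (nat_lit 78) (nat_lit 0) (nat_lit 0) (XT.lf (nat_lit 0) (nat_lit 1887332366658) (nat_lit 76) (nat_lit 248862572029) (nat_lit 152) (nat_lit 2443055670724) (nat_lit 8) (nat_lit 5) (nat_lit 9) (nat_lit 5) (nat_lit 10) (nat_lit 4) (nat_lit 317) (nat_lit 299) (nat_lit 164)) (XT.lf (nat_lit 0) (nat_lit 3287223147083) (nat_lit 152) (nat_lit 864751421653) (nat_lit 0) (nat_lit 934625969885) (nat_lit 8) (nat_lit 5) (nat_lit 10) (nat_lit 4) (nat_lit 8) (nat_lit 4) (nat_lit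 318) (nat_lit 299) (nat_lit 163)))))) (XT.nd (nat_lit 312) (nat_lit 76) (nat_lit 0) (XT.nd (nat_lit 156) (nat_lit 76) (nat_lit 0) (XT.nd (nat_lit 78) (nat_lit 76) (nat_lit 0) (XT.lf (nat_lit 0) (nat_lit 1344320530214) (nat_lit 76) (nat_lit 3334101099714) (nat_lit 76) (nat_lit 981503920810) (nat_lit 7) (nat_lit 4) (nat_lit 8) (nat_lit 5) (nat_lit 8) (nat_lit 4) (nat_lit 319) (nat_lit 299) (nat_lit 162)) (XT.lf (nat_lit 0) (nat_lit 10051605061) (nat_lit 152) (nat_lit 2330986229506) (nat_lit 76) (nat_lit 3971362509416) (nat_lit 6) (nat_lit 5) (nat_lit 8) (nat_lit 5) (nat_lit 7) (nat_lit 4) (nat_lit 320) (nat_lit 299) (nat_lit 161))) (XT.nd (nat_lit 78) (nat_lit 76) (nat_lit 0) (XT.lf (nat_lit 0) (nat_lit 1049853152031) (nat_lit 152) (nat_lit 95412904810) (nat_lit 76) (nat_lit 5910469557325) (nat_lit 6) (nat_lit 5) (nat_lit 8) (nat_lit 5) (nat_lit 7) (nat_lit 4) (nat_lit 321) (nat_lit 299)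 (nat_lit 160)) (XT.lf (nat_lit 0) (nat_lit 2373024199411) (nat_lit 152) (nat_lit 5191149566497) (nat_lit 0) (nat_lit 327287518715) (nat_lit 5) (nat_lit 5) (nat_lit 7) (nat_lit 4) (nat_lit 5) (nat_lit 4) (nat_lit 322) (nat_lit 299) (nat_lit 159)))) (XT.nd (nat_lit 156) (nat_lit 76) (nat_lit 0) (XT.nd (nat_lit 78) (nat_lit 0) (nat_lit 0) (XT.lf (nat_lit 0) (nat_lit 3954432373835) (nat_lit 152) (nat_lit 2980453519035) (nat_lit 0) (nat_lit 1908695692291) (nat_lit 5) (nat_lit 5) (nat_lit 7) (nat_lit 4) (nat_lit 5) (nat_lit 4) (nat_lit 323) (nat_lit 299) (nat_lit 158)) (XT.lf (nat_lit 0) (nat_lit 5773051773235) (nat_lit 152) (nat_lit 438153066770) (nat_lit 0) (nat_lit 3727315090954) (nat_lit 5) (nat_lit 5) (nat_lit 7) (nat_lit 4) (nat_lit 5) (nat_lit 4) (nat_lit 324) (nat_lit 299) (nat_lit 157))) (XT.nd (nat_lit 78) (nat_lit 0) (nat_lit 0) (XT.lf (nat_lit 0) (nat_lit 2728392849969) (nat_lit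 76) (nat_lit 5249048161148) (nat_lit 76) (nat_lit 3203311478224) (nat_lit 4) (nat_lit 4) (nat_lit 5) (nat_lit 5) (nat_lit 5) (nat_lit 4) (nat_lit 325) (nat_lit 299) (nat_lit 156)) (XT.nd (nat_lit 78) (nat_lit 0) (nat_lit 0) (XT.lf (nat_lit 0) (nat_lit 6419163082188) (nat_lit 76) (nat_lit 4116229007279) (nat_lit 76) (nat_lit 2070492323798) (nat_lit 4) (nat_lit 4) (nat_lit 5) (nat_lit 5) (nat_lit 5) (nat_lit 4) (nat_lit 326) (nat_lit 299) (nat_lit 155)) (XT.lf (nat_lit 0) (nat_lit 10663548847567) (nat_lit 76) (nat_lit 2813486981152) (nat_lit 76) (nat_lit 767750297186) (nat_lit 4) (nat_lit 4) (nat_lit 5) (nat_lit 5) (nat_lit 5) (nat_lit 4) (nat_lit 327) (nat_lit 299) (nat_lit 154))))))) (XT.nd (nat_lit 38454) (nat_lit 0) (nat_lit 1064) (XT.nd (nat_lit 312) (nat_lit 76) (nat_lit 0) (XT.nd (nat_lit 156) (nat_lit 0) (nat_lit 0) (XT.nd (nat_lit 78) (nat_lit 76) (nat_lit 0) (XT.lf (nat_lit 0)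 (nat_lit 665377503786) (nat_lit 152) (nat_lit 615175051246) (nat_lit 76) (nat_lit 14844433875722) (nat_lit 3) (nat_lit 5) (nat_lit 5) (nat_lit 5) (nat_lit 4) (nat_lit 4) (nat_lit 328) (nat_lit 299) (nat_lit 153)) (XT.lf (nat_lit 0) (nat_lit 2387976561577) (nat_lit 152) (nat_lit 15261715428493) (nat_lit 0) (nat_lit 609075096574) (nat_lit 2) (nat_lit 5) (nat_lit 4) (nat_lit 4) (nat_lit 2) (nat_lit 4) (nat_lit 329) (nat_lit 299) (nat_lit 152))) (XT.nd (nat_lit 78) (nat_lit 0) (nat_lit 0) (XT.lf (nat_lit 0) (nat_lit 4463632328038) (nat_lit 152) (nat_lit 13550051622624) (nat_lit 0) (nat_lit 2684730862757) (nat_lit 2) (nat_lit 5) (nat_lit 4) (nat_lit 4) (nat_lit 2) (nat_lit 4) (nat_lit 330) (nat_lit 299) (nat_lit 151)) (XT.lf (nat_lit 0) (nat_lit 6850636458889) (nat_lit 152) (nat_lit 11581638247040) (nat_lit 0) (nat_lit 5071734993367) (nat_lit 2) (nat_lit 5) (nat_lit 4) (nat_lit 4) (nat_lit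 2) (nat_lit 4) (nat_lit 331) (nat_lit 299) (nat_lit 150)))) (XT.nd (nat_lit 1092) (nat_lit 0) (nat_lit 0) (XT.nd (nat_lit 1014) (nat_lit 76) (nat_lit 0) (XT.lf (nat_lit 0) (nat_lit 9595691208865) (nat_lit 152) (nat_lit 9317962866133) (nat_lit 0) (nat_lit 7816789743133) (nat_lit 2) (nat_lit 5) (nat_lit 4) (nat_lit 4) (nat_lit 2) (nat_lit 4) (nat_lit 332) (nat_lit 299) (nat_lit 149)) (XT.lf (nat_lit 0) (nat_lit 87936588592400) (nat_lit 76) (nat_lit 33742947543746) (nat_lit 76) (nat_lit 31964046076843) (nat_lit 1) (nat_lit 4) (nat_lit 2) (nat_lit 5) (nat_lit 2) (nat_lit 4) (nat_lit 345) (nat_lit 299) (nat_lit 136))) (XT.nd (nat_lit 78) (nat_lit 0) (nat_lit 0) (XT.lf (nat_lit 0) (nat_lit 105518997102108) (nat_lit 76) (nat_lit 36311788783277) (nat_lit 76) (nat_lit 34532887316345) (nat_lit 1) (nat_lit 4) (nat_lit 2) (nat_lit 5) (nat_lit 2) (nat_lit 4) (nat_lit 346) (nat_lit 299) (nat_lit 135))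 (XT.nd (nat_lit 78) (nat_lit 0) (nat_lit 0) (XT.lf (nat_lit 0) (nat_lit 125738766888135) (nat_lit 76) (nat_lit 39265956208807) (nat_lit 76) (nat_lit 37487054741849) (nat_lit 1) (nat_lit 4) (nat_lit 2) (nat_lit 5) (nat_lit 2) (nat_lit 4) (nat_lit 347) (nat_lit 299) (nat_lit 134)) (XT.lf (nat_lit 0) (nat_lit 148991502141947) (nat_lit 76) (nat_lit 42663248748227) (nat_lit 76) (nat_lit 40884347281246) (nat_lit 1) (nat_lit 4) (nat_lit 2) (nat_lit 5) (nat_lit 2) (nat_lit 4) (nat_lit 348) (nat_lit 299) (nat_lit 133)))))) (XT.nd (nat_lit 390) (nat_lit 380) (nat_lit 0) (XT.nd (nat_lit 156) (nat_lit 0) (nat_lit 76) (XT.nd (nat_lit 78) (nat_lit 0) (nat_lit 0) (XT.lf (nat_lit 0) (nat_lit 76531418100) (nat_lit 380) (nat_lit 234556972323) (nat_lit 380) (nat_lit 234556972323) (nat_lit 20) (nat_lit 3) (nat_lit 25) (nat_lit 3) (nat_lit 25) (nat_lit 5) (nat_lit 300) (nat_lit 300) (nat_lit 180)) (XT.lf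 (nat_lit 76) (nat_lit 38915729935) (nat_lit 0) (nat_lit 127238286074) (nat_lit 380) (nat_lit 1006741793614) (nat_lit 21) (nat_lit 5) (nat_lit 20) (nat_lit 3) (nat_lit 25) (nat_lit 5) (nat_lit 301) (nat_lit 300) (nat_lit 179))) (XT.nd (nat_lit 78) (nat_lit 0) (nat_lit 0) (XT.lf (nat_lit 0) (nat_lit 225198270673) (nat_lit 304) (nat_lit 606659059189) (nat_lit 380) (nat_lit 428285916867) (nat_lit 21) (nat_lit 5) (nat_lit 25) (nat_lit 5) (nat_lit 26) (nat_lit 5) (nat_lit 302) (nat_lit 300) (nat_lit 178)) (XT.nd (nat_lit 78) (nat_lit 0) (nat_lit 76) (XT.lf (nat_lit 0) (nat_lit 299158121766) (nat_lit 304) (nat_lit 6298857838) (nat_lit 380) (nat_lit 1054111976096) (nat_lit 21) (nat_lit 5) (nat_lit 25) (nat_lit 5) (nat_lit 26) (nat_lit 5) (nat_lit 303) (nat_lit 300) (nat_lit 177)) (XT.lf (nat_lit 0) (nat_lit 429207227329) (nat_lit 304) (nat_lit 732171132072) (nat_lit 76) (nat_lit 305780870123)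 (nat_lit 22) (nat_lit 5) (nat_lit 26) (nat_lit 5) (nat_lit 23) (nat_lit 5) (nat_lit 304) (nat_lit 300) (nat_lit 176))))) (XT.nd (nat_lit 156) (nat_lit 228) (nat_lit 0) (XT.nd (nat_lit 78) (nat_lit 304) (nat_lit 0) (XT.lf (nat_lit 0) (nat_lit 593654200584) (nat_lit 304) (nat_lit 17223909459) (nat_lit 76) (nat_lit 977776359127) (nat_lit 22) (nat_lit 5) (nat_lit 26) (nat_lit 5) (nat_lit 23) (nat_lit 5) (nat_lit 305) (nat_lit 300) (nat_lit 175)) (XT.lf (nat_lit 0) (nat_lit 822019037610) (nat_lit 380) (nat_lit 841914618732) (nat_lit 76) (nat_lit 58552715776) (nat_lit 18) (nat_lit 5) (nat_lit 23) (nat_lit 5) (nat_lit 19) (nat_lit 5) (nat_lit 306) (nat_lit 300) (nat_lit 174))) (XT.nd (nat_lit 78) (nat_lit 76) (nat_lit 0) (XT.lf (nat_lit 0) (nat_lit 10518615718) (nat_lit 152) (nat_lit 1104588181017) (nat_lit 228) (nat_lit 756716034310) (nat_lit 16) (nat_lit 5) (nat_lit 18) (nat_lit 5) (nat_lit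 19) (nat_lit 5) (nat_lit 307) (nat_lit 300) (nat_lit 173)) (XT.nd (nat_lit 78) (nat_lit 76) (nat_lit 0) (XT.lf (nat_lit 0) (nat_lit 1085436552271) (nat_lit 152) (nat_lit 410730336305) (nat_lit 228) (nat_lit 540791494923) (nat_lit 16) (nat_lit 5) (nat_lit 18) (nat_lit 5) (nat_lit 19) (nat_lit 5) (nat_lit 308) (nat_lit 300) (nat_lit 172)) (XT.lf (nat_lit 0) (nat_lit 86385123779) (nat_lit 76) (nat_lit 1867611272709) (nat_lit 152) (nat_lit 269926312005) (nat_lit 15) (nat_lit 5) (nat_lit 16) (nat_lit 5) (nat_lit 17) (nat_lit 4) (nat_lit 309) (nat_lit 300) (nat_lit 171))))))))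
noncomputable def xc114 : XT := (XT.nd (nat_lit 1404) (nat_lit 228) (nat_lit 0) (XT.nd (nat_lit 702) (nat_lit 304) (nat_lit 0) (XT.nd (nat_lit 312) (nat_lit 228) (nat_lit 0) (XT.nd (nat_lit 156) (nat_lit 76) (nat_lit 0) (XT.nd (nat_lit 78) (nat_lit 152) (nat_lit 0) (XT.lf (nat_lit 0) (nat_lit 109533651404) (nat_lit 152) (nat_lit 1068203054252) (nat_lit 76) (nat_lit 1250186926493) (nat_lit 14) (nat_lit 5) (nat_lit 16) (nat_lit 5) (nat_lit 15) (nat_lit 5) (nat_lit 310) (nat_lit 300) (nat_lit 170)) (XT.lf (nat_lit 0) (nat_lit 163207914205) (nat_lit 152) (nat_lit 361827470639) (nat_lit 228) (nat_lit 2134547551169) (nat_lit 12) (nat_lit 5) (nat_lit 14) (nat_lit 5) (nat_lit 15) (nat_lit 5) (nat_lit 311) (nat_lit 300) (nat_lit 169))) (XT.nd (nat_lit 78) (nat_lit 76) (nat_lit 0) (XT.lf (nat_lit 0) (nat_lit 1085229525882) (nat_lit 228) (nat_lit 1244762736323) (nat_lit 76) (nat_lit 583643801124)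 (nat_lit 12) (nat_lit 5) (nat_lit 15) (nat_lit 5) (nat_lit 13) (nat_lit 4) (nat_lit 312) (nat_lit 300) (nat_lit 168)) (XT.lf (nat_lit 0) (nat_lit 194694564578) (nat_lit 76) (nat_lit 1560049987089) (nat_lit 152) (nat_lit 1447258843542) (nat_lit 11) (nat_lit 5) (nat_lit 12) (nat_lit 5) (nat_lit 13) (nat_lit 4) (nat_lit 313) (nat_lit 300) (nat_lit 167)))) (XT.nd (nat_lit 156) (nat_lit 152) (nat_lit 0) (XT.nd (nat_lit 78) (nat_lit 76) (nat_lit 0) (XT.lf (nat_lit 0) (nat_lit 1989964814010) (nat_lit 76) (nat_lit 599789157834) (nat_lit 152) (nat_lit 934111783957) (nat_lit 11) (nat_lit 5) (nat_lit 12) (nat_lit 5) (nat_lit 13) (nat_lit 4) (nat_lit 314) (nat_lit 300) (nat_lit 166)) (XT.lf (nat_lit 0) (nat_lit 153272816335) (nat_lit 76) (nat_lit 3423979403119) (nat_lit 76) (nat_lit 312669638870) (nat_lit 10) (nat_lit 4) (nat_lit 11) (nat_lit 5) (nat_lit 11) (nat_lit 4) (nat_lit 315) (nat_lit 300)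 (nat_lit 165))) (XT.nd (nat_lit 78) (nat_lit 76) (nat_lit 0) (XT.lf (nat_lit 0) (nat_lit 478761726263) (nat_lit 152) (nat_lit 2081972055378) (nat_lit 76) (nat_lit 1730771661039) (nat_lit 9) (nat_lit 5) (nat_lit 11) (nat_lit 5) (nat_lit 10) (nat_lit 4) (nat_lit 316) (nat_lit 300) (nat_lit 164)) (XT.nd (nat_lit 78) (nat_lit 76) (nat_lit 0) (XT.lf (nat_lit 0) (nat_lit 1356896378838) (nat_lit 152) (nat_lit 193982554598) (nat_lit 76) (nat_lit 3200214276981) (nat_lit 9) (nat_lit 5) (nat_lit 11) (nat_lit 5) (nat_lit 10) (nat_lit 4) (nat_lit 317) (nat_lit 300) (nat_lit 163)) (XT.lf (nat_lit 0) (nat_lit 2170432256610) (nat_lit 76) (nat_lit 286191942307) (nat_lit 152) (nat_lit 2809513998959) (nat_lit 8) (nat_lit 5) (nat_lit 9) (nat_lit 5) (nat_lit 10) (nat_lit 4) (nat_lit 318) (nat_lit 300) (nat_lit 162)))))) (XT.nd (nat_lit 312) (nat_lit 152) (nat_lit 0) (XT.nd (nat_lit 156) (nat_lit 76) (nat_lit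 0) (XT.nd (nat_lit 78) (nat_lit 76) (nat_lit 0) (XT.lf (nat_lit 0) (nat_lit 3780306636598) (nat_lit 152) (nat_lit 994464102503) (nat_lit 0) (nat_lit 1074819877668) (nat_lit 8) (nat_lit 5) (nat_lit 10) (nat_lit 4) (nat_lit 8) (nat_lit 4) (nat_lit 319) (nat_lit 300) (nat_lit 161)) (XT.lf (nat_lit 0) (nat_lit 1545968640671) (nat_lit 76) (nat_lit 3834216250202) (nat_lit 76) (nat_lit 1128729489982) (nat_lit 7) (nat_lit 4) (nat_lit 8) (nat_lit 5) (nat_lit 8) (nat_lit 4) (nat_lit 320) (nat_lit 300) (nat_lit 160))) (XT.nd (nat_lit 78) (nat_lit 0) (nat_lit 0) (XT.lf (nat_lit 0) (nat_lit 11559360831) (nat_lit 152) (nat_lit 2680634135554) (nat_lit 76) (nat_lit 4567066896924) (nat_lit 6) (nat_lit 5) (nat_lit 8) (nat_lit 5) (nat_lit 7) (nat_lit 4) (nat_lit 321) (nat_lit 300) (nat_lit 159)) (XT.lf (nat_lit 0) (nat_lit 1207331137889) (nat_lit 152) (nat_lit 109724815855) (nat_lit 76) (nat_lit 6797040000573)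 (nat_lit 6) (nat_lit 5) (nat_lit 8) (nat_lit 5) (nat_lit 7) (nat_lit 4) (nat_lit 322) (nat_lit 300) (nat_lit 158)))) (XT.nd (nat_lit 156) (nat_lit 76) (nat_lit 0) (XT.nd (nat_lit 78) (nat_lit 0) (nat_lit 0) (XT.lf (nat_lit 0) (nat_lit 2728977842114) (nat_lit 152) (nat_lit 5969821976519) (nat_lit 0) (nat_lit 376380656752) (nat_lit 5) (nat_lit 5) (nat_lit 7) (nat_lit 4) (nat_lit 5) (nat_lit 4) (nat_lit 323) (nat_lit 300) (nat_lit 157)) (XT.lf (nat_lit 0) (nat_lit 4547597241033) (nat_lit 152) (nat_lit 3427521525191) (nat_lit 0) (nat_lit 2195000055030) (nat_lit 5) (nat_lit 5) (nat_lit 7) (nat_lit 4) (nat_lit 5) (nat_lit 4) (nat_lit 324) (nat_lit 300) (nat_lit 156))) (XT.nd (nat_lit 78) (nat_lit 76) (nat_lit 0) (XT.lf (nat_lit 0) (nat_lit 6639009548892) (nat_lit 152) (nat_lit 503876007917) (nat_lit 0) (nat_lit 4286412362331) (nat_lit 5) (nat_lit 5) (nat_lit 7) (nat_lit 4) (nat_lit 5) (nat_lit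 4) (nat_lit 325) (nat_lit 300) (nat_lit 155)) (XT.nd (nat_lit 78) (nat_lit 0) (nat_lit 0) (XT.lf (nat_lit 0) (nat_lit 3137651795476) (nat_lit 76) (nat_lit 6036405376465) (nat_lit 76) (nat_lit 3683808189419) (nat_lit 4) (nat_lit 4) (nat_lit 5) (nat_lit 5) (nat_lit 5) (nat_lit 4) (nat_lit 326) (nat_lit 300) (nat_lit 154)) (XT.lf (nat_lit 0) (nat_lit 7382037560178) (nat_lit 76) (nat_lit 4733663350671) (nat_lit 76) (nat_lit 2381066163203) (nat_lit 4) (nat_lit 4) (nat_lit 5) (nat_lit 5) (nat_lit 5) (nat_lit 4) (nat_lit 327) (nat_lit 300) (nat_lit 153))))))) (XT.nd (nat_lit 38532) (nat_lit 0) (nat_lit 1064) (XT.nd (nat_lit 312) (nat_lit 76) (nat_lit 0) (XT.nd (nat_lit 156) (nat_lit 76) (nat_lit 0) (XT.nd (nat_lit 78) (nat_lit 76) (nat_lit 0) (XT.lf (nat_lit 0) (nat_lit 12263081188320) (nat_lit 76) (nat_lit 3235510021630) (nat_lit 76) (nat_lit 882912833795) (nat_lit 4) (nat_lit 4) (nat_lit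 5) (nat_lit 5) (nat_lit 5) (nat_lit 4) (nat_lit 328) (nat_lit 300) (nat_lit 152)) (XT.lf (nat_lit 0) (nat_lit 765184135667) (nat_lit 152) (nat_lit 707451296469) (nat_lit 76) (nat_lit 17071098962280) (nat_lit 3) (nat_lit 5) (nat_lit 5) (nat_lit 5) (nat_lit 4) (nat_lit 4) (nat_lit 329) (nat_lit 300) (nat_lit 151))) (XT.nd (nat_lit 78) (nat_lit 0) (nat_lit 0) (XT.lf (nat_lit 0) (nat_lit 2746173052041) (nat_lit 152) (nat_lit 17550972730212) (nat_lit 0) (nat_lit 700436366449) (nat_lit 2) (nat_lit 5) (nat_lit 4) (nat_lit 4) (nat_lit 2) (nat_lit 4) (nat_lit 330) (nat_lit 300) (nat_lit 150)) (XT.lf (nat_lit 0) (nat_lit 5133177182658) (nat_lit 152) (nat_lit 15582559355100) (nat_lit 0) (nat_lit 3087440496857) (nat_lit 2) (nat_lit 5) (nat_lit 4) (nat_lit 4) (nat_lit 2) (nat_lit 4) (nat_lit 331) (nat_lit 300) (nat_lit 149)))) (XT.nd (nat_lit 1092) (nat_lit 0) (nat_lit 0) (XT.nd (nat_lit 1014) (nat_lit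 76) (nat_lit 0) (XT.lf (nat_lit 0) (nat_lit 7878231932431) (nat_lit 152) (nat_lit 13318883974602) (nat_lit 0) (nat_lit 5832495246447) (nat_lit 2) (nat_lit 5) (nat_lit 4) (nat_lit 4) (nat_lit 2) (nat_lit 4) (nat_lit 332) (nat_lit 300) (nat_lit 148)) (XT.lf (nat_lit 0) (nat_lit 83544668373090) (nat_lit 76) (nat_lit 36235548434998) (nat_lit 76) (nat_lit 34189811747997) (nat_lit 1) (nat_lit 4) (nat_lit 2) (nat_lit 5) (nat_lit 2) (nat_lit 4) (nat_lit 345) (nat_lit 300) (nat_lit 135))) (XT.nd (nat_lit 78) (nat_lit 0) (nat_lit 0) (XT.lf (nat_lit 0) (nat_lit 101127076882734) (nat_lit 76) (nat_lit 38804389674562) (nat_lit 76) (nat_lit 36758652987534) (nat_lit 1) (nat_lit 4) (nat_lit 2) (nat_lit 5) (nat_lit 2) (nat_lit 4) (nat_lit 346) (nat_lit 300) (nat_lit 134)) (XT.nd (nat_lit 78) (nat_lit 0) (nat_lit 0) (XT.lf (nat_lit 0) (nat_lit 121346846668705) (nat_lit 76) (nat_lit 41758557100120) (nat_lit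 76) (nat_lit 39712820413070) (nat_lit 1) (nat_lit 4) (nat_lit 2) (nat_lit 5) (nat_lit 2) (nat_lit 4) (nat_lit 347) (nat_lit 300) (nat_lit 133)) (XT.lf (nat_lit 0) (nat_lit 144599581922469) (nat_lit 76) (nat_lit 45155849639564) (nat_lit 76) (nat_lit 43110112952494) (nat_lit 1) (nat_lit 4) (nat_lit 2) (nat_lit 5) (nat_lit 2) (nat_lit 4) (nat_lit 348) (nat_lit 300) (nat_lit 132)))))) (XT.nd (nat_lit 390) (nat_lit 380) (nat_lit 0) (XT.nd (nat_lit 156) (nat_lit 0) (nat_lit 76) (XT.nd (nat_lit 78) (nat_lit 0) (nat_lit 0) (XT.lf (nat_lit 0) (nat_lit 88011178463) (nat_lit 380) (nat_lit 269740490670) (nat_lit 380) (nat_lit 269740490670) (nat_lit 20) (nat_lit 3) (nat_lit 25) (nat_lit 3) (nat_lit 25) (nat_lit 5) (nat_lit 301) (nat_lit 301) (nat_lit 178)) (XT.lf (nat_lit 76) (nat_lit 44753141929) (nat_lit 0) (nat_lit 146324061521) (nat_lit 380) (nat_lit 1157752964496) (nat_lit 21) (nat_lit 5) (nat_lit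 20) (nat_lit 3) (nat_lit 25) (nat_lit 5) (nat_lit 302) (nat_lit 301) (nat_lit 177))) (XT.nd (nat_lit 78) (nat_lit 0) (nat_lit 0) (XT.lf (nat_lit 0) (nat_lit 258978084050) (nat_lit 304) (nat_lit 697657859832) (nat_lit 380) (nat_lit 492528778624) (nat_lit 21) (nat_lit 5) (nat_lit 25) (nat_lit 5) (nat_lit 26) (nat_lit 5) (nat_lit 303) (nat_lit 301) (nat_lit 176)) (XT.nd (nat_lit 78) (nat_lit 0) (nat_lit 76) (XT.lf (nat_lit 0) (nat_lit 344031903314) (nat_lit 304) (nat_lit 7243635874) (nat_lit 380) (nat_lit 1212228750099) (nat_lit 21) (nat_lit 5) (nat_lit 25) (nat_lit 5) (nat_lit 26) (nat_lit 5) (nat_lit 304) (nat_lit 301) (nat_lit 175)) (XT.lf (nat_lit 0) (nat_lit 493588368099) (nat_lit 304) (nat_lit 841996744391) (nat_lit 76) (nat_lit 351647992723) (nat_lit 22) (nat_lit 5) (nat_lit 26) (nat_lit 5) (nat_lit 23) (nat_lit 5) (nat_lit 305) (nat_lit 301) (nat_lit 174))))) (XT.nd (nat_lit 156)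 (nat_lit 228) (nat_lit 0) (XT.nd (nat_lit 78) (nat_lit 304) (nat_lit 0) (XT.lf (nat_lit 0) (nat_lit 682702379951) (nat_lit 304) (nat_lit 19807445885) (nat_lit 76) (nat_lit 1124442806110) (nat_lit 22) (nat_lit 5) (nat_lit 26) (nat_lit 5) (nat_lit 23) (nat_lit 5) (nat_lit 306) (nat_lit 301) (nat_lit 173)) (XT.lf (nat_lit 0) (nat_lit 945321938198) (nat_lit 380) (nat_lit 968201757036) (nat_lit 76) (nat_lit 67335625778) (nat_lit 18) (nat_lit 5) (nat_lit 23) (nat_lit 5) (nat_lit 19) (nat_lit 5) (nat_lit 307) (nat_lit 301) (nat_lit 172))) (XT.nd (nat_lit 78) (nat_lit 76) (nat_lit 0) (XT.lf (nat_lit 0) (nat_lit 12096460104) (nat_lit 152) (nat_lit 1270276397380) (nat_lit 228) (nat_lit 870223391874) (nat_lit 16) (nat_lit 5) (nat_lit 18) (nat_lit 5) (nat_lit 19) (nat_lit 5) (nat_lit 308) (nat_lit 301) (nat_lit 171)) (XT.nd (nat_lit 78) (nat_lit 76) (nat_lit 0) (XT.lf (nat_lit 0) (nat_lit 1248252080354)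 (nat_lit 152) (nat_lit 472339877369) (nat_lit 228) (nat_lit 621910177786) (nat_lit 16) (nat_lit 5) (nat_lit 18) (nat_lit 5) (nat_lit 19) (nat_lit 5) (nat_lit 309) (nat_lit 301) (nat_lit 170)) (XT.lf (nat_lit 0) (nat_lit 99342940426) (nat_lit 76) (nat_lit 2147752949047) (nat_lit 152) (nat_lit 310415220149) (nat_lit 15) (nat_lit 5) (nat_lit 16) (nat_lit 5) (nat_lit 17) (nat_lit 4) (nat_lit 310) (nat_lit 301) (nat_lit 169))))))))
noncomputable def xc115 : XT := (XT.nd (nat_lit 1404) (nat_lit 228) (nat_lit 0) (XT.nd (nat_lit 702) (nat_lit 304) (nat_lit 0) (XT.nd (nat_lit 312) (nat_lit 228) (nat_lit 0) (XT.nd (nat_lit 156) (nat_lit 76) (nat_lit 0) (XT.nd (nat_lit 78) (nat_lit 152) (nat_lit 0) (XT.lf (nat_lit 0) (nat_lit 125963729736) (nat_lit 152) (nat_lit 1228433467498) (nat_lit 76) (nat_lit 1437714975053) (nat_lit 14) (nat_lit 5) (nat_lit 16) (nat_lit 5) (nat_lit 15) (nat_lit 5) (nat_lit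 311) (nat_lit 301) (nat_lit 168)) (XT.lf (nat_lit 0) (nat_lit 187689144186) (nat_lit 152) (nat_lit 416101576787) (nat_lit 228) (nat_lit 2454729651104) (nat_lit 12) (nat_lit 5) (nat_lit 14) (nat_lit 5) (nat_lit 15) (nat_lit 5) (nat_lit 312) (nat_lit 301) (nat_lit 167))) (XT.nd (nat_lit 78) (nat_lit 76) (nat_lit 0) (XT.lf (nat_lit 0) (nat_lit 1248013979982) (nat_lit 228) (nat_lit 1431477106257) (nat_lit 76) (nat_lit 671190382738) (nat_lit 12) (nat_lit 5) (nat_lit 15) (nat_lit 5) (nat_lit 13) (nat_lit 4) (nat_lit 313) (nat_lit 301) (nat_lit 166)) (XT.lf (nat_lit 0) (nat_lit 223898787937) (nat_lit 76) (nat_lit 1794057470011) (nat_lit 152) (nat_lit 1664347642954) (nat_lit 11) (nat_lit 5) (nat_lit 12) (nat_lit 5) (nat_lit 13) (nat_lit 4) (nat_lit 314) (nat_lit 301) (nat_lit 165)))) (XT.nd (nat_lit 156) (nat_lit 152) (nat_lit 0) (XT.nd (nat_lit 78) (nat_lit 76) (nat_lit 0) (XT.lf (nat_lit 0)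 (nat_lit 2288459569739) (nat_lit 76) (nat_lit 689757518341) (nat_lit 152) (nat_lit 1074228527969) (nat_lit 11) (nat_lit 5) (nat_lit 12) (nat_lit 5) (nat_lit 13) (nat_lit 4) (nat_lit 315) (nat_lit 301) (nat_lit 164)) (XT.lf (nat_lit 0) (nat_lit 176263773343) (nat_lit 76) (nat_lit 3937576298726) (nat_lit 76) (nat_lit 359570062004) (nat_lit 10) (nat_lit 4) (nat_lit 11) (nat_lit 5) (nat_lit 11) (nat_lit 4) (nat_lit 316) (nat_lit 301) (nat_lit 163))) (XT.nd (nat_lit 78) (nat_lit 76) (nat_lit 0) (XT.lf (nat_lit 0) (nat_lit 550576003181) (nat_lit 152) (nat_lit 2394267831844) (nat_lit 76) (nat_lit 1990387421327) (nat_lit 9) (nat_lit 5) (nat_lit 11) (nat_lit 5) (nat_lit 10) (nat_lit 4) (nat_lit 317) (nat_lit 301) (nat_lit 162)) (XT.nd (nat_lit 78) (nat_lit 76) (nat_lit 0) (XT.lf (nat_lit 0) (nat_lit 1560430851297) (nat_lit 152) (nat_lit 223079910100) (nat_lit 76) (nat_lit 3680246428208) (nat_lit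 9) (nat_lit 5) (nat_lit 11) (nat_lit 5) (nat_lit 10) (nat_lit 4) (nat_lit 318) (nat_lit 301) (nat_lit 161)) (XT.lf (nat_lit 0) (nat_lit 2495997121531) (nat_lit 76) (nat_lit 329120721913) (nat_lit 152) (nat_lit 3230941081885) (nat_lit 8) (nat_lit 5) (nat_lit 9) (nat_lit 5) (nat_lit 10) (nat_lit 4) (nat_lit 319) (nat_lit 301) (nat_lit 160)))))) (XT.nd (nat_lit 312) (nat_lit 152) (nat_lit 0) (XT.nd (nat_lit 156) (nat_lit 76) (nat_lit 0) (XT.nd (nat_lit 78) (nat_lit 76) (nat_lit 0) (XT.lf (nat_lit 0) (nat_lit 4347352645283) (nat_lit 152) (nat_lit 1143633693381) (nat_lit 0) (nat_lit 1236042868618) (nat_lit 8) (nat_lit 5) (nat_lit 10) (nat_lit 4) (nat_lit 8) (nat_lit 4) (nat_lit 320) (nat_lit 301) (nat_lit 159)) (XT.lf (nat_lit 0) (nat_lit 1777863960156) (nat_lit 76) (nat_lit 4409348676791) (nat_lit 76) (nat_lit 1298038899150) (nat_lit 7) (nat_lit 4) (nat_lit 8) (nat_lit 5) (nat_lit 8) (nat_lit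 4) (nat_lit 321) (nat_lit 301) (nat_lit 158))) (XT.nd (nat_lit 78) (nat_lit 0) (nat_lit 0) (XT.lf (nat_lit 0) (nat_lit 13293276306) (nat_lit 152) (nat_lit 3082729234430) (nat_lit 76) (nat_lit 5252126939853) (nat_lit 6) (nat_lit 5) (nat_lit 8) (nat_lit 5) (nat_lit 7) (nat_lit 4) (nat_lit 322) (nat_lit 301) (nat_lit 157)) (XT.lf (nat_lit 0) (nat_lit 1388430818442) (nat_lit 152) (nat_lit 126183519574) (nat_lit 76) (nat_lit 7816596007954) (nat_lit 6) (nat_lit 5) (nat_lit 8) (nat_lit 5) (nat_lit 7) (nat_lit 4) (nat_lit 323) (nat_lit 301) (nat_lit 156)))) (XT.nd (nat_lit 156) (nat_lit 76) (nat_lit 0) (XT.nd (nat_lit 78) (nat_lit 0) (nat_lit 0) (XT.lf (nat_lit 0) (nat_lit 3138324528102) (nat_lit 152) (nat_lit 6865295254128) (nat_lit 0) (nat_lit 432837763000) (nat_lit 5) (nat_lit 5) (nat_lit 7) (nat_lit 4) (nat_lit 5) (nat_lit 4) (nat_lit 324) (nat_lit 301) (nat_lit 155)) (XT.lf (nat_lit 0)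 (nat_lit 5229736835598) (nat_lit 152) (nat_lit 3941649737563) (nat_lit 0) (nat_lit 2524250070011) (nat_lit 5) (nat_lit 5) (nat_lit 7) (nat_lit 4) (nat_lit 5) (nat_lit 4) (nat_lit 325) (nat_lit 301) (nat_lit 154))) (XT.nd (nat_lit 78) (nat_lit 76) (nat_lit 0) (XT.lf (nat_lit 0) (nat_lit 7634860988539) (nat_lit 152) (nat_lit 579457394838) (nat_lit 0) (nat_lit 4929374222530) (nat_lit 5) (nat_lit 5) (nat_lit 7) (nat_lit 4) (nat_lit 5) (nat_lit 4) (nat_lit 326) (nat_lit 301) (nat_lit 153)) (XT.nd (nat_lit 78) (nat_lit 0) (nat_lit 0) (XT.lf (nat_lit 0) (nat_lit 3608299578416) (nat_lit 76) (nat_lit 6941866176239) (nat_lit 76) (nat_lit 4236379409863) (nat_lit 4) (nat_lit 4) (nat_lit 5) (nat_lit 5) (nat_lit 5) (nat_lit 4) (nat_lit 327) (nat_lit 301) (nat_lit 152)) (XT.lf (nat_lit 0) (nat_lit 8489343206047) (nat_lit 76) (nat_lit 5443712847449) (nat_lit 76) (nat_lit 2738226080755) (nat_lit 4) (nat_lit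 4) (nat_lit 5) (nat_lit 5) (nat_lit 5) (nat_lit 4) (nat_lit 328) (nat_lit 301) (nat_lit 151))))))) (XT.nd (nat_lit 38610) (nat_lit 0) (nat_lit 988) (XT.nd (nat_lit 1248) (nat_lit 76) (nat_lit 0) (XT.nd (nat_lit 156) (nat_lit 76) (nat_lit 0) (XT.nd (nat_lit 78) (nat_lit 76) (nat_lit 0) (XT.lf (nat_lit 0) (nat_lit 14102543376866) (nat_lit 76) (nat_lit 3720836519811) (nat_lit 76) (nat_lit 1015349752839) (nat_lit 4) (nat_lit 4) (nat_lit 5) (nat_lit 5) (nat_lit 5) (nat_lit 4) (nat_lit 329) (nat_lit 301) (nat_lit 150)) (XT.lf (nat_lit 0) (nat_lit 879961760790) (nat_lit 152) (nat_lit 813568981514) (nat_lit 76) (nat_lit 19631763810554) (nat_lit 3) (nat_lit 5) (nat_lit 5) (nat_lit 5) (nat_lit 4) (nat_lit 4) (nat_lit 330) (nat_lit 301) (nat_lit 149))) (XT.nd (nat_lit 78) (nat_lit 0) (nat_lit 0) (XT.lf (nat_lit 0) (nat_lit 3158099014556) (nat_lit 152) (nat_lit 20183618630250) (nat_lit 0) (nat_lit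 805501825492) (nat_lit 2) (nat_lit 5) (nat_lit 4) (nat_lit 4) (nat_lit 2) (nat_lit 4) (nat_lit 331) (nat_lit 301) (nat_lit 148)) (XT.lf (nat_lit 0) (nat_lit 5903153764151) (nat_lit 152) (nat_lit 17919943250110) (nat_lit 0) (nat_lit 3550556574929) (nat_lit 2) (nat_lit 5) (nat_lit 4) (nat_lit 4) (nat_lit 2) (nat_lit 4) (nat_lit 332) (nat_lit 301) (nat_lit 147)))) (XT.nd (nat_lit 156) (nat_lit 0) (nat_lit 0) (XT.nd (nat_lit 78) (nat_lit 0) (nat_lit 0) (XT.lf (nat_lit 0) (nat_lit 78493960120745) (nat_lit 76) (nat_lit 39102039460008) (nat_lit 76) (nat_lit 36749442269901) (nat_lit 1) (nat_lit 4) (nat_lit 2) (nat_lit 5) (nat_lit 2) (nat_lit 4) (nat_lit 345) (nat_lit 301) (nat_lit 134)) (XT.lf (nat_lit 0) (nat_lit 96076368630334) (nat_lit 76) (nat_lit 41670880699599) (nat_lit 76) (nat_lit 39318283509470) (nat_lit 1) (nat_lit 4) (nat_lit 2) (nat_lit 5) (nat_lit 2) (nat_lit 4) (nat_lit 346) (nat_lit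 301) (nat_lit 133))) (XT.nd (nat_lit 78) (nat_lit 0) (nat_lit 0) (XT.lf (nat_lit 0) (nat_lit 116296138416257) (nat_lit 76) (nat_lit 44625048125182) (nat_lit 76) (nat_lit 42272450935032) (nat_lit 1) (nat_lit 4) (nat_lit 2) (nat_lit 5) (nat_lit 2) (nat_lit 4) (nat_lit 347) (nat_lit 301) (nat_lit 132)) (XT.nd (nat_lit 37050) (nat_lit 0) (nat_lit 1444) (XT.lf (nat_lit 0) (nat_lit 139548873669979) (nat_lit 76) (nat_lit 48022340664647) (nat_lit 76) (nat_lit 45669743474481) (nat_lit 1) (nat_lit 4) (nat_lit 2) (nat_lit 5) (nat_lit 2) (nat_lit 4) (nat_lit 348) (nat_lit 301) (nat_lit 131)) (XT.lf (nat_lit 0) (nat_lit 101212891261) (nat_lit 380) (nat_lit 310201543475) (nat_lit 380) (nat_lit 310201543475) (nat_lit 20) (nat_lit 3) (nat_lit 25) (nat_lit 3) (nat_lit 25) (nat_lit 5) (nat_lit 302) (nat_lit 302) (nat_lit 176)))))) (XT.nd (nat_lit 390) (nat_lit 456) (nat_lit 0) (XT.nd (nat_lit 156) (nat_lit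 0) (nat_lit 76) (XT.nd (nat_lit 78) (nat_lit 0) (nat_lit 76) (XT.lf (nat_lit 76) (nat_lit 51466152920) (nat_lit 0) (nat_lit 168272695352) (nat_lit 380) (nat_lit 1331415834948) (nat_lit 21) (nat_lit 5) (nat_lit 20) (nat_lit 3) (nat_lit 25) (nat_lit 5) (nat_lit 303) (nat_lit 302) (nat_lit 175)) (XT.lf (nat_lit 0) (nat_lit 297824851687) (nat_lit 304) (nat_lit 802306494772) (nat_lit 380) (nat_lit 566408075930) (nat_lit 21) (nat_lit 5) (nat_lit 25) (nat_lit 5) (nat_lit 26) (nat_lit 5) (nat_lit 304) (nat_lit 302) (nat_lit 174))) (XT.nd (nat_lit 78) (nat_lit 0) (nat_lit 76) (XT.lf (nat_lit 0) (nat_lit 395636736663) (nat_lit 304) (nat_lit 8330142964) (nat_lit 380) (nat_lit 1394063045668) (nat_lit 21) (nat_lit 5) (nat_lit 25) (nat_lit 5) (nat_lit 26) (nat_lit 5) (nat_lit 305) (nat_lit 302) (nat_lit 173)) (XT.nd (nat_lit 78) (nat_lit 0) (nat_lit 0) (XT.lf (nat_lit 0) (nat_lit 567626666166) (nat_lit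 304) (nat_lit 968296212578) (nat_lit 76) (nat_lit 404395185644) (nat_lit 22) (nat_lit 5) (nat_lit 26) (nat_lit 5) (nat_lit 23) (nat_lit 5) (nat_lit 306) (nat_lit 302) (nat_lit 172)) (XT.lf (nat_lit 0) (nat_lit 785107774206) (nat_lit 304) (nat_lit 22778524966) (nat_lit 76) (nat_lit 1293109221820) (nat_lit 22) (nat_lit 5) (nat_lit 26) (nat_lit 5) (nat_lit 23) (nat_lit 5) (nat_lit 307) (nat_lit 302) (nat_lit 171))))) (XT.nd (nat_lit 156) (nat_lit 152) (nat_lit 0) (XT.nd (nat_lit 78) (nat_lit 152) (nat_lit 0) (XT.lf (nat_lit 0) (nat_lit 1087120262915) (nat_lit 380) (nat_lit 1113431979378) (nat_lit 76) (nat_lit 77435971637) (nat_lit 18) (nat_lit 5) (nat_lit 23) (nat_lit 5) (nat_lit 19) (nat_lit 5) (nat_lit 308) (nat_lit 302) (nat_lit 170)) (XT.lf (nat_lit 0) (nat_lit 13910968460) (nat_lit 152) (nat_lit 1460817848829) (nat_lit 228) (nat_lit 1000756864676) (nat_lit 16) (nat_lit 5) (nat_lit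 18) (nat_lit 5) (nat_lit 19) (nat_lit 5) (nat_lit 309) (nat_lit 302) (nat_lit 169))) (XT.nd (nat_lit 78) (nat_lit 152) (nat_lit 0) (XT.lf (nat_lit 0) (nat_lit 1435489926617) (nat_lit 152) (nat_lit 543190851880) (nat_lit 228) (nat_lit 715196673168) (nat_lit 16) (nat_lit 5) (nat_lit 18) (nat_lit 5) (nat_lit 19) (nat_lit 5) (nat_lit 310) (nat_lit 302) (nat_lit 168)) (XT.nd (nat_lit 78) (nat_lit 76) (nat_lit 0) (XT.lf (nat_lit 0) (nat_lit 114244417845) (nat_lit 76) (nat_lit 2469915880388) (nat_lit 152) (nat_lit 356977473942) (nat_lit 15) (nat_lit 5) (nat_lit 16) (nat_lit 5) (nat_lit 17) (nat_lit 4) (nat_lit 311) (nat_lit 302) (nat_lit 167)) (XT.lf (nat_lit 0) (nat_lit 144858312351) (nat_lit 152) (nat_lit 1412698453679) (nat_lit 76) (nat_lit 1653372228559) (nat_lit 14) (nat_lit 5) (nat_lit 16) (nat_lit 5) (nat_lit 15) (nat_lit 5) (nat_lit 312) (nat_lit 302) (nat_lit 166))))))))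
noncomputable def xc116 : XT := (XT.nd (nat_lit 1404) (nat_lit 152) (nat_lit 0) (XT.nd (nat_lit 702) (nat_lit 304) (nat_lit 0) (XT.nd (nat_lit 312) (nat_lit 228) (nat_lit 0) (XT.nd (nat_lit 156) (nat_lit 76) (nat_lit 0) (XT.nd (nat_lit 78) (nat_lit 0) (nat_lit 0) (XT.lf (nat_lit 0) (nat_lit 215842548215) (nat_lit 152) (nat_lit 478516802380) (nat_lit 228) (nat_lit 2822939074013) (nat_lit 12) (nat_lit 5) (nat_lit 14) (nat_lit 5) (nat_lit 15) (nat_lit 5) (nat_lit 313) (nat_lit 302) (nat_lit 165)) (XT.lf (nat_lit 0) (nat_lit 1435216096048) (nat_lit 228) (nat_lit 1646198641562) (nat_lit 76) (nat_lit 771868948803) (nat_lit 12) (nat_lit 5) (nat_lit 15) (nat_lit 5) (nat_lit 13) (nat_lit 4) (nat_lit 314) (nat_lit 302) (nat_lit 164))) (XT.nd (nat_lit 78) (nat_lit 0) (nat_lit 0) (XT.lf (nat_lit 0) (nat_lit 257483635369) (nat_lit 76) (nat_lit 2063166079062) (nat_lit 152) (nat_lit 1913999768892)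 (nat_lit 11) (nat_lit 5) (nat_lit 12) (nat_lit 5) (nat_lit 13) (nat_lit 4) (nat_lit 315) (nat_lit 302) (nat_lit 163)) (XT.lf (nat_lit 0) (nat_lit 2631728530628) (nat_lit 76) (nat_lit 793221136136) (nat_lit 152) (nat_lit 1235362789333) (nat_lit 11) (nat_lit 5) (nat_lit 12) (nat_lit 5) (nat_lit 13) (nat_lit 4) (nat_lit 316) (nat_lit 302) (nat_lit 162)))) (XT.nd (nat_lit 156) (nat_lit 76) (nat_lit 0) (XT.nd (nat_lit 78) (nat_lit 76) (nat_lit 0) (XT.lf (nat_lit 0) (nat_lit 202703365476) (nat_lit 76) (nat_lit 4528212732299) (nat_lit 76) (nat_lit 413505554143) (nat_lit 10) (nat_lit 4) (nat_lit 11) (nat_lit 5) (nat_lit 11) (nat_lit 4) (nat_lit 317) (nat_lit 302) (nat_lit 161)) (XT.lf (nat_lit 0) (nat_lit 633162417253) (nat_lit 152) (nat_lit 2753407982544) (nat_lit 76) (nat_lit 2288945542943) (nat_lit 9) (nat_lit 5) (nat_lit 11) (nat_lit 5) (nat_lit 10) (nat_lit 4) (nat_lit 318) (nat_lit 302)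 (nat_lit 160))) (XT.nd (nat_lit 78) (nat_lit 76) (nat_lit 0) (XT.lf (nat_lit 0) (nat_lit 1794495490813) (nat_lit 152) (nat_lit 256541875679) (nat_lit 76) (nat_lit 4232283399759) (nat_lit 9) (nat_lit 5) (nat_lit 11) (nat_lit 5) (nat_lit 10) (nat_lit 4) (nat_lit 319) (nat_lit 302) (nat_lit 159)) (XT.nd (nat_lit 78) (nat_lit 0) (nat_lit 0) (XT.lf (nat_lit 0) (nat_lit 2870396709745) (nat_lit 76) (nat_lit 378488821322) (nat_lit 152) (nat_lit 3715582231375) (nat_lit 8) (nat_lit 5) (nat_lit 9) (nat_lit 5) (nat_lit 10) (nat_lit 4) (nat_lit 320) (nat_lit 302) (nat_lit 158)) (XT.lf (nat_lit 0) (nat_lit 4999455552053) (nat_lit 152) (nat_lit 1315178728864) (nat_lit 0) (nat_lit 1421449305943) (nat_lit 8) (nat_lit 5) (nat_lit 10) (nat_lit 4) (nat_lit 8) (nat_lit 4) (nat_lit 321) (nat_lit 302) (nat_lit 157)))))) (XT.nd (nat_lit 312) (nat_lit 76) (nat_lit 0) (XT.nd (nat_lit 156) (nat_lit 76) (nat_lit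 0) (XT.nd (nat_lit 78) (nat_lit 76) (nat_lit 0) (XT.lf (nat_lit 0) (nat_lit 2044543571861) (nat_lit 76) (nat_lit 5070750970036) (nat_lit 76) (nat_lit 1492744723188) (nat_lit 7) (nat_lit 4) (nat_lit 8) (nat_lit 5) (nat_lit 8) (nat_lit 4) (nat_lit 322) (nat_lit 302) (nat_lit 156)) (XT.lf (nat_lit 0) (nat_lit 15287276334) (nat_lit 152) (nat_lit 3545138603369) (nat_lit 76) (nat_lit 6039945987175) (nat_lit 6) (nat_lit 5) (nat_lit 8) (nat_lit 5) (nat_lit 7) (nat_lit 4) (nat_lit 323) (nat_lit 302) (nat_lit 155))) (XT.nd (nat_lit 78) (nat_lit 76) (nat_lit 0) (XT.lf (nat_lit 0) (nat_lit 1596695448672) (nat_lit 152) (nat_lit 145111033401) (nat_lit 76) (nat_lit 8989085414664) (nat_lit 6) (nat_lit 5) (nat_lit 8) (nat_lit 5) (nat_lit 7) (nat_lit 4) (nat_lit 324) (nat_lit 302) (nat_lit 154)) (XT.lf (nat_lit 0) (nat_lit 3609073214631) (nat_lit 152) (nat_lit 7895089527980) (nat_lit 0) (nat_lit 497763433298)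 (nat_lit 5) (nat_lit 5) (nat_lit 7) (nat_lit 4) (nat_lit 5) (nat_lit 4) (nat_lit 325) (nat_lit 302) (nat_lit 153)))) (XT.nd (nat_lit 156) (nat_lit 76) (nat_lit 0) (XT.nd (nat_lit 78) (nat_lit 0) (nat_lit 0) (XT.lf (nat_lit 0) (nat_lit 6014197367297) (nat_lit 152) (nat_lit 4532897185791) (nat_lit 0) (nat_lit 2902887585598) (nat_lit 5) (nat_lit 5) (nat_lit 7) (nat_lit 4) (nat_lit 5) (nat_lit 4) (nat_lit 326) (nat_lit 302) (nat_lit 152)) (XT.lf (nat_lit 0) (nat_lit 8780090142350) (nat_lit 152) (nat_lit 666375993276) (nat_lit 0) (nat_lit 5668780360332) (nat_lit 5) (nat_lit 5) (nat_lit 7) (nat_lit 4) (nat_lit 5) (nat_lit 4) (nat_lit 327) (nat_lit 302) (nat_lit 151))) (XT.nd (nat_lit 78) (nat_lit 0) (nat_lit 0) (XT.lf (nat_lit 0) (nat_lit 4149544525476) (nat_lit 76) (nat_lit 7983146097613) (nat_lit 76) (nat_lit 4871836315317) (nat_lit 4) (nat_lit 4) (nat_lit 5) (nat_lit 5) (nat_lit 5) (nat_lit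 4) (nat_lit 328) (nat_lit 302) (nat_lit 150)) (XT.nd (nat_lit 78) (nat_lit 0) (nat_lit 0) (XT.lf (nat_lit 0) (nat_lit 9762744695908) (nat_lit 76) (nat_lit 6260269770165) (nat_lit 76) (nat_lit 3148959987628) (nat_lit 4) (nat_lit 4) (nat_lit 5) (nat_lit 5) (nat_lit 5) (nat_lit 4) (nat_lit 329) (nat_lit 302) (nat_lit 149)) (XT.lf (nat_lit 0) (nat_lit 16217924891183) (nat_lit 76) (nat_lit 4278961993955) (nat_lit 76) (nat_lit 1167652211209) (nat_lit 4) (nat_lit 4) (nat_lit 5) (nat_lit 5) (nat_lit 5) (nat_lit 4) (nat_lit 330) (nat_lit 302) (nat_lit 148))))))) (XT.nd (nat_lit 39000) (nat_lit 0) (nat_lit 608) (XT.nd (nat_lit 38610) (nat_lit 0) (nat_lit 1216) (XT.nd (nat_lit 38454) (nat_lit 0) (nat_lit 1368) (XT.nd (nat_lit 78) (nat_lit 76) (nat_lit 0) (XT.lf (nat_lit 0) (nat_lit 1011956028518) (nat_lit 152) (nat_lit 935604321614) (nat_lit 76) (nat_lit 22576528385110) (nat_lit 3) (nat_lit 5)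 (nat_lit 5) (nat_lit 5) (nat_lit 4) (nat_lit 4) (nat_lit 331) (nat_lit 302) (nat_lit 147)) (XT.lf (nat_lit 0) (nat_lit 3631813870299) (nat_lit 152) (nat_lit 23211161417609) (nat_lit 0) (nat_lit 926327102397) (nat_lit 2) (nat_lit 5) (nat_lit 4) (nat_lit 4) (nat_lit 2) (nat_lit 4) (nat_lit 332) (nat_lit 302) (nat_lit 146))) (XT.nd (nat_lit 78) (nat_lit 0) (nat_lit 0) (XT.lf (nat_lit 0) (nat_lit 116394852193) (nat_lit 380) (nat_lit 356731759271) (nat_lit 380) (nat_lit 356731759271) (nat_lit 20) (nat_lit 3) (nat_lit 25) (nat_lit 3) (nat_lit 25) (nat_lit 5) (nat_lit 303) (nat_lit 303) (nat_lit 174)) (XT.lf (nat_lit 76) (nat_lit 59186105877) (nat_lit 0) (nat_lit 193513618257) (nat_lit 380) (nat_lit 1531128154067) (nat_lit 21) (nat_lit 5) (nat_lit 20) (nat_lit 3) (nat_lit 25) (nat_lit 5) (nat_lit 304) (nat_lit 303) (nat_lit 173)))) (XT.nd (nat_lit 156) (nat_lit 228) (nat_lit 0) (XT.nd (nat_lit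 78) (nat_lit 0) (nat_lit 0) (XT.lf (nat_lit 0) (nat_lit 342498621050) (nat_lit 304) (nat_lit 922652435691) (nat_lit 380) (nat_lit 651369272583) (nat_lit 21) (nat_lit 5) (nat_lit 25) (nat_lit 5) (nat_lit 26) (nat_lit 5) (nat_lit 305) (nat_lit 303) (nat_lit 172)) (XT.lf (nat_lit 0) (nat_lit 454982283345) (nat_lit 304) (nat_lit 9579635455) (nat_lit 380) (nat_lit 1603172489704) (nat_lit 21) (nat_lit 5) (nat_lit 25) (nat_lit 5) (nat_lit 26) (nat_lit 5) (nat_lit 306) (nat_lit 303) (nat_lit 171))) (XT.nd (nat_lit 78) (nat_lit 304) (nat_lit 0) (XT.lf (nat_lit 0) (nat_lit 652770698492) (nat_lit 304) (nat_lit 1113540611593) (nat_lit 76) (nat_lit 465054458963) (nat_lit 22) (nat_lit 5) (nat_lit 26) (nat_lit 5) (nat_lit 23) (nat_lit 5) (nat_lit 307) (nat_lit 303) (nat_lit 170)) (XT.nd (nat_lit 78) (nat_lit 304) (nat_lit 0) (XT.lf (nat_lit 0) (nat_lit 902873968512) (nat_lit 304) (nat_lit 26195275127)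 (nat_lit 76) (nat_lit 1487075601156) (nat_lit 22) (nat_lit 5) (nat_lit 26) (nat_lit 5) (nat_lit 23) (nat_lit 5) (nat_lit 308) (nat_lit 303) (nat_lit 169)) (XT.lf (nat_lit 0) (nat_lit 1250188328051) (nat_lit 380) (nat_lit 1280446745120) (nat_lit 76) (nat_lit 89051368890) (nat_lit 18) (nat_lit 5) (nat_lit 23) (nat_lit 5) (nat_lit 19) (nat_lit 5) (nat_lit 309) (nat_lit 303) (nat_lit 168)))))) (XT.nd (nat_lit 312) (nat_lit 304) (nat_lit 0) (XT.nd (nat_lit 156) (nat_lit 152) (nat_lit 0) (XT.nd (nat_lit 78) (nat_lit 0) (nat_lit 0) (XT.lf (nat_lit 0) (nat_lit 15997643477) (nat_lit 152) (nat_lit 1679940519984) (nat_lit 228) (nat_lit 1150870367173) (nat_lit 16) (nat_lit 5) (nat_lit 18) (nat_lit 5) (nat_lit 19) (nat_lit 5) (nat_lit 310) (nat_lit 303) (nat_lit 167)) (XT.lf (nat_lit 0) (nat_lit 1650813441477) (nat_lit 152) (nat_lit 624669474298) (nat_lit 228) (nat_lit 822476150487) (nat_lit 16)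 (nat_lit 5) (nat_lit 18) (nat_lit 5) (nat_lit 19) (nat_lit 5) (nat_lit 311) (nat_lit 303) (nat_lit 166))) (XT.nd (nat_lit 78) (nat_lit 76) (nat_lit 0) (XT.lf (nat_lit 0) (nat_lit 131381108012) (nat_lit 76) (nat_lit 2840403254117) (nat_lit 152) (nat_lit 410524072931) (nat_lit 15) (nat_lit 5) (nat_lit 16) (nat_lit 5) (nat_lit 17) (nat_lit 4) (nat_lit 312) (nat_lit 303) (nat_lit 165)) (XT.lf (nat_lit 0) (nat_lit 166587076713) (nat_lit 152) (nat_lit 1624603196064) (nat_lit 76) (nat_lit 1901378068324) (nat_lit 14) (nat_lit 5) (nat_lit 16) (nat_lit 5) (nat_lit 15) (nat_lit 5) (nat_lit 313) (nat_lit 303) (nat_lit 164)))) (XT.nd (nat_lit 156) (nat_lit 152) (nat_lit 0) (XT.nd (nat_lit 78) (nat_lit 0) (nat_lit 0) (XT.lf (nat_lit 0) (nat_lit 248218954947) (nat_lit 152) (nat_lit 550294314476) (nat_lit 228) (nat_lit 3246379916395) (nat_lit 12) (nat_lit 5) (nat_lit 14) (nat_lit 5) (nat_lit 15) (nat_lit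 5) (nat_lit 314) (nat_lit 303) (nat_lit 163)) (XT.lf (nat_lit 0) (nat_lit 1650498524873) (nat_lit 228) (nat_lit 1893128414632) (nat_lit 76) (nat_lit 887649297667) (nat_lit 12) (nat_lit 5) (nat_lit 15) (nat_lit 5) (nat_lit 13) (nat_lit 4) (nat_lit 315) (nat_lit 303) (nat_lit 162))) (XT.nd (nat_lit 78) (nat_lit 76) (nat_lit 0) (XT.lf (nat_lit 0) (nat_lit 296106202786) (nat_lit 76) (nat_lit 2372640982264) (nat_lit 152) (nat_lit 2201099718721) (nat_lit 11) (nat_lit 5) (nat_lit 12) (nat_lit 5) (nat_lit 13) (nat_lit 4) (nat_lit 316) (nat_lit 303) (nat_lit 161)) (XT.nd (nat_lit 78) (nat_lit 76) (nat_lit 0) (XT.lf (nat_lit 0) (nat_lit 3026487829449) (nat_lit 76) (nat_lit 912204299028) (nat_lit 152) (nat_lit 1420667194251) (nat_lit 11) (nat_lit 5) (nat_lit 12) (nat_lit 5) (nat_lit 13) (nat_lit 4) (nat_lit 317) (nat_lit 303) (nat_lit 160)) (XT.lf (nat_lit 0) (nat_lit 233108890056) (nat_lit 76)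 (nat_lit 5207444633647) (nat_lit 76) (nat_lit 475531374288) (nat_lit 10) (nat_lit 4) (nat_lit 11) (nat_lit 5) (nat_lit 11) (nat_lit 4) (nat_lit 318) (nat_lit 303) (nat_lit 159))))))))
noncomputable def xc117 : XT := (XT.nd (nat_lit 39780) (nat_lit 0) (nat_lit 228) (XT.nd (nat_lit 702) (nat_lit 152) (nat_lit 0) (XT.nd (nat_lit 312) (nat_lit 228) (nat_lit 0) (XT.nd (nat_lit 156) (nat_lit 76) (nat_lit 0) (XT.nd (nat_lit 78) (nat_lit 0) (nat_lit 0) (XT.lf (nat_lit 0) (nat_lit 728136790121) (nat_lit 152) (nat_lit 3166419161720) (nat_lit 76) (nat_lit 2632287380749) (nat_lit 9) (nat_lit 5) (nat_lit 11) (nat_lit 5) (nat_lit 10) (nat_lit 4) (nat_lit 319) (nat_lit 303) (nat_lit 158)) (XT.lf (nat_lit 0) (nat_lit 2063669823374) (nat_lit 152) (nat_lit 295023141200) (nat_lit 76) (nat_lit 4867125915257) (nat_lit 9) (nat_lit 5) (nat_lit 11) (nat_lit 5) (nat_lit 10) (nat_lit 4) (nat_lit 320) (nat_lit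 303) (nat_lit 157))) (XT.nd (nat_lit 78) (nat_lit 0) (nat_lit 0) (XT.lf (nat_lit 0) (nat_lit 3300956231318) (nat_lit 76) (nat_lit 435262137808) (nat_lit 152) (nat_lit 4272919556409) (nat_lit 8) (nat_lit 5) (nat_lit 9) (nat_lit 5) (nat_lit 10) (nat_lit 4) (nat_lit 321) (nat_lit 303) (nat_lit 156)) (XT.lf (nat_lit 0) (nat_lit 5749373892406) (nat_lit 152) (nat_lit 1512455524187) (nat_lit 0) (nat_lit 1634666707152) (nat_lit 8) (nat_lit 5) (nat_lit 10) (nat_lit 4) (nat_lit 8) (nat_lit 4) (nat_lit 322) (nat_lit 303) (nat_lit 155)))) (XT.nd (nat_lit 156) (nat_lit 76) (nat_lit 0) (XT.nd (nat_lit 78) (nat_lit 76) (nat_lit 0) (XT.lf (nat_lit 0) (nat_lit 2351225121010) (nat_lit 76) (nat_lit 5831363609286) (nat_lit 76) (nat_lit 1716656423474) (nat_lit 7) (nat_lit 4) (nat_lit 8) (nat_lit 5) (nat_lit 8) (nat_lit 4) (nat_lit 323) (nat_lit 303) (nat_lit 154)) (XT.lf (nat_lit 0) (nat_lit 17580374274)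 (nat_lit 152) (nat_lit 4076909381606) (nat_lit 76) (nat_lit 6945937890049) (nat_lit 6) (nat_lit 5) (nat_lit 8) (nat_lit 5) (nat_lit 7) (nat_lit 4) (nat_lit 324) (nat_lit 303) (nat_lit 153))) (XT.nd (nat_lit 78) (nat_lit 76) (nat_lit 0) (XT.lf (nat_lit 0) (nat_lit 1836199771616) (nat_lit 152) (nat_lit 166877677743) (nat_lit 76) (nat_lit 10337448231035) (nat_lit 6) (nat_lit 5) (nat_lit 8) (nat_lit 5) (nat_lit 7) (nat_lit 4) (nat_lit 325) (nat_lit 303) (nat_lit 152)) (XT.nd (nat_lit 78) (nat_lit 0) (nat_lit 0) (XT.lf (nat_lit 0) (nat_lit 4150434202355) (nat_lit 152) (nat_lit 9079352946390) (nat_lit 0) (nat_lit 572427952716) (nat_lit 5) (nat_lit 5) (nat_lit 7) (nat_lit 4) (nat_lit 5) (nat_lit 4) (nat_lit 326) (nat_lit 303) (nat_lit 151)) (XT.lf (nat_lit 0) (nat_lit 6916326977200) (nat_lit 152) (nat_lit 5212831754279) (nat_lit 0) (nat_lit 3338320727283) (nat_lit 5) (nat_lit 5) (nat_lit 7)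 (nat_lit 4) (nat_lit 5) (nat_lit 4) (nat_lit 327) (nat_lit 303) (nat_lit 150)))))) (XT.nd (nat_lit 312) (nat_lit 76) (nat_lit 0) (XT.nd (nat_lit 156) (nat_lit 0) (nat_lit 0) (XT.nd (nat_lit 78) (nat_lit 76) (nat_lit 0) (XT.lf (nat_lit 0) (nat_lit 10097103667884) (nat_lit 152) (nat_lit 766332384110) (nat_lit 0) (nat_lit 6519097417726) (nat_lit 5) (nat_lit 5) (nat_lit 7) (nat_lit 4) (nat_lit 5) (nat_lit 4) (nat_lit 328) (nat_lit 303) (nat_lit 149)) (XT.lf (nat_lit 0) (nat_lit 4771976212084) (nat_lit 76) (nat_lit 9180618008426) (nat_lit 76) (nat_lit 5602611758059) (nat_lit 4) (nat_lit 4) (nat_lit 5) (nat_lit 5) (nat_lit 5) (nat_lit 4) (nat_lit 329) (nat_lit 303) (nat_lit 148))) (XT.nd (nat_lit 78) (nat_lit 0) (nat_lit 0) (XT.lf (nat_lit 0) (nat_lit 11227156407065) (nat_lit 76) (nat_lit 7199310232361) (nat_lit 76) (nat_lit 3621303981810) (nat_lit 4) (nat_lit 4) (nat_lit 5) (nat_lit 5) (nat_lit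 5) (nat_lit 4) (nat_lit 330) (nat_lit 303) (nat_lit 147)) (XT.lf (nat_lit 0) (nat_lit 18650613630748) (nat_lit 76) (nat_lit 4920806290154) (nat_lit 76) (nat_lit 1342800039445) (nat_lit 4) (nat_lit 4) (nat_lit 5) (nat_lit 5) (nat_lit 5) (nat_lit 4) (nat_lit 331) (nat_lit 303) (nat_lit 146)))) (XT.nd (nat_lit 38532) (nat_lit 0) (nat_lit 1292) (XT.nd (nat_lit 38454) (nat_lit 0) (nat_lit 1292) (XT.lf (nat_lit 0) (nat_lit 1163749435524) (nat_lit 152) (nat_lit 1075944964468) (nat_lit 76) (nat_lit 25963007645125) (nat_lit 3) (nat_lit 5) (nat_lit 5) (nat_lit 5) (nat_lit 4) (nat_lit 4) (nat_lit 332) (nat_lit 303) (nat_lit 145)) (XT.lf (nat_lit 0) (nat_lit 133854100621) (nat_lit 380) (nat_lit 410241511272) (nat_lit 380) (nat_lit 410241511272) (nat_lit 20) (nat_lit 3) (nat_lit 25) (nat_lit 3) (nat_lit 25) (nat_lit 5) (nat_lit 304) (nat_lit 304) (nat_lit 172))) (XT.nd (nat_lit 78) (nat_lit 0) (nat_lit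 76) (XT.lf (nat_lit 76) (nat_lit 68064044457) (nat_lit 0) (nat_lit 222540675061) (nat_lit 380) (nat_lit 1760797334740) (nat_lit 21) (nat_lit 5) (nat_lit 20) (nat_lit 3) (nat_lit 25) (nat_lit 5) (nat_lit 305) (nat_lit 304) (nat_lit 171)) (XT.nd (nat_lit 78) (nat_lit 0) (nat_lit 0) (XT.lf (nat_lit 0) (nat_lit 393873445671) (nat_lit 304) (nat_lit 1061050275868) (nat_lit 380) (nat_lit 749074652328) (nat_lit 21) (nat_lit 5) (nat_lit 25) (nat_lit 5) (nat_lit 26) (nat_lit 5) (nat_lit 306) (nat_lit 304) (nat_lit 170)) (XT.lf (nat_lit 0) (nat_lit 523229653207) (nat_lit 304) (nat_lit 11016558880) (nat_lit 380) (nat_lit 1843648353471) (nat_lit 21) (nat_lit 5) (nat_lit 25) (nat_lit 5) (nat_lit 26) (nat_lit 5) (nat_lit 307) (nat_lit 304) (nat_lit 169))))))) (XT.nd (nat_lit 702) (nat_lit 456) (nat_lit 0) (XT.nd (nat_lit 312) (nat_lit 304) (nat_lit 0) (XT.nd (nat_lit 156) (nat_lit 456) (nat_lit 0)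 (XT.nd (nat_lit 78) (nat_lit 0) (nat_lit 0) (XT.lf (nat_lit 0) (nat_lit 750686327767) (nat_lit 304) (nat_lit 1280571678477) (nat_lit 76) (nat_lit 534812624384) (nat_lit 22) (nat_lit 5) (nat_lit 26) (nat_lit 5) (nat_lit 23) (nat_lit 5) (nat_lit 308) (nat_lit 304) (nat_lit 168)) (XT.lf (nat_lit 0) (nat_lit 1038305085094) (nat_lit 304) (nat_lit 30124544783) (nat_lit 76) (nat_lit 1710136938352) (nat_lit 22) (nat_lit 5) (nat_lit 26) (nat_lit 5) (nat_lit 23) (nat_lit 5) (nat_lit 309) (nat_lit 304) (nat_lit 167))) (XT.nd (nat_lit 78) (nat_lit 152) (nat_lit 0) (XT.lf (nat_lit 0) (nat_lit 1437716596690) (nat_lit 380) (nat_lit 1472513733324) (nat_lit 76) (nat_lit 102409075363) (nat_lit 18) (nat_lit 5) (nat_lit 23) (nat_lit 5) (nat_lit 19) (nat_lit 5) (nat_lit 310) (nat_lit 304) (nat_lit 166)) (XT.lf (nat_lit 0) (nat_lit 18397312492) (nat_lit 152) (nat_lit 1931931593317) (nat_lit 228) (nat_lit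 1323500901678) (nat_lit 16) (nat_lit 5) (nat_lit 18) (nat_lit 5) (nat_lit 19) (nat_lit 5) (nat_lit 311) (nat_lit 304) (nat_lit 165)))) (XT.nd (nat_lit 156) (nat_lit 228) (nat_lit 0) (XT.nd (nat_lit 78) (nat_lit 76) (nat_lit 0) (XT.lf (nat_lit 0) (nat_lit 1898435477258) (nat_lit 152) (nat_lit 718369891386) (nat_lit 228) (nat_lit 945847555172) (nat_lit 16) (nat_lit 5) (nat_lit 18) (nat_lit 5) (nat_lit 19) (nat_lit 5) (nat_lit 312) (nat_lit 304) (nat_lit 164)) (XT.lf (nat_lit 0) (nat_lit 151088295000) (nat_lit 76) (nat_lit 3266463735936) (nat_lit 152) (nat_lit 472102667158) (nat_lit 15) (nat_lit 5) (nat_lit 16) (nat_lit 5) (nat_lit 17) (nat_lit 4) (nat_lit 313) (nat_lit 304) (nat_lit 163))) (XT.nd (nat_lit 78) (nat_lit 152) (nat_lit 0) (XT.lf (nat_lit 0) (nat_lit 191575151458) (nat_lit 152) (nat_lit 1868293656067) (nat_lit 76) (nat_lit 2186584782717) (nat_lit 14) (nat_lit 5) (nat_lit 16)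 (nat_lit 5) (nat_lit 15) (nat_lit 5) (nat_lit 314) (nat_lit 304) (nat_lit 162)) (XT.nd (nat_lit 78) (nat_lit 0) (nat_lit 0) (XT.lf (nat_lit 0) (nat_lit 285451816715) (nat_lit 152) (nat_lit 632838455401) (nat_lit 228) (nat_lit 3733336889699) (nat_lit 12) (nat_lit 5) (nat_lit 14) (nat_lit 5) (nat_lit 15) (nat_lit 5) (nat_lit 315) (nat_lit 304) (nat_lit 161)) (XT.lf (nat_lit 0) (nat_lit 1898073314507) (nat_lit 228) (nat_lit 2177097659312) (nat_lit 76) (nat_lit 1020796697265) (nat_lit 12) (nat_lit 5) (nat_lit 15) (nat_lit 5) (nat_lit 13) (nat_lit 4) (nat_lit 316) (nat_lit 304) (nat_lit 160)))))) (XT.nd (nat_lit 390) (nat_lit 228) (nat_lit 0) (XT.nd (nat_lit 156) (nat_lit 152) (nat_lit 0) (XT.nd (nat_lit 78) (nat_lit 0) (nat_lit 0) (XT.lf (nat_lit 0) (nat_lit 340522149923) (nat_lit 76) (nat_lit 2728537123057) (nat_lit 152) (nat_lit 2531264664805) (nat_lit 11) (nat_lit 5) (nat_lit 12) (nat_lit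 5) (nat_lit 13) (nat_lit 4) (nat_lit 317) (nat_lit 304) (nat_lit 159)) (XT.lf (nat_lit 0) (nat_lit 3480461018405) (nat_lit 76) (nat_lit 1049034938190) (nat_lit 152) (nat_lit 1633767263194) (nat_lit 11) (nat_lit 5) (nat_lit 12) (nat_lit 5) (nat_lit 13) (nat_lit 4) (nat_lit 318) (nat_lit 304) (nat_lit 158))) (XT.nd (nat_lit 78) (nat_lit 76) (nat_lit 0) (XT.lf (nat_lit 0) (nat_lit 268075238504) (nat_lit 76) (nat_lit 5988561322269) (nat_lit 76) (nat_lit 546861070618) (nat_lit 10) (nat_lit 4) (nat_lit 11) (nat_lit 5) (nat_lit 11) (nat_lit 4) (nat_lit 319) (nat_lit 304) (nat_lit 157)) (XT.nd (nat_lit 78) (nat_lit 0) (nat_lit 0) (XT.lf (nat_lit 0) (nat_lit 837357316412) (nat_lit 152) (nat_lit 3641382022213) (nat_lit 76) (nat_lit 3027130492673) (nat_lit 9) (nat_lit 5) (nat_lit 11) (nat_lit 5) (nat_lit 10) (nat_lit 4) (nat_lit 320) (nat_lit 304) (nat_lit 156)) (XT.lf (nat_lit 0) (nat_lit 2373220303639)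 (nat_lit 152) (nat_lit 339276600410) (nat_lit 76) (nat_lit 5597194806730) (nat_lit 9) (nat_lit 5) (nat_lit 11) (nat_lit 5) (nat_lit 10) (nat_lit 4) (nat_lit 321) (nat_lit 304) (nat_lit 155))))) (XT.nd (nat_lit 156) (nat_lit 152) (nat_lit 0) (XT.nd (nat_lit 78) (nat_lit 0) (nat_lit 0) (XT.lf (nat_lit 0) (nat_lit 3796099677442) (nat_lit 76) (nat_lit 500551453404) (nat_lit 152) (nat_lit 4913857482556) (nat_lit 8) (nat_lit 5) (nat_lit 9) (nat_lit 5) (nat_lit 10) (nat_lit 4) (nat_lit 322) (nat_lit 304) (nat_lit 154)) (XT.lf (nat_lit 0) (nat_lit 6611779981972) (nat_lit 152) (nat_lit 1739323842224) (nat_lit 0) (nat_lit 1879866717245) (nat_lit 8) (nat_lit 5) (nat_lit 10) (nat_lit 4) (nat_lit 8) (nat_lit 4) (nat_lit 323) (nat_lit 304) (nat_lit 153))) (XT.nd (nat_lit 78) (nat_lit 76) (nat_lit 0) (XT.lf (nat_lit 0) (nat_lit 2703908899271) (nat_lit 76) (nat_lit 6706068145949) (nat_lit 76) (nat_lit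 1974154880801) (nat_lit 7) (nat_lit 4) (nat_lit 8) (nat_lit 5) (nat_lit 8) (nat_lit 4) (nat_lit 324) (nat_lit 304) (nat_lit 152)) (XT.nd (nat_lit 78) (nat_lit 0) (nat_lit 0) (XT.lf (nat_lit 0) (nat_lit 20217435323) (nat_lit 152) (nat_lit 4688445779570) (nat_lit 76) (nat_lit 7987828577184) (nat_lit 6) (nat_lit 5) (nat_lit 8) (nat_lit 5) (nat_lit 7) (nat_lit 4) (nat_lit 325) (nat_lit 304) (nat_lit 151)) (XT.lf (nat_lit 0) (nat_lit 2111629741625) (nat_lit 152) (nat_lit 191909321338) (nat_lit 76) (nat_lit 11888065468845) (nat_lit 6) (nat_lit 5) (nat_lit 8) (nat_lit 5) (nat_lit 7) (nat_lit 4) (nat_lit 326) (nat_lit 304) (nat_lit 150))))))))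
noncomputable def xc118 : XT := (XT.nd (nat_lit 39858) (nat_lit 0) (nat_lit 0) (XT.nd (nat_lit 39156) (nat_lit 0) (nat_lit 608) (XT.nd (nat_lit 312) (nat_lit 0) (nat_lit 0) (XT.nd (nat_lit 156) (nat_lit 76) (nat_lit 0) (XT.nd (nat_lit 78) (nat_lit 0) (nat_lit 0) (XT.lf (nat_lit 0) (nat_lit 4772999336890) (nat_lit 152) (nat_lit 10441255880191) (nat_lit 0) (nat_lit 658292148967) (nat_lit 5) (nat_lit 5) (nat_lit 7) (nat_lit 4) (nat_lit 5) (nat_lit 4) (nat_lit 327) (nat_lit 304) (nat_lit 149)) (XT.lf (nat_lit 0) (nat_lit 7953776027417) (nat_lit 152) (nat_lit 5994756510328) (nat_lit 0) (nat_lit 3839068839284) (nat_lit 5) (nat_lit 5) (nat_lit 7) (nat_lit 4) (nat_lit 5) (nat_lit 4) (nat_lit 328) (nat_lit 304) (nat_lit 148))) (XT.nd (nat_lit 78) (nat_lit 76) (nat_lit 0) (XT.lf (nat_lit 0) (nat_lit 11611669221228) (nat_lit 152) (nat_lit 881282235558) (nat_lit 0) (nat_lit 7496962032913) (nat_lit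 5) (nat_lit 5) (nat_lit 7) (nat_lit 4) (nat_lit 5) (nat_lit 4) (nat_lit 329) (nat_lit 304) (nat_lit 147)) (XT.lf (nat_lit 0) (nat_lit 5487772649784) (nat_lit 76) (nat_lit 10557710706796) (nat_lit 76) (nat_lit 6443003518322) (nat_lit 4) (nat_lit 4) (nat_lit 5) (nat_lit 5) (nat_lit 5) (nat_lit 4) (nat_lit 330) (nat_lit 304) (nat_lit 146)))) (XT.nd (nat_lit 38610) (nat_lit 0) (nat_lit 1216) (XT.nd (nat_lit 78) (nat_lit 0) (nat_lit 0) (XT.lf (nat_lit 0) (nat_lit 12911229873245) (nat_lit 76) (nat_lit 8279206764698) (nat_lit 76) (nat_lit 4164499576086) (nat_lit 4) (nat_lit 4) (nat_lit 5) (nat_lit 5) (nat_lit 5) (nat_lit 4) (nat_lit 331) (nat_lit 304) (nat_lit 145)) (XT.lf (nat_lit 0) (nat_lit 21448205679812) (nat_lit 76) (nat_lit 5658927231488) (nat_lit 76) (nat_lit 1544220042757) (nat_lit 4) (nat_lit 4) (nat_lit 5) (nat_lit 5) (nat_lit 5) (nat_lit 4) (nat_lit 332) (nat_lit 304) (nat_lit 144)))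 (XT.nd (nat_lit 78) (nat_lit 0) (nat_lit 0) (XT.lf (nat_lit 0) (nat_lit 153932231291) (nat_lit 380) (nat_lit 471777728973) (nat_lit 380) (nat_lit 471777728973) (nat_lit 20) (nat_lit 3) (nat_lit 25) (nat_lit 3) (nat_lit 25) (nat_lit 5) (nat_lit 305) (nat_lit 305) (nat_lit 170)) (XT.nd (nat_lit 78) (nat_lit 0) (nat_lit 76) (XT.lf (nat_lit 76) (nat_lit 78273668290) (nat_lit 0) (nat_lit 255921786957) (nat_lit 380) (nat_lit 2024916902863) (nat_lit 21) (nat_lit 5) (nat_lit 20) (nat_lit 3) (nat_lit 25) (nat_lit 5) (nat_lit 306) (nat_lit 305) (nat_lit 169)) (XT.lf (nat_lit 0) (nat_lit 452954486312) (nat_lit 304) (nat_lit 1220207798211) (nat_lit 380) (nat_lit 861435841752) (nat_lit 21) (nat_lit 5) (nat_lit 25) (nat_lit 5) (nat_lit 26) (nat_lit 5) (nat_lit 307) (nat_lit 305) (nat_lit 168)))))) (XT.nd (nat_lit 312) (nat_lit 456) (nat_lit 0) (XT.nd (nat_lit 156) (nat_lit 228) (nat_lit 0) (XT.nd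 (nat_lit 78) (nat_lit 0) (nat_lit 76) (XT.lf (nat_lit 0) (nat_lit 601714121875) (nat_lit 304) (nat_lit 12669026158) (nat_lit 380) (nat_lit 2120195599165) (nat_lit 21) (nat_lit 5) (nat_lit 25) (nat_lit 5) (nat_lit 26) (nat_lit 5) (nat_lit 308) (nat_lit 305) (nat_lit 167)) (XT.lf (nat_lit 0) (nat_lit 863289295458) (nat_lit 304) (nat_lit 1472657411455) (nat_lit 76) (nat_lit 615034515453) (nat_lit 22) (nat_lit 5) (nat_lit 26) (nat_lit 5) (nat_lit 23) (nat_lit 5) (nat_lit 309) (nat_lit 305) (nat_lit 166))) (XT.nd (nat_lit 78) (nat_lit 304) (nat_lit 0) (XT.lf (nat_lit 0) (nat_lit 1194050863968) (nat_lit 304) (nat_lit 34643210157) (nat_lit 76) (nat_lit 1966657476854) (nat_lit 22) (nat_lit 5) (nat_lit 26) (nat_lit 5) (nat_lit 23) (nat_lit 5) (nat_lit 310) (nat_lit 305) (nat_lit 165)) (XT.lf (nat_lit 0) (nat_lit 1653374100887) (nat_lit 380) (nat_lit 1693390775505) (nat_lit 76) (nat_lit 117770437529)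 (nat_lit 18) (nat_lit 5) (nat_lit 23) (nat_lit 5) (nat_lit 19) (nat_lit 5) (nat_lit 311) (nat_lit 305) (nat_lit 164)))) (XT.nd (nat_lit 156) (nat_lit 304) (nat_lit 0) (XT.nd (nat_lit 78) (nat_lit 0) (nat_lit 0) (XT.lf (nat_lit 0) (nat_lit 21156926374) (nat_lit 152) (nat_lit 2221721328788) (nat_lit 228) (nat_lit 1522026021375) (nat_lit 16) (nat_lit 5) (nat_lit 18) (nat_lit 5) (nat_lit 19) (nat_lit 5) (nat_lit 312) (nat_lit 305) (nat_lit 163)) (XT.lf (nat_lit 0) (nat_lit 2183200813636) (nat_lit 152) (nat_lit 826125372027) (nat_lit 228) (nat_lit 1087724674922) (nat_lit 16) (nat_lit 5) (nat_lit 18) (nat_lit 5) (nat_lit 19) (nat_lit 5) (nat_lit 313) (nat_lit 305) (nat_lit 162))) (XT.nd (nat_lit 78) (nat_lit 228) (nat_lit 0) (XT.lf (nat_lit 0) (nat_lit 173751554967) (nat_lit 76) (nat_lit 3756433291564) (nat_lit 152) (nat_lit 542918054595) (nat_lit 15) (nat_lit 5) (nat_lit 16) (nat_lit 5) (nat_lit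 17) (nat_lit 4) (nat_lit 314) (nat_lit 305) (nat_lit 161)) (XT.nd (nat_lit 78) (nat_lit 152) (nat_lit 0) (XT.lf (nat_lit 0) (nat_lit 220311434187) (nat_lit 152) (nat_lit 2148537689802) (nat_lit 76) (nat_lit 2514572503258) (nat_lit 14) (nat_lit 5) (nat_lit 16) (nat_lit 5) (nat_lit 15) (nat_lit 5) (nat_lit 315) (nat_lit 305) (nat_lit 160)) (XT.lf (nat_lit 0) (nat_lit 328269603230) (nat_lit 152) (nat_lit 727764218988) (nat_lit 228) (nat_lit 4293337412451) (nat_lit 12) (nat_lit 5) (nat_lit 14) (nat_lit 5) (nat_lit 15) (nat_lit 5) (nat_lit 316) (nat_lit 305) (nat_lit 159))))))) (XT.nd (nat_lit 702) (nat_lit 228) (nat_lit 0) (XT.nd (nat_lit 312) (nat_lit 228) (nat_lit 0) (XT.nd (nat_lit 156) (nat_lit 76) (nat_lit 0) (XT.nd (nat_lit 78) (nat_lit 76) (nat_lit 0) (XT.lf (nat_lit 0) (nat_lit 2182784319926) (nat_lit 228) (nat_lit 2503662294964) (nat_lit 76) (nat_lit 1173916205597) (nat_lit 12)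 (nat_lit 5) (nat_lit 15) (nat_lit 5) (nat_lit 13) (nat_lit 4) (nat_lit 317) (nat_lit 305) (nat_lit 158)) (XT.lf (nat_lit 0) (nat_lit 391600485054) (nat_lit 76) (nat_lit 3137817686566) (nat_lit 152) (nat_lit 2910954355661) (nat_lit 11) (nat_lit 5) (nat_lit 12) (nat_lit 5) (nat_lit 13) (nat_lit 4) (nat_lit 318) (nat_lit 305) (nat_lit 157))) (XT.nd (nat_lit 78) (nat_lit 76) (nat_lit 0) (XT.lf (nat_lit 0) (nat_lit 4002530182159) (nat_lit 76) (nat_lit 1206390174614) (nat_lit 152) (nat_lit 1878832344964) (nat_lit 11) (nat_lit 5) (nat_lit 12) (nat_lit 5) (nat_lit 13) (nat_lit 4) (nat_lit 319) (nat_lit 305) (nat_lit 156)) (XT.lf (nat_lit 0) (nat_lit 308286535577) (nat_lit 76) (nat_lit 6886845515752) (nat_lit 76) (nat_lit 628890223792) (nat_lit 10) (nat_lit 4) (nat_lit 11) (nat_lit 5) (nat_lit 11) (nat_lit 4) (nat_lit 320) (nat_lit 305) (nat_lit 155)))) (XT.nd (nat_lit 156) (nat_lit 152) (nat_lit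 0) (XT.nd (nat_lit 78) (nat_lit 0) (nat_lit 0) (XT.lf (nat_lit 0) (nat_lit 962960919751) (nat_lit 152) (nat_lit 4187589315136) (nat_lit 76) (nat_lit 3481200070213) (nat_lit 9) (nat_lit 5) (nat_lit 11) (nat_lit 5) (nat_lit 10) (nat_lit 4) (nat_lit 321) (nat_lit 305) (nat_lit 154)) (XT.lf (nat_lit 0) (nat_lit 2729203354296) (nat_lit 152) (nat_lit 390168081421) (nat_lit 76) (nat_lit 6436774030904) (nat_lit 9) (nat_lit 5) (nat_lit 11) (nat_lit 5) (nat_lit 10) (nat_lit 4) (nat_lit 322) (nat_lit 305) (nat_lit 153))) (XT.nd (nat_lit 78) (nat_lit 76) (nat_lit 0) (XT.lf (nat_lit 0) (nat_lit 4365514637698) (nat_lit 76) (nat_lit 575634167576) (nat_lit 152) (nat_lit 5650936099409) (nat_lit 8) (nat_lit 5) (nat_lit 9) (nat_lit 5) (nat_lit 10) (nat_lit 4) (nat_lit 323) (nat_lit 305) (nat_lit 152)) (XT.nd (nat_lit 78) (nat_lit 76) (nat_lit 0) (XT.lf (nat_lit 0) (nat_lit 7603546983582) (nat_lit 152)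 (nat_lit 2000222410550) (nat_lit 0) (nat_lit 2161846727873) (nat_lit 8) (nat_lit 5) (nat_lit 10) (nat_lit 4) (nat_lit 8) (nat_lit 4) (nat_lit 324) (nat_lit 305) (nat_lit 151)) (XT.lf (nat_lit 0) (nat_lit 3109495241806) (nat_lit 76) (nat_lit 7711978364265) (nat_lit 76) (nat_lit 2270278108237) (nat_lit 7) (nat_lit 4) (nat_lit 8) (nat_lit 5) (nat_lit 8) (nat_lit 4) (nat_lit 325) (nat_lit 305) (nat_lit 150)))))) (XT.nd (nat_lit 390) (nat_lit 76) (nat_lit 0) (XT.nd (nat_lit 156) (nat_lit 76) (nat_lit 0) (XT.nd (nat_lit 78) (nat_lit 0) (nat_lit 0) (XT.lf (nat_lit 0) (nat_lit 23250054332) (nat_lit 152) (nat_lit 5391712639491) (nat_lit 76) (nat_lit 9186002866504) (nat_lit 6) (nat_lit 5) (nat_lit 8) (nat_lit 5) (nat_lit 7) (nat_lit 4) (nat_lit 326) (nat_lit 305) (nat_lit 149)) (XT.lf (nat_lit 0) (nat_lit 2428374206096) (nat_lit 152) (nat_lit 220695713439) (nat_lit 76) (nat_lit 13671275291557)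 (nat_lit 6) (nat_lit 5) (nat_lit 8) (nat_lit 5) (nat_lit 7) (nat_lit 4) (nat_lit 327) (nat_lit 305) (nat_lit 148))) (XT.nd (nat_lit 78) (nat_lit 0) (nat_lit 0) (XT.lf (nat_lit 0) (nat_lit 5488949240585) (nat_lit 152) (nat_lit 12007444256051) (nat_lit 0) (nat_lit 757035973841) (nat_lit 5) (nat_lit 5) (nat_lit 7) (nat_lit 4) (nat_lit 5) (nat_lit 4) (nat_lit 328) (nat_lit 305) (nat_lit 147)) (XT.nd (nat_lit 78) (nat_lit 0) (nat_lit 0) (XT.lf (nat_lit 0) (nat_lit 9146842434278) (nat_lit 152) (nat_lit 6893969981514) (nat_lit 0) (nat_lit 4414929167375) (nat_lit 5) (nat_lit 5) (nat_lit 7) (nat_lit 4) (nat_lit 5) (nat_lit 4) (nat_lit 329) (nat_lit 305) (nat_lit 146)) (XT.lf (nat_lit 0) (nat_lit 13353419606803) (nat_lit 152) (nat_lit 1013474566228) (nat_lit 0) (nat_lit 8621506339762) (nat_lit 5) (nat_lit 5) (nat_lit 7) (nat_lit 4) (nat_lit 5) (nat_lit 4) (nat_lit 330) (nat_lit 305) (nat_lit 145)))))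 (XT.nd (nat_lit 156) (nat_lit 0) (nat_lit 0) (XT.nd (nat_lit 78) (nat_lit 0) (nat_lit 0) (XT.lf (nat_lit 0) (nat_lit 6310938551703) (nat_lit 76) (nat_lit 12141367310627) (nat_lit 76) (nat_lit 7409454043466) (nat_lit 4) (nat_lit 4) (nat_lit 5) (nat_lit 5) (nat_lit 5) (nat_lit 4) (nat_lit 331) (nat_lit 305) (nat_lit 144)) (XT.lf (nat_lit 0) (nat_lit 14847914358103) (nat_lit 76) (nat_lit 9521087777499) (nat_lit 76) (nat_lit 4789174510234) (nat_lit 4) (nat_lit 4) (nat_lit 5) (nat_lit 5) (nat_lit 5) (nat_lit 4) (nat_lit 332) (nat_lit 305) (nat_lit 143))) (XT.nd (nat_lit 38532) (nat_lit 0) (nat_lit 1216) (XT.lf (nat_lit 0) (nat_lit 24665436535150) (nat_lit 76) (nat_lit 6507766314556) (nat_lit 76) (nat_lit 1775853047200) (nat_lit 4) (nat_lit 4) (nat_lit 5) (nat_lit 5) (nat_lit 5) (nat_lit 4) (nat_lit 333) (nat_lit 305) (nat_lit 142)) (XT.nd (nat_lit 78) (nat_lit 0) (nat_lit 0) (XT.lf (nat_lit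 0) (nat_lit 177022077762) (nat_lit 380) (nat_lit 542544381520) (nat_lit 380) (nat_lit 542544381520) (nat_lit 20) (nat_lit 3) (nat_lit 25) (nat_lit 3) (nat_lit 25) (nat_lit 5) (nat_lit 306) (nat_lit 306) (nat_lit 168)) (XT.lf (nat_lit 76) (nat_lit 90014731512) (nat_lit 0) (nat_lit 294310063043) (nat_lit 380) (nat_lit 2328654414028) (nat_lit 21) (nat_lit 5) (nat_lit 20) (nat_lit 3) (nat_lit 25) (nat_lit 5) (nat_lit 307) (nat_lit 306) (nat_lit 167))))))))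
noncomputable def xc119 : XT := (XT.nd (nat_lit 1404) (nat_lit 304) (nat_lit 0) (XT.nd (nat_lit 702) (nat_lit 456) (nat_lit 0) (XT.nd (nat_lit 312) (nat_lit 532) (nat_lit 0) (XT.nd (nat_lit 156) (nat_lit 0) (nat_lit 76) (XT.nd (nat_lit 78) (nat_lit 0) (nat_lit 0) (XT.lf (nat_lit 0) (nat_lit 520897677248) (nat_lit 304) (nat_lit 1403238953548) (nat_lit 380) (nat_lit 990651211644) (nat_lit 21) (nat_lit 5) (nat_lit 25) (nat_lit 5) (nat_lit 26) (nat_lit 5) (nat_lit 308) (nat_lit 306) (nat_lit 166)) (XT.lf (nat_lit 0) (nat_lit 691971255799) (nat_lit 304) (nat_lit 14569367564) (nat_lit 380) (nat_lit 2438224933500) (nat_lit 21) (nat_lit 5) (nat_lit 25) (nat_lit 5) (nat_lit 26) (nat_lit 5) (nat_lit 309) (nat_lit 306) (nat_lit 165))) (XT.nd (nat_lit 78) (nat_lit 0) (nat_lit 0) (XT.lf (nat_lit 0) (nat_lit 992782703785) (nat_lit 304) (nat_lit 1693556008962) (nat_lit 76) (nat_lit 707289690813) (nat_lit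 22) (nat_lit 5) (nat_lit 26) (nat_lit 5) (nat_lit 23) (nat_lit 5) (nat_lit 310) (nat_lit 306) (nat_lit 164)) (XT.lf (nat_lit 0) (nat_lit 1373158505744) (nat_lit 304) (nat_lit 39839679324) (nat_lit 76) (nat_lit 2261656096680) (nat_lit 22) (nat_lit 5) (nat_lit 26) (nat_lit 5) (nat_lit 23) (nat_lit 5) (nat_lit 311) (nat_lit 306) (nat_lit 163)))) (XT.nd (nat_lit 156) (nat_lit 152) (nat_lit 0) (XT.nd (nat_lit 78) (nat_lit 152) (nat_lit 0) (XT.lf (nat_lit 0) (nat_lit 1901380227131) (nat_lit 380) (nat_lit 1947399378357) (nat_lit 76) (nat_lit 135436003810) (nat_lit 18) (nat_lit 5) (nat_lit 23) (nat_lit 5) (nat_lit 19) (nat_lit 5) (nat_lit 312) (nat_lit 306) (nat_lit 162)) (XT.lf (nat_lit 0) (nat_lit 24330478191) (nat_lit 152) (nat_lit 2554979525439) (nat_lit 228) (nat_lit 1750329912819) (nat_lit 16) (nat_lit 5) (nat_lit 18) (nat_lit 5) (nat_lit 19) (nat_lit 5) (nat_lit 313) (nat_lit 306) (nat_lit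 161))) (XT.nd (nat_lit 78) (nat_lit 152) (nat_lit 0) (XT.lf (nat_lit 0) (nat_lit 2510680946865) (nat_lit 152) (nat_lit 950044175512) (nat_lit 228) (nat_lit 1250883365933) (nat_lit 16) (nat_lit 5) (nat_lit 18) (nat_lit 5) (nat_lit 19) (nat_lit 5) (nat_lit 314) (nat_lit 306) (nat_lit 160)) (XT.nd (nat_lit 78) (nat_lit 76) (nat_lit 0) (XT.lf (nat_lit 0) (nat_lit 199814300097) (nat_lit 76) (nat_lit 4319898281698) (nat_lit 152) (nat_lit 624355753229) (nat_lit 15) (nat_lit 5) (nat_lit 16) (nat_lit 5) (nat_lit 17) (nat_lit 4) (nat_lit 315) (nat_lit 306) (nat_lit 159)) (XT.lf (nat_lit 0) (nat_lit 253358156885) (nat_lit 152) (nat_lit 2470818332176) (nat_lit 76) (nat_lit 2891758381116) (nat_lit 14) (nat_lit 5) (nat_lit 16) (nat_lit 5) (nat_lit 15) (nat_lit 5) (nat_lit 316) (nat_lit 306) (nat_lit 158)))))) (XT.nd (nat_lit 312) (nat_lit 228) (nat_lit 0) (XT.nd (nat_lit 156) (nat_lit 76) (nat_lit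 0) (XT.nd (nat_lit 78) (nat_lit 0) (nat_lit 0) (XT.lf (nat_lit 0) (nat_lit 377510054307) (nat_lit 152) (nat_lit 836928848265) (nat_lit 228) (nat_lit 4937338016226) (nat_lit 12) (nat_lit 5) (nat_lit 14) (nat_lit 5) (nat_lit 15) (nat_lit 5) (nat_lit 317) (nat_lit 306) (nat_lit 157)) (XT.lf (nat_lit 0) (nat_lit 2510201974149) (nat_lit 228) (nat_lit 2879211629195) (nat_lit 76) (nat_lit 1350003639265) (nat_lit 12) (nat_lit 5) (nat_lit 15) (nat_lit 5) (nat_lit 13) (nat_lit 4) (nat_lit 318) (nat_lit 306) (nat_lit 156))) (XT.nd (nat_lit 78) (nat_lit 0) (nat_lit 0) (XT.lf (nat_lit 0) (nat_lit 450340567371) (nat_lit 76) (nat_lit 3608490335808) (nat_lit 152) (nat_lit 3347597502307) (nat_lit 11) (nat_lit 5) (nat_lit 12) (nat_lit 5) (nat_lit 13) (nat_lit 4) (nat_lit 319) (nat_lit 306) (nat_lit 155)) (XT.lf (nat_lit 0) (nat_lit 4602909717795) (nat_lit 76) (nat_lit 1387348697552) (nat_lit 152) (nat_lit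 2160657190880) (nat_lit 11) (nat_lit 5) (nat_lit 12) (nat_lit 5) (nat_lit 13) (nat_lit 4) (nat_lit 320) (nat_lit 306) (nat_lit 154)))) (XT.nd (nat_lit 156) (nat_lit 76) (nat_lit 0) (XT.nd (nat_lit 78) (nat_lit 76) (nat_lit 0) (XT.lf (nat_lit 0) (nat_lit 354529524456) (nat_lit 76) (nat_lit 7919872339441) (nat_lit 76) (nat_lit 723223751751) (nat_lit 10) (nat_lit 4) (nat_lit 11) (nat_lit 5) (nat_lit 11) (nat_lit 4) (nat_lit 321) (nat_lit 306) (nat_lit 153)) (XT.lf (nat_lit 0) (nat_lit 1107405062157) (nat_lit 152) (nat_lit 4815727704535) (nat_lit 76) (nat_lit 4003380083497) (nat_lit 9) (nat_lit 5) (nat_lit 11) (nat_lit 5) (nat_lit 10) (nat_lit 4) (nat_lit 322) (nat_lit 306) (nat_lit 152))) (XT.nd (nat_lit 78) (nat_lit 76) (nat_lit 0) (XT.lf (nat_lit 0) (nat_lit 3138583861305) (nat_lit 152) (nat_lit 448693286790) (nat_lit 76) (nat_lit 7402290137933) (nat_lit 9) (nat_lit 5) (nat_lit 11) (nat_lit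 5) (nat_lit 10) (nat_lit 4) (nat_lit 323) (nat_lit 306) (nat_lit 151)) (XT.nd (nat_lit 78) (nat_lit 0) (nat_lit 0) (XT.lf (nat_lit 0) (nat_lit 5020341839886) (nat_lit 76) (nat_lit 661979289811) (nat_lit 152) (nat_lit 6498576510139) (nat_lit 8) (nat_lit 5) (nat_lit 9) (nat_lit 5) (nat_lit 10) (nat_lit 4) (nat_lit 324) (nat_lit 306) (nat_lit 150)) (XT.lf (nat_lit 0) (nat_lit 8744079034381) (nat_lit 152) (nat_lit 2300255766077) (nat_lit 0) (nat_lit 2486123739352) (nat_lit 8) (nat_lit 5) (nat_lit 10) (nat_lit 4) (nat_lit 8) (nat_lit 4) (nat_lit 325) (nat_lit 306) (nat_lit 149))))))) (XT.nd (nat_lit 39234) (nat_lit 0) (nat_lit 760) (XT.nd (nat_lit 312) (nat_lit 76) (nat_lit 0) (XT.nd (nat_lit 156) (nat_lit 76) (nat_lit 0) (XT.nd (nat_lit 78) (nat_lit 76) (nat_lit 0) (XT.lf (nat_lit 0) (nat_lit 3575919533857) (nat_lit 76) (nat_lit 8868775116200) (nat_lit 76) (nat_lit 2610819820931) (nat_lit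 7) (nat_lit 4) (nat_lit 8) (nat_lit 5) (nat_lit 8) (nat_lit 4) (nat_lit 326) (nat_lit 306) (nat_lit 148)) (XT.lf (nat_lit 0) (nat_lit 26737565287) (nat_lit 152) (nat_lit 6200469530111) (nat_lit 76) (nat_lit 10563903298554) (nat_lit 6) (nat_lit 5) (nat_lit 8) (nat_lit 5) (nat_lit 7) (nat_lit 4) (nat_lit 327) (nat_lit 306) (nat_lit 147))) (XT.nd (nat_lit 78) (nat_lit 76) (nat_lit 0) (XT.lf (nat_lit 0) (nat_lit 2792630339450) (nat_lit 152) (nat_lit 253800065843) (nat_lit 76) (nat_lit 15721966587094) (nat_lit 6) (nat_lit 5) (nat_lit 8) (nat_lit 5) (nat_lit 7) (nat_lit 4) (nat_lit 328) (nat_lit 306) (nat_lit 146)) (XT.lf (nat_lit 0) (nat_lit 6312291629064) (nat_lit 152) (nat_lit 13808560889795) (nat_lit 0) (nat_lit 870591371829) (nat_lit 5) (nat_lit 5) (nat_lit 7) (nat_lit 4) (nat_lit 5) (nat_lit 4) (nat_lit 329) (nat_lit 306) (nat_lit 145)))) (XT.nd (nat_lit 156) (nat_lit 76) (nat_lit 0)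 (XT.nd (nat_lit 78) (nat_lit 0) (nat_lit 0) (XT.lf (nat_lit 0) (nat_lit 10518868801499) (nat_lit 152) (nat_lit 7928065474685) (nat_lit 0) (nat_lit 5077168544144) (nat_lit 5) (nat_lit 5) (nat_lit 7) (nat_lit 4) (nat_lit 5) (nat_lit 4) (nat_lit 330) (nat_lit 306) (nat_lit 144)) (XT.lf (nat_lit 0) (nat_lit 15356432549631) (nat_lit 152) (nat_lit 1165495747636) (nat_lit 0) (nat_lit 9914732292172) (nat_lit 5) (nat_lit 5) (nat_lit 7) (nat_lit 4) (nat_lit 5) (nat_lit 4) (nat_lit 331) (nat_lit 306) (nat_lit 143))) (XT.nd (nat_lit 78) (nat_lit 0) (nat_lit 0) (XT.lf (nat_lit 0) (nat_lit 7257579337825) (nat_lit 76) (nat_lit 13962572405566) (nat_lit 76) (nat_lit 8520872148016) (nat_lit 4) (nat_lit 4) (nat_lit 5) (nat_lit 5) (nat_lit 5) (nat_lit 4) (nat_lit 332) (nat_lit 306) (nat_lit 142)) (XT.nd (nat_lit 38610) (nat_lit 0) (nat_lit 1216) (XT.lf (nat_lit 0) (nat_lit 17075101514746) (nat_lit 76) (nat_lit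 10949250942685) (nat_lit 76) (nat_lit 5507550685056) (nat_lit 4) (nat_lit 4) (nat_lit 5) (nat_lit 5) (nat_lit 5) (nat_lit 4) (nat_lit 333) (nat_lit 306) (nat_lit 141)) (XT.lf (nat_lit 0) (nat_lit 203575398332) (nat_lit 380) (nat_lit 623926033608) (nat_lit 380) (nat_lit 623926033608) (nat_lit 20) (nat_lit 3) (nat_lit 25) (nat_lit 3) (nat_lit 25) (nat_lit 5) (nat_lit 307) (nat_lit 307) (nat_lit 166)))))) (XT.nd (nat_lit 390) (nat_lit 456) (nat_lit 0) (XT.nd (nat_lit 156) (nat_lit 0) (nat_lit 76) (XT.nd (nat_lit 78) (nat_lit 0) (nat_lit 76) (XT.lf (nat_lit 76) (nat_lit 103516951052) (nat_lit 0) (nat_lit 338456578580) (nat_lit 380) (nat_lit 2677952557786) (nat_lit 21) (nat_lit 5) (nat_lit 20) (nat_lit 3) (nat_lit 25) (nat_lit 5) (nat_lit 308) (nat_lit 307) (nat_lit 165)) (XT.lf (nat_lit 0) (nat_lit 599032342438) (nat_lit 304) (nat_lit 1613724785695) (nat_lit 380) (nat_lit 1139248888574)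 (nat_lit 21) (nat_lit 5) (nat_lit 25) (nat_lit 5) (nat_lit 26) (nat_lit 5) (nat_lit 309) (nat_lit 307) (nat_lit 164))) (XT.nd (nat_lit 78) (nat_lit 0) (nat_lit 76) (XT.lf (nat_lit 0) (nat_lit 795766955998) (nat_lit 304) (nat_lit 16754763234) (nat_lit 380) (nat_lit 2803958669336) (nat_lit 21) (nat_lit 5) (nat_lit 25) (nat_lit 5) (nat_lit 26) (nat_lit 5) (nat_lit 310) (nat_lit 307) (nat_lit 163)) (XT.nd (nat_lit 78) (nat_lit 0) (nat_lit 0) (XT.lf (nat_lit 0) (nat_lit 1141700119944) (nat_lit 304) (nat_lit 1947589399560) (nat_lit 76) (nat_lit 813383142955) (nat_lit 22) (nat_lit 5) (nat_lit 26) (nat_lit 5) (nat_lit 23) (nat_lit 5) (nat_lit 311) (nat_lit 307) (nat_lit 162)) (XT.lf (nat_lit 0) (nat_lit 1579132290816) (nat_lit 304) (nat_lit 45815621878) (nat_lit 76) (nat_lit 2600904509895) (nat_lit 22) (nat_lit 5) (nat_lit 26) (nat_lit 5) (nat_lit 23) (nat_lit 5) (nat_lit 312) (nat_lit 307)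 (nat_lit 161))))) (XT.nd (nat_lit 156) (nat_lit 152) (nat_lit 0) (XT.nd (nat_lit 78) (nat_lit 152) (nat_lit 0) (XT.lf (nat_lit 0) (nat_lit 2186587269601) (nat_lit 380) (nat_lit 2239509274924) (nat_lit 76) (nat_lit 155751404874) (nat_lit 18) (nat_lit 5) (nat_lit 23) (nat_lit 5) (nat_lit 19) (nat_lit 5) (nat_lit 313) (nat_lit 307) (nat_lit 160)) (XT.lf (nat_lit 0) (nat_lit 27980059644) (nat_lit 152) (nat_lit 2938226452239) (nat_lit 228) (nat_lit 2012879390849) (nat_lit 16) (nat_lit 5) (nat_lit 18) (nat_lit 5) (nat_lit 19) (nat_lit 5) (nat_lit 314) (nat_lit 307) (nat_lit 159))) (XT.nd (nat_lit 78) (nat_lit 152) (nat_lit 0) (XT.lf (nat_lit 0) (nat_lit 2887283097351) (nat_lit 152) (nat_lit 1092550800086) (nat_lit 228) (nat_lit 1438515863089) (nat_lit 16) (nat_lit 5) (nat_lit 18) (nat_lit 5) (nat_lit 19) (nat_lit 5) (nat_lit 315) (nat_lit 307) (nat_lit 158)) (XT.nd (nat_lit 78) (nat_lit 76)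 (nat_lit 0) (XT.lf (nat_lit 0) (nat_lit 229786454098) (nat_lit 76) (nat_lit 4967883021230) (nat_lit 152) (nat_lit 718009108988) (nat_lit 15) (nat_lit 5) (nat_lit 16) (nat_lit 5) (nat_lit 17) (nat_lit 4) (nat_lit 316) (nat_lit 307) (nat_lit 157)) (XT.lf (nat_lit 0) (nat_lit 291361886141) (nat_lit 152) (nat_lit 2841441073611) (nat_lit 76) (nat_lit 3325522140075) (nat_lit 14) (nat_lit 5) (nat_lit 16) (nat_lit 5) (nat_lit 15) (nat_lit 5) (nat_lit 317) (nat_lit 307) (nat_lit 156))))))))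
noncomputable def xc120 : XT := (XT.nd (nat_lit 40014) (nat_lit 0) (nat_lit 304) (XT.nd (nat_lit 702) (nat_lit 304) (nat_lit 0) (XT.nd (nat_lit 312) (nat_lit 228) (nat_lit 0) (XT.nd (nat_lit 156) (nat_lit 76) (nat_lit 0) (XT.nd (nat_lit 78) (nat_lit 0) (nat_lit 0) (XT.lf (nat_lit 0) (nat_lit 434136570462) (nat_lit 152) (nat_lit 962468172804) (nat_lit 228) (nat_lit 5677938712541) (nat_lit 12) (nat_lit 5) (nat_lit 14) (nat_lit 5) (nat_lit 15) (nat_lit 5) (nat_lit 318) (nat_lit 307) (nat_lit 155)) (XT.lf (nat_lit 0) (nat_lit 2886732274985) (nat_lit 228) (nat_lit 3311093366002) (nat_lit 76) (nat_lit 1552504187294) (nat_lit 12) (nat_lit 5) (nat_lit 15) (nat_lit 5) (nat_lit 13) (nat_lit 4) (nat_lit 319) (nat_lit 307) (nat_lit 154))) (XT.nd (nat_lit 78) (nat_lit 0) (nat_lit 0) (XT.lf (nat_lit 0) (nat_lit 517891659705) (nat_lit 76) (nat_lit 4149763883349) (nat_lit 152) (nat_lit 3849737122584)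 (nat_lit 11) (nat_lit 5) (nat_lit 12) (nat_lit 5) (nat_lit 13) (nat_lit 4) (nat_lit 320) (nat_lit 307) (nat_lit 153)) (XT.lf (nat_lit 0) (nat_lit 5293346181750) (nat_lit 76) (nat_lit 1595450999723) (nat_lit 152) (nat_lit 2484755765104) (nat_lit 11) (nat_lit 5) (nat_lit 12) (nat_lit 5) (nat_lit 13) (nat_lit 4) (nat_lit 321) (nat_lit 307) (nat_lit 152)))) (XT.nd (nat_lit 156) (nat_lit 76) (nat_lit 0) (XT.nd (nat_lit 78) (nat_lit 76) (nat_lit 0) (XT.lf (nat_lit 0) (nat_lit 407708959583) (nat_lit 76) (nat_lit 9107853187580) (nat_lit 76) (nat_lit 831707310271) (nat_lit 10) (nat_lit 4) (nat_lit 11) (nat_lit 5) (nat_lit 11) (nat_lit 4) (nat_lit 322) (nat_lit 307) (nat_lit 151)) (XT.lf (nat_lit 0) (nat_lit 1273515824842) (nat_lit 152) (nat_lit 5538086854265) (nat_lit 76) (nat_lit 4603887098102) (nat_lit 9) (nat_lit 5) (nat_lit 11) (nat_lit 5) (nat_lit 10) (nat_lit 4) (nat_lit 323) (nat_lit 307)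 (nat_lit 150))) (XT.nd (nat_lit 78) (nat_lit 76) (nat_lit 0) (XT.lf (nat_lit 0) (nat_lit 3609371443423) (nat_lit 152) (nat_lit 515997274633) (nat_lit 76) (nat_lit 8512633660432) (nat_lit 9) (nat_lit 5) (nat_lit 11) (nat_lit 5) (nat_lit 10) (nat_lit 4) (nat_lit 324) (nat_lit 307) (nat_lit 149)) (XT.nd (nat_lit 78) (nat_lit 0) (nat_lit 0) (XT.lf (nat_lit 0) (nat_lit 5773393120809) (nat_lit 76) (nat_lit 761276181088) (nat_lit 152) (nat_lit 7473362983497) (nat_lit 8) (nat_lit 5) (nat_lit 9) (nat_lit 5) (nat_lit 10) (nat_lit 4) (nat_lit 325) (nat_lit 307) (nat_lit 148)) (XT.lf (nat_lit 0) (nat_lit 10055690892005) (nat_lit 152) (nat_lit 2645294126410) (nat_lit 0) (nat_lit 2859042301994) (nat_lit 8) (nat_lit 5) (nat_lit 10) (nat_lit 4) (nat_lit 8) (nat_lit 4) (nat_lit 326) (nat_lit 307) (nat_lit 147)))))) (XT.nd (nat_lit 312) (nat_lit 76) (nat_lit 0) (XT.nd (nat_lit 156) (nat_lit 76) (nat_lit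 0) (XT.nd (nat_lit 78) (nat_lit 76) (nat_lit 0) (XT.lf (nat_lit 0) (nat_lit 4112307468307) (nat_lit 76) (nat_lit 10199091381585) (nat_lit 76) (nat_lit 3002442791392) (nat_lit 7) (nat_lit 4) (nat_lit 8) (nat_lit 5) (nat_lit 8) (nat_lit 4) (nat_lit 327) (nat_lit 307) (nat_lit 146)) (XT.lf (nat_lit 0) (nat_lit 30748202202) (nat_lit 152) (nat_lit 7130539955617) (nat_lit 76) (nat_lit 12148488794905) (nat_lit 6) (nat_lit 5) (nat_lit 8) (nat_lit 5) (nat_lit 7) (nat_lit 4) (nat_lit 328) (nat_lit 307) (nat_lit 145))) (XT.nd (nat_lit 78) (nat_lit 76) (nat_lit 0) (XT.lf (nat_lit 0) (nat_lit 3211524892212) (nat_lit 152) (nat_lit 291870072232) (nat_lit 76) (nat_lit 18080261576521) (nat_lit 6) (nat_lit 5) (nat_lit 8) (nat_lit 5) (nat_lit 7) (nat_lit 4) (nat_lit 329) (nat_lit 307) (nat_lit 144)) (XT.lf (nat_lit 0) (nat_lit 7259135375231) (nat_lit 152) (nat_lit 15879845019738) (nat_lit 0) (nat_lit 1001180079049)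 (nat_lit 5) (nat_lit 5) (nat_lit 7) (nat_lit 4) (nat_lit 5) (nat_lit 4) (nat_lit 330) (nat_lit 307) (nat_lit 143)))) (XT.nd (nat_lit 156) (nat_lit 76) (nat_lit 0) (XT.nd (nat_lit 78) (nat_lit 0) (nat_lit 0) (XT.lf (nat_lit 0) (nat_lit 12096699123296) (nat_lit 152) (nat_lit 9117275292821) (nat_lit 0) (nat_lit 5838743827023) (nat_lit 5) (nat_lit 5) (nat_lit 7) (nat_lit 4) (nat_lit 5) (nat_lit 4) (nat_lit 331) (nat_lit 307) (nat_lit 142)) (XT.lf (nat_lit 0) (nat_lit 17659897433443) (nat_lit 152) (nat_lit 1340320107115) (nat_lit 0) (nat_lit 11401942137091) (nat_lit 5) (nat_lit 5) (nat_lit 7) (nat_lit 4) (nat_lit 5) (nat_lit 4) (nat_lit 332) (nat_lit 307) (nat_lit 141))) (XT.nd (nat_lit 38688) (nat_lit 0) (nat_lit 1216) (XT.lf (nat_lit 0) (nat_lit 8346216241045) (nat_lit 76) (nat_lit 16056958265149) (nat_lit 76) (nat_lit 9799002968729) (nat_lit 4) (nat_lit 4) (nat_lit 5) (nat_lit 5) (nat_lit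 5) (nat_lit 4) (nat_lit 333) (nat_lit 307) (nat_lit 140)) (XT.nd (nat_lit 78) (nat_lit 0) (nat_lit 0) (XT.lf (nat_lit 0) (nat_lit 234111714816) (nat_lit 380) (nat_lit 717514934763) (nat_lit 380) (nat_lit 717514934763) (nat_lit 20) (nat_lit 3) (nat_lit 25) (nat_lit 3) (nat_lit 25) (nat_lit 5) (nat_lit 308) (nat_lit 308) (nat_lit 164)) (XT.lf (nat_lit 76) (nat_lit 119044501130) (nat_lit 0) (nat_lit 389225069966) (nat_lit 380) (nat_lit 3079645427581) (nat_lit 21) (nat_lit 5) (nat_lit 20) (nat_lit 3) (nat_lit 25) (nat_lit 5) (nat_lit 309) (nat_lit 308) (nat_lit 163))))))) (XT.nd (nat_lit 702) (nat_lit 456) (nat_lit 0) (XT.nd (nat_lit 312) (nat_lit 532) (nat_lit 0) (XT.nd (nat_lit 156) (nat_lit 0) (nat_lit 76) (XT.nd (nat_lit 78) (nat_lit 0) (nat_lit 0) (XT.lf (nat_lit 0) (nat_lit 688887204089) (nat_lit 304) (nat_lit 1855783495319) (nat_lit 380) (nat_lit 1310136218217) (nat_lit 21) (nat_lit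 5) (nat_lit 25) (nat_lit 5) (nat_lit 26) (nat_lit 5) (nat_lit 310) (nat_lit 308) (nat_lit 162)) (XT.lf (nat_lit 0) (nat_lit 915132008341) (nat_lit 304) (nat_lit 19267970563) (nat_lit 380) (nat_lit 3224552466570) (nat_lit 21) (nat_lit 5) (nat_lit 25) (nat_lit 5) (nat_lit 26) (nat_lit 5) (nat_lit 311) (nat_lit 308) (nat_lit 161))) (XT.nd (nat_lit 78) (nat_lit 0) (nat_lit 0) (XT.lf (nat_lit 0) (nat_lit 1312955145945) (nat_lit 304) (nat_lit 2239727801369) (nat_lit 76) (nat_lit 935390613280) (nat_lit 22) (nat_lit 5) (nat_lit 26) (nat_lit 5) (nat_lit 23) (nat_lit 5) (nat_lit 312) (nat_lit 308) (nat_lit 160)) (XT.lf (nat_lit 0) (nat_lit 1816002141403) (nat_lit 304) (nat_lit 52687958094) (nat_lit 76) (nat_lit 2991040185406) (nat_lit 22) (nat_lit 5) (nat_lit 26) (nat_lit 5) (nat_lit 23) (nat_lit 5) (nat_lit 313) (nat_lit 308) (nat_lit 159)))) (XT.nd (nat_lit 156) (nat_lit 152) (nat_lit 0) (XT.nd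 (nat_lit 78) (nat_lit 152) (nat_lit 0) (XT.lf (nat_lit 0) (nat_lit 2514575366394) (nat_lit 380) (nat_lit 2575435658459) (nat_lit 76) (nat_lit 179114115978) (nat_lit 18) (nat_lit 5) (nat_lit 23) (nat_lit 5) (nat_lit 19) (nat_lit 5) (nat_lit 314) (nat_lit 308) (nat_lit 158)) (XT.lf (nat_lit 0) (nat_lit 32177075943) (nat_lit 152) (nat_lit 3378960418550) (nat_lit 228) (nat_lit 2314811292751) (nat_lit 16) (nat_lit 5) (nat_lit 18) (nat_lit 5) (nat_lit 19) (nat_lit 5) (nat_lit 315) (nat_lit 308) (nat_lit 157))) (XT.nd (nat_lit 78) (nat_lit 152) (nat_lit 0) (XT.lf (nat_lit 0) (nat_lit 3320375568347) (nat_lit 152) (nat_lit 1256433418773) (nat_lit 228) (nat_lit 1654293236705) (nat_lit 16) (nat_lit 5) (nat_lit 18) (nat_lit 5) (nat_lit 19) (nat_lit 5) (nat_lit 316) (nat_lit 308) (nat_lit 156)) (XT.nd (nat_lit 78) (nat_lit 76) (nat_lit 0) (XT.lf (nat_lit 0) (nat_lit 264254429008) (nat_lit 76) (nat_lit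 5713065472355) (nat_lit 152) (nat_lit 825710469873) (nat_lit 15) (nat_lit 5) (nat_lit 16) (nat_lit 5) (nat_lit 17) (nat_lit 4) (nat_lit 317) (nat_lit 308) (nat_lit 155)) (XT.lf (nat_lit 0) (nat_lit 335066173390) (nat_lit 152) (nat_lit 3267657228309) (nat_lit 76) (nat_lit 3824350462441) (nat_lit 14) (nat_lit 5) (nat_lit 16) (nat_lit 5) (nat_lit 15) (nat_lit 5) (nat_lit 318) (nat_lit 308) (nat_lit 154)))))) (XT.nd (nat_lit 312) (nat_lit 228) (nat_lit 0) (XT.nd (nat_lit 156) (nat_lit 76) (nat_lit 0) (XT.nd (nat_lit 78) (nat_lit 0) (nat_lit 0) (XT.lf (nat_lit 0) (nat_lit 499257062088) (nat_lit 152) (nat_lit 1106838396683) (nat_lit 228) (nat_lit 6529629514795) (nat_lit 12) (nat_lit 5) (nat_lit 14) (nat_lit 5) (nat_lit 15) (nat_lit 5) (nat_lit 319) (nat_lit 308) (nat_lit 153)) (XT.lf (nat_lit 0) (nat_lit 3319742119797) (nat_lit 228) (nat_lit 3807757365176) (nat_lit 76) (nat_lit 1785379817006)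 (nat_lit 12) (nat_lit 5) (nat_lit 15) (nat_lit 5) (nat_lit 13) (nat_lit 4) (nat_lit 320) (nat_lit 308) (nat_lit 152))) (XT.nd (nat_lit 78) (nat_lit 0) (nat_lit 0) (XT.lf (nat_lit 0) (nat_lit 595575414126) (nat_lit 76) (nat_lit 4772228463711) (nat_lit 152) (nat_lit 4427197687139) (nat_lit 11) (nat_lit 5) (nat_lit 12) (nat_lit 5) (nat_lit 13) (nat_lit 4) (nat_lit 321) (nat_lit 308) (nat_lit 151)) (XT.lf (nat_lit 0) (nat_lit 6087348113765) (nat_lit 76) (nat_lit 1834768647821) (nat_lit 152) (nat_lit 2857469126537) (nat_lit 11) (nat_lit 5) (nat_lit 12) (nat_lit 5) (nat_lit 13) (nat_lit 4) (nat_lit 322) (nat_lit 308) (nat_lit 150)))) (XT.nd (nat_lit 156) (nat_lit 76) (nat_lit 0) (XT.nd (nat_lit 78) (nat_lit 76) (nat_lit 0) (XT.lf (nat_lit 0) (nat_lit 468865308405) (nat_lit 76) (nat_lit 10474031163616) (nat_lit 76) (nat_lit 956463403604) (nat_lit 10) (nat_lit 4) (nat_lit 11) (nat_lit 5) (nat_lit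 11) (nat_lit 4) (nat_lit 323) (nat_lit 308) (nat_lit 149)) (XT.lf (nat_lit 0) (nat_lit 1464543201109) (nat_lit 152) (nat_lit 6368799877904) (nat_lit 76) (nat_lit 5294470164391) (nat_lit 9) (nat_lit 5) (nat_lit 11) (nat_lit 5) (nat_lit 10) (nat_lit 4) (nat_lit 324) (nat_lit 308) (nat_lit 148))) (XT.nd (nat_lit 78) (nat_lit 76) (nat_lit 0) (XT.lf (nat_lit 0) (nat_lit 4150777162146) (nat_lit 152) (nat_lit 593396861915) (nat_lit 76) (nat_lit 9789528710865) (nat_lit 9) (nat_lit 5) (nat_lit 11) (nat_lit 5) (nat_lit 10) (nat_lit 4) (nat_lit 325) (nat_lit 308) (nat_lit 147)) (XT.nd (nat_lit 78) (nat_lit 0) (nat_lit 0) (XT.lf (nat_lit 0) (nat_lit 6639402092666) (nat_lit 76) (nat_lit 875467606592) (nat_lit 152) (nat_lit 8594367428631) (nat_lit 8) (nat_lit 5) (nat_lit 9) (nat_lit 5) (nat_lit 10) (nat_lit 4) (nat_lit 326) (nat_lit 308) (nat_lit 146)) (XT.lf (nat_lit 0) (nat_lit 11564044527670) (nat_lit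 152) (nat_lit 3042088241909) (nat_lit 0) (nat_lit 3287898648607) (nat_lit 8) (nat_lit 5) (nat_lit 10) (nat_lit 4) (nat_lit 8) (nat_lit 4) (nat_lit 327) (nat_lit 308) (nat_lit 145))))))))
noncomputable def xc121 : XT := (XT.nd (nat_lit 40092) (nat_lit 0) (nat_lit 0) (XT.nd (nat_lit 39390) (nat_lit 0) (nat_lit 532) (XT.nd (nat_lit 312) (nat_lit 0) (nat_lit 0) (XT.nd (nat_lit 156) (nat_lit 76) (nat_lit 0) (XT.nd (nat_lit 78) (nat_lit 76) (nat_lit 0) (XT.lf (nat_lit 0) (nat_lit 4729153591858) (nat_lit 76) (nat_lit 11728955087277) (nat_lit 76) (nat_lit 3452809208076) (nat_lit 7) (nat_lit 4) (nat_lit 8) (nat_lit 5) (nat_lit 8) (nat_lit 4) (nat_lit 328) (nat_lit 308) (nat_lit 144)) (XT.lf (nat_lit 0) (nat_lit 35360434136) (nat_lit 152) (nat_lit 8200120945927) (nat_lit 76) (nat_lit 13970762115326) (nat_lit 6) (nat_lit 5) (nat_lit 8) (nat_lit 5) (nat_lit 7) (nat_lit 4) (nat_lit 329) (nat_lit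 308) (nat_lit 143))) (XT.nd (nat_lit 78) (nat_lit 76) (nat_lit 0) (XT.lf (nat_lit 0) (nat_lit 3693253627439) (nat_lit 152) (nat_lit 335650580430) (nat_lit 76) (nat_lit 20792300814031) (nat_lit 6) (nat_lit 5) (nat_lit 8) (nat_lit 5) (nat_lit 7) (nat_lit 4) (nat_lit 330) (nat_lit 308) (nat_lit 142)) (XT.lf (nat_lit 0) (nat_lit 8348005682883) (nat_lit 152) (nat_lit 18261821770032) (nat_lit 0) (nat_lit 1151357091999) (nat_lit 5) (nat_lit 5) (nat_lit 7) (nat_lit 4) (nat_lit 5) (nat_lit 4) (nat_lit 331) (nat_lit 308) (nat_lit 141)))) (XT.nd (nat_lit 38844) (nat_lit 0) (nat_lit 1140) (XT.nd (nat_lit 78) (nat_lit 0) (nat_lit 0) (XT.lf (nat_lit 0) (nat_lit 13911203992979) (nat_lit 152) (nat_lit 10484866584426) (nat_lit 0) (nat_lit 6714555402027) (nat_lit 5) (nat_lit 5) (nat_lit 7) (nat_lit 4) (nat_lit 5) (nat_lit 4) (nat_lit 332) (nat_lit 308) (nat_lit 140)) (XT.lf (nat_lit 0) (nat_lit 20308882049493)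 (nat_lit 152) (nat_lit 1541368121166) (nat_lit 0) (nat_lit 13112233458482) (nat_lit 5) (nat_lit 5) (nat_lit 7) (nat_lit 4) (nat_lit 5) (nat_lit 4) (nat_lit 333) (nat_lit 308) (nat_lit 139))) (XT.nd (nat_lit 78) (nat_lit 0) (nat_lit 0) (XT.lf (nat_lit 0) (nat_lit 269228477131) (nat_lit 380) (nat_lit 825142172038) (nat_lit 380) (nat_lit 825142172038) (nat_lit 20) (nat_lit 3) (nat_lit 25) (nat_lit 3) (nat_lit 25) (nat_lit 5) (nat_lit 309) (nat_lit 309) (nat_lit 162)) (XT.nd (nat_lit 78) (nat_lit 0) (nat_lit 76) (XT.lf (nat_lit 76) (nat_lit 136901181910) (nat_lit 0) (nat_lit 447608833938) (nat_lit 380) (nat_lit 3541592231229) (nat_lit 21) (nat_lit 5) (nat_lit 20) (nat_lit 3) (nat_lit 25) (nat_lit 5) (nat_lit 310) (nat_lit 309) (nat_lit 161)) (XT.lf (nat_lit 0) (nat_lit 792220292480) (nat_lit 304) (nat_lit 2134151013394) (nat_lit 380) (nat_lit 1506656648196) (nat_lit 21) (nat_lit 5) (nat_lit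 25) (nat_lit 5) (nat_lit 26) (nat_lit 5) (nat_lit 311) (nat_lit 309) (nat_lit 160)))))) (XT.nd (nat_lit 312) (nat_lit 456) (nat_lit 0) (XT.nd (nat_lit 156) (nat_lit 228) (nat_lit 0) (XT.nd (nat_lit 78) (nat_lit 0) (nat_lit 76) (XT.lf (nat_lit 0) (nat_lit 1052401816355) (nat_lit 304) (nat_lit 22158160735) (nat_lit 380) (nat_lit 3708235334160) (nat_lit 21) (nat_lit 5) (nat_lit 25) (nat_lit 5) (nat_lit 26) (nat_lit 5) (nat_lit 312) (nat_lit 309) (nat_lit 159)) (XT.lf (nat_lit 0) (nat_lit 1509898423893) (nat_lit 304) (nat_lit 2575686965431) (nat_lit 76) (nat_lit 1075699204425) (nat_lit 22) (nat_lit 5) (nat_lit 26) (nat_lit 5) (nat_lit 23) (nat_lit 5) (nat_lit 313) (nat_lit 309) (nat_lit 158))) (XT.nd (nat_lit 78) (nat_lit 304) (nat_lit 0) (XT.lf (nat_lit 0) (nat_lit 2088402467880) (nat_lit 304) (nat_lit 60591146466) (nat_lit 76) (nat_lit 3439696212481) (nat_lit 22) (nat_lit 5) (nat_lit 26)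 (nat_lit 5) (nat_lit 23) (nat_lit 5) (nat_lit 314) (nat_lit 309) (nat_lit 157)) (XT.lf (nat_lit 0) (nat_lit 2891761676156) (nat_lit 380) (nat_lit 2961751001403) (nat_lit 76) (nat_lit 205981233656) (nat_lit 18) (nat_lit 5) (nat_lit 23) (nat_lit 5) (nat_lit 19) (nat_lit 5) (nat_lit 315) (nat_lit 309) (nat_lit 156)))) (XT.nd (nat_lit 156) (nat_lit 304) (nat_lit 0) (XT.nd (nat_lit 78) (nat_lit 0) (nat_lit 0) (XT.lf (nat_lit 0) (nat_lit 37003642895) (nat_lit 152) (nat_lit 3885804480179) (nat_lit 228) (nat_lit 2662032981579) (nat_lit 16) (nat_lit 5) (nat_lit 18) (nat_lit 5) (nat_lit 19) (nat_lit 5) (nat_lit 316) (nat_lit 309) (nat_lit 155)) (XT.lf (nat_lit 0) (nat_lit 3818431908434) (nat_lit 152) (nat_lit 1444898430586) (nat_lit 228) (nat_lit 1902437217789) (nat_lit 16) (nat_lit 5) (nat_lit 18) (nat_lit 5) (nat_lit 19) (nat_lit 5) (nat_lit 317) (nat_lit 309) (nat_lit 154))) (XT.nd (nat_lit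 78) (nat_lit 228) (nat_lit 0) (XT.lf (nat_lit 0) (nat_lit 303892598497) (nat_lit 76) (nat_lit 6570025291652) (nat_lit 152) (nat_lit 949567036223) (nat_lit 15) (nat_lit 5) (nat_lit 16) (nat_lit 5) (nat_lit 17) (nat_lit 4) (nat_lit 318) (nat_lit 309) (nat_lit 153)) (XT.nd (nat_lit 78) (nat_lit 152) (nat_lit 0) (XT.lf (nat_lit 0) (nat_lit 385326102671) (nat_lit 152) (nat_lit 3757805807758) (nat_lit 76) (nat_lit 4398003032832) (nat_lit 14) (nat_lit 5) (nat_lit 16) (nat_lit 5) (nat_lit 15) (nat_lit 5) (nat_lit 319) (nat_lit 309) (nat_lit 152)) (XT.lf (nat_lit 0) (nat_lit 574145625980) (nat_lit 152) (nat_lit 1272864154641) (nat_lit 228) (nat_lit 7509073938515) (nat_lit 12) (nat_lit 5) (nat_lit 14) (nat_lit 5) (nat_lit 15) (nat_lit 5) (nat_lit 320) (nat_lit 309) (nat_lit 151))))))) (XT.nd (nat_lit 702) (nat_lit 152) (nat_lit 0) (XT.nd (nat_lit 312) (nat_lit 228) (nat_lit 0) (XT.nd (nat_lit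 156) (nat_lit 76) (nat_lit 0) (XT.nd (nat_lit 78) (nat_lit 76) (nat_lit 0) (XT.lf (nat_lit 0) (nat_lit 3817703440461) (nat_lit 228) (nat_lit 4378920965623) (nat_lit 76) (nat_lit 2053186790780) (nat_lit 12) (nat_lit 5) (nat_lit 15) (nat_lit 5) (nat_lit 13) (nat_lit 4) (nat_lit 321) (nat_lit 309) (nat_lit 150)) (XT.lf (nat_lit 0) (nat_lit 684911730378) (nat_lit 76) (nat_lit 5488062731650) (nat_lit 152) (nat_lit 5091277337312) (nat_lit 11) (nat_lit 5) (nat_lit 12) (nat_lit 5) (nat_lit 13) (nat_lit 4) (nat_lit 322) (nat_lit 309) (nat_lit 149))) (XT.nd (nat_lit 78) (nat_lit 76) (nat_lit 0) (XT.lf (nat_lit 0) (nat_lit 7000450334424) (nat_lit 76) (nat_lit 2109983943587) (nat_lit 152) (nat_lit 3286089492998) (nat_lit 11) (nat_lit 5) (nat_lit 12) (nat_lit 5) (nat_lit 13) (nat_lit 4) (nat_lit 323) (nat_lit 309) (nat_lit 148)) (XT.lf (nat_lit 0) (nat_lit 539195108359) (nat_lit 76) (nat_lit 12045135836571)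 (nat_lit 76) (nat_lit 1099932911719) (nat_lit 10) (nat_lit 4) (nat_lit 11) (nat_lit 5) (nat_lit 11) (nat_lit 4) (nat_lit 324) (nat_lit 309) (nat_lit 147)))) (XT.nd (nat_lit 156) (nat_lit 152) (nat_lit 0) (XT.nd (nat_lit 78) (nat_lit 0) (nat_lit 0) (XT.lf (nat_lit 0) (nat_lit 1684224683196) (nat_lit 152) (nat_lit 7324119856187) (nat_lit 76) (nat_lit 6088640690239) (nat_lit 9) (nat_lit 5) (nat_lit 11) (nat_lit 5) (nat_lit 10) (nat_lit 4) (nat_lit 325) (nat_lit 309) (nat_lit 146)) (XT.lf (nat_lit 0) (nat_lit 4773393738139) (nat_lit 152) (nat_lit 682406388244) (nat_lit 76) (nat_lit 11257958018529) (nat_lit 9) (nat_lit 5) (nat_lit 11) (nat_lit 5) (nat_lit 10) (nat_lit 4) (nat_lit 326) (nat_lit 309) (nat_lit 145))) (XT.nd (nat_lit 78) (nat_lit 76) (nat_lit 0) (XT.lf (nat_lit 0) (nat_lit 7635312409390) (nat_lit 76) (nat_lit 1006787746327) (nat_lit 152) (nat_lit 9883522541118) (nat_lit 8) (nat_lit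 5) (nat_lit 9) (nat_lit 5) (nat_lit 10) (nat_lit 4) (nat_lit 327) (nat_lit 309) (nat_lit 144)) (XT.nd (nat_lit 78) (nat_lit 76) (nat_lit 0) (XT.lf (nat_lit 0) (nat_lit 13298651208231) (nat_lit 152) (nat_lit 3498401475578) (nat_lit 0) (nat_lit 3781083446892) (nat_lit 8) (nat_lit 5) (nat_lit 10) (nat_lit 4) (nat_lit 8) (nat_lit 4) (nat_lit 328) (nat_lit 309) (nat_lit 143)) (XT.lf (nat_lit 0) (nat_lit 5438526633135) (nat_lit 76) (nat_lit 13488298349200) (nat_lit 76) (nat_lit 3970730587756) (nat_lit 7) (nat_lit 4) (nat_lit 8) (nat_lit 5) (nat_lit 8) (nat_lit 4) (nat_lit 329) (nat_lit 309) (nat_lit 142)))))) (XT.nd (nat_lit 39156) (nat_lit 0) (nat_lit 1140) (XT.nd (nat_lit 156) (nat_lit 76) (nat_lit 0) (XT.nd (nat_lit 78) (nat_lit 0) (nat_lit 0) (XT.lf (nat_lit 0) (nat_lit 40664500470) (nat_lit 152) (nat_lit 9430139085523) (nat_lit 76) (nat_lit 16066376433522) (nat_lit 6) (nat_lit 5) (nat_lit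 8) (nat_lit 5) (nat_lit 7) (nat_lit 4) (nat_lit 330) (nat_lit 309) (nat_lit 141)) (XT.lf (nat_lit 0) (nat_lit 4247241672610) (nat_lit 152) (nat_lit 385998165500) (nat_lit 76) (nat_lit 23911145936915) (nat_lit 6) (nat_lit 5) (nat_lit 8) (nat_lit 5) (nat_lit 7) (nat_lit 4) (nat_lit 331) (nat_lit 309) (nat_lit 140))) (XT.nd (nat_lit 78) (nat_lit 0) (nat_lit 0) (XT.lf (nat_lit 0) (nat_lit 9600206536349) (nat_lit 152) (nat_lit 21001095033521) (nat_lit 0) (nat_lit 1324060656626) (nat_lit 5) (nat_lit 5) (nat_lit 7) (nat_lit 4) (nat_lit 5) (nat_lit 4) (nat_lit 332) (nat_lit 309) (nat_lit 139)) (XT.nd (nat_lit 38844) (nat_lit 0) (nat_lit 1140) (XT.lf (nat_lit 0) (nat_lit 15997884592825) (nat_lit 152) (nat_lit 12057596570336) (nat_lit 0) (nat_lit 7721738713050) (nat_lit 5) (nat_lit 5) (nat_lit 7) (nat_lit 4) (nat_lit 5) (nat_lit 4) (nat_lit 333) (nat_lit 309) (nat_lit 138)) (XT.lf (nat_lit 0)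 (nat_lit 309612752551) (nat_lit 380) (nat_lit 948913495622) (nat_lit 380) (nat_lit 948913495622) (nat_lit 20) (nat_lit 3) (nat_lit 25) (nat_lit 3) (nat_lit 25) (nat_lit 5) (nat_lit 310) (nat_lit 310) (nat_lit 160))))) (XT.nd (nat_lit 156) (nat_lit 0) (nat_lit 76) (XT.nd (nat_lit 78) (nat_lit 0) (nat_lit 76) (XT.lf (nat_lit 76) (nat_lit 157436363440) (nat_lit 0) (nat_lit 514750161657) (nat_lit 380) (nat_lit 4072831057981) (nat_lit 21) (nat_lit 5) (nat_lit 20) (nat_lit 3) (nat_lit 25) (nat_lit 5) (nat_lit 311) (nat_lit 310) (nat_lit 159)) (XT.lf (nat_lit 0) (nat_lit 911053342232) (nat_lit 304) (nat_lit 2454273660697) (nat_lit 380) (nat_lit 1732655143343) (nat_lit 21) (nat_lit 5) (nat_lit 25) (nat_lit 5) (nat_lit 26) (nat_lit 5) (nat_lit 312) (nat_lit 310) (nat_lit 158))) (XT.nd (nat_lit 78) (nat_lit 0) (nat_lit 76) (XT.lf (nat_lit 0) (nat_lit 1210262093922) (nat_lit 304) (nat_lit 25481880754)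 (nat_lit 380) (nat_lit 4264470632473) (nat_lit 21) (nat_lit 5) (nat_lit 25) (nat_lit 5) (nat_lit 26) (nat_lit 5) (nat_lit 313) (nat_lit 310) (nat_lit 157)) (XT.nd (nat_lit 78) (nat_lit 0) (nat_lit 0) (XT.lf (nat_lit 0) (nat_lit 1736383192057) (nat_lit 304) (nat_lit 2962040005600) (nat_lit 76) (nat_lit 1237054084449) (nat_lit 22) (nat_lit 5) (nat_lit 26) (nat_lit 5) (nat_lit 23) (nat_lit 5) (nat_lit 314) (nat_lit 310) (nat_lit 156)) (XT.lf (nat_lit 0) (nat_lit 2401662842044) (nat_lit 304) (nat_lit 69679814396) (nat_lit 76) (nat_lit 3955650643797) (nat_lit 22) (nat_lit 5) (nat_lit 26) (nat_lit 5) (nat_lit 23) (nat_lit 5) (nat_lit 315) (nat_lit 310) (nat_lit 155))))))))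
noncomputable def xc122 : XT := (XT.nd (nat_lit 40248) (nat_lit 0) (nat_lit 228) (XT.nd (nat_lit 702) (nat_lit 456) (nat_lit 0) (XT.nd (nat_lit 312) (nat_lit 304) (nat_lit 0) (XT.nd (nat_lit 156) (nat_lit 76) (nat_lit 0) (XT.nd (nat_lit 78) (nat_lit 152) (nat_lit 0) (XT.lf (nat_lit 0) (nat_lit 3325525931212) (nat_lit 380) (nat_lit 3406013647209) (nat_lit 76) (nat_lit 236878418918) (nat_lit 18) (nat_lit 5) (nat_lit 23) (nat_lit 5) (nat_lit 19) (nat_lit 5) (nat_lit 316) (nat_lit 310) (nat_lit 154)) (XT.lf (nat_lit 0) (nat_lit 42554193533) (nat_lit 152) (nat_lit 4468675151334) (nat_lit 228) (nat_lit 3061337924972) (nat_lit 16) (nat_lit 5) (nat_lit 18) (nat_lit 5) (nat_lit 19) (nat_lit 5) (nat_lit 317) (nat_lit 310) (nat_lit 153))) (XT.nd (nat_lit 78) (nat_lit 76) (nat_lit 0) (XT.lf (nat_lit 0) (nat_lit 4391196698355) (nat_lit 152) (nat_lit 1661633194416) (nat_lit 228) (nat_lit 2187802797114)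 (nat_lit 16) (nat_lit 5) (nat_lit 18) (nat_lit 5) (nat_lit 19) (nat_lit 5) (nat_lit 318) (nat_lit 310) (nat_lit 152)) (XT.lf (nat_lit 0) (nat_lit 349476492157) (nat_lit 76) (nat_lit 7555529084222) (nat_lit 152) (nat_lit 1092002088533) (nat_lit 15) (nat_lit 5) (nat_lit 16) (nat_lit 5) (nat_lit 17) (nat_lit 4) (nat_lit 319) (nat_lit 310) (nat_lit 151)))) (XT.nd (nat_lit 156) (nat_lit 76) (nat_lit 0) (XT.nd (nat_lit 78) (nat_lit 152) (nat_lit 0) (XT.lf (nat_lit 0) (nat_lit 443125020547) (nat_lit 152) (nat_lit 4321476675294) (nat_lit 76) (nat_lit 5057703488531) (nat_lit 14) (nat_lit 5) (nat_lit 16) (nat_lit 5) (nat_lit 15) (nat_lit 5) (nat_lit 320) (nat_lit 310) (nat_lit 150)) (XT.lf (nat_lit 0) (nat_lit 660267473340) (nat_lit 152) (nat_lit 1463793776670) (nat_lit 228) (nat_lit 8635435026647) (nat_lit 12) (nat_lit 5) (nat_lit 14) (nat_lit 5) (nat_lit 15) (nat_lit 5) (nat_lit 321) (nat_lit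 310) (nat_lit 149))) (XT.nd (nat_lit 78) (nat_lit 76) (nat_lit 0) (XT.lf (nat_lit 0) (nat_lit 4390358958568) (nat_lit 228) (nat_lit 5035759107193) (nat_lit 76) (nat_lit 2361164810322) (nat_lit 12) (nat_lit 5) (nat_lit 15) (nat_lit 5) (nat_lit 13) (nat_lit 4) (nat_lit 322) (nat_lit 310) (nat_lit 148)) (XT.nd (nat_lit 78) (nat_lit 0) (nat_lit 0) (XT.lf (nat_lit 0) (nat_lit 787648493059) (nat_lit 76) (nat_lit 6311272140174) (nat_lit 152) (nat_lit 5854968935718) (nat_lit 11) (nat_lit 5) (nat_lit 12) (nat_lit 5) (nat_lit 13) (nat_lit 4) (nat_lit 323) (nat_lit 310) (nat_lit 147)) (XT.lf (nat_lit 0) (nat_lit 8050517887305) (nat_lit 76) (nat_lit 2426481534061) (nat_lit 152) (nat_lit 3779002915042) (nat_lit 11) (nat_lit 5) (nat_lit 12) (nat_lit 5) (nat_lit 13) (nat_lit 4) (nat_lit 324) (nat_lit 310) (nat_lit 146)))))) (XT.nd (nat_lit 312) (nat_lit 228) (nat_lit 0) (XT.nd (nat_lit 156) (nat_lit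 76) (nat_lit 0) (XT.nd (nat_lit 78) (nat_lit 76) (nat_lit 0) (XT.lf (nat_lit 0) (nat_lit 620074377405) (nat_lit 76) (nat_lit 13851906210856) (nat_lit 76) (nat_lit 1264922846643) (nat_lit 10) (nat_lit 4) (nat_lit 11) (nat_lit 5) (nat_lit 11) (nat_lit 4) (nat_lit 325) (nat_lit 310) (nat_lit 145)) (XT.lf (nat_lit 0) (nat_lit 1936858387129) (nat_lit 152) (nat_lit 8422737832042) (nat_lit 76) (nat_lit 7001936794675) (nat_lit 9) (nat_lit 5) (nat_lit 11) (nat_lit 5) (nat_lit 10) (nat_lit 4) (nat_lit 326) (nat_lit 310) (nat_lit 144))) (XT.nd (nat_lit 78) (nat_lit 76) (nat_lit 0) (XT.lf (nat_lit 0) (nat_lit 5489402800123) (nat_lit 152) (nat_lit 784767344243) (nat_lit 76) (nat_lit 12946651722091) (nat_lit 9) (nat_lit 5) (nat_lit 11) (nat_lit 5) (nat_lit 10) (nat_lit 4) (nat_lit 327) (nat_lit 310) (nat_lit 143)) (XT.lf (nat_lit 0) (nat_lit 8780609272934) (nat_lit 76) (nat_lit 1157805907327) (nat_lit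 152) (nat_lit 11366050920919) (nat_lit 8) (nat_lit 5) (nat_lit 9) (nat_lit 5) (nat_lit 10) (nat_lit 4) (nat_lit 328) (nat_lit 310) (nat_lit 142)))) (XT.nd (nat_lit 156) (nat_lit 152) (nat_lit 0) (XT.nd (nat_lit 78) (nat_lit 76) (nat_lit 0) (XT.lf (nat_lit 0) (nat_lit 15293448890532) (nat_lit 152) (nat_lit 4023161694935) (nat_lit 0) (nat_lit 4348245964677) (nat_lit 8) (nat_lit 5) (nat_lit 10) (nat_lit 4) (nat_lit 8) (nat_lit 4) (nat_lit 329) (nat_lit 310) (nat_lit 141)) (XT.lf (nat_lit 0) (nat_lit 6254305629995) (nat_lit 76) (nat_lit 15511543100695) (nat_lit 76) (nat_lit 4566340174762) (nat_lit 7) (nat_lit 4) (nat_lit 8) (nat_lit 5) (nat_lit 8) (nat_lit 4) (nat_lit 330) (nat_lit 310) (nat_lit 140))) (XT.nd (nat_lit 78) (nat_lit 76) (nat_lit 0) (XT.lf (nat_lit 0) (nat_lit 46764176457) (nat_lit 152) (nat_lit 10844659946617) (nat_lit 76) (nat_lit 18476332899228) (nat_lit 6) (nat_lit 5) (nat_lit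 8) (nat_lit 5) (nat_lit 7) (nat_lit 4) (nat_lit 331) (nat_lit 310) (nat_lit 139)) (XT.nd (nat_lit 78) (nat_lit 76) (nat_lit 0) (XT.lf (nat_lit 0) (nat_lit 4884327924299) (nat_lit 152) (nat_lit 443897888818) (nat_lit 76) (nat_lit 27497817828042) (nat_lit 6) (nat_lit 5) (nat_lit 8) (nat_lit 5) (nat_lit 7) (nat_lit 4) (nat_lit 332) (nat_lit 310) (nat_lit 138)) (XT.lf (nat_lit 0) (nat_lit 11040237517583) (nat_lit 152) (nat_lit 24151259287024) (nat_lit 0) (nat_lit 1522669755745) (nat_lit 5) (nat_lit 5) (nat_lit 7) (nat_lit 4) (nat_lit 5) (nat_lit 4) (nat_lit 333) (nat_lit 310) (nat_lit 137))))))) (XT.nd (nat_lit 702) (nat_lit 608) (nat_lit 0) (XT.nd (nat_lit 312) (nat_lit 304) (nat_lit 0) (XT.nd (nat_lit 156) (nat_lit 0) (nat_lit 76) (XT.nd (nat_lit 78) (nat_lit 0) (nat_lit 0) (XT.lf (nat_lit 0) (nat_lit 356054668345) (nat_lit 380) (nat_lit 1091250518285) (nat_lit 380) (nat_lit 1091250518285)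 (nat_lit 20) (nat_lit 3) (nat_lit 25) (nat_lit 3) (nat_lit 25) (nat_lit 5) (nat_lit 311) (nat_lit 311) (nat_lit 158)) (XT.lf (nat_lit 76) (nat_lit 181051821164) (nat_lit 0) (nat_lit 591962687894) (nat_lit 380) (nat_lit 4683755710681) (nat_lit 21) (nat_lit 5) (nat_lit 20) (nat_lit 3) (nat_lit 25) (nat_lit 5) (nat_lit 312) (nat_lit 311) (nat_lit 157))) (XT.nd (nat_lit 78) (nat_lit 0) (nat_lit 0) (XT.lf (nat_lit 0) (nat_lit 1047711348014) (nat_lit 304) (nat_lit 2822414706243) (nat_lit 380) (nat_lit 1992553413269) (nat_lit 21) (nat_lit 5) (nat_lit 25) (nat_lit 5) (nat_lit 26) (nat_lit 5) (nat_lit 313) (nat_lit 311) (nat_lit 156)) (XT.lf (nat_lit 0) (nat_lit 1391801411877) (nat_lit 304) (nat_lit 29304159773) (nat_lit 380) (nat_lit 4904141225975) (nat_lit 21) (nat_lit 5) (nat_lit 25) (nat_lit 5) (nat_lit 26) (nat_lit 5) (nat_lit 314) (nat_lit 311) (nat_lit 155)))) (XT.nd (nat_lit 156) (nat_lit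 456) (nat_lit 0) (XT.nd (nat_lit 78) (nat_lit 0) (nat_lit 0) (XT.lf (nat_lit 0) (nat_lit 1996840674328) (nat_lit 304) (nat_lit 3406346002927) (nat_lit 76) (nat_lit 1422612196633) (nat_lit 22) (nat_lit 5) (nat_lit 26) (nat_lit 5) (nat_lit 23) (nat_lit 5) (nat_lit 315) (nat_lit 311) (nat_lit 154)) (XT.lf (nat_lit 0) (nat_lit 2761912271362) (nat_lit 304) (nat_lit 80131783501) (nat_lit 76) (nat_lit 4548998239946) (nat_lit 22) (nat_lit 5) (nat_lit 26) (nat_lit 5) (nat_lit 23) (nat_lit 5) (nat_lit 316) (nat_lit 311) (nat_lit 153))) (XT.nd (nat_lit 78) (nat_lit 152) (nat_lit 0) (XT.lf (nat_lit 0) (nat_lit 3824354823640) (nat_lit 380) (nat_lit 3916915690961) (nat_lit 76) (nat_lit 272410181917) (nat_lit 18) (nat_lit 5) (nat_lit 23) (nat_lit 5) (nat_lit 19) (nat_lit 5) (nat_lit 317) (nat_lit 311) (nat_lit 152)) (XT.nd (nat_lit 78) (nat_lit 0) (nat_lit 0) (XT.lf (nat_lit 0) (nat_lit 48937325742)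 (nat_lit 152) (nat_lit 5138976423375) (nat_lit 228) (nat_lit 3520538610810) (nat_lit 16) (nat_lit 5) (nat_lit 18) (nat_lit 5) (nat_lit 19) (nat_lit 5) (nat_lit 318) (nat_lit 311) (nat_lit 151)) (XT.lf (nat_lit 0) (nat_lit 5049876205873) (nat_lit 152) (nat_lit 1910878173005) (nat_lit 228) (nat_lit 2515973214154) (nat_lit 16) (nat_lit 5) (nat_lit 18) (nat_lit 5) (nat_lit 19) (nat_lit 5) (nat_lit 319) (nat_lit 311) (nat_lit 150)))))) (XT.nd (nat_lit 390) (nat_lit 228) (nat_lit 0) (XT.nd (nat_lit 156) (nat_lit 228) (nat_lit 0) (XT.nd (nat_lit 78) (nat_lit 76) (nat_lit 0) (XT.lf (nat_lit 0) (nat_lit 401897968918) (nat_lit 76) (nat_lit 8688858445966) (nat_lit 152) (nat_lit 1255802399451) (nat_lit 15) (nat_lit 5) (nat_lit 16) (nat_lit 5) (nat_lit 17) (nat_lit 4) (nat_lit 320) (nat_lit 311) (nat_lit 149)) (XT.lf (nat_lit 0) (nat_lit 509593775500) (nat_lit 152) (nat_lit 4969698173846) (nat_lit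 76) (nat_lit 5816359012397) (nat_lit 14) (nat_lit 5) (nat_lit 16) (nat_lit 5) (nat_lit 15) (nat_lit 5) (nat_lit 321) (nat_lit 311) (nat_lit 148))) (XT.nd (nat_lit 78) (nat_lit 76) (nat_lit 0) (XT.lf (nat_lit 0) (nat_lit 759307596959) (nat_lit 152) (nat_lit 1683362842288) (nat_lit 228) (nat_lit 9930750278643) (nat_lit 12) (nat_lit 5) (nat_lit 14) (nat_lit 5) (nat_lit 15) (nat_lit 5) (nat_lit 322) (nat_lit 311) (nat_lit 147)) (XT.nd (nat_lit 78) (nat_lit 76) (nat_lit 0) (XT.lf (nat_lit 0) (nat_lit 5048912803894) (nat_lit 228) (nat_lit 5791122970797) (nat_lit 76) (nat_lit 2715339532570) (nat_lit 12) (nat_lit 5) (nat_lit 15) (nat_lit 5) (nat_lit 13) (nat_lit 4) (nat_lit 323) (nat_lit 311) (nat_lit 146)) (XT.lf (nat_lit 0) (nat_lit 905795769381) (nat_lit 76) (nat_lit 7257962960275) (nat_lit 152) (nat_lit 6733214274418) (nat_lit 11) (nat_lit 5) (nat_lit 12) (nat_lit 5) (nat_lit 13) (nat_lit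 4) (nat_lit 324) (nat_lit 311) (nat_lit 145))))) (XT.nd (nat_lit 156) (nat_lit 152) (nat_lit 0) (XT.nd (nat_lit 78) (nat_lit 76) (nat_lit 0) (XT.lf (nat_lit 0) (nat_lit 9258095572456) (nat_lit 76) (nat_lit 2790453763366) (nat_lit 152) (nat_lit 4345853350858) (nat_lit 11) (nat_lit 5) (nat_lit 12) (nat_lit 5) (nat_lit 13) (nat_lit 4) (nat_lit 325) (nat_lit 311) (nat_lit 144)) (XT.lf (nat_lit 0) (nat_lit 713085536127) (nat_lit 76) (nat_lit 15929692141576) (nat_lit 76) (nat_lit 1454661272253) (nat_lit 10) (nat_lit 4) (nat_lit 11) (nat_lit 5) (nat_lit 11) (nat_lit 4) (nat_lit 326) (nat_lit 311) (nat_lit 143))) (XT.nd (nat_lit 78) (nat_lit 76) (nat_lit 0) (XT.lf (nat_lit 0) (nat_lit 2227387146297) (nat_lit 152) (nat_lit 9686148504903) (nat_lit 76) (nat_lit 8052227314556) (nat_lit 9) (nat_lit 5) (nat_lit 11) (nat_lit 5) (nat_lit 10) (nat_lit 4) (nat_lit 327) (nat_lit 311) (nat_lit 142)) (XT.nd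 (nat_lit 78) (nat_lit 76) (nat_lit 0) (XT.lf (nat_lit 0) (nat_lit 6312813221097) (nat_lit 152) (nat_lit 902482444188) (nat_lit 76) (nat_lit 14888649480996) (nat_lit 9) (nat_lit 5) (nat_lit 11) (nat_lit 5) (nat_lit 10) (nat_lit 4) (nat_lit 328) (nat_lit 311) (nat_lit 141)) (XT.lf (nat_lit 0) (nat_lit 10097700665489) (nat_lit 76) (nat_lit 1331476792709) (nat_lit 152) (nat_lit 13070958558023) (nat_lit 8) (nat_lit 5) (nat_lit 9) (nat_lit 5) (nat_lit 10) (nat_lit 4) (nat_lit 329) (nat_lit 311) (nat_lit 140))))))))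
noncomputable def xc123 : XT := (XT.nd (nat_lit 40326) (nat_lit 152) (nat_lit 0) (XT.nd (nat_lit 39624) (nat_lit 0) (nat_lit 380) (XT.nd (nat_lit 39234) (nat_lit 0) (nat_lit 1064) (XT.nd (nat_lit 156) (nat_lit 76) (nat_lit 0) (XT.nd (nat_lit 78) (nat_lit 76) (nat_lit 0) (XT.lf (nat_lit 0) (nat_lit 17587466224918) (nat_lit 152) (nat_lit 4626635947678) (nat_lit 0) (nat_lit 5000482859947) (nat_lit 8) (nat_lit 5) (nat_lit 10) (nat_lit 4) (nat_lit 8) (nat_lit 4) (nat_lit 330) (nat_lit 311) (nat_lit 139)) (XT.lf (nat_lit 0) (nat_lit 7192451475923) (nat_lit 76) (nat_lit 17838274565131) (nat_lit 76) (nat_lit 5251291200101) (nat_lit 7) (nat_lit 4) (nat_lit 8) (nat_lit 5) (nat_lit 8) (nat_lit 4) (nat_lit 331) (nat_lit 311) (nat_lit 138))) (XT.nd (nat_lit 78) (nat_lit 0) (nat_lit 0) (XT.lf (nat_lit 0) (nat_lit 53778803620) (nat_lit 152) (nat_lit 12471358937299) (nat_lit 76) (nat_lit 21247782834625)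 (nat_lit 6) (nat_lit 5) (nat_lit 8) (nat_lit 5) (nat_lit 7) (nat_lit 4) (nat_lit 332) (nat_lit 311) (nat_lit 137)) (XT.lf (nat_lit 0) (nat_lit 5616977113547) (nat_lit 152) (nat_lit 510482571000) (nat_lit 76) (nat_lit 31622490502694) (nat_lit 6) (nat_lit 5) (nat_lit 8) (nat_lit 5) (nat_lit 7) (nat_lit 4) (nat_lit 333) (nat_lit 311) (nat_lit 136)))) (XT.nd (nat_lit 156) (nat_lit 0) (nat_lit 76) (XT.nd (nat_lit 78) (nat_lit 0) (nat_lit 0) (XT.lf (nat_lit 0) (nat_lit 409462870798) (nat_lit 380) (nat_lit 1254938094757) (nat_lit 380) (nat_lit 1254938094757) (nat_lit 20) (nat_lit 3) (nat_lit 25) (nat_lit 3) (nat_lit 25) (nat_lit 5) (nat_lit 312) (nat_lit 312) (nat_lit 156)) (XT.lf (nat_lit 76) (nat_lit 208209596764) (nat_lit 0) (nat_lit 680757092581) (nat_lit 380) (nat_lit 5386319062748) (nat_lit 21) (nat_lit 5) (nat_lit 20) (nat_lit 3) (nat_lit 25) (nat_lit 5) (nat_lit 313) (nat_lit 312) (nat_lit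 155))) (XT.nd (nat_lit 78) (nat_lit 0) (nat_lit 0) (XT.lf (nat_lit 0) (nat_lit 1204868053578) (nat_lit 304) (nat_lit 3245776909490) (nat_lit 380) (nat_lit 2291436424069) (nat_lit 21) (nat_lit 5) (nat_lit 25) (nat_lit 5) (nat_lit 26) (nat_lit 5) (nat_lit 314) (nat_lit 312) (nat_lit 154)) (XT.nd (nat_lit 78) (nat_lit 0) (nat_lit 76) (XT.lf (nat_lit 0) (nat_lit 1600571626582) (nat_lit 304) (nat_lit 33699781399) (nat_lit 380) (nat_lit 5639762408836) (nat_lit 21) (nat_lit 5) (nat_lit 25) (nat_lit 5) (nat_lit 26) (nat_lit 5) (nat_lit 315) (nat_lit 312) (nat_lit 153)) (XT.lf (nat_lit 0) (nat_lit 2296366778096) (nat_lit 304) (nat_lit 3917297900710) (nat_lit 76) (nat_lit 1636004025762) (nat_lit 22) (nat_lit 5) (nat_lit 26) (nat_lit 5) (nat_lit 23) (nat_lit 5) (nat_lit 316) (nat_lit 312) (nat_lit 152)))))) (XT.nd (nat_lit 312) (nat_lit 380) (nat_lit 0) (XT.nd (nat_lit 156) (nat_lit 152) (nat_lit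 0) (XT.nd (nat_lit 78) (nat_lit 304) (nat_lit 0) (XT.lf (nat_lit 0) (nat_lit 3176199114343) (nat_lit 304) (nat_lit 92151548717) (nat_lit 76) (nat_lit 5231347975620) (nat_lit 22) (nat_lit 5) (nat_lit 26) (nat_lit 5) (nat_lit 23) (nat_lit 5) (nat_lit 317) (nat_lit 312) (nat_lit 151)) (XT.lf (nat_lit 0) (nat_lit 4398008049262) (nat_lit 380) (nat_lit 4504453042087) (nat_lit 76) (nat_lit 313271709326) (nat_lit 18) (nat_lit 5) (nat_lit 23) (nat_lit 5) (nat_lit 19) (nat_lit 5) (nat_lit 318) (nat_lit 312) (nat_lit 150))) (XT.nd (nat_lit 78) (nat_lit 0) (nat_lit 0) (XT.lf (nat_lit 0) (nat_lit 56277927008) (nat_lit 152) (nat_lit 5909822886383) (nat_lit 228) (nat_lit 4048619400233) (nat_lit 16) (nat_lit 5) (nat_lit 18) (nat_lit 5) (nat_lit 19) (nat_lit 5) (nat_lit 319) (nat_lit 312) (nat_lit 149)) (XT.lf (nat_lit 0) (nat_lit 5807357638844) (nat_lit 152) (nat_lit 2197509898523) (nat_lit 228) (nat_lit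 2893369194365) (nat_lit 16) (nat_lit 5) (nat_lit 18) (nat_lit 5) (nat_lit 19) (nat_lit 5) (nat_lit 320) (nat_lit 312) (nat_lit 148)))) (XT.nd (nat_lit 156) (nat_lit 228) (nat_lit 0) (XT.nd (nat_lit 78) (nat_lit 76) (nat_lit 0) (XT.lf (nat_lit 0) (nat_lit 462182666477) (nat_lit 76) (nat_lit 9992187212187) (nat_lit 152) (nat_lit 1444172757583) (nat_lit 15) (nat_lit 5) (nat_lit 16) (nat_lit 5) (nat_lit 17) (nat_lit 4) (nat_lit 321) (nat_lit 312) (nat_lit 147)) (XT.lf (nat_lit 0) (nat_lit 586032843239) (nat_lit 152) (nat_lit 5715152897849) (nat_lit 76) (nat_lit 6688812864699) (nat_lit 14) (nat_lit 5) (nat_lit 16) (nat_lit 5) (nat_lit 15) (nat_lit 5) (nat_lit 322) (nat_lit 312) (nat_lit 146))) (XT.nd (nat_lit 78) (nat_lit 76) (nat_lit 0) (XT.lf (nat_lit 0) (nat_lit 873203738483) (nat_lit 152) (nat_lit 1935867267963) (nat_lit 228) (nat_lit 11420362818927) (nat_lit 12) (nat_lit 5) (nat_lit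 14) (nat_lit 5) (nat_lit 15) (nat_lit 5) (nat_lit 323) (nat_lit 312) (nat_lit 145)) (XT.nd (nat_lit 78) (nat_lit 76) (nat_lit 0) (XT.lf (nat_lit 0) (nat_lit 5806249725643) (nat_lit 228) (nat_lit 6659791414545) (nat_lit 76) (nat_lit 3122640462984) (nat_lit 12) (nat_lit 5) (nat_lit 15) (nat_lit 5) (nat_lit 13) (nat_lit 4) (nat_lit 324) (nat_lit 312) (nat_lit 144)) (XT.lf (nat_lit 0) (nat_lit 1041665136575) (nat_lit 76) (nat_lit 8346657403616) (nat_lit 152) (nat_lit 7743196414328) (nat_lit 11) (nat_lit 5) (nat_lit 12) (nat_lit 5) (nat_lit 13) (nat_lit 4) (nat_lit 325) (nat_lit 312) (nat_lit 143))))))) (XT.nd (nat_lit 39624) (nat_lit 0) (nat_lit 836) (XT.nd (nat_lit 312) (nat_lit 380) (nat_lit 0) (XT.nd (nat_lit 156) (nat_lit 76) (nat_lit 0) (XT.nd (nat_lit 78) (nat_lit 76) (nat_lit 0) (XT.lf (nat_lit 0) (nat_lit 10646809909877) (nat_lit 76) (nat_lit 3209021827263) (nat_lit 152) (nat_lit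 4997731352397) (nat_lit 11) (nat_lit 5) (nat_lit 12) (nat_lit 5) (nat_lit 13) (nat_lit 4) (nat_lit 326) (nat_lit 312) (nat_lit 142)) (XT.lf (nat_lit 0) (nat_lit 820048368143) (nat_lit 76) (nat_lit 18319145962126) (nat_lit 76) (nat_lit 1672860462043) (nat_lit 10) (nat_lit 4) (nat_lit 11) (nat_lit 5) (nat_lit 11) (nat_lit 4) (nat_lit 327) (nat_lit 312) (nat_lit 141))) (XT.nd (nat_lit 78) (nat_lit 0) (nat_lit 0) (XT.lf (nat_lit 0) (nat_lit 2561495219072) (nat_lit 152) (nat_lit 11139070779168) (nat_lit 76) (nat_lit 9260061412254) (nat_lit 9) (nat_lit 5) (nat_lit 11) (nat_lit 5) (nat_lit 10) (nat_lit 4) (nat_lit 328) (nat_lit 312) (nat_lit 140)) (XT.lf (nat_lit 0) (nat_lit 7259735204983) (nat_lit 152) (nat_lit 1037854809537) (nat_lit 76) (nat_lit 17121946903592) (nat_lit 9) (nat_lit 5) (nat_lit 11) (nat_lit 5) (nat_lit 10) (nat_lit 4) (nat_lit 329) (nat_lit 312) (nat_lit 139)))) (XT.nd (nat_lit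 156) (nat_lit 304) (nat_lit 0) (XT.nd (nat_lit 78) (nat_lit 0) (nat_lit 0) (XT.lf (nat_lit 0) (nat_lit 11612355766533) (nat_lit 76) (nat_lit 1531198311073) (nat_lit 152) (nat_lit 15031602340945) (nat_lit 8) (nat_lit 5) (nat_lit 9) (nat_lit 5) (nat_lit 10) (nat_lit 4) (nat_lit 330) (nat_lit 312) (nat_lit 138)) (XT.lf (nat_lit 0) (nat_lit 20225586159266) (nat_lit 152) (nat_lit 5320631338699) (nat_lit 0) (nat_lit 5750555289369) (nat_lit 8) (nat_lit 5) (nat_lit 10) (nat_lit 4) (nat_lit 8) (nat_lit 4) (nat_lit 331) (nat_lit 312) (nat_lit 137))) (XT.nd (nat_lit 546) (nat_lit 228) (nat_lit 0) (XT.lf (nat_lit 0) (nat_lit 8271319198392) (nat_lit 76) (nat_lit 20514015749396) (nat_lit 76) (nat_lit 6038984879454) (nat_lit 7) (nat_lit 4) (nat_lit 8) (nat_lit 5) (nat_lit 8) (nat_lit 4) (nat_lit 332) (nat_lit 312) (nat_lit 136)) (XT.nd (nat_lit 78) (nat_lit 0) (nat_lit 0) (XT.lf (nat_lit 0) (nat_lit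 39495747394772) (nat_lit 76) (nat_lit 25326282762633) (nat_lit 76) (nat_lit 12739299397304) (nat_lit 4) (nat_lit 4) (nat_lit 5) (nat_lit 5) (nat_lit 5) (nat_lit 4) (nat_lit 339) (nat_lit 312) (nat_lit 129)) (XT.lf (nat_lit 0) (nat_lit 65610551560218) (nat_lit 76) (nat_lit 17310787766163) (nat_lit 76) (nat_lit 4723804400820) (nat_lit 4) (nat_lit 4) (nat_lit 5) (nat_lit 5) (nat_lit 5) (nat_lit 4) (nat_lit 340) (nat_lit 312) (nat_lit 128)))))) (XT.nd (nat_lit 390) (nat_lit 380) (nat_lit 0) (XT.nd (nat_lit 156) (nat_lit 0) (nat_lit 76) (XT.nd (nat_lit 78) (nat_lit 0) (nat_lit 0) (XT.lf (nat_lit 0) (nat_lit 470882303082) (nat_lit 380) (nat_lit 1443178808010) (nat_lit 380) (nat_lit 1443178808010) (nat_lit 20) (nat_lit 3) (nat_lit 25) (nat_lit 3) (nat_lit 25) (nat_lit 5) (nat_lit 313) (nat_lit 313) (nat_lit 154)) (XT.lf (nat_lit 76) (nat_lit 239441038113) (nat_lit 0) (nat_lit 782870657605)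 (nat_lit 380) (nat_lit 6194266918731) (nat_lit 21) (nat_lit 5) (nat_lit 20) (nat_lit 3) (nat_lit 25) (nat_lit 5) (nat_lit 314) (nat_lit 313) (nat_lit 153))) (XT.nd (nat_lit 78) (nat_lit 0) (nat_lit 0) (XT.lf (nat_lit 0) (nat_lit 1385598264157) (nat_lit 304) (nat_lit 3732643443879) (nat_lit 380) (nat_lit 2635151886779) (nat_lit 21) (nat_lit 5) (nat_lit 25) (nat_lit 5) (nat_lit 26) (nat_lit 5) (nat_lit 315) (nat_lit 313) (nat_lit 152)) (XT.nd (nat_lit 78) (nat_lit 0) (nat_lit 76) (XT.lf (nat_lit 0) (nat_lit 1840657372781) (nat_lit 304) (nat_lit 38754746840) (nat_lit 380) (nat_lit 6485726769378) (nat_lit 21) (nat_lit 5) (nat_lit 25) (nat_lit 5) (nat_lit 26) (nat_lit 5) (nat_lit 316) (nat_lit 313) (nat_lit 151)) (XT.lf (nat_lit 0) (nat_lit 2640821796790) (nat_lit 304) (nat_lit 4504892583808) (nat_lit 76) (nat_lit 1881404629350) (nat_lit 22) (nat_lit 5) (nat_lit 26) (nat_lit 5) (nat_lit 23)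 (nat_lit 5) (nat_lit 317) (nat_lit 313) (nat_lit 150))))) (XT.nd (nat_lit 156) (nat_lit 228) (nat_lit 0) (XT.nd (nat_lit 78) (nat_lit 304) (nat_lit 0) (XT.lf (nat_lit 0) (nat_lit 3652628983216) (nat_lit 304) (nat_lit 105974279278) (nat_lit 76) (nat_lit 6016050171723) (nat_lit 22) (nat_lit 5) (nat_lit 26) (nat_lit 5) (nat_lit 23) (nat_lit 5) (nat_lit 318) (nat_lit 313) (nat_lit 149)) (XT.lf (nat_lit 0) (nat_lit 5057709258222) (nat_lit 380) (nat_lit 5180120996495) (nat_lit 76) (nat_lit 360262465817) (nat_lit 18) (nat_lit 5) (nat_lit 23) (nat_lit 5) (nat_lit 19) (nat_lit 5) (nat_lit 319) (nat_lit 313) (nat_lit 148))) (XT.nd (nat_lit 78) (nat_lit 76) (nat_lit 0) (XT.lf (nat_lit 0) (nat_lit 64719617876) (nat_lit 152) (nat_lit 6796296318964) (nat_lit 228) (nat_lit 4655912308606) (nat_lit 16) (nat_lit 5) (nat_lit 18) (nat_lit 5) (nat_lit 19) (nat_lit 5) (nat_lit 320) (nat_lit 313) (nat_lit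 147)) (XT.nd (nat_lit 78) (nat_lit 76) (nat_lit 0) (XT.lf (nat_lit 0) (nat_lit 6678461286251) (nat_lit 152) (nat_lit 2527136382973) (nat_lit 228) (nat_lit 3327374572075) (nat_lit 16) (nat_lit 5) (nat_lit 18) (nat_lit 5) (nat_lit 19) (nat_lit 5) (nat_lit 321) (nat_lit 313) (nat_lit 146)) (XT.lf (nat_lit 0) (nat_lit 531510068128) (nat_lit 76) (nat_lit 11491015293507) (nat_lit 152) (nat_lit 1660798669870) (nat_lit 15) (nat_lit 5) (nat_lit 16) (nat_lit 5) (nat_lit 17) (nat_lit 4) (nat_lit 322) (nat_lit 313) (nat_lit 145))))))))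
noncomputable def xc124 : XT := (XT.nd (nat_lit 40326) (nat_lit 0) (nat_lit 0) (XT.nd (nat_lit 702) (nat_lit 304) (nat_lit 0) (XT.nd (nat_lit 312) (nat_lit 228) (nat_lit 0) (XT.nd (nat_lit 156) (nat_lit 76) (nat_lit 0) (XT.nd (nat_lit 78) (nat_lit 152) (nat_lit 0) (XT.lf (nat_lit 0) (nat_lit 673937770795) (nat_lit 152) (nat_lit 6572425830958) (nat_lit 76) (nat_lit 7692134794739) (nat_lit 14) (nat_lit 5) (nat_lit 16) (nat_lit 5) (nat_lit 15) (nat_lit 5) (nat_lit 323) (nat_lit 313) (nat_lit 144)) (XT.lf (nat_lit 0) (nat_lit 1004184300752) (nat_lit 152) (nat_lit 2226247357653) (nat_lit 228) (nat_lit 13133417240623) (nat_lit 12) (nat_lit 5) (nat_lit 14) (nat_lit 5) (nat_lit 15) (nat_lit 5) (nat_lit 324) (nat_lit 313) (nat_lit 143))) (XT.nd (nat_lit 78) (nat_lit 76) (nat_lit 0) (XT.lf (nat_lit 0) (nat_lit 6677187185371) (nat_lit 228) (nat_lit 7658760125311) (nat_lit 76) (nat_lit 3591036532832)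 (nat_lit 12) (nat_lit 5) (nat_lit 15) (nat_lit 5) (nat_lit 13) (nat_lit 4) (nat_lit 325) (nat_lit 313) (nat_lit 142)) (XT.lf (nat_lit 0) (nat_lit 1197914908413) (nat_lit 76) (nat_lit 9598656013630) (nat_lit 152) (nat_lit 8904675875530) (nat_lit 11) (nat_lit 5) (nat_lit 12) (nat_lit 5) (nat_lit 13) (nat_lit 4) (nat_lit 326) (nat_lit 313) (nat_lit 141)))) (XT.nd (nat_lit 156) (nat_lit 152) (nat_lit 0) (XT.nd (nat_lit 78) (nat_lit 76) (nat_lit 0) (XT.lf (nat_lit 0) (nat_lit 12243831397534) (nat_lit 76) (nat_lit 3690375100892) (nat_lit 152) (nat_lit 5747391054433) (nat_lit 11) (nat_lit 5) (nat_lit 12) (nat_lit 5) (nat_lit 13) (nat_lit 4) (nat_lit 327) (nat_lit 313) (nat_lit 140)) (XT.lf (nat_lit 0) (nat_lit 943055624572) (nat_lit 76) (nat_lit 21067017855926) (nat_lit 76) (nat_lit 1923789530556) (nat_lit 10) (nat_lit 4) (nat_lit 11) (nat_lit 5) (nat_lit 11) (nat_lit 4) (nat_lit 328) (nat_lit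 313) (nat_lit 139))) (XT.nd (nat_lit 78) (nat_lit 76) (nat_lit 0) (XT.lf (nat_lit 0) (nat_lit 2945719502561) (nat_lit 152) (nat_lit 12809931394931) (nat_lit 76) (nat_lit 10649070624481) (nat_lit 9) (nat_lit 5) (nat_lit 11) (nat_lit 5) (nat_lit 10) (nat_lit 4) (nat_lit 329) (nat_lit 313) (nat_lit 138)) (XT.nd (nat_lit 78) (nat_lit 76) (nat_lit 0) (XT.lf (nat_lit 0) (nat_lit 8348695486277) (nat_lit 152) (nat_lit 1193533030000) (nat_lit 76) (nat_lit 19690238939469) (nat_lit 9) (nat_lit 5) (nat_lit 11) (nat_lit 5) (nat_lit 10) (nat_lit 4) (nat_lit 330) (nat_lit 313) (nat_lit 137)) (XT.lf (nat_lit 0) (nat_lit 13354209132437) (nat_lit 76) (nat_lit 1760878057324) (nat_lit 152) (nat_lit 17286342691496) (nat_lit 8) (nat_lit 5) (nat_lit 9) (nat_lit 5) (nat_lit 10) (nat_lit 4) (nat_lit 331) (nat_lit 313) (nat_lit 136)))))) (XT.nd (nat_lit 39234) (nat_lit 0) (nat_lit 1216) (XT.nd (nat_lit 546) (nat_lit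 76) (nat_lit 0) (XT.nd (nat_lit 468) (nat_lit 228) (nat_lit 0) (XT.lf (nat_lit 0) (nat_lit 23259424083617) (nat_lit 152) (nat_lit 6118726038648) (nat_lit 0) (nat_lit 6613138583100) (nat_lit 8) (nat_lit 5) (nat_lit 10) (nat_lit 4) (nat_lit 8) (nat_lit 4) (nat_lit 332) (nat_lit 313) (nat_lit 135)) (XT.lf (nat_lit 0) (nat_lit 40848415883839) (nat_lit 152) (nat_lit 3100241842261) (nat_lit 0) (nat_lit 26373385013695) (nat_lit 5) (nat_lit 5) (nat_lit 7) (nat_lit 4) (nat_lit 5) (nat_lit 4) (nat_lit 338) (nat_lit 313) (nat_lit 129))) (XT.nd (nat_lit 78) (nat_lit 0) (nat_lit 0) (XT.lf (nat_lit 0) (nat_lit 19305305338974) (nat_lit 76) (nat_lit 37140720173287) (nat_lit 76) (nat_lit 22665689303130) (nat_lit 4) (nat_lit 4) (nat_lit 5) (nat_lit 5) (nat_lit 5) (nat_lit 4) (nat_lit 339) (nat_lit 313) (nat_lit 128)) (XT.lf (nat_lit 0) (nat_lit 45420109504402) (nat_lit 76) (nat_lit 29125225176825) (nat_lit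 76) (nat_lit 14650194306657) (nat_lit 4) (nat_lit 4) (nat_lit 5) (nat_lit 5) (nat_lit 5) (nat_lit 4) (nat_lit 340) (nat_lit 313) (nat_lit 127)))) (XT.nd (nat_lit 156) (nat_lit 0) (nat_lit 76) (XT.nd (nat_lit 78) (nat_lit 0) (nat_lit 0) (XT.lf (nat_lit 0) (nat_lit 541514649803) (nat_lit 380) (nat_lit 1659655628485) (nat_lit 380) (nat_lit 1659655628485) (nat_lit 20) (nat_lit 3) (nat_lit 25) (nat_lit 3) (nat_lit 25) (nat_lit 5) (nat_lit 314) (nat_lit 314) (nat_lit 152)) (XT.lf (nat_lit 76) (nat_lit 275357195217) (nat_lit 0) (nat_lit 900301257106) (nat_lit 380) (nat_lit 7123406953948) (nat_lit 21) (nat_lit 5) (nat_lit 20) (nat_lit 3) (nat_lit 25) (nat_lit 5) (nat_lit 315) (nat_lit 314) (nat_lit 151))) (XT.nd (nat_lit 78) (nat_lit 0) (nat_lit 0) (XT.lf (nat_lit 0) (nat_lit 1593438005703) (nat_lit 304) (nat_lit 4292539958922) (nat_lit 380) (nat_lit 3030424669115) (nat_lit 21) (nat_lit 5) (nat_lit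 25) (nat_lit 5) (nat_lit 26) (nat_lit 5) (nat_lit 316) (nat_lit 314) (nat_lit 150)) (XT.nd (nat_lit 78) (nat_lit 0) (nat_lit 76) (XT.lf (nat_lit 0) (nat_lit 2116755980369) (nat_lit 304) (nat_lit 44567957529) (nat_lit 380) (nat_lit 7458585784193) (nat_lit 21) (nat_lit 5) (nat_lit 25) (nat_lit 5) (nat_lit 26) (nat_lit 5) (nat_lit 317) (nat_lit 314) (nat_lit 149)) (XT.lf (nat_lit 0) (nat_lit 3036945067805) (nat_lit 304) (nat_lit 5180626469861) (nat_lit 76) (nat_lit 2163615323543) (nat_lit 22) (nat_lit 5) (nat_lit 26) (nat_lit 5) (nat_lit 23) (nat_lit 5) (nat_lit 318) (nat_lit 314) (nat_lit 148))))))) (XT.nd (nat_lit 1404) (nat_lit 532) (nat_lit 0) (XT.nd (nat_lit 312) (nat_lit 380) (nat_lit 0) (XT.nd (nat_lit 156) (nat_lit 152) (nat_lit 0) (XT.nd (nat_lit 78) (nat_lit 304) (nat_lit 0) (XT.lf (nat_lit 0) (nat_lit 4200523332000) (nat_lit 304) (nat_lit 121870419849) (nat_lit 76) (nat_lit 6918457697299)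 (nat_lit 22) (nat_lit 5) (nat_lit 26) (nat_lit 5) (nat_lit 23) (nat_lit 5) (nat_lit 319) (nat_lit 314) (nat_lit 147)) (XT.lf (nat_lit 0) (nat_lit 5816365648143) (nat_lit 380) (nat_lit 5957139144530) (nat_lit 76) (nat_lit 414301835759) (nat_lit 18) (nat_lit 5) (nat_lit 23) (nat_lit 5) (nat_lit 19) (nat_lit 5) (nat_lit 320) (nat_lit 314) (nat_lit 146))) (XT.nd (nat_lit 78) (nat_lit 0) (nat_lit 0) (XT.lf (nat_lit 0) (nat_lit 74427561932) (nat_lit 152) (nat_lit 7815740766523) (nat_lit 228) (nat_lit 5354299153640) (nat_lit 16) (nat_lit 5) (nat_lit 18) (nat_lit 5) (nat_lit 19) (nat_lit 5) (nat_lit 321) (nat_lit 314) (nat_lit 145)) (XT.lf (nat_lit 0) (nat_lit 7680230480384) (nat_lit 152) (nat_lit 2906206840171) (nat_lit 228) (nat_lit 3826480756793) (nat_lit 16) (nat_lit 5) (nat_lit 18) (nat_lit 5) (nat_lit 19) (nat_lit 5) (nat_lit 322) (nat_lit 314) (nat_lit 144)))) (XT.nd (nat_lit 156) (nat_lit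 228) (nat_lit 0) (XT.nd (nat_lit 78) (nat_lit 76) (nat_lit 0) (XT.lf (nat_lit 0) (nat_lit 611236579618) (nat_lit 76) (nat_lit 13214667587148) (nat_lit 152) (nat_lit 1909918469329) (nat_lit 15) (nat_lit 5) (nat_lit 16) (nat_lit 5) (nat_lit 17) (nat_lit 4) (nat_lit 323) (nat_lit 314) (nat_lit 143)) (XT.lf (nat_lit 0) (nat_lit 775028437223) (nat_lit 152) (nat_lit 7558289704416) (nat_lit 76) (nat_lit 8845955014203) (nat_lit 14) (nat_lit 5) (nat_lit 16) (nat_lit 5) (nat_lit 15) (nat_lit 5) (nat_lit 324) (nat_lit 314) (nat_lit 142))) (XT.nd (nat_lit 78) (nat_lit 76) (nat_lit 0) (XT.lf (nat_lit 0) (nat_lit 1154811946997) (nat_lit 152) (nat_lit 2560184460920) (nat_lit 228) (nat_lit 15103429825851) (nat_lit 12) (nat_lit 5) (nat_lit 14) (nat_lit 5) (nat_lit 15) (nat_lit 5) (nat_lit 325) (nat_lit 314) (nat_lit 141)) (XT.nd (nat_lit 78) (nat_lit 76) (nat_lit 0) (XT.lf (nat_lit 0) (nat_lit 7678765263843)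 (nat_lit 228) (nat_lit 8807574143038) (nat_lit 76) (nat_lit 4129692013059) (nat_lit 12) (nat_lit 5) (nat_lit 15) (nat_lit 5) (nat_lit 13) (nat_lit 4) (nat_lit 326) (nat_lit 314) (nat_lit 140)) (XT.lf (nat_lit 0) (nat_lit 1377602145696) (nat_lit 76) (nat_lit 11038454415274) (nat_lit 152) (nat_lit 10240377256144) (nat_lit 11) (nat_lit 5) (nat_lit 12) (nat_lit 5) (nat_lit 13) (nat_lit 4) (nat_lit 327) (nat_lit 314) (nat_lit 139)))))) (XT.nd (nat_lit 39000) (nat_lit 0) (nat_lit 1216) (XT.nd (nat_lit 156) (nat_lit 76) (nat_lit 0) (XT.nd (nat_lit 78) (nat_lit 0) (nat_lit 0) (XT.lf (nat_lit 0) (nat_lit 19309444421871) (nat_lit 152) (nat_lit 42240703434213) (nat_lit 0) (nat_lit 2663158921191) (nat_lit 5) (nat_lit 5) (nat_lit 7) (nat_lit 4) (nat_lit 5) (nat_lit 4) (nat_lit 337) (nat_lit 314) (nat_lit 129)) (XT.lf (nat_lit 0) (nat_lit 32177460163618) (nat_lit 152) (nat_lit 24252133519783) (nat_lit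 0) (nat_lit 15531174662925) (nat_lit 5) (nat_lit 5) (nat_lit 7) (nat_lit 4) (nat_lit 5) (nat_lit 4) (nat_lit 338) (nat_lit 314) (nat_lit 128))) (XT.nd (nat_lit 78) (nat_lit 76) (nat_lit 0) (XT.lf (nat_lit 0) (nat_lit 46975678266608) (nat_lit 152) (nat_lit 3565278118224) (nat_lit 0) (nat_lit 30329392765904) (nat_lit 5) (nat_lit 5) (nat_lit 7) (nat_lit 4) (nat_lit 5) (nat_lit 4) (nat_lit 339) (nat_lit 314) (nat_lit 127)) (XT.nd (nat_lit 38688) (nat_lit 0) (nat_lit 1216) (XT.lf (nat_lit 0) (nat_lit 22201101140180) (nat_lit 76) (nat_lit 42711828199103) (nat_lit 76) (nat_lit 26065542698389) (nat_lit 4) (nat_lit 4) (nat_lit 5) (nat_lit 5) (nat_lit 5) (nat_lit 4) (nat_lit 340) (nat_lit 314) (nat_lit 126)) (XT.lf (nat_lit 0) (nat_lit 622741848225) (nat_lit 380) (nat_lit 1908603972208) (nat_lit 380) (nat_lit 1908603972208) (nat_lit 20) (nat_lit 3) (nat_lit 25) (nat_lit 3) (nat_lit 25) (nat_lit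 5) (nat_lit 315) (nat_lit 315) (nat_lit 150))))) (XT.nd (nat_lit 156) (nat_lit 0) (nat_lit 76) (XT.nd (nat_lit 78) (nat_lit 0) (nat_lit 76) (XT.lf (nat_lit 76) (nat_lit 316660775548) (nat_lit 0) (nat_lit 1035346446321) (nat_lit 380) (nat_lit 8191917995079) (nat_lit 21) (nat_lit 5) (nat_lit 20) (nat_lit 3) (nat_lit 25) (nat_lit 5) (nat_lit 316) (nat_lit 315) (nat_lit 149)) (XT.lf (nat_lit 0) (nat_lit 1832453708013) (nat_lit 304) (nat_lit 4936420951597) (nat_lit 380) (nat_lit 3484988368968) (nat_lit 21) (nat_lit 5) (nat_lit 25) (nat_lit 5) (nat_lit 26) (nat_lit 5) (nat_lit 317) (nat_lit 315) (nat_lit 148))) (XT.nd (nat_lit 78) (nat_lit 0) (nat_lit 76) (XT.lf (nat_lit 0) (nat_lit 2434269378689) (nat_lit 304) (nat_lit 51253150147) (nat_lit 380) (nat_lit 8577373651375) (nat_lit 21) (nat_lit 5) (nat_lit 25) (nat_lit 5) (nat_lit 26) (nat_lit 5) (nat_lit 318) (nat_lit 315) (nat_lit 147)) (XT.nd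 (nat_lit 78) (nat_lit 0) (nat_lit 0) (XT.lf (nat_lit 0) (nat_lit 3492486829108) (nat_lit 304) (nat_lit 5957720439191) (nat_lit 76) (nat_lit 2488157621917) (nat_lit 22) (nat_lit 5) (nat_lit 26) (nat_lit 5) (nat_lit 23) (nat_lit 5) (nat_lit 319) (nat_lit 315) (nat_lit 146)) (XT.lf (nat_lit 0) (nat_lit 4830601832785) (nat_lit 304) (nat_lit 140150981828) (nat_lit 76) (nat_lit 7956226351757) (nat_lit 22) (nat_lit 5) (nat_lit 26) (nat_lit 5) (nat_lit 23) (nat_lit 5) (nat_lit 320) (nat_lit 315) (nat_lit 145))))))))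
noncomputable def xc125 : XT := (XT.nd (nat_lit 40794) (nat_lit 0) (nat_lit 0) (XT.nd (nat_lit 1404) (nat_lit 0) (nat_lit 0) (XT.nd (nat_lit 312) (nat_lit 760) (nat_lit 0) (XT.nd (nat_lit 156) (nat_lit 76) (nat_lit 0) (XT.nd (nat_lit 78) (nat_lit 152) (nat_lit 0) (XT.lf (nat_lit 0) (nat_lit 6688820496262) (nat_lit 380) (nat_lit 6850710015121) (nat_lit 76) (nat_lit 476447111176) (nat_lit 18) (nat_lit 5) (nat_lit 23) (nat_lit 5) (nat_lit 19) (nat_lit 5) (nat_lit 321) (nat_lit 315) (nat_lit 144)) (XT.lf (nat_lit 0) (nat_lit 85591697262) (nat_lit 152) (nat_lit 8988101881286) (nat_lit 228) (nat_lit 6157444025736) (nat_lit 16) (nat_lit 5) (nat_lit 18) (nat_lit 5) (nat_lit 19) (nat_lit 5) (nat_lit 322) (nat_lit 315) (nat_lit 143))) (XT.nd (nat_lit 78) (nat_lit 76) (nat_lit 0) (XT.lf (nat_lit 0) (nat_lit 8832265053345) (nat_lit 152) (nat_lit 3342137866010) (nat_lit 228) (nat_lit 4400452869485)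 (nat_lit 16) (nat_lit 5) (nat_lit 18) (nat_lit 5) (nat_lit 19) (nat_lit 5) (nat_lit 323) (nat_lit 315) (nat_lit 142)) (XT.lf (nat_lit 0) (nat_lit 702922067521) (nat_lit 76) (nat_lit 15196867724929) (nat_lit 152) (nat_lit 2196406238956) (nat_lit 15) (nat_lit 5) (nat_lit 16) (nat_lit 5) (nat_lit 17) (nat_lit 4) (nat_lit 324) (nat_lit 315) (nat_lit 141)))) (XT.nd (nat_lit 858) (nat_lit 532) (nat_lit 0) (XT.nd (nat_lit 78) (nat_lit 152) (nat_lit 0) (XT.lf (nat_lit 0) (nat_lit 891282703419) (nat_lit 152) (nat_lit 8692033159181) (nat_lit 76) (nat_lit 10172848266525) (nat_lit 14) (nat_lit 5) (nat_lit 16) (nat_lit 5) (nat_lit 15) (nat_lit 5) (nat_lit 325) (nat_lit 315) (nat_lit 140)) (XT.lf (nat_lit 0) (nat_lit 1328033739903) (nat_lit 152) (nat_lit 2944212129769) (nat_lit 228) (nat_lit 17368944299075) (nat_lit 12) (nat_lit 5) (nat_lit 14) (nat_lit 5) (nat_lit 15) (nat_lit 5) (nat_lit 326) (nat_lit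 315) (nat_lit 139))) (XT.nd (nat_lit 78) (nat_lit 76) (nat_lit 0) (XT.lf (nat_lit 0) (nat_lit 94059465542) (nat_lit 152) (nat_lit 21812484723750) (nat_lit 76) (nat_lit 37162504977802) (nat_lit 6) (nat_lit 5) (nat_lit 8) (nat_lit 5) (nat_lit 7) (nat_lit 4) (nat_lit 336) (nat_lit 315) (nat_lit 129)) (XT.nd (nat_lit 78) (nat_lit 76) (nat_lit 0) (XT.lf (nat_lit 0) (nat_lit 9824128079347) (nat_lit 152) (nat_lit 892837204083) (nat_lit 76) (nat_lit 55307933530995) (nat_lit 6) (nat_lit 5) (nat_lit 8) (nat_lit 5) (nat_lit 7) (nat_lit 4) (nat_lit 337) (nat_lit 315) (nat_lit 128)) (XT.lf (nat_lit 0) (nat_lit 22205861085345) (nat_lit 152) (nat_lit 48576808948968) (nat_lit 0) (nat_lit 3062632759524) (nat_lit 5) (nat_lit 5) (nat_lit 7) (nat_lit 4) (nat_lit 5) (nat_lit 4) (nat_lit 338) (nat_lit 315) (nat_lit 127)))))) (XT.nd (nat_lit 39000) (nat_lit 0) (nat_lit 988) (XT.nd (nat_lit 38844) (nat_lit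 0) (nat_lit 1140) (XT.nd (nat_lit 78) (nat_lit 0) (nat_lit 0) (XT.lf (nat_lit 0) (nat_lit 37004079188328) (nat_lit 152) (nat_lit 27889953547423) (nat_lit 0) (nat_lit 17860850862498) (nat_lit 5) (nat_lit 5) (nat_lit 7) (nat_lit 4) (nat_lit 5) (nat_lit 4) (nat_lit 339) (nat_lit 315) (nat_lit 126)) (XT.lf (nat_lit 0) (nat_lit 54022030006745) (nat_lit 152) (nat_lit 4100069835672) (nat_lit 0) (nat_lit 34878801680906) (nat_lit 5) (nat_lit 5) (nat_lit 7) (nat_lit 4) (nat_lit 5) (nat_lit 4) (nat_lit 340) (nat_lit 315) (nat_lit 125))) (XT.nd (nat_lit 78) (nat_lit 0) (nat_lit 0) (XT.lf (nat_lit 0) (nat_lit 716153126179) (nat_lit 380) (nat_lit 2194894567624) (nat_lit 380) (nat_lit 2194894567624) (nat_lit 20) (nat_lit 3) (nat_lit 25) (nat_lit 3) (nat_lit 25) (nat_lit 5) (nat_lit 316) (nat_lit 316) (nat_lit 148)) (XT.lf (nat_lit 76) (nat_lit 364159892673) (nat_lit 0) (nat_lit 1190648413761) (nat_lit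 380) (nat_lit 9420705692859) (nat_lit 21) (nat_lit 5) (nat_lit 20) (nat_lit 3) (nat_lit 25) (nat_lit 5) (nat_lit 317) (nat_lit 316) (nat_lit 147)))) (XT.nd (nat_lit 156) (nat_lit 228) (nat_lit 0) (XT.nd (nat_lit 78) (nat_lit 0) (nat_lit 0) (XT.lf (nat_lit 0) (nat_lit 2107321765314) (nat_lit 304) (nat_lit 5676884093458) (nat_lit 380) (nat_lit 4007736623924) (nat_lit 21) (nat_lit 5) (nat_lit 25) (nat_lit 5) (nat_lit 26) (nat_lit 5) (nat_lit 318) (nat_lit 316) (nat_lit 146)) (XT.lf (nat_lit 0) (nat_lit 2799409786448) (nat_lit 304) (nat_lit 58941121904) (nat_lit 380) (nat_lit 9863979698742) (nat_lit 21) (nat_lit 5) (nat_lit 25) (nat_lit 5) (nat_lit 26) (nat_lit 5) (nat_lit 319) (nat_lit 316) (nat_lit 145))) (XT.nd (nat_lit 78) (nat_lit 304) (nat_lit 0) (XT.lf (nat_lit 0) (nat_lit 4016359854330) (nat_lit 304) (nat_lit 6851378504202) (nat_lit 76) (nat_lit 2861381265085) (nat_lit 22) (nat_lit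 5) (nat_lit 26) (nat_lit 5) (nat_lit 23) (nat_lit 5) (nat_lit 320) (nat_lit 316) (nat_lit 144)) (XT.nd (nat_lit 78) (nat_lit 304) (nat_lit 0) (XT.lf (nat_lit 0) (nat_lit 5555192108447) (nat_lit 304) (nat_lit 161173628348) (nat_lit 76) (nat_lit 9149660304416) (nat_lit 22) (nat_lit 5) (nat_lit 26) (nat_lit 5) (nat_lit 23) (nat_lit 5) (nat_lit 321) (nat_lit 316) (nat_lit 143)) (XT.lf (nat_lit 0) (nat_lit 7692143571380) (nat_lit 380) (nat_lit 7878316516566) (nat_lit 76) (nat_lit 547914177892) (nat_lit 18) (nat_lit 5) (nat_lit 23) (nat_lit 5) (nat_lit 19) (nat_lit 5) (nat_lit 322) (nat_lit 316) (nat_lit 142))))))) (XT.nd (nat_lit 40170) (nat_lit 0) (nat_lit 760) (XT.nd (nat_lit 1014) (nat_lit 684) (nat_lit 0) (XT.nd (nat_lit 156) (nat_lit 152) (nat_lit 0) (XT.nd (nat_lit 78) (nat_lit 0) (nat_lit 0) (XT.lf (nat_lit 0) (nat_lit 98430452637) (nat_lit 152) (nat_lit 10336317163316) (nat_lit 228)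 (nat_lit 7081060628878) (nat_lit 16) (nat_lit 5) (nat_lit 18) (nat_lit 5) (nat_lit 19) (nat_lit 5) (nat_lit 323) (nat_lit 316) (nat_lit 141)) (XT.lf (nat_lit 0) (nat_lit 10157104812030) (nat_lit 152) (nat_lit 3843458545770) (nat_lit 228) (nat_lit 5060520799283) (nat_lit 16) (nat_lit 5) (nat_lit 18) (nat_lit 5) (nat_lit 19) (nat_lit 5) (nat_lit 324) (nat_lit 316) (nat_lit 140))) (XT.nd (nat_lit 78) (nat_lit 76) (nat_lit 0) (XT.lf (nat_lit 0) (nat_lit 808360378375) (nat_lit 76) (nat_lit 17476397883449) (nat_lit 152) (nat_lit 2525867174216) (nat_lit 15) (nat_lit 5) (nat_lit 16) (nat_lit 5) (nat_lit 17) (nat_lit 4) (nat_lit 325) (nat_lit 316) (nat_lit 139)) (XT.lf (nat_lit 0) (nat_lit 1024975109394) (nat_lit 152) (nat_lit 9995838132381) (nat_lit 76) (nat_lit 11698775506649) (nat_lit 14) (nat_lit 5) (nat_lit 16) (nat_lit 5) (nat_lit 15) (nat_lit 5) (nat_lit 326) (nat_lit 316) (nat_lit 138))))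 (XT.nd (nat_lit 156) (nat_lit 76) (nat_lit 0) (XT.nd (nat_lit 78) (nat_lit 76) (nat_lit 0) (XT.lf (nat_lit 0) (nat_lit 14466588976683) (nat_lit 76) (nat_lit 35879141756911) (nat_lit 76) (nat_lit 10562222296013) (nat_lit 7) (nat_lit 4) (nat_lit 8) (nat_lit 5) (nat_lit 8) (nat_lit 4) (nat_lit 336) (nat_lit 316) (nat_lit 128)) (XT.lf (nat_lit 0) (nat_lit 108168385545) (nat_lit 152) (nat_lit 25084357431988) (nat_lit 76) (nat_lit 42736880724599) (nat_lit 6) (nat_lit 5) (nat_lit 8) (nat_lit 5) (nat_lit 7) (nat_lit 4) (nat_lit 337) (nat_lit 316) (nat_lit 127))) (XT.nd (nat_lit 78) (nat_lit 76) (nat_lit 0) (XT.lf (nat_lit 0) (nat_lit 11297747291399) (nat_lit 152) (nat_lit 1026762784414) (nat_lit 76) (nat_lit 63604123560754) (nat_lit 6) (nat_lit 5) (nat_lit 8) (nat_lit 5) (nat_lit 7) (nat_lit 4) (nat_lit 338) (nat_lit 316) (nat_lit 126)) (XT.nd (nat_lit 78) (nat_lit 0) (nat_lit 0) (XT.lf (nat_lit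 0) (nat_lit 25536740248293) (nat_lit 152) (nat_lit 55863330291029) (nat_lit 0) (nat_lit 3522027673570) (nat_lit 5) (nat_lit 5) (nat_lit 7) (nat_lit 4) (nat_lit 5) (nat_lit 4) (nat_lit 339) (nat_lit 316) (nat_lit 125)) (XT.lf (nat_lit 0) (nat_lit 42554691066705) (nat_lit 152) (nat_lit 32073446579289) (nat_lit 0) (nat_lit 20539978491974) (nat_lit 5) (nat_lit 5) (nat_lit 7) (nat_lit 4) (nat_lit 5) (nat_lit 4) (nat_lit 340) (nat_lit 316) (nat_lit 124)))))) (XT.nd (nat_lit 390) (nat_lit 380) (nat_lit 0) (XT.nd (nat_lit 156) (nat_lit 0) (nat_lit 76) (XT.nd (nat_lit 78) (nat_lit 0) (nat_lit 0) (XT.lf (nat_lit 0) (nat_lit 823576095650) (nat_lit 380) (nat_lit 2524128752453) (nat_lit 380) (nat_lit 2524128752453) (nat_lit 20) (nat_lit 3) (nat_lit 25) (nat_lit 3) (nat_lit 25) (nat_lit 5) (nat_lit 317) (nat_lit 317) (nat_lit 146)) (XT.lf (nat_lit 76) (nat_lit 418783877174) (nat_lit 0) (nat_lit 1369245676197)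 (nat_lit 380) (nat_lit 10833811545667) (nat_lit 21) (nat_lit 5) (nat_lit 20) (nat_lit 3) (nat_lit 25) (nat_lit 5) (nat_lit 318) (nat_lit 317) (nat_lit 145))) (XT.nd (nat_lit 78) (nat_lit 0) (nat_lit 0) (XT.lf (nat_lit 0) (nat_lit 2423420030942) (nat_lit 304) (nat_lit 6528416706811) (nat_lit 380) (nat_lit 4608897117218) (nat_lit 21) (nat_lit 5) (nat_lit 25) (nat_lit 5) (nat_lit 26) (nat_lit 5) (nat_lit 319) (nat_lit 317) (nat_lit 144)) (XT.nd (nat_lit 78) (nat_lit 0) (nat_lit 76) (XT.lf (nat_lit 0) (nat_lit 3219321255138) (nat_lit 304) (nat_lit 67782289611) (nat_lit 380) (nat_lit 11343576653298) (nat_lit 21) (nat_lit 5) (nat_lit 25) (nat_lit 5) (nat_lit 26) (nat_lit 5) (nat_lit 320) (nat_lit 317) (nat_lit 143)) (XT.lf (nat_lit 0) (nat_lit 4618813833127) (nat_lit 304) (nat_lit 7879085279176) (nat_lit 76) (nat_lit 3290588454757) (nat_lit 22) (nat_lit 5) (nat_lit 26) (nat_lit 5) (nat_lit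 23) (nat_lit 5) (nat_lit 321) (nat_lit 317) (nat_lit 142))))) (XT.nd (nat_lit 156) (nat_lit 228) (nat_lit 0) (XT.nd (nat_lit 78) (nat_lit 304) (nat_lit 0) (XT.lf (nat_lit 0) (nat_lit 6388470925276) (nat_lit 304) (nat_lit 185349672029) (nat_lit 76) (nat_lit 10522109350000) (nat_lit 22) (nat_lit 5) (nat_lit 26) (nat_lit 5) (nat_lit 23) (nat_lit 5) (nat_lit 322) (nat_lit 317) (nat_lit 141)) (XT.lf (nat_lit 0) (nat_lit 8845965107601) (nat_lit 380) (nat_lit 9060063993429) (nat_lit 76) (nat_lit 630101304606) (nat_lit 18) (nat_lit 5) (nat_lit 23) (nat_lit 5) (nat_lit 19) (nat_lit 5) (nat_lit 323) (nat_lit 317) (nat_lit 140))) (XT.nd (nat_lit 78) (nat_lit 76) (nat_lit 0) (XT.lf (nat_lit 0) (nat_lit 113195021126) (nat_lit 152) (nat_lit 11886764737690) (nat_lit 228) (nat_lit 8143219722666) (nat_lit 16) (nat_lit 5) (nat_lit 18) (nat_lit 5) (nat_lit 19) (nat_lit 5) (nat_lit 324) (nat_lit 317) (nat_lit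 139)) (XT.nd (nat_lit 78) (nat_lit 76) (nat_lit 0) (XT.lf (nat_lit 0) (nat_lit 11680670534352) (nat_lit 152) (nat_lit 4419977327528) (nat_lit 228) (nat_lit 5819598918703) (nat_lit 16) (nat_lit 5) (nat_lit 18) (nat_lit 5) (nat_lit 19) (nat_lit 5) (nat_lit 325) (nat_lit 317) (nat_lit 138)) (XT.lf (nat_lit 0) (nat_lit 929614435681) (nat_lit 76) (nat_lit 20097857565800) (nat_lit 152) (nat_lit 2904747249907) (nat_lit 15) (nat_lit 5) (nat_lit 16) (nat_lit 5) (nat_lit 17) (nat_lit 4) (nat_lit 326) (nat_lit 317) (nat_lit 137))))))))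
noncomputable def xc126 : XT := (XT.nd (nat_lit 80262) (nat_lit 0) (nat_lit 836) (XT.nd (nat_lit 39546) (nat_lit 0) (nat_lit 836) (XT.nd (nat_lit 312) (nat_lit 76) (nat_lit 0) (XT.nd (nat_lit 156) (nat_lit 76) (nat_lit 0) (XT.nd (nat_lit 78) (nat_lit 76) (nat_lit 0) (XT.lf (nat_lit 0) (nat_lit 40680878094905) (nat_lit 152) (nat_lit 10701690081296) (nat_lit 0) (nat_lit 11566420714845) (nat_lit 8) (nat_lit 5) (nat_lit 10) (nat_lit 4) (nat_lit 8) (nat_lit 4) (nat_lit 336) (nat_lit 317) (nat_lit 127)) (XT.lf (nat_lit 0) (nat_lit 16636577323452) (nat_lit 76) (nat_lit 41261013020323) (nat_lit 76) (nat_lit 12146555640252) (nat_lit 7) (nat_lit 4) (nat_lit 8) (nat_lit 5) (nat_lit 8) (nat_lit 4) (nat_lit 337) (nat_lit 317) (nat_lit 126))) (XT.nd (nat_lit 78) (nat_lit 0) (nat_lit 0) (XT.lf (nat_lit 0) (nat_lit 124393643506) (nat_lit 152) (nat_lit 28847011046542) (nat_lit 76) (nat_lit 49147412833385)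 (nat_lit 6) (nat_lit 5) (nat_lit 8) (nat_lit 5) (nat_lit 7) (nat_lit 4) (nat_lit 338) (nat_lit 317) (nat_lit 125)) (XT.lf (nat_lit 0) (nat_lit 12992409385221) (nat_lit 152) (nat_lit 1180777201863) (nat_lit 76) (nat_lit 73144742094951) (nat_lit 6) (nat_lit 5) (nat_lit 8) (nat_lit 5) (nat_lit 7) (nat_lit 4) (nat_lit 339) (nat_lit 317) (nat_lit 124)))) (XT.nd (nat_lit 39000) (nat_lit 0) (nat_lit 1140) (XT.nd (nat_lit 38922) (nat_lit 0) (nat_lit 1140) (XT.lf (nat_lit 0) (nat_lit 29367251285647) (nat_lit 152) (nat_lit 64242829834468) (nat_lit 0) (nat_lit 4050331824693) (nat_lit 5) (nat_lit 5) (nat_lit 7) (nat_lit 4) (nat_lit 5) (nat_lit 4) (nat_lit 340) (nat_lit 317) (nat_lit 123)) (XT.lf (nat_lit 0) (nat_lit 947112510409) (nat_lit 380) (nat_lit 2902748065084) (nat_lit 380) (nat_lit 2902748065084) (nat_lit 20) (nat_lit 3) (nat_lit 25) (nat_lit 3) (nat_lit 25) (nat_lit 5) (nat_lit 318) (nat_lit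 318) (nat_lit 144))) (XT.nd (nat_lit 78) (nat_lit 0) (nat_lit 76) (XT.lf (nat_lit 76) (nat_lit 481601459204) (nat_lit 0) (nat_lit 1574632527907) (nat_lit 380) (nat_lit 12458883276669) (nat_lit 21) (nat_lit 5) (nat_lit 20) (nat_lit 3) (nat_lit 25) (nat_lit 5) (nat_lit 319) (nat_lit 318) (nat_lit 143)) (XT.nd (nat_lit 78) (nat_lit 0) (nat_lit 0) (XT.lf (nat_lit 0) (nat_lit 2786933036212) (nat_lit 304) (nat_lit 7507679212330) (nat_lit 380) (nat_lit 5300231684578) (nat_lit 21) (nat_lit 5) (nat_lit 25) (nat_lit 5) (nat_lit 26) (nat_lit 5) (nat_lit 320) (nat_lit 318) (nat_lit 142)) (XT.lf (nat_lit 0) (nat_lit 3702219443955) (nat_lit 304) (nat_lit 77949632616) (nat_lit 380) (nat_lit 13045113151099) (nat_lit 21) (nat_lit 5) (nat_lit 25) (nat_lit 5) (nat_lit 26) (nat_lit 5) (nat_lit 321) (nat_lit 318) (nat_lit 141)))))) (XT.nd (nat_lit 312) (nat_lit 0) (nat_lit 0) (XT.nd (nat_lit 156) (nat_lit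 456) (nat_lit 0) (XT.nd (nat_lit 78) (nat_lit 0) (nat_lit 0) (XT.lf (nat_lit 0) (nat_lit 5311635908586) (nat_lit 304) (nat_lit 9060948070556) (nat_lit 76) (nat_lit 3784176722902) (nat_lit 22) (nat_lit 5) (nat_lit 26) (nat_lit 5) (nat_lit 23) (nat_lit 5) (nat_lit 322) (nat_lit 318) (nat_lit 140)) (XT.lf (nat_lit 0) (nat_lit 7346741564493) (nat_lit 304) (nat_lit 213152122402) (nat_lit 76) (nat_lit 12100425752441) (nat_lit 22) (nat_lit 5) (nat_lit 26) (nat_lit 5) (nat_lit 23) (nat_lit 5) (nat_lit 323) (nat_lit 318) (nat_lit 139))) (XT.nd (nat_lit 78) (nat_lit 152) (nat_lit 0) (XT.lf (nat_lit 0) (nat_lit 10172859874129) (nat_lit 380) (nat_lit 10419073591972) (nat_lit 76) (nat_lit 724616500320) (nat_lit 18) (nat_lit 5) (nat_lit 23) (nat_lit 5) (nat_lit 19) (nat_lit 5) (nat_lit 324) (nat_lit 318) (nat_lit 138)) (XT.lf (nat_lit 0) (nat_lit 130174274745) (nat_lit 152) (nat_lit 13669779448251)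 (nat_lit 228) (nat_lit 9364702680655) (nat_lit 16) (nat_lit 5) (nat_lit 18) (nat_lit 5) (nat_lit 19) (nat_lit 5) (nat_lit 325) (nat_lit 318) (nat_lit 137)))) (XT.nd (nat_lit 40170) (nat_lit 0) (nat_lit 304) (XT.nd (nat_lit 40092) (nat_lit 0) (nat_lit 304) (XT.lf (nat_lit 0) (nat_lit 13432771114895) (nat_lit 152) (nat_lit 5082973926576) (nat_lit 228) (nat_lit 6692538756152) (nat_lit 16) (nat_lit 5) (nat_lit 18) (nat_lit 5) (nat_lit 19) (nat_lit 5) (nat_lit 326) (nat_lit 318) (nat_lit 136)) (XT.lf (nat_lit 0) (nat_lit 1089179387281) (nat_lit 380) (nat_lit 3338160274667) (nat_lit 380) (nat_lit 3338160274667) (nat_lit 20) (nat_lit 3) (nat_lit 25) (nat_lit 3) (nat_lit 25) (nat_lit 5) (nat_lit 319) (nat_lit 319) (nat_lit 142))) (XT.nd (nat_lit 78) (nat_lit 0) (nat_lit 76) (XT.lf (nat_lit 76) (nat_lit 553841678427) (nat_lit 0) (nat_lit 1810827407306) (nat_lit 380) (nat_lit 14327715767529) (nat_lit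 21) (nat_lit 5) (nat_lit 20) (nat_lit 3) (nat_lit 25) (nat_lit 5) (nat_lit 320) (nat_lit 319) (nat_lit 141)) (XT.nd (nat_lit 78) (nat_lit 0) (nat_lit 0) (XT.lf (nat_lit 0) (nat_lit 3204972992119) (nat_lit 304) (nat_lit 8633831093799) (nat_lit 380) (nat_lit 6095266437097) (nat_lit 21) (nat_lit 5) (nat_lit 25) (nat_lit 5) (nat_lit 26) (nat_lit 5) (nat_lit 321) (nat_lit 319) (nat_lit 140)) (XT.lf (nat_lit 0) (nat_lit 4257552360962) (nat_lit 304) (nat_lit 89642077177) (nat_lit 380) (nat_lit 15001880123618) (nat_lit 21) (nat_lit 5) (nat_lit 25) (nat_lit 5) (nat_lit 26) (nat_lit 5) (nat_lit 322) (nat_lit 319) (nat_lit 139))))))) (XT.nd (nat_lit 40794) (nat_lit 0) (nat_lit 0) (XT.nd (nat_lit 40404) (nat_lit 0) (nat_lit 304) (XT.nd (nat_lit 156) (nat_lit 456) (nat_lit 0) (XT.nd (nat_lit 78) (nat_lit 0) (nat_lit 0) (XT.lf (nat_lit 0) (nat_lit 6108381295243) (nat_lit 304) (nat_lit 10420090280764)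 (nat_lit 76) (nat_lit 4351803231286) (nat_lit 22) (nat_lit 5) (nat_lit 26) (nat_lit 5) (nat_lit 23) (nat_lit 5) (nat_lit 323) (nat_lit 319) (nat_lit 138)) (XT.lf (nat_lit 0) (nat_lit 8448752799489) (nat_lit 304) (nat_lit 245124940436) (nat_lit 76) (nat_lit 13915489615262) (nat_lit 22) (nat_lit 5) (nat_lit 26) (nat_lit 5) (nat_lit 23) (nat_lit 5) (nat_lit 324) (nat_lit 319) (nat_lit 137))) (XT.nd (nat_lit 78) (nat_lit 152) (nat_lit 0) (XT.lf (nat_lit 0) (nat_lit 11698788855542) (nat_lit 380) (nat_lit 11981934630412) (nat_lit 76) (nat_lit 833308975385) (nat_lit 18) (nat_lit 5) (nat_lit 23) (nat_lit 5) (nat_lit 19) (nat_lit 5) (nat_lit 325) (nat_lit 319) (nat_lit 136)) (XT.lf (nat_lit 0) (nat_lit 149700416296) (nat_lit 152) (nat_lit 15720246365418) (nat_lit 228) (nat_lit 10769408082443) (nat_lit 16) (nat_lit 5) (nat_lit 18) (nat_lit 5) (nat_lit 19) (nat_lit 5) (nat_lit 326) (nat_lit 319)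 (nat_lit 135)))) (XT.nd (nat_lit 156) (nat_lit 0) (nat_lit 76) (XT.nd (nat_lit 78) (nat_lit 0) (nat_lit 0) (XT.lf (nat_lit 0) (nat_lit 1252556295609) (nat_lit 380) (nat_lit 3838884315732) (nat_lit 380) (nat_lit 3838884315732) (nat_lit 20) (nat_lit 3) (nat_lit 25) (nat_lit 3) (nat_lit 25) (nat_lit 5) (nat_lit 320) (nat_lit 320) (nat_lit 140)) (XT.lf (nat_lit 76) (nat_lit 636917930451) (nat_lit 0) (nat_lit 2082451518563) (nat_lit 380) (nat_lit 16476873132173) (nat_lit 21) (nat_lit 5) (nat_lit 20) (nat_lit 3) (nat_lit 25) (nat_lit 5) (nat_lit 321) (nat_lit 320) (nat_lit 139))) (XT.nd (nat_lit 78) (nat_lit 0) (nat_lit 0) (XT.lf (nat_lit 0) (nat_lit 3685718941296) (nat_lit 304) (nat_lit 9928905757582) (nat_lit 380) (nat_lit 7009556402535) (nat_lit 21) (nat_lit 5) (nat_lit 25) (nat_lit 5) (nat_lit 26) (nat_lit 5) (nat_lit 322) (nat_lit 320) (nat_lit 138)) (XT.nd (nat_lit 78) (nat_lit 0) (nat_lit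 76) (XT.lf (nat_lit 0) (nat_lit 4896185215419) (nat_lit 304) (nat_lit 103088388504) (nat_lit 380) (nat_lit 17252162142050) (nat_lit 21) (nat_lit 5) (nat_lit 25) (nat_lit 5) (nat_lit 26) (nat_lit 5) (nat_lit 323) (nat_lit 320) (nat_lit 137)) (XT.lf (nat_lit 0) (nat_lit 7024638489810) (nat_lit 304) (nat_lit 11983103822595) (nat_lit 76) (nat_lit 5004573715940) (nat_lit 22) (nat_lit 5) (nat_lit 26) (nat_lit 5) (nat_lit 23) (nat_lit 5) (nat_lit 324) (nat_lit 320) (nat_lit 136)))))) (XT.nd (nat_lit 40482) (nat_lit 0) (nat_lit 152) (XT.nd (nat_lit 156) (nat_lit 152) (nat_lit 0) (XT.nd (nat_lit 78) (nat_lit 304) (nat_lit 0) (XT.lf (nat_lit 0) (nat_lit 9716065719656) (nat_lit 304) (nat_lit 281893681254) (nat_lit 76) (nat_lit 16002813057517) (nat_lit 22) (nat_lit 5) (nat_lit 26) (nat_lit 5) (nat_lit 23) (nat_lit 5) (nat_lit 325) (nat_lit 320) (nat_lit 135)) (XT.lf (nat_lit 0) (nat_lit 13453607184095)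 (nat_lit 380) (nat_lit 13779224824705) (nat_lit 76) (nat_lit 958305321706) (nat_lit 18) (nat_lit 5) (nat_lit 23) (nat_lit 5) (nat_lit 19) (nat_lit 5) (nat_lit 326) (nat_lit 320) (nat_lit 134))) (XT.nd (nat_lit 40170) (nat_lit 0) (nat_lit 304) (XT.lf (nat_lit 0) (nat_lit 172155478998) (nat_lit 152) (nat_lit 18078283320178) (nat_lit 228) (nat_lit 12384819294574) (nat_lit 16) (nat_lit 5) (nat_lit 18) (nat_lit 5) (nat_lit 19) (nat_lit 5) (nat_lit 327) (nat_lit 320) (nat_lit 133)) (XT.nd (nat_lit 78) (nat_lit 0) (nat_lit 0) (XT.lf (nat_lit 0) (nat_lit 1440439740128) (nat_lit 380) (nat_lit 4414716962989) (nat_lit 380) (nat_lit 4414716962989) (nat_lit 20) (nat_lit 3) (nat_lit 25) (nat_lit 3) (nat_lit 25) (nat_lit 5) (nat_lit 321) (nat_lit 321) (nat_lit 138)) (XT.lf (nat_lit 76) (nat_lit 732455620214) (nat_lit 0) (nat_lit 2394819246468) (nat_lit 380) (nat_lit 18948404101633) (nat_lit 21) (nat_lit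 5) (nat_lit 20) (nat_lit 3) (nat_lit 25) (nat_lit 5) (nat_lit 322) (nat_lit 321) (nat_lit 137))))) (XT.nd (nat_lit 156) (nat_lit 228) (nat_lit 0) (XT.nd (nat_lit 78) (nat_lit 0) (nat_lit 0) (XT.lf (nat_lit 0) (nat_lit 4238576782762) (nat_lit 304) (nat_lit 11418241621002) (nat_lit 380) (nat_lit 8060989862818) (nat_lit 21) (nat_lit 5) (nat_lit 25) (nat_lit 5) (nat_lit 26) (nat_lit 5) (nat_lit 323) (nat_lit 321) (nat_lit 136)) (XT.lf (nat_lit 0) (nat_lit 5630612997968) (nat_lit 304) (nat_lit 118551646591) (nat_lit 380) (nat_lit 19839986463274) (nat_lit 21) (nat_lit 5) (nat_lit 25) (nat_lit 5) (nat_lit 26) (nat_lit 5) (nat_lit 324) (nat_lit 321) (nat_lit 135))) (XT.nd (nat_lit 78) (nat_lit 304) (nat_lit 0) (XT.lf (nat_lit 0) (nat_lit 8078334263493) (nat_lit 304) (nat_lit 13780569395769) (nat_lit 76) (nat_lit 5755259773301) (nat_lit 22) (nat_lit 5) (nat_lit 26) (nat_lit 5) (nat_lit 23) (nat_lit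 5) (nat_lit 325) (nat_lit 321) (nat_lit 134)) (XT.nd (nat_lit 78) (nat_lit 304) (nat_lit 0) (XT.lf (nat_lit 0) (nat_lit 11173475577789) (nat_lit 304) (nat_lit 324177733256) (nat_lit 76) (nat_lit 18403235016119) (nat_lit 22) (nat_lit 5) (nat_lit 26) (nat_lit 5) (nat_lit 23) (nat_lit 5) (nat_lit 326) (nat_lit 321) (nat_lit 133)) (XT.lf (nat_lit 0) (nat_lit 15471648261877) (nat_lit 380) (nat_lit 15846108548207) (nat_lit 76) (nat_lit 1102051119972) (nat_lit 18) (nat_lit 5) (nat_lit 23) (nat_lit 5) (nat_lit 19) (nat_lit 5) (nat_lit 327) (nat_lit 321) (nat_lit 132))))))))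
noncomputable def xc127 : XT := (XT.nd (nat_lit 122148) (nat_lit 0) (nat_lit 152) (XT.nd (nat_lit 40872) (nat_lit 0) (nat_lit 152) (XT.nd (nat_lit 312) (nat_lit 152) (nat_lit 0) (XT.nd (nat_lit 156) (nat_lit 0) (nat_lit 76) (XT.nd (nat_lit 78) (nat_lit 0) (nat_lit 0) (XT.lf (nat_lit 0) (nat_lit 1656505701282) (nat_lit 380) (nat_lit 5076924507359) (nat_lit 380) (nat_lit 5076924507359) (nat_lit 20) (nat_lit 3) (nat_lit 25) (nat_lit 3) (nat_lit 25) (nat_lit 5) (nat_lit 322) (nat_lit 322) (nat_lit 136)) (XT.lf (nat_lit 76) (nat_lit 842323963395) (nat_lit 0) (nat_lit 2754042133531) (nat_lit 380) (nat_lit 21790664716601) (nat_lit 21) (nat_lit 5) (nat_lit 20) (nat_lit 3) (nat_lit 25) (nat_lit 5) (nat_lit 323) (nat_lit 322) (nat_lit 135))) (XT.nd (nat_lit 78) (nat_lit 0) (nat_lit 0) (XT.lf (nat_lit 0) (nat_lit 4874363300382) (nat_lit 304) (nat_lit 13130977863988) (nat_lit 380) (nat_lit 9270138342169)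 (nat_lit 21) (nat_lit 5) (nat_lit 25) (nat_lit 5) (nat_lit 26) (nat_lit 5) (nat_lit 324) (nat_lit 322) (nat_lit 134)) (XT.lf (nat_lit 0) (nat_lit 6475204947842) (nat_lit 304) (nat_lit 136334393436) (nat_lit 380) (nat_lit 22815984432702) (nat_lit 21) (nat_lit 5) (nat_lit 25) (nat_lit 5) (nat_lit 26) (nat_lit 5) (nat_lit 325) (nat_lit 322) (nat_lit 133)))) (XT.nd (nat_lit 156) (nat_lit 304) (nat_lit 0) (XT.nd (nat_lit 78) (nat_lit 0) (nat_lit 0) (XT.lf (nat_lit 0) (nat_lit 9290084403177) (nat_lit 304) (nat_lit 15847654804973) (nat_lit 76) (nat_lit 6618548739274) (nat_lit 22) (nat_lit 5) (nat_lit 26) (nat_lit 5) (nat_lit 23) (nat_lit 5) (nat_lit 326) (nat_lit 322) (nat_lit 132)) (XT.lf (nat_lit 0) (nat_lit 12849496914596) (nat_lit 304) (nat_lit 372804393103) (nat_lit 76) (nat_lit 21163720268518) (nat_lit 22) (nat_lit 5) (nat_lit 26) (nat_lit 5) (nat_lit 23) (nat_lit 5) (nat_lit 327) (nat_lit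 322) (nat_lit 131))) (XT.nd (nat_lit 40248) (nat_lit 0) (nat_lit 152) (XT.lf (nat_lit 0) (nat_lit 17792395501286) (nat_lit 380) (nat_lit 18223024830285) (nat_lit 76) (nat_lit 1267358787975) (nat_lit 18) (nat_lit 5) (nat_lit 23) (nat_lit 5) (nat_lit 19) (nat_lit 5) (nat_lit 328) (nat_lit 322) (nat_lit 130)) (XT.nd (nat_lit 78) (nat_lit 0) (nat_lit 0) (XT.lf (nat_lit 0) (nat_lit 1904981556576) (nat_lit 380) (nat_lit 5838463183405) (nat_lit 380) (nat_lit 5838463183405) (nat_lit 20) (nat_lit 3) (nat_lit 25) (nat_lit 3) (nat_lit 25) (nat_lit 5) (nat_lit 323) (nat_lit 323) (nat_lit 134)) (XT.lf (nat_lit 76) (nat_lit 968672558016) (nat_lit 0) (nat_lit 3167148453630) (nat_lit 380) (nat_lit 25059264423882) (nat_lit 21) (nat_lit 5) (nat_lit 20) (nat_lit 3) (nat_lit 25) (nat_lit 5) (nat_lit 324) (nat_lit 323) (nat_lit 133)))))) (XT.nd (nat_lit 40560) (nat_lit 76) (nat_lit 0) (XT.nd (nat_lit 156)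 (nat_lit 0) (nat_lit 76) (XT.nd (nat_lit 78) (nat_lit 0) (nat_lit 0) (XT.lf (nat_lit 0) (nat_lit 5605517795595) (nat_lit 304) (nat_lit 15100624543461) (nat_lit 380) (nat_lit 10660659093439) (nat_lit 21) (nat_lit 5) (nat_lit 25) (nat_lit 5) (nat_lit 26) (nat_lit 5) (nat_lit 325) (nat_lit 323) (nat_lit 132)) (XT.lf (nat_lit 0) (nat_lit 7446485690153) (nat_lit 304) (nat_lit 156784552344) (nat_lit 380) (nat_lit 26238382097559) (nat_lit 21) (nat_lit 5) (nat_lit 25) (nat_lit 5) (nat_lit 26) (nat_lit 5) (nat_lit 326) (nat_lit 323) (nat_lit 131))) (XT.nd (nat_lit 78) (nat_lit 0) (nat_lit 0) (XT.lf (nat_lit 0) (nat_lit 10683597063775) (nat_lit 304) (nat_lit 18224803025596) (nat_lit 76) (nat_lit 7611331050149) (nat_lit 22) (nat_lit 5) (nat_lit 26) (nat_lit 5) (nat_lit 23) (nat_lit 5) (nat_lit 327) (nat_lit 323) (nat_lit 130)) (XT.lf (nat_lit 0) (nat_lit 14776921451891) (nat_lit 304) (nat_lit 428725051962)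 (nat_lit 76) (nat_lit 24338278308781) (nat_lit 22) (nat_lit 5) (nat_lit 26) (nat_lit 5) (nat_lit 23) (nat_lit 5) (nat_lit 328) (nat_lit 323) (nat_lit 129)))) (XT.nd (nat_lit 156) (nat_lit 0) (nat_lit 76) (XT.nd (nat_lit 78) (nat_lit 0) (nat_lit 0) (XT.lf (nat_lit 0) (nat_lit 2190728790139) (nat_lit 380) (nat_lit 6714232660871) (nat_lit 380) (nat_lit 6714232660871) (nat_lit 20) (nat_lit 3) (nat_lit 25) (nat_lit 3) (nat_lit 25) (nat_lit 5) (nat_lit 324) (nat_lit 324) (nat_lit 132)) (XT.lf (nat_lit 76) (nat_lit 1113973441803) (nat_lit 0) (nat_lit 3642220721727) (nat_lit 380) (nat_lit 28818154087306) (nat_lit 21) (nat_lit 5) (nat_lit 20) (nat_lit 3) (nat_lit 25) (nat_lit 5) (nat_lit 325) (nat_lit 324) (nat_lit 131))) (XT.nd (nat_lit 78) (nat_lit 0) (nat_lit 0) (XT.lf (nat_lit 0) (nat_lit 6446345465052) (nat_lit 304) (nat_lit 17365718224887) (nat_lit 380) (nat_lit 12259757957413) (nat_lit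 21) (nat_lit 5) (nat_lit 25) (nat_lit 5) (nat_lit 26) (nat_lit 5) (nat_lit 326) (nat_lit 324) (nat_lit 130)) (XT.nd (nat_lit 78) (nat_lit 0) (nat_lit 76) (XT.lf (nat_lit 0) (nat_lit 8563458543778) (nat_lit 304) (nat_lit 180302235114) (nat_lit 380) (nat_lit 30174139412157) (nat_lit 21) (nat_lit 5) (nat_lit 25) (nat_lit 5) (nat_lit 26) (nat_lit 5) (nat_lit 327) (nat_lit 324) (nat_lit 129)) (XT.lf (nat_lit 0) (nat_lit 12286136623432) (nat_lit 304) (nat_lit 20958523479342) (nat_lit 76) (nat_lit 8753030707658) (nat_lit 22) (nat_lit 5) (nat_lit 26) (nat_lit 5) (nat_lit 23) (nat_lit 5) (nat_lit 328) (nat_lit 324) (nat_lit 128))))))) (XT.nd (nat_lit 122460) (nat_lit 0) (nat_lit 0) (XT.nd (nat_lit 40716) (nat_lit 0) (nat_lit 0) (XT.nd (nat_lit 156) (nat_lit 0) (nat_lit 76) (XT.nd (nat_lit 78) (nat_lit 0) (nat_lit 0) (XT.lf (nat_lit 0) (nat_lit 2519338108718) (nat_lit 380) (nat_lit 7721367559968)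 (nat_lit 380) (nat_lit 7721367559968) (nat_lit 20) (nat_lit 3) (nat_lit 25) (nat_lit 3) (nat_lit 25) (nat_lit 5) (nat_lit 325) (nat_lit 325) (nat_lit 130)) (XT.lf (nat_lit 76) (nat_lit 1281069458138) (nat_lit 0) (nat_lit 4188553830026) (nat_lit 380) (nat_lit 33140877200282) (nat_lit 21) (nat_lit 5) (nat_lit 20) (nat_lit 3) (nat_lit 25) (nat_lit 5) (nat_lit 326) (nat_lit 325) (nat_lit 129))) (XT.nd (nat_lit 78) (nat_lit 0) (nat_lit 0) (XT.lf (nat_lit 0) (nat_lit 7413297284898) (nat_lit 304) (nat_lit 19970575958549) (nat_lit 380) (nat_lit 14098721650994) (nat_lit 21) (nat_lit 5) (nat_lit 25) (nat_lit 5) (nat_lit 26) (nat_lit 5) (nat_lit 327) (nat_lit 325) (nat_lit 128)) (XT.lf (nat_lit 0) (nat_lit 9847977325423) (nat_lit 304) (nat_lit 207347570319) (nat_lit 380) (nat_lit 34700260323953) (nat_lit 21) (nat_lit 5) (nat_lit 25) (nat_lit 5) (nat_lit 26) (nat_lit 5) (nat_lit 328) (nat_lit 325)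 (nat_lit 127)))) (XT.nd (nat_lit 156) (nat_lit 0) (nat_lit 0) (XT.nd (nat_lit 78) (nat_lit 0) (nat_lit 0) (XT.lf (nat_lit 0) (nat_lit 2897238825070) (nat_lit 380) (nat_lit 8879572693938) (nat_lit 380) (nat_lit 8879572693938) (nat_lit 20) (nat_lit 3) (nat_lit 25) (nat_lit 3) (nat_lit 25) (nat_lit 5) (nat_lit 326) (nat_lit 326) (nat_lit 128)) (XT.lf (nat_lit 76) (nat_lit 1473229876907) (nat_lit 0) (nat_lit 4816836904560) (nat_lit 380) (nat_lit 38112008780233) (nat_lit 21) (nat_lit 5) (nat_lit 20) (nat_lit 3) (nat_lit 25) (nat_lit 5) (nat_lit 327) (nat_lit 326) (nat_lit 127))) (XT.nd (nat_lit 40638) (nat_lit 76) (nat_lit 0) (XT.lf (nat_lit 0) (nat_lit 8525291877700) (nat_lit 304) (nat_lit 22966162352277) (nat_lit 380) (nat_lit 16213529898619) (nat_lit 21) (nat_lit 5) (nat_lit 25) (nat_lit 5) (nat_lit 26) (nat_lit 5) (nat_lit 328) (nat_lit 326) (nat_lit 126)) (XT.nd (nat_lit 40872) (nat_lit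 0) (nat_lit 76) (XT.lf (nat_lit 76) (nat_lit 1694214358480) (nat_lit 0) (nat_lit 5539362440266) (nat_lit 380) (nat_lit 43828810097200) (nat_lit 21) (nat_lit 5) (nat_lit 20) (nat_lit 3) (nat_lit 25) (nat_lit 5) (nat_lit 328) (nat_lit 327) (nat_lit 125)) (XT.lf (nat_lit 0) (nat_lit 14977542514964) (nat_lit 304) (nat_lit 315349735880) (nat_lit 380) (nat_lit 52774758420135) (nat_lit 21) (nat_lit 5) (nat_lit 25) (nat_lit 5) (nat_lit 26) (nat_lit 5) (nat_lit 331) (nat_lit 328) (nat_lit 121)))))) (XT.nd (nat_lit 81198) (nat_lit 0) (nat_lit 0) (XT.nd (nat_lit 40560) (nat_lit 0) (nat_lit 0) (XT.nd (nat_lit 40482) (nat_lit 152) (nat_lit 0) (XT.lf (nat_lit 0) (nat_lit 21488529742987) (nat_lit 304) (nat_lit 36656588555889) (nat_lit 76) (nat_lit 15309105414101) (nat_lit 22) (nat_lit 5) (nat_lit 26) (nat_lit 5) (nat_lit 23) (nat_lit 5) (nat_lit 332) (nat_lit 328) (nat_lit 120)) (XT.lf (nat_lit 76)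 (nat_lit 2240598489143) (nat_lit 0) (nat_lit 7325806827285) (nat_lit 380) (nat_lit 57963601353448) (nat_lit 21) (nat_lit 5) (nat_lit 20) (nat_lit 3) (nat_lit 25) (nat_lit 5) (nat_lit 330) (nat_lit 329) (nat_lit 121))) (XT.nd (nat_lit 78) (nat_lit 76) (nat_lit 0) (XT.lf (nat_lit 0) (nat_lit 12965903284638) (nat_lit 304) (nat_lit 34928662167408) (nat_lit 380) (nat_lit 24658752284513) (nat_lit 21) (nat_lit 5) (nat_lit 25) (nat_lit 5) (nat_lit 26) (nat_lit 5) (nat_lit 331) (nat_lit 329) (nat_lit 120)) (XT.nd (nat_lit 40482) (nat_lit 76) (nat_lit 0) (XT.lf (nat_lit 0) (nat_lit 17224173892234) (nat_lit 304) (nat_lit 362652196242) (nat_lit 380) (nat_lit 60690972183147) (nat_lit 21) (nat_lit 5) (nat_lit 25) (nat_lit 5) (nat_lit 26) (nat_lit 5) (nat_lit 332) (nat_lit 329) (nat_lit 119)) (XT.lf (nat_lit 0) (nat_lit 5067288812910) (nat_lit 380) (nat_lit 15530428138958) (nat_lit 380) (nat_lit 15530428138958)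 (nat_lit 20) (nat_lit 3) (nat_lit 25) (nat_lit 3) (nat_lit 25) (nat_lit 5) (nat_lit 330) (nat_lit 330) (nat_lit 120))))) (XT.nd (nat_lit 40638) (nat_lit 0) (nat_lit 0) (XT.nd (nat_lit 78) (nat_lit 0) (nat_lit 76) (XT.lf (nat_lit 76) (nat_lit 2576688262530) (nat_lit 0) (nat_lit 8424677851388) (nat_lit 380) (nat_lit 66658141556436) (nat_lit 21) (nat_lit 5) (nat_lit 20) (nat_lit 3) (nat_lit 25) (nat_lit 5) (nat_lit 331) (nat_lit 330) (nat_lit 119)) (XT.lf (nat_lit 0) (nat_lit 14910788777356) (nat_lit 304) (nat_lit 40167961492502) (nat_lit 380) (nat_lit 28357565127182) (nat_lit 21) (nat_lit 5) (nat_lit 25) (nat_lit 5) (nat_lit 26) (nat_lit 5) (nat_lit 332) (nat_lit 330) (nat_lit 118))) (XT.nd (nat_lit 78) (nat_lit 0) (nat_lit 0) (XT.lf (nat_lit 0) (nat_lit 5827382134857) (nat_lit 380) (nat_lit 17859992359796) (nat_lit 380) (nat_lit 17859992359796) (nat_lit 20) (nat_lit 3) (nat_lit 25) (nat_lit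 3) (nat_lit 25) (nat_lit 5) (nat_lit 331) (nat_lit 331) (nat_lit 118)) (XT.nd (nat_lit 40638) (nat_lit 0) (nat_lit 0) (XT.lf (nat_lit 76) (nat_lit 2963191501922) (nat_lit 0) (nat_lit 9688379529103) (nat_lit 380) (nat_lit 76656862789879) (nat_lit 21) (nat_lit 5) (nat_lit 20) (nat_lit 3) (nat_lit 25) (nat_lit 5) (nat_lit 332) (nat_lit 331) (nat_lit 117)) (XT.lf (nat_lit 0) (nat_lit 6701489455094) (nat_lit 380) (nat_lit 20538991213760) (nat_lit 380) (nat_lit 20538991213760) (nat_lit 20) (nat_lit 3) (nat_lit 25) (nat_lit 3) (nat_lit 25) (nat_lit 5) (nat_lit 332) (nat_lit 332) (nat_lit 116))))))))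

set_option maxRecDepth 10000000 in
noncomputable def Tp : PT := (PT.nd (nat_lit 5373888) (PT.nd (nat_lit 5171244) pc0 pc1) (PT.nd (nat_lit 81978) pc2 pc3))

set_option maxRecDepth 10000000 in
noncomputable def Tx : XT := (XT.nd (nat_lit 8643024) (nat_lit 0) (nat_lit 76) XT.nil (XT.nd (nat_lit 4874766) (nat_lit 0) (nat_lit 0) (XT.nd (nat_lit 2232516) (nat_lit 0) (nat_lit 0) (XT.nd (nat_lit 1622244) (nat_lit 0) (nat_lit 0) (XT.nd (nat_lit 1215162) (nat_lit 0) (nat_lit 0) (XT.nd (nat_lit 892710) (nat_lit 0) (nat_lit 0) (XT.nd (nat_lit 690144) (nat_lit 0) (nat_lit 0) (XT.nd (nat_lit 567762) (nat_lit 0) (nat_lit 0) (XT.nd (nat_lit 485862) (nat_lit 0) (nat_lit 0) xc0 xc1) (XT.nd (nat_lit 80808) (nat_lit 0) (nat_lit 0) xc2 xc3)) (XT.nd (nat_lit 120354) (nat_lit 0) (nat_lit 0) (XT.nd (nat_lit 79404) (nat_lit 0) (nat_lit 0) xc4 xc5) (XT.nd (nat_lit 41106) (nat_lit 0) (nat_lit 0) xc6 xc7))) (XT.nd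 (nat_lit 162006) (nat_lit 0) (nat_lit 0) (XT.nd (nat_lit 81354) (nat_lit 0) (nat_lit 0) (XT.nd (nat_lit 40716) (nat_lit 0) (nat_lit 0) xc8 xc9) (XT.nd (nat_lit 40404) (nat_lit 0) (nat_lit 0) xc10 xc11)) (XT.nd (nat_lit 80262) (nat_lit 0) (nat_lit 0) (XT.nd (nat_lit 40014) (nat_lit 0) (nat_lit 0) xc12 xc13) (XT.nd (nat_lit 40170) (nat_lit 0) (nat_lit 0) xc14 xc15)))) (XT.nd (nat_lit 205920) (nat_lit 0) (nat_lit 0) (XT.nd (nat_lit 121680) (nat_lit 0) (nat_lit 0) (XT.nd (nat_lit 42666) (nat_lit 0) (nat_lit 0) (XT.nd (nat_lit 39780) (nat_lit 0) (nat_lit 0) xc16 xc17) (XT.nd (nat_lit 39624) (nat_lit 0) (nat_lit 0) xc18 xc19)) (XT.nd (nat_lit 42198) (nat_lit 0) (nat_lit 0) (XT.nd (nat_lit 2808) (nat_lit 0) (nat_lit 0) xc20 xc21) (XT.nd (nat_lit 39156) (nat_lit 0) (nat_lit 0) xc22 xc23))) (XT.nd (nat_lit 119184) (nat_lit 0) (nat_lit 0) (XT.nd (nat_lit 77766) (nat_lit 0) (nat_lit 0) (XT.nd (nat_lit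 38922) (nat_lit 0) (nat_lit 0) xc24 xc25) (XT.nd (nat_lit 2886) (nat_lit 0) (nat_lit 0) xc26 xc27)) (XT.nd (nat_lit 41106) (nat_lit 0) (nat_lit 0) (XT.nd (nat_lit 2808) (nat_lit 0) (nat_lit 0) xc28 xc29) (XT.nd (nat_lit 37986) (nat_lit 0) (nat_lit 0) xc30 xc31))))) (XT.nd (nat_lit 322530) (nat_lit 0) (nat_lit 0) (XT.nd (nat_lit 161772) (nat_lit 0) (nat_lit 0) (XT.nd (nat_lit 81198) (nat_lit 0) (nat_lit 0) (XT.nd (nat_lit 40638) (nat_lit 0) (nat_lit 0) (XT.nd (nat_lit 37752) (nat_lit 0) (nat_lit 0) xc32 xc33) (XT.nd (nat_lit 37674) (nat_lit 0) (nat_lit 0) xc34 xc35)) (XT.nd (nat_lit 40248) (nat_lit 0) (nat_lit 0) (XT.nd (nat_lit 37362) (nat_lit 0) (nat_lit 0) xc36 xc37) (XT.nd (nat_lit 3042) (nat_lit 0) (nat_lit 0) xc38 xc39))) (XT.nd (nat_lit 80808) (nat_lit 0) (nat_lit 0) (XT.nd (nat_lit 40404) (nat_lit 0) (nat_lit 0) (XT.nd (nat_lit 2808) (nat_lit 0) (nat_lit 0) xc40 xc41) (XT.nd (nat_lit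 2886) (nat_lit 0) (nat_lit 0) xc42 xc43)) (XT.nd (nat_lit 40014) (nat_lit 0) (nat_lit 0) (XT.nd (nat_lit 2808) (nat_lit 0) (nat_lit 0) xc44 xc45) (XT.nd (nat_lit 2886) (nat_lit 0) (nat_lit 0) xc46 xc47)))) (XT.nd (nat_lit 125736) (nat_lit 0) (nat_lit 0) (XT.nd (nat_lit 79872) (nat_lit 0) (nat_lit 0) (XT.nd (nat_lit 39858) (nat_lit 0) (nat_lit 0) (XT.nd (nat_lit 2808) (nat_lit 0) (nat_lit 0) xc48 xc49) (XT.nd (nat_lit 2886) (nat_lit 0) (nat_lit 0) xc50 xc51)) (XT.nd (nat_lit 5694) (nat_lit 0) (nat_lit 0) (XT.nd (nat_lit 2808) (nat_lit 76) (nat_lit 0) xc52 xc53) (XT.nd (nat_lit 37284) (nat_lit 0) (nat_lit 0) xc54 xc55))) (XT.nd (nat_lit 80886) (nat_lit 0) (nat_lit 0) (XT.nd (nat_lit 40404) (nat_lit 0) (nat_lit 0) (XT.nd (nat_lit 37518) (nat_lit 0) (nat_lit 0) xc56 xc57) (XT.nd (nat_lit 37596) (nat_lit 0) (nat_lit 0) xc58 xc59)) (XT.nd (nat_lit 40482) (nat_lit 0) (nat_lit 0) (XT.nd (nat_lit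 37596) (nat_lit 0) (nat_lit 0) xc60 xc61) (XT.nd (nat_lit 37752) (nat_lit 0) (nat_lit 0) xc62 xc63)))))) (XT.nd (nat_lit 732420) (nat_lit 0) (nat_lit 0) (XT.nd (nat_lit 362544) (nat_lit 0) (nat_lit 0) (XT.nd (nat_lit 163176) (nat_lit 0) (nat_lit 0) (XT.nd (nat_lit 81432) (nat_lit 0) (nat_lit 0) (XT.nd (nat_lit 40638) (nat_lit 0) (nat_lit 0) (XT.nd (nat_lit 37752) (nat_lit 0) (nat_lit 0) xc64 xc65) (XT.nd (nat_lit 37908) (nat_lit 0) (nat_lit 0) xc66 xc67)) (XT.nd (nat_lit 40794) (nat_lit 0) (nat_lit 0) (XT.nd (nat_lit 37908) (nat_lit 0) (nat_lit 0) xc68 xc69) (XT.nd (nat_lit 38064) (nat_lit 0) (nat_lit 0) xc70 xc71))) (XT.nd (nat_lit 82602) (nat_lit 0) (nat_lit 0) (XT.nd (nat_lit 40950) (nat_lit 0) (nat_lit 0) (XT.nd (nat_lit 38064) (nat_lit 0) (nat_lit 0) xc72 xc73) (XT.nd (nat_lit 38298) (nat_lit 0) (nat_lit 0) xc74 xc75)) (XT.nd (nat_lit 75660) (nat_lit 0) (nat_lit 0) (XT.nd (nat_lit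 37596) (nat_lit 0) (nat_lit 0) xc76 xc77) (XT.nd (nat_lit 2886) (nat_lit 0) (nat_lit 0) xc78 xc79)))) (XT.nd (nat_lit 165438) (nat_lit 0) (nat_lit 0) (XT.nd (nat_lit 82290) (nat_lit 0) (nat_lit 0) (XT.nd (nat_lit 41028) (nat_lit 0) (nat_lit 0) (XT.nd (nat_lit 2808) (nat_lit 0) (nat_lit 0) xc80 xc81) (XT.nd (nat_lit 2886) (nat_lit 0) (nat_lit 0) xc82 xc83)) (XT.nd (nat_lit 41262) (nat_lit 0) (nat_lit 0) (XT.nd (nat_lit 2808) (nat_lit 0) (nat_lit 0) xc84 xc85) (XT.nd (nat_lit 39000) (nat_lit 0) (nat_lit 0) xc86 xc87))) (XT.nd (nat_lit 120354) (nat_lit 0) (nat_lit 0) (XT.nd (nat_lit 41964) (nat_lit 0) (nat_lit 0) (XT.nd (nat_lit 39078) (nat_lit 0) (nat_lit 0) xc88 xc89) (XT.nd (nat_lit 39234) (nat_lit 0) (nat_lit 0) xc90 xc91)) (XT.nd (nat_lit 41964) (nat_lit 0) (nat_lit 0) (XT.nd (nat_lit 2808) (nat_lit 0) (nat_lit 0) xc92 xc93) (XT.nd (nat_lit 39234) (nat_lit 0) (nat_lit 0) xc94 xc95)))))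 (XT.nd (nat_lit 526422) (nat_lit 0) (nat_lit 0) (XT.nd (nat_lit 242892) (nat_lit 0) (nat_lit 0) (XT.nd (nat_lit 121368) (nat_lit 0) (nat_lit 0) (XT.nd (nat_lit 78858) (nat_lit 0) (nat_lit 0) (XT.nd (nat_lit 39312) (nat_lit 0) (nat_lit 0) xc96 xc97) (XT.nd (nat_lit 39624) (nat_lit 0) (nat_lit 0) xc98 xc99)) (XT.nd (nat_lit 79014) (nat_lit 0) (nat_lit 0) (XT.nd (nat_lit 39468) (nat_lit 0) (nat_lit 0) xc100 xc101) (XT.nd (nat_lit 2886) (nat_lit 0) (nat_lit 0) xc102 xc103))) (XT.nd (nat_lit 122148) (nat_lit 0) (nat_lit 0) (XT.nd (nat_lit 79404) (nat_lit 0) (nat_lit 0) (XT.nd (nat_lit 39624) (nat_lit 0) (nat_lit 0) xc104 xc105) (XT.nd (nat_lit 2886) (nat_lit 0) (nat_lit 0) xc106 xc107)) (XT.nd (nat_lit 80262) (nat_lit 0) (nat_lit 0) (XT.nd (nat_lit 39858) (nat_lit 0) (nat_lit 0) xc108 xc109) (XT.nd (nat_lit 40560) (nat_lit 0) (nat_lit 0) xc110 xc111)))) (XT.nd (nat_lit 366288) (nat_lit 0)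 (nat_lit 228) (XT.nd (nat_lit 162708) (nat_lit 0) (nat_lit 76) (XT.nd (nat_lit 81198) (nat_lit 0) (nat_lit 0) (XT.nd (nat_lit 40560) (nat_lit 0) (nat_lit 0) xc112 xc113) (XT.nd (nat_lit 40716) (nat_lit 0) (nat_lit 0) xc114 xc115)) (XT.nd (nat_lit 82368) (nat_lit 0) (nat_lit 152) (XT.nd (nat_lit 41106) (nat_lit 0) (nat_lit 76) xc116 xc117) (XT.nd (nat_lit 79794) (nat_lit 0) (nat_lit 0) xc118 xc119))) (XT.nd (nat_lit 244218) (nat_lit 0) (nat_lit 0) (XT.nd (nat_lit 121758) (nat_lit 0) (nat_lit 0) (XT.nd (nat_lit 41418) (nat_lit 0) (nat_lit 76) xc120 xc121) (XT.nd (nat_lit 41730) (nat_lit 76) (nat_lit 0) xc122 xc123)) (XT.nd (nat_lit 163566) (nat_lit 0) (nat_lit 76) (XT.nd (nat_lit 81120) (nat_lit 0) (nat_lit 76) xc124 xc125) (XT.nd (nat_lit 202098) (nat_lit 0) (nat_lit 988) xc126 xc127))))))) XT.nil))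

set_option maxRecDepth 10000000 in
noncomputable def Te : XT := XT.nil

set_option maxRecDepth 10000000 in
noncomputable def Tz : ZL := (ZL.cons (nat_lit 76) (nat_lit 3) (nat_lit 114829330779728197479) (ZL.cons (nat_lit 152) (nat_lit 6) (nat_lit 215529441887048215310) (ZL.cons (nat_lit 228) (nat_lit 6) (nat_lit 203409010830917238504) (ZL.cons (nat_lit 304) (nat_lit 3) (nat_lit 100744465516124100696) (ZL.cons (nat_lit 380) (nat_lit 6) (nat_lit 189470515116366615174) (ZL.cons (nat_lit 456) (nat_lit 6) (nat_lit 179239051219310121276) (ZL.cons (nat_lit 532) (nat_lit 3) (nat_lit 88784708305885914068) (ZL.cons (nat_lit 608) (nat_lit 6) (nat_lit 167472867737695153290) (ZL.cons (nat_lit 684) (nat_lit 6) (nat_lit 158983327320513351348) (ZL.cons (nat_lit 760) (nat_lit 3) (nat_lit 78765735570022635179) (ZL.cons (nat_lit 836) (nat_lit 6) (nat_lit 149220355840754279116) (ZL.cons (nat_lit 912) (nat_lit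 6) (nat_lit 142376913062227355818) (ZL.cons (nat_lit 988) (nat_lit 3) (nat_lit 70557214713518860088) (ZL.cons (nat_lit 1064) (nat_lit 6) (nat_lit 136867249358797669366) (ZL.cons (nat_lit 1140) (nat_lit 6) (nat_lit 134506953866921394030) (ZL.cons (nat_lit 1216) (nat_lit 6) (nat_lit 129268652464663894298) (ZL.cons (nat_lit 1292) (nat_lit 3) (nat_lit 64085420303988627302) (ZL.cons (nat_lit 1368) (nat_lit 6) (nat_lit 125297036714568878594) (ZL.cons (nat_lit 1444) (nat_lit 6) (nat_lit 123244605852067769606) (ZL.cons (nat_lit 1520) (nat_lit 3) (nat_lit 60160248104228468906) (ZL.cons (nat_lit 1596) (nat_lit 6) (nat_lit 120866302723336155254) (ZL.cons (nat_lit 1672) (nat_lit 6) (nat_lit 122514401091091009652) (ZL.cons (nat_lit 1748) (nat_lit 6) (nat_lit 119631866745272970840) (ZL.cons (nat_lit 1824) (nat_lit 3) (nat_lit 59338623869729250773) (ZL.cons (nat_lit 1900) (nat_lit 6) (nat_lit 116088455254600033884)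 (ZL.cons (nat_lit 1976) (nat_lit 6) (nat_lit 117261939261590351380) (ZL.cons (nat_lit 2052) (nat_lit 6) (nat_lit 115477216772458952262) (ZL.cons (nat_lit 2128) (nat_lit 3) (nat_lit 56477113078714884825) (ZL.cons (nat_lit 2204) (nat_lit 6) (nat_lit 113581903649540869704) (ZL.cons (nat_lit 2280) (nat_lit 3) (nat_lit 56375900083111969940) (ZL.cons (nat_lit 2356) (nat_lit 6) (nat_lit 111402293558185074764) (ZL.cons (nat_lit 2432) (nat_lit 1) (nat_lit 18446744073709551617) ZL.nil))))))))))))))))))))))))))))))))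

noncomputable def vl : XL := ⟨(nat_lit 0), (nat_lit 76), (nat_lit 406107192), (nat_lit 152), (nat_lit 59333447), (nat_lit 152), (nat_lit 59333447), (nat_lit 1), (nat_lit 4), (nat_lit 2), (nat_lit 5), (nat_lit 2), (nat_lit 4), (nat_lit 0), (nat_lit 0), (nat_lit 0)⟩

noncomputable def cp0 : Nat := (nat_lit 186221041565086823803493598738915322647074232825436621111488937984)

noncomputable def cp1 : Nat := (nat_lit 4976807698557588174861154783529199236040309957258059666694130532552006264756970319718825916572900605949914007895762589705720071104821332006867975014467134117010017211918300151770019277208509360428758689679129001465699178234411033105166203952252077538898146131963707480389263121014148064879107609394490958106961667537335028148877667912801573262984783881642075547837773026441028588541229472577769713887232795889812914220670271296788119245118718034790725018499502385021488272933741629827929373366821466103255516827256436542870433096608193748358352612784473073918925463977708743089805405571903182737783934356476292573703729030166758071479826983868249589718354840433438784889651260907955062386932985942789945053236023353873218423223569314765271164396765184)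

noncomputable def rc0 : Nat := (nat_lit 4976807698557588174861154783529199236040309957258059666694130532552006264756970319718825916572900605949914007895762589705720071104821332006867975014467134117010017211918300151770019277208509360428758689679129001465699178234411033105166203952252077538898146131963707480389263121014148064879107609394490958106961667537335028148877667912801573262984783881642075547837773026441028588541229472577769713887232795889812914220670271296788119245118718034790725018499502385021488272933741629827929373366821466103255516827256436542870433096608193748358352612784473073918925463977708743089805405571903182737783934356476292573703729030166758071479826983868249589718354840433438784889651260907955062386932985942789945053236023353873218423223569314765271164396765184)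

end Vale.Agent.Lib.P154.PChain.BK.S0
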