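import Vale.Agent.Lib.P154.PChain.BK.R0_0

set_option linter.all false

namespace Vale.Agent.Lib.P154.PChain.BK.S1

open Vale.Agent.Lib.P154.Chain

noncomputable def pc0 : PT := (PT.nd (nat_lit 4968288) (PT.nd (nat_lit 4805892) (PT.nd (nat_lit 4724694) (PT.nd (nat_lit 4684134) (PT.nd (nat_lit 4684056) (PT.nd (nat_lit 4643496) PT.nil (PT.lf (nat_lit 76) (nat_lit 3) (nat_lit 1) (nat_lit 1) (nat_lit 138) (nat_lit 114) (nat_lit 138))) (PT.lf (nat_lit 152) (nat_lit 6) (nat_lit 2) (nat_lit 3) (nat_lit 137) (nat_lit 115) (nat_lit 138))) (PT.nd (nat_lit 40482) (PT.lf (nat_lit 152) (nat_lit 6) (nat_lit 2) (nat_lit 1) (nat_lit 138) (nat_lit 115) (nat_lit 137)) (PT.lf (nat_lit 228) (nat_lit 6) (nat_lit 3) (nat_lit 3) (nat_lit 136) (nat_lit 116) (nat_lit 138)))) (PT.nd (nat_lit 40560) (PT.nd (nat_lit 78) (PT.lf (nat_lit 304) (nat_lit 3) (nat_lit 4) (nat_lit 1) (nat_lit 137) (nat_lit 116) (nat_lit 137))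 (PT.lf (nat_lit 228) (nat_lit 6) (nat_lit 3) (nat_lit 1) (nat_lit 138) (nat_lit 116) (nat_lit 136))) (PT.nd (nat_lit 78) (PT.lf (nat_lit 380) (nat_lit 6) (nat_lit 5) (nat_lit 3) (nat_lit 136) (nat_lit 117) (nat_lit 137)) (PT.nd (nat_lit 40482) (PT.lf (nat_lit 380) (nat_lit 6) (nat_lit 5) (nat_lit 1) (nat_lit 137) (nat_lit 117) (nat_lit 136)) (PT.lf (nat_lit 456) (nat_lit 6) (nat_lit 6) (nat_lit 3) (nat_lit 135) (nat_lit 118) (nat_lit 137)))))) (PT.nd (nat_lit 81198) (PT.nd (nat_lit 40560) (PT.nd (nat_lit 78) (PT.lf (nat_lit 532) (nat_lit 3) (nat_lit 7) (nat_lit 1) (nat_lit 136) (nat_lit 118) (nat_lit 136)) (PT.lf (nat_lit 456) (nat_lit 6) (nat_lit 6) (nat_lit 1) (nat_lit 137) (nat_lit 118) (nat_lit 135))) (PT.nd (nat_lit 78) (PT.lf (nat_lit 608) (nat_lit 6) (nat_lit 8) (nat_lit 3) (nat_lit 135) (nat_lit 119) (nat_lit 136)) (PT.nd (nat_lit 40482) (PT.lf (nat_lit 608) (nat_lit 6) (nat_lit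 8) (nat_lit 1) (nat_lit 136) (nat_lit 119) (nat_lit 135)) (PT.lf (nat_lit 684) (nat_lit 6) (nat_lit 9) (nat_lit 3) (nat_lit 134) (nat_lit 120) (nat_lit 136))))) (PT.nd (nat_lit 40560) (PT.nd (nat_lit 78) (PT.lf (nat_lit 760) (nat_lit 3) (nat_lit 10) (nat_lit 1) (nat_lit 135) (nat_lit 120) (nat_lit 135)) (PT.lf (nat_lit 684) (nat_lit 6) (nat_lit 9) (nat_lit 1) (nat_lit 136) (nat_lit 120) (nat_lit 134))) (PT.nd (nat_lit 78) (PT.lf (nat_lit 836) (nat_lit 6) (nat_lit 11) (nat_lit 3) (nat_lit 134) (nat_lit 121) (nat_lit 135)) (PT.nd (nat_lit 40482) (PT.lf (nat_lit 836) (nat_lit 6) (nat_lit 11) (nat_lit 1) (nat_lit 135) (nat_lit 121) (nat_lit 134)) (PT.lf (nat_lit 912) (nat_lit 6) (nat_lit 12) (nat_lit 3) (nat_lit 133) (nat_lit 122) (nat_lit 135))))))) (PT.nd (nat_lit 121758) (PT.nd (nat_lit 40716) (PT.nd (nat_lit 40482) (PT.nd (nat_lit 78) (PT.lf (nat_lit 988) (nat_lit 3) (nat_lit 13) (nat_lit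 1) (nat_lit 134) (nat_lit 122) (nat_lit 134)) (PT.lf (nat_lit 912) (nat_lit 6) (nat_lit 12) (nat_lit 1) (nat_lit 135) (nat_lit 122) (nat_lit 133))) (PT.nd (nat_lit 78) (PT.lf (nat_lit 1064) (nat_lit 6) (nat_lit 14) (nat_lit 3) (nat_lit 132) (nat_lit 123) (nat_lit 135)) (PT.nd (nat_lit 78) (PT.lf (nat_lit 1140) (nat_lit 6) (nat_lit 15) (nat_lit 3) (nat_lit 133) (nat_lit 123) (nat_lit 134)) (PT.lf (nat_lit 1140) (nat_lit 6) (nat_lit 15) (nat_lit 1) (nat_lit 134) (nat_lit 123) (nat_lit 133))))) (PT.nd (nat_lit 40482) (PT.nd (nat_lit 40404) (PT.lf (nat_lit 1064) (nat_lit 6) (nat_lit 14) (nat_lit 1) (nat_lit 135) (nat_lit 123) (nat_lit 132)) (PT.lf (nat_lit 1216) (nat_lit 6) (nat_lit 16) (nat_lit 3) (nat_lit 132) (nat_lit 124) (nat_lit 134))) (PT.nd (nat_lit 78) (PT.lf (nat_lit 1292) (nat_lit 3) (nat_lit 17) (nat_lit 1) (nat_lit 133) (nat_lit 124) (nat_lit 133)) (PT.nd (nat_lit 40404) (PT.lf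 (nat_lit 1216) (nat_lit 6) (nat_lit 16) (nat_lit 1) (nat_lit 134) (nat_lit 124) (nat_lit 132)) (PT.lf (nat_lit 1368) (nat_lit 6) (nat_lit 18) (nat_lit 3) (nat_lit 131) (nat_lit 125) (nat_lit 134)))))) (PT.nd (nat_lit 40638) (PT.nd (nat_lit 156) (PT.nd (nat_lit 78) (PT.lf (nat_lit 1444) (nat_lit 6) (nat_lit 19) (nat_lit 3) (nat_lit 132) (nat_lit 125) (nat_lit 133)) (PT.lf (nat_lit 1444) (nat_lit 6) (nat_lit 19) (nat_lit 1) (nat_lit 133) (nat_lit 125) (nat_lit 132))) (PT.nd (nat_lit 40326) (PT.lf (nat_lit 1368) (nat_lit 6) (nat_lit 18) (nat_lit 1) (nat_lit 134) (nat_lit 125) (nat_lit 131)) (PT.nd (nat_lit 78) (PT.lf (nat_lit 1672) (nat_lit 6) (nat_lit 22) (nat_lit 3) (nat_lit 130) (nat_lit 126) (nat_lit 134)) (PT.lf (nat_lit 1748) (nat_lit 6) (nat_lit 23) (nat_lit 3) (nat_lit 131) (nat_lit 126) (nat_lit 133))))) (PT.nd (nat_lit 156) (PT.nd (nat_lit 78) (PT.lf (nat_lit 1824) (nat_lit 3) (nat_lit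 24) (nat_lit 1) (nat_lit 132) (nat_lit 126) (nat_lit 132)) (PT.lf (nat_lit 1748) (nat_lit 6) (nat_lit 23) (nat_lit 1) (nat_lit 133) (nat_lit 126) (nat_lit 131))) (PT.nd (nat_lit 40248) (PT.lf (nat_lit 1672) (nat_lit 6) (nat_lit 22) (nat_lit 1) (nat_lit 134) (nat_lit 126) (nat_lit 130)) (PT.nd (nat_lit 78) (PT.lf (nat_lit 1596) (nat_lit 6) (nat_lit 21) (nat_lit 3) (nat_lit 129) (nat_lit 127) (nat_lit 134)) (PT.lf (nat_lit 1976) (nat_lit 6) (nat_lit 26) (nat_lit 3) (nat_lit 130) (nat_lit 127) (nat_lit 133))))))))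
noncomputable def pc1 : PT := (PT.nd (nat_lit 121524) (PT.nd (nat_lit 40794) (PT.nd (nat_lit 40404) (PT.nd (nat_lit 156) (PT.nd (nat_lit 78) (PT.lf (nat_lit 2052) (nat_lit 6) (nat_lit 27) (nat_lit 3) (nat_lit 131) (nat_lit 127) (nat_lit 132)) (PT.lf (nat_lit 2052) (nat_lit 6) (nat_lit 27) (nat_lit 1) (nat_lit 132) (nat_lit 127) (nat_lit 131))) (PT.nd (nat_lit 78) (PT.lf (nat_lit 1976) (nat_lit 6) (nat_lit 26) (nat_lit 1) (nat_lit 133) (nat_lit 127) (nat_lit 130)) (PT.lf (nat_lit 1596) (nat_lit 6) (nat_lit 21) (nat_lit 1) (nat_lit 134) (nat_lit 127) (nat_lit 129)))) (PT.nd (nat_lit 156) (PT.nd (nat_lit 78) (PT.lf (nat_lit 1520) (nat_lit 3) (nat_lit 20) (nat_lit 3) (nat_lit 128) (nat_lit 128) (nat_lit 134)) (PT.lf (nat_lit 1900) (nat_lit 6) (nat_lit 25) (nat_lit 3) (nat_lit 129) (nat_lit 128) (nat_lit 133))) (PT.nd (nat_lit 78) (PT.lf (nat_lit 2204) (nat_lit 6) (nat_lit 29) (nat_lit 3) (nat_lit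 130) (nat_lit 128) (nat_lit 132)) (PT.nd (nat_lit 78) (PT.lf (nat_lit 2280) (nat_lit 3) (nat_lit 30) (nat_lit 1) (nat_lit 131) (nat_lit 128) (nat_lit 131)) (PT.lf (nat_lit 2204) (nat_lit 6) (nat_lit 29) (nat_lit 1) (nat_lit 132) (nat_lit 128) (nat_lit 130)))))) (PT.nd (nat_lit 40404) (PT.nd (nat_lit 40170) (PT.nd (nat_lit 78) (PT.lf (nat_lit 1900) (nat_lit 6) (nat_lit 25) (nat_lit 1) (nat_lit 133) (nat_lit 128) (nat_lit 129)) (PT.lf (nat_lit 1520) (nat_lit 3) (nat_lit 20) (nat_lit 0) (nat_lit 134) (nat_lit 128) (nat_lit 128))) (PT.nd (nat_lit 78) (PT.lf (nat_lit 1596) (nat_lit 6) (nat_lit 21) (nat_lit 5) (nat_lit 127) (nat_lit 129) (nat_lit 134)) (PT.nd (nat_lit 78) (PT.lf (nat_lit 1900) (nat_lit 6) (nat_lit 25) (nat_lit 5) (nat_lit 128) (nat_lit 129) (nat_lit 133)) (PT.lf (nat_lit 2128) (nat_lit 3) (nat_lit 28) (nat_lit 3) (nat_lit 129) (nat_lit 129) (nat_lit 132))))) (PT.nd (nat_lit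 156) (PT.nd (nat_lit 78) (PT.lf (nat_lit 2356) (nat_lit 6) (nat_lit 31) (nat_lit 3) (nat_lit 130) (nat_lit 129) (nat_lit 131)) (PT.lf (nat_lit 2356) (nat_lit 6) (nat_lit 31) (nat_lit 1) (nat_lit 131) (nat_lit 129) (nat_lit 130))) (PT.nd (nat_lit 78) (PT.lf (nat_lit 2128) (nat_lit 3) (nat_lit 28) (nat_lit 0) (nat_lit 132) (nat_lit 129) (nat_lit 129)) (PT.nd (nat_lit 78) (PT.lf (nat_lit 1900) (nat_lit 6) (nat_lit 25) (nat_lit 0) (nat_lit 133) (nat_lit 129) (nat_lit 128)) (PT.lf (nat_lit 1596) (nat_lit 6) (nat_lit 21) (nat_lit 0) (nat_lit 134) (nat_lit 129) (nat_lit 127))))))) (PT.nd (nat_lit 40638) (PT.nd (nat_lit 390) (PT.nd (nat_lit 156) (PT.nd (nat_lit 78) (PT.lf (nat_lit 1672) (nat_lit 6) (nat_lit 22) (nat_lit 5) (nat_lit 126) (nat_lit 130) (nat_lit 134)) (PT.lf (nat_lit 1976) (nat_lit 6) (nat_lit 26) (nat_lit 5) (nat_lit 127) (nat_lit 130) (nat_lit 133))) (PT.nd (nat_lit 78) (PT.lf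 (nat_lit 2204) (nat_lit 6) (nat_lit 29) (nat_lit 5) (nat_lit 128) (nat_lit 130) (nat_lit 132)) (PT.nd (nat_lit 78) (PT.lf (nat_lit 2356) (nat_lit 6) (nat_lit 31) (nat_lit 5) (nat_lit 129) (nat_lit 130) (nat_lit 131)) (PT.lf (nat_lit 2432) (nat_lit 1) (nat_lit 32) (nat_lit 0) (nat_lit 130) (nat_lit 130) (nat_lit 130))))) (PT.nd (nat_lit 156) (PT.nd (nat_lit 78) (PT.lf (nat_lit 2356) (nat_lit 6) (nat_lit 31) (nat_lit 0) (nat_lit 131) (nat_lit 130) (nat_lit 129)) (PT.lf (nat_lit 2204) (nat_lit 6) (nat_lit 29) (nat_lit 0) (nat_lit 132) (nat_lit 130) (nat_lit 128))) (PT.nd (nat_lit 78) (PT.lf (nat_lit 1976) (nat_lit 6) (nat_lit 26) (nat_lit 0) (nat_lit 133) (nat_lit 130) (nat_lit 127)) (PT.nd (nat_lit 39936) (PT.lf (nat_lit 1672) (nat_lit 6) (nat_lit 22) (nat_lit 0) (nat_lit 134) (nat_lit 130) (nat_lit 126)) (PT.lf (nat_lit 1368) (nat_lit 6) (nat_lit 18) (nat_lit 5) (nat_lit 125) (nat_lit 131)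 (nat_lit 134)))))) (PT.nd (nat_lit 390) (PT.nd (nat_lit 156) (PT.nd (nat_lit 78) (PT.lf (nat_lit 1748) (nat_lit 6) (nat_lit 23) (nat_lit 5) (nat_lit 126) (nat_lit 131) (nat_lit 133)) (PT.lf (nat_lit 2052) (nat_lit 6) (nat_lit 27) (nat_lit 5) (nat_lit 127) (nat_lit 131) (nat_lit 132))) (PT.nd (nat_lit 78) (PT.lf (nat_lit 2280) (nat_lit 3) (nat_lit 30) (nat_lit 4) (nat_lit 128) (nat_lit 131) (nat_lit 131)) (PT.nd (nat_lit 78) (PT.lf (nat_lit 2356) (nat_lit 6) (nat_lit 31) (nat_lit 4) (nat_lit 129) (nat_lit 131) (nat_lit 130)) (PT.lf (nat_lit 2356) (nat_lit 6) (nat_lit 31) (nat_lit 2) (nat_lit 130) (nat_lit 131) (nat_lit 129))))) (PT.nd (nat_lit 156) (PT.nd (nat_lit 78) (PT.lf (nat_lit 2280) (nat_lit 3) (nat_lit 30) (nat_lit 0) (nat_lit 131) (nat_lit 131) (nat_lit 128)) (PT.lf (nat_lit 2052) (nat_lit 6) (nat_lit 27) (nat_lit 0) (nat_lit 132) (nat_lit 131) (nat_lit 127))) (PT.nd (nat_lit 78)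 (PT.lf (nat_lit 1748) (nat_lit 6) (nat_lit 23) (nat_lit 0) (nat_lit 133) (nat_lit 131) (nat_lit 126)) (PT.nd (nat_lit 39780) (PT.lf (nat_lit 1368) (nat_lit 6) (nat_lit 18) (nat_lit 0) (nat_lit 134) (nat_lit 131) (nat_lit 125)) (PT.lf (nat_lit 1064) (nat_lit 6) (nat_lit 14) (nat_lit 5) (nat_lit 123) (nat_lit 132) (nat_lit 135))))))))
noncomputable def pc2 : PT := (PT.nd (nat_lit 41028) (PT.nd (nat_lit 702) (PT.nd (nat_lit 312) (PT.nd (nat_lit 156) (PT.nd (nat_lit 78) (PT.lf (nat_lit 1216) (nat_lit 6) (nat_lit 16) (nat_lit 5) (nat_lit 124) (nat_lit 132) (nat_lit 134)) (PT.lf (nat_lit 1444) (nat_lit 6) (nat_lit 19) (nat_lit 5) (nat_lit 125) (nat_lit 132) (nat_lit 133))) (PT.nd (nat_lit 78) (PT.lf (nat_lit 1824) (nat_lit 3) (nat_lit 24) (nat_lit 4) (nat_lit 126) (nat_lit 132) (nat_lit 132)) (PT.lf (nat_lit 2052) (nat_lit 6) (nat_lit 27) (nat_lit 4) (nat_lit 127) (nat_lit 132) (nat_lit 131))))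 (PT.nd (nat_lit 156) (PT.nd (nat_lit 78) (PT.lf (nat_lit 2204) (nat_lit 6) (nat_lit 29) (nat_lit 4) (nat_lit 128) (nat_lit 132) (nat_lit 130)) (PT.lf (nat_lit 2128) (nat_lit 3) (nat_lit 28) (nat_lit 2) (nat_lit 129) (nat_lit 132) (nat_lit 129))) (PT.nd (nat_lit 78) (PT.lf (nat_lit 2204) (nat_lit 6) (nat_lit 29) (nat_lit 2) (nat_lit 130) (nat_lit 132) (nat_lit 128)) (PT.nd (nat_lit 78) (PT.lf (nat_lit 2052) (nat_lit 6) (nat_lit 27) (nat_lit 2) (nat_lit 131) (nat_lit 132) (nat_lit 127)) (PT.lf (nat_lit 1824) (nat_lit 3) (nat_lit 24) (nat_lit 0) (nat_lit 132) (nat_lit 132) (nat_lit 126)))))) (PT.nd (nat_lit 39936) (PT.nd (nat_lit 156) (PT.nd (nat_lit 78) (PT.lf (nat_lit 1444) (nat_lit 6) (nat_lit 19) (nat_lit 0) (nat_lit 133) (nat_lit 132) (nat_lit 125)) (PT.lf (nat_lit 1216) (nat_lit 6) (nat_lit 16) (nat_lit 0) (nat_lit 134) (nat_lit 132) (nat_lit 124))) (PT.nd (nat_lit 39624) (PT.lf (nat_lit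 1064) (nat_lit 6) (nat_lit 14) (nat_lit 0) (nat_lit 135) (nat_lit 132) (nat_lit 123)) (PT.nd (nat_lit 78) (PT.lf (nat_lit 912) (nat_lit 6) (nat_lit 12) (nat_lit 5) (nat_lit 122) (nat_lit 133) (nat_lit 135)) (PT.lf (nat_lit 1140) (nat_lit 6) (nat_lit 15) (nat_lit 5) (nat_lit 123) (nat_lit 133) (nat_lit 134))))) (PT.nd (nat_lit 156) (PT.nd (nat_lit 78) (PT.lf (nat_lit 1292) (nat_lit 3) (nat_lit 17) (nat_lit 4) (nat_lit 124) (nat_lit 133) (nat_lit 133)) (PT.lf (nat_lit 1444) (nat_lit 6) (nat_lit 19) (nat_lit 4) (nat_lit 125) (nat_lit 133) (nat_lit 132))) (PT.nd (nat_lit 78) (PT.lf (nat_lit 1748) (nat_lit 6) (nat_lit 23) (nat_lit 4) (nat_lit 126) (nat_lit 133) (nat_lit 131)) (PT.nd (nat_lit 78) (PT.lf (nat_lit 1976) (nat_lit 6) (nat_lit 26) (nat_lit 4) (nat_lit 127) (nat_lit 133) (nat_lit 130)) (PT.lf (nat_lit 1900) (nat_lit 6) (nat_lit 25) (nat_lit 4) (nat_lit 128) (nat_lit 133) (nat_lit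 129))))))) (PT.nd (nat_lit 40170) (PT.nd (nat_lit 390) (PT.nd (nat_lit 156) (PT.nd (nat_lit 78) (PT.lf (nat_lit 1900) (nat_lit 6) (nat_lit 25) (nat_lit 2) (nat_lit 129) (nat_lit 133) (nat_lit 128)) (PT.lf (nat_lit 1976) (nat_lit 6) (nat_lit 26) (nat_lit 2) (nat_lit 130) (nat_lit 133) (nat_lit 127))) (PT.nd (nat_lit 78) (PT.lf (nat_lit 1748) (nat_lit 6) (nat_lit 23) (nat_lit 2) (nat_lit 131) (nat_lit 133) (nat_lit 126)) (PT.nd (nat_lit 78) (PT.lf (nat_lit 1444) (nat_lit 6) (nat_lit 19) (nat_lit 2) (nat_lit 132) (nat_lit 133) (nat_lit 125)) (PT.lf (nat_lit 1292) (nat_lit 3) (nat_lit 17) (nat_lit 0) (nat_lit 133) (nat_lit 133) (nat_lit 124))))) (PT.nd (nat_lit 39546) (PT.nd (nat_lit 78) (PT.lf (nat_lit 1140) (nat_lit 6) (nat_lit 15) (nat_lit 0) (nat_lit 134) (nat_lit 133) (nat_lit 123)) (PT.lf (nat_lit 912) (nat_lit 6) (nat_lit 12) (nat_lit 0) (nat_lit 135) (nat_lit 133) (nat_lit 122))) (PT.nd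 (nat_lit 78) (PT.lf (nat_lit 684) (nat_lit 6) (nat_lit 9) (nat_lit 5) (nat_lit 120) (nat_lit 134) (nat_lit 136)) (PT.nd (nat_lit 78) (PT.lf (nat_lit 836) (nat_lit 6) (nat_lit 11) (nat_lit 5) (nat_lit 121) (nat_lit 134) (nat_lit 135)) (PT.lf (nat_lit 988) (nat_lit 3) (nat_lit 13) (nat_lit 4) (nat_lit 122) (nat_lit 134) (nat_lit 134)))))) (PT.nd (nat_lit 390) (PT.nd (nat_lit 156) (PT.nd (nat_lit 78) (PT.lf (nat_lit 1140) (nat_lit 6) (nat_lit 15) (nat_lit 4) (nat_lit 123) (nat_lit 134) (nat_lit 133)) (PT.lf (nat_lit 1216) (nat_lit 6) (nat_lit 16) (nat_lit 4) (nat_lit 124) (nat_lit 134) (nat_lit 132))) (PT.nd (nat_lit 78) (PT.lf (nat_lit 1368) (nat_lit 6) (nat_lit 18) (nat_lit 4) (nat_lit 125) (nat_lit 134) (nat_lit 131)) (PT.nd (nat_lit 78) (PT.lf (nat_lit 1672) (nat_lit 6) (nat_lit 22) (nat_lit 4) (nat_lit 126) (nat_lit 134) (nat_lit 130)) (PT.lf (nat_lit 1596) (nat_lit 6) (nat_lit 21) (nat_lit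 4) (nat_lit 127) (nat_lit 134) (nat_lit 129))))) (PT.nd (nat_lit 156) (PT.nd (nat_lit 78) (PT.lf (nat_lit 1520) (nat_lit 3) (nat_lit 20) (nat_lit 2) (nat_lit 128) (nat_lit 134) (nat_lit 128)) (PT.lf (nat_lit 1596) (nat_lit 6) (nat_lit 21) (nat_lit 2) (nat_lit 129) (nat_lit 134) (nat_lit 127))) (PT.nd (nat_lit 78) (PT.lf (nat_lit 1672) (nat_lit 6) (nat_lit 22) (nat_lit 2) (nat_lit 130) (nat_lit 134) (nat_lit 126)) (PT.nd (nat_lit 78) (PT.lf (nat_lit 1368) (nat_lit 6) (nat_lit 18) (nat_lit 2) (nat_lit 131) (nat_lit 134) (nat_lit 125)) (PT.lf (nat_lit 1216) (nat_lit 6) (nat_lit 16) (nat_lit 2) (nat_lit 132) (nat_lit 134) (nat_lit 124))))))))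
noncomputable def pc3 : PT := (PT.nd (nat_lit 80262) (PT.nd (nat_lit 40560) (PT.nd (nat_lit 39546) (PT.nd (nat_lit 156) (PT.nd (nat_lit 78) (PT.lf (nat_lit 1140) (nat_lit 6) (nat_lit 15) (nat_lit 2) (nat_lit 133) (nat_lit 134) (nat_lit 123)) (PT.lf (nat_lit 988) (nat_lit 3) (nat_lit 13) (nat_lit 0) (nat_lit 134) (nat_lit 134) (nat_lit 122))) (PT.nd (nat_lit 78) (PT.lf (nat_lit 836) (nat_lit 6) (nat_lit 11) (nat_lit 0) (nat_lit 135) (nat_lit 134) (nat_lit 121)) (PT.nd (nat_lit 39234) (PT.lf (nat_lit 684) (nat_lit 6) (nat_lit 9) (nat_lit 0) (nat_lit 136) (nat_lit 134) (nat_lit 120)) (PT.lf (nat_lit 456) (nat_lit 6) (nat_lit 6) (nat_lit 5) (nat_lit 118) (nat_lit 135) (nat_lit 137))))) (PT.nd (nat_lit 156) (PT.nd (nat_lit 78) (PT.lf (nat_lit 608) (nat_lit 6) (nat_lit 8) (nat_lit 5) (nat_lit 119) (nat_lit 135) (nat_lit 136)) (PT.lf (nat_lit 760) (nat_lit 3) (nat_lit 10) (nat_lit 4) (nat_lit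 120) (nat_lit 135) (nat_lit 135))) (PT.nd (nat_lit 78) (PT.lf (nat_lit 836) (nat_lit 6) (nat_lit 11) (nat_lit 4) (nat_lit 121) (nat_lit 135) (nat_lit 134)) (PT.nd (nat_lit 78) (PT.lf (nat_lit 912) (nat_lit 6) (nat_lit 12) (nat_lit 4) (nat_lit 122) (nat_lit 135) (nat_lit 133)) (PT.lf (nat_lit 1064) (nat_lit 6) (nat_lit 14) (nat_lit 4) (nat_lit 123) (nat_lit 135) (nat_lit 132)))))) (PT.nd (nat_lit 390) (PT.nd (nat_lit 156) (PT.nd (nat_lit 78) (PT.lf (nat_lit 1064) (nat_lit 6) (nat_lit 14) (nat_lit 2) (nat_lit 132) (nat_lit 135) (nat_lit 123)) (PT.lf (nat_lit 912) (nat_lit 6) (nat_lit 12) (nat_lit 2) (nat_lit 133) (nat_lit 135) (nat_lit 122))) (PT.nd (nat_lit 78) (PT.lf (nat_lit 836) (nat_lit 6) (nat_lit 11) (nat_lit 2) (nat_lit 134) (nat_lit 135) (nat_lit 121)) (PT.nd (nat_lit 78) (PT.lf (nat_lit 760) (nat_lit 3) (nat_lit 10) (nat_lit 0) (nat_lit 135) (nat_lit 135) (nat_lit 120)) (PT.lf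 (nat_lit 608) (nat_lit 6) (nat_lit 8) (nat_lit 0) (nat_lit 136) (nat_lit 135) (nat_lit 119))))) (PT.nd (nat_lit 39078) (PT.nd (nat_lit 39000) (PT.lf (nat_lit 456) (nat_lit 6) (nat_lit 6) (nat_lit 0) (nat_lit 137) (nat_lit 135) (nat_lit 118)) (PT.lf (nat_lit 228) (nat_lit 6) (nat_lit 3) (nat_lit 5) (nat_lit 116) (nat_lit 136) (nat_lit 138))) (PT.nd (nat_lit 78) (PT.lf (nat_lit 380) (nat_lit 6) (nat_lit 5) (nat_lit 5) (nat_lit 117) (nat_lit 136) (nat_lit 137)) (PT.nd (nat_lit 78) (PT.lf (nat_lit 532) (nat_lit 3) (nat_lit 7) (nat_lit 4) (nat_lit 118) (nat_lit 136) (nat_lit 136)) (PT.lf (nat_lit 608) (nat_lit 6) (nat_lit 8) (nat_lit 4) (nat_lit 119) (nat_lit 136) (nat_lit 135))))))) (PT.nd (nat_lit 41808) (PT.nd (nat_lit 1404) (PT.nd (nat_lit 1170) (PT.nd (nat_lit 1092) (PT.lf (nat_lit 684) (nat_lit 6) (nat_lit 9) (nat_lit 4) (nat_lit 120) (nat_lit 136) (nat_lit 134)) (PT.lf (nat_lit 684)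 (nat_lit 6) (nat_lit 9) (nat_lit 2) (nat_lit 134) (nat_lit 136) (nat_lit 120))) (PT.nd (nat_lit 78) (PT.lf (nat_lit 608) (nat_lit 6) (nat_lit 8) (nat_lit 2) (nat_lit 135) (nat_lit 136) (nat_lit 119)) (PT.nd (nat_lit 78) (PT.lf (nat_lit 532) (nat_lit 3) (nat_lit 7) (nat_lit 0) (nat_lit 136) (nat_lit 136) (nat_lit 118)) (PT.lf (nat_lit 380) (nat_lit 6) (nat_lit 5) (nat_lit 0) (nat_lit 137) (nat_lit 136) (nat_lit 117))))) (PT.nd (nat_lit 38922) (PT.nd (nat_lit 38844) (PT.lf (nat_lit 228) (nat_lit 6) (nat_lit 3) (nat_lit 0) (nat_lit 138) (nat_lit 136) (nat_lit 116)) (PT.lf (nat_lit 152) (nat_lit 6) (nat_lit 2) (nat_lit 5) (nat_lit 115) (nat_lit 137) (nat_lit 138))) (PT.nd (nat_lit 78) (PT.lf (nat_lit 304) (nat_lit 3) (nat_lit 4) (nat_lit 4) (nat_lit 116) (nat_lit 137) (nat_lit 137)) (PT.nd (nat_lit 78) (PT.lf (nat_lit 380) (nat_lit 6) (nat_lit 5) (nat_lit 4) (nat_lit 117) (nat_lit 137) (nat_lit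 136)) (PT.lf (nat_lit 456) (nat_lit 6) (nat_lit 6) (nat_lit 4) (nat_lit 118) (nat_lit 137) (nat_lit 135)))))) (PT.nd (nat_lit 39078) (PT.nd (nat_lit 156) (PT.nd (nat_lit 78) (PT.lf (nat_lit 456) (nat_lit 6) (nat_lit 6) (nat_lit 2) (nat_lit 135) (nat_lit 137) (nat_lit 118)) (PT.lf (nat_lit 380) (nat_lit 6) (nat_lit 5) (nat_lit 2) (nat_lit 136) (nat_lit 137) (nat_lit 117))) (PT.nd (nat_lit 78) (PT.lf (nat_lit 304) (nat_lit 3) (nat_lit 4) (nat_lit 0) (nat_lit 137) (nat_lit 137) (nat_lit 116)) (PT.nd (nat_lit 38766) (PT.lf (nat_lit 152) (nat_lit 6) (nat_lit 2) (nat_lit 0) (nat_lit 138) (nat_lit 137) (nat_lit 115)) (PT.lf (nat_lit 76) (nat_lit 3) (nat_lit 1) (nat_lit 4) (nat_lit 114) (nat_lit 138) (nat_lit 138))))) (PT.nd (nat_lit 1638) (PT.nd (nat_lit 78) (PT.lf (nat_lit 152) (nat_lit 6) (nat_lit 2) (nat_lit 4) (nat_lit 115) (nat_lit 138) (nat_lit 137)) (PT.lf (nat_lit 228) (nat_lit 6) (nat_lit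 3) (nat_lit 4) (nat_lit 116) (nat_lit 138) (nat_lit 136))) (PT.nd (nat_lit 78) (PT.lf (nat_lit 228) (nat_lit 6) (nat_lit 3) (nat_lit 2) (nat_lit 136) (nat_lit 138) (nat_lit 116)) (PT.nd (nat_lit 78) (PT.lf (nat_lit 152) (nat_lit 6) (nat_lit 2) (nat_lit 2) (nat_lit 137) (nat_lit 138) (nat_lit 115)) (PT.lf (nat_lit 76) (nat_lit 3) (nat_lit 1) (nat_lit 0) (nat_lit 138) (nat_lit 138) (nat_lit 114))))))))
noncomputable def xc0 : XT := (XT.nd (nat_lit 202488) (nat_lit 0) (nat_lit 0) (XT.nd (nat_lit 121758) (nat_lit 0) (nat_lit 0) (XT.nd (nat_lit 81120) (nat_lit 0) (nat_lit 0) (XT.nd (nat_lit 40638) (nat_lit 0) (nat_lit 0) (XT.nd (nat_lit 40482) (nat_lit 0) (nat_lit 0) (XT.lf (nat_lit 0) (nat_lit 2973613593348) (nat_lit 152) (nat_lit 3365228612170) (nat_lit 0) (nat_lit 2973613593348) (nat_lit 1) (nat_lit 5) (nat_lit 3) (nat_lit 4) (nat_lit 1) (nat_lit 4) (nat_lit 330) (nat_lit 225) (nat_lit 225))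 (XT.nd (nat_lit 78) (nat_lit 0) (nat_lit 0) (XT.lf (nat_lit 0) (nat_lit 2248132575469) (nat_lit 152) (nat_lit 2545318700222) (nat_lit 0) (nat_lit 2248132575469) (nat_lit 1) (nat_lit 5) (nat_lit 3) (nat_lit 4) (nat_lit 1) (nat_lit 4) (nat_lit 328) (nat_lit 226) (nat_lit 226)) (XT.lf (nat_lit 0) (nat_lit 5171147724645) (nat_lit 152) (nat_lit 5853325100567) (nat_lit 0) (nat_lit 5171133117795) (nat_lit 1) (nat_lit 5) (nat_lit 3) (nat_lit 4) (nat_lit 1) (nat_lit 4) (nat_lit 329) (nat_lit 226) (nat_lit 225)))) (XT.nd (nat_lit 40326) (nat_lit 0) (nat_lit 0) (XT.lf (nat_lit 0) (nat_lit 5947223627580) (nat_lit 152) (nat_lit 6730493110108) (nat_lit 0) (nat_lit 5947196319123) (nat_lit 1) (nat_lit 5) (nat_lit 3) (nat_lit 4) (nat_lit 1) (nat_lit 4) (nat_lit 330) (nat_lit 226) (nat_lit 224)) (XT.nd (nat_lit 78) (nat_lit 0) (nat_lit 0) (XT.lf (nat_lit 0) (nat_lit 1699512721236) (nat_lit 152) (nat_lit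 1925457371968) (nat_lit 0) (nat_lit 1699512721236) (nat_lit 1) (nat_lit 5) (nat_lit 3) (nat_lit 4) (nat_lit 1) (nat_lit 4) (nat_lit 326) (nat_lit 227) (nat_lit 227)) (XT.lf (nat_lit 0) (nat_lit 3909388480069) (nat_lit 152) (nat_lit 4427507859091) (nat_lit 0) (nat_lit 3909371682192) (nat_lit 1) (nat_lit 5) (nat_lit 3) (nat_lit 4) (nat_lit 1) (nat_lit 4) (nat_lit 327) (nat_lit 227) (nat_lit 226))))) (XT.nd (nat_lit 40326) (nat_lit 0) (nat_lit 0) (XT.nd (nat_lit 78) (nat_lit 0) (nat_lit 0) (XT.lf (nat_lit 0) (nat_lit 4496261057953) (nat_lit 152) (nat_lit 5090678669079) (nat_lit 0) (nat_lit 4496229653228) (nat_lit 1) (nat_lit 5) (nat_lit 3) (nat_lit 4) (nat_lit 1) (nat_lit 4) (nat_lit 328) (nat_lit 227) (nat_lit 225)) (XT.nd (nat_lit 78) (nat_lit 0) (nat_lit 0) (XT.lf (nat_lit 0) (nat_lit 5171125465694) (nat_lit 152) (nat_lit 5853402254969) (nat_lit 0) (nat_lit 5171081359360) (nat_lit 1) (nat_lit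 5) (nat_lit 3) (nat_lit 4) (nat_lit 1) (nat_lit 4) (nat_lit 329) (nat_lit 227) (nat_lit 224)) (XT.lf (nat_lit 0) (nat_lit 5947185572137) (nat_lit 152) (nat_lit 6730601469527) (nat_lit 0) (nat_lit 5947130420927) (nat_lit 1) (nat_lit 5) (nat_lit 3) (nat_lit 4) (nat_lit 1) (nat_lit 4) (nat_lit 330) (nat_lit 227) (nat_lit 223)))) (XT.nd (nat_lit 156) (nat_lit 0) (nat_lit 0) (XT.nd (nat_lit 78) (nat_lit 0) (nat_lit 0) (XT.lf (nat_lit 0) (nat_lit 1284617519362) (nat_lit 152) (nat_lit 1456877767339) (nat_lit 0) (nat_lit 1284617519362) (nat_lit 1) (nat_lit 5) (nat_lit 3) (nat_lit 4) (nat_lit 1) (nat_lit 4) (nat_lit 324) (nat_lit 228) (nat_lit 228)) (XT.lf (nat_lit 0) (nat_lit 2955205898943) (nat_lit 152) (nat_lit 3349618153976) (nat_lit 0) (nat_lit 2955186581385) (nat_lit 1) (nat_lit 5) (nat_lit 3) (nat_lit 4) (nat_lit 1) (nat_lit 4) (nat_lit 325) (nat_lit 228) (nat_lit 227))) (XT.nd (nat_lit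 78) (nat_lit 0) (nat_lit 0) (XT.lf (nat_lit 0) (nat_lit 3399020735540) (nat_lit 152) (nat_lit 3850962202866) (nat_lit 0) (nat_lit 3398984620105) (nat_lit 1) (nat_lit 5) (nat_lit 3) (nat_lit 4) (nat_lit 1) (nat_lit 4) (nat_lit 326) (nat_lit 228) (nat_lit 226)) (XT.lf (nat_lit 0) (nat_lit 3909362882275) (nat_lit 152) (nat_lit 4427596586653) (nat_lit 0) (nat_lit 3909312159992) (nat_lit 1) (nat_lit 5) (nat_lit 3) (nat_lit 4) (nat_lit 1) (nat_lit 4) (nat_lit 327) (nat_lit 228) (nat_lit 225)))))) (XT.nd (nat_lit 40404) (nat_lit 0) (nat_lit 0) (XT.nd (nat_lit 40170) (nat_lit 0) (nat_lit 0) (XT.nd (nat_lit 78) (nat_lit 0) (nat_lit 0) (XT.lf (nat_lit 0) (nat_lit 4496217294194) (nat_lit 152) (nat_lit 5090803282411) (nat_lit 0) (nat_lit 4496153870303) (nat_lit 1) (nat_lit 5) (nat_lit 3) (nat_lit 4) (nat_lit 1) (nat_lit 4) (nat_lit 328) (nat_lit 228) (nat_lit 224)) (XT.nd (nat_lit 78) (nat_lit 0)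 (nat_lit 0) (XT.lf (nat_lit 0) (nat_lit 5171065905442) (nat_lit 152) (nat_lit 5853558073317) (nat_lit 0) (nat_lit 5170991436674) (nat_lit 1) (nat_lit 5) (nat_lit 3) (nat_lit 4) (nat_lit 1) (nat_lit 4) (nat_lit 329) (nat_lit 228) (nat_lit 223)) (XT.lf (nat_lit 0) (nat_lit 5947112275805) (nat_lit 152) (nat_lit 6730784422671) (nat_lit 0) (nat_lit 5947028202797) (nat_lit 1) (nat_lit 5) (nat_lit 3) (nat_lit 4) (nat_lit 1) (nat_lit 4) (nat_lit 330) (nat_lit 228) (nat_lit 222)))) (XT.nd (nat_lit 78) (nat_lit 0) (nat_lit 0) (XT.lf (nat_lit 0) (nat_lit 970828400530) (nat_lit 152) (nat_lit 1102707572004) (nat_lit 0) (nat_lit 970828400530) (nat_lit 1) (nat_lit 5) (nat_lit 3) (nat_lit 4) (nat_lit 1) (nat_lit 4) (nat_lit 322) (nat_lit 229) (nat_lit 229)) (XT.nd (nat_lit 78) (nat_lit 0) (nat_lit 0) (XT.lf (nat_lit 0) (nat_lit 2233578766290) (nat_lit 152) (nat_lit 2534846598072) (nat_lit 0) (nat_lit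 2233556551098) (nat_lit 1) (nat_lit 5) (nat_lit 3) (nat_lit 4) (nat_lit 1) (nat_lit 4) (nat_lit 323) (nat_lit 229) (nat_lit 228)) (XT.lf (nat_lit 0) (nat_lit 2569229625752) (nat_lit 152) (nat_lit 2913810112446) (nat_lit 0) (nat_lit 2569188093003) (nat_lit 1) (nat_lit 5) (nat_lit 3) (nat_lit 4) (nat_lit 1) (nat_lit 4) (nat_lit 324) (nat_lit 229) (nat_lit 227))))) (XT.nd (nat_lit 234) (nat_lit 0) (nat_lit 0) (XT.nd (nat_lit 78) (nat_lit 0) (nat_lit 0) (XT.lf (nat_lit 0) (nat_lit 2955176461480) (nat_lit 152) (nat_lit 3349720190673) (nat_lit 0) (nat_lit 2955118130854) (nat_lit 1) (nat_lit 5) (nat_lit 3) (nat_lit 4) (nat_lit 1) (nat_lit 4) (nat_lit 325) (nat_lit 229) (nat_lit 226)) (XT.nd (nat_lit 78) (nat_lit 0) (nat_lit 0) (XT.lf (nat_lit 0) (nat_lit 3398970407217) (nat_lit 152) (nat_lit 3851105508198) (nat_lit 0) (nat_lit 3398897469741) (nat_lit 1) (nat_lit 5) (nat_lit 3) (nat_lit 4) (nat_lit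 1) (nat_lit 4) (nat_lit 326) (nat_lit 229) (nat_lit 225)) (XT.lf (nat_lit 0) (nat_lit 3909294387986) (nat_lit 152) (nat_lit 4427775777753) (nat_lit 0) (nat_lit 3909208748903) (nat_lit 1) (nat_lit 5) (nat_lit 3) (nat_lit 4) (nat_lit 1) (nat_lit 4) (nat_lit 327) (nat_lit 229) (nat_lit 224)))) (XT.nd (nat_lit 156) (nat_lit 0) (nat_lit 0) (XT.nd (nat_lit 78) (nat_lit 0) (nat_lit 0) (XT.lf (nat_lit 0) (nat_lit 4496133003413) (nat_lit 152) (nat_lit 5091013678527) (nat_lit 0) (nat_lit 4496036319453) (nat_lit 1) (nat_lit 5) (nat_lit 3) (nat_lit 4) (nat_lit 1) (nat_lit 4) (nat_lit 328) (nat_lit 229) (nat_lit 223)) (XT.lf (nat_lit 0) (nat_lit 5170967878581) (nat_lit 152) (nat_lit 5853795604229) (nat_lit 0) (nat_lit 5170861590380) (nat_lit 1) (nat_lit 5) (nat_lit 3) (nat_lit 4) (nat_lit 1) (nat_lit 4) (nat_lit 329) (nat_lit 229) (nat_lit 222))) (XT.nd (nat_lit 39858) (nat_lit 0) (nat_lit 0) (XT.lf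 (nat_lit 0) (nat_lit 5947002304526) (nat_lit 152) (nat_lit 6731045549059) (nat_lit 0) (nat_lit 5946887664812) (nat_lit 1) (nat_lit 5) (nat_lit 3) (nat_lit 4) (nat_lit 1) (nat_lit 4) (nat_lit 330) (nat_lit 229) (nat_lit 221)) (XT.lf (nat_lit 0) (nat_lit 733479695213) (nat_lit 152) (nat_lit 835068822788) (nat_lit 0) (nat_lit 733479695213) (nat_lit 1) (nat_lit 5) (nat_lit 3) (nat_lit 4) (nat_lit 1) (nat_lit 4) (nat_lit 320) (nat_lit 230) (nat_lit 230))))))) (XT.nd (nat_lit 40638) (nat_lit 0) (nat_lit 0) (XT.nd (nat_lit 468) (nat_lit 0) (nat_lit 0) (XT.nd (nat_lit 234) (nat_lit 0) (nat_lit 0) (XT.nd (nat_lit 78) (nat_lit 0) (nat_lit 0) (XT.lf (nat_lit 0) (nat_lit 1687777760822) (nat_lit 152) (nat_lit 1919070352244) (nat_lit 0) (nat_lit 1687752213351) (nat_lit 1) (nat_lit 5) (nat_lit 3) (nat_lit 4) (nat_lit 1) (nat_lit 4) (nat_lit 321) (nat_lit 230) (nat_lit 229)) (XT.nd (nat_lit 78) (nat_lit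 0) (nat_lit 0) (XT.lf (nat_lit 0) (nat_lit 1941650576142) (nat_lit 152) (nat_lit 2205477908443) (nat_lit 0) (nat_lit 1941602813480) (nat_lit 1) (nat_lit 5) (nat_lit 3) (nat_lit 4) (nat_lit 1) (nat_lit 4) (nat_lit 322) (nat_lit 230) (nat_lit 228)) (XT.lf (nat_lit 0) (nat_lit 2233544913208) (nat_lit 152) (nat_lit 2534963940274) (nat_lit 0) (nat_lit 2233477832988) (nat_lit 1) (nat_lit 5) (nat_lit 3) (nat_lit 4) (nat_lit 1) (nat_lit 4) (nat_lit 323) (nat_lit 230) (nat_lit 227)))) (XT.nd (nat_lit 78) (nat_lit 0) (nat_lit 0) (XT.lf (nat_lit 0) (nat_lit 2569171748181) (nat_lit 152) (nat_lit 2913974913577) (nat_lit 0) (nat_lit 2569087870084) (nat_lit 1) (nat_lit 5) (nat_lit 3) (nat_lit 4) (nat_lit 1) (nat_lit 4) (nat_lit 324) (nat_lit 230) (nat_lit 226)) (XT.nd (nat_lit 78) (nat_lit 0) (nat_lit 0) (XT.lf (nat_lit 0) (nat_lit 2955097693048) (nat_lit 152) (nat_lit 3349926260438) (nat_lit 0) (nat_lit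 2954999208102) (nat_lit 1) (nat_lit 5) (nat_lit 3) (nat_lit 4) (nat_lit 1) (nat_lit 4) (nat_lit 325) (nat_lit 230) (nat_lit 225)) (XT.lf (nat_lit 0) (nat_lit 3398873472818) (nat_lit 152) (nat_lit 3851347463731) (nat_lit 0) (nat_lit 3398762286264) (nat_lit 1) (nat_lit 5) (nat_lit 3) (nat_lit 4) (nat_lit 1) (nat_lit 4) (nat_lit 326) (nat_lit 230) (nat_lit 224))))) (XT.nd (nat_lit 234) (nat_lit 0) (nat_lit 0) (XT.nd (nat_lit 78) (nat_lit 0) (nat_lit 0) (XT.lf (nat_lit 0) (nat_lit 3909181657095) (nat_lit 152) (nat_lit 4428048938303) (nat_lit 0) (nat_lit 3909059425665) (nat_lit 1) (nat_lit 5) (nat_lit 3) (nat_lit 4) (nat_lit 1) (nat_lit 4) (nat_lit 327) (nat_lit 230) (nat_lit 223)) (XT.nd (nat_lit 78) (nat_lit 0) (nat_lit 0) (XT.lf (nat_lit 0) (nat_lit 4496006536441) (nat_lit 152) (nat_lit 5091313973873) (nat_lit 0) (nat_lit 4495874700771) (nat_lit 1) (nat_lit 5) (nat_lit 3) (nat_lit 4) (nat_lit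 1) (nat_lit 4) (nat_lit 328) (nat_lit 230) (nat_lit 222)) (XT.lf (nat_lit 0) (nat_lit 5170829467192) (nat_lit 152) (nat_lit 5854119495051) (nat_lit 0) (nat_lit 5170689280008) (nat_lit 1) (nat_lit 5) (nat_lit 3) (nat_lit 4) (nat_lit 1) (nat_lit 4) (nat_lit 329) (nat_lit 230) (nat_lit 221)))) (XT.nd (nat_lit 39780) (nat_lit 0) (nat_lit 0) (XT.nd (nat_lit 39702) (nat_lit 0) (nat_lit 0) (XT.lf (nat_lit 0) (nat_lit 5946853506687) (nat_lit 152) (nat_lit 6731389957686) (nat_lit 0) (nat_lit 5946706057317) (nat_lit 1) (nat_lit 5) (nat_lit 3) (nat_lit 4) (nat_lit 1) (nat_lit 4) (nat_lit 330) (nat_lit 230) (nat_lit 220)) (XT.lf (nat_lit 0) (nat_lit 553919066964) (nat_lit 152) (nat_lit 632884998746) (nat_lit 0) (nat_lit 553919066964) (nat_lit 1) (nat_lit 5) (nat_lit 3) (nat_lit 4) (nat_lit 1) (nat_lit 4) (nat_lit 318) (nat_lit 231) (nat_lit 231))) (XT.nd (nat_lit 78) (nat_lit 0) (nat_lit 0) (XT.lf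 (nat_lit 0) (nat_lit 1274904485125) (nat_lit 152) (nat_lit 1453809365920) (nat_lit 0) (nat_lit 1274875105534) (nat_lit 1) (nat_lit 5) (nat_lit 3) (nat_lit 4) (nat_lit 1) (nat_lit 4) (nat_lit 319) (nat_lit 231) (nat_lit 230)) (XT.lf (nat_lit 0) (nat_lit 1466952231771) (nat_lit 152) (nat_lit 1670209824675) (nat_lit 0) (nat_lit 1466897304709) (nat_lit 1) (nat_lit 5) (nat_lit 3) (nat_lit 4) (nat_lit 1) (nat_lit 4) (nat_lit 320) (nat_lit 231) (nat_lit 229)))))) (XT.nd (nat_lit 468) (nat_lit 0) (nat_lit 0) (XT.nd (nat_lit 234) (nat_lit 0) (nat_lit 0) (XT.nd (nat_lit 78) (nat_lit 0) (nat_lit 0) (XT.lf (nat_lit 0) (nat_lit 1687738829778) (nat_lit 152) (nat_lit 1919205295776) (nat_lit 0) (nat_lit 1687661687525) (nat_lit 1) (nat_lit 5) (nat_lit 3) (nat_lit 4) (nat_lit 1) (nat_lit 4) (nat_lit 321) (nat_lit 231) (nat_lit 228)) (XT.nd (nat_lit 78) (nat_lit 0) (nat_lit 0) (XT.lf (nat_lit 0) (nat_lit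 1941584016934) (nat_lit 152) (nat_lit 2205667429743) (nat_lit 0) (nat_lit 1941487557123) (nat_lit 1) (nat_lit 5) (nat_lit 3) (nat_lit 4) (nat_lit 1) (nat_lit 4) (nat_lit 322) (nat_lit 231) (nat_lit 227)) (XT.lf (nat_lit 0) (nat_lit 2233454329511) (nat_lit 152) (nat_lit 2535200920503) (nat_lit 0) (nat_lit 2233341071823) (nat_lit 1) (nat_lit 5) (nat_lit 3) (nat_lit 4) (nat_lit 1) (nat_lit 4) (nat_lit 323) (nat_lit 231) (nat_lit 226)))) (XT.nd (nat_lit 78) (nat_lit 0) (nat_lit 0) (XT.lf (nat_lit 0) (nat_lit 2569060273622) (nat_lit 152) (nat_lit 2914253162440) (nat_lit 0) (nat_lit 2568932409085) (nat_lit 1) (nat_lit 5) (nat_lit 3) (nat_lit 4) (nat_lit 1) (nat_lit 4) (nat_lit 324) (nat_lit 231) (nat_lit 225)) (XT.nd (nat_lit 78) (nat_lit 0) (nat_lit 0) (XT.lf (nat_lit 0) (nat_lit 2954968052523) (nat_lit 152) (nat_lit 3350240395070) (nat_lit 0) (nat_lit 2954827486378) (nat_lit 1) (nat_lit 5)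 (nat_lit 3) (nat_lit 4) (nat_lit 1) (nat_lit 4) (nat_lit 325) (nat_lit 231) (nat_lit 224)) (XT.lf (nat_lit 0) (nat_lit 3398728035801) (nat_lit 152) (nat_lit 3851692803379) (nat_lit 0) (nat_lit 3398576424780) (nat_lit 1) (nat_lit 5) (nat_lit 3) (nat_lit 4) (nat_lit 1) (nat_lit 4) (nat_lit 326) (nat_lit 231) (nat_lit 223))))) (XT.nd (nat_lit 234) (nat_lit 0) (nat_lit 0) (XT.nd (nat_lit 78) (nat_lit 0) (nat_lit 0) (XT.lf (nat_lit 0) (nat_lit 3909022483998) (nat_lit 152) (nat_lit 4428421412748) (nat_lit 0) (nat_lit 3908861268736) (nat_lit 1) (nat_lit 5) (nat_lit 3) (nat_lit 4) (nat_lit 1) (nat_lit 4) (nat_lit 327) (nat_lit 231) (nat_lit 222)) (XT.nd (nat_lit 78) (nat_lit 0) (nat_lit 0) (XT.lf (nat_lit 0) (nat_lit 4495835418927) (nat_lit 152) (nat_lit 5091710043793) (nat_lit 0) (nat_lit 4495665852151) (nat_lit 1) (nat_lit 5) (nat_lit 3) (nat_lit 4) (nat_lit 1) (nat_lit 4) (nat_lit 328) (nat_lit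 231) (nat_lit 221)) (XT.lf (nat_lit 0) (nat_lit 5170647963227) (nat_lit 152) (nat_lit 5854536082776) (nat_lit 0) (nat_lit 5170471134266) (nat_lit 1) (nat_lit 5) (nat_lit 3) (nat_lit 4) (nat_lit 1) (nat_lit 4) (nat_lit 329) (nat_lit 231) (nat_lit 220)))) (XT.nd (nat_lit 39624) (nat_lit 0) (nat_lit 0) (XT.nd (nat_lit 39546) (nat_lit 0) (nat_lit 0) (XT.lf (nat_lit 0) (nat_lit 5946662971026) (nat_lit 152) (nat_lit 6731824386980) (nat_lit 0) (nat_lit 5946479827122) (nat_lit 1) (nat_lit 5) (nat_lit 3) (nat_lit 4) (nat_lit 1) (nat_lit 4) (nat_lit 330) (nat_lit 231) (nat_lit 219)) (XT.lf (nat_lit 0) (nat_lit 418040891069) (nat_lit 152) (nat_lit 480222930062) (nat_lit 0) (nat_lit 418040891069) (nat_lit 1) (nat_lit 5) (nat_lit 3) (nat_lit 4) (nat_lit 1) (nat_lit 4) (nat_lit 316) (nat_lit 232) (nat_lit 232))) (XT.nd (nat_lit 78) (nat_lit 0) (nat_lit 0) (XT.lf (nat_lit 0) (nat_lit 962518275233) (nat_lit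 152) (nat_lit 1102412688268) (nat_lit 0) (nat_lit 962484488703) (nat_lit 1) (nat_lit 5) (nat_lit 3) (nat_lit 4) (nat_lit 1) (nat_lit 4) (nat_lit 317) (nat_lit 232) (nat_lit 231)) (XT.lf (nat_lit 0) (nat_lit 1107829901476) (nat_lit 152) (nat_lit 1265853003455) (nat_lit 0) (nat_lit 1107766735355) (nat_lit 1) (nat_lit 5) (nat_lit 3) (nat_lit 4) (nat_lit 1) (nat_lit 4) (nat_lit 318) (nat_lit 232) (nat_lit 230))))))))
noncomputable def xc1 : XT := (XT.nd (nat_lit 41340) (nat_lit 0) (nat_lit 0) (XT.nd (nat_lit 40326) (nat_lit 0) (nat_lit 0) (XT.nd (nat_lit 468) (nat_lit 0) (nat_lit 0) (XT.nd (nat_lit 234) (nat_lit 0) (nat_lit 0) (XT.nd (nat_lit 78) (nat_lit 0) (nat_lit 0) (XT.lf (nat_lit 0) (nat_lit 1274859714425) (nat_lit 152) (nat_lit 1453964550982) (nat_lit 0) (nat_lit 1274771000834) (nat_lit 1) (nat_lit 5) (nat_lit 3) (nat_lit 4) (nat_lit 1) (nat_lit 4) (nat_lit 319) (nat_lit 232) (nat_lit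 229)) (XT.nd (nat_lit 78) (nat_lit 0) (nat_lit 0) (XT.lf (nat_lit 0) (nat_lit 1466875688682) (nat_lit 152) (nat_lit 1670427774171) (nat_lit 0) (nat_lit 1466764759899) (nat_lit 1) (nat_lit 5) (nat_lit 3) (nat_lit 4) (nat_lit 1) (nat_lit 4) (nat_lit 320) (nat_lit 232) (nat_lit 228)) (XT.lf (nat_lit 0) (nat_lit 1687634658526) (nat_lit 152) (nat_lit 1919477823040) (nat_lit 0) (nat_lit 1687504412185) (nat_lit 1) (nat_lit 5) (nat_lit 3) (nat_lit 4) (nat_lit 1) (nat_lit 4) (nat_lit 321) (nat_lit 232) (nat_lit 227)))) (XT.nd (nat_lit 78) (nat_lit 0) (nat_lit 0) (XT.lf (nat_lit 0) (nat_lit 1941455821192) (nat_lit 152) (nat_lit 2205987415936) (nat_lit 0) (nat_lit 1941308776975) (nat_lit 1) (nat_lit 5) (nat_lit 3) (nat_lit 4) (nat_lit 1) (nat_lit 4) (nat_lit 322) (nat_lit 232) (nat_lit 226)) (XT.nd (nat_lit 78) (nat_lit 0) (nat_lit 0) (XT.lf (nat_lit 0) (nat_lit 2233305242907) (nat_lit 152) (nat_lit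 2535562175330) (nat_lit 0) (nat_lit 2233143591841) (nat_lit 1) (nat_lit 5) (nat_lit 3) (nat_lit 4) (nat_lit 1) (nat_lit 4) (nat_lit 323) (nat_lit 232) (nat_lit 225)) (XT.lf (nat_lit 0) (nat_lit 2568893021053) (nat_lit 152) (nat_lit 2914650303036) (nat_lit 0) (nat_lit 2568718668378) (nat_lit 1) (nat_lit 5) (nat_lit 3) (nat_lit 4) (nat_lit 1) (nat_lit 4) (nat_lit 324) (nat_lit 232) (nat_lit 224))))) (XT.nd (nat_lit 234) (nat_lit 0) (nat_lit 0) (XT.nd (nat_lit 78) (nat_lit 0) (nat_lit 0) (XT.lf (nat_lit 0) (nat_lit 2954785003461) (nat_lit 152) (nat_lit 3350668740682) (nat_lit 0) (nat_lit 2954599605910) (nat_lit 1) (nat_lit 5) (nat_lit 3) (nat_lit 4) (nat_lit 1) (nat_lit 4) (nat_lit 325) (nat_lit 232) (nat_lit 223)) (XT.nd (nat_lit 78) (nat_lit 0) (nat_lit 0) (XT.lf (nat_lit 0) (nat_lit 3398531250659) (nat_lit 152) (nat_lit 3852148283788) (nat_lit 0) (nat_lit 3398336248868) (nat_lit 1) (nat_lit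 5) (nat_lit 3) (nat_lit 4) (nat_lit 1) (nat_lit 4) (nat_lit 326) (nat_lit 232) (nat_lit 222)) (XT.lf (nat_lit 0) (nat_lit 3908813754438) (nat_lit 152) (nat_lit 4428900488631) (nat_lit 0) (nat_lit 3908610401134) (nat_lit 1) (nat_lit 5) (nat_lit 3) (nat_lit 4) (nat_lit 1) (nat_lit 4) (nat_lit 327) (nat_lit 232) (nat_lit 221)))) (XT.nd (nat_lit 156) (nat_lit 0) (nat_lit 0) (XT.nd (nat_lit 78) (nat_lit 0) (nat_lit 0) (XT.lf (nat_lit 0) (nat_lit 4495616302917) (nat_lit 152) (nat_lit 5092209637482) (nat_lit 0) (nat_lit 4495405687427) (nat_lit 1) (nat_lit 5) (nat_lit 3) (nat_lit 4) (nat_lit 1) (nat_lit 4) (nat_lit 328) (nat_lit 232) (nat_lit 220)) (XT.lf (nat_lit 0) (nat_lit 5170419815521) (nat_lit 152) (nat_lit 5855053518034) (nat_lit 0) (nat_lit 5170202885087) (nat_lit 1) (nat_lit 5) (nat_lit 3) (nat_lit 4) (nat_lit 1) (nat_lit 4) (nat_lit 329) (nat_lit 232) (nat_lit 219))) (XT.nd (nat_lit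 39390) (nat_lit 0) (nat_lit 0) (XT.lf (nat_lit 0) (nat_lit 5946426969673) (nat_lit 152) (nat_lit 6732357336646) (nat_lit 0) (nat_lit 5946204547983) (nat_lit 1) (nat_lit 5) (nat_lit 3) (nat_lit 4) (nat_lit 1) (nat_lit 4) (nat_lit 330) (nat_lit 232) (nat_lit 218)) (XT.lf (nat_lit 0) (nat_lit 315177243301) (nat_lit 152) (nat_lit 365039115510) (nat_lit 0) (nat_lit 315177243301) (nat_lit 1) (nat_lit 5) (nat_lit 3) (nat_lit 4) (nat_lit 1) (nat_lit 4) (nat_lit 314) (nat_lit 233) (nat_lit 233)))))) (XT.nd (nat_lit 468) (nat_lit 0) (nat_lit 0) (XT.nd (nat_lit 234) (nat_lit 0) (nat_lit 0) (XT.nd (nat_lit 78) (nat_lit 0) (nat_lit 0) (XT.lf (nat_lit 0) (nat_lit 726085519231) (nat_lit 152) (nat_lit 837174907167) (nat_lit 0) (nat_lit 726046664722) (nat_lit 1) (nat_lit 5) (nat_lit 3) (nat_lit 4) (nat_lit 1) (nat_lit 4) (nat_lit 315) (nat_lit 233) (nat_lit 232)) (XT.nd (nat_lit 78) (nat_lit 0) (nat_lit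 0) (XT.lf (nat_lit 0) (nat_lit 836072314817) (nat_lit 152) (nat_lit 960541316982) (nat_lit 0) (nat_lit 835999673779) (nat_lit 1) (nat_lit 5) (nat_lit 3) (nat_lit 4) (nat_lit 1) (nat_lit 4) (nat_lit 316) (nat_lit 233) (nat_lit 231)) (XT.lf (nat_lit 0) (nat_lit 962466788927) (nat_lit 152) (nat_lit 1102591151089) (nat_lit 0) (nat_lit 962364768297) (nat_lit 1) (nat_lit 5) (nat_lit 3) (nat_lit 4) (nat_lit 1) (nat_lit 4) (nat_lit 317) (nat_lit 233) (nat_lit 230)))) (XT.nd (nat_lit 78) (nat_lit 0) (nat_lit 0) (XT.lf (nat_lit 0) (nat_lit 1107741876924) (nat_lit 152) (nat_lit 1266103645375) (nat_lit 0) (nat_lit 1107614308823) (nat_lit 1) (nat_lit 5) (nat_lit 3) (nat_lit 4) (nat_lit 1) (nat_lit 4) (nat_lit 318) (nat_lit 233) (nat_lit 229)) (XT.nd (nat_lit 78) (nat_lit 0) (nat_lit 0) (XT.lf (nat_lit 0) (nat_lit 1274739917485) (nat_lit 152) (nat_lit 1454277957336) (nat_lit 0) (nat_lit 1274590134193)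 (nat_lit 1) (nat_lit 5) (nat_lit 3) (nat_lit 4) (nat_lit 1) (nat_lit 4) (nat_lit 319) (nat_lit 233) (nat_lit 228)) (XT.lf (nat_lit 0) (nat_lit 1466728263578) (nat_lit 152) (nat_lit 1670795758293) (nat_lit 0) (nat_lit 1466559162728) (nat_lit 1) (nat_lit 5) (nat_lit 3) (nat_lit 4) (nat_lit 1) (nat_lit 4) (nat_lit 320) (nat_lit 233) (nat_lit 227))))) (XT.nd (nat_lit 234) (nat_lit 0) (nat_lit 0) (XT.nd (nat_lit 78) (nat_lit 0) (nat_lit 0) (XT.lf (nat_lit 0) (nat_lit 1687463208932) (nat_lit 152) (nat_lit 1919893266091) (nat_lit 0) (nat_lit 1687277310205) (nat_lit 1) (nat_lit 5) (nat_lit 3) (nat_lit 4) (nat_lit 1) (nat_lit 4) (nat_lit 321) (nat_lit 233) (nat_lit 226)) (XT.nd (nat_lit 78) (nat_lit 0) (nat_lit 0) (XT.lf (nat_lit 0) (nat_lit 1941263480737) (nat_lit 152) (nat_lit 2206444127621) (nat_lit 0) (nat_lit 1941062975162) (nat_lit 1) (nat_lit 5) (nat_lit 3) (nat_lit 4) (nat_lit 1) (nat_lit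 4) (nat_lit 322) (nat_lit 233) (nat_lit 225)) (XT.lf (nat_lit 0) (nat_lit 2233094736486) (nat_lit 152) (nat_lit 2536054772784) (nat_lit 0) (nat_lit 2232881529303) (nat_lit 1) (nat_lit 5) (nat_lit 3) (nat_lit 4) (nat_lit 1) (nat_lit 4) (nat_lit 323) (nat_lit 233) (nat_lit 224)))) (XT.nd (nat_lit 156) (nat_lit 0) (nat_lit 0) (XT.nd (nat_lit 78) (nat_lit 0) (nat_lit 0) (XT.lf (nat_lit 0) (nat_lit 2568666718139) (nat_lit 152) (nat_lit 2915174105505) (nat_lit 0) (nat_lit 2568442466079) (nat_lit 1) (nat_lit 5) (nat_lit 3) (nat_lit 4) (nat_lit 1) (nat_lit 4) (nat_lit 324) (nat_lit 233) (nat_lit 223)) (XT.lf (nat_lit 0) (nat_lit 2954544964468) (nat_lit 152) (nat_lit 3351219677948) (nat_lit 0) (nat_lit 2954311108167) (nat_lit 1) (nat_lit 5) (nat_lit 3) (nat_lit 4) (nat_lit 1) (nat_lit 4) (nat_lit 325) (nat_lit 233) (nat_lit 222))) (XT.nd (nat_lit 78) (nat_lit 0) (nat_lit 0) (XT.lf (nat_lit 0) (nat_lit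 3398279267248) (nat_lit 152) (nat_lit 3852722816529) (nat_lit 0) (nat_lit 3398037059434) (nat_lit 1) (nat_lit 5) (nat_lit 3) (nat_lit 4) (nat_lit 1) (nat_lit 4) (nat_lit 326) (nat_lit 233) (nat_lit 221)) (XT.lf (nat_lit 0) (nat_lit 3908551384577) (nat_lit 152) (nat_lit 4429495539178) (nat_lit 0) (nat_lit 3908301914578) (nat_lit 1) (nat_lit 5) (nat_lit 3) (nat_lit 4) (nat_lit 1) (nat_lit 4) (nat_lit 327) (nat_lit 233) (nat_lit 220))))))) (XT.nd (nat_lit 40170) (nat_lit 0) (nat_lit 0) (XT.nd (nat_lit 39624) (nat_lit 0) (nat_lit 0) (XT.nd (nat_lit 39390) (nat_lit 0) (nat_lit 0) (XT.nd (nat_lit 78) (nat_lit 0) (nat_lit 0) (XT.lf (nat_lit 0) (nat_lit 4495344901360) (nat_lit 152) (nat_lit 5092822529597) (nat_lit 0) (nat_lit 4495089116417) (nat_lit 1) (nat_lit 5) (nat_lit 3) (nat_lit 4) (nat_lit 1) (nat_lit 4) (nat_lit 328) (nat_lit 233) (nat_lit 219)) (XT.nd (nat_lit 78) (nat_lit 0) (nat_lit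 0) (XT.lf (nat_lit 0) (nat_lit 5170140560316) (nat_lit 152) (nat_lit 5855681924557) (nat_lit 0) (nat_lit 5169879284117) (nat_lit 1) (nat_lit 5) (nat_lit 3) (nat_lit 4) (nat_lit 1) (nat_lit 4) (nat_lit 329) (nat_lit 233) (nat_lit 218)) (XT.lf (nat_lit 0) (nat_lit 5946140885208) (nat_lit 152) (nat_lit 6732999233959) (nat_lit 0) (nat_lit 5945874834004) (nat_lit 1) (nat_lit 5) (nat_lit 3) (nat_lit 4) (nat_lit 1) (nat_lit 4) (nat_lit 330) (nat_lit 233) (nat_lit 217)))) (XT.nd (nat_lit 78) (nat_lit 0) (nat_lit 0) (XT.lf (nat_lit 0) (nat_lit 237259288073) (nat_lit 152) (nat_lit 278231841769) (nat_lit 0) (nat_lit 237259288073) (nat_lit 1) (nat_lit 5) (nat_lit 3) (nat_lit 4) (nat_lit 1) (nat_lit 4) (nat_lit 312) (nat_lit 234) (nat_lit 234)) (XT.nd (nat_lit 78) (nat_lit 0) (nat_lit 0) (XT.lf (nat_lit 0) (nat_lit 547050901152) (nat_lit 152) (nat_lit 637155918788) (nat_lit 0) (nat_lit 547006218467)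 (nat_lit 1) (nat_lit 5) (nat_lit 3) (nat_lit 4) (nat_lit 1) (nat_lit 4) (nat_lit 313) (nat_lit 234) (nat_lit 233)) (XT.lf (nat_lit 0) (nat_lit 630343599182) (nat_lit 152) (nat_lit 730188006406) (nat_lit 0) (nat_lit 630260061988) (nat_lit 1) (nat_lit 5) (nat_lit 3) (nat_lit 4) (nat_lit 1) (nat_lit 4) (nat_lit 314) (nat_lit 234) (nat_lit 232))))) (XT.nd (nat_lit 234) (nat_lit 0) (nat_lit 0) (XT.nd (nat_lit 78) (nat_lit 0) (nat_lit 0) (XT.lf (nat_lit 0) (nat_lit 726026309980) (nat_lit 152) (nat_lit 837380139412) (nat_lit 0) (nat_lit 725908986256) (nat_lit 1) (nat_lit 5) (nat_lit 3) (nat_lit 4) (nat_lit 1) (nat_lit 4) (nat_lit 315) (nat_lit 234) (nat_lit 231)) (XT.nd (nat_lit 78) (nat_lit 0) (nat_lit 0) (XT.lf (nat_lit 0) (nat_lit 835971086583) (nat_lit 152) (nat_lit 960829555189) (nat_lit 0) (nat_lit 835824383268) (nat_lit 1) (nat_lit 5) (nat_lit 3) (nat_lit 4) (nat_lit 1) (nat_lit 4) (nat_lit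 316) (nat_lit 234) (nat_lit 230)) (XT.lf (nat_lit 0) (nat_lit 962329022446) (nat_lit 152) (nat_lit 1102951568396) (nat_lit 0) (nat_lit 962156771661) (nat_lit 1) (nat_lit 5) (nat_lit 3) (nat_lit 4) (nat_lit 1) (nat_lit 4) (nat_lit 317) (nat_lit 234) (nat_lit 229)))) (XT.nd (nat_lit 156) (nat_lit 0) (nat_lit 0) (XT.nd (nat_lit 78) (nat_lit 0) (nat_lit 0) (XT.lf (nat_lit 0) (nat_lit 1107572338054) (nat_lit 152) (nat_lit 1266526827115) (nat_lit 0) (nat_lit 1107377872077) (nat_lit 1) (nat_lit 5) (nat_lit 3) (nat_lit 4) (nat_lit 1) (nat_lit 4) (nat_lit 318) (nat_lit 234) (nat_lit 228)) (XT.lf (nat_lit 0) (nat_lit 1274542750452) (nat_lit 152) (nat_lit 1454755716844) (nat_lit 0) (nat_lit 1274328966916) (nat_lit 1) (nat_lit 5) (nat_lit 3) (nat_lit 4) (nat_lit 1) (nat_lit 4) (nat_lit 319) (nat_lit 234) (nat_lit 227))) (XT.nd (nat_lit 78) (nat_lit 0) (nat_lit 0) (XT.lf (nat_lit 0) (nat_lit 1466507072055)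 (nat_lit 152) (nat_lit 1671320976730) (nat_lit 0) (nat_lit 1466276490643) (nat_lit 1) (nat_lit 5) (nat_lit 3) (nat_lit 4) (nat_lit 1) (nat_lit 4) (nat_lit 320) (nat_lit 234) (nat_lit 226)) (XT.lf (nat_lit 0) (nat_lit 1687221126548) (nat_lit 152) (nat_lit 1920459753162) (nat_lit 0) (nat_lit 1686975938287) (nat_lit 1) (nat_lit 5) (nat_lit 3) (nat_lit 4) (nat_lit 1) (nat_lit 4) (nat_lit 321) (nat_lit 234) (nat_lit 225)))))) (XT.nd (nat_lit 468) (nat_lit 0) (nat_lit 0) (XT.nd (nat_lit 234) (nat_lit 0) (nat_lit 0) (XT.nd (nat_lit 78) (nat_lit 0) (nat_lit 0) (XT.lf (nat_lit 0) (nat_lit 1941003232387) (nat_lit 152) (nat_lit 2207046500461) (nat_lit 0) (nat_lit 1940745342518) (nat_lit 1) (nat_lit 5) (nat_lit 3) (nat_lit 4) (nat_lit 1) (nat_lit 4) (nat_lit 322) (nat_lit 234) (nat_lit 224)) (XT.nd (nat_lit 78) (nat_lit 0) (nat_lit 0) (XT.lf (nat_lit 0) (nat_lit 2232818691644) (nat_lit 152) (nat_lit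 2536688350640) (nat_lit 0) (nat_lit 2232549756898) (nat_lit 1) (nat_lit 5) (nat_lit 3) (nat_lit 4) (nat_lit 1) (nat_lit 4) (nat_lit 323) (nat_lit 234) (nat_lit 223)) (XT.lf (nat_lit 0) (nat_lit 2568376937216) (nat_lit 152) (nat_lit 2915834818158) (nat_lit 0) (nat_lit 2568098398231) (nat_lit 1) (nat_lit 5) (nat_lit 3) (nat_lit 4) (nat_lit 1) (nat_lit 4) (nat_lit 324) (nat_lit 234) (nat_lit 222)))) (XT.nd (nat_lit 78) (nat_lit 0) (nat_lit 0) (XT.lf (nat_lit 0) (nat_lit 2954243239127) (nat_lit 152) (nat_lit 3351903986076) (nat_lit 0) (nat_lit 2953956348628) (nat_lit 1) (nat_lit 5) (nat_lit 3) (nat_lit 4) (nat_lit 1) (nat_lit 4) (nat_lit 325) (nat_lit 234) (nat_lit 221)) (XT.nd (nat_lit 78) (nat_lit 0) (nat_lit 0) (XT.lf (nat_lit 0) (nat_lit 3397967155457) (nat_lit 152) (nat_lit 3853427642462) (nat_lit 0) (nat_lit 3397673002772) (nat_lit 1) (nat_lit 5) (nat_lit 3) (nat_lit 4) (nat_lit 1) (nat_lit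 4) (nat_lit 326) (nat_lit 234) (nat_lit 220)) (XT.lf (nat_lit 0) (nat_lit 3908230241091) (nat_lit 152) (nat_lit 4430218206680) (nat_lit 0) (nat_lit 3907929773462) (nat_lit 1) (nat_lit 5) (nat_lit 3) (nat_lit 4) (nat_lit 1) (nat_lit 4) (nat_lit 327) (nat_lit 234) (nat_lit 219))))) (XT.nd (nat_lit 39234) (nat_lit 0) (nat_lit 0) (XT.nd (nat_lit 78) (nat_lit 0) (nat_lit 0) (XT.lf (nat_lit 0) (nat_lit 4495015904225) (nat_lit 152) (nat_lit 5093560711508) (nat_lit 0) (nat_lit 4494709945341) (nat_lit 1) (nat_lit 5) (nat_lit 3) (nat_lit 4) (nat_lit 1) (nat_lit 4) (nat_lit 328) (nat_lit 234) (nat_lit 218)) (XT.nd (nat_lit 78) (nat_lit 0) (nat_lit 0) (XT.lf (nat_lit 0) (nat_lit 5169804733922) (nat_lit 152) (nat_lit 5856433597257) (nat_lit 0) (nat_lit 5169494000033) (nat_lit 1) (nat_lit 5) (nat_lit 3) (nat_lit 4) (nat_lit 1) (nat_lit 4) (nat_lit 329) (nat_lit 234) (nat_lit 217)) (XT.lf (nat_lit 0)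 (nat_lit 5945799120327) (nat_lit 152) (nat_lit 6733762637780) (nat_lit 0) (nat_lit 5945484234260) (nat_lit 1) (nat_lit 5) (nat_lit 3) (nat_lit 4) (nat_lit 1) (nat_lit 4) (nat_lit 330) (nat_lit 234) (nat_lit 216)))) (XT.nd (nat_lit 156) (nat_lit 0) (nat_lit 0) (XT.nd (nat_lit 78) (nat_lit 0) (nat_lit 0) (XT.lf (nat_lit 0) (nat_lit 178183121380) (nat_lit 152) (nat_lit 212924545394) (nat_lit 0) (nat_lit 178183121380) (nat_lit 1) (nat_lit 5) (nat_lit 3) (nat_lit 4) (nat_lit 1) (nat_lit 4) (nat_lit 310) (nat_lit 235) (nat_lit 235)) (XT.lf (nat_lit 0) (nat_lit 411378898546) (nat_lit 152) (nat_lit 486532539533) (nat_lit 0) (nat_lit 411327513458) (nat_lit 1) (nat_lit 5) (nat_lit 3) (nat_lit 4) (nat_lit 1) (nat_lit 4) (nat_lit 311) (nat_lit 235) (nat_lit 234))) (XT.nd (nat_lit 78) (nat_lit 0) (nat_lit 0) (XT.lf (nat_lit 0) (nat_lit 474506055613) (nat_lit 152) (nat_lit 556589925233) (nat_lit 0)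 (nat_lit 474409987839) (nat_lit 1) (nat_lit 5) (nat_lit 3) (nat_lit 4) (nat_lit 1) (nat_lit 4) (nat_lit 312) (nat_lit 235) (nat_lit 233)) (XT.lf (nat_lit 0) (nat_lit 546982810514) (nat_lit 152) (nat_lit 637391935869) (nat_lit 0) (nat_lit 546847888231) (nat_lit 1) (nat_lit 5) (nat_lit 3) (nat_lit 4) (nat_lit 1) (nat_lit 4) (nat_lit 313) (nat_lit 235) (nat_lit 232))))))))
noncomputable def xc2 : XT := (XT.nd (nat_lit 40872) (nat_lit 0) (nat_lit 0) (XT.nd (nat_lit 1014) (nat_lit 0) (nat_lit 0) (XT.nd (nat_lit 468) (nat_lit 0) (nat_lit 0) (XT.nd (nat_lit 234) (nat_lit 0) (nat_lit 0) (XT.nd (nat_lit 78) (nat_lit 0) (nat_lit 0) (XT.lf (nat_lit 0) (nat_lit 630227186712) (nat_lit 152) (nat_lit 730519480346) (nat_lit 0) (nat_lit 630058477900) (nat_lit 1) (nat_lit 5) (nat_lit 3) (nat_lit 4) (nat_lit 1) (nat_lit 4) (nat_lit 314) (nat_lit 235) (nat_lit 231)) (XT.nd (nat_lit 78) (nat_lit 0) (nat_lit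 0) (XT.lf (nat_lit 0) (nat_lit 725867878527) (nat_lit 152) (nat_lit 837794619314) (nat_lit 0) (nat_lit 725669790123) (nat_lit 1) (nat_lit 5) (nat_lit 3) (nat_lit 4) (nat_lit 1) (nat_lit 4) (nat_lit 315) (nat_lit 235) (nat_lit 230)) (XT.lf (nat_lit 0) (nat_lit 835776116883) (nat_lit 152) (nat_lit 961316214191) (nat_lit 0) (nat_lit 835552481009) (nat_lit 1) (nat_lit 5) (nat_lit 3) (nat_lit 4) (nat_lit 1) (nat_lit 4) (nat_lit 316) (nat_lit 235) (nat_lit 229)))) (XT.nd (nat_lit 78) (nat_lit 0) (nat_lit 0) (XT.lf (nat_lit 0) (nat_lit 962102280358) (nat_lit 152) (nat_lit 1103500991831) (nat_lit 0) (nat_lit 961856429293) (nat_lit 1) (nat_lit 5) (nat_lit 3) (nat_lit 4) (nat_lit 1) (nat_lit 4) (nat_lit 317) (nat_lit 235) (nat_lit 228)) (XT.nd (nat_lit 78) (nat_lit 0) (nat_lit 0) (XT.lf (nat_lit 0) (nat_lit 1107317967803) (nat_lit 152) (nat_lit 1267130828318) (nat_lit 0) (nat_lit 1107052799179)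 (nat_lit 1) (nat_lit 5) (nat_lit 3) (nat_lit 4) (nat_lit 1) (nat_lit 4) (nat_lit 318) (nat_lit 235) (nat_lit 227)) (XT.lf (nat_lit 0) (nat_lit 1274264355710) (nat_lit 152) (nat_lit 1455407176977) (nat_lit 0) (nat_lit 1273982389210) (nat_lit 1) (nat_lit 5) (nat_lit 3) (nat_lit 4) (nat_lit 1) (nat_lit 4) (nat_lit 319) (nat_lit 235) (nat_lit 226))))) (XT.nd (nat_lit 234) (nat_lit 0) (nat_lit 0) (XT.nd (nat_lit 78) (nat_lit 0) (nat_lit 0) (XT.lf (nat_lit 0) (nat_lit 1466207786452) (nat_lit 152) (nat_lit 1672013705496) (nat_lit 0) (nat_lit 1465911213103) (nat_lit 1) (nat_lit 5) (nat_lit 3) (nat_lit 4) (nat_lit 1) (nat_lit 4) (nat_lit 320) (nat_lit 235) (nat_lit 225)) (XT.nd (nat_lit 78) (nat_lit 0) (nat_lit 0) (XT.lf (nat_lit 0) (nat_lit 1686903674979) (nat_lit 152) (nat_lit 1921188367697) (nat_lit 0) (nat_lit 1686594400021) (nat_lit 1) (nat_lit 5) (nat_lit 3) (nat_lit 4) (nat_lit 1) (nat_lit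 4) (nat_lit 321) (nat_lit 235) (nat_lit 224)) (XT.lf (nat_lit 0) (nat_lit 1940669984326) (nat_lit 152) (nat_lit 2207806320012) (nat_lit 0) (nat_lit 1940349664492) (nat_lit 1) (nat_lit 5) (nat_lit 3) (nat_lit 4) (nat_lit 1) (nat_lit 4) (nat_lit 322) (nat_lit 235) (nat_lit 223)))) (XT.nd (nat_lit 156) (nat_lit 0) (nat_lit 0) (XT.nd (nat_lit 78) (nat_lit 0) (nat_lit 0) (XT.lf (nat_lit 0) (nat_lit 2232471707502) (nat_lit 152) (nat_lit 2537475304987) (nat_lit 0) (nat_lit 2232141783428) (nat_lit 1) (nat_lit 5) (nat_lit 3) (nat_lit 4) (nat_lit 1) (nat_lit 4) (nat_lit 323) (nat_lit 235) (nat_lit 222)) (XT.lf (nat_lit 0) (nat_lit 2568018008657) (nat_lit 152) (nat_lit 2916645367981) (nat_lit 0) (nat_lit 2567679733070) (nat_lit 1) (nat_lit 5) (nat_lit 3) (nat_lit 4) (nat_lit 1) (nat_lit 4) (nat_lit 324) (nat_lit 235) (nat_lit 221))) (XT.nd (nat_lit 78) (nat_lit 0) (nat_lit 0) (XT.lf (nat_lit 0) (nat_lit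 2953873924118) (nat_lit 152) (nat_lit 3352735053704) (nat_lit 0) (nat_lit 2953528386345) (nat_lit 1) (nat_lit 5) (nat_lit 3) (nat_lit 4) (nat_lit 1) (nat_lit 4) (nat_lit 325) (nat_lit 235) (nat_lit 220)) (XT.lf (nat_lit 0) (nat_lit 3397588808752) (nat_lit 152) (nat_lit 3854276551659) (nat_lit 0) (nat_lit 3397236956035) (nat_lit 1) (nat_lit 5) (nat_lit 3) (nat_lit 4) (nat_lit 1) (nat_lit 4) (nat_lit 326) (nat_lit 235) (nat_lit 219)))))) (XT.nd (nat_lit 39312) (nat_lit 0) (nat_lit 0) (XT.nd (nat_lit 234) (nat_lit 0) (nat_lit 0) (XT.nd (nat_lit 78) (nat_lit 0) (nat_lit 0) (XT.lf (nat_lit 0) (nat_lit 3907844040738) (nat_lit 152) (nat_lit 4431082630285) (nat_lit 0) (nat_lit 3907486696765) (nat_lit 1) (nat_lit 5) (nat_lit 3) (nat_lit 4) (nat_lit 1) (nat_lit 4) (nat_lit 327) (nat_lit 235) (nat_lit 218)) (XT.nd (nat_lit 78) (nat_lit 0) (nat_lit 0) (XT.lf (nat_lit 0) (nat_lit 4494622874613) (nat_lit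 152) (nat_lit 5094438625902) (nat_lit 0) (nat_lit 4494260755635) (nat_lit 1) (nat_lit 5) (nat_lit 3) (nat_lit 4) (nat_lit 1) (nat_lit 4) (nat_lit 328) (nat_lit 235) (nat_lit 217)) (XT.lf (nat_lit 0) (nat_lit 5169405765823) (nat_lit 152) (nat_lit 5857323242773) (nat_lit 0) (nat_lit 5169039494667) (nat_lit 1) (nat_lit 5) (nat_lit 3) (nat_lit 4) (nat_lit 1) (nat_lit 4) (nat_lit 329) (nat_lit 235) (nat_lit 216)))) (XT.nd (nat_lit 38922) (nat_lit 0) (nat_lit 0) (XT.lf (nat_lit 0) (nat_lit 5945394988326) (nat_lit 152) (nat_lit 6734662484271) (nat_lit 0) (nat_lit 5945025106581) (nat_lit 1) (nat_lit 5) (nat_lit 3) (nat_lit 4) (nat_lit 1) (nat_lit 4) (nat_lit 330) (nat_lit 235) (nat_lit 215)) (XT.nd (nat_lit 78) (nat_lit 0) (nat_lit 0) (XT.lf (nat_lit 0) (nat_lit 133330204026) (nat_lit 152) (nat_lit 163924041842) (nat_lit 0) (nat_lit 133330204026) (nat_lit 1) (nat_lit 5) (nat_lit 3) (nat_lit 4)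 (nat_lit 1) (nat_lit 4) (nat_lit 308) (nat_lit 236) (nat_lit 236)) (XT.lf (nat_lit 0) (nat_lit 308450846538) (nat_lit 152) (nat_lit 373352294132) (nat_lit 0) (nat_lit 308391753687) (nat_lit 1) (nat_lit 5) (nat_lit 3) (nat_lit 4) (nat_lit 1) (nat_lit 4) (nat_lit 309) (nat_lit 236) (nat_lit 235))))) (XT.nd (nat_lit 234) (nat_lit 0) (nat_lit 0) (XT.nd (nat_lit 78) (nat_lit 0) (nat_lit 0) (XT.lf (nat_lit 0) (nat_lit 356351844147) (nat_lit 152) (nat_lit 425994268737) (nat_lit 0) (nat_lit 356241366207) (nat_lit 1) (nat_lit 5) (nat_lit 3) (nat_lit 4) (nat_lit 1) (nat_lit 4) (nat_lit 310) (nat_lit 236) (nat_lit 234)) (XT.nd (nat_lit 78) (nat_lit 0) (nat_lit 0) (XT.lf (nat_lit 0) (nat_lit 411300594311) (nat_lit 152) (nat_lit 486803959177) (nat_lit 0) (nat_lit 411145433686) (nat_lit 1) (nat_lit 5) (nat_lit 3) (nat_lit 4) (nat_lit 1) (nat_lit 4) (nat_lit 311) (nat_lit 236) (nat_lit 233)) (XT.lf (nat_lit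 0) (nat_lit 474372181273) (nat_lit 152) (nat_lit 556971120263) (nat_lit 0) (nat_lit 474178166139) (nat_lit 1) (nat_lit 5) (nat_lit 3) (nat_lit 4) (nat_lit 1) (nat_lit 4) (nat_lit 312) (nat_lit 236) (nat_lit 232)))) (XT.nd (nat_lit 156) (nat_lit 0) (nat_lit 0) (XT.nd (nat_lit 78) (nat_lit 0) (nat_lit 0) (XT.lf (nat_lit 0) (nat_lit 546800614342) (nat_lit 152) (nat_lit 637868587757) (nat_lit 0) (nat_lit 546572812678) (nat_lit 1) (nat_lit 5) (nat_lit 3) (nat_lit 4) (nat_lit 1) (nat_lit 4) (nat_lit 313) (nat_lit 236) (nat_lit 231)) (XT.lf (nat_lit 0) (nat_lit 630002971558) (nat_lit 152) (nat_lit 731079138197) (nat_lit 0) (nat_lit 629745790303) (nat_lit 1) (nat_lit 5) (nat_lit 3) (nat_lit 4) (nat_lit 1) (nat_lit 4) (nat_lit 314) (nat_lit 236) (nat_lit 230))) (XT.nd (nat_lit 78) (nat_lit 0) (nat_lit 0) (XT.lf (nat_lit 0) (nat_lit 725607125126) (nat_lit 152) (nat_lit 838426456264) (nat_lit 0)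 (nat_lit 725324396400) (nat_lit 1) (nat_lit 5) (nat_lit 3) (nat_lit 4) (nat_lit 1) (nat_lit 4) (nat_lit 315) (nat_lit 236) (nat_lit 229)) (XT.lf (nat_lit 0) (nat_lit 835483591094) (nat_lit 152) (nat_lit 962010815574) (nat_lit 0) (nat_lit 835178647176) (nat_lit 1) (nat_lit 5) (nat_lit 3) (nat_lit 4) (nat_lit 1) (nat_lit 4) (nat_lit 316) (nat_lit 236) (nat_lit 228))))))) (XT.nd (nat_lit 1014) (nat_lit 0) (nat_lit 0) (XT.nd (nat_lit 468) (nat_lit 0) (nat_lit 0) (XT.nd (nat_lit 234) (nat_lit 0) (nat_lit 0) (XT.nd (nat_lit 78) (nat_lit 0) (nat_lit 0) (XT.lf (nat_lit 0) (nat_lit 961782126405) (nat_lit 152) (nat_lit 1104250170982) (nat_lit 0) (nat_lit 961457864930) (nat_lit 1) (nat_lit 5) (nat_lit 3) (nat_lit 4) (nat_lit 1) (nat_lit 4) (nat_lit 317) (nat_lit 236) (nat_lit 227)) (XT.nd (nat_lit 78) (nat_lit 0) (nat_lit 0) (XT.lf (nat_lit 0) (nat_lit 1106973789359) (nat_lit 152) (nat_lit 1267927466399)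 (nat_lit 0) (nat_lit 1106632730008) (nat_lit 1) (nat_lit 5) (nat_lit 3) (nat_lit 4) (nat_lit 1) (nat_lit 4) (nat_lit 318) (nat_lit 236) (nat_lit 226)) (XT.lf (nat_lit 0) (nat_lit 1273899286406) (nat_lit 152) (nat_lit 1456245083691) (nat_lit 0) (nat_lit 1273543620205) (nat_lit 1) (nat_lit 5) (nat_lit 3) (nat_lit 4) (nat_lit 1) (nat_lit 4) (nat_lit 319) (nat_lit 236) (nat_lit 225)))) (XT.nd (nat_lit 78) (nat_lit 0) (nat_lit 0) (XT.lf (nat_lit 0) (nat_lit 1465824551182) (nat_lit 152) (nat_lit 1672887497980) (nat_lit 0) (nat_lit 1465456183373) (nat_lit 1) (nat_lit 5) (nat_lit 3) (nat_lit 4) (nat_lit 1) (nat_lit 4) (nat_lit 320) (nat_lit 236) (nat_lit 224)) (XT.nd (nat_lit 78) (nat_lit 0) (nat_lit 0) (XT.lf (nat_lit 0) (nat_lit 1686504643216) (nat_lit 152) (nat_lit 1922093365196) (nat_lit 0) (nat_lit 1686125230531) (nat_lit 1) (nat_lit 5) (nat_lit 3) (nat_lit 4) (nat_lit 1) (nat_lit 4) (nat_lit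 321) (nat_lit 236) (nat_lit 223)) (XT.lf (nat_lit 0) (nat_lit 1940257216483) (nat_lit 152) (nat_lit 2208738452308) (nat_lit 0) (nat_lit 1939868199557) (nat_lit 1) (nat_lit 5) (nat_lit 3) (nat_lit 4) (nat_lit 1) (nat_lit 4) (nat_lit 322) (nat_lit 236) (nat_lit 222))))) (XT.nd (nat_lit 234) (nat_lit 0) (nat_lit 0) (XT.nd (nat_lit 78) (nat_lit 0) (nat_lit 0) (XT.lf (nat_lit 0) (nat_lit 2232046995242) (nat_lit 152) (nat_lit 2538431032759) (nat_lit 0) (nat_lit 2231649626803) (nat_lit 1) (nat_lit 5) (nat_lit 3) (nat_lit 4) (nat_lit 1) (nat_lit 4) (nat_lit 323) (nat_lit 236) (nat_lit 221)) (XT.nd (nat_lit 78) (nat_lit 0) (nat_lit 0) (XT.lf (nat_lit 0) (nat_lit 2567582909947) (nat_lit 152) (nat_lit 2917621613557) (nat_lit 0) (nat_lit 2567178279322) (nat_lit 1) (nat_lit 5) (nat_lit 3) (nat_lit 4) (nat_lit 1) (nat_lit 4) (nat_lit 324) (nat_lit 236) (nat_lit 220)) (XT.lf (nat_lit 0) (nat_lit 2953429793712)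 (nat_lit 152) (nat_lit 3353729140849) (nat_lit 0) (nat_lit 2953018848143) (nat_lit 1) (nat_lit 5) (nat_lit 3) (nat_lit 4) (nat_lit 1) (nat_lit 4) (nat_lit 325) (nat_lit 236) (nat_lit 219)))) (XT.nd (nat_lit 156) (nat_lit 0) (nat_lit 0) (XT.nd (nat_lit 78) (nat_lit 0) (nat_lit 0) (XT.lf (nat_lit 0) (nat_lit 3397136824698) (nat_lit 152) (nat_lit 3855286153213) (nat_lit 0) (nat_lit 3396720387873) (nat_lit 1) (nat_lit 5) (nat_lit 3) (nat_lit 4) (nat_lit 1) (nat_lit 4) (nat_lit 326) (nat_lit 236) (nat_lit 218)) (XT.lf (nat_lit 0) (nat_lit 3907385227423) (nat_lit 152) (nat_lit 4432105722628) (nat_lit 0) (nat_lit 3906964015594) (nat_lit 1) (nat_lit 5) (nat_lit 3) (nat_lit 4) (nat_lit 1) (nat_lit 4) (nat_lit 327) (nat_lit 236) (nat_lit 217))) (XT.nd (nat_lit 78) (nat_lit 0) (nat_lit 0) (XT.lf (nat_lit 0) (nat_lit 4494158122812) (nat_lit 152) (nat_lit 5095473449367) (nat_lit 0) (nat_lit 4493732758804)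 (nat_lit 1) (nat_lit 5) (nat_lit 3) (nat_lit 4) (nat_lit 1) (nat_lit 4) (nat_lit 328) (nat_lit 236) (nat_lit 216)) (XT.lf (nat_lit 0) (nat_lit 5168935850121) (nat_lit 152) (nat_lit 5858368267213) (nat_lit 0) (nat_lit 5168506875523) (nat_lit 1) (nat_lit 5) (nat_lit 3) (nat_lit 4) (nat_lit 1) (nat_lit 4) (nat_lit 329) (nat_lit 236) (nat_lit 215)))))) (XT.nd (nat_lit 39156) (nat_lit 0) (nat_lit 0) (XT.nd (nat_lit 38922) (nat_lit 0) (nat_lit 0) (XT.nd (nat_lit 38766) (nat_lit 0) (nat_lit 0) (XT.lf (nat_lit 0) (nat_lit 5944920582275) (nat_lit 152) (nat_lit 6735716379124) (nat_lit 0) (nat_lit 5944488468035) (nat_lit 1) (nat_lit 5) (nat_lit 3) (nat_lit 4) (nat_lit 1) (nat_lit 4) (nat_lit 330) (nat_lit 236) (nat_lit 214)) (XT.nd (nat_lit 78) (nat_lit 0) (nat_lit 0) (XT.lf (nat_lit 0) (nat_lit 99204679386) (nat_lit 152) (nat_lit 127310995671) (nat_lit 0) (nat_lit 99204679386) (nat_lit 1) (nat_lit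 5) (nat_lit 3) (nat_lit 4) (nat_lit 1) (nat_lit 4) (nat_lit 306) (nat_lit 237) (nat_lit 237)) (XT.lf (nat_lit 0) (nat_lit 230230846457) (nat_lit 152) (nat_lit 288591337623) (nat_lit 0) (nat_lit 230162889677) (nat_lit 1) (nat_lit 5) (nat_lit 3) (nat_lit 4) (nat_lit 1) (nat_lit 4) (nat_lit 307) (nat_lit 237) (nat_lit 236)))) (XT.nd (nat_lit 78) (nat_lit 0) (nat_lit 0) (XT.lf (nat_lit 0) (nat_lit 266643849648) (nat_lit 152) (nat_lit 328015038325) (nat_lit 0) (nat_lit 266516800017) (nat_lit 1) (nat_lit 5) (nat_lit 3) (nat_lit 4) (nat_lit 1) (nat_lit 4) (nat_lit 308) (nat_lit 237) (nat_lit 235)) (XT.nd (nat_lit 78) (nat_lit 0) (nat_lit 0) (XT.lf (nat_lit 0) (nat_lit 308360796668) (nat_lit 152) (nat_lit 373664426722) (nat_lit 0) (nat_lit 308182361949) (nat_lit 1) (nat_lit 5) (nat_lit 3) (nat_lit 4) (nat_lit 1) (nat_lit 4) (nat_lit 309) (nat_lit 237) (nat_lit 234)) (XT.lf (nat_lit 0) (nat_lit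 356197888656) (nat_lit 152) (nat_lit 426432643022) (nat_lit 0) (nat_lit 355974771251) (nat_lit 1) (nat_lit 5) (nat_lit 3) (nat_lit 4) (nat_lit 1) (nat_lit 4) (nat_lit 310) (nat_lit 237) (nat_lit 233))))) (XT.nd (nat_lit 234) (nat_lit 0) (nat_lit 0) (XT.nd (nat_lit 78) (nat_lit 0) (nat_lit 0) (XT.lf (nat_lit 0) (nat_lit 411091068714) (nat_lit 152) (nat_lit 487352108848) (nat_lit 0) (nat_lit 410829096801) (nat_lit 1) (nat_lit 5) (nat_lit 3) (nat_lit 4) (nat_lit 1) (nat_lit 4) (nat_lit 311) (nat_lit 237) (nat_lit 232)) (XT.nd (nat_lit 78) (nat_lit 0) (nat_lit 0) (XT.lf (nat_lit 0) (nat_lit 474114333845) (nat_lit 152) (nat_lit 557614726792) (nat_lit 0) (nat_lit 473818575402) (nat_lit 1) (nat_lit 5) (nat_lit 3) (nat_lit 4) (nat_lit 1) (nat_lit 4) (nat_lit 312) (nat_lit 237) (nat_lit 231)) (XT.lf (nat_lit 0) (nat_lit 546500747931) (nat_lit 152) (nat_lit 638595200250) (nat_lit 0) (nat_lit 546175609897)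 (nat_lit 1) (nat_lit 5) (nat_lit 3) (nat_lit 4) (nat_lit 1) (nat_lit 4) (nat_lit 313) (nat_lit 237) (nat_lit 230)))) (XT.nd (nat_lit 156) (nat_lit 0) (nat_lit 0) (XT.nd (nat_lit 78) (nat_lit 0) (nat_lit 0) (XT.lf (nat_lit 0) (nat_lit 629666566900) (nat_lit 152) (nat_lit 731877929788) (nat_lit 0) (nat_lit 629315881395) (nat_lit 1) (nat_lit 5) (nat_lit 3) (nat_lit 4) (nat_lit 1) (nat_lit 4) (nat_lit 314) (nat_lit 237) (nat_lit 229)) (XT.lf (nat_lit 0) (nat_lit 725238948079) (nat_lit 152) (nat_lit 839288012289) (nat_lit 0) (nat_lit 724866047383) (nat_lit 1) (nat_lit 5) (nat_lit 3) (nat_lit 4) (nat_lit 1) (nat_lit 4) (nat_lit 315) (nat_lit 237) (nat_lit 228))) (XT.nd (nat_lit 78) (nat_lit 0) (nat_lit 0) (XT.lf (nat_lit 0) (nat_lit 835087785884) (nat_lit 152) (nat_lit 962926949367) (nat_lit 0) (nat_lit 834695567629) (nat_lit 1) (nat_lit 5) (nat_lit 3) (nat_lit 4) (nat_lit 1) (nat_lit 4) (nat_lit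 316) (nat_lit 237) (nat_lit 227)) (XT.lf (nat_lit 0) (nat_lit 961362296705) (nat_lit 152) (nat_lit 1105213763704) (nat_lit 0) (nat_lit 960953280574) (nat_lit 1) (nat_lit 5) (nat_lit 3) (nat_lit 4) (nat_lit 1) (nat_lit 4) (nat_lit 317) (nat_lit 237) (nat_lit 226))))))))
noncomputable def xc3 : XT := (XT.nd (nat_lit 40560) (nat_lit 0) (nat_lit 0) (XT.nd (nat_lit 39546) (nat_lit 0) (nat_lit 0) (XT.nd (nat_lit 468) (nat_lit 0) (nat_lit 0) (XT.nd (nat_lit 234) (nat_lit 0) (nat_lit 0) (XT.nd (nat_lit 78) (nat_lit 0) (nat_lit 0) (XT.lf (nat_lit 0) (nat_lit 1106533068799) (nat_lit 152) (nat_lit 1268932327755) (nat_lit 0) (nat_lit 1106109445818) (nat_lit 1) (nat_lit 5) (nat_lit 3) (nat_lit 4) (nat_lit 1) (nat_lit 4) (nat_lit 318) (nat_lit 237) (nat_lit 225)) (XT.nd (nat_lit 78) (nat_lit 0) (nat_lit 0) (XT.lf (nat_lit 0) (nat_lit 1273440399879) (nat_lit 152) (nat_lit 1457285830816) (nat_lit 0) (nat_lit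 1273004075291) (nat_lit 1) (nat_lit 5) (nat_lit 3) (nat_lit 4) (nat_lit 1) (nat_lit 4) (nat_lit 319) (nat_lit 237) (nat_lit 224)) (XT.lf (nat_lit 0) (nat_lit 1465349868162) (nat_lit 152) (nat_lit 1673959450120) (nat_lit 0) (nat_lit 1464902498698) (nat_lit 1) (nat_lit 5) (nat_lit 3) (nat_lit 4) (nat_lit 1) (nat_lit 4) (nat_lit 320) (nat_lit 237) (nat_lit 223)))) (XT.nd (nat_lit 78) (nat_lit 0) (nat_lit 0) (XT.lf (nat_lit 0) (nat_lit 1686016224116) (nat_lit 152) (nat_lit 1923192452134) (nat_lit 0) (nat_lit 1685559250411) (nat_lit 1) (nat_lit 5) (nat_lit 3) (nat_lit 4) (nat_lit 1) (nat_lit 4) (nat_lit 321) (nat_lit 237) (nat_lit 222)) (XT.nd (nat_lit 78) (nat_lit 0) (nat_lit 0) (XT.lf (nat_lit 0) (nat_lit 1939756852966) (nat_lit 152) (nat_lit 2209861134721) (nat_lit 0) (nat_lit 1939291527747) (nat_lit 1) (nat_lit 5) (nat_lit 3) (nat_lit 4) (nat_lit 1) (nat_lit 4) (nat_lit 322) (nat_lit 237)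 (nat_lit 221)) (XT.lf (nat_lit 0) (nat_lit 2231536245275) (nat_lit 152) (nat_lit 2539574232976) (nat_lit 0) (nat_lit 2231063657871) (nat_lit 1) (nat_lit 5) (nat_lit 3) (nat_lit 4) (nat_lit 1) (nat_lit 4) (nat_lit 323) (nat_lit 237) (nat_lit 220))))) (XT.nd (nat_lit 234) (nat_lit 0) (nat_lit 0) (XT.nd (nat_lit 78) (nat_lit 0) (nat_lit 0) (XT.lf (nat_lit 0) (nat_lit 2567063128284) (nat_lit 152) (nat_lit 2918782655344) (nat_lit 0) (nat_lit 2566584225936) (nat_lit 1) (nat_lit 5) (nat_lit 3) (nat_lit 4) (nat_lit 1) (nat_lit 4) (nat_lit 324) (nat_lit 237) (nat_lit 219)) (XT.nd (nat_lit 78) (nat_lit 0) (nat_lit 0) (XT.lf (nat_lit 0) (nat_lit 2952902158401) (nat_lit 152) (nat_lit 3354905697044) (nat_lit 0) (nat_lit 2952417764797) (nat_lit 1) (nat_lit 5) (nat_lit 3) (nat_lit 4) (nat_lit 1) (nat_lit 4) (nat_lit 325) (nat_lit 237) (nat_lit 218)) (XT.lf (nat_lit 0) (nat_lit 3396602360127) (nat_lit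 152) (nat_lit 3856476200197) (nat_lit 0) (nat_lit 3396113191518) (nat_lit 1) (nat_lit 5) (nat_lit 3) (nat_lit 4) (nat_lit 1) (nat_lit 4) (nat_lit 326) (nat_lit 237) (nat_lit 217)))) (XT.nd (nat_lit 156) (nat_lit 0) (nat_lit 0) (XT.nd (nat_lit 78) (nat_lit 0) (nat_lit 0) (XT.lf (nat_lit 0) (nat_lit 3906844824366) (nat_lit 152) (nat_lit 4433307500734) (nat_lit 0) (nat_lit 3906351503579) (nat_lit 1) (nat_lit 5) (nat_lit 3) (nat_lit 4) (nat_lit 1) (nat_lit 4) (nat_lit 327) (nat_lit 237) (nat_lit 216)) (XT.lf (nat_lit 0) (nat_lit 4493612555853) (nat_lit 152) (nat_lit 5096685428448) (nat_lit 0) (nat_lit 4493115624477) (nat_lit 1) (nat_lit 5) (nat_lit 3) (nat_lit 4) (nat_lit 1) (nat_lit 4) (nat_lit 328) (nat_lit 237) (nat_lit 215))) (XT.nd (nat_lit 78) (nat_lit 0) (nat_lit 0) (XT.lf (nat_lit 0) (nat_lit 5168385792813) (nat_lit 152) (nat_lit 5859589116707) (nat_lit 0) (nat_lit 5167885721793) (nat_lit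 1) (nat_lit 5) (nat_lit 3) (nat_lit 4) (nat_lit 1) (nat_lit 4) (nat_lit 329) (nat_lit 237) (nat_lit 214)) (XT.lf (nat_lit 0) (nat_lit 5944366620316) (nat_lit 152) (nat_lit 6736944942021) (nat_lit 0) (nat_lit 5943863819172) (nat_lit 1) (nat_lit 5) (nat_lit 3) (nat_lit 4) (nat_lit 1) (nat_lit 4) (nat_lit 330) (nat_lit 237) (nat_lit 213)))))) (XT.nd (nat_lit 468) (nat_lit 0) (nat_lit 0) (XT.nd (nat_lit 234) (nat_lit 0) (nat_lit 0) (XT.nd (nat_lit 78) (nat_lit 0) (nat_lit 0) (XT.lf (nat_lit 0) (nat_lit 73159063528) (nat_lit 152) (nat_lit 100130403096) (nat_lit 0) (nat_lit 73159063528) (nat_lit 1) (nat_lit 5) (nat_lit 3) (nat_lit 4) (nat_lit 1) (nat_lit 4) (nat_lit 304) (nat_lit 238) (nat_lit 238)) (XT.nd (nat_lit 78) (nat_lit 0) (nat_lit 0) (XT.lf (nat_lit 0) (nat_lit 170634942565) (nat_lit 152) (nat_lit 225442381837) (nat_lit 0) (nat_lit 170556792269) (nat_lit 1) (nat_lit 5) (nat_lit 3) (nat_lit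 4) (nat_lit 1) (nat_lit 4) (nat_lit 305) (nat_lit 238) (nat_lit 237)) (XT.lf (nat_lit 0) (nat_lit 198390316606) (nat_lit 152) (nat_lit 254813989180) (nat_lit 0) (nat_lit 198244209531) (nat_lit 1) (nat_lit 5) (nat_lit 3) (nat_lit 4) (nat_lit 1) (nat_lit 4) (nat_lit 306) (nat_lit 238) (nat_lit 236)))) (XT.nd (nat_lit 78) (nat_lit 0) (nat_lit 0) (XT.lf (nat_lit 0) (nat_lit 230127289106) (nat_lit 152) (nat_lit 288950290102) (nat_lit 0) (nat_lit 229922089179) (nat_lit 1) (nat_lit 5) (nat_lit 3) (nat_lit 4) (nat_lit 1) (nat_lit 4) (nat_lit 307) (nat_lit 238) (nat_lit 235)) (XT.nd (nat_lit 78) (nat_lit 0) (nat_lit 0) (XT.lf (nat_lit 0) (nat_lit 266466800833) (nat_lit 152) (nat_lit 328519168752) (nat_lit 0) (nat_lit 266210215817) (nat_lit 1) (nat_lit 5) (nat_lit 3) (nat_lit 4) (nat_lit 1) (nat_lit 4) (nat_lit 308) (nat_lit 238) (nat_lit 234)) (XT.lf (nat_lit 0) (nat_lit 308119842232) (nat_lit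 152) (nat_lit 374294798844) (nat_lit 0) (nat_lit 307818574531) (nat_lit 1) (nat_lit 5) (nat_lit 3) (nat_lit 4) (nat_lit 1) (nat_lit 4) (nat_lit 309) (nat_lit 238) (nat_lit 233))))) (XT.nd (nat_lit 234) (nat_lit 0) (nat_lit 0) (XT.nd (nat_lit 78) (nat_lit 0) (nat_lit 0) (XT.lf (nat_lit 0) (nat_lit 355901364114) (nat_lit 152) (nat_lit 427172790530) (nat_lit 0) (nat_lit 355561241904) (nat_lit 1) (nat_lit 5) (nat_lit 3) (nat_lit 4) (nat_lit 1) (nat_lit 4) (nat_lit 310) (nat_lit 238) (nat_lit 232)) (XT.nd (nat_lit 78) (nat_lit 0) (nat_lit 0) (XT.lf (nat_lit 0) (nat_lit 410746222341) (nat_lit 152) (nat_lit 488187713214) (nat_lit 0) (nat_lit 410372313602) (nat_lit 1) (nat_lit 5) (nat_lit 3) (nat_lit 4) (nat_lit 1) (nat_lit 4) (nat_lit 311) (nat_lit 238) (nat_lit 231)) (XT.lf (nat_lit 0) (nat_lit 473727468489) (nat_lit 152) (nat_lit 558533337122) (nat_lit 0) (nat_lit 473324180158) (nat_lit 1)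 (nat_lit 5) (nat_lit 3) (nat_lit 4) (nat_lit 1) (nat_lit 4) (nat_lit 312) (nat_lit 238) (nat_lit 230)))) (XT.nd (nat_lit 156) (nat_lit 0) (nat_lit 0) (XT.nd (nat_lit 78) (nat_lit 0) (nat_lit 0) (XT.lf (nat_lit 0) (nat_lit 546077344328) (nat_lit 152) (nat_lit 639585989678) (nat_lit 0) (nat_lit 545648508527) (nat_lit 1) (nat_lit 5) (nat_lit 3) (nat_lit 4) (nat_lit 1) (nat_lit 4) (nat_lit 313) (nat_lit 238) (nat_lit 229)) (XT.lf (nat_lit 0) (nat_lit 629211390909) (nat_lit 152) (nat_lit 732931483650) (nat_lit 0) (nat_lit 628760339916) (nat_lit 1) (nat_lit 5) (nat_lit 3) (nat_lit 4) (nat_lit 1) (nat_lit 4) (nat_lit 314) (nat_lit 238) (nat_lit 228))) (XT.nd (nat_lit 78) (nat_lit 0) (nat_lit 0) (XT.lf (nat_lit 0) (nat_lit 724756143925) (nat_lit 152) (nat_lit 840396143919) (nat_lit 0) (nat_lit 724285775374) (nat_lit 1) (nat_lit 5) (nat_lit 3) (nat_lit 4) (nat_lit 1) (nat_lit 4) (nat_lit 315) (nat_lit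 238) (nat_lit 227)) (XT.lf (nat_lit 0) (nat_lit 834580957239) (nat_lit 152) (nat_lit 964082539927) (nat_lit 0) (nat_lit 834093790812) (nat_lit 1) (nat_lit 5) (nat_lit 3) (nat_lit 4) (nat_lit 1) (nat_lit 4) (nat_lit 316) (nat_lit 238) (nat_lit 226))))))) (XT.nd (nat_lit 1014) (nat_lit 0) (nat_lit 0) (XT.nd (nat_lit 468) (nat_lit 0) (nat_lit 0) (XT.nd (nat_lit 234) (nat_lit 0) (nat_lit 0) (XT.nd (nat_lit 78) (nat_lit 0) (nat_lit 0) (XT.lf (nat_lit 0) (nat_lit 960834577199) (nat_lit 152) (nat_lit 1106410622898) (nat_lit 0) (nat_lit 960332803923) (nat_lit 1) (nat_lit 5) (nat_lit 3) (nat_lit 4) (nat_lit 1) (nat_lit 4) (nat_lit 317) (nat_lit 238) (nat_lit 225)) (XT.nd (nat_lit 78) (nat_lit 0) (nat_lit 0) (XT.lf (nat_lit 0) (nat_lit 1105987183326) (nat_lit 152) (nat_lit 1270165072717) (nat_lit 0) (nat_lit 1105472708442) (nat_lit 1) (nat_lit 5) (nat_lit 3) (nat_lit 4) (nat_lit 1) (nat_lit 4) (nat_lit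 318) (nat_lit 238) (nat_lit 224)) (XT.lf (nat_lit 0) (nat_lit 1272878717914) (nat_lit 152) (nat_lit 1458549780794) (nat_lit 0) (nat_lit 1272353198154) (nat_lit 1) (nat_lit 5) (nat_lit 3) (nat_lit 4) (nat_lit 1) (nat_lit 4) (nat_lit 319) (nat_lit 238) (nat_lit 223)))) (XT.nd (nat_lit 78) (nat_lit 0) (nat_lit 0) (XT.lf (nat_lit 0) (nat_lit 1464774450118) (nat_lit 152) (nat_lit 1675250534895) (nat_lit 0) (nat_lit 1464239326117) (nat_lit 1) (nat_lit 5) (nat_lit 3) (nat_lit 4) (nat_lit 1) (nat_lit 4) (nat_lit 320) (nat_lit 238) (nat_lit 222)) (XT.nd (nat_lit 78) (nat_lit 0) (nat_lit 0) (XT.lf (nat_lit 0) (nat_lit 1685428861654) (nat_lit 152) (nat_lit 1924507132384) (nat_lit 0) (nat_lit 1684885386140) (nat_lit 1) (nat_lit 5) (nat_lit 3) (nat_lit 4) (nat_lit 1) (nat_lit 4) (nat_lit 321) (nat_lit 238) (nat_lit 221)) (XT.lf (nat_lit 0) (nat_lit 1939159104053) (nat_lit 152) (nat_lit 2211196332776)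 (nat_lit 0) (nat_lit 1938608366353) (nat_lit 1) (nat_lit 5) (nat_lit 3) (nat_lit 4) (nat_lit 1) (nat_lit 4) (nat_lit 322) (nat_lit 238) (nat_lit 220))))) (XT.nd (nat_lit 234) (nat_lit 0) (nat_lit 0) (XT.nd (nat_lit 78) (nat_lit 0) (nat_lit 0) (XT.lf (nat_lit 0) (nat_lit 2230929464666) (nat_lit 152) (nat_lit 2540927272600) (nat_lit 0) (nat_lit 2230372412022) (nat_lit 1) (nat_lit 5) (nat_lit 3) (nat_lit 4) (nat_lit 1) (nat_lit 4) (nat_lit 323) (nat_lit 238) (nat_lit 219)) (XT.nd (nat_lit 78) (nat_lit 0) (nat_lit 0) (XT.lf (nat_lit 0) (nat_lit 2566448494027) (nat_lit 152) (nat_lit 2920151209376) (nat_lit 0) (nat_lit 2565885950128) (nat_lit 1) (nat_lit 5) (nat_lit 3) (nat_lit 4) (nat_lit 1) (nat_lit 4) (nat_lit 324) (nat_lit 238) (nat_lit 218)) (XT.lf (nat_lit 0) (nat_lit 2952280694885) (nat_lit 152) (nat_lit 3356287741866) (nat_lit 0) (nat_lit 2951713375980) (nat_lit 1) (nat_lit 5) (nat_lit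 3) (nat_lit 4) (nat_lit 1) (nat_lit 4) (nat_lit 325) (nat_lit 238) (nat_lit 217)))) (XT.nd (nat_lit 156) (nat_lit 0) (nat_lit 0) (XT.nd (nat_lit 78) (nat_lit 0) (nat_lit 0) (XT.lf (nat_lit 0) (nat_lit 3395974958124) (nat_lit 152) (nat_lit 3857869976140) (nat_lit 0) (nat_lit 3395403487042) (nat_lit 1) (nat_lit 5) (nat_lit 3) (nat_lit 4) (nat_lit 1) (nat_lit 4) (nat_lit 326) (nat_lit 238) (nat_lit 216)) (XT.lf (nat_lit 0) (nat_lit 3906212258462) (nat_lit 152) (nat_lit 4434711477652) (nat_lit 0) (nat_lit 3905637176790) (nat_lit 1) (nat_lit 5) (nat_lit 3) (nat_lit 4) (nat_lit 1) (nat_lit 4) (nat_lit 327) (nat_lit 238) (nat_lit 215))) (XT.nd (nat_lit 78) (nat_lit 0) (nat_lit 0) (XT.lf (nat_lit 0) (nat_lit 4492975499600) (nat_lit 152) (nat_lit 5098098275779) (nat_lit 0) (nat_lit 4492397278284) (nat_lit 1) (nat_lit 5) (nat_lit 3) (nat_lit 4) (nat_lit 1) (nat_lit 4) (nat_lit 328) (nat_lit 238)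 (nat_lit 214)) (XT.lf (nat_lit 0) (nat_lit 5167744831909) (nat_lit 152) (nat_lit 5861009677441) (nat_lit 0) (nat_lit 5167163880468) (nat_lit 1) (nat_lit 5) (nat_lit 3) (nat_lit 4) (nat_lit 1) (nat_lit 4) (nat_lit 329) (nat_lit 238) (nat_lit 213)))))) (XT.nd (nat_lit 38922) (nat_lit 0) (nat_lit 0) (XT.nd (nat_lit 38610) (nat_lit 0) (nat_lit 0) (XT.nd (nat_lit 38454) (nat_lit 0) (nat_lit 0) (XT.lf (nat_lit 0) (nat_lit 5943722264063) (nat_lit 152) (nat_lit 6738372210062) (nat_lit 0) (nat_lit 5943138938602) (nat_lit 1) (nat_lit 5) (nat_lit 3) (nat_lit 4) (nat_lit 1) (nat_lit 4) (nat_lit 330) (nat_lit 238) (nat_lit 212)) (XT.nd (nat_lit 78) (nat_lit 0) (nat_lit 0) (XT.lf (nat_lit 0) (nat_lit 53186747054) (nat_lit 152) (nat_lit 80157720138) (nat_lit 0) (nat_lit 53186747054) (nat_lit 1) (nat_lit 5) (nat_lit 3) (nat_lit 4) (nat_lit 1) (nat_lit 4) (nat_lit 302) (nat_lit 239) (nat_lit 239)) (XT.lf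 (nat_lit 0) (nat_lit 125053979141) (nat_lit 152) (nat_lit 178776579241) (nat_lit 0) (nat_lit 124964106301) (nat_lit 1) (nat_lit 5) (nat_lit 3) (nat_lit 4) (nat_lit 1) (nat_lit 4) (nat_lit 303) (nat_lit 239) (nat_lit 238)))) (XT.nd (nat_lit 156) (nat_lit 0) (nat_lit 0) (XT.nd (nat_lit 78) (nat_lit 0) (nat_lit 0) (XT.lf (nat_lit 0) (nat_lit 146296228567) (nat_lit 152) (nat_lit 200481603704) (nat_lit 0) (nat_lit 146128205430) (nat_lit 1) (nat_lit 5) (nat_lit 3) (nat_lit 4) (nat_lit 1) (nat_lit 4) (nat_lit 304) (nat_lit 239) (nat_lit 237)) (XT.lf (nat_lit 0) (nat_lit 170515851612) (nat_lit 152) (nat_lit 225855177187) (nat_lit 0) (nat_lit 170279871696) (nat_lit 1) (nat_lit 5) (nat_lit 3) (nat_lit 4) (nat_lit 1) (nat_lit 4) (nat_lit 305) (nat_lit 239) (nat_lit 236))) (XT.nd (nat_lit 78) (nat_lit 0) (nat_lit 0) (XT.lf (nat_lit 0) (nat_lit 198186710469) (nat_lit 152) (nat_lit 255393739171) (nat_lit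 0) (nat_lit 197891637701) (nat_lit 1) (nat_lit 5) (nat_lit 3) (nat_lit 4) (nat_lit 1) (nat_lit 4) (nat_lit 306) (nat_lit 239) (nat_lit 235)) (XT.lf (nat_lit 0) (nat_lit 229850191504) (nat_lit 152) (nat_lit 289675218042) (nat_lit 0) (nat_lit 229503733649) (nat_lit 1) (nat_lit 5) (nat_lit 3) (nat_lit 4) (nat_lit 1) (nat_lit 4) (nat_lit 307) (nat_lit 239) (nat_lit 234))))) (XT.nd (nat_lit 234) (nat_lit 0) (nat_lit 0) (XT.nd (nat_lit 78) (nat_lit 0) (nat_lit 0) (XT.lf (nat_lit 0) (nat_lit 266125797609) (nat_lit 152) (nat_lit 329370338387) (nat_lit 0) (nat_lit 265734657068) (nat_lit 1) (nat_lit 5) (nat_lit 3) (nat_lit 4) (nat_lit 1) (nat_lit 4) (nat_lit 308) (nat_lit 239) (nat_lit 233)) (XT.nd (nat_lit 78) (nat_lit 0) (nat_lit 0) (XT.lf (nat_lit 0) (nat_lit 307723268903) (nat_lit 152) (nat_lit 375255743865) (nat_lit 0) (nat_lit 307293273852) (nat_lit 1) (nat_lit 5) (nat_lit 3) (nat_lit 4) (nat_lit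 1) (nat_lit 4) (nat_lit 309) (nat_lit 239) (nat_lit 232)) (XT.lf (nat_lit 0) (nat_lit 355456468954) (nat_lit 152) (nat_lit 428229192410) (nat_lit 0) (nat_lit 354992687374) (nat_lit 1) (nat_lit 5) (nat_lit 3) (nat_lit 4) (nat_lit 1) (nat_lit 4) (nat_lit 310) (nat_lit 239) (nat_lit 231)))) (XT.nd (nat_lit 156) (nat_lit 0) (nat_lit 0) (XT.nd (nat_lit 78) (nat_lit 0) (nat_lit 0) (XT.lf (nat_lit 0) (nat_lit 410259308198) (nat_lit 152) (nat_lit 489327121057) (nat_lit 0) (nat_lit 409766147027) (nat_lit 1) (nat_lit 5) (nat_lit 3) (nat_lit 4) (nat_lit 1) (nat_lit 4) (nat_lit 311) (nat_lit 239) (nat_lit 230)) (XT.lf (nat_lit 0) (nat_lit 473204016099) (nat_lit 152) (nat_lit 559744924063) (nat_lit 0) (nat_lit 472685307457) (nat_lit 1) (nat_lit 5) (nat_lit 3) (nat_lit 4) (nat_lit 1) (nat_lit 4) (nat_lit 312) (nat_lit 239) (nat_lit 229))) (XT.nd (nat_lit 78) (nat_lit 0) (nat_lit 0) (XT.lf (nat_lit 0)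 (nat_lit 545522119550) (nat_lit 152) (nat_lit 640860341053) (nat_lit 0) (nat_lit 544981195717) (nat_lit 1) (nat_lit 5) (nat_lit 3) (nat_lit 4) (nat_lit 1) (nat_lit 4) (nat_lit 313) (nat_lit 239) (nat_lit 228)) (XT.lf (nat_lit 0) (nat_lit 628628537967) (nat_lit 152) (nat_lit 734260412793) (nat_lit 0) (nat_lit 628068296576) (nat_lit 1) (nat_lit 5) (nat_lit 3) (nat_lit 4) (nat_lit 1) (nat_lit 4) (nat_lit 314) (nat_lit 239) (nat_lit 227))))))))
noncomputable def xc4 : XT := (XT.nd (nat_lit 40248) (nat_lit 0) (nat_lit 0) (XT.nd (nat_lit 1014) (nat_lit 0) (nat_lit 0) (XT.nd (nat_lit 468) (nat_lit 0) (nat_lit 0) (XT.nd (nat_lit 234) (nat_lit 0) (nat_lit 0) (XT.nd (nat_lit 78) (nat_lit 0) (nat_lit 0) (XT.lf (nat_lit 0) (nat_lit 724149266493) (nat_lit 152) (nat_lit 841772531992) (nat_lit 0) (nat_lit 723572227225) (nat_lit 1) (nat_lit 5) (nat_lit 3) (nat_lit 4) (nat_lit 1) (nat_lit 4) (nat_lit 315)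 (nat_lit 239) (nat_lit 226)) (XT.nd (nat_lit 78) (nat_lit 0) (nat_lit 0) (XT.lf (nat_lit 0) (nat_lit 833953188946) (nat_lit 152) (nat_lit 965500196633) (nat_lit 0) (nat_lit 833361542829) (nat_lit 1) (nat_lit 5) (nat_lit 3) (nat_lit 4) (nat_lit 1) (nat_lit 4) (nat_lit 316) (nat_lit 239) (nat_lit 225)) (XT.lf (nat_lit 0) (nat_lit 960188642940) (nat_lit 152) (nat_lit 1107864165372) (nat_lit 0) (nat_lit 959584295215) (nat_lit 1) (nat_lit 5) (nat_lit 3) (nat_lit 4) (nat_lit 1) (nat_lit 4) (nat_lit 317) (nat_lit 239) (nat_lit 224)))) (XT.nd (nat_lit 78) (nat_lit 0) (nat_lit 0) (XT.lf (nat_lit 0) (nat_lit 1105325452575) (nat_lit 152) (nat_lit 1271649820208) (nat_lit 0) (nat_lit 1104710059974) (nat_lit 1) (nat_lit 5) (nat_lit 3) (nat_lit 4) (nat_lit 1) (nat_lit 4) (nat_lit 318) (nat_lit 239) (nat_lit 223)) (XT.nd (nat_lit 78) (nat_lit 0) (nat_lit 0) (XT.lf (nat_lit 0) (nat_lit 1272203251083) (nat_lit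 152) (nat_lit 1460061663081) (nat_lit 0) (nat_lit 1271578254241) (nat_lit 1) (nat_lit 5) (nat_lit 3) (nat_lit 4) (nat_lit 1) (nat_lit 4) (nat_lit 319) (nat_lit 239) (nat_lit 222)) (XT.lf (nat_lit 0) (nat_lit 1464087038869) (nat_lit 152) (nat_lit 1676786012658) (nat_lit 0) (nat_lit 1463453690514) (nat_lit 1) (nat_lit 5) (nat_lit 3) (nat_lit 4) (nat_lit 1) (nat_lit 4) (nat_lit 320) (nat_lit 239) (nat_lit 221))))) (XT.nd (nat_lit 234) (nat_lit 0) (nat_lit 0) (XT.nd (nat_lit 78) (nat_lit 0) (nat_lit 0) (XT.lf (nat_lit 0) (nat_lit 1684731063955) (nat_lit 152) (nat_lit 1926063127951) (nat_lit 0) (nat_lit 1684090453414) (nat_lit 1) (nat_lit 5) (nat_lit 3) (nat_lit 4) (nat_lit 1) (nat_lit 4) (nat_lit 321) (nat_lit 239) (nat_lit 220)) (XT.nd (nat_lit 78) (nat_lit 0) (nat_lit 0) (XT.lf (nat_lit 0) (nat_lit 1938452274658) (nat_lit 152) (nat_lit 2212770169912) (nat_lit 0) (nat_lit 1937805349174) (nat_lit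 1) (nat_lit 5) (nat_lit 3) (nat_lit 4) (nat_lit 1) (nat_lit 4) (nat_lit 322) (nat_lit 239) (nat_lit 219)) (XT.lf (nat_lit 0) (nat_lit 2230214781623) (nat_lit 152) (nat_lit 2542516624145) (nat_lit 0) (nat_lit 2229562364883) (nat_lit 1) (nat_lit 5) (nat_lit 3) (nat_lit 4) (nat_lit 1) (nat_lit 4) (nat_lit 323) (nat_lit 239) (nat_lit 218)))) (XT.nd (nat_lit 156) (nat_lit 0) (nat_lit 0) (XT.nd (nat_lit 78) (nat_lit 0) (nat_lit 0) (XT.lf (nat_lit 0) (nat_lit 2565726981724) (nat_lit 152) (nat_lit 2921754051711) (nat_lit 0) (nat_lit 2565069789979) (nat_lit 1) (nat_lit 5) (nat_lit 3) (nat_lit 4) (nat_lit 1) (nat_lit 4) (nat_lit 324) (nat_lit 239) (nat_lit 217)) (XT.lf (nat_lit 0) (nat_lit 2951553244095) (nat_lit 152) (nat_lit 3357902315322) (nat_lit 0) (nat_lit 2950891900172) (nat_lit 1) (nat_lit 5) (nat_lit 3) (nat_lit 4) (nat_lit 1) (nat_lit 4) (nat_lit 325) (nat_lit 239) (nat_lit 216))) (XT.nd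 (nat_lit 78) (nat_lit 0) (nat_lit 0) (XT.lf (nat_lit 0) (nat_lit 3395242343433) (nat_lit 152) (nat_lit 3859494750571) (nat_lit 0) (nat_lit 3394577388920) (nat_lit 1) (nat_lit 5) (nat_lit 3) (nat_lit 4) (nat_lit 1) (nat_lit 4) (nat_lit 326) (nat_lit 239) (nat_lit 215)) (XT.lf (nat_lit 0) (nat_lit 3905475153422) (nat_lit 152) (nat_lit 4436345122496) (nat_lit 0) (nat_lit 3904807059266) (nat_lit 1) (nat_lit 5) (nat_lit 3) (nat_lit 4) (nat_lit 1) (nat_lit 4) (nat_lit 327) (nat_lit 239) (nat_lit 214)))))) (XT.nd (nat_lit 38688) (nat_lit 0) (nat_lit 0) (XT.nd (nat_lit 38454) (nat_lit 0) (nat_lit 0) (XT.nd (nat_lit 78) (nat_lit 0) (nat_lit 0) (XT.lf (nat_lit 0) (nat_lit 4492234489909) (nat_lit 152) (nat_lit 5099739634026) (nat_lit 0) (nat_lit 4491563665628) (nat_lit 1) (nat_lit 5) (nat_lit 3) (nat_lit 4) (nat_lit 1) (nat_lit 4) (nat_lit 328) (nat_lit 239) (nat_lit 213)) (XT.nd (nat_lit 78) (nat_lit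 0) (nat_lit 0) (XT.lf (nat_lit 0) (nat_lit 5167000426868) (nat_lit 152) (nat_lit 5862657742995) (nat_lit 0) (nat_lit 5166327228566) (nat_lit 1) (nat_lit 5) (nat_lit 3) (nat_lit 4) (nat_lit 1) (nat_lit 4) (nat_lit 329) (nat_lit 239) (nat_lit 212)) (XT.lf (nat_lit 0) (nat_lit 5942974906546) (nat_lit 152) (nat_lit 6740026108056) (nat_lit 0) (nat_lit 5942299643877) (nat_lit 1) (nat_lit 5) (nat_lit 3) (nat_lit 4) (nat_lit 1) (nat_lit 4) (nat_lit 330) (nat_lit 239) (nat_lit 211)))) (XT.nd (nat_lit 78) (nat_lit 0) (nat_lit 0) (XT.lf (nat_lit 0) (nat_lit 37765004100) (nat_lit 152) (nat_lit 65722214890) (nat_lit 0) (nat_lit 37765004100) (nat_lit 1) (nat_lit 5) (nat_lit 3) (nat_lit 4) (nat_lit 1) (nat_lit 4) (nat_lit 300) (nat_lit 240) (nat_lit 240)) (XT.nd (nat_lit 78) (nat_lit 0) (nat_lit 0) (XT.lf (nat_lit 0) (nat_lit 89992639484) (nat_lit 152) (nat_lit 144736990610) (nat_lit 0) (nat_lit 89889285717)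 (nat_lit 1) (nat_lit 5) (nat_lit 3) (nat_lit 4) (nat_lit 1) (nat_lit 4) (nat_lit 301) (nat_lit 240) (nat_lit 239)) (XT.lf (nat_lit 0) (nat_lit 106348310844) (nat_lit 152) (nat_lit 160569357416) (nat_lit 0) (nat_lit 106155084237) (nat_lit 1) (nat_lit 5) (nat_lit 3) (nat_lit 4) (nat_lit 1) (nat_lit 4) (nat_lit 302) (nat_lit 240) (nat_lit 238))))) (XT.nd (nat_lit 234) (nat_lit 0) (nat_lit 0) (XT.nd (nat_lit 78) (nat_lit 0) (nat_lit 0) (XT.lf (nat_lit 0) (nat_lit 124917024545) (nat_lit 152) (nat_lit 179251293894) (nat_lit 0) (nat_lit 124645647642) (nat_lit 1) (nat_lit 5) (nat_lit 3) (nat_lit 4) (nat_lit 1) (nat_lit 4) (nat_lit 303) (nat_lit 240) (nat_lit 237)) (XT.nd (nat_lit 78) (nat_lit 0) (nat_lit 0) (XT.lf (nat_lit 0) (nat_lit 146062081509) (nat_lit 152) (nat_lit 201148316194) (nat_lit 0) (nat_lit 145722747826) (nat_lit 1) (nat_lit 5) (nat_lit 3) (nat_lit 4) (nat_lit 1) (nat_lit 4) (nat_lit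 304) (nat_lit 240) (nat_lit 236)) (XT.lf (nat_lit 0) (nat_lit 170197189370) (nat_lit 152) (nat_lit 226688844318) (nat_lit 0) (nat_lit 169798762836) (nat_lit 1) (nat_lit 5) (nat_lit 3) (nat_lit 4) (nat_lit 1) (nat_lit 4) (nat_lit 305) (nat_lit 240) (nat_lit 235)))) (XT.nd (nat_lit 156) (nat_lit 0) (nat_lit 0) (XT.nd (nat_lit 78) (nat_lit 0) (nat_lit 0) (XT.lf (nat_lit 0) (nat_lit 197794556762) (nat_lit 152) (nat_lit 256372584251) (nat_lit 0) (nat_lit 197344745139) (nat_lit 1) (nat_lit 5) (nat_lit 3) (nat_lit 4) (nat_lit 1) (nat_lit 4) (nat_lit 306) (nat_lit 240) (nat_lit 234)) (XT.lf (nat_lit 0) (nat_lit 229394132176) (nat_lit 152) (nat_lit 290780304816) (nat_lit 0) (nat_lit 228899637868) (nat_lit 1) (nat_lit 5) (nat_lit 3) (nat_lit 4) (nat_lit 1) (nat_lit 4) (nat_lit 307) (nat_lit 240) (nat_lit 233))) (XT.nd (nat_lit 78) (nat_lit 0) (nat_lit 0) (XT.lf (nat_lit 0) (nat_lit 265614168175)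 (nat_lit 152) (nat_lit 330585200548) (nat_lit 0) (nat_lit 265080819358) (nat_lit 1) (nat_lit 5) (nat_lit 3) (nat_lit 4) (nat_lit 1) (nat_lit 4) (nat_lit 308) (nat_lit 240) (nat_lit 232)) (XT.lf (nat_lit 0) (nat_lit 307163317638) (nat_lit 152) (nat_lit 376566062884) (nat_lit 0) (nat_lit 306596182291) (nat_lit 1) (nat_lit 5) (nat_lit 3) (nat_lit 4) (nat_lit 1) (nat_lit 4) (nat_lit 309) (nat_lit 240) (nat_lit 231))))))) (XT.nd (nat_lit 1014) (nat_lit 0) (nat_lit 0) (XT.nd (nat_lit 468) (nat_lit 0) (nat_lit 0) (XT.nd (nat_lit 234) (nat_lit 0) (nat_lit 0) (XT.nd (nat_lit 78) (nat_lit 0) (nat_lit 0) (XT.lf (nat_lit 0) (nat_lit 354854498705) (nat_lit 152) (nat_lit 429622517392) (nat_lit 0) (nat_lit 354257983768) (nat_lit 1) (nat_lit 5) (nat_lit 3) (nat_lit 4) (nat_lit 1) (nat_lit 4) (nat_lit 310) (nat_lit 240) (nat_lit 230)) (XT.nd (nat_lit 78) (nat_lit 0) (nat_lit 0) (XT.lf (nat_lit 0) (nat_lit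 409620799703) (nat_lit 152) (nat_lit 490792625138) (nat_lit 0) (nat_lit 408998737295) (nat_lit 1) (nat_lit 5) (nat_lit 3) (nat_lit 4) (nat_lit 1) (nat_lit 4) (nat_lit 311) (nat_lit 240) (nat_lit 229)) (XT.lf (nat_lit 0) (nat_lit 472533735216) (nat_lit 152) (nat_lit 561273192578) (nat_lit 0) (nat_lit 471889457616) (nat_lit 1) (nat_lit 5) (nat_lit 3) (nat_lit 4) (nat_lit 1) (nat_lit 4) (nat_lit 312) (nat_lit 240) (nat_lit 228)))) (XT.nd (nat_lit 78) (nat_lit 0) (nat_lit 0) (XT.lf (nat_lit 0) (nat_lit 544824210503) (nat_lit 152) (nat_lit 642443187336) (nat_lit 0) (nat_lit 544160615345) (nat_lit 1) (nat_lit 5) (nat_lit 3) (nat_lit 4) (nat_lit 1) (nat_lit 4) (nat_lit 313) (nat_lit 240) (nat_lit 227)) (XT.nd (nat_lit 78) (nat_lit 0) (nat_lit 0) (XT.lf (nat_lit 0) (nat_lit 627906604430) (nat_lit 152) (nat_lit 735890718005) (nat_lit 0) (nat_lit 627226211396) (nat_lit 1) (nat_lit 5) (nat_lit 3)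 (nat_lit 4) (nat_lit 1) (nat_lit 4) (nat_lit 314) (nat_lit 240) (nat_lit 226)) (XT.lf (nat_lit 0) (nat_lit 723406442095) (nat_lit 152) (nat_lit 843444105837) (nat_lit 0) (nat_lit 722711442211) (nat_lit 1) (nat_lit 5) (nat_lit 3) (nat_lit 4) (nat_lit 1) (nat_lit 4) (nat_lit 315) (nat_lit 240) (nat_lit 225))))) (XT.nd (nat_lit 234) (nat_lit 0) (nat_lit 0) (XT.nd (nat_lit 78) (nat_lit 0) (nat_lit 0) (XT.lf (nat_lit 0) (nat_lit 833192198582) (nat_lit 152) (nat_lit 967207656247) (nat_lit 0) (nat_lit 832484497090) (nat_lit 1) (nat_lit 5) (nat_lit 3) (nat_lit 4) (nat_lit 1) (nat_lit 4) (nat_lit 316) (nat_lit 240) (nat_lit 224)) (XT.nd (nat_lit 78) (nat_lit 0) (nat_lit 0) (XT.lf (nat_lit 0) (nat_lit 959411856084) (nat_lit 152) (nat_lit 1109602830003) (nat_lit 0) (nat_lit 958693109716) (nat_lit 1) (nat_lit 5) (nat_lit 3) (nat_lit 4) (nat_lit 1) (nat_lit 4) (nat_lit 317) (nat_lit 240) (nat_lit 223))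 (XT.lf (nat_lit 0) (nat_lit 1104534929638) (nat_lit 152) (nat_lit 1273415619635) (nat_lit 0) (nat_lit 1103806579030) (nat_lit 1) (nat_lit 5) (nat_lit 3) (nat_lit 4) (nat_lit 1) (nat_lit 4) (nat_lit 318) (nat_lit 240) (nat_lit 222)))) (XT.nd (nat_lit 156) (nat_lit 0) (nat_lit 0) (XT.nd (nat_lit 78) (nat_lit 0) (nat_lit 0) (XT.lf (nat_lit 0) (nat_lit 1271400783728) (nat_lit 152) (nat_lit 1461851057984) (nat_lit 0) (nat_lit 1270664081607) (nat_lit 1) (nat_lit 5) (nat_lit 3) (nat_lit 4) (nat_lit 1) (nat_lit 4) (nat_lit 319) (nat_lit 240) (nat_lit 221)) (XT.lf (nat_lit 0) (nat_lit 1463274185064) (nat_lit 152) (nat_lit 1678595925365) (nat_lit 0) (nat_lit 1462530220757) (nat_lit 1) (nat_lit 5) (nat_lit 3) (nat_lit 4) (nat_lit 1) (nat_lit 4) (nat_lit 320) (nat_lit 240) (nat_lit 220))) (XT.nd (nat_lit 78) (nat_lit 0) (nat_lit 0) (XT.lf (nat_lit 0) (nat_lit 1683909178455) (nat_lit 152) (nat_lit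 1927890882228) (nat_lit 0) (nat_lit 1683158899204) (nat_lit 1) (nat_lit 5) (nat_lit 3) (nat_lit 4) (nat_lit 1) (nat_lit 4) (nat_lit 321) (nat_lit 240) (nat_lit 219)) (XT.lf (nat_lit 0) (nat_lit 1937622535510) (nat_lit 152) (nat_lit 2214613438597) (nat_lit 0) (nat_lit 1936866765003) (nat_lit 1) (nat_lit 5) (nat_lit 3) (nat_lit 4) (nat_lit 1) (nat_lit 4) (nat_lit 322) (nat_lit 240) (nat_lit 218)))))) (XT.nd (nat_lit 468) (nat_lit 0) (nat_lit 0) (XT.nd (nat_lit 234) (nat_lit 0) (nat_lit 0) (XT.nd (nat_lit 78) (nat_lit 0) (nat_lit 0) (XT.lf (nat_lit 0) (nat_lit 2229378213215) (nat_lit 152) (nat_lit 2544373383620) (nat_lit 0) (nat_lit 2228617667703) (nat_lit 1) (nat_lit 5) (nat_lit 3) (nat_lit 4) (nat_lit 1) (nat_lit 4) (nat_lit 323) (nat_lit 240) (nat_lit 217)) (XT.nd (nat_lit 78) (nat_lit 0) (nat_lit 0) (XT.lf (nat_lit 0) (nat_lit 2564884474830) (nat_lit 152) (nat_lit 2923622542306) (nat_lit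 0) (nat_lit 2564119777140) (nat_lit 1) (nat_lit 5) (nat_lit 3) (nat_lit 4) (nat_lit 1) (nat_lit 4) (nat_lit 324) (nat_lit 240) (nat_lit 216)) (XT.lf (nat_lit 0) (nat_lit 2950705573299) (nat_lit 152) (nat_lit 3359781006893) (nat_lit 0) (nat_lit 2949937265020) (nat_lit 1) (nat_lit 5) (nat_lit 3) (nat_lit 4) (nat_lit 1) (nat_lit 4) (nat_lit 325) (nat_lit 240) (nat_lit 215)))) (XT.nd (nat_lit 78) (nat_lit 0) (nat_lit 0) (XT.lf (nat_lit 0) (nat_lit 3394390182289) (nat_lit 152) (nat_lit 3861382312555) (nat_lit 0) (nat_lit 3393618734366) (nat_lit 1) (nat_lit 5) (nat_lit 3) (nat_lit 4) (nat_lit 1) (nat_lit 4) (nat_lit 326) (nat_lit 240) (nat_lit 214)) (XT.nd (nat_lit 78) (nat_lit 0) (nat_lit 0) (XT.lf (nat_lit 0) (nat_lit 3904619087626) (nat_lit 152) (nat_lit 4438240397883) (nat_lit 0) (nat_lit 3903844909579) (nat_lit 1) (nat_lit 5) (nat_lit 3) (nat_lit 4) (nat_lit 1) (nat_lit 4) (nat_lit 327)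 (nat_lit 240) (nat_lit 213)) (XT.lf (nat_lit 0) (nat_lit 4491375028764) (nat_lit 152) (nat_lit 5101641616720) (nat_lit 0) (nat_lit 4490598476695) (nat_lit 1) (nat_lit 5) (nat_lit 3) (nat_lit 4) (nat_lit 1) (nat_lit 4) (nat_lit 328) (nat_lit 240) (nat_lit 212))))) (XT.nd (nat_lit 38298) (nat_lit 0) (nat_lit 0) (XT.nd (nat_lit 78) (nat_lit 0) (nat_lit 0) (XT.lf (nat_lit 0) (nat_lit 5166138013246) (nat_lit 152) (nat_lit 5864565558129) (nat_lit 0) (nat_lit 5165359396811) (nat_lit 1) (nat_lit 5) (nat_lit 3) (nat_lit 4) (nat_lit 1) (nat_lit 4) (nat_lit 329) (nat_lit 240) (nat_lit 211)) (XT.nd (nat_lit 38142) (nat_lit 0) (nat_lit 0) (XT.lf (nat_lit 0) (nat_lit 5942109925552) (nat_lit 152) (nat_lit 6741938994878) (nat_lit 0) (nat_lit 5941329514015) (nat_lit 1) (nat_lit 5) (nat_lit 3) (nat_lit 4) (nat_lit 1) (nat_lit 4) (nat_lit 330) (nat_lit 240) (nat_lit 210)) (XT.lf (nat_lit 0) (nat_lit 25736178146)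 (nat_lit 152) (nat_lit 55573618376) (nat_lit 0) (nat_lit 25736178146) (nat_lit 1) (nat_lit 5) (nat_lit 3) (nat_lit 4) (nat_lit 1) (nat_lit 4) (nat_lit 298) (nat_lit 241) (nat_lit 241)))) (XT.nd (nat_lit 156) (nat_lit 0) (nat_lit 0) (XT.nd (nat_lit 78) (nat_lit 0) (nat_lit 0) (XT.lf (nat_lit 0) (nat_lit 62796309298) (nat_lit 152) (nat_lit 120431603083) (nat_lit 0) (nat_lit 62677452466) (nat_lit 1) (nat_lit 5) (nat_lit 3) (nat_lit 4) (nat_lit 1) (nat_lit 4) (nat_lit 299) (nat_lit 241) (nat_lit 240)) (XT.lf (nat_lit 0) (nat_lit 75501047446) (nat_lit 152) (nat_lit 131736434491) (nat_lit 0) (nat_lit 75278836847) (nat_lit 1) (nat_lit 5) (nat_lit 3) (nat_lit 4) (nat_lit 1) (nat_lit 4) (nat_lit 300) (nat_lit 241) (nat_lit 239))) (XT.nd (nat_lit 78) (nat_lit 0) (nat_lit 0) (XT.lf (nat_lit 0) (nat_lit 89835141699) (nat_lit 152) (nat_lit 145282912461) (nat_lit 0) (nat_lit 89523058260) (nat_lit 1)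 (nat_lit 5) (nat_lit 3) (nat_lit 4) (nat_lit 1) (nat_lit 4) (nat_lit 301) (nat_lit 241) (nat_lit 238)) (XT.lf (nat_lit 0) (nat_lit 106079041727) (nat_lit 152) (nat_lit 161336076779) (nat_lit 0) (nat_lit 105688807992) (nat_lit 1) (nat_lit 5) (nat_lit 3) (nat_lit 4) (nat_lit 1) (nat_lit 4) (nat_lit 302) (nat_lit 241) (nat_lit 237))))))))
noncomputable def xc5 : XT := (XT.nd (nat_lit 2028) (nat_lit 0) (nat_lit 0) (XT.nd (nat_lit 1014) (nat_lit 0) (nat_lit 0) (XT.nd (nat_lit 468) (nat_lit 0) (nat_lit 0) (XT.nd (nat_lit 234) (nat_lit 0) (nat_lit 0) (XT.nd (nat_lit 78) (nat_lit 0) (nat_lit 0) (XT.lf (nat_lit 0) (nat_lit 124550562967) (nat_lit 152) (nat_lit 180210011095) (nat_lit 0) (nat_lit 124092372453) (nat_lit 1) (nat_lit 5) (nat_lit 3) (nat_lit 4) (nat_lit 1) (nat_lit 4) (nat_lit 303) (nat_lit 241) (nat_lit 236)) (XT.nd (nat_lit 78) (nat_lit 0) (nat_lit 0) (XT.lf (nat_lit 0) (nat_lit 145611104746)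 (nat_lit 152) (nat_lit 202273988036) (nat_lit 0) (nat_lit 145093821380) (nat_lit 1) (nat_lit 5) (nat_lit 3) (nat_lit 4) (nat_lit 1) (nat_lit 4) (nat_lit 304) (nat_lit 241) (nat_lit 235)) (XT.lf (nat_lit 0) (nat_lit 169672721143) (nat_lit 152) (nat_lit 227959694109) (nat_lit 0) (nat_lit 169104052689) (nat_lit 1) (nat_lit 5) (nat_lit 3) (nat_lit 4) (nat_lit 1) (nat_lit 4) (nat_lit 305) (nat_lit 241) (nat_lit 234)))) (XT.nd (nat_lit 78) (nat_lit 0) (nat_lit 0) (XT.lf (nat_lit 0) (nat_lit 197206182913) (nat_lit 152) (nat_lit 257769675736) (nat_lit 0) (nat_lit 196592831773) (nat_lit 1) (nat_lit 5) (nat_lit 3) (nat_lit 4) (nat_lit 1) (nat_lit 4) (nat_lit 306) (nat_lit 241) (nat_lit 233)) (XT.nd (nat_lit 78) (nat_lit 0) (nat_lit 0) (XT.lf (nat_lit 0) (nat_lit 228750188221) (nat_lit 152) (nat_lit 292287171688) (nat_lit 0) (nat_lit 228097982573) (nat_lit 1) (nat_lit 5) (nat_lit 3) (nat_lit 4) (nat_lit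 1) (nat_lit 4) (nat_lit 307) (nat_lit 241) (nat_lit 232)) (XT.lf (nat_lit 0) (nat_lit 264921902390) (nat_lit 152) (nat_lit 332187524278) (nat_lit 0) (nat_lit 264235910211) (nat_lit 1) (nat_lit 5) (nat_lit 3) (nat_lit 4) (nat_lit 1) (nat_lit 4) (nat_lit 308) (nat_lit 241) (nat_lit 231))))) (XT.nd (nat_lit 234) (nat_lit 0) (nat_lit 0) (XT.nd (nat_lit 78) (nat_lit 0) (nat_lit 0) (XT.lf (nat_lit 0) (nat_lit 306429032869) (nat_lit 152) (nat_lit 378251392577) (nat_lit 0) (nat_lit 305713661099) (nat_lit 1) (nat_lit 5) (nat_lit 3) (nat_lit 4) (nat_lit 1) (nat_lit 4) (nat_lit 309) (nat_lit 241) (nat_lit 230)) (XT.nd (nat_lit 78) (nat_lit 0) (nat_lit 0) (XT.lf (nat_lit 0) (nat_lit 354083675690) (nat_lit 152) (nat_lit 431380026184) (nat_lit 0) (nat_lit 353342756450) (nat_lit 1) (nat_lit 5) (nat_lit 3) (nat_lit 4) (nat_lit 1) (nat_lit 4) (nat_lit 310) (nat_lit 241) (nat_lit 229)) (XT.lf (nat_lit 0)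 (nat_lit 408818204299) (nat_lit 152) (nat_lit 492612898363) (nat_lit 0) (nat_lit 408055069868) (nat_lit 1) (nat_lit 5) (nat_lit 3) (nat_lit 4) (nat_lit 1) (nat_lit 4) (nat_lit 311) (nat_lit 241) (nat_lit 228)))) (XT.nd (nat_lit 156) (nat_lit 0) (nat_lit 0) (XT.nd (nat_lit 78) (nat_lit 0) (nat_lit 0) (XT.lf (nat_lit 0) (nat_lit 471703511648) (nat_lit 152) (nat_lit 563148043572) (nat_lit 0) (nat_lit 470921059659) (nat_lit 1) (nat_lit 5) (nat_lit 3) (nat_lit 4) (nat_lit 1) (nat_lit 4) (nat_lit 312) (nat_lit 241) (nat_lit 227)) (XT.lf (nat_lit 0) (nat_lit 543969962445) (nat_lit 152) (nat_lit 644365497259) (nat_lit 0) (nat_lit 543170712579) (nat_lit 1) (nat_lit 5) (nat_lit 3) (nat_lit 4) (nat_lit 1) (nat_lit 4) (nat_lit 313) (nat_lit 241) (nat_lit 226))) (XT.nd (nat_lit 78) (nat_lit 0) (nat_lit 0) (XT.lf (nat_lit 0) (nat_lit 627031465511) (nat_lit 152) (nat_lit 737854296562) (nat_lit 0) (nat_lit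 626217608796) (nat_lit 1) (nat_lit 5) (nat_lit 3) (nat_lit 4) (nat_lit 1) (nat_lit 4) (nat_lit 314) (nat_lit 241) (nat_lit 225)) (XT.lf (nat_lit 0) (nat_lit 722513137210) (nat_lit 152) (nat_lit 845443570163) (nat_lit 0) (nat_lit 721686578887) (nat_lit 1) (nat_lit 5) (nat_lit 3) (nat_lit 4) (nat_lit 1) (nat_lit 4) (nat_lit 315) (nat_lit 241) (nat_lit 224)))))) (XT.nd (nat_lit 468) (nat_lit 0) (nat_lit 0) (XT.nd (nat_lit 234) (nat_lit 0) (nat_lit 0) (XT.nd (nat_lit 78) (nat_lit 0) (nat_lit 0) (XT.lf (nat_lit 0) (nat_lit 832283097205) (nat_lit 152) (nat_lit 969238325589) (nat_lit 0) (nat_lit 831445494005) (nat_lit 1) (nat_lit 5) (nat_lit 3) (nat_lit 4) (nat_lit 1) (nat_lit 4) (nat_lit 316) (nat_lit 241) (nat_lit 223)) (XT.nd (nat_lit 78) (nat_lit 0) (nat_lit 0) (XT.lf (nat_lit 0) (nat_lit 958489018626) (nat_lit 152) (nat_lit 1111660634141) (nat_lit 0) (nat_lit 957641811186) (nat_lit 1) (nat_lit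 5) (nat_lit 3) (nat_lit 4) (nat_lit 1) (nat_lit 4) (nat_lit 317) (nat_lit 241) (nat_lit 222)) (XT.lf (nat_lit 0) (nat_lit 1103600147763) (nat_lit 152) (nat_lit 1275497019249) (nat_lit 0) (nat_lit 1102744588810) (nat_lit 1) (nat_lit 5) (nat_lit 3) (nat_lit 4) (nat_lit 1) (nat_lit 4) (nat_lit 318) (nat_lit 241) (nat_lit 221)))) (XT.nd (nat_lit 78) (nat_lit 0) (nat_lit 0) (XT.lf (nat_lit 0) (nat_lit 1270455615403) (nat_lit 152) (nat_lit 1463952975402) (nat_lit 0) (nat_lit 1269592794264) (nat_lit 1) (nat_lit 5) (nat_lit 3) (nat_lit 4) (nat_lit 1) (nat_lit 4) (nat_lit 319) (nat_lit 241) (nat_lit 220)) (XT.nd (nat_lit 78) (nat_lit 0) (nat_lit 0) (XT.lf (nat_lit 0) (nat_lit 1462319985044) (nat_lit 152) (nat_lit 1680715684353) (nat_lit 0) (nat_lit 1461450848961) (nat_lit 1) (nat_lit 5) (nat_lit 3) (nat_lit 4) (nat_lit 1) (nat_lit 4) (nat_lit 320) (nat_lit 241) (nat_lit 219)) (XT.lf (nat_lit 0)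 (nat_lit 1682947124786) (nat_lit 152) (nat_lit 1930026155623) (nat_lit 0) (nat_lit 1682072497447) (nat_lit 1) (nat_lit 5) (nat_lit 3) (nat_lit 4) (nat_lit 1) (nat_lit 4) (nat_lit 321) (nat_lit 241) (nat_lit 218))))) (XT.nd (nat_lit 234) (nat_lit 0) (nat_lit 0) (XT.nd (nat_lit 78) (nat_lit 0) (nat_lit 0) (XT.lf (nat_lit 0) (nat_lit 1936653652581) (nat_lit 152) (nat_lit 2216762202782) (nat_lit 0) (nat_lit 1935774250238) (nat_lit 1) (nat_lit 5) (nat_lit 3) (nat_lit 4) (nat_lit 1) (nat_lit 4) (nat_lit 322) (nat_lit 241) (nat_lit 217)) (XT.nd (nat_lit 78) (nat_lit 0) (nat_lit 0) (XT.lf (nat_lit 0) (nat_lit 2228403391800) (nat_lit 152) (nat_lit 2546533878926) (nat_lit 0) (nat_lit 2227519837278) (nat_lit 1) (nat_lit 5) (nat_lit 3) (nat_lit 4) (nat_lit 1) (nat_lit 4) (nat_lit 323) (nat_lit 241) (nat_lit 216)) (XT.lf (nat_lit 0) (nat_lit 2563904489513) (nat_lit 152) (nat_lit 2925793238588) (nat_lit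 0) (nat_lit 2563017324402) (nat_lit 1) (nat_lit 5) (nat_lit 3) (nat_lit 4) (nat_lit 1) (nat_lit 4) (nat_lit 324) (nat_lit 241) (nat_lit 215)))) (XT.nd (nat_lit 156) (nat_lit 0) (nat_lit 0) (XT.nd (nat_lit 78) (nat_lit 0) (nat_lit 0) (XT.lf (nat_lit 0) (nat_lit 2949721097634) (nat_lit 152) (nat_lit 3361960573588) (nat_lit 0) (nat_lit 2948830792879) (nat_lit 1) (nat_lit 5) (nat_lit 3) (nat_lit 4) (nat_lit 1) (nat_lit 4) (nat_lit 325) (nat_lit 241) (nat_lit 214)) (XT.lf (nat_lit 0) (nat_lit 3393401801972) (nat_lit 152) (nat_lit 3863569592653) (nat_lit 0) (nat_lit 3392508767093) (nat_lit 1) (nat_lit 5) (nat_lit 3) (nat_lit 4) (nat_lit 1) (nat_lit 4) (nat_lit 326) (nat_lit 241) (nat_lit 213))) (XT.nd (nat_lit 78) (nat_lit 0) (nat_lit 0) (XT.lf (nat_lit 0) (nat_lit 3903627311960) (nat_lit 152) (nat_lit 4440434385288) (nat_lit 0) (nat_lit 3902731903060) (nat_lit 1) (nat_lit 5) (nat_lit 3) (nat_lit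 4) (nat_lit 1) (nat_lit 4) (nat_lit 327) (nat_lit 241) (nat_lit 212)) (XT.lf (nat_lit 0) (nat_lit 4490380300621) (nat_lit 152) (nat_lit 5103841436565) (nat_lit 0) (nat_lit 4489482827354) (nat_lit 1) (nat_lit 5) (nat_lit 3) (nat_lit 4) (nat_lit 1) (nat_lit 4) (nat_lit 328) (nat_lit 241) (nat_lit 211))))))) (XT.nd (nat_lit 38922) (nat_lit 0) (nat_lit 0) (XT.nd (nat_lit 38376) (nat_lit 0) (nat_lit 0) (XT.nd (nat_lit 38142) (nat_lit 0) (nat_lit 0) (XT.nd (nat_lit 78) (nat_lit 0) (nat_lit 0) (XT.lf (nat_lit 0) (nat_lit 5165140717731) (nat_lit 152) (nat_lit 5866770449662) (nat_lit 0) (nat_lit 5164241449363) (nat_lit 1) (nat_lit 5) (nat_lit 3) (nat_lit 4) (nat_lit 1) (nat_lit 4) (nat_lit 329) (nat_lit 241) (nat_lit 210)) (XT.nd (nat_lit 37986) (nat_lit 0) (nat_lit 0) (XT.lf (nat_lit 0) (nat_lit 5941110397540) (nat_lit 152) (nat_lit 6744148296574) (nat_lit 0) (nat_lit 5940209568214) (nat_lit 1)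 (nat_lit 5) (nat_lit 3) (nat_lit 4) (nat_lit 1) (nat_lit 4) (nat_lit 330) (nat_lit 241) (nat_lit 209)) (XT.lf (nat_lit 0) (nat_lit 16217718993) (nat_lit 152) (nat_lit 48781548658) (nat_lit 0) (nat_lit 16217718993) (nat_lit 1) (nat_lit 5) (nat_lit 3) (nat_lit 4) (nat_lit 1) (nat_lit 4) (nat_lit 296) (nat_lit 242) (nat_lit 242)))) (XT.nd (nat_lit 78) (nat_lit 0) (nat_lit 0) (XT.lf (nat_lit 0) (nat_lit 41444318182) (nat_lit 152) (nat_lit 103701684855) (nat_lit 0) (nat_lit 41307632825) (nat_lit 1) (nat_lit 5) (nat_lit 3) (nat_lit 4) (nat_lit 1) (nat_lit 4) (nat_lit 297) (nat_lit 242) (nat_lit 241)) (XT.nd (nat_lit 78) (nat_lit 0) (nat_lit 0) (XT.lf (nat_lit 0) (nat_lit 51439051425) (nat_lit 152) (nat_lit 111483042170) (nat_lit 0) (nat_lit 51183509237) (nat_lit 1) (nat_lit 5) (nat_lit 3) (nat_lit 4) (nat_lit 1) (nat_lit 4) (nat_lit 298) (nat_lit 242) (nat_lit 240)) (XT.lf (nat_lit 0) (nat_lit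 62615186845) (nat_lit 152) (nat_lit 121059413211) (nat_lit 0) (nat_lit 62256290890) (nat_lit 1) (nat_lit 5) (nat_lit 3) (nat_lit 4) (nat_lit 1) (nat_lit 4) (nat_lit 299) (nat_lit 242) (nat_lit 239))))) (XT.nd (nat_lit 234) (nat_lit 0) (nat_lit 0) (XT.nd (nat_lit 78) (nat_lit 0) (nat_lit 0) (XT.lf (nat_lit 0) (nat_lit 75191387962) (nat_lit 152) (nat_lit 132618161759) (nat_lit 0) (nat_lit 74742619166) (nat_lit 1) (nat_lit 5) (nat_lit 3) (nat_lit 4) (nat_lit 1) (nat_lit 4) (nat_lit 300) (nat_lit 242) (nat_lit 238)) (XT.nd (nat_lit 78) (nat_lit 0) (nat_lit 0) (XT.lf (nat_lit 0) (nat_lit 89413710884) (nat_lit 152) (nat_lit 146385437242) (nat_lit 0) (nat_lit 88886791792) (nat_lit 1) (nat_lit 5) (nat_lit 3) (nat_lit 4) (nat_lit 1) (nat_lit 4) (nat_lit 301) (nat_lit 242) (nat_lit 237)) (XT.lf (nat_lit 0) (nat_lit 105560418450) (nat_lit 152) (nat_lit 162630599397) (nat_lit 0) (nat_lit 104965542579)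 (nat_lit 1) (nat_lit 5) (nat_lit 3) (nat_lit 4) (nat_lit 1) (nat_lit 4) (nat_lit 302) (nat_lit 242) (nat_lit 236)))) (XT.nd (nat_lit 156) (nat_lit 0) (nat_lit 0) (XT.nd (nat_lit 78) (nat_lit 0) (nat_lit 0) (XT.lf (nat_lit 0) (nat_lit 123947424505) (nat_lit 152) (nat_lit 181671488354) (nat_lit 0) (nat_lit 123293455783) (nat_lit 1) (nat_lit 5) (nat_lit 3) (nat_lit 4) (nat_lit 1) (nat_lit 4) (nat_lit 303) (nat_lit 242) (nat_lit 235)) (XT.lf (nat_lit 0) (nat_lit 144934474820) (nat_lit 152) (nat_lit 203880643244) (nat_lit 0) (nat_lit 144229121009) (nat_lit 1) (nat_lit 5) (nat_lit 3) (nat_lit 4) (nat_lit 1) (nat_lit 4) (nat_lit 304) (nat_lit 242) (nat_lit 234))) (XT.nd (nat_lit 78) (nat_lit 0) (nat_lit 0) (XT.lf (nat_lit 0) (nat_lit 168932185595) (nat_lit 152) (nat_lit 229692591012) (nat_lit 0) (nat_lit 168182149099) (nat_lit 1) (nat_lit 5) (nat_lit 3) (nat_lit 4) (nat_lit 1) (nat_lit 4) (nat_lit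 305) (nat_lit 242) (nat_lit 233)) (XT.lf (nat_lit 0) (nat_lit 196410077259) (nat_lit 152) (nat_lit 259612348025) (nat_lit 0) (nat_lit 195621186254) (nat_lit 1) (nat_lit 5) (nat_lit 3) (nat_lit 4) (nat_lit 1) (nat_lit 4) (nat_lit 306) (nat_lit 242) (nat_lit 232)))))) (XT.nd (nat_lit 468) (nat_lit 0) (nat_lit 0) (XT.nd (nat_lit 234) (nat_lit 0) (nat_lit 0) (XT.nd (nat_lit 78) (nat_lit 0) (nat_lit 0) (XT.lf (nat_lit 0) (nat_lit 227905760737) (nat_lit 152) (nat_lit 294225300836) (nat_lit 0) (nat_lit 227083083202) (nat_lit 1) (nat_lit 5) (nat_lit 3) (nat_lit 4) (nat_lit 1) (nat_lit 4) (nat_lit 307) (nat_lit 242) (nat_lit 231)) (XT.nd (nat_lit 78) (nat_lit 0) (nat_lit 0) (XT.lf (nat_lit 0) (nat_lit 264035455922) (nat_lit 152) (nat_lit 334208659389) (nat_lit 0) (nat_lit 263183398796) (nat_lit 1) (nat_lit 5) (nat_lit 3) (nat_lit 4) (nat_lit 1) (nat_lit 4) (nat_lit 308) (nat_lit 242) (nat_lit 230))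 (XT.lf (nat_lit 0) (nat_lit 305506048154) (nat_lit 152) (nat_lit 380344706787) (nat_lit 0) (nat_lit 304628443558) (nat_lit 1) (nat_lit 5) (nat_lit 3) (nat_lit 4) (nat_lit 1) (nat_lit 4) (nat_lit 309) (nat_lit 242) (nat_lit 229)))) (XT.nd (nat_lit 78) (nat_lit 0) (nat_lit 0) (XT.lf (nat_lit 0) (nat_lit 353128918587) (nat_lit 152) (nat_lit 433536104827) (nat_lit 0) (nat_lit 352229098799) (nat_lit 1) (nat_lit 5) (nat_lit 3) (nat_lit 4) (nat_lit 1) (nat_lit 4) (nat_lit 310) (nat_lit 242) (nat_lit 228)) (XT.nd (nat_lit 78) (nat_lit 0) (nat_lit 0) (XT.lf (nat_lit 0) (nat_lit 407835819033) (nat_lit 152) (nat_lit 494823554775) (nat_lit 0) (nat_lit 406916681687) (nat_lit 1) (nat_lit 5) (nat_lit 3) (nat_lit 4) (nat_lit 1) (nat_lit 4) (nat_lit 311) (nat_lit 242) (nat_lit 227)) (XT.lf (nat_lit 0) (nat_lit 470697101892) (nat_lit 152) (nat_lit 565406158912) (nat_lit 0) (nat_lit 469761166669) (nat_lit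 1) (nat_lit 5) (nat_lit 3) (nat_lit 4) (nat_lit 1) (nat_lit 4) (nat_lit 312) (nat_lit 242) (nat_lit 226))))) (XT.nd (nat_lit 234) (nat_lit 0) (nat_lit 0) (XT.nd (nat_lit 78) (nat_lit 0) (nat_lit 0) (XT.lf (nat_lit 0) (nat_lit 542942661828) (nat_lit 152) (nat_lit 646664881233) (nat_lit 0) (nat_lit 541992119756) (nat_lit 1) (nat_lit 5) (nat_lit 3) (nat_lit 4) (nat_lit 1) (nat_lit 4) (nat_lit 313) (nat_lit 242) (nat_lit 225)) (XT.nd (nat_lit 78) (nat_lit 0) (nat_lit 0) (XT.lf (nat_lit 0) (nat_lit 625985998928) (nat_lit 152) (nat_lit 740189566304) (nat_lit 0) (nat_lit 625022755248) (nat_lit 1) (nat_lit 5) (nat_lit 3) (nat_lit 4) (nat_lit 1) (nat_lit 4) (nat_lit 314) (nat_lit 242) (nat_lit 224)) (XT.lf (nat_lit 0) (nat_lit 721451874134) (nat_lit 152) (nat_lit 847810044922) (nat_lit 0) (nat_lit 720477585578) (nat_lit 1) (nat_lit 5) (nat_lit 3) (nat_lit 4) (nat_lit 1) (nat_lit 4) (nat_lit 315)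 (nat_lit 242) (nat_lit 223)))) (XT.nd (nat_lit 156) (nat_lit 0) (nat_lit 0) (XT.nd (nat_lit 78) (nat_lit 0) (nat_lit 0) (XT.lf (nat_lit 0) (nat_lit 831208098049) (nat_lit 152) (nat_lit 971631935144) (nat_lit 0) (nat_lit 830224205252) (nat_lit 1) (nat_lit 5) (nat_lit 3) (nat_lit 4) (nat_lit 1) (nat_lit 4) (nat_lit 316) (nat_lit 242) (nat_lit 222)) (XT.lf (nat_lit 0) (nat_lit 957402075053) (nat_lit 152) (nat_lit 1114077839172) (nat_lit 0) (nat_lit 956409830743) (nat_lit 1) (nat_lit 5) (nat_lit 3) (nat_lit 4) (nat_lit 1) (nat_lit 4) (nat_lit 317) (nat_lit 242) (nat_lit 221))) (XT.nd (nat_lit 78) (nat_lit 0) (nat_lit 0) (XT.lf (nat_lit 0) (nat_lit 1102502817740) (nat_lit 152) (nat_lit 1277934742084) (nat_lit 0) (nat_lit 1101503311244) (nat_lit 1) (nat_lit 5) (nat_lit 3) (nat_lit 4) (nat_lit 1) (nat_lit 4) (nat_lit 318) (nat_lit 242) (nat_lit 220)) (XT.lf (nat_lit 0) (nat_lit 1269349253684)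 (nat_lit 152) (nat_lit 1466408539807) (nat_lit 0) (nat_lit 1268343432245) (nat_lit 1) (nat_lit 5) (nat_lit 3) (nat_lit 4) (nat_lit 1) (nat_lit 4) (nat_lit 319) (nat_lit 242) (nat_lit 219))))))))
noncomputable def xc6 : XT := (XT.nd (nat_lit 39780) (nat_lit 0) (nat_lit 0) (XT.nd (nat_lit 38766) (nat_lit 0) (nat_lit 0) (XT.nd (nat_lit 468) (nat_lit 0) (nat_lit 0) (XT.nd (nat_lit 234) (nat_lit 0) (nat_lit 0) (XT.nd (nat_lit 78) (nat_lit 0) (nat_lit 0) (XT.lf (nat_lit 0) (nat_lit 1461205769676) (nat_lit 152) (nat_lit 1683186763166) (nat_lit 0) (nat_lit 1460194456981) (nat_lit 1) (nat_lit 5) (nat_lit 3) (nat_lit 4) (nat_lit 1) (nat_lit 4) (nat_lit 320) (nat_lit 242) (nat_lit 218)) (XT.nd (nat_lit 78) (nat_lit 0) (nat_lit 0) (XT.lf (nat_lit 0) (nat_lit 1681826080158) (nat_lit 152) (nat_lit 1932510725226) (nat_lit 0) (nat_lit 1680809992458) (nat_lit 1) (nat_lit 5) (nat_lit 3) (nat_lit 4) (nat_lit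 1) (nat_lit 4) (nat_lit 321) (nat_lit 242) (nat_lit 217)) (XT.lf (nat_lit 0) (nat_lit 1935526669467) (nat_lit 152) (nat_lit 2219258503506) (nat_lit 0) (nat_lit 1934506429589) (nat_lit 1) (nat_lit 5) (nat_lit 3) (nat_lit 4) (nat_lit 1) (nat_lit 4) (nat_lit 322) (nat_lit 242) (nat_lit 216)))) (XT.nd (nat_lit 78) (nat_lit 0) (nat_lit 0) (XT.lf (nat_lit 0) (nat_lit 2227271244784) (nat_lit 152) (nat_lit 2549040380625) (nat_lit 0) (nat_lit 2226247394317) (nat_lit 1) (nat_lit 5) (nat_lit 3) (nat_lit 4) (nat_lit 1) (nat_lit 4) (nat_lit 323) (nat_lit 242) (nat_lit 215)) (XT.nd (nat_lit 78) (nat_lit 0) (nat_lit 0) (XT.lf (nat_lit 0) (nat_lit 2562767852149) (nat_lit 152) (nat_lit 2928308610700) (nat_lit 0) (nat_lit 2561740862038) (nat_lit 1) (nat_lit 5) (nat_lit 3) (nat_lit 4) (nat_lit 1) (nat_lit 4) (nat_lit 324) (nat_lit 242) (nat_lit 214)) (XT.lf (nat_lit 0) (nat_lit 2948580555618) (nat_lit 152)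 (nat_lit 3364483659103) (nat_lit 0) (nat_lit 2947550835382) (nat_lit 1) (nat_lit 5) (nat_lit 3) (nat_lit 4) (nat_lit 1) (nat_lit 4) (nat_lit 325) (nat_lit 242) (nat_lit 213))))) (XT.nd (nat_lit 234) (nat_lit 0) (nat_lit 0) (XT.nd (nat_lit 78) (nat_lit 0) (nat_lit 0) (XT.lf (nat_lit 0) (nat_lit 3392257864607) (nat_lit 152) (nat_lit 3866099385475) (nat_lit 0) (nat_lit 3391225770350) (nat_lit 1) (nat_lit 5) (nat_lit 3) (nat_lit 4) (nat_lit 1) (nat_lit 4) (nat_lit 326) (nat_lit 242) (nat_lit 212)) (XT.nd (nat_lit 78) (nat_lit 0) (nat_lit 0) (XT.lf (nat_lit 0) (nat_lit 3902480422118) (nat_lit 152) (nat_lit 4442970010550) (nat_lit 0) (nat_lit 3901446263495) (nat_lit 1) (nat_lit 5) (nat_lit 3) (nat_lit 4) (nat_lit 1) (nat_lit 4) (nat_lit 327) (nat_lit 242) (nat_lit 211)) (XT.lf (nat_lit 0) (nat_lit 4489230843407) (nat_lit 152) (nat_lit 5106382133515) (nat_lit 0) (nat_lit 4488194889683) (nat_lit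 1) (nat_lit 5) (nat_lit 3) (nat_lit 4) (nat_lit 1) (nat_lit 4) (nat_lit 328) (nat_lit 242) (nat_lit 210)))) (XT.nd (nat_lit 37908) (nat_lit 0) (nat_lit 0) (XT.nd (nat_lit 78) (nat_lit 0) (nat_lit 0) (XT.lf (nat_lit 0) (nat_lit 5163989028021) (nat_lit 152) (nat_lit 5869315556775) (nat_lit 0) (nat_lit 5162951513339) (nat_lit 1) (nat_lit 5) (nat_lit 3) (nat_lit 4) (nat_lit 1) (nat_lit 4) (nat_lit 329) (nat_lit 242) (nat_lit 209)) (XT.lf (nat_lit 0) (nat_lit 5939956766527) (nat_lit 152) (nat_lit 6746697238611) (nat_lit 0) (nat_lit 5938917894491) (nat_lit 1) (nat_lit 5) (nat_lit 3) (nat_lit 4) (nat_lit 1) (nat_lit 4) (nat_lit 330) (nat_lit 242) (nat_lit 208))) (XT.nd (nat_lit 78) (nat_lit 0) (nat_lit 0) (XT.lf (nat_lit 0) (nat_lit 8534017013) (nat_lit 152) (nat_lit 44659754512) (nat_lit 0) (nat_lit 8534017013) (nat_lit 1) (nat_lit 5) (nat_lit 3) (nat_lit 4) (nat_lit 1) (nat_lit 4) (nat_lit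 294) (nat_lit 243) (nat_lit 243)) (XT.lf (nat_lit 0) (nat_lit 24393338301) (nat_lit 152) (nat_lit 92947176758) (nat_lit 0) (nat_lit 24236150141) (nat_lit 1) (nat_lit 5) (nat_lit 3) (nat_lit 4) (nat_lit 1) (nat_lit 4) (nat_lit 295) (nat_lit 243) (nat_lit 242)))))) (XT.nd (nat_lit 468) (nat_lit 0) (nat_lit 0) (XT.nd (nat_lit 234) (nat_lit 0) (nat_lit 0) (XT.nd (nat_lit 78) (nat_lit 0) (nat_lit 0) (XT.lf (nat_lit 0) (nat_lit 32397137390) (nat_lit 152) (nat_lit 97949273547) (nat_lit 0) (nat_lit 32103263873) (nat_lit 1) (nat_lit 5) (nat_lit 3) (nat_lit 4) (nat_lit 1) (nat_lit 4) (nat_lit 296) (nat_lit 243) (nat_lit 241)) (XT.nd (nat_lit 78) (nat_lit 0) (nat_lit 0) (XT.lf (nat_lit 0) (nat_lit 41236027361) (nat_lit 152) (nat_lit 104423666502) (nat_lit 0) (nat_lit 40823297013) (nat_lit 1) (nat_lit 5) (nat_lit 3) (nat_lit 4) (nat_lit 1) (nat_lit 4) (nat_lit 297) (nat_lit 243) (nat_lit 240)) (XT.lf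 (nat_lit 0) (nat_lit 51082943018) (nat_lit 152) (nat_lit 112497028529) (nat_lit 0) (nat_lit 50566858904) (nat_lit 1) (nat_lit 5) (nat_lit 3) (nat_lit 4) (nat_lit 1) (nat_lit 4) (nat_lit 298) (nat_lit 243) (nat_lit 239)))) (XT.nd (nat_lit 78) (nat_lit 0) (nat_lit 0) (XT.lf (nat_lit 0) (nat_lit 62130541408) (nat_lit 152) (nat_lit 122327316709) (nat_lit 0) (nat_lit 61524584452) (nat_lit 1) (nat_lit 5) (nat_lit 3) (nat_lit 4) (nat_lit 1) (nat_lit 4) (nat_lit 299) (nat_lit 243) (nat_lit 238)) (XT.nd (nat_lit 78) (nat_lit 0) (nat_lit 0) (XT.lf (nat_lit 0) (nat_lit 74594971193) (nat_lit 152) (nat_lit 134106862770) (nat_lit 0) (nat_lit 73910863942) (nat_lit 1) (nat_lit 5) (nat_lit 3) (nat_lit 4) (nat_lit 1) (nat_lit 4) (nat_lit 300) (nat_lit 243) (nat_lit 237)) (XT.lf (nat_lit 0) (nat_lit 88720101653) (nat_lit 152) (nat_lit 148066136090) (nat_lit 0) (nat_lit 87968037622) (nat_lit 1) (nat_lit 5)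 (nat_lit 3) (nat_lit 4) (nat_lit 1) (nat_lit 4) (nat_lit 301) (nat_lit 243) (nat_lit 236))))) (XT.nd (nat_lit 234) (nat_lit 0) (nat_lit 0) (XT.nd (nat_lit 78) (nat_lit 0) (nat_lit 0) (XT.lf (nat_lit 0) (nat_lit 104782294035) (nat_lit 152) (nat_lit 164478252886) (nat_lit 0) (nat_lit 103971137153) (nat_lit 1) (nat_lit 5) (nat_lit 3) (nat_lit 4) (nat_lit 1) (nat_lit 4) (nat_lit 302) (nat_lit 243) (nat_lit 235)) (XT.nd (nat_lit 78) (nat_lit 0) (nat_lit 0) (XT.lf (nat_lit 0) (nat_lit 123095808625) (nat_lit 152) (nat_lit 183664319792) (nat_lit 0) (nat_lit 122233266655) (nat_lit 1) (nat_lit 5) (nat_lit 3) (nat_lit 4) (nat_lit 1) (nat_lit 4) (nat_lit 303) (nat_lit 243) (nat_lit 234)) (XT.lf (nat_lit 0) (nat_lit 144018953318) (nat_lit 152) (nat_lit 205999716377) (nat_lit 0) (nat_lit 143111728662) (nat_lit 1) (nat_lit 5) (nat_lit 3) (nat_lit 4) (nat_lit 1) (nat_lit 4) (nat_lit 304) (nat_lit 243)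 (nat_lit 233)))) (XT.nd (nat_lit 156) (nat_lit 0) (nat_lit 0) (XT.nd (nat_lit 78) (nat_lit 0) (nat_lit 0) (XT.lf (nat_lit 0) (nat_lit 167961093988) (nat_lit 152) (nat_lit 231921439531) (nat_lit 0) (nat_lit 167015014823) (nat_lit 1) (nat_lit 5) (nat_lit 3) (nat_lit 4) (nat_lit 1) (nat_lit 4) (nat_lit 305) (nat_lit 243) (nat_lit 232)) (XT.lf (nat_lit 0) (nat_lit 195390663821) (nat_lit 152) (nat_lit 261936653403) (nat_lit 0) (nat_lit 194410798127) (nat_lit 1) (nat_lit 5) (nat_lit 3) (nat_lit 4) (nat_lit 1) (nat_lit 4) (nat_lit 306) (nat_lit 243) (nat_lit 231))) (XT.nd (nat_lit 78) (nat_lit 0) (nat_lit 0) (XT.lf (nat_lit 0) (nat_lit 226844328315) (nat_lit 152) (nat_lit 296632612176) (nat_lit 0) (nat_lit 225835083030) (nat_lit 1) (nat_lit 5) (nat_lit 3) (nat_lit 4) (nat_lit 1) (nat_lit 4) (nat_lit 307) (nat_lit 243) (nat_lit 230)) (XT.lf (nat_lit 0) (nat_lit 262937485254) (nat_lit 152) (nat_lit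 336688149828) (nat_lit 0) (nat_lit 261902692498) (nat_lit 1) (nat_lit 5) (nat_lit 3) (nat_lit 4) (nat_lit 1) (nat_lit 4) (nat_lit 308) (nat_lit 243) (nat_lit 229))))))) (XT.nd (nat_lit 1014) (nat_lit 0) (nat_lit 0) (XT.nd (nat_lit 468) (nat_lit 0) (nat_lit 0) (XT.nd (nat_lit 234) (nat_lit 0) (nat_lit 0) (XT.nd (nat_lit 78) (nat_lit 0) (nat_lit 0) (XT.lf (nat_lit 0) (nat_lit 304376305098) (nat_lit 152) (nat_lit 382886961660) (nat_lit 0) (nat_lit 303319297150) (nat_lit 1) (nat_lit 5) (nat_lit 3) (nat_lit 4) (nat_lit 1) (nat_lit 4) (nat_lit 309) (nat_lit 243) (nat_lit 228)) (XT.nd (nat_lit 78) (nat_lit 0) (nat_lit 0) (XT.lf (nat_lit 0) (nat_lit 351971547367) (nat_lit 152) (nat_lit 436132937468) (nat_lit 0) (nat_lit 350895221861) (nat_lit 1) (nat_lit 5) (nat_lit 3) (nat_lit 4) (nat_lit 1) (nat_lit 4) (nat_lit 310) (nat_lit 243) (nat_lit 227)) (XT.lf (nat_lit 0) (nat_lit 406654423323) (nat_lit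 152) (nat_lit 497467846345) (nat_lit 0) (nat_lit 405561299940) (nat_lit 1) (nat_lit 5) (nat_lit 3) (nat_lit 4) (nat_lit 1) (nat_lit 4) (nat_lit 311) (nat_lit 243) (nat_lit 226)))) (XT.nd (nat_lit 78) (nat_lit 0) (nat_lit 0) (XT.lf (nat_lit 0) (nat_lit 469494815320) (nat_lit 152) (nat_lit 568091719116) (nat_lit 0) (nat_lit 468387085089) (nat_lit 1) (nat_lit 5) (nat_lit 3) (nat_lit 4) (nat_lit 1) (nat_lit 4) (nat_lit 312) (nat_lit 243) (nat_lit 225)) (XT.nd (nat_lit 78) (nat_lit 0) (nat_lit 0) (XT.lf (nat_lit 0) (nat_lit 541722209291) (nat_lit 152) (nat_lit 649386327206) (nat_lit 0) (nat_lit 540601777451) (nat_lit 1) (nat_lit 5) (nat_lit 3) (nat_lit 4) (nat_lit 1) (nat_lit 4) (nat_lit 313) (nat_lit 243) (nat_lit 224)) (XT.lf (nat_lit 0) (nat_lit 624749749898) (nat_lit 152) (nat_lit 742942217293) (nat_lit 0) (nat_lit 623618273182) (nat_lit 1) (nat_lit 5) (nat_lit 3) (nat_lit 4) (nat_lit 1)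 (nat_lit 4) (nat_lit 314) (nat_lit 243) (nat_lit 223))))) (XT.nd (nat_lit 234) (nat_lit 0) (nat_lit 0) (XT.nd (nat_lit 78) (nat_lit 0) (nat_lit 0) (XT.lf (nat_lit 0) (nat_lit 720201889024) (nat_lit 152) (nat_lit 850589830707) (nat_lit 0) (nat_lit 719060808068) (nat_lit 1) (nat_lit 5) (nat_lit 3) (nat_lit 4) (nat_lit 1) (nat_lit 4) (nat_lit 315) (nat_lit 243) (nat_lit 222)) (XT.nd (nat_lit 78) (nat_lit 0) (nat_lit 0) (XT.lf (nat_lit 0) (nat_lit 829946168521) (nat_lit 152) (nat_lit 974435316405) (nat_lit 0) (nat_lit 828796736051) (nat_lit 1) (nat_lit 5) (nat_lit 3) (nat_lit 4) (nat_lit 1) (nat_lit 4) (nat_lit 316) (nat_lit 243) (nat_lit 221)) (XT.lf (nat_lit 0) (nat_lit 956129759075) (nat_lit 152) (nat_lit 1116901738238) (nat_lit 0) (nat_lit 954973064420) (nat_lit 1) (nat_lit 5) (nat_lit 3) (nat_lit 4) (nat_lit 1) (nat_lit 4) (nat_lit 317) (nat_lit 243) (nat_lit 220)))) (XT.nd (nat_lit 156)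 (nat_lit 0) (nat_lit 0) (XT.nd (nat_lit 78) (nat_lit 0) (nat_lit 0) (XT.lf (nat_lit 0) (nat_lit 1101221470066) (nat_lit 152) (nat_lit 1280776482719) (nat_lit 0) (nat_lit 1100058460467) (nat_lit 1) (nat_lit 5) (nat_lit 3) (nat_lit 4) (nat_lit 1) (nat_lit 4) (nat_lit 318) (nat_lit 243) (nat_lit 219)) (XT.lf (nat_lit 0) (nat_lit 1268060052362) (nat_lit 152) (nat_lit 1469265794850) (nat_lit 0) (nat_lit 1266891551507) (nat_lit 1) (nat_lit 5) (nat_lit 3) (nat_lit 4) (nat_lit 1) (nat_lit 4) (nat_lit 319) (nat_lit 243) (nat_lit 218))) (XT.nd (nat_lit 78) (nat_lit 0) (nat_lit 0) (XT.lf (nat_lit 0) (nat_lit 1459909739095) (nat_lit 152) (nat_lit 1686057508998) (nat_lit 0) (nat_lit 1458736463235) (nat_lit 1) (nat_lit 5) (nat_lit 3) (nat_lit 4) (nat_lit 1) (nat_lit 4) (nat_lit 320) (nat_lit 243) (nat_lit 217)) (XT.lf (nat_lit 0) (nat_lit 1680524111091) (nat_lit 152) (nat_lit 1935393202180) (nat_lit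 0) (nat_lit 1679346683053) (nat_lit 1) (nat_lit 5) (nat_lit 3) (nat_lit 4) (nat_lit 1) (nat_lit 4) (nat_lit 321) (nat_lit 243) (nat_lit 216)))))) (XT.nd (nat_lit 468) (nat_lit 0) (nat_lit 0) (XT.nd (nat_lit 234) (nat_lit 0) (nat_lit 0) (XT.nd (nat_lit 78) (nat_lit 0) (nat_lit 0) (XT.lf (nat_lit 0) (nat_lit 1934219536498) (nat_lit 152) (nat_lit 2222151181435) (nat_lit 0) (nat_lit 1933038497870) (nat_lit 1) (nat_lit 5) (nat_lit 3) (nat_lit 4) (nat_lit 1) (nat_lit 4) (nat_lit 322) (nat_lit 243) (nat_lit 215)) (XT.nd (nat_lit 78) (nat_lit 0) (nat_lit 0) (XT.lf (nat_lit 0) (nat_lit 2225959621466) (nat_lit 152) (nat_lit 2551941928968) (nat_lit 0) (nat_lit 2224775443196) (nat_lit 1) (nat_lit 5) (nat_lit 3) (nat_lit 4) (nat_lit 1) (nat_lit 4) (nat_lit 323) (nat_lit 243) (nat_lit 214)) (XT.lf (nat_lit 0) (nat_lit 2561452324180) (nat_lit 152) (nat_lit 2931217872445) (nat_lit 0) (nat_lit 2560265415784)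 (nat_lit 1) (nat_lit 5) (nat_lit 3) (nat_lit 4) (nat_lit 1) (nat_lit 4) (nat_lit 324) (nat_lit 243) (nat_lit 213)))) (XT.nd (nat_lit 78) (nat_lit 0) (nat_lit 0) (XT.lf (nat_lit 0) (nat_lit 2947261632300) (nat_lit 152) (nat_lit 3367399628154) (nat_lit 0) (nat_lit 2946072349883) (nat_lit 1) (nat_lit 5) (nat_lit 3) (nat_lit 4) (nat_lit 1) (nat_lit 4) (nat_lit 325) (nat_lit 243) (nat_lit 212)) (XT.nd (nat_lit 78) (nat_lit 0) (nat_lit 0) (XT.lf (nat_lit 0) (nat_lit 3390935988811) (nat_lit 152) (nat_lit 3869021186967) (nat_lit 0) (nat_lit 3389744642028) (nat_lit 1) (nat_lit 5) (nat_lit 3) (nat_lit 4) (nat_lit 1) (nat_lit 4) (nat_lit 326) (nat_lit 243) (nat_lit 211)) (XT.lf (nat_lit 0) (nat_lit 3901155978951) (nat_lit 152) (nat_lit 4445896883730) (nat_lit 0) (nat_lit 3899962837067) (nat_lit 1) (nat_lit 5) (nat_lit 3) (nat_lit 4) (nat_lit 1) (nat_lit 4) (nat_lit 327) (nat_lit 243) (nat_lit 210)))))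 (XT.nd (nat_lit 37830) (nat_lit 0) (nat_lit 0) (XT.nd (nat_lit 78) (nat_lit 0) (nat_lit 0) (XT.lf (nat_lit 0) (nat_lit 4487904167743) (nat_lit 152) (nat_lit 5109313416858) (nat_lit 0) (nat_lit 4486709464901) (nat_lit 1) (nat_lit 5) (nat_lit 3) (nat_lit 4) (nat_lit 1) (nat_lit 4) (nat_lit 328) (nat_lit 243) (nat_lit 209)) (XT.nd (nat_lit 78) (nat_lit 0) (nat_lit 0) (XT.lf (nat_lit 0) (nat_lit 5162660411055) (nat_lit 152) (nat_lit 5872250675042) (nat_lit 0) (nat_lit 5161464350858) (nat_lit 1) (nat_lit 5) (nat_lit 3) (nat_lit 4) (nat_lit 1) (nat_lit 4) (nat_lit 329) (nat_lit 243) (nat_lit 208)) (XT.lf (nat_lit 0) (nat_lit 5938626461473) (nat_lit 152) (nat_lit 6749635691595) (nat_lit 0) (nat_lit 5937429220968) (nat_lit 1) (nat_lit 5) (nat_lit 3) (nat_lit 4) (nat_lit 1) (nat_lit 4) (nat_lit 330) (nat_lit 243) (nat_lit 207)))) (XT.nd (nat_lit 156) (nat_lit 0) (nat_lit 0) (XT.nd (nat_lit 78)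 (nat_lit 0) (nat_lit 0) (XT.lf (nat_lit 0) (nat_lit 2164698144) (nat_lit 152) (nat_lit 42709170282) (nat_lit 0) (nat_lit 2164698144) (nat_lit 1) (nat_lit 5) (nat_lit 3) (nat_lit 4) (nat_lit 1) (nat_lit 4) (nat_lit 292) (nat_lit 244) (nat_lit 244)) (XT.lf (nat_lit 0) (nat_lit 10458669778) (nat_lit 152) (nat_lit 86995294236) (nat_lit 0) (nat_lit 10277903394) (nat_lit 1) (nat_lit 5) (nat_lit 3) (nat_lit 4) (nat_lit 1) (nat_lit 4) (nat_lit 293) (nat_lit 244) (nat_lit 243))) (XT.nd (nat_lit 78) (nat_lit 0) (nat_lit 0) (XT.lf (nat_lit 0) (nat_lit 17023988339) (nat_lit 152) (nat_lit 89763611688) (nat_lit 0) (nat_lit 16686033796) (nat_lit 1) (nat_lit 5) (nat_lit 3) (nat_lit 4) (nat_lit 1) (nat_lit 4) (nat_lit 294) (nat_lit 244) (nat_lit 242)) (XT.lf (nat_lit 0) (nat_lit 24153803857) (nat_lit 152) (nat_lit 93777455653) (nat_lit 0) (nat_lit 23679163957) (nat_lit 1) (nat_lit 5) (nat_lit 3) (nat_lit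 4) (nat_lit 1) (nat_lit 4) (nat_lit 295) (nat_lit 244) (nat_lit 241))))))))
noncomputable def xc7 : XT := (XT.nd (nat_lit 2028) (nat_lit 0) (nat_lit 0) (XT.nd (nat_lit 1014) (nat_lit 0) (nat_lit 0) (XT.nd (nat_lit 468) (nat_lit 0) (nat_lit 0) (XT.nd (nat_lit 234) (nat_lit 0) (nat_lit 0) (XT.nd (nat_lit 78) (nat_lit 0) (nat_lit 0) (XT.lf (nat_lit 0) (nat_lit 31987612722) (nat_lit 152) (nat_lit 99115357859) (nat_lit 0) (nat_lit 31394115990) (nat_lit 1) (nat_lit 5) (nat_lit 3) (nat_lit 4) (nat_lit 1) (nat_lit 4) (nat_lit 296) (nat_lit 244) (nat_lit 240)) (XT.nd (nat_lit 78) (nat_lit 0) (nat_lit 0) (XT.lf (nat_lit 0) (nat_lit 40678685108) (nat_lit 152) (nat_lit 105881755525) (nat_lit 0) (nat_lit 39981834609) (nat_lit 1) (nat_lit 5) (nat_lit 3) (nat_lit 4) (nat_lit 1) (nat_lit 4) (nat_lit 297) (nat_lit 244) (nat_lit 239)) (XT.lf (nat_lit 0) (nat_lit 50397063734) (nat_lit 152) (nat_lit 114209034691)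 (nat_lit 0) (nat_lit 49610340395) (nat_lit 1) (nat_lit 5) (nat_lit 3) (nat_lit 4) (nat_lit 1) (nat_lit 4) (nat_lit 298) (nat_lit 244) (nat_lit 238)))) (XT.nd (nat_lit 78) (nat_lit 0) (nat_lit 0) (XT.lf (nat_lit 0) (nat_lit 61332890792) (nat_lit 152) (nat_lit 124260120385) (nat_lit 0) (nat_lit 60468017157) (nat_lit 1) (nat_lit 5) (nat_lit 3) (nat_lit 4) (nat_lit 1) (nat_lit 4) (nat_lit 299) (nat_lit 244) (nat_lit 237)) (XT.nd (nat_lit 78) (nat_lit 0) (nat_lit 0) (XT.lf (nat_lit 0) (nat_lit 73700128115) (nat_lit 152) (nat_lit 136231664283) (nat_lit 0) (nat_lit 72767297701) (nat_lit 1) (nat_lit 5) (nat_lit 3) (nat_lit 4) (nat_lit 1) (nat_lit 4) (nat_lit 300) (nat_lit 244) (nat_lit 236)) (XT.lf (nat_lit 0) (nat_lit 87740743390) (nat_lit 152) (nat_lit 150357892244) (nat_lit 0) (nat_lit 86748820124) (nat_lit 1) (nat_lit 5) (nat_lit 3) (nat_lit 4) (nat_lit 1) (nat_lit 4) (nat_lit 301) (nat_lit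 244) (nat_lit 235))))) (XT.nd (nat_lit 234) (nat_lit 0) (nat_lit 0) (XT.nd (nat_lit 78) (nat_lit 0) (nat_lit 0) (XT.lf (nat_lit 0) (nat_lit 103729444308) (nat_lit 152) (nat_lit 166915186989) (nat_lit 0) (nat_lit 102686135954) (nat_lit 1) (nat_lit 5) (nat_lit 3) (nat_lit 4) (nat_lit 1) (nat_lit 4) (nat_lit 302) (nat_lit 244) (nat_lit 234)) (XT.nd (nat_lit 78) (nat_lit 0) (nat_lit 0) (XT.lf (nat_lit 0) (nat_lit 121979053277) (nat_lit 152) (nat_lit 186227495589) (nat_lit 0) (nat_lit 120891062237) (nat_lit 1) (nat_lit 5) (nat_lit 3) (nat_lit 4) (nat_lit 1) (nat_lit 4) (nat_lit 303) (nat_lit 244) (nat_lit 233)) (XT.lf (nat_lit 0) (nat_lit 142846627864) (nat_lit 152) (nat_lit 208672667561) (nat_lit 0) (nat_lit 141719782315) (nat_lit 1) (nat_lit 5) (nat_lit 3) (nat_lit 4) (nat_lit 1) (nat_lit 4) (nat_lit 304) (nat_lit 244) (nat_lit 232)))) (XT.nd (nat_lit 156) (nat_lit 0) (nat_lit 0) (XT.nd (nat_lit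 78) (nat_lit 0) (nat_lit 0) (XT.lf (nat_lit 0) (nat_lit 166740446703) (nat_lit 152) (nat_lit 234689847573) (nat_lit 0) (nat_lit 165579814624) (nat_lit 1) (nat_lit 5) (nat_lit 3) (nat_lit 4) (nat_lit 1) (nat_lit 4) (nat_lit 305) (nat_lit 244) (nat_lit 231)) (XT.lf (nat_lit 0) (nat_lit 194127997553) (nat_lit 152) (nat_lit 264788067408) (nat_lit 0) (nat_lit 192937985883) (nat_lit 1) (nat_lit 5) (nat_lit 3) (nat_lit 4) (nat_lit 1) (nat_lit 4) (nat_lit 306) (nat_lit 244) (nat_lit 230))) (XT.nd (nat_lit 78) (nat_lit 0) (nat_lit 0) (XT.lf (nat_lit 0) (nat_lit 225545123801) (nat_lit 152) (nat_lit 299556205280) (nat_lit 0) (nat_lit 224329564661) (nat_lit 1) (nat_lit 5) (nat_lit 3) (nat_lit 4) (nat_lit 1) (nat_lit 4) (nat_lit 307) (nat_lit 244) (nat_lit 229)) (XT.lf (nat_lit 0) (nat_lit 261606508351) (nat_lit 152) (nat_lit 339674507365) (nat_lit 0) (nat_lit 260368734019) (nat_lit 1) (nat_lit 5)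 (nat_lit 3) (nat_lit 4) (nat_lit 1) (nat_lit 4) (nat_lit 308) (nat_lit 244) (nat_lit 228)))))) (XT.nd (nat_lit 468) (nat_lit 0) (nat_lit 0) (XT.nd (nat_lit 234) (nat_lit 0) (nat_lit 0) (XT.nd (nat_lit 78) (nat_lit 0) (nat_lit 0) (XT.lf (nat_lit 0) (nat_lit 303017700031) (nat_lit 152) (nat_lit 385927896965) (nat_lit 0) (nat_lit 301760608142) (nat_lit 1) (nat_lit 5) (nat_lit 3) (nat_lit 4) (nat_lit 1) (nat_lit 4) (nat_lit 309) (nat_lit 244) (nat_lit 227)) (XT.nd (nat_lit 78) (nat_lit 0) (nat_lit 0) (XT.lf (nat_lit 0) (nat_lit 350588917810) (nat_lit 152) (nat_lit 439221331703) (nat_lit 0) (nat_lit 349315028044) (nat_lit 1) (nat_lit 5) (nat_lit 3) (nat_lit 4) (nat_lit 1) (nat_lit 4) (nat_lit 310) (nat_lit 244) (nat_lit 226)) (XT.lf (nat_lit 0) (nat_lit 405250902905) (nat_lit 152) (nat_lit 500597509213) (nat_lit 0) (nat_lit 403962406289) (nat_lit 1) (nat_lit 5) (nat_lit 3) (nat_lit 4) (nat_lit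 1) (nat_lit 4) (nat_lit 311) (nat_lit 244) (nat_lit 225)))) (XT.nd (nat_lit 78) (nat_lit 0) (nat_lit 0) (XT.lf (nat_lit 0) (nat_lit 468073128936) (nat_lit 152) (nat_lit 571257267753) (nat_lit 0) (nat_lit 466771930713) (nat_lit 1) (nat_lit 5) (nat_lit 3) (nat_lit 4) (nat_lit 1) (nat_lit 4) (nat_lit 312) (nat_lit 244) (nat_lit 224)) (XT.nd (nat_lit 78) (nat_lit 0) (nat_lit 0) (XT.lf (nat_lit 0) (nat_lit 540284726414) (nat_lit 152) (nat_lit 652583080859) (nat_lit 0) (nat_lit 538972483315) (nat_lit 1) (nat_lit 5) (nat_lit 3) (nat_lit 4) (nat_lit 1) (nat_lit 4) (nat_lit 313) (nat_lit 244) (nat_lit 223)) (XT.lf (nat_lit 0) (nat_lit 623298530942) (nat_lit 152) (nat_lit 746166105743) (nat_lit 0) (nat_lit 621976683601) (nat_lit 1) (nat_lit 5) (nat_lit 3) (nat_lit 4) (nat_lit 1) (nat_lit 4) (nat_lit 314) (nat_lit 244) (nat_lit 222))))) (XT.nd (nat_lit 234) (nat_lit 0) (nat_lit 0) (XT.nd (nat_lit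 78) (nat_lit 0) (nat_lit 0) (XT.lf (nat_lit 0) (nat_lit 718738725650) (nat_lit 152) (nat_lit 853837314632) (nat_lit 0) (nat_lit 717408526796) (nat_lit 1) (nat_lit 5) (nat_lit 3) (nat_lit 4) (nat_lit 1) (nat_lit 4) (nat_lit 315) (nat_lit 244) (nat_lit 221)) (XT.nd (nat_lit 78) (nat_lit 0) (nat_lit 0) (XT.lf (nat_lit 0) (nat_lit 828472618697) (nat_lit 152) (nat_lit 977703318135) (nat_lit 0) (nat_lit 827135157658) (nat_lit 1) (nat_lit 5) (nat_lit 3) (nat_lit 4) (nat_lit 1) (nat_lit 4) (nat_lit 316) (nat_lit 244) (nat_lit 220)) (XT.lf (nat_lit 0) (nat_lit 954647177555) (nat_lit 152) (nat_lit 1120187581537) (nat_lit 0) (nat_lit 953303401572) (nat_lit 1) (nat_lit 5) (nat_lit 3) (nat_lit 4) (nat_lit 1) (nat_lit 4) (nat_lit 317) (nat_lit 244) (nat_lit 219)))) (XT.nd (nat_lit 156) (nat_lit 0) (nat_lit 0) (XT.nd (nat_lit 78) (nat_lit 0) (nat_lit 0) (XT.lf (nat_lit 0) (nat_lit 1099731034898) (nat_lit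 152) (nat_lit 1284077840426) (nat_lit 0) (nat_lit 1098381767659) (nat_lit 1) (nat_lit 5) (nat_lit 3) (nat_lit 4) (nat_lit 1) (nat_lit 4) (nat_lit 318) (nat_lit 244) (nat_lit 218)) (XT.lf (nat_lit 0) (nat_lit 1266562787934) (nat_lit 152) (nat_lit 1472580643347) (nat_lit 0) (nat_lit 1265208745691) (nat_lit 1) (nat_lit 5) (nat_lit 3) (nat_lit 4) (nat_lit 1) (nat_lit 4) (nat_lit 319) (nat_lit 244) (nat_lit 217))) (XT.nd (nat_lit 78) (nat_lit 0) (nat_lit 0) (XT.lf (nat_lit 0) (nat_lit 1458406536180) (nat_lit 152) (nat_lit 1689384088617) (nat_lit 0) (nat_lit 1457048341758) (nat_lit 1) (nat_lit 5) (nat_lit 3) (nat_lit 4) (nat_lit 1) (nat_lit 4) (nat_lit 320) (nat_lit 244) (nat_lit 216)) (XT.lf (nat_lit 0) (nat_lit 1679015744275) (nat_lit 152) (nat_lit 1938729982774) (nat_lit 0) (nat_lit 1677653939263) (nat_lit 1) (nat_lit 5) (nat_lit 3) (nat_lit 4) (nat_lit 1) (nat_lit 4) (nat_lit 321) (nat_lit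 244) (nat_lit 215))))))) (XT.nd (nat_lit 38454) (nat_lit 0) (nat_lit 0) (XT.nd (nat_lit 468) (nat_lit 0) (nat_lit 0) (XT.nd (nat_lit 234) (nat_lit 0) (nat_lit 0) (XT.nd (nat_lit 78) (nat_lit 0) (nat_lit 0) (XT.lf (nat_lit 0) (nat_lit 1932706679333) (nat_lit 152) (nat_lit 2225496832442) (nat_lit 0) (nat_lit 1931341734679) (nat_lit 1) (nat_lit 5) (nat_lit 3) (nat_lit 4) (nat_lit 1) (nat_lit 4) (nat_lit 322) (nat_lit 244) (nat_lit 214)) (XT.nd (nat_lit 78) (nat_lit 0) (nat_lit 0) (XT.lf (nat_lit 0) (nat_lit 2224442859650) (nat_lit 152) (nat_lit 2555295293377) (nat_lit 0) (nat_lit 2223075184871) (nat_lit 1) (nat_lit 5) (nat_lit 3) (nat_lit 4) (nat_lit 1) (nat_lit 4) (nat_lit 323) (nat_lit 244) (nat_lit 213)) (XT.lf (nat_lit 0) (nat_lit 2559932167015) (nat_lit 152) (nat_lit 2934577944162) (nat_lit 0) (nat_lit 2558562118214) (nat_lit 1) (nat_lit 5) (nat_lit 3) (nat_lit 4) (nat_lit 1) (nat_lit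 4) (nat_lit 324) (nat_lit 244) (nat_lit 212)))) (XT.nd (nat_lit 78) (nat_lit 0) (nat_lit 0) (XT.lf (nat_lit 0) (nat_lit 2945738522657) (nat_lit 152) (nat_lit 3370765532311) (nat_lit 0) (nat_lit 2944366409490) (nat_lit 1) (nat_lit 5) (nat_lit 3) (nat_lit 4) (nat_lit 1) (nat_lit 4) (nat_lit 325) (nat_lit 244) (nat_lit 211)) (XT.nd (nat_lit 78) (nat_lit 0) (nat_lit 0) (XT.lf (nat_lit 0) (nat_lit 3389410311798) (nat_lit 152) (nat_lit 3872392162812) (nat_lit 0) (nat_lit 3388036403529) (nat_lit 1) (nat_lit 5) (nat_lit 3) (nat_lit 4) (nat_lit 1) (nat_lit 4) (nat_lit 326) (nat_lit 244) (nat_lit 210)) (XT.lf (nat_lit 0) (nat_lit 3899628069440) (nat_lit 152) (nat_lit 4449272269737) (nat_lit 0) (nat_lit 3898252600214) (nat_lit 1) (nat_lit 5) (nat_lit 3) (nat_lit 4) (nat_lit 1) (nat_lit 4) (nat_lit 327) (nat_lit 244) (nat_lit 209))))) (XT.nd (nat_lit 37674) (nat_lit 0) (nat_lit 0) (XT.nd (nat_lit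 78) (nat_lit 0) (nat_lit 0) (XT.lf (nat_lit 0) (nat_lit 4486374316930) (nat_lit 152) (nat_lit 5112692637790) (nat_lit 0) (nat_lit 4484997490350) (nat_lit 1) (nat_lit 5) (nat_lit 3) (nat_lit 4) (nat_lit 1) (nat_lit 4) (nat_lit 328) (nat_lit 244) (nat_lit 208)) (XT.nd (nat_lit 78) (nat_lit 0) (nat_lit 0) (XT.lf (nat_lit 0) (nat_lit 5161128872153) (nat_lit 152) (nat_lit 5875633230691) (nat_lit 0) (nat_lit 5159750865265) (nat_lit 1) (nat_lit 5) (nat_lit 3) (nat_lit 4) (nat_lit 1) (nat_lit 4) (nat_lit 329) (nat_lit 244) (nat_lit 207)) (XT.lf (nat_lit 0) (nat_lit 5937093454668) (nat_lit 152) (nat_lit 6753021146998) (nat_lit 0) (nat_lit 5935714421425) (nat_lit 1) (nat_lit 5) (nat_lit 3) (nat_lit 4) (nat_lit 1) (nat_lit 4) (nat_lit 330) (nat_lit 244) (nat_lit 206)))) (XT.nd (nat_lit 156) (nat_lit 152) (nat_lit 0) (XT.nd (nat_lit 78) (nat_lit 0) (nat_lit 0) (XT.lf (nat_lit 0) (nat_lit 29537726335)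 (nat_lit 76) (nat_lit 3211249619) (nat_lit 76) (nat_lit 3211249619) (nat_lit 3) (nat_lit 4) (nat_lit 4) (nat_lit 5) (nat_lit 4) (nat_lit 4) (nat_lit 290) (nat_lit 245) (nat_lit 245)) (XT.lf (nat_lit 0) (nat_lit 79541748804) (nat_lit 76) (nat_lit 1457136001) (nat_lit 76) (nat_lit 1232624153) (nat_lit 3) (nat_lit 4) (nat_lit 4) (nat_lit 5) (nat_lit 4) (nat_lit 4) (nat_lit 291) (nat_lit 245) (nat_lit 244))) (XT.nd (nat_lit 78) (nat_lit 0) (nat_lit 0) (XT.lf (nat_lit 0) (nat_lit 4278743748) (nat_lit 152) (nat_lit 85929058628) (nat_lit 0) (nat_lit 3890096023) (nat_lit 1) (nat_lit 5) (nat_lit 3) (nat_lit 4) (nat_lit 1) (nat_lit 4) (nat_lit 292) (nat_lit 245) (nat_lit 243)) (XT.lf (nat_lit 0) (nat_lit 10183205167) (nat_lit 152) (nat_lit 87950114965) (nat_lit 0) (nat_lit 9637369282) (nat_lit 1) (nat_lit 5) (nat_lit 3) (nat_lit 4) (nat_lit 1) (nat_lit 4) (nat_lit 293) (nat_lit 245) (nat_lit 242))))))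 (XT.nd (nat_lit 546) (nat_lit 0) (nat_lit 0) (XT.nd (nat_lit 234) (nat_lit 0) (nat_lit 0) (XT.nd (nat_lit 78) (nat_lit 0) (nat_lit 0) (XT.lf (nat_lit 0) (nat_lit 16553034972) (nat_lit 152) (nat_lit 91104608647) (nat_lit 0) (nat_lit 15870513730) (nat_lit 1) (nat_lit 5) (nat_lit 3) (nat_lit 4) (nat_lit 1) (nat_lit 4) (nat_lit 294) (nat_lit 245) (nat_lit 241)) (XT.nd (nat_lit 78) (nat_lit 0) (nat_lit 0) (XT.lf (nat_lit 0) (nat_lit 23512860266) (nat_lit 152) (nat_lit 95454258029) (nat_lit 0) (nat_lit 22711482193) (nat_lit 1) (nat_lit 5) (nat_lit 3) (nat_lit 4) (nat_lit 1) (nat_lit 4) (nat_lit 295) (nat_lit 245) (nat_lit 240)) (XT.lf (nat_lit 0) (nat_lit 31198851545) (nat_lit 152) (nat_lit 101084164946) (nat_lit 0) (nat_lit 30294119705) (nat_lit 1) (nat_lit 5) (nat_lit 3) (nat_lit 4) (nat_lit 1) (nat_lit 4) (nat_lit 296) (nat_lit 245) (nat_lit 239)))) (XT.nd (nat_lit 156) (nat_lit 0) (nat_lit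 0) (XT.nd (nat_lit 78) (nat_lit 0) (nat_lit 0) (XT.lf (nat_lit 0) (nat_lit 39761386900) (nat_lit 152) (nat_lit 108104479752) (nat_lit 0) (nat_lit 38766782219) (nat_lit 1) (nat_lit 5) (nat_lit 3) (nat_lit 4) (nat_lit 1) (nat_lit 4) (nat_lit 297) (nat_lit 245) (nat_lit 238)) (XT.lf (nat_lit 0) (nat_lit 49367994195) (nat_lit 152) (nat_lit 116652556431) (nat_lit 0) (nat_lit 48295239218) (nat_lit 1) (nat_lit 5) (nat_lit 3) (nat_lit 4) (nat_lit 1) (nat_lit 4) (nat_lit 298) (nat_lit 245) (nat_lit 237))) (XT.nd (nat_lit 78) (nat_lit 0) (nat_lit 0) (XT.lf (nat_lit 0) (nat_lit 60206628791) (nat_lit 152) (nat_lit 126895639962) (nat_lit 0) (nat_lit 59065917035) (nat_lit 1) (nat_lit 5) (nat_lit 3) (nat_lit 4) (nat_lit 1) (nat_lit 4) (nat_lit 299) (nat_lit 245) (nat_lit 236)) (XT.lf (nat_lit 0) (nat_lit 72489350929) (nat_lit 152) (nat_lit 139034138501) (nat_lit 0) (nat_lit 71289546322) (nat_lit 1) (nat_lit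 5) (nat_lit 3) (nat_lit 4) (nat_lit 1) (nat_lit 4) (nat_lit 300) (nat_lit 245) (nat_lit 235))))) (XT.nd (nat_lit 234) (nat_lit 0) (nat_lit 0) (XT.nd (nat_lit 78) (nat_lit 0) (nat_lit 0) (XT.lf (nat_lit 0) (nat_lit 86456474740) (nat_lit 152) (nat_lit 153305544411) (nat_lit 0) (nat_lit 85205285044) (nat_lit 1) (nat_lit 5) (nat_lit 3) (nat_lit 4) (nat_lit 1) (nat_lit 4) (nat_lit 301) (nat_lit 245) (nat_lit 234)) (XT.nd (nat_lit 78) (nat_lit 0) (nat_lit 0) (XT.lf (nat_lit 0) (nat_lit 102381270036) (nat_lit 152) (nat_lit 169989080850) (nat_lit 0) (nat_lit 101085397655) (nat_lit 1) (nat_lit 5) (nat_lit 3) (nat_lit 4) (nat_lit 1) (nat_lit 4) (nat_lit 302) (nat_lit 245) (nat_lit 233)) (XT.lf (nat_lit 0) (nat_lit 120575308899) (nat_lit 152) (nat_lit 189411164837) (nat_lit 0) (nat_lit 119240582009) (nat_lit 1) (nat_lit 5) (nat_lit 3) (nat_lit 4) (nat_lit 1) (nat_lit 4) (nat_lit 303) (nat_lit 245)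 (nat_lit 232)))) (XT.nd (nat_lit 156) (nat_lit 0) (nat_lit 0) (XT.nd (nat_lit 78) (nat_lit 0) (nat_lit 0) (XT.lf (nat_lit 0) (nat_lit 141394561656) (nat_lit 152) (nat_lit 211951793667) (nat_lit 0) (nat_lit 140026048236) (nat_lit 1) (nat_lit 5) (nat_lit 3) (nat_lit 4) (nat_lit 1) (nat_lit 4) (nat_lit 304) (nat_lit 245) (nat_lit 231)) (XT.lf (nat_lit 0) (nat_lit 165246361511) (nat_lit 152) (nat_lit 238051979642) (nat_lit 0) (nat_lit 163848468500) (nat_lit 1) (nat_lit 5) (nat_lit 3) (nat_lit 4) (nat_lit 1) (nat_lit 4) (nat_lit 305) (nat_lit 245) (nat_lit 230))) (XT.nd (nat_lit 78) (nat_lit 0) (nat_lit 0) (XT.lf (nat_lit 0) (nat_lit 192597374115) (nat_lit 152) (nat_lit 268222378576) (nat_lit 0) (nat_lit 191173933633) (nat_lit 1) (nat_lit 5) (nat_lit 3) (nat_lit 4) (nat_lit 1) (nat_lit 4) (nat_lit 306) (nat_lit 245) (nat_lit 229)) (XT.lf (nat_lit 0) (nat_lit 223982727974) (nat_lit 152) (nat_lit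 303053280881) (nat_lit 0) (nat_lit 222537072301) (nat_lit 1) (nat_lit 5) (nat_lit 3) (nat_lit 4) (nat_lit 1) (nat_lit 4) (nat_lit 307) (nat_lit 245) (nat_lit 228))))))))
noncomputable def xc8 : XT := (XT.nd (nat_lit 39312) (nat_lit 0) (nat_lit 0) (XT.nd (nat_lit 1014) (nat_lit 0) (nat_lit 0) (XT.nd (nat_lit 468) (nat_lit 0) (nat_lit 0) (XT.nd (nat_lit 234) (nat_lit 0) (nat_lit 0) (XT.nd (nat_lit 78) (nat_lit 0) (nat_lit 0) (XT.lf (nat_lit 0) (nat_lit 260016484360) (nat_lit 152) (nat_lit 343226160735) (nat_lit 0) (nat_lit 258551511129) (nat_lit 1) (nat_lit 5) (nat_lit 3) (nat_lit 4) (nat_lit 1) (nat_lit 4) (nat_lit 308) (nat_lit 245) (nat_lit 227)) (XT.nd (nat_lit 78) (nat_lit 0) (nat_lit 0) (XT.lf (nat_lit 0) (nat_lit 301403651551) (nat_lit 152) (nat_lit 389527009264) (nat_lit 0) (nat_lit 299921880443) (nat_lit 1) (nat_lit 5) (nat_lit 3) (nat_lit 4) (nat_lit 1) (nat_lit 4) (nat_lit 309)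 (nat_lit 245) (nat_lit 226)) (XT.lf (nat_lit 0) (nat_lit 348953978469) (nat_lit 152) (nat_lit 442861712635) (nat_lit 0) (nat_lit 347457600512) (nat_lit 1) (nat_lit 5) (nat_lit 3) (nat_lit 4) (nat_lit 1) (nat_lit 4) (nat_lit 310) (nat_lit 245) (nat_lit 225)))) (XT.nd (nat_lit 78) (nat_lit 0) (nat_lit 0) (XT.lf (nat_lit 0) (nat_lit 403597797597) (nat_lit 152) (nat_lit 504273775915) (nat_lit 0) (nat_lit 402088718032) (nat_lit 1) (nat_lit 5) (nat_lit 3) (nat_lit 4) (nat_lit 1) (nat_lit 4) (nat_lit 311) (nat_lit 245) (nat_lit 224)) (XT.nd (nat_lit 78) (nat_lit 0) (nat_lit 0) (XT.lf (nat_lit 0) (nat_lit 466404227136) (nat_lit 152) (nat_lit 574964739471) (nat_lit 0) (nat_lit 464884102695) (nat_lit 1) (nat_lit 5) (nat_lit 3) (nat_lit 4) (nat_lit 1) (nat_lit 4) (nat_lit 312) (nat_lit 245) (nat_lit 223)) (XT.lf (nat_lit 0) (nat_lit 538602088534) (nat_lit 152) (nat_lit 656317687373) (nat_lit 0) (nat_lit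 537072359853) (nat_lit 1) (nat_lit 5) (nat_lit 3) (nat_lit 4) (nat_lit 1) (nat_lit 4) (nat_lit 313) (nat_lit 245) (nat_lit 222))))) (XT.nd (nat_lit 234) (nat_lit 0) (nat_lit 0) (XT.nd (nat_lit 78) (nat_lit 0) (nat_lit 0) (XT.lf (nat_lit 0) (nat_lit 621603948644) (nat_lit 152) (nat_lit 749924307733) (nat_lit 0) (nat_lit 620065868449) (nat_lit 1) (nat_lit 5) (nat_lit 3) (nat_lit 4) (nat_lit 1) (nat_lit 4) (nat_lit 314) (nat_lit 245) (nat_lit 221)) (XT.nd (nat_lit 78) (nat_lit 0) (nat_lit 0) (XT.lf (nat_lit 0) (nat_lit 717033756902) (nat_lit 152) (nat_lit 857616034427) (nat_lit 0) (nat_lit 715488414522) (nat_lit 1) (nat_lit 5) (nat_lit 3) (nat_lit 4) (nat_lit 1) (nat_lit 4) (nat_lit 315) (nat_lit 245) (nat_lit 220)) (XT.lf (nat_lit 0) (nat_lit 826758618253) (nat_lit 152) (nat_lit 981499879499) (nat_lit 0) (nat_lit 825206960929) (nat_lit 1) (nat_lit 5) (nat_lit 3) (nat_lit 4) (nat_lit 1) (nat_lit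 4) (nat_lit 316) (nat_lit 245) (nat_lit 219)))) (XT.nd (nat_lit 156) (nat_lit 0) (nat_lit 0) (XT.nd (nat_lit 78) (nat_lit 0) (nat_lit 0) (XT.lf (nat_lit 0) (nat_lit 952925323463) (nat_lit 152) (nat_lit 1123999657309) (nat_lit 0) (nat_lit 951368174883) (nat_lit 1) (nat_lit 5) (nat_lit 3) (nat_lit 4) (nat_lit 1) (nat_lit 4) (nat_lit 317) (nat_lit 245) (nat_lit 218)) (XT.lf (nat_lit 0) (nat_lit 1098002351547) (nat_lit 152) (nat_lit 1287903406988) (nat_lit 0) (nat_lit 1096440427962) (nat_lit 1) (nat_lit 5) (nat_lit 3) (nat_lit 4) (nat_lit 1) (nat_lit 4) (nat_lit 318) (nat_lit 245) (nat_lit 217))) (XT.nd (nat_lit 78) (nat_lit 0) (nat_lit 0) (XT.lf (nat_lit 0) (nat_lit 1264828166096) (nat_lit 152) (nat_lit 1476417941030) (nat_lit 0) (nat_lit 1263262090333) (nat_lit 1) (nat_lit 5) (nat_lit 3) (nat_lit 4) (nat_lit 1) (nat_lit 4) (nat_lit 319) (nat_lit 245) (nat_lit 216)) (XT.lf (nat_lit 0) (nat_lit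 1456666750441) (nat_lit 152) (nat_lit 1693231587275) (nat_lit 0) (nat_lit 1455097064088) (nat_lit 1) (nat_lit 5) (nat_lit 3) (nat_lit 4) (nat_lit 1) (nat_lit 4) (nat_lit 320) (nat_lit 245) (nat_lit 215)))))) (XT.nd (nat_lit 468) (nat_lit 0) (nat_lit 0) (XT.nd (nat_lit 234) (nat_lit 0) (nat_lit 0) (XT.nd (nat_lit 78) (nat_lit 0) (nat_lit 0) (XT.lf (nat_lit 0) (nat_lit 1677271468186) (nat_lit 152) (nat_lit 1942586351845) (nat_lit 0) (nat_lit 1675698642190) (nat_lit 1) (nat_lit 5) (nat_lit 3) (nat_lit 4) (nat_lit 1) (nat_lit 4) (nat_lit 321) (nat_lit 245) (nat_lit 214)) (XT.nd (nat_lit 78) (nat_lit 0) (nat_lit 0) (XT.lf (nat_lit 0) (nat_lit 1930958498594) (nat_lit 152) (nat_lit 2229360914916) (nat_lit 0) (nat_lit 1929382942473) (nat_lit 1) (nat_lit 5) (nat_lit 3) (nat_lit 4) (nat_lit 1) (nat_lit 4) (nat_lit 322) (nat_lit 245) (nat_lit 213)) (XT.lf (nat_lit 0) (nat_lit 2222691283562) (nat_lit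 152) (nat_lit 2559166083158) (nat_lit 0) (nat_lit 2221113353420) (nat_lit 1) (nat_lit 5) (nat_lit 3) (nat_lit 4) (nat_lit 1) (nat_lit 4) (nat_lit 323) (nat_lit 245) (nat_lit 212)))) (XT.nd (nat_lit 78) (nat_lit 0) (nat_lit 0) (XT.lf (nat_lit 0) (nat_lit 2558177638449) (nat_lit 152) (nat_lit 2938454566383) (nat_lit 0) (nat_lit 2556597643940) (nat_lit 1) (nat_lit 5) (nat_lit 3) (nat_lit 4) (nat_lit 1) (nat_lit 4) (nat_lit 324) (nat_lit 245) (nat_lit 211)) (XT.nd (nat_lit 78) (nat_lit 0) (nat_lit 0) (XT.lf (nat_lit 0) (nat_lit 2943981426720) (nat_lit 152) (nat_lit 3374647226220) (nat_lit 0) (nat_lit 2942399637110) (nat_lit 1) (nat_lit 5) (nat_lit 3) (nat_lit 4) (nat_lit 1) (nat_lit 4) (nat_lit 325) (nat_lit 245) (nat_lit 210)) (XT.lf (nat_lit 0) (nat_lit 3387650983363) (nat_lit 152) (nat_lit 3876278266883) (nat_lit 0) (nat_lit 3386067632796) (nat_lit 1) (nat_lit 5) (nat_lit 3) (nat_lit 4)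 (nat_lit 1) (nat_lit 4) (nat_lit 326) (nat_lit 245) (nat_lit 209))))) (XT.nd (nat_lit 234) (nat_lit 0) (nat_lit 0) (XT.nd (nat_lit 78) (nat_lit 0) (nat_lit 0) (XT.lf (nat_lit 0) (nat_lit 3897866799704) (nat_lit 152) (nat_lit 4453162208733) (nat_lit 0) (nat_lit 3896282091782) (nat_lit 1) (nat_lit 5) (nat_lit 3) (nat_lit 4) (nat_lit 1) (nat_lit 4) (nat_lit 327) (nat_lit 245) (nat_lit 208)) (XT.nd (nat_lit 78) (nat_lit 0) (nat_lit 0) (XT.lf (nat_lit 0) (nat_lit 4484611359105) (nat_lit 152) (nat_lit 5116585911503) (nat_lit 0) (nat_lit 4483025470875) (nat_lit 1) (nat_lit 5) (nat_lit 3) (nat_lit 4) (nat_lit 1) (nat_lit 4) (nat_lit 328) (nat_lit 245) (nat_lit 207)) (XT.lf (nat_lit 0) (nat_lit 5159364446425) (nat_lit 152) (nat_lit 5879529404158) (nat_lit 0) (nat_lit 5157777531840) (nat_lit 1) (nat_lit 5) (nat_lit 3) (nat_lit 4) (nat_lit 1) (nat_lit 4) (nat_lit 329) (nat_lit 245) (nat_lit 206))))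 (XT.nd (nat_lit 37440) (nat_lit 0) (nat_lit 152) (XT.nd (nat_lit 37362) (nat_lit 0) (nat_lit 152) (XT.lf (nat_lit 0) (nat_lit 5935327752503) (nat_lit 152) (nat_lit 6756919841990) (nat_lit 0) (nat_lit 5933739945436) (nat_lit 1) (nat_lit 5) (nat_lit 3) (nat_lit 4) (nat_lit 1) (nat_lit 4) (nat_lit 330) (nat_lit 245) (nat_lit 205)) (XT.lf (nat_lit 0) (nat_lit 11715980283) (nat_lit 76) (nat_lit 7955795003) (nat_lit 76) (nat_lit 7955795003) (nat_lit 3) (nat_lit 4) (nat_lit 4) (nat_lit 5) (nat_lit 4) (nat_lit 4) (nat_lit 288) (nat_lit 246) (nat_lit 246))) (XT.nd (nat_lit 78) (nat_lit 0) (nat_lit 0) (XT.lf (nat_lit 0) (nat_lit 40292479621) (nat_lit 76) (nat_lit 11480279667) (nat_lit 76) (nat_lit 11222091041) (nat_lit 3) (nat_lit 4) (nat_lit 4) (nat_lit 5) (nat_lit 4) (nat_lit 4) (nat_lit 289) (nat_lit 246) (nat_lit 245)) (XT.lf (nat_lit 0) (nat_lit 58547953659) (nat_lit 76) (nat_lit 6938440114)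 (nat_lit 76) (nat_lit 6455739639) (nat_lit 3) (nat_lit 4) (nat_lit 4) (nat_lit 5) (nat_lit 4) (nat_lit 4) (nat_lit 290) (nat_lit 246) (nat_lit 244))))))) (XT.nd (nat_lit 1014) (nat_lit 0) (nat_lit 0) (XT.nd (nat_lit 468) (nat_lit 0) (nat_lit 0) (XT.nd (nat_lit 234) (nat_lit 0) (nat_lit 0) (XT.nd (nat_lit 78) (nat_lit 152) (nat_lit 0) (XT.lf (nat_lit 0) (nat_lit 78555555001) (nat_lit 76) (nat_lit 2197209268) (nat_lit 76) (nat_lit 1519281099) (nat_lit 3) (nat_lit 4) (nat_lit 4) (nat_lit 5) (nat_lit 4) (nat_lit 4) (nat_lit 291) (nat_lit 246) (nat_lit 243)) (XT.nd (nat_lit 78) (nat_lit 0) (nat_lit 0) (XT.lf (nat_lit 0) (nat_lit 3737147375) (nat_lit 152) (nat_lit 87471205130) (nat_lit 0) (nat_lit 2952247948) (nat_lit 1) (nat_lit 5) (nat_lit 3) (nat_lit 4) (nat_lit 1) (nat_lit 4) (nat_lit 292) (nat_lit 246) (nat_lit 242)) (XT.lf (nat_lit 0) (nat_lit 9446120038) (nat_lit 152) (nat_lit 89878437697)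 (nat_lit 0) (nat_lit 8524535253) (nat_lit 1) (nat_lit 5) (nat_lit 3) (nat_lit 4) (nat_lit 1) (nat_lit 4) (nat_lit 293) (nat_lit 246) (nat_lit 241)))) (XT.nd (nat_lit 78) (nat_lit 0) (nat_lit 0) (XT.lf (nat_lit 0) (nat_lit 15645959618) (nat_lit 152) (nat_lit 93368736797) (nat_lit 0) (nat_lit 14605518002) (nat_lit 1) (nat_lit 5) (nat_lit 3) (nat_lit 4) (nat_lit 1) (nat_lit 4) (nat_lit 294) (nat_lit 246) (nat_lit 240)) (XT.nd (nat_lit 78) (nat_lit 0) (nat_lit 0) (XT.lf (nat_lit 0) (nat_lit 22457967327) (nat_lit 152) (nat_lit 98010390890) (nat_lit 0) (nat_lit 21314171944) (nat_lit 1) (nat_lit 5) (nat_lit 3) (nat_lit 4) (nat_lit 1) (nat_lit 4) (nat_lit 295) (nat_lit 246) (nat_lit 239)) (XT.lf (nat_lit 0) (nat_lit 30015421575) (nat_lit 152) (nat_lit 103894214947) (nat_lit 0) (nat_lit 28781753352) (nat_lit 1) (nat_lit 5) (nat_lit 3) (nat_lit 4) (nat_lit 1) (nat_lit 4) (nat_lit 296) (nat_lit 246)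 (nat_lit 238))))) (XT.nd (nat_lit 234) (nat_lit 0) (nat_lit 0) (XT.nd (nat_lit 78) (nat_lit 0) (nat_lit 0) (XT.lf (nat_lit 0) (nat_lit 38466185598) (nat_lit 152) (nat_lit 111135327265) (nat_lit 0) (nat_lit 37154367079) (nat_lit 1) (nat_lit 5) (nat_lit 3) (nat_lit 4) (nat_lit 1) (nat_lit 4) (nat_lit 297) (nat_lit 246) (nat_lit 237)) (XT.nd (nat_lit 78) (nat_lit 0) (nat_lit 0) (XT.lf (nat_lit 0) (nat_lit 47975600431) (nat_lit 152) (nat_lit 119875401781) (nat_lit 0) (nat_lit 46595825132) (nat_lit 1) (nat_lit 5) (nat_lit 3) (nat_lit 4) (nat_lit 1) (nat_lit 4) (nat_lit 298) (nat_lit 246) (nat_lit 236)) (XT.lf (nat_lit 0) (nat_lit 58729719843) (nat_lit 152) (nat_lit 130285439954) (nat_lit 0) (nat_lit 57290851692) (nat_lit 1) (nat_lit 5) (nat_lit 3) (nat_lit 4) (nat_lit 1) (nat_lit 4) (nat_lit 299) (nat_lit 246) (nat_lit 235)))) (XT.nd (nat_lit 156) (nat_lit 0) (nat_lit 0) (XT.nd (nat_lit 78)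 (nat_lit 0) (nat_lit 0) (XT.lf (nat_lit 0) (nat_lit 70938950517) (nat_lit 152) (nat_lit 142569116441) (nat_lit 0) (nat_lit 69448697278) (nat_lit 1) (nat_lit 5) (nat_lit 3) (nat_lit 4) (nat_lit 1) (nat_lit 4) (nat_lit 300) (nat_lit 246) (nat_lit 234)) (XT.lf (nat_lit 0) (nat_lit 84842168706) (nat_lit 152) (nat_lit 156966764046) (nat_lit 0) (nat_lit 83307232782) (nat_lit 1) (nat_lit 5) (nat_lit 3) (nat_lit 4) (nat_lit 1) (nat_lit 4) (nat_lit 301) (nat_lit 246) (nat_lit 233))) (XT.nd (nat_lit 78) (nat_lit 0) (nat_lit 0) (XT.lf (nat_lit 0) (nat_lit 100711393896) (nat_lit 152) (nat_lit 173760075872) (nat_lit 0) (nat_lit 99137603463) (nat_lit 1) (nat_lit 5) (nat_lit 3) (nat_lit 4) (nat_lit 1) (nat_lit 4) (nat_lit 302) (nat_lit 246) (nat_lit 232)) (XT.lf (nat_lit 0) (nat_lit 118857110929) (nat_lit 152) (nat_lit 193277616717) (nat_lit 0) (nat_lit 117249533966) (nat_lit 1) (nat_lit 5) (nat_lit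 3) (nat_lit 4) (nat_lit 1) (nat_lit 4) (nat_lit 303) (nat_lit 246) (nat_lit 231)))))) (XT.nd (nat_lit 468) (nat_lit 0) (nat_lit 0) (XT.nd (nat_lit 234) (nat_lit 0) (nat_lit 0) (XT.nd (nat_lit 78) (nat_lit 0) (nat_lit 0) (XT.lf (nat_lit 0) (nat_lit 139634344701) (nat_lit 152) (nat_lit 215901251510) (nat_lit 0) (nat_lit 137997388148) (nat_lit 1) (nat_lit 5) (nat_lit 3) (nat_lit 4) (nat_lit 1) (nat_lit 4) (nat_lit 304) (nat_lit 246) (nat_lit 230)) (XT.nd (nat_lit 78) (nat_lit 0) (nat_lit 0) (XT.lf (nat_lit 0) (nat_lit 163449606310) (nat_lit 152) (nat_lit 242073616584) (nat_lit 0) (nat_lit 161787102286) (nat_lit 1) (nat_lit 5) (nat_lit 3) (nat_lit 4) (nat_lit 1) (nat_lit 4) (nat_lit 305) (nat_lit 246) (nat_lit 229)) (XT.lf (nat_lit 0) (nat_lit 190768846526) (nat_lit 152) (nat_lit 272306779951) (nat_lit 0) (nat_lit 189084127310) (nat_lit 1) (nat_lit 5) (nat_lit 3) (nat_lit 4) (nat_lit 1) (nat_lit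 4) (nat_lit 306) (nat_lit 246) (nat_lit 228)))) (XT.nd (nat_lit 78) (nat_lit 0) (nat_lit 0) (XT.lf (nat_lit 0) (nat_lit 222126572221) (nat_lit 152) (nat_lit 307192260025) (nat_lit 0) (nat_lit 220422535448) (nat_lit 1) (nat_lit 5) (nat_lit 3) (nat_lit 4) (nat_lit 1) (nat_lit 4) (nat_lit 307) (nat_lit 246) (nat_lit 227)) (XT.nd (nat_lit 78) (nat_lit 0) (nat_lit 0) (XT.lf (nat_lit 0) (nat_lit 258136304118) (nat_lit 152) (nat_lit 347412598808) (nat_lit 0) (nat_lit 256415469467) (nat_lit 1) (nat_lit 5) (nat_lit 3) (nat_lit 4) (nat_lit 1) (nat_lit 4) (nat_lit 308) (nat_lit 246) (nat_lit 226)) (XT.lf (nat_lit 0) (nat_lit 299502580447) (nat_lit 152) (nat_lit 393754715971) (nat_lit 0) (nat_lit 297767138948) (nat_lit 1) (nat_lit 5) (nat_lit 3) (nat_lit 4) (nat_lit 1) (nat_lit 4) (nat_lit 309) (nat_lit 246) (nat_lit 225))))) (XT.nd (nat_lit 234) (nat_lit 0) (nat_lit 0) (XT.nd (nat_lit 78) (nat_lit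 0) (nat_lit 0) (XT.lf (nat_lit 0) (nat_lit 347034741399) (nat_lit 152) (nat_lit 447125305110) (nat_lit 0) (nat_lit 345286598291) (nat_lit 1) (nat_lit 5) (nat_lit 3) (nat_lit 4) (nat_lit 1) (nat_lit 4) (nat_lit 310) (nat_lit 246) (nat_lit 224)) (XT.nd (nat_lit 78) (nat_lit 0) (nat_lit 0) (XT.lf (nat_lit 0) (nat_lit 401662764035) (nat_lit 152) (nat_lit 508568573406) (nat_lit 0) (nat_lit 399903576051) (nat_lit 1) (nat_lit 5) (nat_lit 3) (nat_lit 4) (nat_lit 1) (nat_lit 4) (nat_lit 311) (nat_lit 246) (nat_lit 223)) (XT.lf (nat_lit 0) (nat_lit 464455457494) (nat_lit 152) (nat_lit 579286671759) (nat_lit 0) (nat_lit 462686665270) (nat_lit 1) (nat_lit 5) (nat_lit 3) (nat_lit 4) (nat_lit 1) (nat_lit 4) (nat_lit 312) (nat_lit 246) (nat_lit 222)))) (XT.nd (nat_lit 156) (nat_lit 0) (nat_lit 0) (XT.nd (nat_lit 78) (nat_lit 0) (nat_lit 0) (XT.lf (nat_lit 0) (nat_lit 536641374474) (nat_lit 152) (nat_lit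 660663215137) (nat_lit 0) (nat_lit 534864230737) (nat_lit 1) (nat_lit 5) (nat_lit 3) (nat_lit 4) (nat_lit 1) (nat_lit 4) (nat_lit 313) (nat_lit 246) (nat_lit 221)) (XT.lf (nat_lit 0) (nat_lit 619632848134) (nat_lit 152) (nat_lit 754290353301) (nat_lit 0) (nat_lit 617848442210) (nat_lit 1) (nat_lit 5) (nat_lit 3) (nat_lit 4) (nat_lit 1) (nat_lit 4) (nat_lit 314) (nat_lit 246) (nat_lit 220))) (XT.nd (nat_lit 78) (nat_lit 0) (nat_lit 0) (XT.lf (nat_lit 0) (nat_lit 715053624696) (nat_lit 152) (nat_lit 861999921564) (nat_lit 0) (nat_lit 713262903829) (nat_lit 1) (nat_lit 5) (nat_lit 3) (nat_lit 4) (nat_lit 1) (nat_lit 4) (nat_lit 315) (nat_lit 246) (nat_lit 219)) (XT.lf (nat_lit 0) (nat_lit 824770632399) (nat_lit 152) (nat_lit 985899281044) (nat_lit 0) (nat_lit 822974420276) (nat_lit 1) (nat_lit 5) (nat_lit 3) (nat_lit 4) (nat_lit 1) (nat_lit 4) (nat_lit 316) (nat_lit 246) (nat_lit 218))))))))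
noncomputable def xc9 : XT := (XT.nd (nat_lit 39156) (nat_lit 0) (nat_lit 0) (XT.nd (nat_lit 1014) (nat_lit 0) (nat_lit 0) (XT.nd (nat_lit 468) (nat_lit 0) (nat_lit 0) (XT.nd (nat_lit 234) (nat_lit 0) (nat_lit 0) (XT.nd (nat_lit 78) (nat_lit 0) (nat_lit 0) (XT.lf (nat_lit 0) (nat_lit 950930508349) (nat_lit 152) (nat_lit 1128412549644) (nat_lit 0) (nat_lit 949129521222) (nat_lit 1) (nat_lit 5) (nat_lit 3) (nat_lit 4) (nat_lit 1) (nat_lit 4) (nat_lit 317) (nat_lit 246) (nat_lit 217)) (XT.nd (nat_lit 78) (nat_lit 0) (nat_lit 0) (XT.lf (nat_lit 0) (nat_lit 1096001597946) (nat_lit 152) (nat_lit 1292328030444) (nat_lit 0) (nat_lit 1094196458640) (nat_lit 1) (nat_lit 5) (nat_lit 3) (nat_lit 4) (nat_lit 1) (nat_lit 4) (nat_lit 318) (nat_lit 246) (nat_lit 216)) (XT.lf (nat_lit 0) (nat_lit 1262822248595) (nat_lit 152) (nat_lit 1480852765461) (nat_lit 0) (nat_lit 1261013498699) (nat_lit 1) (nat_lit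 5) (nat_lit 3) (nat_lit 4) (nat_lit 1) (nat_lit 4) (nat_lit 319) (nat_lit 246) (nat_lit 215)))) (XT.nd (nat_lit 78) (nat_lit 0) (nat_lit 0) (XT.lf (nat_lit 0) (nat_lit 1454656342590) (nat_lit 152) (nat_lit 1697675282119) (nat_lit 0) (nat_lit 1452844453051) (nat_lit 1) (nat_lit 5) (nat_lit 3) (nat_lit 4) (nat_lit 1) (nat_lit 4) (nat_lit 320) (nat_lit 246) (nat_lit 214)) (XT.nd (nat_lit 78) (nat_lit 0) (nat_lit 0) (XT.lf (nat_lit 0) (nat_lit 1675257155684) (nat_lit 152) (nat_lit 1947037760092) (nat_lit 0) (nat_lit 1673442536021) (nat_lit 1) (nat_lit 5) (nat_lit 3) (nat_lit 4) (nat_lit 1) (nat_lit 4) (nat_lit 321) (nat_lit 246) (nat_lit 213)) (XT.lf (nat_lit 0) (nat_lit 1928940790743) (nat_lit 152) (nat_lit 2233819030470) (nat_lit 0) (nat_lit 1927123797058) (nat_lit 1) (nat_lit 5) (nat_lit 3) (nat_lit 4) (nat_lit 1) (nat_lit 4) (nat_lit 322) (nat_lit 246) (nat_lit 212))))) (XT.nd (nat_lit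 234) (nat_lit 0) (nat_lit 0) (XT.nd (nat_lit 78) (nat_lit 0) (nat_lit 0) (XT.lf (nat_lit 0) (nat_lit 2220670623234) (nat_lit 152) (nat_lit 2563630031152) (nat_lit 0) (nat_lit 2218851565182) (nat_lit 1) (nat_lit 5) (nat_lit 3) (nat_lit 4) (nat_lit 1) (nat_lit 4) (nat_lit 323) (nat_lit 246) (nat_lit 211)) (XT.nd (nat_lit 78) (nat_lit 0) (nat_lit 0) (XT.lf (nat_lit 0) (nat_lit 2556154410749) (nat_lit 152) (nat_lit 2942923586065) (nat_lit 0) (nat_lit 2554333557597) (nat_lit 1) (nat_lit 5) (nat_lit 3) (nat_lit 4) (nat_lit 1) (nat_lit 4) (nat_lit 324) (nat_lit 246) (nat_lit 210)) (XT.lf (nat_lit 0) (nat_lit 2941955966523) (nat_lit 152) (nat_lit 3379120656065) (nat_lit 0) (nat_lit 2940133552413) (nat_lit 1) (nat_lit 5) (nat_lit 3) (nat_lit 4) (nat_lit 1) (nat_lit 4) (nat_lit 325) (nat_lit 246) (nat_lit 209)))) (XT.nd (nat_lit 156) (nat_lit 0) (nat_lit 0) (XT.nd (nat_lit 78) (nat_lit 0) (nat_lit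 0) (XT.lf (nat_lit 0) (nat_lit 3385623581864) (nat_lit 152) (nat_lit 3880755531653) (nat_lit 0) (nat_lit 3383799810400) (nat_lit 1) (nat_lit 5) (nat_lit 3) (nat_lit 4) (nat_lit 1) (nat_lit 4) (nat_lit 326) (nat_lit 246) (nat_lit 208)) (XT.lf (nat_lit 0) (nat_lit 3895837710116) (nat_lit 152) (nat_lit 4457642808220) (nat_lit 0) (nat_lit 3894012758344) (nat_lit 1) (nat_lit 5) (nat_lit 3) (nat_lit 4) (nat_lit 1) (nat_lit 4) (nat_lit 327) (nat_lit 246) (nat_lit 207))) (XT.nd (nat_lit 78) (nat_lit 0) (nat_lit 0) (XT.lf (nat_lit 0) (nat_lit 4482580801615) (nat_lit 152) (nat_lit 5121069410743) (nat_lit 0) (nat_lit 4480754823487) (nat_lit 1) (nat_lit 5) (nat_lit 3) (nat_lit 4) (nat_lit 1) (nat_lit 4) (nat_lit 328) (nat_lit 246) (nat_lit 206)) (XT.lf (nat_lit 0) (nat_lit 5157332612498) (nat_lit 152) (nat_lit 5884015424923) (nat_lit 0) (nat_lit 5155505741888) (nat_lit 1) (nat_lit 5) (nat_lit 3) (nat_lit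 4) (nat_lit 1) (nat_lit 4) (nat_lit 329) (nat_lit 246) (nat_lit 205)))))) (XT.nd (nat_lit 37596) (nat_lit 0) (nat_lit 0) (XT.nd (nat_lit 37362) (nat_lit 0) (nat_lit 152) (XT.nd (nat_lit 37206) (nat_lit 0) (nat_lit 152) (XT.lf (nat_lit 0) (nat_lit 5933294808630) (nat_lit 152) (nat_lit 6761408055386) (nat_lit 0) (nat_lit 5931467161948) (nat_lit 1) (nat_lit 5) (nat_lit 3) (nat_lit 4) (nat_lit 1) (nat_lit 4) (nat_lit 330) (nat_lit 246) (nat_lit 204)) (XT.nd (nat_lit 78) (nat_lit 76) (nat_lit 0) (XT.lf (nat_lit 0) (nat_lit 9100490512) (nat_lit 152) (nat_lit 3184925277) (nat_lit 0) (nat_lit 9100490512) (nat_lit 4) (nat_lit 5) (nat_lit 6) (nat_lit 4) (nat_lit 4) (nat_lit 4) (nat_lit 286) (nat_lit 247) (nat_lit 247)) (XT.lf (nat_lit 0) (nat_lit 7636516778) (nat_lit 76) (nat_lit 20615987602) (nat_lit 76) (nat_lit 20319070683) (nat_lit 3) (nat_lit 4) (nat_lit 4) (nat_lit 5) (nat_lit 4) (nat_lit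 4) (nat_lit 287) (nat_lit 247) (nat_lit 246)))) (XT.nd (nat_lit 78) (nat_lit 0) (nat_lit 0) (XT.lf (nat_lit 0) (nat_lit 22825336705) (nat_lit 76) (nat_lit 16504922014) (nat_lit 76) (nat_lit 15949816468) (nat_lit 3) (nat_lit 4) (nat_lit 4) (nat_lit 5) (nat_lit 4) (nat_lit 4) (nat_lit 288) (nat_lit 247) (nat_lit 245)) (XT.nd (nat_lit 78) (nat_lit 0) (nat_lit 0) (XT.lf (nat_lit 0) (nat_lit 39158356748) (nat_lit 76) (nat_lit 12331363924) (nat_lit 76) (nat_lit 11551746529) (nat_lit 3) (nat_lit 4) (nat_lit 4) (nat_lit 5) (nat_lit 4) (nat_lit 4) (nat_lit 289) (nat_lit 247) (nat_lit 244)) (XT.lf (nat_lit 0) (nat_lit 56955135995) (nat_lit 76) (nat_lit 8013656762) (nat_lit 76) (nat_lit 7038811673) (nat_lit 3) (nat_lit 4) (nat_lit 4) (nat_lit 5) (nat_lit 4) (nat_lit 4) (nat_lit 290) (nat_lit 247) (nat_lit 243))))) (XT.nd (nat_lit 234) (nat_lit 0) (nat_lit 0) (XT.nd (nat_lit 78) (nat_lit 152) (nat_lit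 0) (XT.lf (nat_lit 0) (nat_lit 76563872300) (nat_lit 76) (nat_lit 3467323648) (nat_lit 76) (nat_lit 2322715346) (nat_lit 3) (nat_lit 4) (nat_lit 4) (nat_lit 5) (nat_lit 4) (nat_lit 4) (nat_lit 291) (nat_lit 247) (nat_lit 242)) (XT.nd (nat_lit 78) (nat_lit 0) (nat_lit 0) (XT.lf (nat_lit 0) (nat_lit 2694010719) (nat_lit 152) (nat_lit 90074952503) (nat_lit 0) (nat_lit 1497502861) (nat_lit 1) (nat_lit 5) (nat_lit 3) (nat_lit 4) (nat_lit 1) (nat_lit 4) (nat_lit 292) (nat_lit 247) (nat_lit 241)) (XT.lf (nat_lit 0) (nat_lit 8232993158) (nat_lit 152) (nat_lit 92817990487) (nat_lit 0) (nat_lit 6917628468) (nat_lit 1) (nat_lit 5) (nat_lit 3) (nat_lit 4) (nat_lit 1) (nat_lit 4) (nat_lit 293) (nat_lit 247) (nat_lit 240)))) (XT.nd (nat_lit 156) (nat_lit 0) (nat_lit 0) (XT.nd (nat_lit 78) (nat_lit 0) (nat_lit 0) (XT.lf (nat_lit 0) (nat_lit 14285015153) (nat_lit 152) (nat_lit 96600294298) (nat_lit 0)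 (nat_lit 12866296696) (nat_lit 1) (nat_lit 5) (nat_lit 3) (nat_lit 4) (nat_lit 1) (nat_lit 4) (nat_lit 294) (nat_lit 247) (nat_lit 239)) (XT.lf (nat_lit 0) (nat_lit 20968485830) (nat_lit 152) (nat_lit 101495865530) (nat_lit 0) (nat_lit 19459894533) (nat_lit 1) (nat_lit 5) (nat_lit 3) (nat_lit 4) (nat_lit 1) (nat_lit 4) (nat_lit 295) (nat_lit 247) (nat_lit 238))) (XT.nd (nat_lit 78) (nat_lit 0) (nat_lit 0) (XT.lf (nat_lit 0) (nat_lit 28414168747) (nat_lit 152) (nat_lit 107600487100) (nat_lit 0) (nat_lit 26827427154) (nat_lit 1) (nat_lit 5) (nat_lit 3) (nat_lit 4) (nat_lit 1) (nat_lit 4) (nat_lit 296) (nat_lit 247) (nat_lit 237)) (XT.lf (nat_lit 0) (nat_lit 36767740308) (nat_lit 152) (nat_lit 115033597256) (nat_lit 0) (nat_lit 35113041935) (nat_lit 1) (nat_lit 5) (nat_lit 3) (nat_lit 4) (nat_lit 1) (nat_lit 4) (nat_lit 297) (nat_lit 247) (nat_lit 236))))))) (XT.nd (nat_lit 1014) (nat_lit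 0) (nat_lit 0) (XT.nd (nat_lit 468) (nat_lit 0) (nat_lit 0) (XT.nd (nat_lit 234) (nat_lit 0) (nat_lit 0) (XT.nd (nat_lit 78) (nat_lit 0) (nat_lit 0) (XT.lf (nat_lit 0) (nat_lit 46192639956) (nat_lit 152) (nat_lit 123940626413) (nat_lit 0) (nat_lit 44478848732) (nat_lit 1) (nat_lit 5) (nat_lit 3) (nat_lit 4) (nat_lit 1) (nat_lit 4) (nat_lit 298) (nat_lit 247) (nat_lit 235)) (XT.nd (nat_lit 78) (nat_lit 0) (nat_lit 0) (XT.lf (nat_lit 0) (nat_lit 56873267903) (nat_lit 152) (nat_lit 134495842534) (nat_lit 0) (nat_lit 55108091591) (nat_lit 1) (nat_lit 5) (nat_lit 3) (nat_lit 4) (nat_lit 1) (nat_lit 4) (nat_lit 299) (nat_lit 247) (nat_lit 234)) (XT.lf (nat_lit 0) (nat_lit 69018592956) (nat_lit 152) (nat_lit 146905760716) (nat_lit 0) (nat_lit 67208733958) (nat_lit 1) (nat_lit 5) (nat_lit 3) (nat_lit 4) (nat_lit 1) (nat_lit 4) (nat_lit 300) (nat_lit 247) (nat_lit 233)))) (XT.nd (nat_lit 78) (nat_lit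 0) (nat_lit 0) (XT.lf (nat_lit 0) (nat_lit 82866241039) (nat_lit 152) (nat_lit 161413183708) (nat_lit 0) (nat_lit 81017527532) (nat_lit 1) (nat_lit 5) (nat_lit 3) (nat_lit 4) (nat_lit 1) (nat_lit 4) (nat_lit 301) (nat_lit 247) (nat_lit 232)) (XT.nd (nat_lit 78) (nat_lit 0) (nat_lit 0) (XT.lf (nat_lit 0) (nat_lit 98687144399) (nat_lit 152) (nat_lit 178301952392) (nat_lit 0) (nat_lit 96804644362) (nat_lit 1) (nat_lit 5) (nat_lit 3) (nat_lit 4) (nat_lit 1) (nat_lit 4) (nat_lit 302) (nat_lit 247) (nat_lit 231)) (XT.lf (nat_lit 0) (nat_lit 116790842448) (nat_lit 152) (nat_lit 197902499200) (nat_lit 0) (nat_lit 114878962820) (nat_lit 1) (nat_lit 5) (nat_lit 3) (nat_lit 4) (nat_lit 1) (nat_lit 4) (nat_lit 303) (nat_lit 247) (nat_lit 230))))) (XT.nd (nat_lit 234) (nat_lit 0) (nat_lit 0) (XT.nd (nat_lit 78) (nat_lit 0) (nat_lit 0) (XT.lf (nat_lit 0) (nat_lit 137531537974) (nat_lit 152) (nat_lit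 220598313092) (nat_lit 0) (nat_lit 135594110876) (nat_lit 1) (nat_lit 5) (nat_lit 3) (nat_lit 4) (nat_lit 1) (nat_lit 4) (nat_lit 304) (nat_lit 247) (nat_lit 229)) (XT.nd (nat_lit 78) (nat_lit 0) (nat_lit 0) (XT.lf (nat_lit 0) (nat_lit 161315027195) (nat_lit 152) (nat_lit 246833442599) (nat_lit 0) (nat_lit 159355384905) (nat_lit 1) (nat_lit 5) (nat_lit 3) (nat_lit 4) (nat_lit 1) (nat_lit 4) (nat_lit 305) (nat_lit 247) (nat_lit 228)) (XT.lf (nat_lit 0) (nat_lit 188606639246) (nat_lit 152) (nat_lit 277121183735) (nat_lit 0) (nat_lit 186627679399) (nat_lit 1) (nat_lit 5) (nat_lit 3) (nat_lit 4) (nat_lit 1) (nat_lit 4) (nat_lit 306) (nat_lit 247) (nat_lit 227)))) (XT.nd (nat_lit 156) (nat_lit 0) (nat_lit 0) (XT.nd (nat_lit 78) (nat_lit 0) (nat_lit 0) (XT.lf (nat_lit 0) (nat_lit 219940340452) (nat_lit 152) (nat_lit 312054122738) (nat_lit 0) (nat_lit 217944582728) (nat_lit 1) (nat_lit 5) (nat_lit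 3) (nat_lit 4) (nat_lit 1) (nat_lit 4) (nat_lit 307) (nat_lit 247) (nat_lit 226)) (XT.lf (nat_lit 0) (nat_lit 255929181487) (nat_lit 152) (nat_lit 352315730154) (nat_lit 0) (nat_lit 253918816914) (nat_lit 1) (nat_lit 5) (nat_lit 3) (nat_lit 4) (nat_lit 1) (nat_lit 4) (nat_lit 308) (nat_lit 247) (nat_lit 225))) (XT.nd (nat_lit 78) (nat_lit 0) (nat_lit 0) (XT.lf (nat_lit 0) (nat_lit 297277291850) (nat_lit 152) (nat_lit 398693733086) (nat_lit 0) (nat_lit 295254225669) (nat_lit 1) (nat_lit 5) (nat_lit 3) (nat_lit 4) (nat_lit 1) (nat_lit 4) (nat_lit 309) (nat_lit 247) (nat_lit 224)) (XT.lf (nat_lit 0) (nat_lit 344793656310) (nat_lit 152) (nat_lit 452095527242) (nat_lit 0) (nat_lit 342759545252) (nat_lit 1) (nat_lit 5) (nat_lit 3) (nat_lit 4) (nat_lit 1) (nat_lit 4) (nat_lit 310) (nat_lit 247) (nat_lit 223)))))) (XT.nd (nat_lit 468) (nat_lit 0) (nat_lit 0) (XT.nd (nat_lit 234) (nat_lit 0) (nat_lit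 0) (XT.nd (nat_lit 78) (nat_lit 0) (nat_lit 0) (XT.lf (nat_lit 0) (nat_lit 399407942866) (nat_lit 152) (nat_lit 513565930334) (nat_lit 0) (nat_lit 397364227568) (nat_lit 1) (nat_lit 5) (nat_lit 3) (nat_lit 4) (nat_lit 1) (nat_lit 4) (nat_lit 311) (nat_lit 247) (nat_lit 222)) (XT.nd (nat_lit 78) (nat_lit 0) (nat_lit 0) (XT.lf (nat_lit 0) (nat_lit 462188691907) (nat_lit 152) (nat_lit 584307624162) (nat_lit 0) (nat_lit 460136625096) (nat_lit 1) (nat_lit 5) (nat_lit 3) (nat_lit 4) (nat_lit 1) (nat_lit 4) (nat_lit 312) (nat_lit 247) (nat_lit 221)) (XT.lf (nat_lit 0) (nat_lit 534364222437) (nat_lit 152) (nat_lit 665704685345) (nat_lit 0) (nat_lit 532304893440) (nat_lit 1) (nat_lit 5) (nat_lit 3) (nat_lit 4) (nat_lit 1) (nat_lit 4) (nat_lit 313) (nat_lit 247) (nat_lit 220)))) (XT.nd (nat_lit 78) (nat_lit 0) (nat_lit 0) (XT.lf (nat_lit 0) (nat_lit 617346664401) (nat_lit 152) (nat_lit 759349665078)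 (nat_lit 0) (nat_lit 615281020460) (nat_lit 1) (nat_lit 5) (nat_lit 3) (nat_lit 4) (nat_lit 1) (nat_lit 4) (nat_lit 314) (nat_lit 247) (nat_lit 219)) (XT.nd (nat_lit 78) (nat_lit 0) (nat_lit 0) (XT.lf (nat_lit 0) (nat_lit 712759587315) (nat_lit 152) (nat_lit 867074747749) (nat_lit 0) (nat_lit 710688452119) (nat_lit 1) (nat_lit 5) (nat_lit 3) (nat_lit 4) (nat_lit 1) (nat_lit 4) (nat_lit 315) (nat_lit 247) (nat_lit 218)) (XT.lf (nat_lit 0) (nat_lit 822469765759) (nat_lit 152) (nat_lit 990987598019) (nat_lit 0) (nat_lit 820393855557) (nat_lit 1) (nat_lit 5) (nat_lit 3) (nat_lit 4) (nat_lit 1) (nat_lit 4) (nat_lit 316) (nat_lit 247) (nat_lit 217))))) (XT.nd (nat_lit 234) (nat_lit 0) (nat_lit 0) (XT.nd (nat_lit 78) (nat_lit 0) (nat_lit 0) (XT.lf (nat_lit 0) (nat_lit 948623703223) (nat_lit 152) (nat_lit 1133512597740) (nat_lit 0) (nat_lit 946543640843) (nat_lit 1) (nat_lit 5) (nat_lit 3) (nat_lit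 4) (nat_lit 1) (nat_lit 4) (nat_lit 317) (nat_lit 247) (nat_lit 216)) (XT.nd (nat_lit 78) (nat_lit 0) (nat_lit 0) (XT.lf (nat_lit 0) (nat_lit 1093689628918) (nat_lit 152) (nat_lit 1297438279516) (nat_lit 0) (nat_lit 1091605955948) (nat_lit 1) (nat_lit 5) (nat_lit 3) (nat_lit 4) (nat_lit 1) (nat_lit 4) (nat_lit 318) (nat_lit 247) (nat_lit 215)) (XT.lf (nat_lit 0) (nat_lit 1260505789217) (nat_lit 152) (nat_lit 1485971884946) (nat_lit 0) (nat_lit 1258418976605) (nat_lit 1) (nat_lit 5) (nat_lit 3) (nat_lit 4) (nat_lit 1) (nat_lit 4) (nat_lit 319) (nat_lit 247) (nat_lit 214)))) (XT.nd (nat_lit 156) (nat_lit 0) (nat_lit 0) (XT.nd (nat_lit 78) (nat_lit 0) (nat_lit 0) (XT.lf (nat_lit 0) (nat_lit 1452335978562) (nat_lit 152) (nat_lit 1702802115007) (nat_lit 0) (nat_lit 1450246435824) (nat_lit 1) (nat_lit 5) (nat_lit 3) (nat_lit 4) (nat_lit 1) (nat_lit 4) (nat_lit 320) (nat_lit 247) (nat_lit 213))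 (XT.lf (nat_lit 0) (nat_lit 1672933396307) (nat_lit 152) (nat_lit 1952171300286) (nat_lit 0) (nat_lit 1670841479548) (nat_lit 1) (nat_lit 5) (nat_lit 3) (nat_lit 4) (nat_lit 1) (nat_lit 4) (nat_lit 321) (nat_lit 247) (nat_lit 212))) (XT.nd (nat_lit 78) (nat_lit 0) (nat_lit 0) (XT.lf (nat_lit 0) (nat_lit 1926614078888) (nat_lit 152) (nat_lit 2238958403105) (nat_lit 0) (nat_lit 1924520097763) (nat_lit 1) (nat_lit 5) (nat_lit 3) (nat_lit 4) (nat_lit 1) (nat_lit 4) (nat_lit 322) (nat_lit 247) (nat_lit 211)) (XT.lf (nat_lit 0) (nat_lit 2218341344007) (nat_lit 152) (nat_lit 2568774475475) (nat_lit 0) (nat_lit 2216245567781) (nat_lit 1) (nat_lit 5) (nat_lit 3) (nat_lit 4) (nat_lit 1) (nat_lit 4) (nat_lit 323) (nat_lit 247) (nat_lit 210))))))))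
noncomputable def xc10 : XT := (XT.nd (nat_lit 39000) (nat_lit 0) (nat_lit 0) (XT.nd (nat_lit 37986) (nat_lit 0) (nat_lit 0) (XT.nd (nat_lit 468) (nat_lit 0) (nat_lit 0) (XT.nd (nat_lit 234) (nat_lit 0) (nat_lit 0) (XT.nd (nat_lit 78) (nat_lit 0) (nat_lit 0) (XT.lf (nat_lit 0) (nat_lit 2553822899025) (nat_lit 152) (nat_lit 2948072440551) (nat_lit 0) (nat_lit 2551725561841) (nat_lit 1) (nat_lit 5) (nat_lit 3) (nat_lit 4) (nat_lit 1) (nat_lit 4) (nat_lit 324) (nat_lit 247) (nat_lit 209)) (XT.nd (nat_lit 78) (nat_lit 0) (nat_lit 0) (XT.lf (nat_lit 0) (nat_lit 2939622513498) (nat_lit 152) (nat_lit 3384273345475) (nat_lit 0) (nat_lit 2937523818959) (nat_lit 1) (nat_lit 5) (nat_lit 3) (nat_lit 4) (nat_lit 1) (nat_lit 4) (nat_lit 325) (nat_lit 247) (nat_lit 208)) (XT.lf (nat_lit 0) (nat_lit 3383288440750) (nat_lit 152) (nat_lit 3885911555780) (nat_lit 0) (nat_lit 3381188565904) (nat_lit 1) (nat_lit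 5) (nat_lit 3) (nat_lit 4) (nat_lit 1) (nat_lit 4) (nat_lit 326) (nat_lit 247) (nat_lit 207)))) (XT.nd (nat_lit 78) (nat_lit 0) (nat_lit 0) (XT.lf (nat_lit 0) (nat_lit 3893501101099) (nat_lit 152) (nat_lit 4462801732101) (nat_lit 0) (nat_lit 3891400199898) (nat_lit 1) (nat_lit 5) (nat_lit 3) (nat_lit 4) (nat_lit 1) (nat_lit 4) (nat_lit 327) (nat_lit 247) (nat_lit 206)) (XT.nd (nat_lit 78) (nat_lit 0) (nat_lit 0) (XT.lf (nat_lit 0) (nat_lit 4480242916161) (nat_lit 152) (nat_lit 5126230856149) (nat_lit 0) (nat_lit 4478141122476) (nat_lit 1) (nat_lit 5) (nat_lit 3) (nat_lit 4) (nat_lit 1) (nat_lit 4) (nat_lit 328) (nat_lit 247) (nat_lit 205)) (XT.lf (nat_lit 0) (nat_lit 5154993617098) (nat_lit 152) (nat_lit 5889179062959) (nat_lit 0) (nat_lit 5152891047342) (nat_lit 1) (nat_lit 5) (nat_lit 3) (nat_lit 4) (nat_lit 1) (nat_lit 4) (nat_lit 329) (nat_lit 247) (nat_lit 204))))) (XT.nd (nat_lit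 37206) (nat_lit 0) (nat_lit 152) (XT.nd (nat_lit 37050) (nat_lit 0) (nat_lit 228) (XT.lf (nat_lit 0) (nat_lit 5930954848060) (nat_lit 152) (nat_lit 6766573600057) (nat_lit 0) (nat_lit 5928851603459) (nat_lit 1) (nat_lit 5) (nat_lit 3) (nat_lit 4) (nat_lit 1) (nat_lit 4) (nat_lit 330) (nat_lit 247) (nat_lit 203)) (XT.nd (nat_lit 78) (nat_lit 0) (nat_lit 0) (XT.lf (nat_lit 0) (nat_lit 485967856) (nat_lit 152) (nat_lit 15749098625) (nat_lit 0) (nat_lit 485967856) (nat_lit 4) (nat_lit 5) (nat_lit 6) (nat_lit 4) (nat_lit 4) (nat_lit 4) (nat_lit 284) (nat_lit 248) (nat_lit 248)) (XT.lf (nat_lit 0) (nat_lit 9326101527) (nat_lit 152) (nat_lit 19456116108) (nat_lit 0) (nat_lit 8984647069) (nat_lit 4) (nat_lit 5) (nat_lit 6) (nat_lit 4) (nat_lit 4) (nat_lit 4) (nat_lit 285) (nat_lit 248) (nat_lit 247)))) (XT.nd (nat_lit 156) (nat_lit 0) (nat_lit 0) (XT.nd (nat_lit 78) (nat_lit 76) (nat_lit 0) (XT.lf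 (nat_lit 0) (nat_lit 18202473108) (nat_lit 152) (nat_lit 7032570345) (nat_lit 0) (nat_lit 17564101730) (nat_lit 4) (nat_lit 5) (nat_lit 6) (nat_lit 4) (nat_lit 4) (nat_lit 4) (nat_lit 286) (nat_lit 248) (nat_lit 246)) (XT.lf (nat_lit 0) (nat_lit 6332275474) (nat_lit 76) (nat_lit 21594734498) (nat_lit 76) (nat_lit 20698174494) (nat_lit 3) (nat_lit 4) (nat_lit 4) (nat_lit 5) (nat_lit 4) (nat_lit 4) (nat_lit 287) (nat_lit 248) (nat_lit 245))) (XT.nd (nat_lit 78) (nat_lit 0) (nat_lit 0) (XT.lf (nat_lit 0) (nat_lit 20993596390) (nat_lit 76) (nat_lit 17741421159) (nat_lit 76) (nat_lit 16620349307) (nat_lit 3) (nat_lit 4) (nat_lit 4) (nat_lit 5) (nat_lit 4) (nat_lit 4) (nat_lit 288) (nat_lit 248) (nat_lit 244)) (XT.lf (nat_lit 0) (nat_lit 36867921642) (nat_lit 76) (nat_lit 13791995461) (nat_lit 76) (nat_lit 12475695913) (nat_lit 3) (nat_lit 4) (nat_lit 4) (nat_lit 5) (nat_lit 4) (nat_lit 4) (nat_lit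 289) (nat_lit 248) (nat_lit 243)))))) (XT.nd (nat_lit 468) (nat_lit 0) (nat_lit 0) (XT.nd (nat_lit 234) (nat_lit 0) (nat_lit 0) (XT.nd (nat_lit 78) (nat_lit 152) (nat_lit 0) (XT.lf (nat_lit 0) (nat_lit 54265835852) (nat_lit 76) (nat_lit 9669186030) (nat_lit 76) (nat_lit 8183123270) (nat_lit 3) (nat_lit 4) (nat_lit 4) (nat_lit 5) (nat_lit 4) (nat_lit 4) (nat_lit 290) (nat_lit 248) (nat_lit 242)) (XT.nd (nat_lit 78) (nat_lit 152) (nat_lit 0) (XT.lf (nat_lit 0) (nat_lit 73527732996) (nat_lit 76) (nat_lit 5292329204) (nat_lit 76) (nat_lit 3658646259) (nat_lit 3) (nat_lit 4) (nat_lit 4) (nat_lit 5) (nat_lit 4) (nat_lit 4) (nat_lit 291) (nat_lit 248) (nat_lit 241)) (XT.lf (nat_lit 0) (nat_lit 612580922) (nat_lit 76) (nat_lit 529067753) (nat_lit 152) (nat_lit 93274899968) (nat_lit 1) (nat_lit 5) (nat_lit 2) (nat_lit 5) (nat_lit 3) (nat_lit 4) (nat_lit 292) (nat_lit 248) (nat_lit 240)))) (XT.nd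 (nat_lit 78) (nat_lit 0) (nat_lit 0) (XT.lf (nat_lit 0) (nat_lit 6520089436) (nat_lit 152) (nat_lit 96826286324) (nat_lit 0) (nat_lit 4785209444) (nat_lit 1) (nat_lit 5) (nat_lit 3) (nat_lit 4) (nat_lit 1) (nat_lit 4) (nat_lit 293) (nat_lit 248) (nat_lit 239)) (XT.nd (nat_lit 78) (nat_lit 0) (nat_lit 0) (XT.lf (nat_lit 0) (nat_lit 12443574400) (nat_lit 152) (nat_lit 100862507274) (nat_lit 0) (nat_lit 10618821568) (nat_lit 1) (nat_lit 5) (nat_lit 3) (nat_lit 4) (nat_lit 1) (nat_lit 4) (nat_lit 294) (nat_lit 248) (nat_lit 238)) (XT.lf (nat_lit 0) (nat_lit 19015273746) (nat_lit 152) (nat_lit 105978876019) (nat_lit 0) (nat_lit 17112370618) (nat_lit 1) (nat_lit 5) (nat_lit 3) (nat_lit 4) (nat_lit 1) (nat_lit 4) (nat_lit 295) (nat_lit 248) (nat_lit 237))))) (XT.nd (nat_lit 234) (nat_lit 0) (nat_lit 0) (XT.nd (nat_lit 78) (nat_lit 0) (nat_lit 0) (XT.lf (nat_lit 0) (nat_lit 26363764201) (nat_lit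 152) (nat_lit 112275495426) (nat_lit 0) (nat_lit 24392904293) (nat_lit 1) (nat_lit 5) (nat_lit 3) (nat_lit 4) (nat_lit 1) (nat_lit 4) (nat_lit 296) (nat_lit 248) (nat_lit 236)) (XT.nd (nat_lit 78) (nat_lit 0) (nat_lit 0) (XT.lf (nat_lit 0) (nat_lit 34632820578) (nat_lit 152) (nat_lit 119875560223) (nat_lit 0) (nat_lit 32602867818) (nat_lit 1) (nat_lit 5) (nat_lit 3) (nat_lit 4) (nat_lit 1) (nat_lit 4) (nat_lit 297) (nat_lit 248) (nat_lit 235)) (XT.lf (nat_lit 0) (nat_lit 43984228762) (nat_lit 152) (nat_lit 128927767329) (nat_lit 0) (nat_lit 41902890914) (nat_lit 1) (nat_lit 5) (nat_lit 3) (nat_lit 4) (nat_lit 1) (nat_lit 4) (nat_lit 298) (nat_lit 248) (nat_lit 234)))) (XT.nd (nat_lit 156) (nat_lit 0) (nat_lit 0) (XT.nd (nat_lit 78) (nat_lit 0) (nat_lit 0) (XT.lf (nat_lit 0) (nat_lit 54600951087) (nat_lit 152) (nat_lit 139609225145) (nat_lit 0) (nat_lit 52474930554) (nat_lit 1) (nat_lit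 5) (nat_lit 3) (nat_lit 4) (nat_lit 1) (nat_lit 4) (nat_lit 299) (nat_lit 248) (nat_lit 233)) (XT.lf (nat_lit 0) (nat_lit 66690706034) (nat_lit 152) (nat_lit 152128918714) (nat_lit 0) (nat_lit 64525830992) (nat_lit 1) (nat_lit 5) (nat_lit 3) (nat_lit 4) (nat_lit 1) (nat_lit 4) (nat_lit 300) (nat_lit 248) (nat_lit 232))) (XT.nd (nat_lit 78) (nat_lit 0) (nat_lit 0) (XT.lf (nat_lit 0) (nat_lit 80490032287) (nat_lit 152) (nat_lit 166731798563) (nat_lit 0) (nat_lit 78291370715) (nat_lit 1) (nat_lit 5) (nat_lit 3) (nat_lit 4) (nat_lit 1) (nat_lit 4) (nat_lit 301) (nat_lit 248) (nat_lit 231)) (XT.lf (nat_lit 0) (nat_lit 96268916663) (nat_lit 152) (nat_lit 183703573211) (nat_lit 0) (nat_lit 94040875500) (nat_lit 1) (nat_lit 5) (nat_lit 3) (nat_lit 4) (nat_lit 1) (nat_lit 4) (nat_lit 302) (nat_lit 248) (nat_lit 230))))))) (XT.nd (nat_lit 1014) (nat_lit 0) (nat_lit 0) (XT.nd (nat_lit 468) (nat_lit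 0) (nat_lit 0) (XT.nd (nat_lit 234) (nat_lit 0) (nat_lit 0) (XT.nd (nat_lit 78) (nat_lit 0) (nat_lit 0) (XT.lf (nat_lit 0) (nat_lit 114336076465) (nat_lit 152) (nat_lit 203376299118) (nat_lit 0) (nat_lit 112082487832) (nat_lit 1) (nat_lit 5) (nat_lit 3) (nat_lit 4) (nat_lit 1) (nat_lit 4) (nat_lit 303) (nat_lit 248) (nat_lit 229)) (XT.nd (nat_lit 78) (nat_lit 0) (nat_lit 0) (XT.lf (nat_lit 0) (nat_lit 135044999603) (nat_lit 152) (nat_lit 226134877443) (nat_lit 0) (nat_lit 132769195778) (nat_lit 1) (nat_lit 5) (nat_lit 3) (nat_lit 4) (nat_lit 1) (nat_lit 4) (nat_lit 304) (nat_lit 248) (nat_lit 228)) (XT.lf (nat_lit 0) (nat_lit 158800860660) (nat_lit 152) (nat_lit 252424584719) (nat_lit 0) (nat_lit 156505739277) (nat_lit 1) (nat_lit 5) (nat_lit 3) (nat_lit 4) (nat_lit 1) (nat_lit 4) (nat_lit 305) (nat_lit 248) (nat_lit 227)))) (XT.nd (nat_lit 78) (nat_lit 0) (nat_lit 0) (XT.lf (nat_lit 0)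 (nat_lit 186068448221) (nat_lit 152) (nat_lit 282759784783) (nat_lit 0) (nat_lit 183756528962) (nat_lit 1) (nat_lit 5) (nat_lit 3) (nat_lit 4) (nat_lit 1) (nat_lit 4) (nat_lit 306) (nat_lit 248) (nat_lit 226)) (XT.nd (nat_lit 78) (nat_lit 0) (nat_lit 0) (XT.lf (nat_lit 0) (nat_lit 217381258566) (nat_lit 152) (nat_lit 317733992420) (nat_lit 0) (nat_lit 215054732457) (nat_lit 1) (nat_lit 5) (nat_lit 3) (nat_lit 4) (nat_lit 1) (nat_lit 4) (nat_lit 307) (nat_lit 248) (nat_lit 225)) (XT.lf (nat_lit 0) (nat_lit 253351933635) (nat_lit 152) (nat_lit 358031485605) (nat_lit 0) (nat_lit 251012705918) (nat_lit 1) (nat_lit 5) (nat_lit 3) (nat_lit 4) (nat_lit 1) (nat_lit 4) (nat_lit 308) (nat_lit 248) (nat_lit 224))))) (XT.nd (nat_lit 234) (nat_lit 0) (nat_lit 0) (XT.nd (nat_lit 78) (nat_lit 0) (nat_lit 0) (XT.lf (nat_lit 0) (nat_lit 294684247506) (nat_lit 152) (nat_lit 404440693553) (nat_lit 0) (nat_lit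 292333974913) (nat_lit 1) (nat_lit 5) (nat_lit 3) (nat_lit 4) (nat_lit 1) (nat_lit 4) (nat_lit 309) (nat_lit 248) (nat_lit 223)) (XT.nd (nat_lit 78) (nat_lit 0) (nat_lit 0) (XT.lf (nat_lit 0) (nat_lit 342186875885) (nat_lit 152) (nat_lit 457869622505) (nat_lit 0) (nat_lit 339826999052) (nat_lit 1) (nat_lit 5) (nat_lit 3) (nat_lit 4) (nat_lit 1) (nat_lit 4) (nat_lit 310) (nat_lit 248) (nat_lit 222)) (XT.lf (nat_lit 0) (nat_lit 396789218024) (nat_lit 152) (nat_lit 519363621073) (nat_lit 0) (nat_lit 394420989677) (nat_lit 1) (nat_lit 5) (nat_lit 3) (nat_lit 4) (nat_lit 1) (nat_lit 4) (nat_lit 311) (nat_lit 248) (nat_lit 221)))) (XT.nd (nat_lit 156) (nat_lit 0) (nat_lit 0) (XT.nd (nat_lit 78) (nat_lit 0) (nat_lit 0) (XT.lf (nat_lit 0) (nat_lit 459559580615) (nat_lit 152) (nat_lit 590125832706) (nat_lit 0) (nat_lit 457184090083) (nat_lit 1) (nat_lit 5) (nat_lit 3) (nat_lit 4) (nat_lit 1) (nat_lit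 4) (nat_lit 312) (nat_lit 248) (nat_lit 220)) (XT.lf (nat_lit 0) (nat_lit 531726079450) (nat_lit 152) (nat_lit 671540735458) (nat_lit 0) (nat_lit 529344273973) (nat_lit 1) (nat_lit 5) (nat_lit 3) (nat_lit 4) (nat_lit 1) (nat_lit 4) (nat_lit 313) (nat_lit 248) (nat_lit 219))) (XT.nd (nat_lit 78) (nat_lit 0) (nat_lit 0) (XT.lf (nat_lit 0) (nat_lit 614700667765) (nat_lit 152) (nat_lit 765201229599) (nat_lit 0) (nat_lit 612313371033) (nat_lit 1) (nat_lit 5) (nat_lit 3) (nat_lit 4) (nat_lit 1) (nat_lit 4) (nat_lit 314) (nat_lit 248) (nat_lit 218)) (XT.lf (nat_lit 0) (nat_lit 710106761420) (nat_lit 152) (nat_lit 872939803060) (nat_lit 0) (nat_lit 707714689683) (nat_lit 1) (nat_lit 5) (nat_lit 3) (nat_lit 4) (nat_lit 1) (nat_lit 4) (nat_lit 315) (nat_lit 248) (nat_lit 217)))))) (XT.nd (nat_lit 468) (nat_lit 0) (nat_lit 0) (XT.nd (nat_lit 234) (nat_lit 0) (nat_lit 0) (XT.nd (nat_lit 78) (nat_lit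 0) (nat_lit 0) (XT.lf (nat_lit 0) (nat_lit 819811001376) (nat_lit 152) (nat_lit 996864384451) (nat_lit 0) (nat_lit 817414777461) (nat_lit 1) (nat_lit 5) (nat_lit 3) (nat_lit 4) (nat_lit 1) (nat_lit 4) (nat_lit 316) (nat_lit 248) (nat_lit 216)) (XT.nd (nat_lit 78) (nat_lit 0) (nat_lit 0) (XT.lf (nat_lit 0) (nat_lit 945959774939) (nat_lit 152) (nat_lit 1139399585147) (nat_lit 0) (nat_lit 943559940434) (nat_lit 1) (nat_lit 5) (nat_lit 3) (nat_lit 4) (nat_lit 1) (nat_lit 4) (nat_lit 317) (nat_lit 248) (nat_lit 215)) (XT.lf (nat_lit 0) (nat_lit 1091021210285) (nat_lit 152) (nat_lit 1303334137336) (nat_lit 0) (nat_lit 1088618236137) (nat_lit 1) (nat_lit 5) (nat_lit 3) (nat_lit 4) (nat_lit 1) (nat_lit 4) (nat_lit 318) (nat_lit 248) (nat_lit 214)))) (XT.nd (nat_lit 78) (nat_lit 0) (nat_lit 0) (XT.lf (nat_lit 0) (nat_lit 1257833465933) (nat_lit 152) (nat_lit 1491875456169) (nat_lit 0) (nat_lit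 1255427761661) (nat_lit 1) (nat_lit 5) (nat_lit 3) (nat_lit 4) (nat_lit 1) (nat_lit 4) (nat_lit 319) (nat_lit 248) (nat_lit 213)) (XT.nd (nat_lit 78) (nat_lit 0) (nat_lit 0) (XT.lf (nat_lit 0) (nat_lit 1449660259928) (nat_lit 152) (nat_lit 1708712393537) (nat_lit 0) (nat_lit 1447252181635) (nat_lit 1) (nat_lit 5) (nat_lit 3) (nat_lit 4) (nat_lit 1) (nat_lit 4) (nat_lit 320) (nat_lit 248) (nat_lit 212)) (XT.lf (nat_lit 0) (nat_lit 1670254725197) (nat_lit 152) (nat_lit 1958087411257) (nat_lit 0) (nat_lit 1667844582536) (nat_lit 1) (nat_lit 5) (nat_lit 3) (nat_lit 4) (nat_lit 1) (nat_lit 4) (nat_lit 321) (nat_lit 248) (nat_lit 211))))) (XT.nd (nat_lit 234) (nat_lit 0) (nat_lit 0) (XT.nd (nat_lit 78) (nat_lit 0) (nat_lit 0) (XT.lf (nat_lit 0) (nat_lit 1923932840406) (nat_lit 152) (nat_lit 2244879585763) (nat_lit 0) (nat_lit 1921520902644) (nat_lit 1) (nat_lit 5) (nat_lit 3) (nat_lit 4) (nat_lit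 1) (nat_lit 4) (nat_lit 322) (nat_lit 248) (nat_lit 210)) (XT.nd (nat_lit 78) (nat_lit 0) (nat_lit 0) (XT.lf (nat_lit 0) (nat_lit 2215657873028) (nat_lit 152) (nat_lit 2574700068296) (nat_lit 0) (nat_lit 2213244374309) (nat_lit 1) (nat_lit 5) (nat_lit 3) (nat_lit 4) (nat_lit 1) (nat_lit 4) (nat_lit 323) (nat_lit 248) (nat_lit 209)) (XT.lf (nat_lit 0) (nat_lit 2551137486744) (nat_lit 152) (nat_lit 2954001868296) (nat_lit 0) (nat_lit 2548722630671) (nat_lit 1) (nat_lit 5) (nat_lit 3) (nat_lit 4) (nat_lit 1) (nat_lit 4) (nat_lit 324) (nat_lit 248) (nat_lit 208)))) (XT.nd (nat_lit 156) (nat_lit 0) (nat_lit 0) (XT.nd (nat_lit 78) (nat_lit 0) (nat_lit 0) (XT.lf (nat_lit 0) (nat_lit 2936935413128) (nat_lit 152) (nat_lit 3390206107938) (nat_lit 0) (nat_lit 2934519376747) (nat_lit 1) (nat_lit 5) (nat_lit 3) (nat_lit 4) (nat_lit 1) (nat_lit 4) (nat_lit 325) (nat_lit 248) (nat_lit 207)) (XT.lf (nat_lit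 0) (nat_lit 3380599872478) (nat_lit 152) (nat_lit 3891847217996) (nat_lit 0) (nat_lit 3378182809741) (nat_lit 1) (nat_lit 5) (nat_lit 3) (nat_lit 4) (nat_lit 1) (nat_lit 4) (nat_lit 326) (nat_lit 248) (nat_lit 206))) (XT.nd (nat_lit 78) (nat_lit 0) (nat_lit 0) (XT.lf (nat_lit 0) (nat_lit 3890811256390) (nat_lit 152) (nat_lit 4468739915842) (nat_lit 0) (nat_lit 3888393301170) (nat_lit 1) (nat_lit 5) (nat_lit 3) (nat_lit 4) (nat_lit 1) (nat_lit 4) (nat_lit 327) (nat_lit 248) (nat_lit 205)) (XT.lf (nat_lit 0) (nat_lit 4477551961505) (nat_lit 152) (nat_lit 5132171232520) (nat_lit 0) (nat_lit 4475133230214) (nat_lit 1) (nat_lit 5) (nat_lit 3) (nat_lit 4) (nat_lit 1) (nat_lit 4) (nat_lit 328) (nat_lit 248) (nat_lit 204))))))))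
noncomputable def xc11 : XT := (XT.nd (nat_lit 38844) (nat_lit 0) (nat_lit 0) (XT.nd (nat_lit 37830) (nat_lit 0) (nat_lit 0) (XT.nd (nat_lit 37284) (nat_lit 0) (nat_lit 152) (XT.nd (nat_lit 37050) (nat_lit 0) (nat_lit 228) (XT.nd (nat_lit 78) (nat_lit 0) (nat_lit 0) (XT.lf (nat_lit 0) (nat_lit 5152301697272) (nat_lit 152) (nat_lit 5895121345966) (nat_lit 0) (nat_lit 5149882291136) (nat_lit 1) (nat_lit 5) (nat_lit 3) (nat_lit 4) (nat_lit 1) (nat_lit 4) (nat_lit 329) (nat_lit 248) (nat_lit 203)) (XT.nd (nat_lit 36894) (nat_lit 0) (nat_lit 456) (XT.lf (nat_lit 0) (nat_lit 5928262088956) (nat_lit 152) (nat_lit 6772517541008) (nat_lit 0) (nat_lit 5925842095998) (nat_lit 1) (nat_lit 5) (nat_lit 3) (nat_lit 4) (nat_lit 1) (nat_lit 4) (nat_lit 330) (nat_lit 248) (nat_lit 202)) (XT.lf (nat_lit 0) (nat_lit 6421079836) (nat_lit 152) (nat_lit 378818300) (nat_lit 0) (nat_lit 6421079836) (nat_lit 7)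 (nat_lit 5) (nat_lit 9) (nat_lit 4) (nat_lit 7) (nat_lit 4) (nat_lit 282) (nat_lit 249) (nat_lit 249)))) (XT.nd (nat_lit 78) (nat_lit 152) (nat_lit 0) (XT.lf (nat_lit 0) (nat_lit 16378281261) (nat_lit 76) (nat_lit 6866343346) (nat_lit 76) (nat_lit 6442256910) (nat_lit 6) (nat_lit 4) (nat_lit 7) (nat_lit 5) (nat_lit 7) (nat_lit 4) (nat_lit 283) (nat_lit 249) (nat_lit 248)) (XT.nd (nat_lit 78) (nat_lit 0) (nat_lit 0) (XT.lf (nat_lit 0) (nat_lit 973651608) (nat_lit 152) (nat_lit 32260325012) (nat_lit 0) (nat_lit 239524523) (nat_lit 4) (nat_lit 5) (nat_lit 6) (nat_lit 4) (nat_lit 4) (nat_lit 4) (nat_lit 284) (nat_lit 249) (nat_lit 247)) (XT.lf (nat_lit 0) (nat_lit 8987855048) (nat_lit 152) (nat_lit 20880963660) (nat_lit 0) (nat_lit 7956811043) (nat_lit 4) (nat_lit 5) (nat_lit 6) (nat_lit 4) (nat_lit 4) (nat_lit 4) (nat_lit 285) (nat_lit 249) (nat_lit 246))))) (XT.nd (nat_lit 234) (nat_lit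 0) (nat_lit 0) (XT.nd (nat_lit 78) (nat_lit 76) (nat_lit 0) (XT.lf (nat_lit 0) (nat_lit 17568607173) (nat_lit 152) (nat_lit 9033695977) (nat_lit 0) (nat_lit 16279374542) (nat_lit 4) (nat_lit 5) (nat_lit 6) (nat_lit 4) (nat_lit 4) (nat_lit 4) (nat_lit 286) (nat_lit 249) (nat_lit 245)) (XT.nd (nat_lit 78) (nat_lit 0) (nat_lit 0) (XT.lf (nat_lit 0) (nat_lit 3698275102) (nat_lit 76) (nat_lit 23274460765) (nat_lit 76) (nat_lit 21760716286) (nat_lit 3) (nat_lit 4) (nat_lit 4) (nat_lit 5) (nat_lit 4) (nat_lit 4) (nat_lit 287) (nat_lit 249) (nat_lit 244)) (XT.lf (nat_lit 0) (nat_lit 17900901226) (nat_lit 76) (nat_lit 19645279818) (nat_lit 76) (nat_lit 17936307644) (nat_lit 3) (nat_lit 4) (nat_lit 4) (nat_lit 5) (nat_lit 4) (nat_lit 4) (nat_lit 288) (nat_lit 249) (nat_lit 243)))) (XT.nd (nat_lit 156) (nat_lit 0) (nat_lit 0) (XT.nd (nat_lit 78) (nat_lit 0) (nat_lit 0) (XT.lf (nat_lit 0) (nat_lit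 33376361441) (nat_lit 76) (nat_lit 15890751851) (nat_lit 76) (nat_lit 14012016464) (nat_lit 3) (nat_lit 4) (nat_lit 4) (nat_lit 5) (nat_lit 4) (nat_lit 4) (nat_lit 289) (nat_lit 249) (nat_lit 242)) (XT.lf (nat_lit 0) (nat_lit 50427436490) (nat_lit 76) (nat_lit 11937418708) (nat_lit 76) (nat_lit 9911063136) (nat_lit 3) (nat_lit 4) (nat_lit 4) (nat_lit 5) (nat_lit 4) (nat_lit 4) (nat_lit 290) (nat_lit 249) (nat_lit 241))) (XT.nd (nat_lit 78) (nat_lit 0) (nat_lit 0) (XT.lf (nat_lit 0) (nat_lit 69387734362) (nat_lit 76) (nat_lit 7707932568) (nat_lit 76) (nat_lit 5553211618) (nat_lit 3) (nat_lit 4) (nat_lit 4) (nat_lit 5) (nat_lit 4) (nat_lit 4) (nat_lit 291) (nat_lit 249) (nat_lit 240)) (XT.lf (nat_lit 0) (nat_lit 90628217408) (nat_lit 76) (nat_lit 3119542614) (nat_lit 76) (nat_lit 853199596) (nat_lit 3) (nat_lit 4) (nat_lit 4) (nat_lit 5) (nat_lit 4) (nat_lit 4) (nat_lit 292) (nat_lit 249)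 (nat_lit 239)))))) (XT.nd (nat_lit 468) (nat_lit 0) (nat_lit 0) (XT.nd (nat_lit 234) (nat_lit 0) (nat_lit 0) (XT.nd (nat_lit 78) (nat_lit 0) (nat_lit 0) (XT.lf (nat_lit 0) (nat_lit 4273895540) (nat_lit 152) (nat_lit 101981748386) (nat_lit 0) (nat_lit 2085556942) (nat_lit 1) (nat_lit 5) (nat_lit 3) (nat_lit 4) (nat_lit 1) (nat_lit 4) (nat_lit 293) (nat_lit 249) (nat_lit 238)) (XT.nd (nat_lit 78) (nat_lit 0) (nat_lit 0) (XT.lf (nat_lit 0) (nat_lit 10085609173) (nat_lit 152) (nat_lit 106238766849) (nat_lit 0) (nat_lit 7819120279) (nat_lit 1) (nat_lit 5) (nat_lit 3) (nat_lit 4) (nat_lit 1) (nat_lit 4) (nat_lit 294) (nat_lit 249) (nat_lit 237)) (XT.lf (nat_lit 0) (nat_lit 16560116057) (nat_lit 152) (nat_lit 111547133432) (nat_lit 0) (nat_lit 14225670383) (nat_lit 1) (nat_lit 5) (nat_lit 3) (nat_lit 4) (nat_lit 1) (nat_lit 4) (nat_lit 295) (nat_lit 249) (nat_lit 236)))) (XT.nd (nat_lit 78) (nat_lit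 0) (nat_lit 0) (XT.lf (nat_lit 0) (nat_lit 23824091327) (nat_lit 152) (nat_lit 118010707480) (nat_lit 0) (nat_lit 21430552802) (nat_lit 1) (nat_lit 5) (nat_lit 3) (nat_lit 4) (nat_lit 1) (nat_lit 4) (nat_lit 296) (nat_lit 249) (nat_lit 235)) (XT.nd (nat_lit 78) (nat_lit 0) (nat_lit 0) (XT.lf (nat_lit 0) (nat_lit 32019656239) (nat_lit 152) (nat_lit 125755950226) (nat_lit 0) (nat_lit 29574732626) (nat_lit 1) (nat_lit 5) (nat_lit 3) (nat_lit 4) (nat_lit 1) (nat_lit 4) (nat_lit 297) (nat_lit 249) (nat_lit 234)) (XT.lf (nat_lit 0) (nat_lit 41307158801) (nat_lit 152) (nat_lit 134934399027) (nat_lit 0) (nat_lit 38817552503) (nat_lit 1) (nat_lit 5) (nat_lit 3) (nat_lit 4) (nat_lit 1) (nat_lit 4) (nat_lit 298) (nat_lit 249) (nat_lit 233))))) (XT.nd (nat_lit 234) (nat_lit 0) (nat_lit 0) (XT.nd (nat_lit 78) (nat_lit 0) (nat_lit 0) (XT.lf (nat_lit 0) (nat_lit 51868311021) (nat_lit 152) (nat_lit 145725632229)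 (nat_lit 0) (nat_lit 49339850213) (nat_lit 1) (nat_lit 5) (nat_lit 3) (nat_lit 4) (nat_lit 1) (nat_lit 4) (nat_lit 299) (nat_lit 249) (nat_lit 232)) (XT.nd (nat_lit 78) (nat_lit 0) (nat_lit 0) (XT.lf (nat_lit 0) (nat_lit 63909744137) (nat_lit 152) (nat_lit 158340782656) (nat_lit 0) (nat_lit 61347496800) (nat_lit 1) (nat_lit 5) (nat_lit 3) (nat_lit 4) (nat_lit 1) (nat_lit 4) (nat_lit 300) (nat_lit 249) (nat_lit 231)) (XT.lf (nat_lit 0) (nat_lit 77667051406) (nat_lit 152) (nat_lit 173026668468) (nat_lit 0) (nat_lit 75075424478) (nat_lit 1) (nat_lit 5) (nat_lit 3) (nat_lit 4) (nat_lit 1) (nat_lit 4) (nat_lit 301) (nat_lit 249) (nat_lit 230)))) (XT.nd (nat_lit 156) (nat_lit 0) (nat_lit 0) (XT.nd (nat_lit 78) (nat_lit 0) (nat_lit 0) (XT.lf (nat_lit 0) (nat_lit 93409397536) (nat_lit 152) (nat_lit 190070622214) (nat_lit 0) (nat_lit 90792223137) (nat_lit 1) (nat_lit 5) (nat_lit 3) (nat_lit 4)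 (nat_lit 1) (nat_lit 4) (nat_lit 302) (nat_lit 249) (nat_lit 229)) (XT.lf (nat_lit 0) (nat_lit 111444784950) (nat_lit 152) (nat_lit 209806112555) (nat_lit 0) (nat_lit 108805395359) (nat_lit 1) (nat_lit 5) (nat_lit 3) (nat_lit 4) (nat_lit 1) (nat_lit 4) (nat_lit 303) (nat_lit 249) (nat_lit 228))) (XT.nd (nat_lit 78) (nat_lit 0) (nat_lit 0) (XT.lf (nat_lit 0) (nat_lit 132126079924) (nat_lit 152) (nat_lit 232619268648) (nat_lit 0) (nat_lit 129467372776) (nat_lit 1) (nat_lit 5) (nat_lit 3) (nat_lit 4) (nat_lit 1) (nat_lit 4) (nat_lit 304) (nat_lit 249) (nat_lit 227)) (XT.lf (nat_lit 0) (nat_lit 155857916491) (nat_lit 152) (nat_lit 258956434853) (nat_lit 0) (nat_lit 153182411466) (nat_lit 1) (nat_lit 5) (nat_lit 3) (nat_lit 4) (nat_lit 1) (nat_lit 4) (nat_lit 305) (nat_lit 249) (nat_lit 226))))))) (XT.nd (nat_lit 1014) (nat_lit 0) (nat_lit 0) (XT.nd (nat_lit 468) (nat_lit 0) (nat_lit 0) (XT.nd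 (nat_lit 234) (nat_lit 0) (nat_lit 0) (XT.nd (nat_lit 78) (nat_lit 0) (nat_lit 0) (XT.lf (nat_lit 0) (nat_lit 183104613191) (nat_lit 152) (nat_lit 289332903552) (nat_lit 0) (nat_lit 180414501317) (nat_lit 1) (nat_lit 5) (nat_lit 3) (nat_lit 4) (nat_lit 1) (nat_lit 4) (nat_lit 306) (nat_lit 249) (nat_lit 225)) (XT.nd (nat_lit 78) (nat_lit 0) (nat_lit 0) (XT.lf (nat_lit 0) (nat_lit 214399257570) (nat_lit 152) (nat_lit 324342996957) (nat_lit 0) (nat_lit 211696444088) (nat_lit 1) (nat_lit 5) (nat_lit 3) (nat_lit 4) (nat_lit 1) (nat_lit 4) (nat_lit 307) (nat_lit 249) (nat_lit 224)) (XT.lf (nat_lit 0) (nat_lit 250354136147) (nat_lit 152) (nat_lit 364671695159) (nat_lit 0) (nat_lit 247640277788) (nat_lit 1) (nat_lit 5) (nat_lit 3) (nat_lit 4) (nat_lit 1) (nat_lit 4) (nat_lit 308) (nat_lit 249) (nat_lit 223)))) (XT.nd (nat_lit 78) (nat_lit 0) (nat_lit 0) (XT.lf (nat_lit 0) (nat_lit 291672713938)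 (nat_lit 152) (nat_lit 411108037903) (nat_lit 0) (nat_lit 288949251339) (nat_lit 1) (nat_lit 5) (nat_lit 3) (nat_lit 4) (nat_lit 1) (nat_lit 4) (nat_lit 309) (nat_lit 249) (nat_lit 222)) (XT.nd (nat_lit 78) (nat_lit 0) (nat_lit 0) (XT.lf (nat_lit 0) (nat_lit 339163397899) (nat_lit 152) (nat_lit 464560562331) (nat_lit 0) (nat_lit 336431583787) (nat_lit 1) (nat_lit 5) (nat_lit 3) (nat_lit 4) (nat_lit 1) (nat_lit 4) (nat_lit 310) (nat_lit 249) (nat_lit 221)) (XT.lf (nat_lit 0) (nat_lit 393755353588) (nat_lit 152) (nat_lit 526075078703) (nat_lit 0) (nat_lit 391016277290) (nat_lit 1) (nat_lit 5) (nat_lit 3) (nat_lit 4) (nat_lit 1) (nat_lit 4) (nat_lit 311) (nat_lit 249) (nat_lit 220))))) (XT.nd (nat_lit 234) (nat_lit 0) (nat_lit 0) (XT.nd (nat_lit 78) (nat_lit 0) (nat_lit 0) (XT.lf (nat_lit 0) (nat_lit 456516684483) (nat_lit 152) (nat_lit 596855131905) (nat_lit 0) (nat_lit 453771293241) (nat_lit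 1) (nat_lit 5) (nat_lit 3) (nat_lit 4) (nat_lit 1) (nat_lit 4) (nat_lit 312) (nat_lit 249) (nat_lit 219)) (XT.nd (nat_lit 78) (nat_lit 0) (nat_lit 0) (XT.lf (nat_lit 0) (nat_lit 528675329669) (nat_lit 152) (nat_lit 678285549065) (nat_lit 0) (nat_lit 525924447172) (nat_lit 1) (nat_lit 5) (nat_lit 3) (nat_lit 4) (nat_lit 1) (nat_lit 4) (nat_lit 313) (nat_lit 249) (nat_lit 218)) (XT.lf (nat_lit 0) (nat_lit 611643088725) (nat_lit 152) (nat_lit 771959533997) (nat_lit 0) (nat_lit 608887431223) (nat_lit 1) (nat_lit 5) (nat_lit 3) (nat_lit 4) (nat_lit 1) (nat_lit 4) (nat_lit 314) (nat_lit 249) (nat_lit 217)))) (XT.nd (nat_lit 156) (nat_lit 0) (nat_lit 0) (XT.nd (nat_lit 78) (nat_lit 0) (nat_lit 0) (XT.lf (nat_lit 0) (nat_lit 707043243893) (nat_lit 152) (nat_lit 879709838579) (nat_lit 0) (nat_lit 704283434213) (nat_lit 1) (nat_lit 5) (nat_lit 3) (nat_lit 4) (nat_lit 1) (nat_lit 4) (nat_lit 315)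 (nat_lit 249) (nat_lit 216)) (XT.lf (nat_lit 0) (nat_lit 816742319949) (nat_lit 152) (nat_lit 1003644620945) (nat_lit 0) (nat_lit 813978899678) (nat_lit 1) (nat_lit 5) (nat_lit 3) (nat_lit 4) (nat_lit 1) (nat_lit 4) (nat_lit 316) (nat_lit 249) (nat_lit 215))) (XT.nd (nat_lit 78) (nat_lit 0) (nat_lit 0) (XT.lf (nat_lit 0) (nat_lit 942886603162) (nat_lit 152) (nat_lit 1146188692054) (nat_lit 0) (nat_lit 940120043249) (nat_lit 1) (nat_lit 5) (nat_lit 3) (nat_lit 4) (nat_lit 1) (nat_lit 4) (nat_lit 317) (nat_lit 249) (nat_lit 214)) (XT.lf (nat_lit 0) (nat_lit 1087944133857) (nat_lit 152) (nat_lit 1310130957646) (nat_lit 0) (nat_lit 1085174843819) (nat_lit 1) (nat_lit 5) (nat_lit 3) (nat_lit 4) (nat_lit 1) (nat_lit 4) (nat_lit 318) (nat_lit 249) (nat_lit 213)))))) (XT.nd (nat_lit 546) (nat_lit 0) (nat_lit 0) (XT.nd (nat_lit 234) (nat_lit 0) (nat_lit 0) (XT.nd (nat_lit 78) (nat_lit 0) (nat_lit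 0) (XT.lf (nat_lit 0) (nat_lit 1254752994156) (nat_lit 152) (nat_lit 1498678983786) (nat_lit 0) (nat_lit 1251981330097) (nat_lit 1) (nat_lit 5) (nat_lit 3) (nat_lit 4) (nat_lit 1) (nat_lit 4) (nat_lit 319) (nat_lit 249) (nat_lit 212)) (XT.nd (nat_lit 78) (nat_lit 0) (nat_lit 0) (XT.lf (nat_lit 0) (nat_lit 1446576835674) (nat_lit 152) (nat_lit 1715521753594) (nat_lit 0) (nat_lit 1443803107248) (nat_lit 1) (nat_lit 5) (nat_lit 3) (nat_lit 4) (nat_lit 1) (nat_lit 4) (nat_lit 320) (nat_lit 249) (nat_lit 211)) (XT.lf (nat_lit 0) (nat_lit 1667168733571) (nat_lit 152) (nat_lit 1964901843001) (nat_lit 0) (nat_lit 1664393210044) (nat_lit 1) (nat_lit 5) (nat_lit 3) (nat_lit 4) (nat_lit 1) (nat_lit 4) (nat_lit 321) (nat_lit 249) (nat_lit 210)))) (XT.nd (nat_lit 156) (nat_lit 0) (nat_lit 0) (XT.nd (nat_lit 78) (nat_lit 0) (nat_lit 0) (XT.lf (nat_lit 0) (nat_lit 1920844616283) (nat_lit 152) (nat_lit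 2251698427671) (nat_lit 0) (nat_lit 1918067531798) (nat_lit 1) (nat_lit 5) (nat_lit 3) (nat_lit 4) (nat_lit 1) (nat_lit 4) (nat_lit 322) (nat_lit 249) (nat_lit 209)) (XT.lf (nat_lit 0) (nat_lit 2212567707603) (nat_lit 152) (nat_lit 2581522745128) (nat_lit 0) (nat_lit 2209789265764) (nat_lit 1) (nat_lit 5) (nat_lit 3) (nat_lit 4) (nat_lit 1) (nat_lit 4) (nat_lit 323) (nat_lit 249) (nat_lit 208))) (XT.nd (nat_lit 78) (nat_lit 0) (nat_lit 0) (XT.lf (nat_lit 0) (nat_lit 2548045633231) (nat_lit 152) (nat_lit 2960827879845) (nat_lit 0) (nat_lit 2545266011084) (nat_lit 1) (nat_lit 5) (nat_lit 3) (nat_lit 4) (nat_lit 1) (nat_lit 4) (nat_lit 324) (nat_lit 249) (nat_lit 207)) (XT.lf (nat_lit 0) (nat_lit 2933842091712) (nat_lit 152) (nat_lit 3397035019240) (nat_lit 0) (nat_lit 2931061443210) (nat_lit 1) (nat_lit 5) (nat_lit 3) (nat_lit 4) (nat_lit 1) (nat_lit 4) (nat_lit 325) (nat_lit 249) (nat_lit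 206))))) (XT.nd (nat_lit 234) (nat_lit 0) (nat_lit 0) (XT.nd (nat_lit 78) (nat_lit 0) (nat_lit 0) (XT.lf (nat_lit 0) (nat_lit 3377505274624) (nat_lit 152) (nat_lit 3898678650824) (nat_lit 0) (nat_lit 3374723733640) (nat_lit 1) (nat_lit 5) (nat_lit 3) (nat_lit 4) (nat_lit 1) (nat_lit 4) (nat_lit 326) (nat_lit 249) (nat_lit 205)) (XT.nd (nat_lit 78) (nat_lit 0) (nat_lit 0) (XT.lf (nat_lit 0) (nat_lit 3887715548590) (nat_lit 152) (nat_lit 4475573541300) (nat_lit 0) (nat_lit 3884933231534) (nat_lit 1) (nat_lit 5) (nat_lit 3) (nat_lit 4) (nat_lit 1) (nat_lit 4) (nat_lit 327) (nat_lit 249) (nat_lit 204)) (XT.lf (nat_lit 0) (nat_lit 4474455288536) (nat_lit 152) (nat_lit 5139006764614) (nat_lit 0) (nat_lit 4471672296634) (nat_lit 1) (nat_lit 5) (nat_lit 3) (nat_lit 4) (nat_lit 1) (nat_lit 4) (nat_lit 328) (nat_lit 249) (nat_lit 203)))) (XT.nd (nat_lit 36816) (nat_lit 0) (nat_lit 456) (XT.nd (nat_lit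 78) (nat_lit 0) (nat_lit 0) (XT.lf (nat_lit 0) (nat_lit 5149204185024) (nat_lit 152) (nat_lit 5901958536003) (nat_lit 0) (nat_lit 5146420606301) (nat_lit 1) (nat_lit 5) (nat_lit 3) (nat_lit 4) (nat_lit 1) (nat_lit 4) (nat_lit 329) (nat_lit 249) (nat_lit 202)) (XT.lf (nat_lit 0) (nat_lit 5925163846901) (nat_lit 152) (nat_lit 6779356172735) (nat_lit 0) (nat_lit 5922379757898) (nat_lit 1) (nat_lit 5) (nat_lit 3) (nat_lit 4) (nat_lit 1) (nat_lit 4) (nat_lit 330) (nat_lit 249) (nat_lit 201))) (XT.nd (nat_lit 78) (nat_lit 152) (nat_lit 0) (XT.lf (nat_lit 0) (nat_lit 6036420484) (nat_lit 76) (nat_lit 2286733733) (nat_lit 76) (nat_lit 2286733733) (nat_lit 9) (nat_lit 4) (nat_lit 10) (nat_lit 5) (nat_lit 10) (nat_lit 4) (nat_lit 280) (nat_lit 250) (nat_lit 250)) (XT.lf (nat_lit 0) (nat_lit 3898481710) (nat_lit 152) (nat_lit 16342240038) (nat_lit 0) (nat_lit 3410782308) (nat_lit 7) (nat_lit 5) (nat_lit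 9) (nat_lit 4) (nat_lit 7) (nat_lit 4) (nat_lit 281) (nat_lit 250) (nat_lit 249))))))))
noncomputable def xc12 : XT := (XT.nd (nat_lit 2028) (nat_lit 0) (nat_lit 0) (XT.nd (nat_lit 1014) (nat_lit 0) (nat_lit 0) (XT.nd (nat_lit 468) (nat_lit 228) (nat_lit 0) (XT.nd (nat_lit 234) (nat_lit 76) (nat_lit 0) (XT.nd (nat_lit 78) (nat_lit 152) (nat_lit 0) (XT.lf (nat_lit 0) (nat_lit 12940316241) (nat_lit 152) (nat_lit 1504466392) (nat_lit 0) (nat_lit 12028530402) (nat_lit 7) (nat_lit 5) (nat_lit 9) (nat_lit 4) (nat_lit 7) (nat_lit 4) (nat_lit 282) (nat_lit 250) (nat_lit 248)) (XT.nd (nat_lit 78) (nat_lit 76) (nat_lit 0) (XT.lf (nat_lit 0) (nat_lit 14908510369) (nat_lit 76) (nat_lit 8060189884) (nat_lit 76) (nat_lit 6779633231) (nat_lit 6) (nat_lit 4) (nat_lit 7) (nat_lit 5) (nat_lit 7) (nat_lit 4) (nat_lit 283) (nat_lit 250) (nat_lit 247)) (XT.lf (nat_lit 0) (nat_lit 300745961) (nat_lit 152) (nat_lit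 975675328) (nat_lit 76) (nat_lit 32287509024) (nat_lit 5) (nat_lit 5) (nat_lit 7) (nat_lit 5) (nat_lit 6) (nat_lit 4) (nat_lit 284) (nat_lit 250) (nat_lit 246)))) (XT.nd (nat_lit 78) (nat_lit 0) (nat_lit 0) (XT.lf (nat_lit 0) (nat_lit 7963289765) (nat_lit 152) (nat_lit 23758536217) (nat_lit 0) (nat_lit 6222483614) (nat_lit 4) (nat_lit 5) (nat_lit 6) (nat_lit 4) (nat_lit 4) (nat_lit 4) (nat_lit 285) (nat_lit 250) (nat_lit 245)) (XT.nd (nat_lit 78) (nat_lit 0) (nat_lit 0) (XT.lf (nat_lit 0) (nat_lit 16286981493) (nat_lit 152) (nat_lit 12412379908) (nat_lit 0) (nat_lit 14321663493) (nat_lit 4) (nat_lit 5) (nat_lit 6) (nat_lit 4) (nat_lit 4) (nat_lit 4) (nat_lit 286) (nat_lit 250) (nat_lit 244)) (XT.lf (nat_lit 0) (nat_lit 25378635803) (nat_lit 152) (nat_lit 301160547) (nat_lit 0) (nat_lit 23218090109) (nat_lit 4) (nat_lit 5) (nat_lit 6) (nat_lit 4) (nat_lit 4) (nat_lit 4) (nat_lit 287) (nat_lit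 250) (nat_lit 243))))) (XT.nd (nat_lit 234) (nat_lit 152) (nat_lit 0) (XT.nd (nat_lit 78) (nat_lit 0) (nat_lit 0) (XT.lf (nat_lit 0) (nat_lit 13486741960) (nat_lit 76) (nat_lit 22253747397) (nat_lit 76) (nat_lit 19923438490) (nat_lit 3) (nat_lit 4) (nat_lit 4) (nat_lit 5) (nat_lit 4) (nat_lit 4) (nat_lit 288) (nat_lit 250) (nat_lit 242)) (XT.nd (nat_lit 78) (nat_lit 0) (nat_lit 0) (XT.lf (nat_lit 0) (nat_lit 28615363012) (nat_lit 76) (nat_lit 18668695718) (nat_lit 76) (nat_lit 16190766626) (nat_lit 3) (nat_lit 4) (nat_lit 4) (nat_lit 5) (nat_lit 4) (nat_lit 4) (nat_lit 289) (nat_lit 250) (nat_lit 241)) (XT.lf (nat_lit 0) (nat_lit 45364838790) (nat_lit 76) (nat_lit 14862733261) (nat_lit 76) (nat_lit 12256438791) (nat_lit 3) (nat_lit 4) (nat_lit 4) (nat_lit 5) (nat_lit 4) (nat_lit 4) (nat_lit 290) (nat_lit 250) (nat_lit 240)))) (XT.nd (nat_lit 156) (nat_lit 152) (nat_lit 0) (XT.nd (nat_lit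 78) (nat_lit 0) (nat_lit 0) (XT.lf (nat_lit 0) (nat_lit 64062876426) (nat_lit 76) (nat_lit 10761395543) (nat_lit 76) (nat_lit 8043479005) (nat_lit 3) (nat_lit 4) (nat_lit 4) (nat_lit 5) (nat_lit 4) (nat_lit 4) (nat_lit 291) (nat_lit 250) (nat_lit 239)) (XT.lf (nat_lit 0) (nat_lit 85075307093) (nat_lit 76) (nat_lit 6284439000) (nat_lit 76) (nat_lit 3469459793) (nat_lit 3) (nat_lit 4) (nat_lit 4) (nat_lit 5) (nat_lit 4) (nat_lit 4) (nat_lit 292) (nat_lit 250) (nat_lit 238))) (XT.nd (nat_lit 78) (nat_lit 0) (nat_lit 0) (XT.lf (nat_lit 0) (nat_lit 182572067) (nat_lit 76) (nat_lit 1299136390) (nat_lit 152) (nat_lit 107117352281) (nat_lit 1) (nat_lit 5) (nat_lit 2) (nat_lit 5) (nat_lit 3) (nat_lit 4) (nat_lit 293) (nat_lit 250) (nat_lit 237)) (XT.lf (nat_lit 0) (nat_lit 7164985367) (nat_lit 152) (nat_lit 112834260711) (nat_lit 0) (nat_lit 4412416064) (nat_lit 1) (nat_lit 5) (nat_lit 3) (nat_lit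 4) (nat_lit 1) (nat_lit 4) (nat_lit 294) (nat_lit 250) (nat_lit 236)))))) (XT.nd (nat_lit 468) (nat_lit 0) (nat_lit 0) (XT.nd (nat_lit 234) (nat_lit 0) (nat_lit 0) (XT.nd (nat_lit 78) (nat_lit 0) (nat_lit 0) (XT.lf (nat_lit 0) (nat_lit 13554977067) (nat_lit 152) (nat_lit 118309581935) (nat_lit 0) (nat_lit 10743314912) (nat_lit 1) (nat_lit 5) (nat_lit 3) (nat_lit 4) (nat_lit 1) (nat_lit 4) (nat_lit 295) (nat_lit 250) (nat_lit 235)) (XT.nd (nat_lit 78) (nat_lit 0) (nat_lit 0) (XT.lf (nat_lit 0) (nat_lit 20745460873) (nat_lit 152) (nat_lit 124918333932) (nat_lit 0) (nat_lit 17882413629) (nat_lit 1) (nat_lit 5) (nat_lit 3) (nat_lit 4) (nat_lit 1) (nat_lit 4) (nat_lit 296) (nat_lit 250) (nat_lit 234)) (XT.lf (nat_lit 0) (nat_lit 28877120163) (nat_lit 152) (nat_lit 132789818372) (nat_lit 0) (nat_lit 25969390234) (nat_lit 1) (nat_lit 5) (nat_lit 3) (nat_lit 4) (nat_lit 1) (nat_lit 4) (nat_lit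 297) (nat_lit 250) (nat_lit 233)))) (XT.nd (nat_lit 78) (nat_lit 0) (nat_lit 0) (XT.lf (nat_lit 0) (nat_lit 38109052620) (nat_lit 152) (nat_lit 142078042560) (nat_lit 0) (nat_lit 35162468182) (nat_lit 1) (nat_lit 5) (nat_lit 3) (nat_lit 4) (nat_lit 1) (nat_lit 4) (nat_lit 298) (nat_lit 250) (nat_lit 232)) (XT.nd (nat_lit 78) (nat_lit 0) (nat_lit 0) (XT.lf (nat_lit 0) (nat_lit 48621883009) (nat_lit 152) (nat_lit 152964732620) (nat_lit 0) (nat_lit 45641512041) (nat_lit 1) (nat_lit 5) (nat_lit 3) (nat_lit 4) (nat_lit 1) (nat_lit 4) (nat_lit 299) (nat_lit 250) (nat_lit 231)) (XT.lf (nat_lit 0) (nat_lit 60621297141) (nat_lit 152) (nat_lit 165662889010) (nat_lit 0) (nat_lit 57611546583) (nat_lit 1) (nat_lit 5) (nat_lit 3) (nat_lit 4) (nat_lit 1) (nat_lit 4) (nat_lit 300) (nat_lit 250) (nat_lit 230))))) (XT.nd (nat_lit 234) (nat_lit 0) (nat_lit 0) (XT.nd (nat_lit 78) (nat_lit 0) (nat_lit 0) (XT.lf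 (nat_lit 0) (nat_lit 74342066164) (nat_lit 152) (nat_lit 180420953921) (nat_lit 0) (nat_lit 71306768135) (nat_lit 1) (nat_lit 5) (nat_lit 3) (nat_lit 4) (nat_lit 1) (nat_lit 4) (nat_lit 301) (nat_lit 250) (nat_lit 229)) (XT.nd (nat_lit 78) (nat_lit 0) (nat_lit 0) (XT.lf (nat_lit 0) (nat_lit 90052639905) (nat_lit 152) (nat_lit 197527672101) (nat_lit 0) (nat_lit 86995126685) (nat_lit 1) (nat_lit 5) (nat_lit 3) (nat_lit 4) (nat_lit 1) (nat_lit 4) (nat_lit 302) (nat_lit 250) (nat_lit 228)) (XT.lf (nat_lit 0) (nat_lit 108060399156) (nat_lit 152) (nat_lit 217317740210) (nat_lit 0) (nat_lit 104983568377) (nat_lit 1) (nat_lit 5) (nat_lit 3) (nat_lit 4) (nat_lit 1) (nat_lit 4) (nat_lit 303) (nat_lit 250) (nat_lit 227)))) (XT.nd (nat_lit 156) (nat_lit 0) (nat_lit 0) (XT.nd (nat_lit 78) (nat_lit 0) (nat_lit 0) (XT.lf (nat_lit 0) (nat_lit 128717669640) (nat_lit 152) (nat_lit 240178355232) (nat_lit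 0) (nat_lit 125624040985) (nat_lit 1) (nat_lit 5) (nat_lit 3) (nat_lit 4) (nat_lit 1) (nat_lit 4) (nat_lit 304) (nat_lit 250) (nat_lit 226)) (XT.lf (nat_lit 0) (nat_lit 152428615346) (nat_lit 152) (nat_lit 266556790071) (nat_lit 0) (nat_lit 149320379841) (nat_lit 1) (nat_lit 5) (nat_lit 3) (nat_lit 4) (nat_lit 1) (nat_lit 4) (nat_lit 305) (nat_lit 250) (nat_lit 225))) (XT.nd (nat_lit 78) (nat_lit 0) (nat_lit 0) (XT.lf (nat_lit 0) (nat_lit 179657146080) (nat_lit 152) (nat_lit 296969144538) (nat_lit 0) (nat_lit 176536208968) (nat_lit 1) (nat_lit 5) (nat_lit 3) (nat_lit 4) (nat_lit 1) (nat_lit 4) (nat_lit 306) (nat_lit 250) (nat_lit 224)) (XT.lf (nat_lit 0) (nat_lit 210935993966) (nat_lit 152) (nat_lit 332010442960) (nat_lit 0) (nat_lit 207804011977) (nat_lit 1) (nat_lit 5) (nat_lit 3) (nat_lit 4) (nat_lit 1) (nat_lit 4) (nat_lit 307) (nat_lit 250) (nat_lit 223))))))) (XT.nd (nat_lit 1014)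 (nat_lit 0) (nat_lit 0) (XT.nd (nat_lit 468) (nat_lit 0) (nat_lit 0) (XT.nd (nat_lit 234) (nat_lit 0) (nat_lit 0) (XT.nd (nat_lit 78) (nat_lit 0) (nat_lit 0) (XT.lf (nat_lit 0) (nat_lit 246877136463) (nat_lit 152) (nat_lit 372366275958) (nat_lit 0) (nat_lit 243735550234) (nat_lit 1) (nat_lit 5) (nat_lit 3) (nat_lit 4) (nat_lit 1) (nat_lit 4) (nat_lit 308) (nat_lit 250) (nat_lit 222)) (XT.nd (nat_lit 78) (nat_lit 0) (nat_lit 0) (XT.lf (nat_lit 0) (nat_lit 288183769836) (nat_lit 152) (nat_lit 418826214177) (nat_lit 0) (nat_lit 285033832093) (nat_lit 1) (nat_lit 5) (nat_lit 3) (nat_lit 4) (nat_lit 1) (nat_lit 4) (nat_lit 309) (nat_lit 250) (nat_lit 221)) (XT.lf (nat_lit 0) (nat_lit 335664067348) (nat_lit 152) (nat_lit 472299256410) (nat_lit 0) (nat_lit 332506867419) (nat_lit 1) (nat_lit 5) (nat_lit 3) (nat_lit 4) (nat_lit 1) (nat_lit 4) (nat_lit 310) (nat_lit 250) (nat_lit 220)))) (XT.nd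 (nat_lit 78) (nat_lit 0) (nat_lit 0) (XT.lf (nat_lit 0) (nat_lit 390246991340) (nat_lit 152) (nat_lit 533831614352) (nat_lit 0) (nat_lit 387083476468) (nat_lit 1) (nat_lit 5) (nat_lit 3) (nat_lit 4) (nat_lit 1) (nat_lit 4) (nat_lit 311) (nat_lit 250) (nat_lit 219)) (XT.nd (nat_lit 78) (nat_lit 0) (nat_lit 0) (XT.lf (nat_lit 0) (nat_lit 453000468587) (nat_lit 152) (nat_lit 604627181962) (nat_lit 0) (nat_lit 449831462460) (nat_lit 1) (nat_lit 5) (nat_lit 3) (nat_lit 4) (nat_lit 1) (nat_lit 4) (nat_lit 312) (nat_lit 250) (nat_lit 218)) (XT.lf (nat_lit 0) (nat_lit 525152284514) (nat_lit 152) (nat_lit 686071089911) (nat_lit 0) (nat_lit 521978503381) (nat_lit 1) (nat_lit 5) (nat_lit 3) (nat_lit 4) (nat_lit 1) (nat_lit 4) (nat_lit 313) (nat_lit 250) (nat_lit 217))))) (XT.nd (nat_lit 234) (nat_lit 0) (nat_lit 0) (XT.nd (nat_lit 78) (nat_lit 0) (nat_lit 0) (XT.lf (nat_lit 0) (nat_lit 608114105083)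 (nat_lit 152) (nat_lit 779756805964) (nat_lit 0) (nat_lit 604936171772) (nat_lit 1) (nat_lit 5) (nat_lit 3) (nat_lit 4) (nat_lit 1) (nat_lit 4) (nat_lit 314) (nat_lit 250) (nat_lit 216)) (XT.nd (nat_lit 78) (nat_lit 0) (nat_lit 0) (XT.lf (nat_lit 0) (nat_lit 703509096350) (nat_lit 152) (nat_lit 887517311522) (nat_lit 0) (nat_lit 700327552449) (nat_lit 1) (nat_lit 5) (nat_lit 3) (nat_lit 4) (nat_lit 1) (nat_lit 4) (nat_lit 315) (nat_lit 250) (nat_lit 215)) (XT.lf (nat_lit 0) (nat_lit 813203682056) (nat_lit 152) (nat_lit 1011460964301) (nat_lit 0) (nat_lit 810018998513) (nat_lit 1) (nat_lit 5) (nat_lit 3) (nat_lit 4) (nat_lit 1) (nat_lit 4) (nat_lit 316) (nat_lit 250) (nat_lit 214)))) (XT.nd (nat_lit 156) (nat_lit 0) (nat_lit 0) (XT.nd (nat_lit 78) (nat_lit 0) (nat_lit 0) (XT.lf (nat_lit 0) (nat_lit 939344060618) (nat_lit 152) (nat_lit 1154012748813) (nat_lit 0) (nat_lit 936156646950) (nat_lit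 1) (nat_lit 5) (nat_lit 3) (nat_lit 4) (nat_lit 1) (nat_lit 4) (nat_lit 317) (nat_lit 250) (nat_lit 213)) (XT.lf (nat_lit 0) (nat_lit 1084398195965) (nat_lit 152) (nat_lit 1317961721711) (nat_lit 0) (nat_lit 1081208408275) (nat_lit 1) (nat_lit 5) (nat_lit 3) (nat_lit 4) (nat_lit 1) (nat_lit 4) (nat_lit 318) (nat_lit 250) (nat_lit 212))) (XT.nd (nat_lit 78) (nat_lit 0) (nat_lit 0) (XT.lf (nat_lit 0) (nat_lit 1251204103787) (nat_lit 152) (nat_lit 1506515580292) (nat_lit 0) (nat_lit 1248012251730) (nat_lit 1) (nat_lit 5) (nat_lit 3) (nat_lit 4) (nat_lit 1) (nat_lit 4) (nat_lit 319) (nat_lit 250) (nat_lit 211)) (XT.lf (nat_lit 0) (nat_lit 1443025377933) (nat_lit 152) (nat_lit 1723363421787) (nat_lit 0) (nat_lit 1439831730775) (nat_lit 1) (nat_lit 5) (nat_lit 3) (nat_lit 4) (nat_lit 1) (nat_lit 4) (nat_lit 320) (nat_lit 250) (nat_lit 210)))))) (XT.nd (nat_lit 468) (nat_lit 0) (nat_lit 0) (XT.nd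 (nat_lit 234) (nat_lit 0) (nat_lit 0) (XT.nd (nat_lit 78) (nat_lit 0) (nat_lit 0) (XT.lf (nat_lit 0) (nat_lit 1663615043332) (nat_lit 152) (nat_lit 1972747921358) (nat_lit 0) (nat_lit 1660419835217) (nat_lit 1) (nat_lit 5) (nat_lit 3) (nat_lit 4) (nat_lit 1) (nat_lit 4) (nat_lit 321) (nat_lit 250) (nat_lit 209)) (XT.nd (nat_lit 78) (nat_lit 0) (nat_lit 0) (XT.lf (nat_lit 0) (nat_lit 1917288984743) (nat_lit 152) (nat_lit 2259548340952) (nat_lit 0) (nat_lit 1914092419273) (nat_lit 1) (nat_lit 5) (nat_lit 3) (nat_lit 4) (nat_lit 1) (nat_lit 4) (nat_lit 322) (nat_lit 250) (nat_lit 208)) (XT.lf (nat_lit 0) (nat_lit 2209010387974) (nat_lit 152) (nat_lit 2589375993126) (nat_lit 0) (nat_lit 2205812642197) (nat_lit 1) (nat_lit 5) (nat_lit 3) (nat_lit 4) (nat_lit 1) (nat_lit 4) (nat_lit 323) (nat_lit 250) (nat_lit 207)))) (XT.nd (nat_lit 78) (nat_lit 0) (nat_lit 0) (XT.lf (nat_lit 0) (nat_lit 2544486845699)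 (nat_lit 152) (nat_lit 2968684027597) (nat_lit 0) (nat_lit 2541288073567) (nat_lit 1) (nat_lit 5) (nat_lit 3) (nat_lit 4) (nat_lit 1) (nat_lit 4) (nat_lit 324) (nat_lit 250) (nat_lit 206)) (XT.nd (nat_lit 78) (nat_lit 0) (nat_lit 0) (XT.lf (nat_lit 0) (nat_lit 2930282027743) (nat_lit 152) (nat_lit 3404893688517) (nat_lit 0) (nat_lit 2927082363128) (nat_lit 1) (nat_lit 5) (nat_lit 3) (nat_lit 4) (nat_lit 1) (nat_lit 4) (nat_lit 325) (nat_lit 250) (nat_lit 205)) (XT.lf (nat_lit 0) (nat_lit 3373944100709) (nat_lit 152) (nat_lit 3906539512731) (nat_lit 0) (nat_lit 3370743660023) (nat_lit 1) (nat_lit 5) (nat_lit 3) (nat_lit 4) (nat_lit 1) (nat_lit 4) (nat_lit 326) (nat_lit 250) (nat_lit 204))))) (XT.nd (nat_lit 234) (nat_lit 0) (nat_lit 0) (XT.nd (nat_lit 78) (nat_lit 0) (nat_lit 0) (XT.lf (nat_lit 0) (nat_lit 3884153409505) (nat_lit 152) (nat_lit 4483436309843) (nat_lit 0) (nat_lit 3880952293974)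 (nat_lit 1) (nat_lit 5) (nat_lit 3) (nat_lit 4) (nat_lit 1) (nat_lit 4) (nat_lit 327) (nat_lit 250) (nat_lit 203)) (XT.nd (nat_lit 78) (nat_lit 0) (nat_lit 0) (XT.lf (nat_lit 0) (nat_lit 4470892310172) (nat_lit 152) (nat_lit 5146871191100) (nat_lit 0) (nat_lit 4467690607819) (nat_lit 1) (nat_lit 5) (nat_lit 3) (nat_lit 4) (nat_lit 1) (nat_lit 4) (nat_lit 328) (nat_lit 250) (nat_lit 202)) (XT.lf (nat_lit 0) (nat_lit 5145640476854) (nat_lit 152) (nat_lit 5909824404179) (nat_lit 0) (nat_lit 5142438264220) (nat_lit 1) (nat_lit 5) (nat_lit 3) (nat_lit 4) (nat_lit 1) (nat_lit 4) (nat_lit 329) (nat_lit 250) (nat_lit 201)))) (XT.nd (nat_lit 36660) (nat_lit 0) (nat_lit 608) (XT.nd (nat_lit 36582) (nat_lit 0) (nat_lit 836) (XT.lf (nat_lit 0) (nat_lit 5921599504115) (nat_lit 152) (nat_lit 6787223294555) (nat_lit 0) (nat_lit 5918396847760) (nat_lit 1) (nat_lit 5) (nat_lit 3) (nat_lit 4) (nat_lit 1)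 (nat_lit 4) (nat_lit 330) (nat_lit 250) (nat_lit 200)) (XT.lf (nat_lit 0) (nat_lit 6990417879) (nat_lit 76) (nat_lit 832909373) (nat_lit 76) (nat_lit 832909373) (nat_lit 12) (nat_lit 4) (nat_lit 13) (nat_lit 5) (nat_lit 13) (nat_lit 4) (nat_lit 278) (nat_lit 251) (nat_lit 251))) (XT.nd (nat_lit 78) (nat_lit 76) (nat_lit 0) (XT.lf (nat_lit 0) (nat_lit 7183133330) (nat_lit 152) (nat_lit 5370434605) (nat_lit 0) (nat_lit 6577410672) (nat_lit 10) (nat_lit 5) (nat_lit 12) (nat_lit 4) (nat_lit 10) (nat_lit 4) (nat_lit 279) (nat_lit 251) (nat_lit 250)) (XT.lf (nat_lit 0) (nat_lit 11303728837) (nat_lit 76) (nat_lit 5540668167) (nat_lit 76) (nat_lit 4408230155) (nat_lit 9) (nat_lit 4) (nat_lit 10) (nat_lit 5) (nat_lit 10) (nat_lit 4) (nat_lit 280) (nat_lit 251) (nat_lit 249))))))))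
noncomputable def xc13 : XT := (XT.nd (nat_lit 2028) (nat_lit 0) (nat_lit 0) (XT.nd (nat_lit 1014) (nat_lit 152) (nat_lit 0) (XT.nd (nat_lit 468) (nat_lit 76) (nat_lit 0) (XT.nd (nat_lit 234) (nat_lit 152) (nat_lit 0) (XT.nd (nat_lit 78) (nat_lit 76) (nat_lit 0) (XT.lf (nat_lit 0) (nat_lit 3621818932) (nat_lit 152) (nat_lit 17947924087) (nat_lit 0) (nat_lit 2149178780) (nat_lit 7) (nat_lit 5) (nat_lit 9) (nat_lit 4) (nat_lit 7) (nat_lit 4) (nat_lit 281) (nat_lit 251) (nat_lit 248)) (XT.nd (nat_lit 78) (nat_lit 76) (nat_lit 0) (XT.lf (nat_lit 0) (nat_lit 12324920564) (nat_lit 152) (nat_lit 3759567651) (nat_lit 0) (nat_lit 10483509598) (nat_lit 7) (nat_lit 5) (nat_lit 9) (nat_lit 4) (nat_lit 7) (nat_lit 4) (nat_lit 282) (nat_lit 251) (nat_lit 247)) (XT.lf (nat_lit 0) (nat_lit 11940212197) (nat_lit 76) (nat_lit 10047154390) (nat_lit 76) (nat_lit 7885073150) (nat_lit 6) (nat_lit 4) (nat_lit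 7) (nat_lit 5) (nat_lit 7) (nat_lit 4) (nat_lit 283) (nat_lit 251) (nat_lit 246)))) (XT.nd (nat_lit 78) (nat_lit 152) (nat_lit 0) (XT.lf (nat_lit 0) (nat_lit 29111269065) (nat_lit 76) (nat_lit 3519956948) (nat_lit 76) (nat_lit 1079031992) (nat_lit 6) (nat_lit 4) (nat_lit 7) (nat_lit 5) (nat_lit 7) (nat_lit 4) (nat_lit 284) (nat_lit 251) (nat_lit 245)) (XT.nd (nat_lit 78) (nat_lit 0) (nat_lit 0) (XT.lf (nat_lit 0) (nat_lit 6232359837) (nat_lit 152) (nat_lit 28145134110) (nat_lit 0) (nat_lit 3747732288) (nat_lit 4) (nat_lit 5) (nat_lit 6) (nat_lit 4) (nat_lit 4) (nat_lit 4) (nat_lit 285) (nat_lit 251) (nat_lit 244)) (XT.lf (nat_lit 0) (nat_lit 14332520785) (nat_lit 152) (nat_lit 17234726822) (nat_lit 0) (nat_lit 11652665542) (nat_lit 4) (nat_lit 5) (nat_lit 6) (nat_lit 4) (nat_lit 4) (nat_lit 4) (nat_lit 286) (nat_lit 251) (nat_lit 243))))) (XT.nd (nat_lit 234) (nat_lit 0) (nat_lit 0) (XT.nd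 (nat_lit 78) (nat_lit 76) (nat_lit 0) (XT.lf (nat_lit 0) (nat_lit 23229800504) (nat_lit 152) (nat_lit 5502419653) (nat_lit 0) (nat_lit 20380182048) (nat_lit 4) (nat_lit 5) (nat_lit 6) (nat_lit 4) (nat_lit 4) (nat_lit 4) (nat_lit 287) (nat_lit 251) (nat_lit 242)) (XT.nd (nat_lit 78) (nat_lit 0) (nat_lit 0) (XT.lf (nat_lit 0) (nat_lit 7664754604) (nat_lit 76) (nat_lit 25617859134) (nat_lit 76) (nat_lit 22620620493) (nat_lit 3) (nat_lit 4) (nat_lit 4) (nat_lit 5) (nat_lit 4) (nat_lit 4) (nat_lit 288) (nat_lit 251) (nat_lit 241)) (XT.lf (nat_lit 0) (nat_lit 22491776386) (nat_lit 76) (nat_lit 22180178140) (nat_lit 76) (nat_lit 19054574121) (nat_lit 3) (nat_lit 4) (nat_lit 4) (nat_lit 5) (nat_lit 4) (nat_lit 4) (nat_lit 289) (nat_lit 251) (nat_lit 240)))) (XT.nd (nat_lit 156) (nat_lit 0) (nat_lit 0) (XT.nd (nat_lit 78) (nat_lit 0) (nat_lit 0) (XT.lf (nat_lit 0) (nat_lit 38978991927) (nat_lit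 76) (nat_lit 18502364105) (nat_lit 76) (nat_lit 15265138018) (nat_lit 3) (nat_lit 4) (nat_lit 4) (nat_lit 5) (nat_lit 4) (nat_lit 4) (nat_lit 290) (nat_lit 251) (nat_lit 239)) (XT.lf (nat_lit 0) (nat_lit 57448977184) (nat_lit 76) (nat_lit 14512459797) (nat_lit 76) (nat_lit 11178171042) (nat_lit 3) (nat_lit 4) (nat_lit 4) (nat_lit 5) (nat_lit 4) (nat_lit 4) (nat_lit 291) (nat_lit 251) (nat_lit 238))) (XT.nd (nat_lit 78) (nat_lit 0) (nat_lit 0) (XT.lf (nat_lit 0) (nat_lit 78263101434) (nat_lit 76) (nat_lit 10132401872) (nat_lit 76) (nat_lit 6713710797) (nat_lit 3) (nat_lit 4) (nat_lit 4) (nat_lit 5) (nat_lit 4) (nat_lit 4) (nat_lit 292) (nat_lit 251) (nat_lit 237)) (XT.lf (nat_lit 0) (nat_lit 101828597543) (nat_lit 76) (nat_lit 5276493543) (nat_lit 76) (nat_lit 1784409146) (nat_lit 3) (nat_lit 4) (nat_lit 4) (nat_lit 5) (nat_lit 4) (nat_lit 4) (nat_lit 293) (nat_lit 251) (nat_lit 236))))))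 (XT.nd (nat_lit 468) (nat_lit 0) (nat_lit 0) (XT.nd (nat_lit 234) (nat_lit 0) (nat_lit 0) (XT.nd (nat_lit 78) (nat_lit 0) (nat_lit 0) (XT.lf (nat_lit 0) (nat_lit 3624560345) (nat_lit 152) (nat_lit 120778031131) (nat_lit 0) (nat_lit 332056015) (nat_lit 1) (nat_lit 5) (nat_lit 3) (nat_lit 4) (nat_lit 1) (nat_lit 4) (nat_lit 294) (nat_lit 251) (nat_lit 235)) (XT.nd (nat_lit 78) (nat_lit 0) (nat_lit 0) (XT.lf (nat_lit 0) (nat_lit 9941060580) (nat_lit 152) (nat_lit 126398530303) (nat_lit 0) (nat_lit 6597171162) (nat_lit 1) (nat_lit 5) (nat_lit 3) (nat_lit 4) (nat_lit 1) (nat_lit 4) (nat_lit 295) (nat_lit 251) (nat_lit 234)) (XT.lf (nat_lit 0) (nat_lit 17067638764) (nat_lit 152) (nat_lit 133133523995) (nat_lit 0) (nat_lit 13679066661) (nat_lit 1) (nat_lit 5) (nat_lit 3) (nat_lit 4) (nat_lit 1) (nat_lit 4) (nat_lit 296) (nat_lit 251) (nat_lit 233)))) (XT.nd (nat_lit 78) (nat_lit 0) (nat_lit 0)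 (XT.lf (nat_lit 0) (nat_lit 25143727949) (nat_lit 152) (nat_lit 141114783822) (nat_lit 0) (nat_lit 21716301336) (nat_lit 1) (nat_lit 5) (nat_lit 3) (nat_lit 4) (nat_lit 1) (nat_lit 4) (nat_lit 297) (nat_lit 251) (nat_lit 232)) (XT.nd (nat_lit 78) (nat_lit 0) (nat_lit 0) (XT.lf (nat_lit 0) (nat_lit 34327338575) (nat_lit 152) (nat_lit 150498464867) (nat_lit 0) (nat_lit 30866125432) (nat_lit 1) (nat_lit 5) (nat_lit 3) (nat_lit 4) (nat_lit 1) (nat_lit 4) (nat_lit 298) (nat_lit 251) (nat_lit 231)) (XT.lf (nat_lit 0) (nat_lit 44798149980) (nat_lit 152) (nat_lit 161468160891) (nat_lit 0) (nat_lit 41307557247) (nat_lit 1) (nat_lit 5) (nat_lit 3) (nat_lit 4) (nat_lit 1) (nat_lit 4) (nat_lit 299) (nat_lit 251) (nat_lit 230))))) (XT.nd (nat_lit 234) (nat_lit 0) (nat_lit 0) (XT.nd (nat_lit 78) (nat_lit 0) (nat_lit 0) (XT.lf (nat_lit 0) (nat_lit 56761025866) (nat_lit 152) (nat_lit 174238496380) (nat_lit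 0) (nat_lit 53244885662) (nat_lit 1) (nat_lit 5) (nat_lit 3) (nat_lit 4) (nat_lit 1) (nat_lit 4) (nat_lit 300) (nat_lit 251) (nat_lit 229)) (XT.nd (nat_lit 78) (nat_lit 0) (nat_lit 0) (XT.lf (nat_lit 0) (nat_lit 70450022501) (nat_lit 152) (nat_lit 189059325724) (nat_lit 0) (nat_lit 66911667105) (nat_lit 1) (nat_lit 5) (nat_lit 3) (nat_lit 4) (nat_lit 1) (nat_lit 4) (nat_lit 301) (nat_lit 251) (nat_lit 228)) (XT.lf (nat_lit 0) (nat_lit 86132968078) (nat_lit 152) (nat_lit 206220621672) (nat_lit 0) (nat_lit 82575295125) (nat_lit 1) (nat_lit 5) (nat_lit 3) (nat_lit 4) (nat_lit 1) (nat_lit 4) (nat_lit 302) (nat_lit 251) (nat_lit 227)))) (XT.nd (nat_lit 156) (nat_lit 0) (nat_lit 0) (XT.nd (nat_lit 78) (nat_lit 0) (nat_lit 0) (XT.lf (nat_lit 0) (nat_lit 104116702838) (nat_lit 152) (nat_lit 226058148710) (nat_lit 0) (nat_lit 100542232008) (nat_lit 1) (nat_lit 5) (nat_lit 3) (nat_lit 4) (nat_lit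 1) (nat_lit 4) (nat_lit 303) (nat_lit 251) (nat_lit 226)) (XT.lf (nat_lit 0) (nat_lit 124753082462) (nat_lit 152) (nat_lit 248960032367) (nat_lit 0) (nat_lit 121164004783) (nat_lit 1) (nat_lit 5) (nat_lit 3) (nat_lit 4) (nat_lit 1) (nat_lit 4) (nat_lit 304) (nat_lit 251) (nat_lit 225))) (XT.nd (nat_lit 78) (nat_lit 0) (nat_lit 0) (XT.lf (nat_lit 0) (nat_lit 148445862201) (nat_lit 152) (nat_lit 275374352974) (nat_lit 0) (nat_lit 144844082914) (nat_lit 1) (nat_lit 5) (nat_lit 3) (nat_lit 4) (nat_lit 1) (nat_lit 4) (nat_lit 305) (nat_lit 251) (nat_lit 224)) (XT.lf (nat_lit 0) (nat_lit 175658596443) (nat_lit 152) (nat_lit 305817912457) (nat_lit 0) (nat_lit 172045772280) (nat_lit 1) (nat_lit 5) (nat_lit 3) (nat_lit 4) (nat_lit 1) (nat_lit 4) (nat_lit 306) (nat_lit 251) (nat_lit 223))))))) (XT.nd (nat_lit 1014) (nat_lit 0) (nat_lit 0) (XT.nd (nat_lit 468) (nat_lit 0) (nat_lit 0) (XT.nd (nat_lit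 234) (nat_lit 0) (nat_lit 0) (XT.nd (nat_lit 78) (nat_lit 0) (nat_lit 0) (XT.lf (nat_lit 0) (nat_lit 206923708249) (nat_lit 152) (nat_lit 340886345676) (nat_lit 0) (nat_lit 203301279845) (nat_lit 1) (nat_lit 5) (nat_lit 3) (nat_lit 4) (nat_lit 1) (nat_lit 4) (nat_lit 307) (nat_lit 251) (nat_lit 222)) (XT.nd (nat_lit 78) (nat_lit 0) (nat_lit 0) (XT.lf (nat_lit 0) (nat_lit 242852906328) (nat_lit 152) (nat_lit 381265774149) (nat_lit 0) (nat_lit 239222126411) (nat_lit 1) (nat_lit 5) (nat_lit 3) (nat_lit 4) (nat_lit 1) (nat_lit 4) (nat_lit 308) (nat_lit 251) (nat_lit 221)) (XT.lf (nat_lit 0) (nat_lit 284149153251) (nat_lit 152) (nat_lit 427746230173) (nat_lit 0) (nat_lit 280511111149) (nat_lit 1) (nat_lit 5) (nat_lit 3) (nat_lit 4) (nat_lit 1) (nat_lit 4) (nat_lit 309) (nat_lit 251) (nat_lit 220)))) (XT.nd (nat_lit 78) (nat_lit 0) (nat_lit 0) (XT.lf (nat_lit 0) (nat_lit 331620419067) (nat_lit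 152) (nat_lit 481237113975) (nat_lit 0) (nat_lit 327976062020) (nat_lit 1) (nat_lit 5) (nat_lit 3) (nat_lit 4) (nat_lit 1) (nat_lit 4) (nat_lit 310) (nat_lit 251) (nat_lit 219)) (XT.nd (nat_lit 78) (nat_lit 0) (nat_lit 0) (XT.lf (nat_lit 0) (nat_lit 386195489411) (nat_lit 152) (nat_lit 542784986325) (nat_lit 0) (nat_lit 382545641109) (nat_lit 1) (nat_lit 5) (nat_lit 3) (nat_lit 4) (nat_lit 1) (nat_lit 4) (nat_lit 311) (nat_lit 251) (nat_lit 218)) (XT.lf (nat_lit 0) (nat_lit 448942137399) (nat_lit 152) (nat_lit 613594044725) (nat_lit 0) (nat_lit 445287514092) (nat_lit 1) (nat_lit 5) (nat_lit 3) (nat_lit 4) (nat_lit 1) (nat_lit 4) (nat_lit 312) (nat_lit 251) (nat_lit 217))))) (XT.nd (nat_lit 234) (nat_lit 0) (nat_lit 0) (XT.nd (nat_lit 78) (nat_lit 0) (nat_lit 0) (XT.lf (nat_lit 0) (nat_lit 521088014839) (nat_lit 152) (nat_lit 695049683796) (nat_lit 0) (nat_lit 517429239353) (nat_lit 1)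 (nat_lit 5) (nat_lit 3) (nat_lit 4) (nat_lit 1) (nat_lit 4) (nat_lit 313) (nat_lit 251) (nat_lit 216)) (XT.nd (nat_lit 78) (nat_lit 0) (nat_lit 0) (XT.lf (nat_lit 0) (nat_lit 604044671507) (nat_lit 152) (nat_lit 788745600824) (nat_lit 0) (nat_lit 600382285432) (nat_lit 1) (nat_lit 5) (nat_lit 3) (nat_lit 4) (nat_lit 1) (nat_lit 4) (nat_lit 314) (nat_lit 251) (nat_lit 215)) (XT.lf (nat_lit 0) (nat_lit 699435172425) (nat_lit 152) (nat_lit 896514976794) (nat_lit 0) (nat_lit 695769646706) (nat_lit 1) (nat_lit 5) (nat_lit 3) (nat_lit 4) (nat_lit 1) (nat_lit 4) (nat_lit 315) (nat_lit 251) (nat_lit 214)))) (XT.nd (nat_lit 156) (nat_lit 0) (nat_lit 0) (XT.nd (nat_lit 78) (nat_lit 0) (nat_lit 0) (XT.lf (nat_lit 0) (nat_lit 809125853480) (nat_lit 152) (nat_lit 1020466342976) (nat_lit 0) (nat_lit 805457597637) (nat_lit 1) (nat_lit 5) (nat_lit 3) (nat_lit 4) (nat_lit 1) (nat_lit 4) (nat_lit 316) (nat_lit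 251) (nat_lit 213)) (XT.lf (nat_lit 0) (nat_lit 935262836693) (nat_lit 152) (nat_lit 1163024834795) (nat_lit 0) (nat_lit 931592206829) (nat_lit 1) (nat_lit 5) (nat_lit 3) (nat_lit 4) (nat_lit 1) (nat_lit 4) (nat_lit 317) (nat_lit 251) (nat_lit 212))) (XT.nd (nat_lit 78) (nat_lit 0) (nat_lit 0) (XT.lf (nat_lit 0) (nat_lit 1080314019562) (nat_lit 152) (nat_lit 1326979640134) (nat_lit 0) (nat_lit 1076641325331) (nat_lit 1) (nat_lit 5) (nat_lit 3) (nat_lit 4) (nat_lit 1) (nat_lit 4) (nat_lit 318) (nat_lit 251) (nat_lit 211)) (XT.lf (nat_lit 0) (nat_lit 1247117360012) (nat_lit 152) (nat_lit 1515538570402) (nat_lit 0) (nat_lit 1243442870680) (nat_lit 1) (nat_lit 5) (nat_lit 3) (nat_lit 4) (nat_lit 1) (nat_lit 4) (nat_lit 319) (nat_lit 251) (nat_lit 210)))))) (XT.nd (nat_lit 546) (nat_lit 0) (nat_lit 0) (XT.nd (nat_lit 234) (nat_lit 0) (nat_lit 0) (XT.nd (nat_lit 78) (nat_lit 0) (nat_lit 0) (XT.lf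 (nat_lit 0) (nat_lit 1438936401661) (nat_lit 152) (nat_lit 1732390822061) (nat_lit 0) (nat_lit 1435260351372) (nat_lit 1) (nat_lit 5) (nat_lit 3) (nat_lit 4) (nat_lit 1) (nat_lit 4) (nat_lit 320) (nat_lit 251) (nat_lit 209)) (XT.nd (nat_lit 78) (nat_lit 0) (nat_lit 0) (XT.lf (nat_lit 0) (nat_lit 1659524125759) (nat_lit 152) (nat_lit 1981779156556) (nat_lit 0) (nat_lit 1655846718115) (nat_lit 1) (nat_lit 5) (nat_lit 3) (nat_lit 4) (nat_lit 1) (nat_lit 4) (nat_lit 321) (nat_lit 251) (nat_lit 208)) (XT.lf (nat_lit 0) (nat_lit 1913196379081) (nat_lit 152) (nat_lit 2268582910866) (nat_lit 0) (nat_lit 1909517791129) (nat_lit 1) (nat_lit 5) (nat_lit 3) (nat_lit 4) (nat_lit 1) (nat_lit 4) (nat_lit 322) (nat_lit 251) (nat_lit 207)))) (XT.nd (nat_lit 156) (nat_lit 0) (nat_lit 0) (XT.nd (nat_lit 78) (nat_lit 0) (nat_lit 0) (XT.lf (nat_lit 0) (nat_lit 2204916314410) (nat_lit 152) (nat_lit 2598413462794)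 (nat_lit 0) (nat_lit 2201236700103) (nat_lit 1) (nat_lit 5) (nat_lit 3) (nat_lit 4) (nat_lit 1) (nat_lit 4) (nat_lit 323) (nat_lit 251) (nat_lit 206)) (XT.lf (nat_lit 0) (nat_lit 2540391495697) (nat_lit 152) (nat_lit 2977724018790) (nat_lit 0) (nat_lit 2536710988908) (nat_lit 1) (nat_lit 5) (nat_lit 3) (nat_lit 4) (nat_lit 1) (nat_lit 4) (nat_lit 324) (nat_lit 251) (nat_lit 205))) (XT.nd (nat_lit 78) (nat_lit 0) (nat_lit 0) (XT.lf (nat_lit 0) (nat_lit 2926185567795) (nat_lit 152) (nat_lit 3413935872341) (nat_lit 0) (nat_lit 2922504284933) (nat_lit 1) (nat_lit 5) (nat_lit 3) (nat_lit 4) (nat_lit 1) (nat_lit 4) (nat_lit 325) (nat_lit 251) (nat_lit 204)) (XT.lf (nat_lit 0) (nat_lit 3369846675591) (nat_lit 152) (nat_lit 3915583603190) (nat_lit 0) (nat_lit 3366164717885) (nat_lit 1) (nat_lit 5) (nat_lit 3) (nat_lit 4) (nat_lit 1) (nat_lit 4) (nat_lit 326) (nat_lit 251) (nat_lit 203))))) (XT.nd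 (nat_lit 234) (nat_lit 0) (nat_lit 0) (XT.nd (nat_lit 78) (nat_lit 0) (nat_lit 0) (XT.lf (nat_lit 0) (nat_lit 3880055145109) (nat_lit 152) (nat_lit 4492482058245) (nat_lit 0) (nat_lit 3876372600581) (nat_lit 1) (nat_lit 5) (nat_lit 3) (nat_lit 4) (nat_lit 1) (nat_lit 4) (nat_lit 327) (nat_lit 251) (nat_lit 202)) (XT.nd (nat_lit 78) (nat_lit 0) (nat_lit 0) (XT.lf (nat_lit 0) (nat_lit 4466793315969) (nat_lit 152) (nat_lit 5155918381193) (nat_lit 0) (nat_lit 4463110261161) (nat_lit 1) (nat_lit 5) (nat_lit 3) (nat_lit 4) (nat_lit 1) (nat_lit 4) (nat_lit 328) (nat_lit 251) (nat_lit 201)) (XT.lf (nat_lit 0) (nat_lit 5141540848035) (nat_lit 152) (nat_lit 5918872847916) (nat_lit 0) (nat_lit 5137857349506) (nat_lit 1) (nat_lit 5) (nat_lit 3) (nat_lit 4) (nat_lit 1) (nat_lit 4) (nat_lit 329) (nat_lit 251) (nat_lit 200)))) (XT.nd (nat_lit 36504) (nat_lit 0) (nat_lit 836) (XT.nd (nat_lit 36426) (nat_lit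 0) (nat_lit 1064) (XT.lf (nat_lit 0) (nat_lit 5917499323458) (nat_lit 152) (nat_lit 6796272828416) (nat_lit 0) (nat_lit 5913815439083) (nat_lit 1) (nat_lit 5) (nat_lit 3) (nat_lit 4) (nat_lit 1) (nat_lit 4) (nat_lit 330) (nat_lit 251) (nat_lit 199)) (XT.lf (nat_lit 0) (nat_lit 5087482554) (nat_lit 76) (nat_lit 1046846101) (nat_lit 76) (nat_lit 1046846101) (nat_lit 15) (nat_lit 4) (nat_lit 16) (nat_lit 5) (nat_lit 16) (nat_lit 4) (nat_lit 276) (nat_lit 252) (nat_lit 252))) (XT.nd (nat_lit 78) (nat_lit 76) (nat_lit 0) (XT.lf (nat_lit 0) (nat_lit 6530649424) (nat_lit 152) (nat_lit 3430136759) (nat_lit 0) (nat_lit 5778341883) (nat_lit 13) (nat_lit 5) (nat_lit 15) (nat_lit 4) (nat_lit 13) (nat_lit 4) (nat_lit 277) (nat_lit 252) (nat_lit 251)) (XT.lf (nat_lit 0) (nat_lit 13229978131) (nat_lit 76) (nat_lit 2760961817) (nat_lit 76) (nat_lit 1354473806) (nat_lit 12) (nat_lit 4) (nat_lit 13) (nat_lit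 5) (nat_lit 13) (nat_lit 4) (nat_lit 278) (nat_lit 252) (nat_lit 250))))))))
noncomputable def xc14 : XT := (XT.nd (nat_lit 2028) (nat_lit 0) (nat_lit 0) (XT.nd (nat_lit 1014) (nat_lit 152) (nat_lit 0) (XT.nd (nat_lit 468) (nat_lit 228) (nat_lit 0) (XT.nd (nat_lit 234) (nat_lit 76) (nat_lit 0) (XT.nd (nat_lit 78) (nat_lit 228) (nat_lit 0) (XT.lf (nat_lit 0) (nat_lit 7043070001) (nat_lit 152) (nat_lit 6941306365) (nat_lit 0) (nat_lit 5214050932) (nat_lit 10) (nat_lit 5) (nat_lit 12) (nat_lit 4) (nat_lit 10) (nat_lit 4) (nat_lit 279) (nat_lit 252) (nat_lit 249)) (XT.nd (nat_lit 78) (nat_lit 152) (nat_lit 0) (XT.lf (nat_lit 0) (nat_lit 8981344597) (nat_lit 76) (nat_lit 7328755747) (nat_lit 76) (nat_lit 5041723327) (nat_lit 9) (nat_lit 4) (nat_lit 10) (nat_lit 5) (nat_lit 10) (nat_lit 4) (nat_lit 280) (nat_lit 252) (nat_lit 248)) (XT.lf (nat_lit 0) (nat_lit 2575381005) (nat_lit 152) (nat_lit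 21190707744) (nat_lit 0) (nat_lit 88987579) (nat_lit 7) (nat_lit 5) (nat_lit 9) (nat_lit 4) (nat_lit 7) (nat_lit 4) (nat_lit 281) (nat_lit 252) (nat_lit 247)))) (XT.nd (nat_lit 78) (nat_lit 76) (nat_lit 0) (XT.lf (nat_lit 0) (nat_lit 10983932291) (nat_lit 152) (nat_lit 7567061924) (nat_lit 0) (nat_lit 8176868591) (nat_lit 7) (nat_lit 5) (nat_lit 9) (nat_lit 4) (nat_lit 7) (nat_lit 4) (nat_lit 282) (nat_lit 252) (nat_lit 246)) (XT.nd (nat_lit 78) (nat_lit 0) (nat_lit 0) (XT.lf (nat_lit 0) (nat_lit 7415311347) (nat_lit 76) (nat_lit 12866112257) (nat_lit 76) (nat_lit 9780204841) (nat_lit 6) (nat_lit 4) (nat_lit 7) (nat_lit 5) (nat_lit 7) (nat_lit 4) (nat_lit 283) (nat_lit 252) (nat_lit 245)) (XT.lf (nat_lit 0) (nat_lit 24136880671) (nat_lit 76) (nat_lit 6554869793) (nat_lit 76) (nat_lit 3226489581) (nat_lit 6) (nat_lit 4) (nat_lit 7) (nat_lit 5) (nat_lit 7) (nat_lit 4) (nat_lit 284) (nat_lit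 252) (nat_lit 244))))) (XT.nd (nat_lit 234) (nat_lit 76) (nat_lit 0) (XT.nd (nat_lit 78) (nat_lit 0) (nat_lit 0) (XT.lf (nat_lit 0) (nat_lit 3761199243) (nat_lit 152) (nat_lit 34126582082) (nat_lit 0) (nat_lit 484138018) (nat_lit 4) (nat_lit 5) (nat_lit 6) (nat_lit 4) (nat_lit 4) (nat_lit 4) (nat_lit 285) (nat_lit 252) (nat_lit 243)) (XT.nd (nat_lit 78) (nat_lit 0) (nat_lit 0) (XT.lf (nat_lit 0) (nat_lit 11666985599) (nat_lit 152) (nat_lit 23595086986) (nat_lit 0) (nat_lit 8220161162) (nat_lit 4) (nat_lit 5) (nat_lit 6) (nat_lit 4) (nat_lit 4) (nat_lit 4) (nat_lit 286) (nat_lit 252) (nat_lit 242)) (XT.lf (nat_lit 0) (nat_lit 20395243935) (nat_lit 152) (nat_lit 12192268679) (nat_lit 0) (nat_lit 16800799313) (nat_lit 4) (nat_lit 5) (nat_lit 6) (nat_lit 4) (nat_lit 4) (nat_lit 4) (nat_lit 287) (nat_lit 252) (nat_lit 241)))) (XT.nd (nat_lit 156) (nat_lit 0) (nat_lit 0) (XT.nd (nat_lit 78)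 (nat_lit 0) (nat_lit 0) (XT.lf (nat_lit 0) (nat_lit 321030713) (nat_lit 76) (nat_lit 29803434604) (nat_lit 76) (nat_lit 26080624604) (nat_lit 3) (nat_lit 4) (nat_lit 4) (nat_lit 5) (nat_lit 4) (nat_lit 4) (nat_lit 288) (nat_lit 252) (nat_lit 240)) (XT.lf (nat_lit 0) (nat_lit 14885792258) (nat_lit 76) (nat_lit 26493902032) (nat_lit 76) (nat_lit 22659469964) (nat_lit 3) (nat_lit 4) (nat_lit 4) (nat_lit 5) (nat_lit 4) (nat_lit 4) (nat_lit 289) (nat_lit 252) (nat_lit 239))) (XT.nd (nat_lit 78) (nat_lit 0) (nat_lit 0) (XT.lf (nat_lit 0) (nat_lit 31144955420) (nat_lit 76) (nat_lit 22927521408) (nat_lit 76) (nat_lit 18996026672) (nat_lit 3) (nat_lit 4) (nat_lit 4) (nat_lit 5) (nat_lit 4) (nat_lit 4) (nat_lit 290) (nat_lit 252) (nat_lit 238)) (XT.lf (nat_lit 0) (nat_lit 49416634261) (nat_lit 76) (nat_lit 19034515718) (nat_lit 76) (nat_lit 15018618662) (nat_lit 3) (nat_lit 4) (nat_lit 4) (nat_lit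 5) (nat_lit 4) (nat_lit 4) (nat_lit 291) (nat_lit 252) (nat_lit 237)))))) (XT.nd (nat_lit 468) (nat_lit 0) (nat_lit 0) (XT.nd (nat_lit 234) (nat_lit 152) (nat_lit 0) (XT.nd (nat_lit 78) (nat_lit 0) (nat_lit 0) (XT.lf (nat_lit 0) (nat_lit 70058318149) (nat_lit 76) (nat_lit 14738717460) (nat_lit 76) (nat_lit 10649427082) (nat_lit 3) (nat_lit 4) (nat_lit 4) (nat_lit 5) (nat_lit 4) (nat_lit 4) (nat_lit 292) (nat_lit 252) (nat_lit 236)) (XT.nd (nat_lit 78) (nat_lit 0) (nat_lit 0) (XT.lf (nat_lit 0) (nat_lit 93473866116) (nat_lit 76) (nat_lit 9956078407) (nat_lit 76) (nat_lit 5802967750) (nat_lit 3) (nat_lit 4) (nat_lit 4) (nat_lit 5) (nat_lit 4) (nat_lit 4) (nat_lit 293) (nat_lit 252) (nat_lit 235)) (XT.lf (nat_lit 0) (nat_lit 120121408450) (nat_lit 76) (nat_lit 4593025187) (nat_lit 76) (nat_lit 384418635) (nat_lit 3) (nat_lit 4) (nat_lit 4) (nat_lit 5) (nat_lit 4) (nat_lit 4) (nat_lit 294)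 (nat_lit 252) (nat_lit 234)))) (XT.nd (nat_lit 78) (nat_lit 0) (nat_lit 0) (XT.lf (nat_lit 0) (nat_lit 5647659534) (nat_lit 152) (nat_lit 135972240570) (nat_lit 0) (nat_lit 1706118929) (nat_lit 1) (nat_lit 5) (nat_lit 3) (nat_lit 4) (nat_lit 1) (nat_lit 4) (nat_lit 295) (nat_lit 252) (nat_lit 233)) (XT.nd (nat_lit 78) (nat_lit 0) (nat_lit 0) (XT.lf (nat_lit 0) (nat_lit 12718667612) (nat_lit 152) (nat_lit 142817009649) (nat_lit 0) (nat_lit 8738272499) (nat_lit 1) (nat_lit 5) (nat_lit 3) (nat_lit 4) (nat_lit 1) (nat_lit 4) (nat_lit 296) (nat_lit 252) (nat_lit 232)) (XT.lf (nat_lit 0) (nat_lit 20746434966) (nat_lit 152) (nat_lit 150893726333) (nat_lit 0) (nat_lit 16732253323) (nat_lit 1) (nat_lit 5) (nat_lit 3) (nat_lit 4) (nat_lit 1) (nat_lit 4) (nat_lit 297) (nat_lit 252) (nat_lit 231))))) (XT.nd (nat_lit 234) (nat_lit 0) (nat_lit 0) (XT.nd (nat_lit 78) (nat_lit 0) (nat_lit 0) (XT.lf (nat_lit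 0) (nat_lit 29888026608) (nat_lit 152) (nat_lit 160360413342) (nat_lit 0) (nat_lit 25844465374) (nat_lit 1) (nat_lit 5) (nat_lit 3) (nat_lit 4) (nat_lit 1) (nat_lit 4) (nat_lit 298) (nat_lit 252) (nat_lit 230)) (XT.nd (nat_lit 78) (nat_lit 0) (nat_lit 0) (XT.lf (nat_lit 0) (nat_lit 40322299767) (nat_lit 152) (nat_lit 171402288464) (nat_lit 0) (nat_lit 36253191062) (nat_lit 1) (nat_lit 5) (nat_lit 3) (nat_lit 4) (nat_lit 1) (nat_lit 4) (nat_lit 299) (nat_lit 252) (nat_lit 229)) (XT.lf (nat_lit 0) (nat_lit 52253403265) (nat_lit 152) (nat_lit 184235388387) (nat_lit 0) (nat_lit 48162079369) (nat_lit 1) (nat_lit 5) (nat_lit 3) (nat_lit 4) (nat_lit 1) (nat_lit 4) (nat_lit 300) (nat_lit 252) (nat_lit 228)))) (XT.nd (nat_lit 156) (nat_lit 0) (nat_lit 0) (XT.nd (nat_lit 78) (nat_lit 0) (nat_lit 0) (XT.lf (nat_lit 0) (nat_lit 65914771736) (nat_lit 152) (nat_lit 199110795500) (nat_lit 0) (nat_lit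 61804130281) (nat_lit 1) (nat_lit 5) (nat_lit 3) (nat_lit 4) (nat_lit 1) (nat_lit 4) (nat_lit 301) (nat_lit 252) (nat_lit 227)) (XT.lf (nat_lit 0) (nat_lit 81573692823) (nat_lit 152) (nat_lit 216319550377) (nat_lit 0) (nat_lit 77446253492) (nat_lit 1) (nat_lit 5) (nat_lit 3) (nat_lit 4) (nat_lit 1) (nat_lit 4) (nat_lit 302) (nat_lit 252) (nat_lit 226))) (XT.nd (nat_lit 78) (nat_lit 0) (nat_lit 0) (XT.lf (nat_lit 0) (nat_lit 99536536722) (nat_lit 152) (nat_lit 236198346049) (nat_lit 0) (nat_lit 95394490542) (nat_lit 1) (nat_lit 5) (nat_lit 3) (nat_lit 4) (nat_lit 1) (nat_lit 4) (nat_lit 303) (nat_lit 252) (nat_lit 225)) (XT.lf (nat_lit 0) (nat_lit 120154750380) (nat_lit 152) (nat_lit 259136115474) (nat_lit 0) (nat_lit 116000002591) (nat_lit 1) (nat_lit 5) (nat_lit 3) (nat_lit 4) (nat_lit 1) (nat_lit 4) (nat_lit 304) (nat_lit 252) (nat_lit 224))))))) (XT.nd (nat_lit 1014) (nat_lit 0) (nat_lit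 0) (XT.nd (nat_lit 468) (nat_lit 0) (nat_lit 0) (XT.nd (nat_lit 234) (nat_lit 0) (nat_lit 0) (XT.nd (nat_lit 78) (nat_lit 0) (nat_lit 0) (XT.lf (nat_lit 0) (nat_lit 143831733627) (nat_lit 152) (nat_lit 285581641097) (nat_lit 0) (nat_lit 139665940962) (nat_lit 1) (nat_lit 5) (nat_lit 3) (nat_lit 4) (nat_lit 1) (nat_lit 4) (nat_lit 305) (nat_lit 252) (nat_lit 223)) (XT.nd (nat_lit 78) (nat_lit 0) (nat_lit 0) (XT.lf (nat_lit 0) (nat_lit 171030731789) (nat_lit 152) (nat_lit 316052335377) (nat_lit 0) (nat_lit 166855334884) (nat_lit 1) (nat_lit 5) (nat_lit 3) (nat_lit 4) (nat_lit 1) (nat_lit 4) (nat_lit 306) (nat_lit 252) (nat_lit 222)) (XT.lf (nat_lit 0) (nat_lit 202283899177) (nat_lit 152) (nat_lit 351144364071) (nat_lit 0) (nat_lit 198100150759) (nat_lit 1) (nat_lit 5) (nat_lit 3) (nat_lit 4) (nat_lit 1) (nat_lit 4) (nat_lit 307) (nat_lit 252) (nat_lit 221)))) (XT.nd (nat_lit 78) (nat_lit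 0) (nat_lit 0) (XT.lf (nat_lit 0) (nat_lit 238202710806) (nat_lit 152) (nat_lit 391544310349) (nat_lit 0) (nat_lit 234011700202) (nat_lit 1) (nat_lit 5) (nat_lit 3) (nat_lit 4) (nat_lit 1) (nat_lit 4) (nat_lit 308) (nat_lit 252) (nat_lit 220)) (XT.nd (nat_lit 78) (nat_lit 0) (nat_lit 0) (XT.lf (nat_lit 0) (nat_lit 279489926033) (nat_lit 152) (nat_lit 438042607942) (nat_lit 0) (nat_lit 275292600486) (nat_lit 1) (nat_lit 5) (nat_lit 3) (nat_lit 4) (nat_lit 1) (nat_lit 4) (nat_lit 309) (nat_lit 252) (nat_lit 219)) (XT.lf (nat_lit 0) (nat_lit 326953338201) (nat_lit 152) (nat_lit 491549006153) (nat_lit 0) (nat_lit 322750521397) (nat_lit 1) (nat_lit 5) (nat_lit 3) (nat_lit 4) (nat_lit 1) (nat_lit 4) (nat_lit 310) (nat_lit 252) (nat_lit 218))))) (XT.nd (nat_lit 234) (nat_lit 0) (nat_lit 0) (XT.nd (nat_lit 78) (nat_lit 0) (nat_lit 0) (XT.lf (nat_lit 0) (nat_lit 381521579286) (nat_lit 152) (nat_lit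 553110369292) (nat_lit 0) (nat_lit 377313987477) (nat_lit 1) (nat_lit 5) (nat_lit 3) (nat_lit 4) (nat_lit 1) (nat_lit 4) (nat_lit 311) (nat_lit 252) (nat_lit 217)) (XT.nd (nat_lit 78) (nat_lit 0) (nat_lit 0) (XT.lf (nat_lit 0) (nat_lit 444262288787) (nat_lit 152) (nat_lit 623931158813) (nat_lit 0) (nat_lit 440050544800) (nat_lit 1) (nat_lit 5) (nat_lit 3) (nat_lit 4) (nat_lit 1) (nat_lit 4) (nat_lit 312) (nat_lit 252) (nat_lit 216)) (XT.lf (nat_lit 0) (nat_lit 516403002325) (nat_lit 152) (nat_lit 705396998859) (nat_lit 0) (nat_lit 512187647749) (nat_lit 1) (nat_lit 5) (nat_lit 3) (nat_lit 4) (nat_lit 1) (nat_lit 4) (nat_lit 313) (nat_lit 252) (nat_lit 215)))) (XT.nd (nat_lit 156) (nat_lit 0) (nat_lit 0) (XT.nd (nat_lit 78) (nat_lit 0) (nat_lit 0) (XT.lf (nat_lit 0) (nat_lit 599355168644) (nat_lit 152) (nat_lit 799101786300) (nat_lit 0) (nat_lit 595136674425) (nat_lit 1) (nat_lit 5) (nat_lit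 3) (nat_lit 4) (nat_lit 1) (nat_lit 4) (nat_lit 314) (nat_lit 252) (nat_lit 214)) (XT.lf (nat_lit 0) (nat_lit 694741764911) (nat_lit 152) (nat_lit 906878875673) (nat_lit 0) (nat_lit 690520540567) (nat_lit 1) (nat_lit 5) (nat_lit 3) (nat_lit 4) (nat_lit 1) (nat_lit 4) (nat_lit 315) (nat_lit 252) (nat_lit 213))) (XT.nd (nat_lit 78) (nat_lit 0) (nat_lit 0) (XT.lf (nat_lit 0) (nat_lit 804429050617) (nat_lit 152) (nat_lit 1030836949162) (nat_lit 0) (nat_lit 800205452251) (nat_lit 1) (nat_lit 5) (nat_lit 3) (nat_lit 4) (nat_lit 1) (nat_lit 4) (nat_lit 316) (nat_lit 252) (nat_lit 212)) (XT.lf (nat_lit 0) (nat_lit 930563081353) (nat_lit 152) (nat_lit 1173401273422) (nat_lit 0) (nat_lit 926337418621) (nat_lit 1) (nat_lit 5) (nat_lit 3) (nat_lit 4) (nat_lit 1) (nat_lit 4) (nat_lit 317) (nat_lit 252) (nat_lit 211)))))) (XT.nd (nat_lit 468) (nat_lit 0) (nat_lit 0) (XT.nd (nat_lit 234) (nat_lit 0)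 (nat_lit 0) (XT.nd (nat_lit 78) (nat_lit 0) (nat_lit 0) (XT.lf (nat_lit 0) (nat_lit 1075611696850) (nat_lit 152) (nat_lit 1337361150448) (nat_lit 0) (nat_lit 1071384239017) (nat_lit 1) (nat_lit 5) (nat_lit 3) (nat_lit 4) (nat_lit 1) (nat_lit 4) (nat_lit 318) (nat_lit 252) (nat_lit 210)) (XT.nd (nat_lit 78) (nat_lit 0) (nat_lit 0) (XT.lf (nat_lit 0) (nat_lit 1242412804803) (nat_lit 152) (nat_lit 1525924490879) (nat_lit 0) (nat_lit 1238183786013) (nat_lit 1) (nat_lit 5) (nat_lit 3) (nat_lit 4) (nat_lit 1) (nat_lit 4) (nat_lit 319) (nat_lit 252) (nat_lit 209)) (XT.lf (nat_lit 0) (nat_lit 1434229905150) (nat_lit 152) (nat_lit 1742780577462) (nat_lit 0) (nat_lit 1429999529005) (nat_lit 1) (nat_lit 5) (nat_lit 3) (nat_lit 4) (nat_lit 1) (nat_lit 4) (nat_lit 320) (nat_lit 252) (nat_lit 208)))) (XT.nd (nat_lit 78) (nat_lit 0) (nat_lit 0) (XT.lf (nat_lit 0) (nat_lit 1654815941160) (nat_lit 152)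 (nat_lit 1992172246674) (nat_lit 0) (nat_lit 1650584384706) (nat_lit 1) (nat_lit 5) (nat_lit 3) (nat_lit 4) (nat_lit 1) (nat_lit 4) (nat_lit 321) (nat_lit 252) (nat_lit 207)) (XT.nd (nat_lit 78) (nat_lit 0) (nat_lit 0) (XT.lf (nat_lit 0) (nat_lit 1908486726578) (nat_lit 152) (nat_lit 2278978900739) (nat_lit 0) (nat_lit 1904254143770) (nat_lit 1) (nat_lit 5) (nat_lit 3) (nat_lit 4) (nat_lit 1) (nat_lit 4) (nat_lit 322) (nat_lit 252) (nat_lit 206)) (XT.lf (nat_lit 0) (nat_lit 2200205385470) (nat_lit 152) (nat_lit 2608811974192) (nat_lit 0) (nat_lit 2195971910179) (nat_lit 1) (nat_lit 5) (nat_lit 3) (nat_lit 4) (nat_lit 1) (nat_lit 4) (nat_lit 323) (nat_lit 252) (nat_lit 205))))) (XT.nd (nat_lit 234) (nat_lit 0) (nat_lit 0) (XT.nd (nat_lit 78) (nat_lit 0) (nat_lit 0) (XT.lf (nat_lit 0) (nat_lit 2535679456812) (nat_lit 152) (nat_lit 2988124722818) (nat_lit 0) (nat_lit 2531445205449) (nat_lit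 1) (nat_lit 5) (nat_lit 3) (nat_lit 4) (nat_lit 1) (nat_lit 4) (nat_lit 324) (nat_lit 252) (nat_lit 204)) (XT.nd (nat_lit 78) (nat_lit 0) (nat_lit 0) (XT.lf (nat_lit 0) (nat_lit 2921472563739) (nat_lit 152) (nat_lit 3424338483004) (nat_lit 0) (nat_lit 2917237637532) (nat_lit 1) (nat_lit 5) (nat_lit 3) (nat_lit 4) (nat_lit 1) (nat_lit 4) (nat_lit 325) (nat_lit 252) (nat_lit 203)) (XT.lf (nat_lit 0) (nat_lit 3365132832258) (nat_lit 152) (nat_lit 3925987871797) (nat_lit 0) (nat_lit 3360897319228) (nat_lit 1) (nat_lit 5) (nat_lit 3) (nat_lit 4) (nat_lit 1) (nat_lit 4) (nat_lit 326) (nat_lit 252) (nat_lit 202)))) (XT.nd (nat_lit 156) (nat_lit 0) (nat_lit 0) (XT.nd (nat_lit 78) (nat_lit 0) (nat_lit 0) (XT.lf (nat_lit 0) (nat_lit 3875340571968) (nat_lit 152) (nat_lit 4502887768542) (nat_lit 0) (nat_lit 3871104548659) (nat_lit 1) (nat_lit 5) (nat_lit 3) (nat_lit 4) (nat_lit 1) (nat_lit 4) (nat_lit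 327) (nat_lit 252) (nat_lit 201)) (XT.lf (nat_lit 0) (nat_lit 4462078108213) (nat_lit 152) (nat_lit 5166325345133) (nat_lit 0) (nat_lit 4457841641182) (nat_lit 1) (nat_lit 5) (nat_lit 3) (nat_lit 4) (nat_lit 1) (nat_lit 4) (nat_lit 328) (nat_lit 252) (nat_lit 200))) (XT.nd (nat_lit 36348) (nat_lit 0) (nat_lit 1292) (XT.lf (nat_lit 0) (nat_lit 5136825088440) (nat_lit 152) (nat_lit 5929280901981) (nat_lit 0) (nat_lit 5132588235565) (nat_lit 1) (nat_lit 5) (nat_lit 3) (nat_lit 4) (nat_lit 1) (nat_lit 4) (nat_lit 329) (nat_lit 252) (nat_lit 199)) (XT.lf (nat_lit 0) (nat_lit 1918374470) (nat_lit 152) (nat_lit 2070850159) (nat_lit 152) (nat_lit 2070850159) (nat_lit 18) (nat_lit 4) (nat_lit 20) (nat_lit 5) (nat_lit 20) (nat_lit 4) (nat_lit 274) (nat_lit 253) (nat_lit 253))))))))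
noncomputable def xc15 : XT := (XT.nd (nat_lit 2028) (nat_lit 0) (nat_lit 0) (XT.nd (nat_lit 1014) (nat_lit 228) (nat_lit 0) (XT.nd (nat_lit 468) (nat_lit 380) (nat_lit 0) (XT.nd (nat_lit 234) (nat_lit 304) (nat_lit 0) (XT.nd (nat_lit 78) (nat_lit 228) (nat_lit 0) (XT.lf (nat_lit 0) (nat_lit 3964091040) (nat_lit 152) (nat_lit 6179068319) (nat_lit 0) (nat_lit 3029725075) (nat_lit 16) (nat_lit 5) (nat_lit 18) (nat_lit 4) (nat_lit 16) (nat_lit 4) (nat_lit 275) (nat_lit 253) (nat_lit 252)) (XT.nd (nat_lit 78) (nat_lit 152) (nat_lit 0) (XT.lf (nat_lit 0) (nat_lit 9443905925) (nat_lit 76) (nat_lit 3349231787) (nat_lit 76) (nat_lit 1602373677) (nat_lit 15) (nat_lit 4) (nat_lit 16) (nat_lit 5) (nat_lit 16) (nat_lit 4) (nat_lit 276) (nat_lit 253) (nat_lit 251)) (XT.lf (nat_lit 0) (nat_lit 6557380599) (nat_lit 152) (nat_lit 4963724638) (nat_lit 0) (nat_lit 4285738916) (nat_lit 13) (nat_lit 5) (nat_lit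 15) (nat_lit 4) (nat_lit 13) (nat_lit 4) (nat_lit 277) (nat_lit 253) (nat_lit 250)))) (XT.nd (nat_lit 78) (nat_lit 228) (nat_lit 0) (XT.lf (nat_lit 0) (nat_lit 10962714557) (nat_lit 76) (nat_lit 4661329734) (nat_lit 76) (nat_lit 1820835468) (nat_lit 12) (nat_lit 4) (nat_lit 13) (nat_lit 5) (nat_lit 13) (nat_lit 4) (nat_lit 278) (nat_lit 253) (nat_lit 249)) (XT.nd (nat_lit 78) (nat_lit 76) (nat_lit 0) (XT.lf (nat_lit 0) (nat_lit 6154480315) (nat_lit 152) (nat_lit 10113784330) (nat_lit 0) (nat_lit 3066379679) (nat_lit 10) (nat_lit 5) (nat_lit 12) (nat_lit 4) (nat_lit 10) (nat_lit 4) (nat_lit 279) (nat_lit 253) (nat_lit 248)) (XT.lf (nat_lit 0) (nat_lit 5060250296) (nat_lit 76) (nat_lit 9972714530) (nat_lit 76) (nat_lit 6486341415) (nat_lit 9) (nat_lit 4) (nat_lit 10) (nat_lit 5) (nat_lit 10) (nat_lit 4) (nat_lit 280) (nat_lit 253) (nat_lit 247))))) (XT.nd (nat_lit 234) (nat_lit 152) (nat_lit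 0) (XT.nd (nat_lit 78) (nat_lit 152) (nat_lit 0) (XT.lf (nat_lit 0) (nat_lit 861501084) (nat_lit 152) (nat_lit 2040774754) (nat_lit 76) (nat_lit 21150531142) (nat_lit 8) (nat_lit 5) (nat_lit 10) (nat_lit 5) (nat_lit 9) (nat_lit 4) (nat_lit 281) (nat_lit 253) (nat_lit 246)) (XT.nd (nat_lit 78) (nat_lit 76) (nat_lit 0) (XT.lf (nat_lit 0) (nat_lit 8891114694) (nat_lit 152) (nat_lit 13001443666) (nat_lit 0) (nat_lit 5063477450) (nat_lit 7) (nat_lit 5) (nat_lit 9) (nat_lit 4) (nat_lit 7) (nat_lit 4) (nat_lit 282) (nat_lit 253) (nat_lit 245)) (XT.lf (nat_lit 0) (nat_lit 1245277149) (nat_lit 76) (nat_lit 16572217008) (nat_lit 76) (nat_lit 12502106967) (nat_lit 6) (nat_lit 4) (nat_lit 7) (nat_lit 5) (nat_lit 7) (nat_lit 4) (nat_lit 283) (nat_lit 253) (nat_lit 244)))) (XT.nd (nat_lit 156) (nat_lit 76) (nat_lit 0) (XT.nd (nat_lit 78) (nat_lit 76) (nat_lit 0) (XT.lf (nat_lit 0) (nat_lit 17575987740)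 (nat_lit 76) (nat_lit 10448761482) (nat_lit 76) (nat_lit 6167805531) (nat_lit 6) (nat_lit 4) (nat_lit 7) (nat_lit 5) (nat_lit 7) (nat_lit 4) (nat_lit 284) (nat_lit 253) (nat_lit 243)) (XT.lf (nat_lit 0) (nat_lit 671094042) (nat_lit 152) (nat_lit 3068424611) (nat_lit 76) (nat_lit 34936126082) (nat_lit 5) (nat_lit 5) (nat_lit 7) (nat_lit 5) (nat_lit 6) (nat_lit 4) (nat_lit 285) (nat_lit 253) (nat_lit 242))) (XT.nd (nat_lit 78) (nat_lit 0) (nat_lit 0) (XT.lf (nat_lit 0) (nat_lit 8238224161) (nat_lit 152) (nat_lit 31617902228) (nat_lit 0) (nat_lit 3956992661) (nat_lit 4) (nat_lit 5) (nat_lit 6) (nat_lit 4) (nat_lit 4) (nat_lit 4) (nat_lit 286) (nat_lit 253) (nat_lit 241)) (XT.lf (nat_lit 0) (nat_lit 16819507380) (nat_lit 152) (nat_lit 20501595976) (nat_lit 0) (nat_lit 12409910502) (nat_lit 4) (nat_lit 5) (nat_lit 6) (nat_lit 4) (nat_lit 4) (nat_lit 4) (nat_lit 287) (nat_lit 253) (nat_lit 240))))))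 (XT.nd (nat_lit 468) (nat_lit 152) (nat_lit 0) (XT.nd (nat_lit 234) (nat_lit 0) (nat_lit 0) (XT.nd (nat_lit 78) (nat_lit 76) (nat_lit 0) (XT.lf (nat_lit 0) (nat_lit 26413203517) (nat_lit 152) (nat_lit 8253496757) (nat_lit 0) (nat_lit 21891984571) (nat_lit 4) (nat_lit 5) (nat_lit 6) (nat_lit 4) (nat_lit 4) (nat_lit 4) (nat_lit 288) (nat_lit 253) (nat_lit 239)) (XT.nd (nat_lit 78) (nat_lit 0) (nat_lit 0) (XT.lf (nat_lit 0) (nat_lit 5648597896) (nat_lit 76) (nat_lit 31694266341) (nat_lit 76) (nat_lit 27075984727) (nat_lit 3) (nat_lit 4) (nat_lit 4) (nat_lit 5) (nat_lit 4) (nat_lit 4) (nat_lit 289) (nat_lit 253) (nat_lit 238)) (XT.lf (nat_lit 0) (nat_lit 21709454641) (nat_lit 76) (nat_lit 28224784335) (nat_lit 76) (nat_lit 23522100400) (nat_lit 3) (nat_lit 4) (nat_lit 4) (nat_lit 5) (nat_lit 4) (nat_lit 4) (nat_lit 290) (nat_lit 253) (nat_lit 237)))) (XT.nd (nat_lit 78) (nat_lit 0) (nat_lit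 0) (XT.lf (nat_lit 0) (nat_lit 39808693120) (nat_lit 76) (nat_lit 24416038312) (nat_lit 76) (nat_lit 19639961056) (nat_lit 3) (nat_lit 4) (nat_lit 4) (nat_lit 5) (nat_lit 4) (nat_lit 4) (nat_lit 291) (nat_lit 253) (nat_lit 236)) (XT.nd (nat_lit 78) (nat_lit 0) (nat_lit 0) (XT.lf (nat_lit 0) (nat_lit 60300428866) (nat_lit 76) (nat_lit 20193509331) (nat_lit 76) (nat_lit 15353611795) (nat_lit 3) (nat_lit 4) (nat_lit 4) (nat_lit 5) (nat_lit 4) (nat_lit 4) (nat_lit 292) (nat_lit 253) (nat_lit 235)) (XT.lf (nat_lit 0) (nat_lit 83585587146) (nat_lit 76) (nat_lit 15474582692) (nat_lit 76) (nat_lit 10579189261) (nat_lit 3) (nat_lit 4) (nat_lit 4) (nat_lit 5) (nat_lit 4) (nat_lit 4) (nat_lit 293) (nat_lit 253) (nat_lit 234))))) (XT.nd (nat_lit 234) (nat_lit 0) (nat_lit 0) (XT.nd (nat_lit 78) (nat_lit 152) (nat_lit 0) (XT.lf (nat_lit 0) (nat_lit 110119747143) (nat_lit 76) (nat_lit 10166931571) (nat_lit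 76) (nat_lit 5223280840) (nat_lit 3) (nat_lit 4) (nat_lit 4) (nat_lit 5) (nat_lit 4) (nat_lit 4) (nat_lit 294) (nat_lit 253) (nat_lit 233)) (XT.nd (nat_lit 78) (nat_lit 76) (nat_lit 0) (XT.lf (nat_lit 0) (nat_lit 777938136) (nat_lit 152) (nat_lit 3367502276) (nat_lit 76) (nat_lit 139622847120) (nat_lit 2) (nat_lit 5) (nat_lit 4) (nat_lit 5) (nat_lit 3) (nat_lit 4) (nat_lit 295) (nat_lit 253) (nat_lit 232)) (XT.lf (nat_lit 0) (nat_lit 7613458851) (nat_lit 152) (nat_lit 154158250395) (nat_lit 0) (nat_lit 2963363431) (nat_lit 1) (nat_lit 5) (nat_lit 3) (nat_lit 4) (nat_lit 1) (nat_lit 4) (nat_lit 296) (nat_lit 253) (nat_lit 231)))) (XT.nd (nat_lit 156) (nat_lit 0) (nat_lit 0) (XT.nd (nat_lit 78) (nat_lit 0) (nat_lit 0) (XT.lf (nat_lit 0) (nat_lit 15599207221) (nat_lit 152) (nat_lit 162317973043) (nat_lit 0) (nat_lit 10919732211) (nat_lit 1) (nat_lit 5) (nat_lit 3) (nat_lit 4) (nat_lit 1)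 (nat_lit 4) (nat_lit 297) (nat_lit 253) (nat_lit 230)) (XT.lf (nat_lit 0) (nat_lit 24704260617) (nat_lit 152) (nat_lit 171856839150) (nat_lit 0) (nat_lit 19999238136) (nat_lit 1) (nat_lit 5) (nat_lit 3) (nat_lit 4) (nat_lit 1) (nat_lit 4) (nat_lit 298) (nat_lit 253) (nat_lit 229))) (XT.nd (nat_lit 78) (nat_lit 0) (nat_lit 0) (XT.lf (nat_lit 0) (nat_lit 35106761388) (nat_lit 152) (nat_lit 182961478706) (nat_lit 0) (nat_lit 30379523715) (nat_lit 1) (nat_lit 5) (nat_lit 3) (nat_lit 4) (nat_lit 1) (nat_lit 4) (nat_lit 299) (nat_lit 253) (nat_lit 228)) (XT.lf (nat_lit 0) (nat_lit 47010236722) (nat_lit 152) (nat_lit 195849156397) (nat_lit 0) (nat_lit 42263681491) (nat_lit 1) (nat_lit 5) (nat_lit 3) (nat_lit 4) (nat_lit 1) (nat_lit 4) (nat_lit 300) (nat_lit 253) (nat_lit 227))))))) (XT.nd (nat_lit 1014) (nat_lit 0) (nat_lit 0) (XT.nd (nat_lit 468) (nat_lit 0) (nat_lit 0) (XT.nd (nat_lit 234)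 (nat_lit 0) (nat_lit 0) (XT.nd (nat_lit 78) (nat_lit 0) (nat_lit 0) (XT.lf (nat_lit 0) (nat_lit 60647580702) (nat_lit 152) (nat_lit 210772022439) (nat_lit 0) (nat_lit 55884227595) (nat_lit 1) (nat_lit 5) (nat_lit 3) (nat_lit 4) (nat_lit 1) (nat_lit 4) (nat_lit 301) (nat_lit 253) (nat_lit 226)) (XT.nd (nat_lit 78) (nat_lit 0) (nat_lit 0) (XT.lf (nat_lit 0) (nat_lit 76285610929) (nat_lit 152) (nat_lit 228022045950) (nat_lit 0) (nat_lit 71507650972) (nat_lit 1) (nat_lit 5) (nat_lit 3) (nat_lit 4) (nat_lit 1) (nat_lit 4) (nat_lit 302) (nat_lit 253) (nat_lit 225)) (XT.lf (nat_lit 0) (nat_lit 94230288862) (nat_lit 152) (nat_lit 247936727390) (nat_lit 0) (nat_lit 89439627298) (nat_lit 1) (nat_lit 5) (nat_lit 3) (nat_lit 4) (nat_lit 1) (nat_lit 4) (nat_lit 303) (nat_lit 253) (nat_lit 224)))) (XT.nd (nat_lit 78) (nat_lit 0) (nat_lit 0) (XT.lf (nat_lit 0) (nat_lit 114832706027) (nat_lit 152) (nat_lit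 270905701831) (nat_lit 0) (nat_lit 110030999586) (nat_lit 1) (nat_lit 5) (nat_lit 3) (nat_lit 4) (nat_lit 1) (nat_lit 4) (nat_lit 304) (nat_lit 253) (nat_lit 223)) (XT.nd (nat_lit 78) (nat_lit 0) (nat_lit 0) (XT.lf (nat_lit 0) (nat_lit 138495953194) (nat_lit 152) (nat_lit 297378362252) (nat_lit 0) (nat_lit 133684642513) (nat_lit 1) (nat_lit 5) (nat_lit 3) (nat_lit 4) (nat_lit 1) (nat_lit 4) (nat_lit 305) (nat_lit 253) (nat_lit 222)) (XT.lf (nat_lit 0) (nat_lit 165683006938) (nat_lit 152) (nat_lit 327872652007) (nat_lit 0) (nat_lit 160863344744) (nat_lit 1) (nat_lit 5) (nat_lit 3) (nat_lit 4) (nat_lit 1) (nat_lit 4) (nat_lit 306) (nat_lit 253) (nat_lit 221))))) (XT.nd (nat_lit 234) (nat_lit 0) (nat_lit 0) (XT.nd (nat_lit 78) (nat_lit 0) (nat_lit 0) (XT.lf (nat_lit 0) (nat_lit 196925787876) (nat_lit 152) (nat_lit 362985198505) (nat_lit 0) (nat_lit 192098863496) (nat_lit 1) (nat_lit 5) (nat_lit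 3) (nat_lit 4) (nat_lit 1) (nat_lit 4) (nat_lit 307) (nat_lit 253) (nat_lit 220)) (XT.nd (nat_lit 78) (nat_lit 0) (nat_lit 0) (XT.lf (nat_lit 0) (nat_lit 232835567810) (nat_lit 152) (nat_lit 403402986353) (nat_lit 0) (nat_lit 228002328486) (nat_lit 1) (nat_lit 5) (nat_lit 3) (nat_lit 4) (nat_lit 1) (nat_lit 4) (nat_lit 308) (nat_lit 253) (nat_lit 219)) (XT.lf (nat_lit 0) (nat_lit 274114929389) (nat_lit 152) (nat_lit 449916798354) (nat_lit 0) (nat_lit 269276198809) (nat_lit 1) (nat_lit 5) (nat_lit 3) (nat_lit 4) (nat_lit 1) (nat_lit 4) (nat_lit 309) (nat_lit 253) (nat_lit 218)))) (XT.nd (nat_lit 156) (nat_lit 0) (nat_lit 0) (XT.nd (nat_lit 78) (nat_lit 0) (nat_lit 0) (XT.lf (nat_lit 0) (nat_lit 321571512297) (nat_lit 152) (nat_lit 503436687354) (nat_lit 0) (nat_lit 316728006712) (nat_lit 1) (nat_lit 5) (nat_lit 3) (nat_lit 4) (nat_lit 1) (nat_lit 4) (nat_lit 310) (nat_lit 253) (nat_lit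 217)) (XT.lf (nat_lit 0) (nat_lit 376133814895) (nat_lit 152) (nat_lit 565009781615) (nat_lit 0) (nat_lit 371286157132) (nat_lit 1) (nat_lit 5) (nat_lit 3) (nat_lit 4) (nat_lit 1) (nat_lit 4) (nat_lit 311) (nat_lit 253) (nat_lit 216))) (XT.nd (nat_lit 78) (nat_lit 0) (nat_lit 0) (XT.lf (nat_lit 0) (nat_lit 438869360494) (nat_lit 152) (nat_lit 635840772111) (nat_lit 0) (nat_lit 434018092142) (nat_lit 1) (nat_lit 5) (nat_lit 3) (nat_lit 4) (nat_lit 1) (nat_lit 4) (nat_lit 312) (nat_lit 253) (nat_lit 215)) (XT.lf (nat_lit 0) (nat_lit 511005583684) (nat_lit 152) (nat_lit 717315482570) (nat_lit 0) (nat_lit 506151175688) (nat_lit 1) (nat_lit 5) (nat_lit 3) (nat_lit 4) (nat_lit 1) (nat_lit 4) (nat_lit 313) (nat_lit 253) (nat_lit 214)))))) (XT.nd (nat_lit 546) (nat_lit 0) (nat_lit 0) (XT.nd (nat_lit 234) (nat_lit 0) (nat_lit 0) (XT.nd (nat_lit 78) (nat_lit 0) (nat_lit 0) (XT.lf (nat_lit 0) (nat_lit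 593953845352) (nat_lit 152) (nat_lit 811027983414) (nat_lit 0) (nat_lit 589096707231) (nat_lit 1) (nat_lit 5) (nat_lit 3) (nat_lit 4) (nat_lit 1) (nat_lit 4) (nat_lit 314) (nat_lit 253) (nat_lit 213)) (XT.nd (nat_lit 78) (nat_lit 0) (nat_lit 0) (XT.lf (nat_lit 0) (nat_lit 689337046269) (nat_lit 152) (nat_lit 918811780094) (nat_lit 0) (nat_lit 684477534128) (nat_lit 1) (nat_lit 5) (nat_lit 3) (nat_lit 4) (nat_lit 1) (nat_lit 4) (nat_lit 315) (nat_lit 253) (nat_lit 212)) (XT.lf (nat_lit 0) (nat_lit 799021379498) (nat_lit 152) (nat_lit 1042775686024) (nat_lit 0) (nat_lit 794159802990) (nat_lit 1) (nat_lit 5) (nat_lit 3) (nat_lit 4) (nat_lit 1) (nat_lit 4) (nat_lit 316) (nat_lit 253) (nat_lit 211)))) (XT.nd (nat_lit 156) (nat_lit 0) (nat_lit 0) (XT.nd (nat_lit 78) (nat_lit 0) (nat_lit 0) (XT.lf (nat_lit 0) (nat_lit 925152842862) (nat_lit 152) (nat_lit 1185345081971) (nat_lit 0) (nat_lit 920289471253)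 (nat_lit 1) (nat_lit 5) (nat_lit 3) (nat_lit 4) (nat_lit 1) (nat_lit 4) (nat_lit 317) (nat_lit 253) (nat_lit 210)) (XT.lf (nat_lit 0) (nat_lit 1070199225862) (nat_lit 152) (nat_lit 1349309369160) (nat_lit 0) (nat_lit 1065334293296) (nat_lit 1) (nat_lit 5) (nat_lit 3) (nat_lit 4) (nat_lit 1) (nat_lit 4) (nat_lit 318) (nat_lit 253) (nat_lit 209))) (XT.nd (nat_lit 78) (nat_lit 0) (nat_lit 0) (XT.lf (nat_lit 0) (nat_lit 1236998392514) (nat_lit 152) (nat_lit 1537876544516) (nat_lit 0) (nat_lit 1232132102593) (nat_lit 1) (nat_lit 5) (nat_lit 3) (nat_lit 4) (nat_lit 1) (nat_lit 4) (nat_lit 319) (nat_lit 253) (nat_lit 208)) (XT.lf (nat_lit 0) (nat_lit 1428813804773) (nat_lit 152) (nat_lit 1754735965816) (nat_lit 0) (nat_lit 1423946334543) (nat_lit 1) (nat_lit 5) (nat_lit 3) (nat_lit 4) (nat_lit 1) (nat_lit 4) (nat_lit 320) (nat_lit 253) (nat_lit 207))))) (XT.nd (nat_lit 234) (nat_lit 0) (nat_lit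 0) (XT.nd (nat_lit 78) (nat_lit 0) (nat_lit 0) (XT.lf (nat_lit 0) (nat_lit 1649398372879) (nat_lit 152) (nat_lit 2004130534781) (nat_lit 0) (nat_lit 1644529876294) (nat_lit 1) (nat_lit 5) (nat_lit 3) (nat_lit 4) (nat_lit 1) (nat_lit 4) (nat_lit 321) (nat_lit 253) (nat_lit 206)) (XT.nd (nat_lit 78) (nat_lit 0) (nat_lit 0) (XT.lf (nat_lit 0) (nat_lit 1903067881860) (nat_lit 152) (nat_lit 2290939710371) (nat_lit 0) (nat_lit 1898198492793) (nat_lit 1) (nat_lit 5) (nat_lit 3) (nat_lit 4) (nat_lit 1) (nat_lit 4) (nat_lit 322) (nat_lit 253) (nat_lit 205)) (XT.lf (nat_lit 0) (nat_lit 2194785430806) (nat_lit 152) (nat_lit 2620774976454) (nat_lit 0) (nat_lit 2189915265667) (nat_lit 1) (nat_lit 5) (nat_lit 3) (nat_lit 4) (nat_lit 1) (nat_lit 4) (nat_lit 323) (nat_lit 253) (nat_lit 204)))) (XT.nd (nat_lit 156) (nat_lit 0) (nat_lit 0) (XT.nd (nat_lit 78) (nat_lit 0) (nat_lit 0) (XT.lf (nat_lit 0) (nat_lit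 2530258536978) (nat_lit 152) (nat_lit 3000089631716) (nat_lit 0) (nat_lit 2525387696994) (nat_lit 1) (nat_lit 5) (nat_lit 3) (nat_lit 4) (nat_lit 1) (nat_lit 4) (nat_lit 324) (nat_lit 253) (nat_lit 203)) (XT.lf (nat_lit 0) (nat_lit 2916050804627) (nat_lit 152) (nat_lit 3436305049845) (nat_lit 0) (nat_lit 2911179377822) (nat_lit 1) (nat_lit 5) (nat_lit 3) (nat_lit 4) (nat_lit 1) (nat_lit 4) (nat_lit 325) (nat_lit 253) (nat_lit 202))) (XT.nd (nat_lit 78) (nat_lit 0) (nat_lit 0) (XT.lf (nat_lit 0) (nat_lit 3359710343338) (nat_lit 152) (nat_lit 3937955880328) (nat_lit 0) (nat_lit 3354838406253) (nat_lit 1) (nat_lit 5) (nat_lit 3) (nat_lit 4) (nat_lit 1) (nat_lit 4) (nat_lit 326) (nat_lit 253) (nat_lit 201)) (XT.lf (nat_lit 0) (nat_lit 3869917448433) (nat_lit 152) (nat_lit 4514857030717) (nat_lit 0) (nat_lit 3865045067627) (nat_lit 1) (nat_lit 5) (nat_lit 3) (nat_lit 4) (nat_lit 1) (nat_lit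 4) (nat_lit 327) (nat_lit 253) (nat_lit 200))))))))
noncomputable def xc16 : XT := (XT.nd (nat_lit 38142) (nat_lit 0) (nat_lit 0) (XT.nd (nat_lit 37128) (nat_lit 0) (nat_lit 152) (XT.nd (nat_lit 36582) (nat_lit 0) (nat_lit 456) (XT.nd (nat_lit 36348) (nat_lit 0) (nat_lit 1140) (XT.nd (nat_lit 78) (nat_lit 0) (nat_lit 0) (XT.lf (nat_lit 0) (nat_lit 4456654432839) (nat_lit 152) (nat_lit 5178295697433) (nat_lit 0) (nat_lit 4451781666187) (nat_lit 1) (nat_lit 5) (nat_lit 3) (nat_lit 4) (nat_lit 1) (nat_lit 4) (nat_lit 328) (nat_lit 253) (nat_lit 199)) (XT.nd (nat_lit 36192) (nat_lit 0) (nat_lit 1748) (XT.lf (nat_lit 0) (nat_lit 5131400933206) (nat_lit 152) (nat_lit 5941252202216) (nat_lit 0) (nat_lit 5126527831037) (nat_lit 1) (nat_lit 5) (nat_lit 3) (nat_lit 4) (nat_lit 1) (nat_lit 4) (nat_lit 329) (nat_lit 253) (nat_lit 198)) (XT.lf (nat_lit 0) (nat_lit 1854889437) (nat_lit 152) (nat_lit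 1492972339) (nat_lit 0) (nat_lit 1854889437) (nat_lit 24) (nat_lit 5) (nat_lit 26) (nat_lit 4) (nat_lit 24) (nat_lit 4) (nat_lit 272) (nat_lit 254) (nat_lit 254)))) (XT.nd (nat_lit 78) (nat_lit 304) (nat_lit 0) (XT.lf (nat_lit 0) (nat_lit 228083828) (nat_lit 76) (nat_lit 484130094) (nat_lit 152) (nat_lit 10508337109) (nat_lit 20) (nat_lit 5) (nat_lit 21) (nat_lit 5) (nat_lit 22) (nat_lit 4) (nat_lit 273) (nat_lit 254) (nat_lit 253)) (XT.nd (nat_lit 78) (nat_lit 152) (nat_lit 0) (XT.lf (nat_lit 0) (nat_lit 3127446178) (nat_lit 152) (nat_lit 5597923482) (nat_lit 152) (nat_lit 3428325709) (nat_lit 18) (nat_lit 4) (nat_lit 20) (nat_lit 5) (nat_lit 20) (nat_lit 4) (nat_lit 274) (nat_lit 254) (nat_lit 252)) (XT.lf (nat_lit 0) (nat_lit 4195159219) (nat_lit 152) (nat_lit 7672218900) (nat_lit 0) (nat_lit 1373780249) (nat_lit 16) (nat_lit 5) (nat_lit 18) (nat_lit 4) (nat_lit 16) (nat_lit 4) (nat_lit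 275) (nat_lit 254) (nat_lit 251))))) (XT.nd (nat_lit 234) (nat_lit 380) (nat_lit 0) (XT.nd (nat_lit 78) (nat_lit 228) (nat_lit 0) (XT.lf (nat_lit 0) (nat_lit 7236425043) (nat_lit 76) (nat_lit 5393557339) (nat_lit 76) (nat_lit 1865663460) (nat_lit 15) (nat_lit 4) (nat_lit 16) (nat_lit 5) (nat_lit 16) (nat_lit 4) (nat_lit 276) (nat_lit 254) (nat_lit 250)) (XT.nd (nat_lit 78) (nat_lit 76) (nat_lit 0) (XT.lf (nat_lit 0) (nat_lit 5859058410) (nat_lit 152) (nat_lit 8060905374) (nat_lit 0) (nat_lit 2023637421) (nat_lit 13) (nat_lit 5) (nat_lit 15) (nat_lit 4) (nat_lit 13) (nat_lit 4) (nat_lit 277) (nat_lit 254) (nat_lit 249)) (XT.lf (nat_lit 0) (nat_lit 7134685532) (nat_lit 76) (nat_lit 7404103607) (nat_lit 76) (nat_lit 3074028198) (nat_lit 12) (nat_lit 4) (nat_lit 13) (nat_lit 5) (nat_lit 13) (nat_lit 4) (nat_lit 278) (nat_lit 254) (nat_lit 248)))) (XT.nd (nat_lit 156) (nat_lit 228) (nat_lit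 0) (XT.nd (nat_lit 78) (nat_lit 0) (nat_lit 0) (XT.lf (nat_lit 0) (nat_lit 4499978822) (nat_lit 152) (nat_lit 14949938724) (nat_lit 0) (nat_lit 92377260) (nat_lit 10) (nat_lit 5) (nat_lit 12) (nat_lit 4) (nat_lit 10) (nat_lit 4) (nat_lit 279) (nat_lit 254) (nat_lit 247)) (XT.lf (nat_lit 0) (nat_lit 13000900348) (nat_lit 152) (nat_lit 509444674) (nat_lit 0) (nat_lit 8246974891) (nat_lit 10) (nat_lit 5) (nat_lit 12) (nat_lit 4) (nat_lit 10) (nat_lit 4) (nat_lit 280) (nat_lit 254) (nat_lit 246))) (XT.nd (nat_lit 78) (nat_lit 152) (nat_lit 0) (XT.lf (nat_lit 0) (nat_lit 15999323411) (nat_lit 76) (nat_lit 6684066662) (nat_lit 76) (nat_lit 1628989991) (nat_lit 9) (nat_lit 4) (nat_lit 10) (nat_lit 5) (nat_lit 10) (nat_lit 4) (nat_lit 281) (nat_lit 254) (nat_lit 245)) (XT.lf (nat_lit 0) (nat_lit 6005521343) (nat_lit 152) (nat_lit 20169037735) (nat_lit 0) (nat_lit 1082421999) (nat_lit 7) (nat_lit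 5) (nat_lit 9) (nat_lit 4) (nat_lit 7) (nat_lit 4) (nat_lit 282) (nat_lit 254) (nat_lit 244)))))) (XT.nd (nat_lit 468) (nat_lit 76) (nat_lit 0) (XT.nd (nat_lit 234) (nat_lit 152) (nat_lit 0) (XT.nd (nat_lit 78) (nat_lit 76) (nat_lit 0) (XT.lf (nat_lit 0) (nat_lit 14708280226) (nat_lit 152) (nat_lit 6355917123) (nat_lit 0) (nat_lit 9574334973) (nat_lit 7) (nat_lit 5) (nat_lit 9) (nat_lit 4) (nat_lit 7) (nat_lit 4) (nat_lit 283) (nat_lit 254) (nat_lit 243)) (XT.nd (nat_lit 78) (nat_lit 0) (nat_lit 0) (XT.lf (nat_lit 0) (nat_lit 9300224975) (nat_lit 76) (nat_lit 15277816851) (nat_lit 76) (nat_lit 9960527328) (nat_lit 6) (nat_lit 4) (nat_lit 7) (nat_lit 5) (nat_lit 7) (nat_lit 4) (nat_lit 284) (nat_lit 254) (nat_lit 242)) (XT.lf (nat_lit 0) (nat_lit 27054260903) (nat_lit 76) (nat_lit 8728916828) (nat_lit 76) (nat_lit 3252197505) (nat_lit 6) (nat_lit 4) (nat_lit 7) (nat_lit 5) (nat_lit 7) (nat_lit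 4) (nat_lit 285) (nat_lit 254) (nat_lit 241)))) (XT.nd (nat_lit 78) (nat_lit 0) (nat_lit 0) (XT.lf (nat_lit 0) (nat_lit 2725538435) (nat_lit 76) (nat_lit 1284505971) (nat_lit 152) (nat_lit 40206527102) (nat_lit 4) (nat_lit 5) (nat_lit 5) (nat_lit 5) (nat_lit 6) (nat_lit 4) (nat_lit 286) (nat_lit 254) (nat_lit 240)) (XT.nd (nat_lit 78) (nat_lit 0) (nat_lit 0) (XT.lf (nat_lit 0) (nat_lit 12432630778) (nat_lit 152) (nat_lit 30592975339) (nat_lit 0) (nat_lit 7121606921) (nat_lit 4) (nat_lit 5) (nat_lit 6) (nat_lit 4) (nat_lit 4) (nat_lit 4) (nat_lit 287) (nat_lit 254) (nat_lit 239)) (XT.lf (nat_lit 0) (nat_lit 21915192611) (nat_lit 152) (nat_lit 18561520395) (nat_lit 0) (nat_lit 16507106087) (nat_lit 4) (nat_lit 5) (nat_lit 6) (nat_lit 4) (nat_lit 4) (nat_lit 4) (nat_lit 288) (nat_lit 254) (nat_lit 238))))) (XT.nd (nat_lit 234) (nat_lit 0) (nat_lit 0) (XT.nd (nat_lit 78) (nat_lit 76) (nat_lit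 0) (XT.lf (nat_lit 0) (nat_lit 32612365891) (nat_lit 152) (nat_lit 5130377812) (nat_lit 0) (nat_lit 27119877047) (nat_lit 4) (nat_lit 5) (nat_lit 6) (nat_lit 4) (nat_lit 4) (nat_lit 4) (nat_lit 289) (nat_lit 254) (nat_lit 237)) (XT.nd (nat_lit 78) (nat_lit 0) (nat_lit 0) (XT.lf (nat_lit 0) (nat_lit 10487881967) (nat_lit 76) (nat_lit 34497794986) (nat_lit 76) (nat_lit 28931912820) (nat_lit 3) (nat_lit 4) (nat_lit 4) (nat_lit 5) (nat_lit 4) (nat_lit 4) (nat_lit 290) (nat_lit 254) (nat_lit 236)) (XT.lf (nat_lit 0) (nat_lit 28437172304) (nat_lit 76) (nat_lit 30762318240) (nat_lit 76) (nat_lit 25132615794) (nat_lit 3) (nat_lit 4) (nat_lit 4) (nat_lit 5) (nat_lit 4) (nat_lit 4) (nat_lit 291) (nat_lit 254) (nat_lit 235)))) (XT.nd (nat_lit 156) (nat_lit 0) (nat_lit 0) (XT.nd (nat_lit 78) (nat_lit 0) (nat_lit 0) (XT.lf (nat_lit 0) (nat_lit 48798518363) (nat_lit 76) (nat_lit 26603501672) (nat_lit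 76) (nat_lit 20918303331) (nat_lit 3) (nat_lit 4) (nat_lit 4) (nat_lit 5) (nat_lit 4) (nat_lit 4) (nat_lit 292) (nat_lit 254) (nat_lit 234)) (XT.lf (nat_lit 0) (nat_lit 71970294305) (nat_lit 76) (nat_lit 21939977133) (nat_lit 76) (nat_lit 16206521492) (nat_lit 3) (nat_lit 4) (nat_lit 4) (nat_lit 5) (nat_lit 4) (nat_lit 4) (nat_lit 293) (nat_lit 254) (nat_lit 233))) (XT.nd (nat_lit 78) (nat_lit 0) (nat_lit 0) (XT.lf (nat_lit 0) (nat_lit 98405860965) (nat_lit 76) (nat_lit 16680501751) (nat_lit 76) (nat_lit 10905083239) (nat_lit 3) (nat_lit 4) (nat_lit 4) (nat_lit 5) (nat_lit 4) (nat_lit 4) (nat_lit 294) (nat_lit 254) (nat_lit 232)) (XT.lf (nat_lit 0) (nat_lit 128622435951) (nat_lit 76) (nat_lit 10722172746) (nat_lit 76) (nat_lit 4910264783) (nat_lit 3) (nat_lit 4) (nat_lit 4) (nat_lit 5) (nat_lit 4) (nat_lit 4) (nat_lit 295) (nat_lit 254) (nat_lit 231))))))) (XT.nd (nat_lit 1014) (nat_lit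 0) (nat_lit 0) (XT.nd (nat_lit 468) (nat_lit 0) (nat_lit 0) (XT.nd (nat_lit 234) (nat_lit 0) (nat_lit 0) (XT.nd (nat_lit 78) (nat_lit 76) (nat_lit 0) (XT.lf (nat_lit 0) (nat_lit 1800417034) (nat_lit 152) (nat_lit 2098770489) (nat_lit 76) (nat_lit 161361569494) (nat_lit 2) (nat_lit 5) (nat_lit 4) (nat_lit 5) (nat_lit 3) (nat_lit 4) (nat_lit 296) (nat_lit 254) (nat_lit 230)) (XT.nd (nat_lit 78) (nat_lit 0) (nat_lit 0) (XT.lf (nat_lit 0) (nat_lit 9601338085) (nat_lit 152) (nat_lit 175611041821) (nat_lit 0) (nat_lit 4165014761) (nat_lit 1) (nat_lit 5) (nat_lit 3) (nat_lit 4) (nat_lit 1) (nat_lit 4) (nat_lit 297) (nat_lit 254) (nat_lit 229)) (XT.lf (nat_lit 0) (nat_lit 18674619092) (nat_lit 152) (nat_lit 185212672362) (nat_lit 0) (nat_lit 13216080577) (nat_lit 1) (nat_lit 5) (nat_lit 3) (nat_lit 4) (nat_lit 1) (nat_lit 4) (nat_lit 298) (nat_lit 254) (nat_lit 228)))) (XT.nd (nat_lit 78) (nat_lit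 0) (nat_lit 0) (XT.lf (nat_lit 0) (nat_lit 29049491699) (nat_lit 152) (nat_lit 196371889686) (nat_lit 0) (nat_lit 23571635626) (nat_lit 1) (nat_lit 5) (nat_lit 3) (nat_lit 4) (nat_lit 1) (nat_lit 4) (nat_lit 299) (nat_lit 254) (nat_lit 227)) (XT.nd (nat_lit 78) (nat_lit 0) (nat_lit 0) (XT.lf (nat_lit 0) (nat_lit 40928942543) (nat_lit 152) (nat_lit 209307026306) (nat_lit 0) (nat_lit 35434288594) (nat_lit 1) (nat_lit 5) (nat_lit 3) (nat_lit 4) (nat_lit 1) (nat_lit 4) (nat_lit 300) (nat_lit 254) (nat_lit 226)) (XT.lf (nat_lit 0) (nat_lit 54545395663) (nat_lit 152) (nat_lit 224271160982) (nat_lit 0) (nat_lit 49036134864) (nat_lit 1) (nat_lit 5) (nat_lit 3) (nat_lit 4) (nat_lit 1) (nat_lit 4) (nat_lit 301) (nat_lit 254) (nat_lit 225))))) (XT.nd (nat_lit 234) (nat_lit 0) (nat_lit 0) (XT.nd (nat_lit 78) (nat_lit 0) (nat_lit 0) (XT.lf (nat_lit 0) (nat_lit 70165259923) (nat_lit 152) (nat_lit 241557070261)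 (nat_lit 0) (nat_lit 64643297516) (nat_lit 1) (nat_lit 5) (nat_lit 3) (nat_lit 4) (nat_lit 1) (nat_lit 4) (nat_lit 302) (nat_lit 254) (nat_lit 224)) (XT.nd (nat_lit 78) (nat_lit 0) (nat_lit 0) (XT.lf (nat_lit 0) (nat_lit 88094141364) (nat_lit 152) (nat_lit 261502956718) (nat_lit 0) (nat_lit 82561134081) (nat_lit 1) (nat_lit 5) (nat_lit 3) (nat_lit 4) (nat_lit 1) (nat_lit 4) (nat_lit 303) (nat_lit 254) (nat_lit 223)) (XT.lf (nat_lit 0) (nat_lit 108682822449) (nat_lit 152) (nat_lit 284499065956) (nat_lit 0) (nat_lit 103140210925) (nat_lit 1) (nat_lit 5) (nat_lit 3) (nat_lit 4) (nat_lit 1) (nat_lit 4) (nat_lit 304) (nat_lit 254) (nat_lit 222)))) (XT.nd (nat_lit 156) (nat_lit 0) (nat_lit 0) (XT.nd (nat_lit 78) (nat_lit 0) (nat_lit 0) (XT.lf (nat_lit 0) (nat_lit 132334125198) (nat_lit 152) (nat_lit 310995321851) (nat_lit 0) (nat_lit 126783162161) (nat_lit 1) (nat_lit 5) (nat_lit 3) (nat_lit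 4) (nat_lit 1) (nat_lit 4) (nat_lit 305) (nat_lit 254) (nat_lit 221)) (XT.lf (nat_lit 0) (nat_lit 159510792492) (nat_lit 152) (nat_lit 341510129411) (nat_lit 0) (nat_lit 153952567270) (nat_lit 1) (nat_lit 5) (nat_lit 3) (nat_lit 4) (nat_lit 1) (nat_lit 4) (nat_lit 306) (nat_lit 254) (nat_lit 220))) (XT.nd (nat_lit 78) (nat_lit 0) (nat_lit 0) (XT.lf (nat_lit 0) (nat_lit 190744541735) (nat_lit 152) (nat_lit 376640517479) (nat_lit 0) (nat_lit 185180001568) (nat_lit 1) (nat_lit 5) (nat_lit 3) (nat_lit 4) (nat_lit 1) (nat_lit 4) (nat_lit 307) (nat_lit 254) (nat_lit 219)) (XT.lf (nat_lit 0) (nat_lit 226646468020) (nat_lit 152) (nat_lit 417073819734) (nat_lit 0) (nat_lit 221076436597) (nat_lit 1) (nat_lit 5) (nat_lit 3) (nat_lit 4) (nat_lit 1) (nat_lit 4) (nat_lit 308) (nat_lit 254) (nat_lit 218)))))) (XT.nd (nat_lit 468) (nat_lit 0) (nat_lit 0) (XT.nd (nat_lit 234) (nat_lit 0) (nat_lit 0) (XT.nd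 (nat_lit 78) (nat_lit 0) (nat_lit 0) (XT.lf (nat_lit 0) (nat_lit 267919000339) (nat_lit 152) (nat_lit 463601122526) (nat_lit 0) (nat_lit 262344193912) (nat_lit 1) (nat_lit 5) (nat_lit 3) (nat_lit 4) (nat_lit 1) (nat_lit 4) (nat_lit 309) (nat_lit 254) (nat_lit 217)) (XT.nd (nat_lit 78) (nat_lit 0) (nat_lit 0) (XT.lf (nat_lit 0) (nat_lit 315369644760) (nat_lit 152) (nat_lit 517132742647) (nat_lit 0) (nat_lit 309790686155) (nat_lit 1) (nat_lit 5) (nat_lit 3) (nat_lit 4) (nat_lit 1) (nat_lit 4) (nat_lit 310) (nat_lit 254) (nat_lit 216)) (XT.lf (nat_lit 0) (nat_lit 369926783457) (nat_lit 152) (nat_lit 578716037883) (nat_lit 0) (nat_lit 364344214262) (nat_lit 1) (nat_lit 5) (nat_lit 3) (nat_lit 4) (nat_lit 1) (nat_lit 4) (nat_lit 311) (nat_lit 254) (nat_lit 215)))) (XT.nd (nat_lit 78) (nat_lit 0) (nat_lit 0) (XT.lf (nat_lit 0) (nat_lit 432657838708) (nat_lit 152) (nat_lit 649555898792) (nat_lit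 0) (nat_lit 427072129870) (nat_lit 1) (nat_lit 5) (nat_lit 3) (nat_lit 4) (nat_lit 1) (nat_lit 4) (nat_lit 312) (nat_lit 254) (nat_lit 214)) (XT.nd (nat_lit 78) (nat_lit 0) (nat_lit 0) (XT.lf (nat_lit 0) (nat_lit 504790157246) (nat_lit 152) (nat_lit 731038322654) (nat_lit 0) (nat_lit 499201718283) (nat_lit 1) (nat_lit 5) (nat_lit 3) (nat_lit 4) (nat_lit 1) (nat_lit 4) (nat_lit 313) (nat_lit 254) (nat_lit 213)) (XT.lf (nat_lit 0) (nat_lit 587735023565) (nat_lit 152) (nat_lit 824757530805) (nat_lit 0) (nat_lit 582144210581) (nat_lit 1) (nat_lit 5) (nat_lit 3) (nat_lit 4) (nat_lit 1) (nat_lit 4) (nat_lit 314) (nat_lit 254) (nat_lit 212))))) (XT.nd (nat_lit 234) (nat_lit 0) (nat_lit 0) (XT.nd (nat_lit 78) (nat_lit 0) (nat_lit 0) (XT.lf (nat_lit 0) (nat_lit 683115272005) (nat_lit 152) (nat_lit 932547159925) (nat_lit 0) (nat_lit 677522394655) (nat_lit 1) (nat_lit 5) (nat_lit 3) (nat_lit 4) (nat_lit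 1) (nat_lit 4) (nat_lit 315) (nat_lit 254) (nat_lit 211)) (XT.nd (nat_lit 78) (nat_lit 0) (nat_lit 0) (XT.lf (nat_lit 0) (nat_lit 792797037862) (nat_lit 152) (nat_lit 1056516137542) (nat_lit 0) (nat_lit 787202365411) (nat_lit 1) (nat_lit 5) (nat_lit 3) (nat_lit 4) (nat_lit 1) (nat_lit 4) (nat_lit 316) (nat_lit 254) (nat_lit 210)) (XT.lf (nat_lit 0) (nat_lit 918926268730) (nat_lit 152) (nat_lit 1199089943652) (nat_lit 0) (nat_lit 913330035320) (nat_lit 1) (nat_lit 5) (nat_lit 3) (nat_lit 4) (nat_lit 1) (nat_lit 4) (nat_lit 317) (nat_lit 254) (nat_lit 209)))) (XT.nd (nat_lit 156) (nat_lit 0) (nat_lit 0) (XT.nd (nat_lit 78) (nat_lit 0) (nat_lit 0) (XT.lf (nat_lit 0) (nat_lit 1063970710428) (nat_lit 152) (nat_lit 1363058065766) (nat_lit 0) (nat_lit 1058373119664) (nat_lit 1) (nat_lit 5) (nat_lit 3) (nat_lit 4) (nat_lit 1) (nat_lit 4) (nat_lit 318) (nat_lit 254) (nat_lit 208)) (XT.lf (nat_lit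 0) (nat_lit 1230768188991) (nat_lit 152) (nat_lit 1551628575839) (nat_lit 0) (nat_lit 1225169417919) (nat_lit 1) (nat_lit 5) (nat_lit 3) (nat_lit 4) (nat_lit 1) (nat_lit 4) (nat_lit 319) (nat_lit 254) (nat_lit 207))) (XT.nd (nat_lit 78) (nat_lit 0) (nat_lit 0) (XT.lf (nat_lit 0) (nat_lit 1422582133347) (nat_lit 152) (nat_lit 1768490896893) (nat_lit 0) (nat_lit 1416982335920) (nat_lit 1) (nat_lit 5) (nat_lit 3) (nat_lit 4) (nat_lit 1) (nat_lit 4) (nat_lit 320) (nat_lit 254) (nat_lit 206)) (XT.lf (nat_lit 0) (nat_lit 1643165425015) (nat_lit 152) (nat_lit 2017887987383) (nat_lit 0) (nat_lit 1637564735106) (nat_lit 1) (nat_lit 5) (nat_lit 3) (nat_lit 4) (nat_lit 1) (nat_lit 4) (nat_lit 321) (nat_lit 254) (nat_lit 205))))))))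
noncomputable def xc17 : XT := (XT.nd (nat_lit 37986) (nat_lit 0) (nat_lit 0) (XT.nd (nat_lit 36972) (nat_lit 0) (nat_lit 228) (XT.nd (nat_lit 468) (nat_lit 0) (nat_lit 0) (XT.nd (nat_lit 234) (nat_lit 0) (nat_lit 0) (XT.nd (nat_lit 78) (nat_lit 0) (nat_lit 0) (XT.lf (nat_lit 0) (nat_lit 1896833824051) (nat_lit 152) (nat_lit 2304699355603) (nat_lit 0) (nat_lit 1891232358070) (nat_lit 1) (nat_lit 5) (nat_lit 3) (nat_lit 4) (nat_lit 1) (nat_lit 4) (nat_lit 322) (nat_lit 254) (nat_lit 204)) (XT.nd (nat_lit 78) (nat_lit 0) (nat_lit 0) (XT.lf (nat_lit 0) (nat_lit 2188550407827) (nat_lit 152) (nat_lit 2634536528322) (nat_lit 0) (nat_lit 2182948267000) (nat_lit 1) (nat_lit 5) (nat_lit 3) (nat_lit 4) (nat_lit 1) (nat_lit 4) (nat_lit 323) (nat_lit 254) (nat_lit 203)) (XT.lf (nat_lit 0) (nat_lit 2524022674720) (nat_lit 152) (nat_lit 3013852841527) (nat_lit 0) (nat_lit 2518419947072) (nat_lit 1)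 (nat_lit 5) (nat_lit 3) (nat_lit 4) (nat_lit 1) (nat_lit 4) (nat_lit 324) (nat_lit 254) (nat_lit 202)))) (XT.nd (nat_lit 78) (nat_lit 0) (nat_lit 0) (XT.lf (nat_lit 0) (nat_lit 2909814212562) (nat_lit 152) (nat_lit 3450069701347) (nat_lit 0) (nat_lit 2904210974634) (nat_lit 1) (nat_lit 5) (nat_lit 3) (nat_lit 4) (nat_lit 1) (nat_lit 4) (nat_lit 325) (nat_lit 254) (nat_lit 201)) (XT.nd (nat_lit 78) (nat_lit 0) (nat_lit 0) (XT.lf (nat_lit 0) (nat_lit 3353473116658) (nat_lit 152) (nat_lit 3951721785473) (nat_lit 0) (nat_lit 3347869435009) (nat_lit 1) (nat_lit 5) (nat_lit 3) (nat_lit 4) (nat_lit 1) (nat_lit 4) (nat_lit 326) (nat_lit 254) (nat_lit 200)) (XT.lf (nat_lit 0) (nat_lit 3863679669915) (nat_lit 152) (nat_lit 4528624025987) (nat_lit 0) (nat_lit 3858075602420) (nat_lit 1) (nat_lit 5) (nat_lit 3) (nat_lit 4) (nat_lit 1) (nat_lit 4) (nat_lit 327) (nat_lit 254) (nat_lit 199))))) (XT.nd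 (nat_lit 36192) (nat_lit 0) (nat_lit 1292) (XT.nd (nat_lit 78) (nat_lit 0) (nat_lit 0) (XT.lf (nat_lit 0) (nat_lit 4450416174460) (nat_lit 152) (nat_lit 5192063640638) (nat_lit 0) (nat_lit 4444811771449) (nat_lit 1) (nat_lit 5) (nat_lit 3) (nat_lit 4) (nat_lit 1) (nat_lit 4) (nat_lit 328) (nat_lit 254) (nat_lit 198)) (XT.nd (nat_lit 36036) (nat_lit 0) (nat_lit 2280) (XT.lf (nat_lit 0) (nat_lit 5125162257558) (nat_lit 152) (nat_lit 5955020969711) (nat_lit 0) (nat_lit 5119557562792) (nat_lit 1) (nat_lit 5) (nat_lit 3) (nat_lit 4) (nat_lit 1) (nat_lit 4) (nat_lit 329) (nat_lit 254) (nat_lit 197)) (XT.lf (nat_lit 0) (nat_lit 4503686468) (nat_lit 228) (nat_lit 21899846) (nat_lit 228) (nat_lit 21899846) (nat_lit 31) (nat_lit 4) (nat_lit 34) (nat_lit 5) (nat_lit 34) (nat_lit 4) (nat_lit 270) (nat_lit 255) (nat_lit 255)))) (XT.nd (nat_lit 156) (nat_lit 456) (nat_lit 0) (XT.nd (nat_lit 78) (nat_lit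 152) (nat_lit 0) (XT.lf (nat_lit 0) (nat_lit 3351021750) (nat_lit 152) (nat_lit 3958730915) (nat_lit 152) (nat_lit 2402106069) (nat_lit 26) (nat_lit 4) (nat_lit 28) (nat_lit 5) (nat_lit 28) (nat_lit 4) (nat_lit 271) (nat_lit 255) (nat_lit 254)) (XT.lf (nat_lit 0) (nat_lit 4748102832) (nat_lit 152) (nat_lit 3636749164) (nat_lit 0) (nat_lit 2053462398) (nat_lit 24) (nat_lit 5) (nat_lit 26) (nat_lit 4) (nat_lit 24) (nat_lit 4) (nat_lit 272) (nat_lit 255) (nat_lit 253))) (XT.nd (nat_lit 78) (nat_lit 228) (nat_lit 0) (XT.lf (nat_lit 0) (nat_lit 1270331932) (nat_lit 228) (nat_lit 1142194476) (nat_lit 76) (nat_lit 8871130344) (nat_lit 21) (nat_lit 5) (nat_lit 24) (nat_lit 5) (nat_lit 22) (nat_lit 4) (nat_lit 273) (nat_lit 255) (nat_lit 252)) (XT.lf (nat_lit 0) (nat_lit 985660227) (nat_lit 152) (nat_lit 7825486523) (nat_lit 152) (nat_lit 3443842326) (nat_lit 18) (nat_lit 4) (nat_lit 20) (nat_lit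 5) (nat_lit 20) (nat_lit 4) (nat_lit 274) (nat_lit 255) (nat_lit 251)))))) (XT.nd (nat_lit 468) (nat_lit 456) (nat_lit 0) (XT.nd (nat_lit 234) (nat_lit 228) (nat_lit 0) (XT.nd (nat_lit 78) (nat_lit 228) (nat_lit 0) (XT.lf (nat_lit 0) (nat_lit 2662978185) (nat_lit 76) (nat_lit 1090703777) (nat_lit 152) (nat_lit 9623261552) (nat_lit 16) (nat_lit 5) (nat_lit 17) (nat_lit 5) (nat_lit 18) (nat_lit 4) (nat_lit 275) (nat_lit 255) (nat_lit 250)) (XT.nd (nat_lit 78) (nat_lit 152) (nat_lit 0) (XT.lf (nat_lit 0) (nat_lit 3509332618) (nat_lit 76) (nat_lit 8266666530) (nat_lit 76) (nat_lit 2888712872) (nat_lit 15) (nat_lit 4) (nat_lit 16) (nat_lit 5) (nat_lit 16) (nat_lit 4) (nat_lit 276) (nat_lit 255) (nat_lit 249)) (XT.lf (nat_lit 0) (nat_lit 3341029331) (nat_lit 76) (nat_lit 1107629208) (nat_lit 152) (nat_lit 11701285285) (nat_lit 13) (nat_lit 5) (nat_lit 14) (nat_lit 5) (nat_lit 15) (nat_lit 4)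 (nat_lit 277) (nat_lit 255) (nat_lit 248)))) (XT.nd (nat_lit 78) (nat_lit 152) (nat_lit 0) (XT.lf (nat_lit 0) (nat_lit 1670994834) (nat_lit 76) (nat_lit 11042946403) (nat_lit 76) (nat_lit 5138570985) (nat_lit 12) (nat_lit 4) (nat_lit 13) (nat_lit 5) (nat_lit 13) (nat_lit 4) (nat_lit 278) (nat_lit 255) (nat_lit 247)) (XT.nd (nat_lit 78) (nat_lit 76) (nat_lit 0) (XT.lf (nat_lit 0) (nat_lit 2186357498) (nat_lit 152) (nat_lit 1730781628) (nat_lit 76) (nat_lit 15897169328) (nat_lit 11) (nat_lit 5) (nat_lit 13) (nat_lit 5) (nat_lit 12) (nat_lit 4) (nat_lit 279) (nat_lit 255) (nat_lit 246)) (XT.lf (nat_lit 0) (nat_lit 10325626068) (nat_lit 152) (nat_lit 7521640571) (nat_lit 0) (nat_lit 4211136683) (nat_lit 10) (nat_lit 5) (nat_lit 12) (nat_lit 4) (nat_lit 10) (nat_lit 4) (nat_lit 280) (nat_lit 255) (nat_lit 245))))) (XT.nd (nat_lit 234) (nat_lit 228) (nat_lit 0) (XT.nd (nat_lit 78) (nat_lit 152)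 (nat_lit 0) (XT.lf (nat_lit 0) (nat_lit 8235493047) (nat_lit 76) (nat_lit 11392432614) (nat_lit 76) (nat_lit 5016072608) (nat_lit 9) (nat_lit 4) (nat_lit 10) (nat_lit 5) (nat_lit 10) (nat_lit 4) (nat_lit 281) (nat_lit 255) (nat_lit 244)) (XT.nd (nat_lit 78) (nat_lit 76) (nat_lit 0) (XT.lf (nat_lit 0) (nat_lit 2408386558) (nat_lit 152) (nat_lit 1594629545) (nat_lit 76) (nat_lit 23622555238) (nat_lit 8) (nat_lit 5) (nat_lit 10) (nat_lit 5) (nat_lit 9) (nat_lit 4) (nat_lit 282) (nat_lit 255) (nat_lit 243)) (XT.lf (nat_lit 0) (nat_lit 10805043743) (nat_lit 152) (nat_lit 15719834184) (nat_lit 0) (nat_lit 4506816521) (nat_lit 7) (nat_lit 5) (nat_lit 9) (nat_lit 4) (nat_lit 7) (nat_lit 4) (nat_lit 283) (nat_lit 255) (nat_lit 242)))) (XT.nd (nat_lit 156) (nat_lit 152) (nat_lit 0) (XT.nd (nat_lit 78) (nat_lit 76) (nat_lit 0) (XT.lf (nat_lit 0) (nat_lit 20304691129) (nat_lit 152) (nat_lit 809687986)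 (nat_lit 0) (nat_lit 13847034107) (nat_lit 7) (nat_lit 5) (nat_lit 9) (nat_lit 4) (nat_lit 7) (nat_lit 4) (nat_lit 284) (nat_lit 255) (nat_lit 241)) (XT.lf (nat_lit 0) (nat_lit 16644715245) (nat_lit 76) (nat_lit 14711090356) (nat_lit 76) (nat_lit 8114798726) (nat_lit 6) (nat_lit 4) (nat_lit 7) (nat_lit 5) (nat_lit 7) (nat_lit 4) (nat_lit 285) (nat_lit 255) (nat_lit 240))) (XT.nd (nat_lit 78) (nat_lit 152) (nat_lit 0) (XT.lf (nat_lit 0) (nat_lit 36285840495) (nat_lit 76) (nat_lit 7552689984) (nat_lit 76) (nat_lit 835846521) (nat_lit 6) (nat_lit 4) (nat_lit 7) (nat_lit 5) (nat_lit 7) (nat_lit 4) (nat_lit 286) (nat_lit 255) (nat_lit 239)) (XT.lf (nat_lit 0) (nat_lit 7148783932) (nat_lit 152) (nat_lit 42663846798) (nat_lit 0) (nat_lit 832421761) (nat_lit 4) (nat_lit 5) (nat_lit 6) (nat_lit 4) (nat_lit 4) (nat_lit 4) (nat_lit 287) (nat_lit 255) (nat_lit 238))))))) (XT.nd (nat_lit 1014) (nat_lit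 0) (nat_lit 0) (XT.nd (nat_lit 468) (nat_lit 152) (nat_lit 0) (XT.nd (nat_lit 234) (nat_lit 76) (nat_lit 0) (XT.nd (nat_lit 78) (nat_lit 0) (nat_lit 0) (XT.lf (nat_lit 0) (nat_lit 16534707241) (nat_lit 152) (nat_lit 30820778181) (nat_lit 0) (nat_lit 10133942750) (nat_lit 4) (nat_lit 5) (nat_lit 6) (nat_lit 4) (nat_lit 4) (nat_lit 4) (nat_lit 288) (nat_lit 255) (nat_lit 237)) (XT.nd (nat_lit 78) (nat_lit 0) (nat_lit 0) (XT.lf (nat_lit 0) (nat_lit 27147847021) (nat_lit 152) (nat_lit 17553449795) (nat_lit 0) (nat_lit 20673689209) (nat_lit 4) (nat_lit 5) (nat_lit 6) (nat_lit 4) (nat_lit 4) (nat_lit 4) (nat_lit 289) (nat_lit 255) (nat_lit 236)) (XT.lf (nat_lit 0) (nat_lit 39195851661) (nat_lit 152) (nat_lit 2602283475) (nat_lit 0) (nat_lit 32657873569) (nat_lit 4) (nat_lit 5) (nat_lit 6) (nat_lit 4) (nat_lit 4) (nat_lit 4) (nat_lit 290) (nat_lit 255) (nat_lit 235)))) (XT.nd (nat_lit 78) (nat_lit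 0) (nat_lit 0) (XT.lf (nat_lit 0) (nat_lit 15079585537) (nat_lit 76) (nat_lit 38197521847) (nat_lit 76) (nat_lit 31604047859) (nat_lit 3) (nat_lit 4) (nat_lit 4) (nat_lit 5) (nat_lit 4) (nat_lit 4) (nat_lit 291) (nat_lit 255) (nat_lit 234)) (XT.nd (nat_lit 78) (nat_lit 0) (nat_lit 0) (XT.lf (nat_lit 0) (nat_lit 35327549259) (nat_lit 76) (nat_lit 34094107378) (nat_lit 76) (nat_lit 27452376091) (nat_lit 3) (nat_lit 4) (nat_lit 4) (nat_lit 5) (nat_lit 4) (nat_lit 4) (nat_lit 292) (nat_lit 255) (nat_lit 233)) (XT.lf (nat_lit 0) (nat_lit 58400731864) (nat_lit 76) (nat_lit 29478758578) (nat_lit 76) (nat_lit 22795064420) (nat_lit 3) (nat_lit 4) (nat_lit 4) (nat_lit 5) (nat_lit 4) (nat_lit 4) (nat_lit 293) (nat_lit 255) (nat_lit 232))))) (XT.nd (nat_lit 234) (nat_lit 152) (nat_lit 0) (XT.nd (nat_lit 78) (nat_lit 0) (nat_lit 0) (XT.lf (nat_lit 0) (nat_lit 84750565188) (nat_lit 76) (nat_lit 24261175142)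 (nat_lit 76) (nat_lit 17540991532) (nat_lit 3) (nat_lit 4) (nat_lit 4) (nat_lit 5) (nat_lit 4) (nat_lit 4) (nat_lit 294) (nat_lit 255) (nat_lit 231)) (XT.nd (nat_lit 78) (nat_lit 0) (nat_lit 0) (XT.lf (nat_lit 0) (nat_lit 114892589446) (nat_lit 76) (nat_lit 18339273916) (nat_lit 76) (nat_lit 11587360348) (nat_lit 3) (nat_lit 4) (nat_lit 4) (nat_lit 5) (nat_lit 4) (nat_lit 4) (nat_lit 295) (nat_lit 255) (nat_lit 230)) (XT.lf (nat_lit 0) (nat_lit 149416539896) (nat_lit 76) (nat_lit 11597191617) (nat_lit 76) (nat_lit 4817686781) (nat_lit 3) (nat_lit 4) (nat_lit 4) (nat_lit 5) (nat_lit 4) (nat_lit 4) (nat_lit 296) (nat_lit 255) (nat_lit 229)))) (XT.nd (nat_lit 156) (nat_lit 0) (nat_lit 0) (XT.nd (nat_lit 78) (nat_lit 76) (nat_lit 0) (XT.lf (nat_lit 0) (nat_lit 2755385583) (nat_lit 152) (nat_lit 1072295229) (nat_lit 76) (nat_lit 186167162427) (nat_lit 2) (nat_lit 5) (nat_lit 4) (nat_lit 5)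 (nat_lit 3) (nat_lit 4) (nat_lit 297) (nat_lit 255) (nat_lit 228)) (XT.lf (nat_lit 0) (nat_lit 11681130787) (nat_lit 152) (nat_lit 200689222757) (nat_lit 0) (nat_lit 5362278745) (nat_lit 1) (nat_lit 5) (nat_lit 3) (nat_lit 4) (nat_lit 1) (nat_lit 4) (nat_lit 298) (nat_lit 255) (nat_lit 227))) (XT.nd (nat_lit 78) (nat_lit 0) (nat_lit 0) (XT.lf (nat_lit 0) (nat_lit 22031978904) (nat_lit 152) (nat_lit 211895899010) (nat_lit 0) (nat_lit 15696328985) (nat_lit 1) (nat_lit 5) (nat_lit 3) (nat_lit 4) (nat_lit 1) (nat_lit 4) (nat_lit 299) (nat_lit 255) (nat_lit 226)) (XT.lf (nat_lit 0) (nat_lit 33890538887) (nat_lit 152) (nat_lit 224872304264) (nat_lit 0) (nat_lit 27540282119) (nat_lit 1) (nat_lit 5) (nat_lit 3) (nat_lit 4) (nat_lit 1) (nat_lit 4) (nat_lit 300) (nat_lit 255) (nat_lit 225)))))) (XT.nd (nat_lit 468) (nat_lit 0) (nat_lit 0) (XT.nd (nat_lit 234) (nat_lit 0) (nat_lit 0) (XT.nd (nat_lit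 78) (nat_lit 0) (nat_lit 0) (XT.lf (nat_lit 0) (nat_lit 47488826040) (nat_lit 152) (nat_lit 239872324709) (nat_lit 0) (nat_lit 41125867664) (nat_lit 1) (nat_lit 5) (nat_lit 3) (nat_lit 4) (nat_lit 1) (nat_lit 4) (nat_lit 301) (nat_lit 255) (nat_lit 224)) (XT.nd (nat_lit 78) (nat_lit 0) (nat_lit 0) (XT.lf (nat_lit 0) (nat_lit 63092893808) (nat_lit 152) (nat_lit 257189439004) (nat_lit 0) (nat_lit 56718890556) (nat_lit 1) (nat_lit 5) (nat_lit 3) (nat_lit 4) (nat_lit 1) (nat_lit 4) (nat_lit 302) (nat_lit 255) (nat_lit 223)) (XT.lf (nat_lit 0) (nat_lit 81008039169) (nat_lit 152) (nat_lit 277162460258) (nat_lit 0) (nat_lit 74624431676) (nat_lit 1) (nat_lit 5) (nat_lit 3) (nat_lit 4) (nat_lit 1) (nat_lit 4) (nat_lit 303) (nat_lit 255) (nat_lit 222)))) (XT.nd (nat_lit 78) (nat_lit 0) (nat_lit 0) (XT.lf (nat_lit 0) (nat_lit 101584775836) (nat_lit 152) (nat_lit 300182164971) (nat_lit 0) (nat_lit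 95192816830) (nat_lit 1) (nat_lit 5) (nat_lit 3) (nat_lit 4) (nat_lit 1) (nat_lit 4) (nat_lit 304) (nat_lit 255) (nat_lit 221)) (XT.nd (nat_lit 78) (nat_lit 0) (nat_lit 0) (XT.lf (nat_lit 0) (nat_lit 125225692135) (nat_lit 152) (nat_lit 326698938671) (nat_lit 0) (nat_lit 118826470944) (nat_lit 1) (nat_lit 5) (nat_lit 3) (nat_lit 4) (nat_lit 1) (nat_lit 4) (nat_lit 305) (nat_lit 255) (nat_lit 220)) (XT.lf (nat_lit 0) (nat_lit 152393327734) (nat_lit 152) (nat_lit 357231587800) (nat_lit 0) (nat_lit 145987791598) (nat_lit 1) (nat_lit 5) (nat_lit 3) (nat_lit 4) (nat_lit 1) (nat_lit 4) (nat_lit 306) (nat_lit 255) (nat_lit 219))))) (XT.nd (nat_lit 234) (nat_lit 0) (nat_lit 0) (XT.nd (nat_lit 78) (nat_lit 0) (nat_lit 0) (XT.lf (nat_lit 0) (nat_lit 183619223328) (nat_lit 152) (nat_lit 392377490276) (nat_lit 0) (nat_lit 177208195937) (nat_lit 1) (nat_lit 5) (nat_lit 3) (nat_lit 4) (nat_lit 1) (nat_lit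 4) (nat_lit 307) (nat_lit 255) (nat_lit 218)) (XT.nd (nat_lit 78) (nat_lit 0) (nat_lit 0) (XT.lf (nat_lit 0) (nat_lit 219514320353) (nat_lit 152) (nat_lit 432824283321) (nat_lit 0) (nat_lit 213098517957) (nat_lit 1) (nat_lit 5) (nat_lit 3) (nat_lit 4) (nat_lit 1) (nat_lit 4) (nat_lit 308) (nat_lit 255) (nat_lit 217)) (XT.lf (nat_lit 0) (nat_lit 260780914186) (nat_lit 152) (nat_lit 479363317234) (nat_lit 0) (nat_lit 254360959612) (nat_lit 1) (nat_lit 5) (nat_lit 3) (nat_lit 4) (nat_lit 1) (nat_lit 4) (nat_lit 309) (nat_lit 255) (nat_lit 216)))) (XT.nd (nat_lit 156) (nat_lit 0) (nat_lit 0) (XT.nd (nat_lit 78) (nat_lit 0) (nat_lit 0) (XT.lf (nat_lit 0) (nat_lit 308226394706) (nat_lit 152) (nat_lit 532905138330) (nat_lit 0) (nat_lit 301802829542) (nat_lit 1) (nat_lit 5) (nat_lit 3) (nat_lit 4) (nat_lit 1) (nat_lit 4) (nat_lit 310) (nat_lit 255) (nat_lit 215)) (XT.lf (nat_lit 0) (nat_lit 362779043054)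 (nat_lit 152) (nat_lit 594497303979) (nat_lit 0) (nat_lit 356352338246) (nat_lit 1) (nat_lit 5) (nat_lit 3) (nat_lit 4) (nat_lit 1) (nat_lit 4) (nat_lit 311) (nat_lit 255) (nat_lit 214))) (XT.nd (nat_lit 78) (nat_lit 0) (nat_lit 0) (XT.lf (nat_lit 0) (nat_lit 425506193653) (nat_lit 152) (nat_lit 665344878291) (nat_lit 0) (nat_lit 419076758722) (nat_lit 1) (nat_lit 5) (nat_lit 3) (nat_lit 4) (nat_lit 1) (nat_lit 4) (nat_lit 312) (nat_lit 255) (nat_lit 213)) (XT.lf (nat_lit 0) (nat_lit 497635116843) (nat_lit 152) (nat_lit 746834009460) (nat_lit 0) (nat_lit 491203307889) (nat_lit 1) (nat_lit 5) (nat_lit 3) (nat_lit 4) (nat_lit 1) (nat_lit 4) (nat_lit 313) (nat_lit 255) (nat_lit 212))))))))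
noncomputable def xc18 : XT := (XT.nd (nat_lit 37830) (nat_lit 0) (nat_lit 0) (XT.nd (nat_lit 1014) (nat_lit 0) (nat_lit 0) (XT.nd (nat_lit 468) (nat_lit 0) (nat_lit 0) (XT.nd (nat_lit 234) (nat_lit 0) (nat_lit 0) (XT.nd (nat_lit 78) (nat_lit 0) (nat_lit 0) (XT.lf (nat_lit 0) (nat_lit 580577030684) (nat_lit 152) (nat_lit 840559050051) (nat_lit 0) (nat_lit 574143157364) (nat_lit 1) (nat_lit 5) (nat_lit 3) (nat_lit 4) (nat_lit 1) (nat_lit 4) (nat_lit 314) (nat_lit 255) (nat_lit 211)) (XT.nd (nat_lit 78) (nat_lit 0) (nat_lit 0) (XT.lf (nat_lit 0) (nat_lit 675954711753) (nat_lit 152) (nat_lit 948353750860) (nat_lit 0) (nat_lit 669519043332) (nat_lit 1) (nat_lit 5) (nat_lit 3) (nat_lit 4) (nat_lit 1) (nat_lit 4) (nat_lit 315) (nat_lit 255) (nat_lit 210)) (XT.lf (nat_lit 0) (nat_lit 785634245113) (nat_lit 152) (nat_lit 1072327138639) (nat_lit 0) (nat_lit 779197015734) (nat_lit 1) (nat_lit 5)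 (nat_lit 3) (nat_lit 4) (nat_lit 1) (nat_lit 4) (nat_lit 316) (nat_lit 255) (nat_lit 209)))) (XT.nd (nat_lit 78) (nat_lit 0) (nat_lit 0) (XT.lf (nat_lit 0) (nat_lit 911761534678) (nat_lit 152) (nat_lit 1214904779674) (nat_lit 0) (nat_lit 905322947945) (nat_lit 1) (nat_lit 5) (nat_lit 3) (nat_lit 4) (nat_lit 1) (nat_lit 4) (nat_lit 317) (nat_lit 255) (nat_lit 208)) (XT.nd (nat_lit 78) (nat_lit 0) (nat_lit 0) (XT.lf (nat_lit 0) (nat_lit 1056804288288) (nat_lit 152) (nat_lit 1378876236505) (nat_lit 0) (nat_lit 1050364521247) (nat_lit 1) (nat_lit 5) (nat_lit 3) (nat_lit 4) (nat_lit 1) (nat_lit 4) (nat_lit 318) (nat_lit 255) (nat_lit 207)) (XT.lf (nat_lit 0) (nat_lit 1223600298948) (nat_lit 152) (nat_lit 1567449646331) (nat_lit 0) (nat_lit 1217159505552) (nat_lit 1) (nat_lit 5) (nat_lit 3) (nat_lit 4) (nat_lit 1) (nat_lit 4) (nat_lit 319) (nat_lit 255) (nat_lit 206))))) (XT.nd (nat_lit 234)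 (nat_lit 0) (nat_lit 0) (XT.nd (nat_lit 78) (nat_lit 0) (nat_lit 0) (XT.lf (nat_lit 0) (nat_lit 1415412966866) (nat_lit 152) (nat_lit 1784314488910) (nat_lit 0) (nat_lit 1408971280988) (nat_lit 1) (nat_lit 5) (nat_lit 3) (nat_lit 4) (nat_lit 1) (nat_lit 4) (nat_lit 320) (nat_lit 255) (nat_lit 205)) (XT.nd (nat_lit 78) (nat_lit 0) (nat_lit 0) (XT.lf (nat_lit 0) (nat_lit 1635995148589) (nat_lit 152) (nat_lit 2033713772031) (nat_lit 0) (nat_lit 1629552686639) (nat_lit 1) (nat_lit 5) (nat_lit 3) (nat_lit 4) (nat_lit 1) (nat_lit 4) (nat_lit 321) (nat_lit 255) (nat_lit 204)) (XT.lf (nat_lit 0) (nat_lit 1889662582455) (nat_lit 152) (nat_lit 2320527046886) (nat_lit 0) (nat_lit 1883219445660) (nat_lit 1) (nat_lit 5) (nat_lit 3) (nat_lit 4) (nat_lit 1) (nat_lit 4) (nat_lit 322) (nat_lit 255) (nat_lit 203)))) (XT.nd (nat_lit 156) (nat_lit 0) (nat_lit 0) (XT.nd (nat_lit 78) (nat_lit 0) (nat_lit 0)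 (XT.lf (nat_lit 0) (nat_lit 2181378326952) (nat_lit 152) (nat_lit 2650365877548) (nat_lit 0) (nat_lit 2174934603335) (nat_lit 1) (nat_lit 5) (nat_lit 3) (nat_lit 4) (nat_lit 1) (nat_lit 4) (nat_lit 323) (nat_lit 255) (nat_lit 202)) (XT.lf (nat_lit 0) (nat_lit 2516849864039) (nat_lit 152) (nat_lit 3029683632444) (nat_lit 0) (nat_lit 2510405630142) (nat_lit 1) (nat_lit 5) (nat_lit 3) (nat_lit 4) (nat_lit 1) (nat_lit 4) (nat_lit 324) (nat_lit 255) (nat_lit 201))) (XT.nd (nat_lit 78) (nat_lit 0) (nat_lit 0) (XT.lf (nat_lit 0) (nat_lit 2902640767266) (nat_lit 152) (nat_lit 3465901745907) (nat_lit 0) (nat_lit 2896196089647) (nat_lit 1) (nat_lit 5) (nat_lit 3) (nat_lit 4) (nat_lit 1) (nat_lit 4) (nat_lit 325) (nat_lit 255) (nat_lit 200)) (XT.lf (nat_lit 0) (nat_lit 3346299119522) (nat_lit 152) (nat_lit 3967554920158) (nat_lit 0) (nat_lit 3339854056059) (nat_lit 1) (nat_lit 5) (nat_lit 3) (nat_lit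 4) (nat_lit 1) (nat_lit 4) (nat_lit 326) (nat_lit 255) (nat_lit 199)))))) (XT.nd (nat_lit 36270) (nat_lit 0) (nat_lit 988) (XT.nd (nat_lit 36036) (nat_lit 0) (nat_lit 2204) (XT.nd (nat_lit 78) (nat_lit 0) (nat_lit 0) (XT.lf (nat_lit 0) (nat_lit 3856505192919) (nat_lit 152) (nat_lit 4544458108607) (nat_lit 0) (nat_lit 3850059793938) (nat_lit 1) (nat_lit 5) (nat_lit 3) (nat_lit 4) (nat_lit 1) (nat_lit 4) (nat_lit 327) (nat_lit 255) (nat_lit 198)) (XT.nd (nat_lit 78) (nat_lit 0) (nat_lit 0) (XT.lf (nat_lit 0) (nat_lit 4443241280195) (nat_lit 152) (nat_lit 5207898547548) (nat_lit 0) (nat_lit 4436795589460) (nat_lit 1) (nat_lit 5) (nat_lit 3) (nat_lit 4) (nat_lit 1) (nat_lit 4) (nat_lit 328) (nat_lit 255) (nat_lit 197)) (XT.lf (nat_lit 0) (nat_lit 5117987000449) (nat_lit 152) (nat_lit 5970856593397) (nat_lit 0) (nat_lit 5111541056015) (nat_lit 1) (nat_lit 5) (nat_lit 3) (nat_lit 4) (nat_lit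 1) (nat_lit 4) (nat_lit 329) (nat_lit 255) (nat_lit 196)))) (XT.nd (nat_lit 78) (nat_lit 532) (nat_lit 0) (XT.lf (nat_lit 0) (nat_lit 995746908) (nat_lit 228) (nat_lit 1523980804) (nat_lit 228) (nat_lit 1523980804) (nat_lit 37) (nat_lit 4) (nat_lit 40) (nat_lit 5) (nat_lit 40) (nat_lit 4) (nat_lit 268) (nat_lit 256) (nat_lit 256)) (XT.nd (nat_lit 78) (nat_lit 304) (nat_lit 0) (XT.lf (nat_lit 0) (nat_lit 3533398715) (nat_lit 228) (nat_lit 3427457762) (nat_lit 0) (nat_lit 1600070657) (nat_lit 34) (nat_lit 5) (nat_lit 37) (nat_lit 4) (nat_lit 34) (nat_lit 4) (nat_lit 269) (nat_lit 256) (nat_lit 255)) (XT.lf (nat_lit 0) (nat_lit 1401551916) (nat_lit 304) (nat_lit 699254904) (nat_lit 76) (nat_lit 7022717258) (nat_lit 30) (nat_lit 5) (nat_lit 34) (nat_lit 5) (nat_lit 31) (nat_lit 4) (nat_lit 270) (nat_lit 256) (nat_lit 254))))) (XT.nd (nat_lit 234) (nat_lit 532) (nat_lit 0) (XT.nd (nat_lit 78)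 (nat_lit 380) (nat_lit 0) (XT.lf (nat_lit 0) (nat_lit 2121338460) (nat_lit 152) (nat_lit 6178106786) (nat_lit 152) (nat_lit 1477776545) (nat_lit 26) (nat_lit 4) (nat_lit 28) (nat_lit 5) (nat_lit 28) (nat_lit 4) (nat_lit 271) (nat_lit 256) (nat_lit 253)) (XT.nd (nat_lit 78) (nat_lit 228) (nat_lit 0) (XT.lf (nat_lit 0) (nat_lit 4928572139) (nat_lit 76) (nat_lit 266588629) (nat_lit 152) (nat_lit 5341718589) (nat_lit 24) (nat_lit 5) (nat_lit 25) (nat_lit 5) (nat_lit 26) (nat_lit 4) (nat_lit 272) (nat_lit 256) (nat_lit 252)) (XT.lf (nat_lit 0) (nat_lit 1217940884) (nat_lit 228) (nat_lit 3856375890) (nat_lit 76) (nat_lit 6338311233) (nat_lit 21) (nat_lit 5) (nat_lit 24) (nat_lit 5) (nat_lit 22) (nat_lit 4) (nat_lit 273) (nat_lit 256) (nat_lit 251)))) (XT.nd (nat_lit 156) (nat_lit 228) (nat_lit 0) (XT.nd (nat_lit 78) (nat_lit 228) (nat_lit 0) (XT.lf (nat_lit 0) (nat_lit 8300722690) (nat_lit 152)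 (nat_lit 2498924484) (nat_lit 0) (nat_lit 1621304247) (nat_lit 20) (nat_lit 5) (nat_lit 22) (nat_lit 4) (nat_lit 20) (nat_lit 4) (nat_lit 274) (nat_lit 256) (nat_lit 250)) (XT.lf (nat_lit 0) (nat_lit 2702904716) (nat_lit 228) (nat_lit 1720886284) (nat_lit 76) (nat_lit 9153354895) (nat_lit 17) (nat_lit 5) (nat_lit 20) (nat_lit 5) (nat_lit 18) (nat_lit 4) (nat_lit 275) (nat_lit 256) (nat_lit 249))) (XT.nd (nat_lit 78) (nat_lit 152) (nat_lit 0) (XT.lf (nat_lit 0) (nat_lit 10258017228) (nat_lit 152) (nat_lit 1719734548) (nat_lit 0) (nat_lit 2924782959) (nat_lit 16) (nat_lit 5) (nat_lit 18) (nat_lit 4) (nat_lit 16) (nat_lit 4) (nat_lit 276) (nat_lit 256) (nat_lit 248)) (XT.lf (nat_lit 0) (nat_lit 2415024068) (nat_lit 152) (nat_lit 2774529227) (nat_lit 76) (nat_lit 11231040824) (nat_lit 14) (nat_lit 5) (nat_lit 16) (nat_lit 5) (nat_lit 15) (nat_lit 4) (nat_lit 277) (nat_lit 256) (nat_lit 247)))))))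 (XT.nd (nat_lit 1014) (nat_lit 228) (nat_lit 0) (XT.nd (nat_lit 468) (nat_lit 228) (nat_lit 0) (XT.nd (nat_lit 234) (nat_lit 228) (nat_lit 0) (XT.nd (nat_lit 78) (nat_lit 228) (nat_lit 0) (XT.lf (nat_lit 0) (nat_lit 10246920079) (nat_lit 152) (nat_lit 5258359915) (nat_lit 0) (nat_lit 2652724263) (nat_lit 13) (nat_lit 5) (nat_lit 15) (nat_lit 4) (nat_lit 13) (nat_lit 4) (nat_lit 278) (nat_lit 256) (nat_lit 246)) (XT.nd (nat_lit 78) (nat_lit 152) (nat_lit 0) (XT.lf (nat_lit 0) (nat_lit 10563746106) (nat_lit 76) (nat_lit 8753474335) (nat_lit 76) (nat_lit 834035209) (nat_lit 12) (nat_lit 4) (nat_lit 13) (nat_lit 5) (nat_lit 13) (nat_lit 4) (nat_lit 279) (nat_lit 256) (nat_lit 245)) (XT.lf (nat_lit 0) (nat_lit 6050693358) (nat_lit 76) (nat_lit 801687773) (nat_lit 152) (nat_lit 15584259581) (nat_lit 10) (nat_lit 5) (nat_lit 11) (nat_lit 5) (nat_lit 12) (nat_lit 4) (nat_lit 280) (nat_lit 256)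 (nat_lit 244)))) (XT.nd (nat_lit 78) (nat_lit 228) (nat_lit 0) (XT.lf (nat_lit 0) (nat_lit 15769101678) (nat_lit 152) (nat_lit 1337380825) (nat_lit 0) (nat_lit 7946703468) (nat_lit 10) (nat_lit 5) (nat_lit 12) (nat_lit 4) (nat_lit 10) (nat_lit 4) (nat_lit 281) (nat_lit 256) (nat_lit 243)) (XT.nd (nat_lit 78) (nat_lit 152) (nat_lit 0) (XT.lf (nat_lit 0) (nat_lit 16164355638) (nat_lit 76) (nat_lit 9955374897) (nat_lit 76) (nat_lit 1934964876) (nat_lit 9) (nat_lit 4) (nat_lit 10) (nat_lit 5) (nat_lit 10) (nat_lit 4) (nat_lit 282) (nat_lit 256) (nat_lit 242)) (XT.lf (nat_lit 0) (nat_lit 4373884131) (nat_lit 76) (nat_lit 1667691991) (nat_lit 152) (nat_lit 25464390955) (nat_lit 7) (nat_lit 5) (nat_lit 8) (nat_lit 5) (nat_lit 9) (nat_lit 4) (nat_lit 283) (nat_lit 256) (nat_lit 241))))) (XT.nd (nat_lit 234) (nat_lit 152) (nat_lit 0) (XT.nd (nat_lit 78) (nat_lit 76) (nat_lit 0) (XT.lf (nat_lit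 0) (nat_lit 15373773233) (nat_lit 152) (nat_lit 12425968699) (nat_lit 0) (nat_lit 7649403250) (nat_lit 7) (nat_lit 5) (nat_lit 9) (nat_lit 4) (nat_lit 7) (nat_lit 4) (nat_lit 284) (nat_lit 256) (nat_lit 240)) (XT.nd (nat_lit 78) (nat_lit 0) (nat_lit 0) (XT.lf (nat_lit 0) (nat_lit 4193267026) (nat_lit 76) (nat_lit 21821430665) (nat_lit 76) (nat_lit 13976508849) (nat_lit 6) (nat_lit 4) (nat_lit 7) (nat_lit 5) (nat_lit 7) (nat_lit 4) (nat_lit 285) (nat_lit 256) (nat_lit 239)) (XT.lf (nat_lit 0) (nat_lit 23640066406) (nat_lit 76) (nat_lit 14756393590) (nat_lit 76) (nat_lit 6806644092) (nat_lit 6) (nat_lit 4) (nat_lit 7) (nat_lit 5) (nat_lit 7) (nat_lit 4) (nat_lit 286) (nat_lit 256) (nat_lit 238)))) (XT.nd (nat_lit 156) (nat_lit 0) (nat_lit 0) (XT.nd (nat_lit 78) (nat_lit 76) (nat_lit 0) (XT.lf (nat_lit 0) (nat_lit 1172986866) (nat_lit 152) (nat_lit 5601091319) (nat_lit 76) (nat_lit 44435522401)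 (nat_lit 5) (nat_lit 5) (nat_lit 7) (nat_lit 5) (nat_lit 6) (nat_lit 4) (nat_lit 287) (nat_lit 256) (nat_lit 237)) (XT.lf (nat_lit 0) (nat_lit 10166477041) (nat_lit 152) (nat_lit 45271125158) (nat_lit 0) (nat_lit 2647802235) (nat_lit 4) (nat_lit 5) (nat_lit 6) (nat_lit 4) (nat_lit 4) (nat_lit 4) (nat_lit 288) (nat_lit 256) (nat_lit 236))) (XT.nd (nat_lit 78) (nat_lit 0) (nat_lit 0) (XT.lf (nat_lit 0) (nat_lit 20706544213) (nat_lit 152) (nat_lit 32146243900) (nat_lit 0) (nat_lit 13124049127) (nat_lit 4) (nat_lit 5) (nat_lit 6) (nat_lit 4) (nat_lit 4) (nat_lit 4) (nat_lit 289) (nat_lit 256) (nat_lit 235)) (XT.lf (nat_lit 0) (nat_lit 32691007454) (nat_lit 152) (nat_lit 17318944648) (nat_lit 0) (nat_lit 25053016473) (nat_lit 4) (nat_lit 5) (nat_lit 6) (nat_lit 4) (nat_lit 4) (nat_lit 4) (nat_lit 290) (nat_lit 256) (nat_lit 234)))))) (XT.nd (nat_lit 468) (nat_lit 152) (nat_lit 0) (XT.nd (nat_lit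 234) (nat_lit 0) (nat_lit 0) (XT.nd (nat_lit 78) (nat_lit 76) (nat_lit 0) (XT.lf (nat_lit 0) (nat_lit 46354345392) (nat_lit 152) (nat_lit 499128069) (nat_lit 0) (nat_lit 38668097111) (nat_lit 4) (nat_lit 5) (nat_lit 6) (nat_lit 4) (nat_lit 4) (nat_lit 4) (nat_lit 291) (nat_lit 256) (nat_lit 233)) (XT.nd (nat_lit 78) (nat_lit 0) (nat_lit 0) (XT.lf (nat_lit 0) (nat_lit 19623959115) (nat_lit 76) (nat_lit 42811881778) (nat_lit 76) (nat_lit 35083670627) (nat_lit 3) (nat_lit 4) (nat_lit 4) (nat_lit 5) (nat_lit 4) (nat_lit 4) (nat_lit 292) (nat_lit 256) (nat_lit 232)) (XT.lf (nat_lit 0) (nat_lit 42611408384) (nat_lit 76) (nat_lit 38238424924) (nat_lit 76) (nat_lit 30473724321) (nat_lit 3) (nat_lit 4) (nat_lit 4) (nat_lit 5) (nat_lit 4) (nat_lit 4) (nat_lit 293) (nat_lit 256) (nat_lit 231)))) (XT.nd (nat_lit 78) (nat_lit 0) (nat_lit 0) (XT.lf (nat_lit 0) (nat_lit 68886690980) (nat_lit 76) (nat_lit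 33057269267) (nat_lit 76) (nat_lit 25260838706) (nat_lit 3) (nat_lit 4) (nat_lit 4) (nat_lit 5) (nat_lit 4) (nat_lit 4) (nat_lit 294) (nat_lit 256) (nat_lit 230)) (XT.nd (nat_lit 78) (nat_lit 0) (nat_lit 0) (XT.lf (nat_lit 0) (nat_lit 98963888519) (nat_lit 76) (nat_lit 27167044372) (nat_lit 76) (nat_lit 19343022543) (nat_lit 3) (nat_lit 4) (nat_lit 4) (nat_lit 5) (nat_lit 4) (nat_lit 4) (nat_lit 295) (nat_lit 256) (nat_lit 229)) (XT.lf (nat_lit 0) (nat_lit 133431467909) (nat_lit 76) (nat_lit 20452506708) (nat_lit 76) (nat_lit 12604492471) (nat_lit 3) (nat_lit 4) (nat_lit 4) (nat_lit 5) (nat_lit 4) (nat_lit 4) (nat_lit 296) (nat_lit 256) (nat_lit 228))))) (XT.nd (nat_lit 234) (nat_lit 0) (nat_lit 0) (XT.nd (nat_lit 78) (nat_lit 152) (nat_lit 0) (XT.lf (nat_lit 0) (nat_lit 172963794834) (nat_lit 76) (nat_lit 12782284884) (nat_lit 76) (nat_lit 4913407685) (nat_lit 3) (nat_lit 4) (nat_lit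 4) (nat_lit 5) (nat_lit 4) (nat_lit 4) (nat_lit 297) (nat_lit 256) (nat_lit 227)) (XT.nd (nat_lit 78) (nat_lit 76) (nat_lit 0) (XT.lf (nat_lit 0) (nat_lit 3686580750) (nat_lit 152) (nat_lit 218930944) (nat_lit 76) (nat_lit 214546949463) (nat_lit 2) (nat_lit 5) (nat_lit 4) (nat_lit 5) (nat_lit 3) (nat_lit 4) (nat_lit 298) (nat_lit 256) (nat_lit 226)) (XT.lf (nat_lit 0) (nat_lit 13916923838) (nat_lit 152) (nat_lit 229837237296) (nat_lit 0) (nat_lit 6599521705) (nat_lit 1) (nat_lit 5) (nat_lit 3) (nat_lit 4) (nat_lit 1) (nat_lit 4) (nat_lit 299) (nat_lit 256) (nat_lit 225)))) (XT.nd (nat_lit 156) (nat_lit 0) (nat_lit 0) (XT.nd (nat_lit 78) (nat_lit 0) (nat_lit 0) (XT.lf (nat_lit 0) (nat_lit 25757317855) (nat_lit 152) (nat_lit 242849528319) (nat_lit 0) (nat_lit 18427214114) (nat_lit 1) (nat_lit 5) (nat_lit 3) (nat_lit 4) (nat_lit 1) (nat_lit 4) (nat_lit 300) (nat_lit 256) (nat_lit 224)) (XT.lf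 (nat_lit 0) (nat_lit 39339808516) (nat_lit 152) (nat_lit 257880753779) (nat_lit 0) (nat_lit 31998659899) (nat_lit 1) (nat_lit 5) (nat_lit 3) (nat_lit 4) (nat_lit 1) (nat_lit 4) (nat_lit 301) (nat_lit 256) (nat_lit 223))) (XT.nd (nat_lit 78) (nat_lit 0) (nat_lit 0) (XT.lf (nat_lit 0) (nat_lit 54930140203) (nat_lit 152) (nat_lit 275225002872) (nat_lit 0) (nat_lit 47579387346) (nat_lit 1) (nat_lit 5) (nat_lit 3) (nat_lit 4) (nat_lit 1) (nat_lit 4) (nat_lit 302) (nat_lit 256) (nat_lit 222)) (XT.lf (nat_lit 0) (nat_lit 72833341147) (nat_lit 152) (nat_lit 295221619600) (nat_lit 0) (nat_lit 65474236776) (nat_lit 1) (nat_lit 5) (nat_lit 3) (nat_lit 4) (nat_lit 1) (nat_lit 4) (nat_lit 303) (nat_lit 256) (nat_lit 221))))))))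
noncomputable def xc19 : XT := (XT.nd (nat_lit 37674) (nat_lit 0) (nat_lit 152) (XT.nd (nat_lit 1014) (nat_lit 0) (nat_lit 0) (XT.nd (nat_lit 468) (nat_lit 0) (nat_lit 0) (XT.nd (nat_lit 234) (nat_lit 0) (nat_lit 0) (XT.nd (nat_lit 78) (nat_lit 0) (nat_lit 0) (XT.lf (nat_lit 0) (nat_lit 93399691364) (nat_lit 152) (nat_lit 318261842118) (nat_lit 0) (nat_lit 86033324808) (nat_lit 1) (nat_lit 5) (nat_lit 3) (nat_lit 4) (nat_lit 1) (nat_lit 4) (nat_lit 304) (nat_lit 256) (nat_lit 220)) (XT.nd (nat_lit 78) (nat_lit 0) (nat_lit 0) (XT.lf (nat_lit 0) (nat_lit 117031575967) (nat_lit 152) (nat_lit 344796457388) (nat_lit 0) (nat_lit 109658894467) (nat_lit 1) (nat_lit 5) (nat_lit 3) (nat_lit 4) (nat_lit 1) (nat_lit 4) (nat_lit 305) (nat_lit 256) (nat_lit 219)) (XT.lf (nat_lit 0) (nat_lit 144191357917) (nat_lit 152) (nat_lit 375344620925) (nat_lit 0) (nat_lit 136813185162) (nat_lit 1) (nat_lit 5)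 (nat_lit 3) (nat_lit 4) (nat_lit 1) (nat_lit 4) (nat_lit 306) (nat_lit 256) (nat_lit 218)))) (XT.nd (nat_lit 78) (nat_lit 0) (nat_lit 0) (XT.lf (nat_lit 0) (nat_lit 175410424252) (nat_lit 152) (nat_lit 410504014190) (nat_lit 0) (nat_lit 168027476491) (nat_lit 1) (nat_lit 5) (nat_lit 3) (nat_lit 4) (nat_lit 1) (nat_lit 4) (nat_lit 307) (nat_lit 256) (nat_lit 217)) (XT.nd (nat_lit 78) (nat_lit 0) (nat_lit 0) (XT.lf (nat_lit 0) (nat_lit 211299582791) (nat_lit 152) (nat_lit 450962538357) (nat_lit 0) (nat_lit 203912482852) (nat_lit 1) (nat_lit 5) (nat_lit 3) (nat_lit 4) (nat_lit 1) (nat_lit 4) (nat_lit 308) (nat_lit 256) (nat_lit 216)) (XT.lf (nat_lit 0) (nat_lit 252561012722) (nat_lit 152) (nat_lit 497511773245) (nat_lit 0) (nat_lit 245170302194) (nat_lit 1) (nat_lit 5) (nat_lit 3) (nat_lit 4) (nat_lit 1) (nat_lit 4) (nat_lit 309) (nat_lit 256) (nat_lit 215))))) (XT.nd (nat_lit 234) (nat_lit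 0) (nat_lit 0) (XT.nd (nat_lit 78) (nat_lit 0) (nat_lit 0) (XT.lf (nat_lit 0) (nat_lit 300002002893) (nat_lit 152) (nat_lit 551062464754) (nat_lit 0) (nat_lit 292608152722) (nat_lit 1) (nat_lit 5) (nat_lit 3) (nat_lit 4) (nat_lit 1) (nat_lit 4) (nat_lit 310) (nat_lit 256) (nat_lit 214)) (XT.nd (nat_lit 78) (nat_lit 0) (nat_lit 0) (XT.lf (nat_lit 0) (nat_lit 354550746590) (nat_lit 152) (nat_lit 612662343806) (nat_lit 0) (nat_lit 347154166293) (nat_lit 1) (nat_lit 5) (nat_lit 3) (nat_lit 4) (nat_lit 1) (nat_lit 4) (nat_lit 311) (nat_lit 256) (nat_lit 213)) (XT.lf (nat_lit 0) (nat_lit 417274501840) (nat_lit 152) (nat_lit 683516625425) (nat_lit 0) (nat_lit 409875547523) (nat_lit 1) (nat_lit 5) (nat_lit 3) (nat_lit 4) (nat_lit 1) (nat_lit 4) (nat_lit 312) (nat_lit 256) (nat_lit 212)))) (XT.nd (nat_lit 156) (nat_lit 0) (nat_lit 0) (XT.nd (nat_lit 78) (nat_lit 0) (nat_lit 0) (XT.lf (nat_lit 0)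 (nat_lit 489400472552) (nat_lit 152) (nat_lit 765011589034) (nat_lit 0) (nat_lit 481999453868) (nat_lit 1) (nat_lit 5) (nat_lit 3) (nat_lit 4) (nat_lit 1) (nat_lit 4) (nat_lit 313) (nat_lit 256) (nat_lit 211)) (XT.lf (nat_lit 0) (nat_lit 572339819022) (nat_lit 152) (nat_lit 858741701313) (nat_lit 0) (nat_lit 564937005237) (nat_lit 1) (nat_lit 5) (nat_lit 3) (nat_lit 4) (nat_lit 1) (nat_lit 4) (nat_lit 314) (nat_lit 256) (nat_lit 210))) (XT.nd (nat_lit 78) (nat_lit 0) (nat_lit 0) (XT.lf (nat_lit 0) (nat_lit 667715267593) (nat_lit 152) (nat_lit 966540812284) (nat_lit 0) (nat_lit 660310892851) (nat_lit 1) (nat_lit 5) (nat_lit 3) (nat_lit 4) (nat_lit 1) (nat_lit 4) (nat_lit 315) (nat_lit 256) (nat_lit 209)) (XT.lf (nat_lit 0) (nat_lit 777392859652) (nat_lit 152) (nat_lit 1090518034989) (nat_lit 0) (nat_lit 769987127555) (nat_lit 1) (nat_lit 5) (nat_lit 3) (nat_lit 4) (nat_lit 1) (nat_lit 4)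 (nat_lit 316) (nat_lit 256) (nat_lit 208)))))) (XT.nd (nat_lit 468) (nat_lit 0) (nat_lit 0) (XT.nd (nat_lit 234) (nat_lit 0) (nat_lit 0) (XT.nd (nat_lit 78) (nat_lit 0) (nat_lit 0) (XT.lf (nat_lit 0) (nat_lit 903518461129) (nat_lit 152) (nat_lit 1233099010740) (nat_lit 0) (nat_lit 896111548723) (nat_lit 1) (nat_lit 5) (nat_lit 3) (nat_lit 4) (nat_lit 1) (nat_lit 4) (nat_lit 317) (nat_lit 256) (nat_lit 207)) (XT.nd (nat_lit 78) (nat_lit 0) (nat_lit 0) (XT.lf (nat_lit 0) (nat_lit 1048559746836) (nat_lit 152) (nat_lit 1397073367325) (nat_lit 0) (nat_lit 1041151808075) (nat_lit 1) (nat_lit 5) (nat_lit 3) (nat_lit 4) (nat_lit 1) (nat_lit 4) (nat_lit 318) (nat_lit 256) (nat_lit 206)) (XT.lf (nat_lit 0) (nat_lit 1215354481058) (nat_lit 152) (nat_lit 1585649298676) (nat_lit 0) (nat_lit 1207945649815) (nat_lit 1) (nat_lit 5) (nat_lit 3) (nat_lit 4) (nat_lit 1) (nat_lit 4) (nat_lit 319) (nat_lit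 256) (nat_lit 205)))) (XT.nd (nat_lit 78) (nat_lit 0) (nat_lit 0) (XT.lf (nat_lit 0) (nat_lit 1407166039031) (nat_lit 152) (nat_lit 1802516333885) (nat_lit 0) (nat_lit 1399756431716) (nat_lit 1) (nat_lit 5) (nat_lit 3) (nat_lit 4) (nat_lit 1) (nat_lit 4) (nat_lit 320) (nat_lit 256) (nat_lit 204)) (XT.nd (nat_lit 78) (nat_lit 0) (nat_lit 0) (XT.lf (nat_lit 0) (nat_lit 1627747255584) (nat_lit 152) (nat_lit 2051917523642) (nat_lit 0) (nat_lit 1620336973424) (nat_lit 1) (nat_lit 5) (nat_lit 3) (nat_lit 4) (nat_lit 1) (nat_lit 4) (nat_lit 321) (nat_lit 256) (nat_lit 203)) (XT.lf (nat_lit 0) (nat_lit 1881413850171) (nat_lit 152) (nat_lit 2338732456440) (nat_lit 0) (nat_lit 1874002981190) (nat_lit 1) (nat_lit 5) (nat_lit 3) (nat_lit 4) (nat_lit 1) (nat_lit 4) (nat_lit 322) (nat_lit 256) (nat_lit 202))))) (XT.nd (nat_lit 234) (nat_lit 0) (nat_lit 0) (XT.nd (nat_lit 78) (nat_lit 0) (nat_lit 0)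 (XT.lf (nat_lit 0) (nat_lit 2173128864861) (nat_lit 152) (nat_lit 2668572728793) (nat_lit 0) (nat_lit 2165717485600) (nat_lit 1) (nat_lit 5) (nat_lit 3) (nat_lit 4) (nat_lit 1) (nat_lit 4) (nat_lit 323) (nat_lit 256) (nat_lit 201)) (XT.nd (nat_lit 78) (nat_lit 0) (nat_lit 0) (XT.lf (nat_lit 0) (nat_lit 2508599767332) (nat_lit 152) (nat_lit 3047891737332) (nat_lit 0) (nat_lit 2501187944350) (nat_lit 1) (nat_lit 5) (nat_lit 3) (nat_lit 4) (nat_lit 1) (nat_lit 4) (nat_lit 324) (nat_lit 256) (nat_lit 200)) (XT.lf (nat_lit 0) (nat_lit 2894390118720) (nat_lit 152) (nat_lit 3484110940920) (nat_lit 0) (nat_lit 2886977909893) (nat_lit 1) (nat_lit 5) (nat_lit 3) (nat_lit 4) (nat_lit 1) (nat_lit 4) (nat_lit 325) (nat_lit 256) (nat_lit 199)))) (XT.nd (nat_lit 156) (nat_lit 0) (nat_lit 0) (XT.nd (nat_lit 78) (nat_lit 0) (nat_lit 0) (XT.lf (nat_lit 0) (nat_lit 3338047991117) (nat_lit 152) (nat_lit 3985765063106)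 (nat_lit 0) (nat_lit 3330635446772) (nat_lit 1) (nat_lit 5) (nat_lit 3) (nat_lit 4) (nat_lit 1) (nat_lit 4) (nat_lit 326) (nat_lit 256) (nat_lit 198)) (XT.lf (nat_lit 0) (nat_lit 3848253647244) (nat_lit 152) (nat_lit 4562669075845) (nat_lit 0) (nat_lit 3840840811145) (nat_lit 1) (nat_lit 5) (nat_lit 3) (nat_lit 4) (nat_lit 1) (nat_lit 4) (nat_lit 327) (nat_lit 256) (nat_lit 197))) (XT.nd (nat_lit 78) (nat_lit 0) (nat_lit 0) (XT.lf (nat_lit 0) (nat_lit 4434989371676) (nat_lit 152) (nat_lit 5226110231562) (nat_lit 0) (nat_lit 4427576281878) (nat_lit 1) (nat_lit 5) (nat_lit 3) (nat_lit 4) (nat_lit 1) (nat_lit 4) (nat_lit 328) (nat_lit 256) (nat_lit 196)) (XT.lf (nat_lit 0) (nat_lit 5109734776415) (nat_lit 152) (nat_lit 5989068900693) (nat_lit 0) (nat_lit 5102321466009) (nat_lit 1) (nat_lit 5) (nat_lit 3) (nat_lit 4) (nat_lit 1) (nat_lit 4) (nat_lit 329) (nat_lit 256) (nat_lit 195))))))) (XT.nd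 (nat_lit 1014) (nat_lit 760) (nat_lit 0) (XT.nd (nat_lit 468) (nat_lit 1140) (nat_lit 0) (XT.nd (nat_lit 234) (nat_lit 684) (nat_lit 0) (XT.nd (nat_lit 78) (nat_lit 836) (nat_lit 0) (XT.lf (nat_lit 0) (nat_lit 1080918900) (nat_lit 532) (nat_lit 1511637950) (nat_lit 0) (nat_lit 1080918900) (nat_lit 48) (nat_lit 5) (nat_lit 55) (nat_lit 4) (nat_lit 48) (nat_lit 4) (nat_lit 266) (nat_lit 257) (nat_lit 257)) (XT.nd (nat_lit 78) (nat_lit 456) (nat_lit 0) (XT.lf (nat_lit 0) (nat_lit 817678395) (nat_lit 380) (nat_lit 892517861) (nat_lit 76) (nat_lit 5986655412) (nat_lit 43) (nat_lit 5) (nat_lit 48) (nat_lit 5) (nat_lit 44) (nat_lit 4) (nat_lit 267) (nat_lit 257) (nat_lit 256)) (XT.lf (nat_lit 0) (nat_lit 1478119224) (nat_lit 228) (nat_lit 5565596845) (nat_lit 228) (nat_lit 1076409093) (nat_lit 37) (nat_lit 4) (nat_lit 40) (nat_lit 5) (nat_lit 40) (nat_lit 4) (nat_lit 268) (nat_lit 257) (nat_lit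 255)))) (XT.nd (nat_lit 78) (nat_lit 456) (nat_lit 0) (XT.lf (nat_lit 0) (nat_lit 4062065662) (nat_lit 152) (nat_lit 922021180) (nat_lit 228) (nat_lit 3640302012) (nat_lit 34) (nat_lit 5) (nat_lit 36) (nat_lit 5) (nat_lit 37) (nat_lit 4) (nat_lit 269) (nat_lit 257) (nat_lit 254)) (XT.nd (nat_lit 78) (nat_lit 152) (nat_lit 0) (XT.lf (nat_lit 0) (nat_lit 2325597561) (nat_lit 304) (nat_lit 2462440998) (nat_lit 76) (nat_lit 4428399227) (nat_lit 30) (nat_lit 5) (nat_lit 34) (nat_lit 5) (nat_lit 31) (nat_lit 4) (nat_lit 270) (nat_lit 257) (nat_lit 253)) (XT.lf (nat_lit 0) (nat_lit 8750277315) (nat_lit 228) (nat_lit 343974076) (nat_lit 0) (nat_lit 814278696) (nat_lit 28) (nat_lit 5) (nat_lit 31) (nat_lit 4) (nat_lit 28) (nat_lit 4) (nat_lit 271) (nat_lit 257) (nat_lit 252))))) (XT.nd (nat_lit 234) (nat_lit 532) (nat_lit 0) (XT.nd (nat_lit 78) (nat_lit 304) (nat_lit 0) (XT.lf (nat_lit 0) (nat_lit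 1695830487) (nat_lit 76) (nat_lit 3426926825) (nat_lit 152) (nat_lit 5575323819) (nat_lit 24) (nat_lit 5) (nat_lit 25) (nat_lit 5) (nat_lit 26) (nat_lit 4) (nat_lit 272) (nat_lit 257) (nat_lit 251)) (XT.nd (nat_lit 78) (nat_lit 76) (nat_lit 0) (XT.lf (nat_lit 0) (nat_lit 548530315) (nat_lit 228) (nat_lit 7978973638) (nat_lit 76) (nat_lit 3082923029) (nat_lit 21) (nat_lit 5) (nat_lit 24) (nat_lit 5) (nat_lit 22) (nat_lit 4) (nat_lit 273) (nat_lit 257) (nat_lit 250)) (XT.lf (nat_lit 0) (nat_lit 5200374487) (nat_lit 76) (nat_lit 2028895515) (nat_lit 152) (nat_lit 5421946762) (nat_lit 20) (nat_lit 5) (nat_lit 21) (nat_lit 5) (nat_lit 22) (nat_lit 4) (nat_lit 274) (nat_lit 257) (nat_lit 249)))) (XT.nd (nat_lit 156) (nat_lit 228) (nat_lit 0) (XT.nd (nat_lit 78) (nat_lit 76) (nat_lit 0) (XT.lf (nat_lit 0) (nat_lit 1046040180) (nat_lit 228) (nat_lit 7509078301) (nat_lit 76) (nat_lit 5288662321)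 (nat_lit 17) (nat_lit 5) (nat_lit 20) (nat_lit 5) (nat_lit 18) (nat_lit 4) (nat_lit 275) (nat_lit 257) (nat_lit 248)) (XT.lf (nat_lit 0) (nat_lit 6786633496) (nat_lit 76) (nat_lit 1373551117) (nat_lit 152) (nat_lit 7044474615) (nat_lit 16) (nat_lit 5) (nat_lit 17) (nat_lit 5) (nat_lit 18) (nat_lit 4) (nat_lit 276) (nat_lit 257) (nat_lit 247))) (XT.nd (nat_lit 78) (nat_lit 152) (nat_lit 0) (XT.lf (nat_lit 0) (nat_lit 6332392430) (nat_lit 76) (nat_lit 10131895025) (nat_lit 76) (nat_lit 295951629) (nat_lit 15) (nat_lit 4) (nat_lit 16) (nat_lit 5) (nat_lit 16) (nat_lit 4) (nat_lit 277) (nat_lit 257) (nat_lit 246)) (XT.lf (nat_lit 0) (nat_lit 4580396757) (nat_lit 76) (nat_lit 2519412342) (nat_lit 152) (nat_lit 11434633259) (nat_lit 13) (nat_lit 5) (nat_lit 14) (nat_lit 5) (nat_lit 15) (nat_lit 4) (nat_lit 278) (nat_lit 257) (nat_lit 245)))))) (XT.nd (nat_lit 546) (nat_lit 304) (nat_lit 0) (XT.nd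 (nat_lit 234) (nat_lit 228) (nat_lit 0) (XT.nd (nat_lit 78) (nat_lit 152) (nat_lit 0) (XT.lf (nat_lit 0) (nat_lit 1149327140) (nat_lit 76) (nat_lit 14565181214) (nat_lit 76) (nat_lit 4849762638) (nat_lit 12) (nat_lit 4) (nat_lit 13) (nat_lit 5) (nat_lit 13) (nat_lit 4) (nat_lit 279) (nat_lit 257) (nat_lit 244)) (XT.nd (nat_lit 78) (nat_lit 76) (nat_lit 0) (XT.lf (nat_lit 0) (nat_lit 2734535852) (nat_lit 152) (nat_lit 4273514673) (nat_lit 76) (nat_lit 15873675849) (nat_lit 11) (nat_lit 5) (nat_lit 13) (nat_lit 5) (nat_lit 12) (nat_lit 4) (nat_lit 280) (nat_lit 257) (nat_lit 243)) (XT.lf (nat_lit 0) (nat_lit 11244701860) (nat_lit 152) (nat_lit 12462966034) (nat_lit 0) (nat_lit 1823218525) (nat_lit 10) (nat_lit 5) (nat_lit 12) (nat_lit 4) (nat_lit 10) (nat_lit 4) (nat_lit 281) (nat_lit 257) (nat_lit 242)))) (XT.nd (nat_lit 156) (nat_lit 76) (nat_lit 0) (XT.nd (nat_lit 78) (nat_lit 76) (nat_lit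 0) (XT.lf (nat_lit 0) (nat_lit 4201492709) (nat_lit 76) (nat_lit 16978921317) (nat_lit 76) (nat_lit 7385253799) (nat_lit 9) (nat_lit 4) (nat_lit 10) (nat_lit 5) (nat_lit 10) (nat_lit 4) (nat_lit 282) (nat_lit 257) (nat_lit 241)) (XT.lf (nat_lit 0) (nat_lit 639790963) (nat_lit 152) (nat_lit 8412627691) (nat_lit 76) (nat_lit 22993001852) (nat_lit 8) (nat_lit 5) (nat_lit 10) (nat_lit 5) (nat_lit 9) (nat_lit 4) (nat_lit 283) (nat_lit 257) (nat_lit 240))) (XT.nd (nat_lit 78) (nat_lit 0) (nat_lit 0) (XT.lf (nat_lit 0) (nat_lit 9465143024) (nat_lit 152) (nat_lit 26241127140) (nat_lit 0) (nat_lit 322931102) (nat_lit 7) (nat_lit 5) (nat_lit 9) (nat_lit 4) (nat_lit 7) (nat_lit 4) (nat_lit 284) (nat_lit 257) (nat_lit 239)) (XT.lf (nat_lit 0) (nat_lit 19908930279) (nat_lit 152) (nat_lit 10016260516) (nat_lit 0) (nat_lit 10661890676) (nat_lit 7) (nat_lit 5) (nat_lit 9) (nat_lit 4) (nat_lit 7) (nat_lit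 4) (nat_lit 285) (nat_lit 257) (nat_lit 238))))) (XT.nd (nat_lit 234) (nat_lit 152) (nat_lit 0) (XT.nd (nat_lit 78) (nat_lit 76) (nat_lit 0) (XT.lf (nat_lit 0) (nat_lit 8734121319) (nat_lit 76) (nat_lit 23215201509) (nat_lit 76) (nat_lit 13877007400) (nat_lit 6) (nat_lit 4) (nat_lit 7) (nat_lit 5) (nat_lit 7) (nat_lit 4) (nat_lit 286) (nat_lit 257) (nat_lit 237)) (XT.nd (nat_lit 78) (nat_lit 76) (nat_lit 0) (XT.lf (nat_lit 0) (nat_lit 30587697444) (nat_lit 76) (nat_lit 15335553710) (nat_lit 76) (nat_lit 5918094814) (nat_lit 6) (nat_lit 4) (nat_lit 7) (nat_lit 5) (nat_lit 7) (nat_lit 4) (nat_lit 287) (nat_lit 257) (nat_lit 236)) (XT.lf (nat_lit 0) (nat_lit 2926345917) (nat_lit 152) (nat_lit 3399585290) (nat_lit 76) (nat_lit 52438241900) (nat_lit 5) (nat_lit 5) (nat_lit 7) (nat_lit 5) (nat_lit 6) (nat_lit 4) (nat_lit 288) (nat_lit 257) (nat_lit 235)))) (XT.nd (nat_lit 156) (nat_lit 76) (nat_lit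 0) (XT.nd (nat_lit 78) (nat_lit 0) (nat_lit 0) (XT.lf (nat_lit 0) (nat_lit 13162431976) (nat_lit 152) (nat_lit 49194271316) (nat_lit 0) (nat_lit 4323246453) (nat_lit 4) (nat_lit 5) (nat_lit 6) (nat_lit 4) (nat_lit 4) (nat_lit 4) (nat_lit 289) (nat_lit 257) (nat_lit 234)) (XT.lf (nat_lit 0) (nat_lit 25091641827) (nat_lit 152) (nat_lit 34474682558) (nat_lit 0) (nat_lit 16204199003) (nat_lit 4) (nat_lit 5) (nat_lit 6) (nat_lit 4) (nat_lit 4) (nat_lit 4) (nat_lit 290) (nat_lit 257) (nat_lit 233))) (XT.nd (nat_lit 78) (nat_lit 76) (nat_lit 0) (XT.lf (nat_lit 0) (nat_lit 38706933339) (nat_lit 152) (nat_lit 17748527278) (nat_lit 0) (nat_lit 29777527645) (nat_lit 4) (nat_lit 5) (nat_lit 6) (nat_lit 4) (nat_lit 4) (nat_lit 4) (nat_lit 291) (nat_lit 257) (nat_lit 232)) (XT.lf (nat_lit 0) (nat_lit 1380503776) (nat_lit 76) (nat_lit 52927390023) (nat_lit 76) (nat_lit 43961494877) (nat_lit 3) (nat_lit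 4) (nat_lit 4) (nat_lit 5) (nat_lit 4) (nat_lit 4) (nat_lit 292) (nat_lit 257) (nat_lit 231))))))))
noncomputable def xc20 : XT := (XT.nd (nat_lit 2028) (nat_lit 0) (nat_lit 0) (XT.nd (nat_lit 1014) (nat_lit 0) (nat_lit 0) (XT.nd (nat_lit 468) (nat_lit 152) (nat_lit 0) (XT.nd (nat_lit 234) (nat_lit 0) (nat_lit 0) (XT.nd (nat_lit 78) (nat_lit 0) (nat_lit 0) (XT.lf (nat_lit 0) (nat_lit 24293402318) (nat_lit 76) (nat_lit 48390360948) (nat_lit 76) (nat_lit 39392735844) (nat_lit 3) (nat_lit 4) (nat_lit 4) (nat_lit 5) (nat_lit 4) (nat_lit 4) (nat_lit 293) (nat_lit 257) (nat_lit 230)) (XT.nd (nat_lit 78) (nat_lit 0) (nat_lit 0) (XT.lf (nat_lit 0) (nat_lit 50503858195) (nat_lit 76) (nat_lit 43240881622) (nat_lit 76) (nat_lit 34215665250) (nat_lit 3) (nat_lit 4) (nat_lit 4) (nat_lit 5) (nat_lit 4) (nat_lit 4) (nat_lit 294) (nat_lit 257) (nat_lit 229)) (XT.lf (nat_lit 0) (nat_lit 80524684673) (nat_lit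 76) (nat_lit 37378201361) (nat_lit 76) (nat_lit 28328992582) (nat_lit 3) (nat_lit 4) (nat_lit 4) (nat_lit 5) (nat_lit 4) (nat_lit 4) (nat_lit 295) (nat_lit 257) (nat_lit 228)))) (XT.nd (nat_lit 78) (nat_lit 0) (nat_lit 0) (XT.lf (nat_lit 0) (nat_lit 114943245750) (nat_lit 76) (nat_lit 30687615553) (nat_lit 76) (nat_lit 21617543812) (nat_lit 3) (nat_lit 4) (nat_lit 4) (nat_lit 5) (nat_lit 4) (nat_lit 4) (nat_lit 296) (nat_lit 257) (nat_lit 227)) (XT.nd (nat_lit 78) (nat_lit 0) (nat_lit 0) (XT.lf (nat_lit 0) (nat_lit 154432948055) (nat_lit 76) (nat_lit 23038221431) (nat_lit 76) (nat_lit 13950007983) (nat_lit 3) (nat_lit 4) (nat_lit 4) (nat_lit 5) (nat_lit 4) (nat_lit 4) (nat_lit 297) (nat_lit 257) (nat_lit 226)) (XT.lf (nat_lit 0) (nat_lit 199766416198) (nat_lit 76) (nat_lit 14280356937) (nat_lit 76) (nat_lit 5176368091) (nat_lit 3) (nat_lit 4) (nat_lit 4) (nat_lit 5) (nat_lit 4) (nat_lit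 4) (nat_lit 298) (nat_lit 257) (nat_lit 225))))) (XT.nd (nat_lit 234) (nat_lit 0) (nat_lit 0) (XT.nd (nat_lit 78) (nat_lit 0) (nat_lit 0) (XT.lf (nat_lit 0) (nat_lit 542241939) (nat_lit 76) (nat_lit 4101964080) (nat_lit 152) (nat_lit 246543618982) (nat_lit 1) (nat_lit 5) (nat_lit 2) (nat_lit 5) (nat_lit 3) (nat_lit 4) (nat_lit 299) (nat_lit 257) (nat_lit 224)) (XT.nd (nat_lit 78) (nat_lit 0) (nat_lit 0) (XT.lf (nat_lit 0) (nat_lit 16370151209) (nat_lit 152) (nat_lit 263590426766) (nat_lit 0) (nat_lit 7916785424) (nat_lit 1) (nat_lit 5) (nat_lit 3) (nat_lit 4) (nat_lit 1) (nat_lit 4) (nat_lit 300) (nat_lit 257) (nat_lit 223)) (XT.lf (nat_lit 0) (nat_lit 29938905790) (nat_lit 152) (nat_lit 278648787023) (nat_lit 0) (nat_lit 21475935764) (nat_lit 1) (nat_lit 5) (nat_lit 3) (nat_lit 4) (nat_lit 1) (nat_lit 4) (nat_lit 301) (nat_lit 257) (nat_lit 222)))) (XT.nd (nat_lit 156) (nat_lit 0) (nat_lit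 0) (XT.nd (nat_lit 78) (nat_lit 0) (nat_lit 0) (XT.lf (nat_lit 0) (nat_lit 45517293060) (nat_lit 152) (nat_lit 296016631591) (nat_lit 0) (nat_lit 37045971521) (nat_lit 1) (nat_lit 5) (nat_lit 3) (nat_lit 4) (nat_lit 1) (nat_lit 4) (nat_lit 302) (nat_lit 257) (nat_lit 221)) (XT.lf (nat_lit 0) (nat_lit 63410107553) (nat_lit 152) (nat_lit 316033766124) (nat_lit 0) (nat_lit 54931523828) (nat_lit 1) (nat_lit 5) (nat_lit 3) (nat_lit 4) (nat_lit 1) (nat_lit 4) (nat_lit 303) (nat_lit 257) (nat_lit 220))) (XT.nd (nat_lit 78) (nat_lit 0) (nat_lit 0) (XT.lf (nat_lit 0) (nat_lit 83967426075) (nat_lit 152) (nat_lit 339091830212) (nat_lit 0) (nat_lit 75482527406) (nat_lit 1) (nat_lit 5) (nat_lit 3) (nat_lit 4) (nat_lit 1) (nat_lit 4) (nat_lit 304) (nat_lit 257) (nat_lit 219)) (XT.lf (nat_lit 0) (nat_lit 107591457030) (nat_lit 152) (nat_lit 365641959889) (nat_lit 0) (nat_lit 99101067105) (nat_lit 1)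 (nat_lit 5) (nat_lit 3) (nat_lit 4) (nat_lit 1) (nat_lit 4) (nat_lit 305) (nat_lit 257) (nat_lit 218)))))) (XT.nd (nat_lit 468) (nat_lit 0) (nat_lit 0) (XT.nd (nat_lit 234) (nat_lit 0) (nat_lit 0) (XT.nd (nat_lit 78) (nat_lit 0) (nat_lit 0) (XT.lf (nat_lit 0) (nat_lit 134744409720) (nat_lit 152) (nat_lit 396203614216) (nat_lit 0) (nat_lit 126249244791) (nat_lit 1) (nat_lit 5) (nat_lit 3) (nat_lit 4) (nat_lit 1) (nat_lit 4) (nat_lit 306) (nat_lit 257) (nat_lit 217)) (XT.nd (nat_lit 78) (nat_lit 0) (nat_lit 0) (XT.lf (nat_lit 0) (nat_lit 165957537568) (nat_lit 152) (nat_lit 431374738603) (nat_lit 0) (nat_lit 157458220461) (nat_lit 1) (nat_lit 5) (nat_lit 3) (nat_lit 4) (nat_lit 1) (nat_lit 4) (nat_lit 307) (nat_lit 257) (nat_lit 216)) (XT.lf (nat_lit 0) (nat_lit 201841532206) (nat_lit 152) (nat_lit 471843463745) (nat_lit 0) (nat_lit 193338604508) (nat_lit 1) (nat_lit 5) (nat_lit 3) (nat_lit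 4) (nat_lit 1) (nat_lit 4) (nat_lit 308) (nat_lit 257) (nat_lit 215)))) (XT.nd (nat_lit 78) (nat_lit 0) (nat_lit 0) (XT.lf (nat_lit 0) (nat_lit 243098471788) (nat_lit 152) (nat_lit 518401569046) (nat_lit 0) (nat_lit 234592404448) (nat_lit 1) (nat_lit 5) (nat_lit 3) (nat_lit 4) (nat_lit 1) (nat_lit 4) (nat_lit 309) (nat_lit 257) (nat_lit 214)) (XT.nd (nat_lit 78) (nat_lit 0) (nat_lit 0) (XT.lf (nat_lit 0) (nat_lit 290535557308) (nat_lit 152) (nat_lit 571959973958) (nat_lit 0) (nat_lit 282026759843) (nat_lit 1) (nat_lit 5) (nat_lit 3) (nat_lit 4) (nat_lit 1) (nat_lit 4) (nat_lit 310) (nat_lit 257) (nat_lit 213)) (XT.lf (nat_lit 0) (nat_lit 345080905656) (nat_lit 152) (nat_lit 633566560316) (nat_lit 0) (nat_lit 336569734169) (nat_lit 1) (nat_lit 5) (nat_lit 3) (nat_lit 4) (nat_lit 1) (nat_lit 4) (nat_lit 311) (nat_lit 257) (nat_lit 212))))) (XT.nd (nat_lit 234) (nat_lit 0) (nat_lit 0) (XT.nd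 (nat_lit 78) (nat_lit 0) (nat_lit 0) (XT.lf (nat_lit 0) (nat_lit 407801708429) (nat_lit 152) (nat_lit 704426674376) (nat_lit 0) (nat_lit 399288472576) (nat_lit 1) (nat_lit 5) (nat_lit 3) (nat_lit 4) (nat_lit 1) (nat_lit 4) (nat_lit 312) (nat_lit 257) (nat_lit 211)) (XT.nd (nat_lit 78) (nat_lit 0) (nat_lit 0) (XT.lf (nat_lit 0) (nat_lit 479925111769) (nat_lit 152) (nat_lit 785926709673) (nat_lit 0) (nat_lit 471410080815) (nat_lit 1) (nat_lit 5) (nat_lit 3) (nat_lit 4) (nat_lit 1) (nat_lit 4) (nat_lit 313) (nat_lit 257) (nat_lit 210)) (XT.lf (nat_lit 0) (nat_lit 562862225742) (nat_lit 152) (nat_lit 879661232115) (nat_lit 0) (nat_lit 554345633830) (nat_lit 1) (nat_lit 5) (nat_lit 3) (nat_lit 4) (nat_lit 1) (nat_lit 4) (nat_lit 314) (nat_lit 257) (nat_lit 209)))) (XT.nd (nat_lit 156) (nat_lit 0) (nat_lit 0) (XT.nd (nat_lit 78) (nat_lit 0) (nat_lit 0) (XT.lf (nat_lit 0) (nat_lit 658235733012)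 (nat_lit 152) (nat_lit 987464178010) (nat_lit 0) (nat_lit 649717783745) (nat_lit 1) (nat_lit 5) (nat_lit 3) (nat_lit 4) (nat_lit 1) (nat_lit 4) (nat_lit 315) (nat_lit 257) (nat_lit 208)) (XT.lf (nat_lit 0) (nat_lit 767911636981) (nat_lit 152) (nat_lit 1111444735431) (nat_lit 0) (nat_lit 759392507407) (nat_lit 1) (nat_lit 5) (nat_lit 3) (nat_lit 4) (nat_lit 1) (nat_lit 4) (nat_lit 316) (nat_lit 257) (nat_lit 207))) (XT.nd (nat_lit 78) (nat_lit 0) (nat_lit 0) (XT.lf (nat_lit 0) (nat_lit 894035770555) (nat_lit 152) (nat_lit 1254028610937) (nat_lit 0) (nat_lit 885515614626) (nat_lit 1) (nat_lit 5) (nat_lit 3) (nat_lit 4) (nat_lit 1) (nat_lit 4) (nat_lit 317) (nat_lit 257) (nat_lit 206)) (XT.lf (nat_lit 0) (nat_lit 1039075779825) (nat_lit 152) (nat_lit 1418005489046) (nat_lit 0) (nat_lit 1030554731413) (nat_lit 1) (nat_lit 5) (nat_lit 3) (nat_lit 4) (nat_lit 1) (nat_lit 4) (nat_lit 318) (nat_lit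 257) (nat_lit 205))))))) (XT.nd (nat_lit 36504) (nat_lit 0) (nat_lit 988) (XT.nd (nat_lit 468) (nat_lit 0) (nat_lit 0) (XT.nd (nat_lit 234) (nat_lit 0) (nat_lit 0) (XT.nd (nat_lit 78) (nat_lit 0) (nat_lit 0) (XT.lf (nat_lit 0) (nat_lit 1205869404101) (nat_lit 152) (nat_lit 1606583613028) (nat_lit 0) (nat_lit 1197347579618) (nat_lit 1) (nat_lit 5) (nat_lit 3) (nat_lit 4) (nat_lit 1) (nat_lit 4) (nat_lit 319) (nat_lit 257) (nat_lit 204)) (XT.nd (nat_lit 78) (nat_lit 0) (nat_lit 0) (XT.lf (nat_lit 0) (nat_lit 1397679996904) (nat_lit 152) (nat_lit 1823452554873) (nat_lit 0) (nat_lit 1389157497576) (nat_lit 1) (nat_lit 5) (nat_lit 3) (nat_lit 4) (nat_lit 1) (nat_lit 4) (nat_lit 320) (nat_lit 257) (nat_lit 203)) (XT.lf (nat_lit 0) (nat_lit 1618260374179) (nat_lit 152) (nat_lit 2072855402573) (nat_lit 0) (nat_lit 1609737288028) (nat_lit 1) (nat_lit 5) (nat_lit 3) (nat_lit 4) (nat_lit 1) (nat_lit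 4) (nat_lit 321) (nat_lit 257) (nat_lit 202)))) (XT.nd (nat_lit 78) (nat_lit 0) (nat_lit 0) (XT.lf (nat_lit 0) (nat_lit 1871926238959) (nat_lit 152) (nat_lit 2359671777062) (nat_lit 0) (nat_lit 1863402642529) (nat_lit 1) (nat_lit 5) (nat_lit 3) (nat_lit 4) (nat_lit 1) (nat_lit 4) (nat_lit 322) (nat_lit 257) (nat_lit 201)) (XT.nd (nat_lit 78) (nat_lit 0) (nat_lit 0) (XT.lf (nat_lit 0) (nat_lit 2163640619034) (nat_lit 152) (nat_lit 2689513303057) (nat_lit 0) (nat_lit 2155116578882) (nat_lit 1) (nat_lit 5) (nat_lit 3) (nat_lit 4) (nat_lit 1) (nat_lit 4) (nat_lit 323) (nat_lit 257) (nat_lit 200)) (XT.lf (nat_lit 0) (nat_lit 2499110969666) (nat_lit 152) (nat_lit 3068833401721) (nat_lit 0) (nat_lit 2490586543670) (nat_lit 1) (nat_lit 5) (nat_lit 3) (nat_lit 4) (nat_lit 1) (nat_lit 4) (nat_lit 324) (nat_lit 257) (nat_lit 199))))) (XT.nd (nat_lit 234) (nat_lit 0) (nat_lit 0) (XT.nd (nat_lit 78)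 (nat_lit 0) (nat_lit 0) (XT.lf (nat_lit 0) (nat_lit 2884900841194) (nat_lit 152) (nat_lit 3505053553244) (nat_lit 0) (nat_lit 2876376079680) (nat_lit 1) (nat_lit 5) (nat_lit 3) (nat_lit 4) (nat_lit 1) (nat_lit 4) (nat_lit 325) (nat_lit 257) (nat_lit 198)) (XT.nd (nat_lit 78) (nat_lit 0) (nat_lit 0) (XT.lf (nat_lit 0) (nat_lit 3328558296321) (nat_lit 152) (nat_lit 4006708499721) (nat_lit 0) (nat_lit 3320033243053) (nat_lit 1) (nat_lit 5) (nat_lit 3) (nat_lit 4) (nat_lit 1) (nat_lit 4) (nat_lit 326) (nat_lit 257) (nat_lit 197)) (XT.lf (nat_lit 0) (nat_lit 3838763589604) (nat_lit 152) (nat_lit 4583613229235) (nat_lit 0) (nat_lit 3830238282637) (nat_lit 1) (nat_lit 5) (nat_lit 3) (nat_lit 4) (nat_lit 1) (nat_lit 4) (nat_lit 327) (nat_lit 257) (nat_lit 196)))) (XT.nd (nat_lit 35646) (nat_lit 0) (nat_lit 4104) (XT.nd (nat_lit 78) (nat_lit 0) (nat_lit 0) (XT.lf (nat_lit 0) (nat_lit 4425498998521)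 (nat_lit 152) (nat_lit 5247055008234) (nat_lit 0) (nat_lit 4416973470946) (nat_lit 1) (nat_lit 5) (nat_lit 3) (nat_lit 4) (nat_lit 1) (nat_lit 4) (nat_lit 328) (nat_lit 257) (nat_lit 195)) (XT.lf (nat_lit 0) (nat_lit 5100244128898) (nat_lit 152) (nat_lit 6010014219350) (nat_lit 0) (nat_lit 5091718409490) (nat_lit 1) (nat_lit 5) (nat_lit 3) (nat_lit 4) (nat_lit 1) (nat_lit 4) (nat_lit 329) (nat_lit 257) (nat_lit 194))) (XT.nd (nat_lit 78) (nat_lit 380) (nat_lit 0) (XT.lf (nat_lit 0) (nat_lit 186103130) (nat_lit 380) (nat_lit 3047441029) (nat_lit 0) (nat_lit 186103130) (nat_lit 60) (nat_lit 5) (nat_lit 65) (nat_lit 4) (nat_lit 60) (nat_lit 4) (nat_lit 264) (nat_lit 258) (nat_lit 258)) (XT.lf (nat_lit 0) (nat_lit 2154955991) (nat_lit 380) (nat_lit 4069358698) (nat_lit 380) (nat_lit 848493854) (nat_lit 55) (nat_lit 4) (nat_lit 60) (nat_lit 5) (nat_lit 60) (nat_lit 4) (nat_lit 265) (nat_lit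 258) (nat_lit 257)))))) (XT.nd (nat_lit 468) (nat_lit 1064) (nat_lit 0) (XT.nd (nat_lit 234) (nat_lit 836) (nat_lit 0) (XT.nd (nat_lit 78) (nat_lit 684) (nat_lit 0) (XT.lf (nat_lit 0) (nat_lit 3881528543) (nat_lit 456) (nat_lit 879599065) (nat_lit 532) (nat_lit 2617647540) (nat_lit 48) (nat_lit 5) (nat_lit 54) (nat_lit 5) (nat_lit 55) (nat_lit 4) (nat_lit 266) (nat_lit 258) (nat_lit 256)) (XT.nd (nat_lit 78) (nat_lit 304) (nat_lit 0) (XT.lf (nat_lit 0) (nat_lit 2851478433) (nat_lit 380) (nat_lit 1899529893) (nat_lit 76) (nat_lit 3006099168) (nat_lit 43) (nat_lit 5) (nat_lit 48) (nat_lit 5) (nat_lit 44) (nat_lit 4) (nat_lit 267) (nat_lit 258) (nat_lit 255)) (XT.lf (nat_lit 0) (nat_lit 381916110) (nat_lit 304) (nat_lit 89707112) (nat_lit 76) (nat_lit 7745426644) (nat_lit 39) (nat_lit 5) (nat_lit 43) (nat_lit 5) (nat_lit 40) (nat_lit 5) (nat_lit 268) (nat_lit 258) (nat_lit 254)))) (XT.nd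 (nat_lit 78) (nat_lit 456) (nat_lit 0) (XT.lf (nat_lit 0) (nat_lit 1862803120) (nat_lit 152) (nat_lit 4150578719) (nat_lit 228) (nat_lit 2736542994) (nat_lit 34) (nat_lit 5) (nat_lit 36) (nat_lit 5) (nat_lit 37) (nat_lit 4) (nat_lit 269) (nat_lit 258) (nat_lit 253)) (XT.nd (nat_lit 78) (nat_lit 152) (nat_lit 0) (XT.lf (nat_lit 0) (nat_lit 2748607433) (nat_lit 304) (nat_lit 5410601402) (nat_lit 76) (nat_lit 1216406756) (nat_lit 30) (nat_lit 5) (nat_lit 34) (nat_lit 5) (nat_lit 31) (nat_lit 4) (nat_lit 270) (nat_lit 258) (nat_lit 252)) (XT.lf (nat_lit 0) (nat_lit 6091516407) (nat_lit 152) (nat_lit 2718391219) (nat_lit 228) (nat_lit 1287338025) (nat_lit 28) (nat_lit 5) (nat_lit 30) (nat_lit 5) (nat_lit 31) (nat_lit 4) (nat_lit 271) (nat_lit 258) (nat_lit 251))))) (XT.nd (nat_lit 234) (nat_lit 532) (nat_lit 0) (XT.nd (nat_lit 78) (nat_lit 304) (nat_lit 0) (XT.lf (nat_lit 0) (nat_lit 4547325070)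 (nat_lit 228) (nat_lit 2758505696) (nat_lit 76) (nat_lit 3617814962) (nat_lit 25) (nat_lit 5) (nat_lit 28) (nat_lit 5) (nat_lit 26) (nat_lit 4) (nat_lit 272) (nat_lit 258) (nat_lit 250)) (XT.nd (nat_lit 78) (nat_lit 228) (nat_lit 0) (XT.lf (nat_lit 0) (nat_lit 10207815253) (nat_lit 76) (nat_lit 945393763) (nat_lit 152) (nat_lit 721045678) (nat_lit 24) (nat_lit 5) (nat_lit 25) (nat_lit 5) (nat_lit 26) (nat_lit 4) (nat_lit 273) (nat_lit 258) (nat_lit 249)) (XT.lf (nat_lit 0) (nat_lit 5590434953) (nat_lit 228) (nat_lit 1023591016) (nat_lit 76) (nat_lit 6335095570) (nat_lit 21) (nat_lit 5) (nat_lit 24) (nat_lit 5) (nat_lit 22) (nat_lit 4) (nat_lit 274) (nat_lit 258) (nat_lit 248)))) (XT.nd (nat_lit 156) (nat_lit 228) (nat_lit 0) (XT.nd (nat_lit 78) (nat_lit 228) (nat_lit 0) (XT.lf (nat_lit 0) (nat_lit 12821157994) (nat_lit 152) (nat_lit 756921290) (nat_lit 0) (nat_lit 604916297) (nat_lit 20)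 (nat_lit 5) (nat_lit 22) (nat_lit 4) (nat_lit 20) (nat_lit 4) (nat_lit 275) (nat_lit 258) (nat_lit 247)) (XT.lf (nat_lit 0) (nat_lit 5453924894) (nat_lit 228) (nat_lit 1308346282) (nat_lit 76) (nat_lit 8813728003) (nat_lit 17) (nat_lit 5) (nat_lit 20) (nat_lit 5) (nat_lit 18) (nat_lit 4) (nat_lit 276) (nat_lit 258) (nat_lit 246))) (XT.nd (nat_lit 78) (nat_lit 152) (nat_lit 0) (XT.lf (nat_lit 0) (nat_lit 13272548018) (nat_lit 152) (nat_lit 2692031656) (nat_lit 0) (nat_lit 1205998147) (nat_lit 16) (nat_lit 5) (nat_lit 18) (nat_lit 4) (nat_lit 16) (nat_lit 4) (nat_lit 277) (nat_lit 258) (nat_lit 245)) (XT.lf (nat_lit 0) (nat_lit 3339613872) (nat_lit 152) (nat_lit 5425598908) (nat_lit 76) (nat_lit 10213692480) (nat_lit 14) (nat_lit 5) (nat_lit 16) (nat_lit 5) (nat_lit 15) (nat_lit 4) (nat_lit 278) (nat_lit 258) (nat_lit 244))))))))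
noncomputable def xc21 : XT := (XT.nd (nat_lit 2028) (nat_lit 0) (nat_lit 0) (XT.nd (nat_lit 1014) (nat_lit 228) (nat_lit 0) (XT.nd (nat_lit 468) (nat_lit 304) (nat_lit 0) (XT.nd (nat_lit 234) (nat_lit 152) (nat_lit 0) (XT.nd (nat_lit 78) (nat_lit 228) (nat_lit 0) (XT.lf (nat_lit 0) (nat_lit 11270573420) (nat_lit 76) (nat_lit 223741150) (nat_lit 152) (nat_lit 9551331516) (nat_lit 13) (nat_lit 5) (nat_lit 14) (nat_lit 5) (nat_lit 15) (nat_lit 4) (nat_lit 279) (nat_lit 258) (nat_lit 243)) (XT.nd (nat_lit 78) (nat_lit 152) (nat_lit 0) (XT.lf (nat_lit 0) (nat_lit 7004048589) (nat_lit 76) (nat_lit 14155455871) (nat_lit 76) (nat_lit 2240120812) (nat_lit 12) (nat_lit 4) (nat_lit 13) (nat_lit 5) (nat_lit 13) (nat_lit 4) (nat_lit 280) (nat_lit 258) (nat_lit 242)) (XT.lf (nat_lit 0) (nat_lit 182730581) (nat_lit 76) (nat_lit 5723050455) (nat_lit 152) (nat_lit 20185498834) (nat_lit 10) (nat_lit 5)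 (nat_lit 11) (nat_lit 5) (nat_lit 12) (nat_lit 4) (nat_lit 281) (nat_lit 258) (nat_lit 241)))) (XT.nd (nat_lit 78) (nat_lit 152) (nat_lit 0) (XT.lf (nat_lit 0) (nat_lit 15492190701) (nat_lit 152) (nat_lit 9524319655) (nat_lit 0) (nat_lit 4137563494) (nat_lit 10) (nat_lit 5) (nat_lit 12) (nat_lit 4) (nat_lit 10) (nat_lit 4) (nat_lit 282) (nat_lit 258) (nat_lit 240)) (XT.nd (nat_lit 78) (nat_lit 76) (nat_lit 0) (XT.lf (nat_lit 0) (nat_lit 9232826920) (nat_lit 76) (nat_lit 17457264334) (nat_lit 76) (nat_lit 5972441146) (nat_lit 9) (nat_lit 4) (nat_lit 10) (nat_lit 5) (nat_lit 10) (nat_lit 4) (nat_lit 283) (nat_lit 258) (nat_lit 239)) (XT.lf (nat_lit 0) (nat_lit 2817942274) (nat_lit 152) (nat_lit 5736717153) (nat_lit 76) (nat_lit 28129891339) (nat_lit 8) (nat_lit 5) (nat_lit 10) (nat_lit 5) (nat_lit 9) (nat_lit 4) (nat_lit 284) (nat_lit 258) (nat_lit 238))))) (XT.nd (nat_lit 234) (nat_lit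 152) (nat_lit 0) (XT.nd (nat_lit 78) (nat_lit 76) (nat_lit 0) (XT.lf (nat_lit 0) (nat_lit 12823254531) (nat_lit 152) (nat_lit 26461119264) (nat_lit 0) (nat_lit 1993176801) (nat_lit 7) (nat_lit 5) (nat_lit 9) (nat_lit 4) (nat_lit 7) (nat_lit 4) (nat_lit 285) (nat_lit 258) (nat_lit 237)) (XT.nd (nat_lit 78) (nat_lit 76) (nat_lit 0) (XT.lf (nat_lit 0) (nat_lit 24580782911) (nat_lit 152) (nat_lit 8287241379) (nat_lit 0) (nat_lit 13671440393) (nat_lit 7) (nat_lit 5) (nat_lit 9) (nat_lit 4) (nat_lit 7) (nat_lit 4) (nat_lit 286) (nat_lit 258) (nat_lit 236)) (XT.lf (nat_lit 0) (nat_lit 13002170888) (nat_lit 76) (nat_lit 25276352241) (nat_lit 76) (nat_lit 14298083821) (nat_lit 6) (nat_lit 4) (nat_lit 7) (nat_lit 5) (nat_lit 7) (nat_lit 4) (nat_lit 287) (nat_lit 258) (nat_lit 235)))) (XT.nd (nat_lit 156) (nat_lit 76) (nat_lit 0) (XT.nd (nat_lit 78) (nat_lit 76) (nat_lit 0) (XT.lf (nat_lit 0) (nat_lit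 37747966297) (nat_lit 76) (nat_lit 16400121989) (nat_lit 76) (nat_lit 5361918002) (nat_lit 6) (nat_lit 4) (nat_lit 7) (nat_lit 5) (nat_lit 7) (nat_lit 4) (nat_lit 288) (nat_lit 258) (nat_lit 234)) (XT.lf (nat_lit 0) (nat_lit 4558047158) (nat_lit 152) (nat_lit 1609583781) (nat_lit 76) (nat_lit 61315238025) (nat_lit 5) (nat_lit 5) (nat_lit 7) (nat_lit 5) (nat_lit 6) (nat_lit 4) (nat_lit 289) (nat_lit 258) (nat_lit 233))) (XT.nd (nat_lit 78) (nat_lit 0) (nat_lit 0) (XT.lf (nat_lit 0) (nat_lit 16249071539) (nat_lit 152) (nat_lit 54405152946) (nat_lit 0) (nat_lit 5938292122) (nat_lit 4) (nat_lit 5) (nat_lit 6) (nat_lit 4) (nat_lit 4) (nat_lit 4) (nat_lit 290) (nat_lit 258) (nat_lit 232)) (XT.lf (nat_lit 0) (nat_lit 29822583550) (nat_lit 152) (nat_lit 37760442274) (nat_lit 0) (nat_lit 19475314681) (nat_lit 4) (nat_lit 5) (nat_lit 6) (nat_lit 4) (nat_lit 4) (nat_lit 4) (nat_lit 291) (nat_lit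 258) (nat_lit 231)))))) (XT.nd (nat_lit 468) (nat_lit 152) (nat_lit 0) (XT.nd (nat_lit 234) (nat_lit 0) (nat_lit 0) (XT.nd (nat_lit 78) (nat_lit 76) (nat_lit 0) (XT.lf (nat_lit 0) (nat_lit 45354012861) (nat_lit 152) (nat_lit 18771291007) (nat_lit 0) (nat_lit 34975014033) (nat_lit 4) (nat_lit 5) (nat_lit 6) (nat_lit 4) (nat_lit 4) (nat_lit 4) (nat_lit 292) (nat_lit 258) (nat_lit 230)) (XT.nd (nat_lit 78) (nat_lit 0) (nat_lit 0) (XT.lf (nat_lit 0) (nat_lit 3088317895) (nat_lit 76) (nat_lit 60133191486) (nat_lit 76) (nat_lit 49726601390) (nat_lit 3) (nat_lit 4) (nat_lit 4) (nat_lit 5) (nat_lit 4) (nat_lit 4) (nat_lit 293) (nat_lit 258) (nat_lit 229)) (XT.lf (nat_lit 0) (nat_lit 29242402712) (nat_lit 76) (nat_lit 55011256794) (nat_lit 76) (nat_lit 44580674291) (nat_lit 3) (nat_lit 4) (nat_lit 4) (nat_lit 5) (nat_lit 4) (nat_lit 4) (nat_lit 294) (nat_lit 258) (nat_lit 228)))) (XT.nd (nat_lit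 78) (nat_lit 0) (nat_lit 0) (XT.lf (nat_lit 0) (nat_lit 59214210877) (nat_lit 76) (nat_lit 49172528390) (nat_lit 76) (nat_lit 38721082925) (nat_lit 3) (nat_lit 4) (nat_lit 4) (nat_lit 5) (nat_lit 4) (nat_lit 4) (nat_lit 295) (nat_lit 258) (nat_lit 227)) (XT.nd (nat_lit 78) (nat_lit 0) (nat_lit 0) (XT.lf (nat_lit 0) (nat_lit 93590147334) (nat_lit 76) (nat_lit 42502770283) (nat_lit 76) (nat_lit 32033183111) (nat_lit 3) (nat_lit 4) (nat_lit 4) (nat_lit 5) (nat_lit 4) (nat_lit 4) (nat_lit 296) (nat_lit 258) (nat_lit 226)) (XT.lf (nat_lit 0) (nat_lit 133042784751) (nat_lit 76) (nat_lit 34871487206) (nat_lit 76) (nat_lit 24386124636) (nat_lit 3) (nat_lit 4) (nat_lit 4) (nat_lit 5) (nat_lit 4) (nat_lit 4) (nat_lit 297) (nat_lit 258) (nat_lit 225))))) (XT.nd (nat_lit 234) (nat_lit 0) (nat_lit 0) (XT.nd (nat_lit 78) (nat_lit 152) (nat_lit 0) (XT.lf (nat_lit 0) (nat_lit 178344022557) (nat_lit 76)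 (nat_lit 26129371445) (nat_lit 76) (nat_lit 15630291140) (nat_lit 3) (nat_lit 4) (nat_lit 4) (nat_lit 5) (nat_lit 4) (nat_lit 4) (nat_lit 298) (nat_lit 258) (nat_lit 224)) (XT.nd (nat_lit 78) (nat_lit 152) (nat_lit 0) (XT.lf (nat_lit 0) (nat_lit 230380189318) (nat_lit 76) (nat_lit 16105381607) (nat_lit 76) (nat_lit 5594372835) (nat_lit 3) (nat_lit 4) (nat_lit 4) (nat_lit 5) (nat_lit 4) (nat_lit 4) (nat_lit 299) (nat_lit 258) (nat_lit 223)) (XT.lf (nat_lit 0) (nat_lit 1233990569) (nat_lit 76) (nat_lit 4417630546) (nat_lit 152) (nat_lit 283189413368) (nat_lit 1) (nat_lit 5) (nat_lit 2) (nat_lit 5) (nat_lit 3) (nat_lit 4) (nat_lit 300) (nat_lit 258) (nat_lit 222)))) (XT.nd (nat_lit 156) (nat_lit 0) (nat_lit 0) (XT.nd (nat_lit 78) (nat_lit 0) (nat_lit 0) (XT.lf (nat_lit 0) (nat_lit 19102187158) (nat_lit 152) (nat_lit 302582755526) (nat_lit 0) (nat_lit 9351815874) (nat_lit 1) (nat_lit 5) (nat_lit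 3) (nat_lit 4) (nat_lit 1) (nat_lit 4) (nat_lit 301) (nat_lit 258) (nat_lit 221)) (XT.lf (nat_lit 0) (nat_lit 34670187978) (nat_lit 152) (nat_lit 319971117899) (nat_lit 0) (nat_lit 24912554509) (nat_lit 1) (nat_lit 5) (nat_lit 3) (nat_lit 4) (nat_lit 1) (nat_lit 4) (nat_lit 302) (nat_lit 258) (nat_lit 220))) (XT.nd (nat_lit 78) (nat_lit 0) (nat_lit 0) (XT.lf (nat_lit 0) (nat_lit 52553970775) (nat_lit 152) (nat_lit 340006094001) (nat_lit 0) (nat_lit 42790022362) (nat_lit 1) (nat_lit 5) (nat_lit 3) (nat_lit 4) (nat_lit 1) (nat_lit 4) (nat_lit 303) (nat_lit 258) (nat_lit 219)) (XT.lf (nat_lit 0) (nat_lit 73103435648) (nat_lit 152) (nat_lit 363079672496) (nat_lit 0) (nat_lit 63333995979) (nat_lit 1) (nat_lit 5) (nat_lit 3) (nat_lit 4) (nat_lit 1) (nat_lit 4) (nat_lit 304) (nat_lit 258) (nat_lit 218))))))) (XT.nd (nat_lit 1014) (nat_lit 0) (nat_lit 0) (XT.nd (nat_lit 468) (nat_lit 0) (nat_lit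 0) (XT.nd (nat_lit 234) (nat_lit 0) (nat_lit 0) (XT.nd (nat_lit 78) (nat_lit 0) (nat_lit 0) (XT.lf (nat_lit 0) (nat_lit 96720637344) (nat_lit 152) (nat_lit 389643292964) (nat_lit 0) (nat_lit 86946422670) (nat_lit 1) (nat_lit 5) (nat_lit 3) (nat_lit 4) (nat_lit 1) (nat_lit 4) (nat_lit 305) (nat_lit 258) (nat_lit 217)) (XT.nd (nat_lit 78) (nat_lit 0) (nat_lit 0) (XT.lf (nat_lit 0) (nat_lit 123867651548) (nat_lit 152) (nat_lit 420216678412) (nat_lit 0) (nat_lit 114089284696) (nat_lit 1) (nat_lit 5) (nat_lit 3) (nat_lit 4) (nat_lit 1) (nat_lit 4) (nat_lit 306) (nat_lit 258) (nat_lit 216)) (XT.lf (nat_lit 0) (nat_lit 155075615494) (nat_lit 152) (nat_lit 455398003774) (nat_lit 0) (nat_lit 145293638053) (nat_lit 1) (nat_lit 5) (nat_lit 3) (nat_lit 4) (nat_lit 1) (nat_lit 4) (nat_lit 307) (nat_lit 258) (nat_lit 215)))) (XT.nd (nat_lit 78) (nat_lit 0) (nat_lit 0) (XT.lf (nat_lit 0) (nat_lit 190955119783)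 (nat_lit 152) (nat_lit 495875599329) (nat_lit 0) (nat_lit 181170002698) (nat_lit 1) (nat_lit 5) (nat_lit 3) (nat_lit 4) (nat_lit 1) (nat_lit 4) (nat_lit 308) (nat_lit 258) (nat_lit 214)) (XT.nd (nat_lit 78) (nat_lit 0) (nat_lit 0) (XT.lf (nat_lit 0) (nat_lit 232208154714) (nat_lit 152) (nat_lit 542441418032) (nat_lit 0) (nat_lit 222420307505) (nat_lit 1) (nat_lit 5) (nat_lit 3) (nat_lit 4) (nat_lit 1) (nat_lit 4) (nat_lit 309) (nat_lit 258) (nat_lit 213)) (XT.lf (nat_lit 0) (nat_lit 279641844885) (nat_lit 152) (nat_lit 596006530251) (nat_lit 0) (nat_lit 269851623654) (nat_lit 1) (nat_lit 5) (nat_lit 3) (nat_lit 4) (nat_lit 1) (nat_lit 4) (nat_lit 310) (nat_lit 258) (nat_lit 212))))) (XT.nd (nat_lit 234) (nat_lit 0) (nat_lit 0) (XT.nd (nat_lit 78) (nat_lit 0) (nat_lit 0) (XT.lf (nat_lit 0) (nat_lit 334184240755) (nat_lit 152) (nat_lit 657618949051) (nat_lit 0) (nat_lit 324391955158) (nat_lit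 1) (nat_lit 5) (nat_lit 3) (nat_lit 4) (nat_lit 1) (nat_lit 4) (nat_lit 311) (nat_lit 258) (nat_lit 211)) (XT.nd (nat_lit 78) (nat_lit 0) (nat_lit 0) (XT.lf (nat_lit 0) (nat_lit 396902476157) (nat_lit 152) (nat_lit 728484134798) (nat_lit 0) (nat_lit 387108395458) (nat_lit 1) (nat_lit 5) (nat_lit 3) (nat_lit 4) (nat_lit 1) (nat_lit 4) (nat_lit 312) (nat_lit 258) (nat_lit 210)) (XT.lf (nat_lit 0) (nat_lit 469023647000) (nat_lit 152) (nat_lit 809988580258) (nat_lit 0) (nat_lit 459228005344) (nat_lit 1) (nat_lit 5) (nat_lit 3) (nat_lit 4) (nat_lit 1) (nat_lit 4) (nat_lit 313) (nat_lit 258) (nat_lit 209)))) (XT.nd (nat_lit 156) (nat_lit 0) (nat_lit 0) (XT.nd (nat_lit 78) (nat_lit 0) (nat_lit 0) (XT.lf (nat_lit 0) (nat_lit 551958819671) (nat_lit 152) (nat_lit 903726937624) (nat_lit 0) (nat_lit 542161820660) (nat_lit 1) (nat_lit 5) (nat_lit 3) (nat_lit 4) (nat_lit 1) (nat_lit 4) (nat_lit 314)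 (nat_lit 258) (nat_lit 208)) (XT.lf (nat_lit 0) (nat_lit 647330638852) (nat_lit 152) (nat_lit 1011533218236) (nat_lit 0) (nat_lit 637532459534) (nat_lit 1) (nat_lit 5) (nat_lit 3) (nat_lit 4) (nat_lit 1) (nat_lit 4) (nat_lit 315) (nat_lit 258) (nat_lit 207))) (XT.nd (nat_lit 78) (nat_lit 0) (nat_lit 0) (XT.lf (nat_lit 0) (nat_lit 757005074919) (nat_lit 152) (nat_lit 1135516675411) (nat_lit 0) (nat_lit 747205869245) (nat_lit 1) (nat_lit 5) (nat_lit 3) (nat_lit 4) (nat_lit 1) (nat_lit 4) (nat_lit 316) (nat_lit 258) (nat_lit 206)) (XT.lf (nat_lit 0) (nat_lit 883127932055) (nat_lit 152) (nat_lit 1278103072442) (nat_lit 0) (nat_lit 873327833899) (nat_lit 1) (nat_lit 5) (nat_lit 3) (nat_lit 4) (nat_lit 1) (nat_lit 4) (nat_lit 317) (nat_lit 258) (nat_lit 205)))))) (XT.nd (nat_lit 546) (nat_lit 0) (nat_lit 0) (XT.nd (nat_lit 234) (nat_lit 0) (nat_lit 0) (XT.nd (nat_lit 78) (nat_lit 0) (nat_lit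 0) (XT.lf (nat_lit 0) (nat_lit 1028166831379) (nat_lit 152) (nat_lit 1442082143182) (nat_lit 0) (nat_lit 1018365957151) (nat_lit 1) (nat_lit 5) (nat_lit 3) (nat_lit 4) (nat_lit 1) (nat_lit 4) (nat_lit 318) (nat_lit 258) (nat_lit 204)) (XT.nd (nat_lit 78) (nat_lit 0) (nat_lit 0) (XT.lf (nat_lit 0) (nat_lit 1194959490486) (nat_lit 152) (nat_lit 1630662173799) (nat_lit 0) (nat_lit 1185157941413) (nat_lit 1) (nat_lit 5) (nat_lit 3) (nat_lit 4) (nat_lit 1) (nat_lit 4) (nat_lit 319) (nat_lit 258) (nat_lit 203)) (XT.lf (nat_lit 0) (nat_lit 1386769244010) (nat_lit 152) (nat_lit 1847532773587) (nat_lit 0) (nat_lit 1376967108116) (nat_lit 1) (nat_lit 5) (nat_lit 3) (nat_lit 4) (nat_lit 1) (nat_lit 4) (nat_lit 320) (nat_lit 258) (nat_lit 202)))) (XT.nd (nat_lit 156) (nat_lit 0) (nat_lit 0) (XT.nd (nat_lit 78) (nat_lit 0) (nat_lit 0) (XT.lf (nat_lit 0) (nat_lit 1607348891478) (nat_lit 152) (nat_lit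 2096937062977) (nat_lit 0) (nat_lit 1597546245303) (nat_lit 1) (nat_lit 5) (nat_lit 3) (nat_lit 4) (nat_lit 1) (nat_lit 4) (nat_lit 321) (nat_lit 258) (nat_lit 201)) (XT.lf (nat_lit 0) (nat_lit 1861014121643) (nat_lit 152) (nat_lit 2383754691110) (nat_lit 0) (nat_lit 1851211031747) (nat_lit 1) (nat_lit 5) (nat_lit 3) (nat_lit 4) (nat_lit 1) (nat_lit 4) (nat_lit 322) (nat_lit 258) (nat_lit 200))) (XT.nd (nat_lit 78) (nat_lit 0) (nat_lit 0) (XT.lf (nat_lit 0) (nat_lit 2152727949879) (nat_lit 152) (nat_lit 2713597307230) (nat_lit 0) (nat_lit 2142924474138) (nat_lit 1) (nat_lit 5) (nat_lit 3) (nat_lit 4) (nat_lit 1) (nat_lit 4) (nat_lit 323) (nat_lit 258) (nat_lit 199)) (XT.lf (nat_lit 0) (nat_lit 2488197820651) (nat_lit 152) (nat_lit 3092918353829) (nat_lit 0) (nat_lit 2478394009393) (nat_lit 1) (nat_lit 5) (nat_lit 3) (nat_lit 4) (nat_lit 1) (nat_lit 4) (nat_lit 324) (nat_lit 258) (nat_lit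 198))))) (XT.nd (nat_lit 234) (nat_lit 0) (nat_lit 0) (XT.nd (nat_lit 78) (nat_lit 0) (nat_lit 0) (XT.lf (nat_lit 0) (nat_lit 2873987274909) (nat_lit 152) (nat_lit 3529139329643) (nat_lit 0) (nat_lit 2864183171897) (nat_lit 1) (nat_lit 5) (nat_lit 3) (nat_lit 4) (nat_lit 1) (nat_lit 4) (nat_lit 325) (nat_lit 258) (nat_lit 197)) (XT.nd (nat_lit 78) (nat_lit 0) (nat_lit 0) (XT.lf (nat_lit 0) (nat_lit 3317644367193) (nat_lit 152) (nat_lit 4030794992894) (nat_lit 0) (nat_lit 3307840010481) (nat_lit 1) (nat_lit 5) (nat_lit 3) (nat_lit 4) (nat_lit 1) (nat_lit 4) (nat_lit 326) (nat_lit 258) (nat_lit 196)) (XT.lf (nat_lit 0) (nat_lit 3827849344960) (nat_lit 152) (nat_lit 4607700345691) (nat_lit 0) (nat_lit 3818044767641) (nat_lit 1) (nat_lit 5) (nat_lit 3) (nat_lit 4) (nat_lit 1) (nat_lit 4) (nat_lit 327) (nat_lit 258) (nat_lit 195)))) (XT.nd (nat_lit 35490) (nat_lit 0) (nat_lit 5092) (XT.nd (nat_lit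 78) (nat_lit 0) (nat_lit 0) (XT.lf (nat_lit 0) (nat_lit 4414584479516) (nat_lit 152) (nat_lit 5271142666675) (nat_lit 0) (nat_lit 4404779710363) (nat_lit 1) (nat_lit 5) (nat_lit 3) (nat_lit 4) (nat_lit 1) (nat_lit 4) (nat_lit 328) (nat_lit 258) (nat_lit 194)) (XT.lf (nat_lit 0) (nat_lit 5089329371317) (nat_lit 152) (nat_lit 6034102349081) (nat_lit 0) (nat_lit 5079524435353) (nat_lit 1) (nat_lit 5) (nat_lit 3) (nat_lit 4) (nat_lit 1) (nat_lit 4) (nat_lit 329) (nat_lit 258) (nat_lit 193))) (XT.nd (nat_lit 78) (nat_lit 228) (nat_lit 0) (XT.lf (nat_lit 0) (nat_lit 2920294519) (nat_lit 76) (nat_lit 174768764) (nat_lit 76) (nat_lit 174768764) (nat_lit 71) (nat_lit 4) (nat_lit 72) (nat_lit 5) (nat_lit 72) (nat_lit 4) (nat_lit 262) (nat_lit 259) (nat_lit 259)) (XT.lf (nat_lit 0) (nat_lit 5150154891) (nat_lit 228) (nat_lit 370612152) (nat_lit 0) (nat_lit 1149840755) (nat_lit 68) (nat_lit 5) (nat_lit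 71) (nat_lit 4) (nat_lit 68) (nat_lit 4) (nat_lit 263) (nat_lit 259) (nat_lit 258))))))))
noncomputable def xc22 : XT := (XT.nd (nat_lit 2028) (nat_lit 380) (nat_lit 0) (XT.nd (nat_lit 1014) (nat_lit 836) (nat_lit 0) (XT.nd (nat_lit 468) (nat_lit 1444) (nat_lit 0) (XT.nd (nat_lit 234) (nat_lit 912) (nat_lit 0) (XT.nd (nat_lit 78) (nat_lit 912) (nat_lit 0) (XT.lf (nat_lit 0) (nat_lit 278962698) (nat_lit 304) (nat_lit 3450754064) (nat_lit 380) (nat_lit 3138767381) (nat_lit 60) (nat_lit 5) (nat_lit 64) (nat_lit 5) (nat_lit 65) (nat_lit 4) (nat_lit 264) (nat_lit 259) (nat_lit 257)) (XT.nd (nat_lit 78) (nat_lit 456) (nat_lit 0) (XT.lf (nat_lit 0) (nat_lit 1278146548) (nat_lit 380) (nat_lit 602614894) (nat_lit 456) (nat_lit 5255650896) (nat_lit 54) (nat_lit 5) (nat_lit 59) (nat_lit 5) (nat_lit 60) (nat_lit 5) (nat_lit 265) (nat_lit 259) (nat_lit 256)) (XT.lf (nat_lit 0) (nat_lit 2520400764)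 (nat_lit 456) (nat_lit 4537988068) (nat_lit 532) (nat_lit 414551307) (nat_lit 48) (nat_lit 5) (nat_lit 54) (nat_lit 5) (nat_lit 55) (nat_lit 4) (nat_lit 266) (nat_lit 259) (nat_lit 255)))) (XT.nd (nat_lit 78) (nat_lit 532) (nat_lit 0) (XT.lf (nat_lit 0) (nat_lit 3999709953) (nat_lit 304) (nat_lit 507811053) (nat_lit 380) (nat_lit 3375289519) (nat_lit 43) (nat_lit 5) (nat_lit 47) (nat_lit 5) (nat_lit 48) (nat_lit 5) (nat_lit 267) (nat_lit 259) (nat_lit 254)) (XT.nd (nat_lit 78) (nat_lit 228) (nat_lit 0) (XT.lf (nat_lit 0) (nat_lit 1474329137) (nat_lit 304) (nat_lit 2693334759) (nat_lit 76) (nat_lit 4201722023) (nat_lit 39) (nat_lit 5) (nat_lit 43) (nat_lit 5) (nat_lit 40) (nat_lit 5) (nat_lit 268) (nat_lit 259) (nat_lit 253)) (XT.lf (nat_lit 0) (nat_lit 6636113548) (nat_lit 304) (nat_lit 1390383408) (nat_lit 76) (nat_lit 913918939) (nat_lit 36) (nat_lit 5) (nat_lit 40) (nat_lit 5) (nat_lit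 37) (nat_lit 4) (nat_lit 269) (nat_lit 259) (nat_lit 252))))) (XT.nd (nat_lit 234) (nat_lit 608) (nat_lit 0) (XT.nd (nat_lit 78) (nat_lit 608) (nat_lit 0) (XT.lf (nat_lit 0) (nat_lit 2748300753) (nat_lit 228) (nat_lit 66892634) (nat_lit 76) (nat_lit 6783423020) (nat_lit 33) (nat_lit 5) (nat_lit 36) (nat_lit 5) (nat_lit 34) (nat_lit 5) (nat_lit 270) (nat_lit 259) (nat_lit 251)) (XT.nd (nat_lit 78) (nat_lit 228) (nat_lit 0) (XT.lf (nat_lit 0) (nat_lit 1339238370) (nat_lit 152) (nat_lit 7061668298) (nat_lit 228) (nat_lit 1952441771) (nat_lit 28) (nat_lit 5) (nat_lit 30) (nat_lit 5) (nat_lit 31) (nat_lit 4) (nat_lit 271) (nat_lit 259) (nat_lit 250)) (XT.lf (nat_lit 0) (nat_lit 2684953460) (nat_lit 152) (nat_lit 796426170) (nat_lit 228) (nat_lit 7734704813) (nat_lit 25) (nat_lit 5) (nat_lit 27) (nat_lit 5) (nat_lit 28) (nat_lit 5) (nat_lit 272) (nat_lit 259) (nat_lit 249)))) (XT.nd (nat_lit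 156) (nat_lit 304) (nat_lit 0) (XT.nd (nat_lit 78) (nat_lit 228) (nat_lit 0) (XT.lf (nat_lit 0) (nat_lit 3841202327) (nat_lit 76) (nat_lit 5883595888) (nat_lit 152) (nat_lit 2471176979) (nat_lit 24) (nat_lit 5) (nat_lit 25) (nat_lit 5) (nat_lit 26) (nat_lit 4) (nat_lit 273) (nat_lit 259) (nat_lit 248)) (XT.lf (nat_lit 0) (nat_lit 3449070992) (nat_lit 228) (nat_lit 8540349835) (nat_lit 76) (nat_lit 1323320084) (nat_lit 21) (nat_lit 5) (nat_lit 24) (nat_lit 5) (nat_lit 22) (nat_lit 4) (nat_lit 274) (nat_lit 259) (nat_lit 247))) (XT.nd (nat_lit 78) (nat_lit 228) (nat_lit 0) (XT.lf (nat_lit 0) (nat_lit 5249739651) (nat_lit 76) (nat_lit 5055706015) (nat_lit 152) (nat_lit 4271316383) (nat_lit 20) (nat_lit 5) (nat_lit 21) (nat_lit 5) (nat_lit 22) (nat_lit 4) (nat_lit 275) (nat_lit 259) (nat_lit 246)) (XT.lf (nat_lit 0) (nat_lit 2186123968) (nat_lit 228) (nat_lit 10818880883) (nat_lit 76) (nat_lit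 3010828329) (nat_lit 17) (nat_lit 5) (nat_lit 20) (nat_lit 5) (nat_lit 18) (nat_lit 4) (nat_lit 276) (nat_lit 259) (nat_lit 245)))))) (XT.nd (nat_lit 468) (nat_lit 304) (nat_lit 0) (XT.nd (nat_lit 234) (nat_lit 304) (nat_lit 0) (XT.nd (nat_lit 78) (nat_lit 152) (nat_lit 0) (XT.lf (nat_lit 0) (nat_lit 4248252100) (nat_lit 76) (nat_lit 5340282707) (nat_lit 152) (nat_lit 8055313481) (nat_lit 16) (nat_lit 5) (nat_lit 17) (nat_lit 5) (nat_lit 18) (nat_lit 4) (nat_lit 277) (nat_lit 259) (nat_lit 244)) (XT.nd (nat_lit 78) (nat_lit 76) (nat_lit 0) (XT.lf (nat_lit 0) (nat_lit 2273634527) (nat_lit 76) (nat_lit 16013342248) (nat_lit 76) (nat_lit 1214496105) (nat_lit 15) (nat_lit 4) (nat_lit 16) (nat_lit 5) (nat_lit 16) (nat_lit 4) (nat_lit 278) (nat_lit 259) (nat_lit 243)) (XT.lf (nat_lit 0) (nat_lit 6610259425) (nat_lit 152) (nat_lit 1280467513) (nat_lit 76) (nat_lit 13711177052) (nat_lit 14) (nat_lit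 5) (nat_lit 16) (nat_lit 5) (nat_lit 15) (nat_lit 4) (nat_lit 279) (nat_lit 259) (nat_lit 242)))) (XT.nd (nat_lit 78) (nat_lit 228) (nat_lit 0) (XT.lf (nat_lit 0) (nat_lit 15778499596) (nat_lit 152) (nat_lit 6541171875) (nat_lit 0) (nat_lit 1676052604) (nat_lit 13) (nat_lit 5) (nat_lit 15) (nat_lit 4) (nat_lit 13) (nat_lit 4) (nat_lit 280) (nat_lit 259) (nat_lit 241)) (XT.nd (nat_lit 78) (nat_lit 152) (nat_lit 0) (XT.lf (nat_lit 0) (nat_lit 12351307959) (nat_lit 76) (nat_lit 14316957597) (nat_lit 76) (nat_lit 52807198) (nat_lit 12) (nat_lit 4) (nat_lit 13) (nat_lit 5) (nat_lit 13) (nat_lit 4) (nat_lit 281) (nat_lit 259) (nat_lit 240)) (XT.lf (nat_lit 0) (nat_lit 4260093682) (nat_lit 76) (nat_lit 4713394653) (nat_lit 152) (nat_lit 20855559915) (nat_lit 10) (nat_lit 5) (nat_lit 11) (nat_lit 5) (nat_lit 12) (nat_lit 4) (nat_lit 282) (nat_lit 259) (nat_lit 239))))) (XT.nd (nat_lit 234) (nat_lit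 152) (nat_lit 0) (XT.nd (nat_lit 78) (nat_lit 152) (nat_lit 0) (XT.lf (nat_lit 0) (nat_lit 19752339580) (nat_lit 152) (nat_lit 7317359827) (nat_lit 0) (nat_lit 6301383039) (nat_lit 10) (nat_lit 5) (nat_lit 12) (nat_lit 4) (nat_lit 10) (nat_lit 4) (nat_lit 283) (nat_lit 259) (nat_lit 238)) (XT.nd (nat_lit 78) (nat_lit 76) (nat_lit 0) (XT.lf (nat_lit 0) (nat_lit 13945622644) (nat_lit 76) (nat_lit 18511774452) (nat_lit 76) (nat_lit 4962371044) (nat_lit 9) (nat_lit 4) (nat_lit 10) (nat_lit 5) (nat_lit 10) (nat_lit 4) (nat_lit 284) (nat_lit 259) (nat_lit 237)) (XT.lf (nat_lit 0) (nat_lit 4815062852) (nat_lit 152) (nat_lit 3619678645) (nat_lit 76) (nat_lit 33625699584) (nat_lit 8) (nat_lit 5) (nat_lit 10) (nat_lit 5) (nat_lit 9) (nat_lit 4) (nat_lit 285) (nat_lit 259) (nat_lit 236)))) (XT.nd (nat_lit 156) (nat_lit 76) (nat_lit 0) (XT.nd (nat_lit 78) (nat_lit 0) (nat_lit 0) (XT.lf (nat_lit 0)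 (nat_lit 16212406268) (nat_lit 152) (nat_lit 27620323489) (nat_lit 0) (nat_lit 3518471683) (nat_lit 7) (nat_lit 5) (nat_lit 9) (nat_lit 4) (nat_lit 7) (nat_lit 4) (nat_lit 286) (nat_lit 259) (nat_lit 235)) (XT.lf (nat_lit 0) (nat_lit 29542390397) (nat_lit 152) (nat_lit 7086880921) (nat_lit 0) (nat_lit 16788520245) (nat_lit 7) (nat_lit 5) (nat_lit 9) (nat_lit 4) (nat_lit 7) (nat_lit 4) (nat_lit 287) (nat_lit 259) (nat_lit 234))) (XT.nd (nat_lit 78) (nat_lit 0) (nat_lit 0) (XT.lf (nat_lit 0) (nat_lit 17189117596) (nat_lit 76) (nat_lit 27993227009) (nat_lit 76) (nat_lit 15187238973) (nat_lit 6) (nat_lit 4) (nat_lit 7) (nat_lit 5) (nat_lit 7) (nat_lit 4) (nat_lit 288) (nat_lit 259) (nat_lit 233)) (XT.lf (nat_lit 0) (nat_lit 45355049133) (nat_lit 76) (nat_lit 17925724576) (nat_lit 76) (nat_lit 5074416641) (nat_lit 6) (nat_lit 4) (nat_lit 7) (nat_lit 5) (nat_lit 7) (nat_lit 4) (nat_lit 289)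 (nat_lit 259) (nat_lit 232))))))) (XT.nd (nat_lit 1014) (nat_lit 0) (nat_lit 0) (XT.nd (nat_lit 468) (nat_lit 152) (nat_lit 0) (XT.nd (nat_lit 234) (nat_lit 76) (nat_lit 0) (XT.nd (nat_lit 78) (nat_lit 76) (nat_lit 0) (XT.lf (nat_lit 0) (nat_lit 6143644102) (nat_lit 152) (nat_lit 111936810) (nat_lit 76) (nat_lit 71277181453) (nat_lit 5) (nat_lit 5) (nat_lit 7) (nat_lit 5) (nat_lit 6) (nat_lit 4) (nat_lit 290) (nat_lit 259) (nat_lit 231)) (XT.nd (nat_lit 78) (nat_lit 0) (nat_lit 0) (XT.lf (nat_lit 0) (nat_lit 19527471791) (nat_lit 152) (nat_lit 60926410526) (nat_lit 0) (nat_lit 7559893181) (nat_lit 4) (nat_lit 5) (nat_lit 6) (nat_lit 4) (nat_lit 4) (nat_lit 4) (nat_lit 291) (nat_lit 259) (nat_lit 230)) (XT.lf (nat_lit 0) (nat_lit 35027309797) (nat_lit 152) (nat_lit 41998843083) (nat_lit 0) (nat_lit 23032139919) (nat_lit 4) (nat_lit 5) (nat_lit 6) (nat_lit 4) (nat_lit 4) (nat_lit 4) (nat_lit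 292) (nat_lit 259) (nat_lit 229)))) (XT.nd (nat_lit 78) (nat_lit 76) (nat_lit 0) (XT.lf (nat_lit 0) (nat_lit 52793061498) (nat_lit 152) (nat_lit 20347275500) (nat_lit 0) (nat_lit 40773899213) (nat_lit 4) (nat_lit 5) (nat_lit 6) (nat_lit 4) (nat_lit 4) (nat_lit 4) (nat_lit 293) (nat_lit 259) (nat_lit 228)) (XT.nd (nat_lit 78) (nat_lit 0) (nat_lit 0) (XT.lf (nat_lit 0) (nat_lit 4686339533) (nat_lit 76) (nat_lit 68598684734) (nat_lit 76) (nat_lit 56558659486) (nat_lit 3) (nat_lit 4) (nat_lit 4) (nat_lit 5) (nat_lit 4) (nat_lit 4) (nat_lit 294) (nat_lit 259) (nat_lit 227)) (XT.lf (nat_lit 0) (nat_lit 34615523078) (nat_lit 76) (nat_lit 62780784031) (nat_lit 76) (nat_lit 50722617076) (nat_lit 3) (nat_lit 4) (nat_lit 4) (nat_lit 5) (nat_lit 4) (nat_lit 4) (nat_lit 295) (nat_lit 259) (nat_lit 226))))) (XT.nd (nat_lit 234) (nat_lit 152) (nat_lit 0) (XT.nd (nat_lit 78) (nat_lit 0) (nat_lit 0) (XT.lf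 (nat_lit 0) (nat_lit 68954394647) (nat_lit 76) (nat_lit 56129136968) (nat_lit 76) (nat_lit 44055194617) (nat_lit 3) (nat_lit 4) (nat_lit 4) (nat_lit 5) (nat_lit 4) (nat_lit 4) (nat_lit 296) (nat_lit 259) (nat_lit 225)) (XT.nd (nat_lit 78) (nat_lit 0) (nat_lit 0) (XT.lf (nat_lit 0) (nat_lit 108374801728) (nat_lit 76) (nat_lit 48513602625) (nat_lit 76) (nat_lit 36425942537) (nat_lit 3) (nat_lit 4) (nat_lit 4) (nat_lit 5) (nat_lit 4) (nat_lit 4) (nat_lit 297) (nat_lit 259) (nat_lit 224)) (XT.lf (nat_lit 0) (nat_lit 153648013155) (nat_lit 76) (nat_lit 39785181416) (nat_lit 76) (nat_lit 27685592862) (nat_lit 3) (nat_lit 4) (nat_lit 4) (nat_lit 5) (nat_lit 4) (nat_lit 4) (nat_lit 298) (nat_lit 259) (nat_lit 223)))) (XT.nd (nat_lit 156) (nat_lit 152) (nat_lit 0) (XT.nd (nat_lit 78) (nat_lit 0) (nat_lit 0) (XT.lf (nat_lit 0) (nat_lit 205659809151) (nat_lit 76) (nat_lit 29773099884) (nat_lit 76)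 (nat_lit 17663138750) (nat_lit 3) (nat_lit 4) (nat_lit 4) (nat_lit 5) (nat_lit 4) (nat_lit 4) (nat_lit 299) (nat_lit 259) (nat_lit 222)) (XT.lf (nat_lit 0) (nat_lit 265427811811) (nat_lit 76) (nat_lit 18281469476) (nat_lit 76) (nat_lit 6162488707) (nat_lit 3) (nat_lit 4) (nat_lit 4) (nat_lit 5) (nat_lit 4) (nat_lit 4) (nat_lit 300) (nat_lit 259) (nat_lit 221))) (XT.nd (nat_lit 78) (nat_lit 0) (nat_lit 0) (XT.lf (nat_lit 0) (nat_lit 1880648579) (nat_lit 76) (nat_lit 4853713203) (nat_lit 152) (nat_lit 325413951300) (nat_lit 1) (nat_lit 5) (nat_lit 2) (nat_lit 5) (nat_lit 3) (nat_lit 4) (nat_lit 301) (nat_lit 259) (nat_lit 220)) (XT.lf (nat_lit 0) (nat_lit 22176598988) (nat_lit 152) (nat_lit 347557136526) (nat_lit 0) (nat_lit 10941743368) (nat_lit 1) (nat_lit 5) (nat_lit 3) (nat_lit 4) (nat_lit 1) (nat_lit 4) (nat_lit 302) (nat_lit 259) (nat_lit 219)))))) (XT.nd (nat_lit 468) (nat_lit 0)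 (nat_lit 0) (XT.nd (nat_lit 234) (nat_lit 0) (nat_lit 0) (XT.nd (nat_lit 78) (nat_lit 0) (nat_lit 0) (XT.lf (nat_lit 0) (nat_lit 40052528136) (nat_lit 152) (nat_lit 367607627037) (nat_lit 0) (nat_lit 28812181262) (nat_lit 1) (nat_lit 5) (nat_lit 3) (nat_lit 4) (nat_lit 1) (nat_lit 4) (nat_lit 303) (nat_lit 259) (nat_lit 218)) (XT.nd (nat_lit 78) (nat_lit 0) (nat_lit 0) (XT.lf (nat_lit 0) (nat_lit 60595163750) (nat_lit 152) (nat_lit 390694696322) (nat_lit 0) (nat_lit 49350041870) (nat_lit 1) (nat_lit 5) (nat_lit 3) (nat_lit 4) (nat_lit 1) (nat_lit 4) (nat_lit 304) (nat_lit 259) (nat_lit 217)) (XT.lf (nat_lit 0) (nat_lit 84206426959) (nat_lit 152) (nat_lit 417270047910) (nat_lit 0) (nat_lit 72957152901) (nat_lit 1) (nat_lit 5) (nat_lit 3) (nat_lit 4) (nat_lit 1) (nat_lit 4) (nat_lit 305) (nat_lit 259) (nat_lit 216)))) (XT.nd (nat_lit 78) (nat_lit 0) (nat_lit 0) (XT.lf (nat_lit 0) (nat_lit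 111348277261) (nat_lit 152) (nat_lit 447853634334) (nat_lit 0) (nat_lit 100095392614) (nat_lit 1) (nat_lit 5) (nat_lit 3) (nat_lit 4) (nat_lit 1) (nat_lit 4) (nat_lit 306) (nat_lit 259) (nat_lit 215)) (XT.nd (nat_lit 78) (nat_lit 0) (nat_lit 0) (XT.lf (nat_lit 0) (nat_lit 142551750859) (nat_lit 152) (nat_lit 483043830109) (nat_lit 0) (nat_lit 131295726568) (nat_lit 1) (nat_lit 5) (nat_lit 3) (nat_lit 4) (nat_lit 1) (nat_lit 4) (nat_lit 307) (nat_lit 259) (nat_lit 214)) (XT.lf (nat_lit 0) (nat_lit 178427350496) (nat_lit 152) (nat_lit 523529139066) (nat_lit 0) (nat_lit 167168596081) (nat_lit 1) (nat_lit 5) (nat_lit 3) (nat_lit 4) (nat_lit 1) (nat_lit 4) (nat_lit 308) (nat_lit 259) (nat_lit 213))))) (XT.nd (nat_lit 234) (nat_lit 0) (nat_lit 0) (XT.nd (nat_lit 78) (nat_lit 0) (nat_lit 0) (XT.lf (nat_lit 0) (nat_lit 219676990079) (nat_lit 152) (nat_lit 570101665077) (nat_lit 0) (nat_lit 208415861642)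 (nat_lit 1) (nat_lit 5) (nat_lit 3) (nat_lit 4) (nat_lit 1) (nat_lit 4) (nat_lit 309) (nat_lit 259) (nat_lit 212)) (XT.nd (nat_lit 78) (nat_lit 0) (nat_lit 0) (XT.lf (nat_lit 0) (nat_lit 267107727772) (nat_lit 152) (nat_lit 623672609736) (nat_lit 0) (nat_lit 255844534969) (nat_lit 1) (nat_lit 5) (nat_lit 3) (nat_lit 4) (nat_lit 1) (nat_lit 4) (nat_lit 310) (nat_lit 259) (nat_lit 211)) (XT.lf (nat_lit 0) (nat_lit 321647556271) (nat_lit 152) (nat_lit 685290100223) (nat_lit 0) (nat_lit 310382568366) (nat_lit 1) (nat_lit 5) (nat_lit 3) (nat_lit 4) (nat_lit 1) (nat_lit 4) (nat_lit 311) (nat_lit 259) (nat_lit 210)))) (XT.nd (nat_lit 156) (nat_lit 0) (nat_lit 0) (XT.nd (nat_lit 78) (nat_lit 0) (nat_lit 0) (XT.lf (nat_lit 0) (nat_lit 384363559175) (nat_lit 152) (nat_lit 756159696133) (nat_lit 0) (nat_lit 373097010313) (nat_lit 1) (nat_lit 5) (nat_lit 3) (nat_lit 4) (nat_lit 1) (nat_lit 4) (nat_lit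 312) (nat_lit 259) (nat_lit 209)) (XT.lf (nat_lit 0) (nat_lit 456482788717) (nat_lit 152) (nat_lit 837667976518) (nat_lit 0) (nat_lit 445214882500) (nat_lit 1) (nat_lit 5) (nat_lit 3) (nat_lit 4) (nat_lit 1) (nat_lit 4) (nat_lit 313) (nat_lit 259) (nat_lit 208))) (XT.nd (nat_lit 78) (nat_lit 0) (nat_lit 0) (XT.lf (nat_lit 0) (nat_lit 539416273299) (nat_lit 152) (nat_lit 931409668601) (nat_lit 0) (nat_lit 528147186774) (nat_lit 1) (nat_lit 5) (nat_lit 3) (nat_lit 4) (nat_lit 1) (nat_lit 4) (nat_lit 314) (nat_lit 259) (nat_lit 207)) (XT.lf (nat_lit 0) (nat_lit 634786624577) (nat_lit 152) (nat_lit 1039218848967) (nat_lit 0) (nat_lit 623516511698) (nat_lit 1) (nat_lit 5) (nat_lit 3) (nat_lit 4) (nat_lit 1) (nat_lit 4) (nat_lit 315) (nat_lit 259) (nat_lit 206))))))))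
noncomputable def xc23 : XT := (XT.nd (nat_lit 37206) (nat_lit 0) (nat_lit 152) (XT.nd (nat_lit 1014) (nat_lit 0) (nat_lit 0) (XT.nd (nat_lit 468) (nat_lit 0) (nat_lit 0) (XT.nd (nat_lit 234) (nat_lit 0) (nat_lit 0) (XT.nd (nat_lit 78) (nat_lit 0) (nat_lit 0) (XT.lf (nat_lit 0) (nat_lit 744459784207) (nat_lit 152) (nat_lit 1163204827667) (nat_lit 0) (nat_lit 733188778845) (nat_lit 1) (nat_lit 5) (nat_lit 3) (nat_lit 4) (nat_lit 1) (nat_lit 4) (nat_lit 316) (nat_lit 259) (nat_lit 205)) (XT.nd (nat_lit 78) (nat_lit 0) (nat_lit 0) (XT.lf (nat_lit 0) (nat_lit 870581531397) (nat_lit 152) (nat_lit 1305793417328) (nat_lit 0) (nat_lit 859309749964) (nat_lit 1) (nat_lit 5) (nat_lit 3) (nat_lit 4) (nat_lit 1) (nat_lit 4) (nat_lit 317) (nat_lit 259) (nat_lit 204)) (XT.lf (nat_lit 0) (nat_lit 1015619465551) (nat_lit 152) (nat_lit 1469774394703) (nat_lit 0) (nat_lit 1004347009272) (nat_lit 1) (nat_lit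 5) (nat_lit 3) (nat_lit 4) (nat_lit 1) (nat_lit 4) (nat_lit 318) (nat_lit 259) (nat_lit 203)))) (XT.nd (nat_lit 78) (nat_lit 0) (nat_lit 0) (XT.lf (nat_lit 0) (nat_lit 1182411285380) (nat_lit 152) (nat_lit 1658356083264) (nat_lit 0) (nat_lit 1171138242279) (nat_lit 1) (nat_lit 5) (nat_lit 3) (nat_lit 4) (nat_lit 1) (nat_lit 4) (nat_lit 319) (nat_lit 259) (nat_lit 202)) (XT.nd (nat_lit 78) (nat_lit 0) (nat_lit 0) (XT.lf (nat_lit 0) (nat_lit 1374220309097) (nat_lit 152) (nat_lit 1875228124742) (nat_lit 0) (nat_lit 1362946755716) (nat_lit 1) (nat_lit 5) (nat_lit 3) (nat_lit 4) (nat_lit 1) (nat_lit 4) (nat_lit 320) (nat_lit 259) (nat_lit 201)) (XT.lf (nat_lit 0) (nat_lit 1594799321949) (nat_lit 152) (nat_lit 2124633667776) (nat_lit 0) (nat_lit 1583525324847) (nat_lit 1) (nat_lit 5) (nat_lit 3) (nat_lit 4) (nat_lit 1) (nat_lit 4) (nat_lit 321) (nat_lit 259) (nat_lit 200))))) (XT.nd (nat_lit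 234) (nat_lit 0) (nat_lit 0) (XT.nd (nat_lit 78) (nat_lit 0) (nat_lit 0) (XT.lf (nat_lit 0) (nat_lit 1848464000275) (nat_lit 152) (nat_lit 2411452386033) (nat_lit 0) (nat_lit 1837189617328) (nat_lit 1) (nat_lit 5) (nat_lit 3) (nat_lit 4) (nat_lit 1) (nat_lit 4) (nat_lit 322) (nat_lit 259) (nat_lit 199)) (XT.nd (nat_lit 78) (nat_lit 0) (nat_lit 0) (XT.lf (nat_lit 0) (nat_lit 2140177348651) (nat_lit 152) (nat_lit 2741295950089) (nat_lit 0) (nat_lit 2128902630187) (nat_lit 1) (nat_lit 5) (nat_lit 3) (nat_lit 4) (nat_lit 1) (nat_lit 4) (nat_lit 323) (nat_lit 259) (nat_lit 198)) (XT.lf (nat_lit 0) (nat_lit 2475646802153) (nat_lit 152) (nat_lit 3120617820978) (nat_lit 0) (nat_lit 2464371791935) (nat_lit 1) (nat_lit 5) (nat_lit 3) (nat_lit 4) (nat_lit 1) (nat_lit 4) (nat_lit 324) (nat_lit 259) (nat_lit 197)))) (XT.nd (nat_lit 156) (nat_lit 0) (nat_lit 0) (XT.nd (nat_lit 78) (nat_lit 0) (nat_lit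 0) (XT.lf (nat_lit 0) (nat_lit 2861435893568) (nat_lit 152) (nat_lit 3556839513567) (nat_lit 0) (nat_lit 2850160629651) (nat_lit 1) (nat_lit 5) (nat_lit 3) (nat_lit 4) (nat_lit 1) (nat_lit 4) (nat_lit 325) (nat_lit 259) (nat_lit 196)) (XT.lf (nat_lit 0) (nat_lit 3305092670336) (nat_lit 152) (nat_lit 4058495800101) (nat_lit 0) (nat_lit 3293817185811) (nat_lit 1) (nat_lit 5) (nat_lit 3) (nat_lit 4) (nat_lit 1) (nat_lit 4) (nat_lit 326) (nat_lit 259) (nat_lit 195))) (XT.nd (nat_lit 78) (nat_lit 0) (nat_lit 0) (XT.lf (nat_lit 0) (nat_lit 3815297373742) (nat_lit 152) (nat_lit 4635401694882) (nat_lit 0) (nat_lit 3804021697384) (nat_lit 1) (nat_lit 5) (nat_lit 3) (nat_lit 4) (nat_lit 1) (nat_lit 4) (nat_lit 327) (nat_lit 259) (nat_lit 194)) (XT.lf (nat_lit 0) (nat_lit 4402032269722) (nat_lit 152) (nat_lit 5298844487157) (nat_lit 0) (nat_lit 4390756426552) (nat_lit 1) (nat_lit 5) (nat_lit 3) (nat_lit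 4) (nat_lit 1) (nat_lit 4) (nat_lit 328) (nat_lit 259) (nat_lit 193)))))) (XT.nd (nat_lit 35646) (nat_lit 0) (nat_lit 2204) (XT.nd (nat_lit 35412) (nat_lit 0) (nat_lit 4788) (XT.nd (nat_lit 35256) (nat_lit 0) (nat_lit 5396) (XT.lf (nat_lit 0) (nat_lit 5076776954067) (nat_lit 152) (nat_lit 6061804579382) (nat_lit 0) (nat_lit 5065500965844) (nat_lit 1) (nat_lit 5) (nat_lit 3) (nat_lit 4) (nat_lit 1) (nat_lit 4) (nat_lit 329) (nat_lit 259) (nat_lit 192)) (XT.nd (nat_lit 78) (nat_lit 76) (nat_lit 0) (XT.lf (nat_lit 0) (nat_lit 0) (nat_lit 0) (nat_lit 0) (nat_lit 0) (nat_lit 1073741823) (nat_lit 1) (nat_lit 0) (nat_lit 1) (nat_lit 0) (nat_lit 73) (nat_lit 0) (nat_lit 260) (nat_lit 260) (nat_lit 260)) (XT.lf (nat_lit 0) (nat_lit 5358763669) (nat_lit 76) (nat_lit 723973425) (nat_lit 0) (nat_lit 390373512) (nat_lit 72) (nat_lit 5) (nat_lit 73) (nat_lit 0) (nat_lit 72) (nat_lit 4) (nat_lit 261)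 (nat_lit 260) (nat_lit 259)))) (XT.nd (nat_lit 78) (nat_lit 456) (nat_lit 0) (XT.lf (nat_lit 0) (nat_lit 3930049590) (nat_lit 152) (nat_lit 1114226275) (nat_lit 76) (nat_lit 1524948277) (nat_lit 70) (nat_lit 5) (nat_lit 72) (nat_lit 5) (nat_lit 71) (nat_lit 4) (nat_lit 262) (nat_lit 260) (nat_lit 258)) (XT.nd (nat_lit 78) (nat_lit 228) (nat_lit 0) (XT.lf (nat_lit 0) (nat_lit 2119432178) (nat_lit 228) (nat_lit 1183062868) (nat_lit 76) (nat_lit 3429861840) (nat_lit 67) (nat_lit 5) (nat_lit 70) (nat_lit 5) (nat_lit 68) (nat_lit 5) (nat_lit 263) (nat_lit 260) (nat_lit 257)) (XT.lf (nat_lit 0) (nat_lit 6025922842) (nat_lit 228) (nat_lit 813130184) (nat_lit 304) (nat_lit 125893010) (nat_lit 64) (nat_lit 5) (nat_lit 67) (nat_lit 5) (nat_lit 68) (nat_lit 5) (nat_lit 264) (nat_lit 260) (nat_lit 256))))) (XT.nd (nat_lit 234) (nat_lit 988) (nat_lit 0) (XT.nd (nat_lit 78) (nat_lit 1216) (nat_lit 0)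 (XT.lf (nat_lit 0) (nat_lit 4332944282) (nat_lit 380) (nat_lit 505624921) (nat_lit 76) (nat_lit 2422336064) (nat_lit 59) (nat_lit 5) (nat_lit 64) (nat_lit 5) (nat_lit 60) (nat_lit 5) (nat_lit 265) (nat_lit 260) (nat_lit 255)) (XT.nd (nat_lit 78) (nat_lit 304) (nat_lit 0) (XT.lf (nat_lit 0) (nat_lit 206076228) (nat_lit 456) (nat_lit 1159538892) (nat_lit 532) (nat_lit 6265111841) (nat_lit 47) (nat_lit 5) (nat_lit 53) (nat_lit 5) (nat_lit 54) (nat_lit 5) (nat_lit 266) (nat_lit 260) (nat_lit 254)) (XT.lf (nat_lit 0) (nat_lit 1109882705) (nat_lit 304) (nat_lit 4786563663) (nat_lit 380) (nat_lit 2173714649) (nat_lit 43) (nat_lit 5) (nat_lit 47) (nat_lit 5) (nat_lit 48) (nat_lit 5) (nat_lit 267) (nat_lit 260) (nat_lit 253)))) (XT.nd (nat_lit 156) (nat_lit 456) (nat_lit 0) (XT.nd (nat_lit 78) (nat_lit 228) (nat_lit 0) (XT.lf (nat_lit 0) (nat_lit 2174149439) (nat_lit 304) (nat_lit 6365406719) (nat_lit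 76) (nat_lit 50780679) (nat_lit 39) (nat_lit 5) (nat_lit 43) (nat_lit 5) (nat_lit 40) (nat_lit 5) (nat_lit 268) (nat_lit 260) (nat_lit 252)) (XT.lf (nat_lit 0) (nat_lit 3420970265) (nat_lit 228) (nat_lit 3566863881) (nat_lit 304) (nat_lit 2201885429) (nat_lit 36) (nat_lit 5) (nat_lit 39) (nat_lit 5) (nat_lit 40) (nat_lit 5) (nat_lit 269) (nat_lit 260) (nat_lit 251))) (XT.nd (nat_lit 78) (nat_lit 228) (nat_lit 0) (XT.lf (nat_lit 0) (nat_lit 2430559256) (nat_lit 228) (nat_lit 5139931954) (nat_lit 76) (nat_lit 2310841064) (nat_lit 33) (nat_lit 5) (nat_lit 36) (nat_lit 5) (nat_lit 34) (nat_lit 5) (nat_lit 270) (nat_lit 260) (nat_lit 250)) (XT.lf (nat_lit 0) (nat_lit 6109696796) (nat_lit 228) (nat_lit 1536462880) (nat_lit 304) (nat_lit 3025218486) (nat_lit 30) (nat_lit 5) (nat_lit 33) (nat_lit 5) (nat_lit 34) (nat_lit 5) (nat_lit 271) (nat_lit 260) (nat_lit 249))))))) (XT.nd (nat_lit 1014)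 (nat_lit 532) (nat_lit 0) (XT.nd (nat_lit 468) (nat_lit 532) (nat_lit 0) (XT.nd (nat_lit 234) (nat_lit 456) (nat_lit 0) (XT.nd (nat_lit 78) (nat_lit 304) (nat_lit 0) (XT.lf (nat_lit 0) (nat_lit 2061087558) (nat_lit 228) (nat_lit 4119509251) (nat_lit 76) (nat_lit 5387960336) (nat_lit 27) (nat_lit 5) (nat_lit 30) (nat_lit 5) (nat_lit 28) (nat_lit 5) (nat_lit 272) (nat_lit 260) (nat_lit 248)) (XT.nd (nat_lit 78) (nat_lit 152) (nat_lit 0) (XT.lf (nat_lit 0) (nat_lit 7810249289) (nat_lit 228) (nat_lit 3857180947) (nat_lit 76) (nat_lit 920805646) (nat_lit 25) (nat_lit 5) (nat_lit 28) (nat_lit 5) (nat_lit 26) (nat_lit 4) (nat_lit 273) (nat_lit 260) (nat_lit 247)) (XT.lf (nat_lit 0) (nat_lit 854781743) (nat_lit 152) (nat_lit 3918345008) (nat_lit 76) (nat_lit 8968742428) (nat_lit 23) (nat_lit 5) (nat_lit 25) (nat_lit 5) (nat_lit 24) (nat_lit 5) (nat_lit 274) (nat_lit 260) (nat_lit 246)))) (XT.nd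 (nat_lit 78) (nat_lit 304) (nat_lit 0) (XT.lf (nat_lit 0) (nat_lit 7227465645) (nat_lit 228) (nat_lit 4461179631) (nat_lit 76) (nat_lit 3356113543) (nat_lit 21) (nat_lit 5) (nat_lit 24) (nat_lit 5) (nat_lit 22) (nat_lit 4) (nat_lit 275) (nat_lit 260) (nat_lit 245)) (XT.nd (nat_lit 78) (nat_lit 228) (nat_lit 0) (XT.lf (nat_lit 0) (nat_lit 10943707126) (nat_lit 76) (nat_lit 3861238733) (nat_lit 152) (nat_lit 1718548431) (nat_lit 20) (nat_lit 5) (nat_lit 21) (nat_lit 5) (nat_lit 22) (nat_lit 4) (nat_lit 276) (nat_lit 260) (nat_lit 244)) (XT.lf (nat_lit 0) (nat_lit 5309130054) (nat_lit 228) (nat_lit 7624029928) (nat_lit 76) (nat_lit 5258633286) (nat_lit 17) (nat_lit 5) (nat_lit 20) (nat_lit 5) (nat_lit 18) (nat_lit 4) (nat_lit 277) (nat_lit 260) (nat_lit 243))))) (XT.nd (nat_lit 234) (nat_lit 228) (nat_lit 0) (XT.nd (nat_lit 78) (nat_lit 228) (nat_lit 0) (XT.lf (nat_lit 0) (nat_lit 9295380125)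 (nat_lit 76) (nat_lit 4268003731) (nat_lit 152) (nat_lit 6521674527) (nat_lit 16) (nat_lit 5) (nat_lit 17) (nat_lit 5) (nat_lit 18) (nat_lit 4) (nat_lit 278) (nat_lit 260) (nat_lit 242)) (XT.nd (nat_lit 78) (nat_lit 76) (nat_lit 0) (XT.lf (nat_lit 0) (nat_lit 1081634396) (nat_lit 152) (nat_lit 15466275250) (nat_lit 76) (nat_lit 5686830442) (nat_lit 14) (nat_lit 5) (nat_lit 16) (nat_lit 5) (nat_lit 15) (nat_lit 4) (nat_lit 279) (nat_lit 260) (nat_lit 241)) (XT.lf (nat_lit 0) (nat_lit 2397068107) (nat_lit 76) (nat_lit 7356673518) (nat_lit 152) (nat_lit 14914583026) (nat_lit 13) (nat_lit 5) (nat_lit 14) (nat_lit 5) (nat_lit 15) (nat_lit 4) (nat_lit 280) (nat_lit 260) (nat_lit 240)))) (XT.nd (nat_lit 156) (nat_lit 76) (nat_lit 0) (XT.nd (nat_lit 78) (nat_lit 152) (nat_lit 0) (XT.lf (nat_lit 0) (nat_lit 20085710049) (nat_lit 152) (nat_lit 3973029271) (nat_lit 0) (nat_lit 3379622025) (nat_lit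 13) (nat_lit 5) (nat_lit 15) (nat_lit 4) (nat_lit 13) (nat_lit 4) (nat_lit 281) (nat_lit 260) (nat_lit 239)) (XT.lf (nat_lit 0) (nat_lit 1754864955) (nat_lit 152) (nat_lit 13178239923) (nat_lit 76) (nat_lit 15650044341) (nat_lit 11) (nat_lit 5) (nat_lit 13) (nat_lit 5) (nat_lit 12) (nat_lit 4) (nat_lit 282) (nat_lit 260) (nat_lit 238))) (XT.nd (nat_lit 78) (nat_lit 0) (nat_lit 0) (XT.lf (nat_lit 0) (nat_lit 7961454437) (nat_lit 76) (nat_lit 4007841757) (nat_lit 152) (nat_lit 22201085779) (nat_lit 10) (nat_lit 5) (nat_lit 11) (nat_lit 5) (nat_lit 12) (nat_lit 4) (nat_lit 283) (nat_lit 260) (nat_lit 237)) (XT.lf (nat_lit 0) (nat_lit 24179326830) (nat_lit 152) (nat_lit 5665922004) (nat_lit 0) (nat_lit 8413460075) (nat_lit 10) (nat_lit 5) (nat_lit 12) (nat_lit 4) (nat_lit 10) (nat_lit 4) (nat_lit 284) (nat_lit 260) (nat_lit 236)))))) (XT.nd (nat_lit 546) (nat_lit 76) (nat_lit 0) (XT.nd (nat_lit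 234) (nat_lit 228) (nat_lit 0) (XT.nd (nat_lit 78) (nat_lit 152) (nat_lit 0) (XT.lf (nat_lit 0) (nat_lit 18553815141) (nat_lit 76) (nat_lit 20105871786) (nat_lit 76) (nat_lit 4265565057) (nat_lit 9) (nat_lit 4) (nat_lit 10) (nat_lit 5) (nat_lit 10) (nat_lit 4) (nat_lit 285) (nat_lit 260) (nat_lit 235)) (XT.nd (nat_lit 78) (nat_lit 76) (nat_lit 0) (XT.lf (nat_lit 0) (nat_lit 6727816976) (nat_lit 152) (nat_lit 1911177829) (nat_lit 76) (nat_lit 39634639242) (nat_lit 8) (nat_lit 5) (nat_lit 10) (nat_lit 5) (nat_lit 9) (nat_lit 4) (nat_lit 286) (nat_lit 260) (nat_lit 234)) (XT.lf (nat_lit 0) (nat_lit 19752519424) (nat_lit 152) (nat_lit 29638635783) (nat_lit 0) (nat_lit 4973515298) (nat_lit 7) (nat_lit 5) (nat_lit 9) (nat_lit 4) (nat_lit 7) (nat_lit 4) (nat_lit 287) (nat_lit 260) (nat_lit 233)))) (XT.nd (nat_lit 156) (nat_lit 152) (nat_lit 0) (XT.nd (nat_lit 78) (nat_lit 76) (nat_lit 0) (XT.lf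 (nat_lit 0) (nat_lit 34937446536) (nat_lit 152) (nat_lit 6302316337) (nat_lit 0) (nat_lit 20113122511) (nat_lit 7) (nat_lit 5) (nat_lit 9) (nat_lit 4) (nat_lit 7) (nat_lit 4) (nat_lit 288) (nat_lit 260) (nat_lit 232)) (XT.lf (nat_lit 0) (nat_lit 21458692097) (nat_lit 76) (nat_lit 31379675660) (nat_lit 76) (nat_lit 16515943026) (nat_lit 6) (nat_lit 4) (nat_lit 7) (nat_lit 5) (nat_lit 7) (nat_lit 4) (nat_lit 289) (nat_lit 260) (nat_lit 231))) (XT.nd (nat_lit 78) (nat_lit 152) (nat_lit 0) (XT.lf (nat_lit 0) (nat_lit 53628921165) (nat_lit 76) (nat_lit 19908030741) (nat_lit 76) (nat_lit 5010029752) (nat_lit 6) (nat_lit 4) (nat_lit 7) (nat_lit 5) (nat_lit 7) (nat_lit 4) (nat_lit 290) (nat_lit 260) (nat_lit 230)) (XT.lf (nat_lit 0) (nat_lit 1248737327) (nat_lit 76) (nat_lit 6528443867) (nat_lit 152) (nat_lit 81328244602) (nat_lit 4) (nat_lit 5) (nat_lit 5) (nat_lit 5) (nat_lit 6) (nat_lit 4)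 (nat_lit 291) (nat_lit 260) (nat_lit 229))))) (XT.nd (nat_lit 234) (nat_lit 76) (nat_lit 0) (XT.nd (nat_lit 78) (nat_lit 0) (nat_lit 0) (XT.lf (nat_lit 0) (nat_lit 23092539268) (nat_lit 152) (nat_lit 68825662946) (nat_lit 0) (nat_lit 9246510233) (nat_lit 4) (nat_lit 5) (nat_lit 6) (nat_lit 4) (nat_lit 4) (nat_lit 4) (nat_lit 292) (nat_lit 260) (nat_lit 228)) (XT.nd (nat_lit 78) (nat_lit 0) (nat_lit 0) (XT.lf (nat_lit 0) (nat_lit 40834403404) (nat_lit 152) (nat_lit 47220661581) (nat_lit 0) (nat_lit 26967511406) (nat_lit 4) (nat_lit 5) (nat_lit 6) (nat_lit 4) (nat_lit 4) (nat_lit 4) (nat_lit 293) (nat_lit 260) (nat_lit 227)) (XT.lf (nat_lit 0) (nat_lit 61192887798) (nat_lit 152) (nat_lit 22461968595) (nat_lit 0) (nat_lit 47307854094) (nat_lit 4) (nat_lit 5) (nat_lit 6) (nat_lit 4) (nat_lit 4) (nat_lit 4) (nat_lit 294) (nat_lit 260) (nat_lit 226)))) (XT.nd (nat_lit 156) (nat_lit 0) (nat_lit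 0) (XT.nd (nat_lit 78) (nat_lit 0) (nat_lit 0) (XT.lf (nat_lit 0) (nat_lit 6247342602) (nat_lit 76) (nat_lit 78469216763) (nat_lit 76) (nat_lit 64568407662) (nat_lit 3) (nat_lit 4) (nat_lit 4) (nat_lit 5) (nat_lit 4) (nat_lit 4) (nat_lit 295) (nat_lit 260) (nat_lit 225)) (XT.lf (nat_lit 0) (nat_lit 40553983834) (nat_lit 76) (nat_lit 71833318435) (nat_lit 76) (nat_lit 57918791597) (nat_lit 3) (nat_lit 4) (nat_lit 4) (nat_lit 5) (nat_lit 4) (nat_lit 4) (nat_lit 296) (nat_lit 260) (nat_lit 224))) (XT.nd (nat_lit 78) (nat_lit 0) (nat_lit 0) (XT.lf (nat_lit 0) (nat_lit 79946364535) (nat_lit 76) (nat_lit 64231478643) (nat_lit 76) (nat_lit 50305023339) (nat_lit 3) (nat_lit 4) (nat_lit 4) (nat_lit 5) (nat_lit 4) (nat_lit 4) (nat_lit 297) (nat_lit 260) (nat_lit 223)) (XT.lf (nat_lit 0) (nat_lit 125195205197) (nat_lit 76) (nat_lit 55514965741) (nat_lit 76) (nat_lit 41578137856) (nat_lit 3) (nat_lit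 4) (nat_lit 4) (nat_lit 5) (nat_lit 4) (nat_lit 4) (nat_lit 298) (nat_lit 260) (nat_lit 222))))))))
noncomputable def xc24 : XT := (XT.nd (nat_lit 2028) (nat_lit 0) (nat_lit 0) (XT.nd (nat_lit 1014) (nat_lit 0) (nat_lit 0) (XT.nd (nat_lit 468) (nat_lit 0) (nat_lit 0) (XT.nd (nat_lit 234) (nat_lit 152) (nat_lit 0) (XT.nd (nat_lit 78) (nat_lit 0) (nat_lit 0) (XT.lf (nat_lit 0) (nat_lit 177185809223) (nat_lit 76) (nat_lit 45513239257) (nat_lit 76) (nat_lit 31567391738) (nat_lit 3) (nat_lit 4) (nat_lit 4) (nat_lit 5) (nat_lit 4) (nat_lit 4) (nat_lit 299) (nat_lit 260) (nat_lit 221)) (XT.nd (nat_lit 78) (nat_lit 0) (nat_lit 0) (XT.lf (nat_lit 0) (nat_lit 236935384084) (nat_lit 76) (nat_lit 34030613239) (nat_lit 76) (nat_lit 20076922559) (nat_lit 3) (nat_lit 4) (nat_lit 4) (nat_lit 5) (nat_lit 4) (nat_lit 4) (nat_lit 300) (nat_lit 260) (nat_lit 220)) (XT.lf (nat_lit 0) (nat_lit 305612943201)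 (nat_lit 76) (nat_lit 20842427612) (nat_lit 76) (nat_lit 6881916793) (nat_lit 3) (nat_lit 4) (nat_lit 4) (nat_lit 5) (nat_lit 4) (nat_lit 4) (nat_lit 301) (nat_lit 260) (nat_lit 219)))) (XT.nd (nat_lit 78) (nat_lit 0) (nat_lit 0) (XT.lf (nat_lit 0) (nat_lit 2511751102) (nat_lit 76) (nat_lit 5410456819) (nat_lit 152) (nat_lit 374034078722) (nat_lit 1) (nat_lit 5) (nat_lit 2) (nat_lit 5) (nat_lit 3) (nat_lit 4) (nat_lit 302) (nat_lit 260) (nat_lit 218)) (XT.nd (nat_lit 78) (nat_lit 0) (nat_lit 0) (XT.lf (nat_lit 0) (nat_lit 25661186194) (nat_lit 152) (nat_lit 399378395225) (nat_lit 0) (nat_lit 12724521027) (nat_lit 1) (nat_lit 5) (nat_lit 3) (nat_lit 4) (nat_lit 1) (nat_lit 4) (nat_lit 303) (nat_lit 260) (nat_lit 217)) (XT.lf (nat_lit 0) (nat_lit 46197883320) (nat_lit 152) (nat_lit 422477195632) (nat_lit 0) (nat_lit 33257065976) (nat_lit 1) (nat_lit 5) (nat_lit 3) (nat_lit 4) (nat_lit 1)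 (nat_lit 4) (nat_lit 304) (nat_lit 260) (nat_lit 216))))) (XT.nd (nat_lit 234) (nat_lit 0) (nat_lit 0) (XT.nd (nat_lit 78) (nat_lit 0) (nat_lit 0) (XT.lf (nat_lit 0) (nat_lit 69803982628) (nat_lit 152) (nat_lit 449062748195) (nat_lit 0) (nat_lit 56859554694) (nat_lit 1) (nat_lit 5) (nat_lit 3) (nat_lit 4) (nat_lit 1) (nat_lit 4) (nat_lit 305) (nat_lit 260) (nat_lit 215)) (XT.nd (nat_lit 78) (nat_lit 0) (nat_lit 0) (XT.lf (nat_lit 0) (nat_lit 96941342582) (nat_lit 152) (nat_lit 479655205032) (nat_lit 0) (nat_lit 83993775004) (nat_lit 1) (nat_lit 5) (nat_lit 3) (nat_lit 4) (nat_lit 1) (nat_lit 4) (nat_lit 306) (nat_lit 260) (nat_lit 214)) (XT.lf (nat_lit 0) (nat_lit 128140911528) (nat_lit 152) (nat_lit 514853114210) (nat_lit 0) (nat_lit 115190613826) (nat_lit 1) (nat_lit 5) (nat_lit 3) (nat_lit 4) (nat_lit 1) (nat_lit 4) (nat_lit 307) (nat_lit 260) (nat_lit 213)))) (XT.nd (nat_lit 156) (nat_lit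 0) (nat_lit 0) (XT.nd (nat_lit 78) (nat_lit 0) (nat_lit 0) (XT.lf (nat_lit 0) (nat_lit 164013115816) (nat_lit 152) (nat_lit 555345130474) (nat_lit 0) (nat_lit 151060444093) (nat_lit 1) (nat_lit 5) (nat_lit 3) (nat_lit 4) (nat_lit 1) (nat_lit 4) (nat_lit 308) (nat_lit 260) (nat_lit 212)) (XT.lf (nat_lit 0) (nat_lit 205259802921) (nat_lit 152) (nat_lit 601923488925) (nat_lit 0) (nat_lit 192305066831) (nat_lit 1) (nat_lit 5) (nat_lit 3) (nat_lit 4) (nat_lit 1) (nat_lit 4) (nat_lit 309) (nat_lit 260) (nat_lit 211))) (XT.nd (nat_lit 78) (nat_lit 0) (nat_lit 0) (XT.lf (nat_lit 0) (nat_lit 252687973243) (nat_lit 152) (nat_lit 655499505272) (nat_lit 0) (nat_lit 239731442052) (nat_lit 1) (nat_lit 5) (nat_lit 3) (nat_lit 4) (nat_lit 1) (nat_lit 4) (nat_lit 310) (nat_lit 260) (nat_lit 210)) (XT.lf (nat_lit 0) (nat_lit 307225569245) (nat_lit 152) (nat_lit 717121405922) (nat_lit 0) (nat_lit 294267477096)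 (nat_lit 1) (nat_lit 5) (nat_lit 3) (nat_lit 4) (nat_lit 1) (nat_lit 4) (nat_lit 311) (nat_lit 260) (nat_lit 209)))))) (XT.nd (nat_lit 468) (nat_lit 0) (nat_lit 0) (XT.nd (nat_lit 234) (nat_lit 0) (nat_lit 0) (XT.nd (nat_lit 78) (nat_lit 0) (nat_lit 0) (XT.lf (nat_lit 0) (nat_lit 369939630848) (nat_lit 152) (nat_lit 787994836757) (nat_lit 0) (nat_lit 356980181344) (nat_lit 1) (nat_lit 5) (nat_lit 3) (nat_lit 4) (nat_lit 1) (nat_lit 4) (nat_lit 312) (nat_lit 260) (nat_lit 208)) (XT.nd (nat_lit 78) (nat_lit 0) (nat_lit 0) (XT.lf (nat_lit 0) (nat_lit 442057172300) (nat_lit 152) (nat_lit 869506451858) (nat_lit 0) (nat_lit 429096542489) (nat_lit 1) (nat_lit 5) (nat_lit 3) (nat_lit 4) (nat_lit 1) (nat_lit 4) (nat_lit 313) (nat_lit 260) (nat_lit 207)) (XT.lf (nat_lit 0) (nat_lit 524989188980) (nat_lit 152) (nat_lit 963251043695) (nat_lit 0) (nat_lit 512027532814) (nat_lit 1) (nat_lit 5) (nat_lit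 3) (nat_lit 4) (nat_lit 1) (nat_lit 4) (nat_lit 314) (nat_lit 260) (nat_lit 206)))) (XT.nd (nat_lit 78) (nat_lit 0) (nat_lit 0) (XT.lf (nat_lit 0) (nat_lit 620358263821) (nat_lit 152) (nat_lit 1071062745586) (nat_lit 0) (nat_lit 607395715172) (nat_lit 1) (nat_lit 5) (nat_lit 3) (nat_lit 4) (nat_lit 1) (nat_lit 4) (nat_lit 315) (nat_lit 260) (nat_lit 205)) (XT.nd (nat_lit 78) (nat_lit 0) (nat_lit 0) (XT.lf (nat_lit 0) (nat_lit 730030313504) (nat_lit 152) (nat_lit 1195050916917) (nat_lit 0) (nat_lit 717066988784) (nat_lit 1) (nat_lit 5) (nat_lit 3) (nat_lit 4) (nat_lit 1) (nat_lit 4) (nat_lit 316) (nat_lit 260) (nat_lit 204)) (XT.lf (nat_lit 0) (nat_lit 856151095525) (nat_lit 152) (nat_lit 1337641413213) (nat_lit 0) (nat_lit 843187095959) (nat_lit 1) (nat_lit 5) (nat_lit 3) (nat_lit 4) (nat_lit 1) (nat_lit 4) (nat_lit 317) (nat_lit 260) (nat_lit 203))))) (XT.nd (nat_lit 234) (nat_lit 0)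 (nat_lit 0) (XT.nd (nat_lit 78) (nat_lit 0) (nat_lit 0) (XT.lf (nat_lit 0) (nat_lit 1001188190400) (nat_lit 152) (nat_lit 1501624048532) (nat_lit 0) (nat_lit 988223604013) (nat_lit 1) (nat_lit 5) (nat_lit 3) (nat_lit 4) (nat_lit 1) (nat_lit 4) (nat_lit 318) (nat_lit 260) (nat_lit 202)) (XT.nd (nat_lit 78) (nat_lit 0) (nat_lit 0) (XT.lf (nat_lit 0) (nat_lit 1167979280422) (nat_lit 152) (nat_lit 1690207178782) (nat_lit 0) (nat_lit 1155014183754) (nat_lit 1) (nat_lit 5) (nat_lit 3) (nat_lit 4) (nat_lit 1) (nat_lit 4) (nat_lit 319) (nat_lit 260) (nat_lit 201)) (XT.lf (nat_lit 0) (nat_lit 1359787669524) (nat_lit 152) (nat_lit 1907080473904) (nat_lit 0) (nat_lit 1346822129135) (nat_lit 1) (nat_lit 5) (nat_lit 3) (nat_lit 4) (nat_lit 1) (nat_lit 4) (nat_lit 320) (nat_lit 260) (nat_lit 200)))) (XT.nd (nat_lit 156) (nat_lit 0) (nat_lit 0) (XT.nd (nat_lit 78) (nat_lit 0) (nat_lit 0) (XT.lf (nat_lit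 0) (nat_lit 1580366130537) (nat_lit 152) (nat_lit 2156487107063) (nat_lit 0) (nat_lit 1567400204303) (nat_lit 1) (nat_lit 5) (nat_lit 3) (nat_lit 4) (nat_lit 1) (nat_lit 4) (nat_lit 321) (nat_lit 260) (nat_lit 199)) (XT.lf (nat_lit 0) (nat_lit 1834030329003) (nat_lit 152) (nat_lit 2443306773255) (nat_lit 0) (nat_lit 1821064067252) (nat_lit 1) (nat_lit 5) (nat_lit 3) (nat_lit 4) (nat_lit 1) (nat_lit 4) (nat_lit 322) (nat_lit 260) (nat_lit 198))) (XT.nd (nat_lit 78) (nat_lit 0) (nat_lit 0) (XT.lf (nat_lit 0) (nat_lit 2125743260109) (nat_lit 152) (nat_lit 2773151161601) (nat_lit 0) (nat_lit 2112776706604) (nat_lit 1) (nat_lit 5) (nat_lit 3) (nat_lit 4) (nat_lit 1) (nat_lit 4) (nat_lit 323) (nat_lit 260) (nat_lit 197)) (XT.lf (nat_lit 0) (nat_lit 2461212350768) (nat_lit 152) (nat_lit 3152473749266) (nat_lit 0) (nat_lit 2448245543564) (nat_lit 1) (nat_lit 5) (nat_lit 3) (nat_lit 4) (nat_lit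 1) (nat_lit 4) (nat_lit 324) (nat_lit 260) (nat_lit 196))))))) (XT.nd (nat_lit 36270) (nat_lit 0) (nat_lit 912) (XT.nd (nat_lit 35724) (nat_lit 0) (nat_lit 3116) (XT.nd (nat_lit 234) (nat_lit 0) (nat_lit 0) (XT.nd (nat_lit 78) (nat_lit 0) (nat_lit 0) (XT.lf (nat_lit 0) (nat_lit 2847001126667) (nat_lit 152) (nat_lit 3588696065137) (nat_lit 0) (nat_lit 2834034098855) (nat_lit 1) (nat_lit 5) (nat_lit 3) (nat_lit 4) (nat_lit 1) (nat_lit 4) (nat_lit 325) (nat_lit 260) (nat_lit 195)) (XT.nd (nat_lit 78) (nat_lit 0) (nat_lit 0) (XT.lf (nat_lit 0) (nat_lit 3290657629074) (nat_lit 152) (nat_lit 4090352893656) (nat_lit 0) (nat_lit 3277690409429) (nat_lit 1) (nat_lit 5) (nat_lit 3) (nat_lit 4) (nat_lit 1) (nat_lit 4) (nat_lit 326) (nat_lit 260) (nat_lit 194)) (XT.lf (nat_lit 0) (nat_lit 3800862093905) (nat_lit 152) (nat_lit 4667259259728) (nat_lit 0) (nat_lit 3787894707448) (nat_lit 1) (nat_lit 5)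 (nat_lit 3) (nat_lit 4) (nat_lit 1) (nat_lit 4) (nat_lit 327) (nat_lit 260) (nat_lit 193)))) (XT.nd (nat_lit 78) (nat_lit 0) (nat_lit 0) (XT.lf (nat_lit 0) (nat_lit 4387596782428) (nat_lit 152) (nat_lit 5330702461821) (nat_lit 0) (nat_lit 4374629250918) (nat_lit 1) (nat_lit 5) (nat_lit 3) (nat_lit 4) (nat_lit 1) (nat_lit 4) (nat_lit 328) (nat_lit 260) (nat_lit 192)) (XT.nd (nat_lit 35334) (nat_lit 0) (nat_lit 5168) (XT.lf (nat_lit 0) (nat_lit 5062341286376) (nat_lit 152) (nat_lit 6093662910410) (nat_lit 0) (nat_lit 5049373628732) (nat_lit 1) (nat_lit 5) (nat_lit 3) (nat_lit 4) (nat_lit 1) (nat_lit 4) (nat_lit 329) (nat_lit 260) (nat_lit 191)) (XT.lf (nat_lit 0) (nat_lit 1763168625) (nat_lit 228) (nat_lit 752320743) (nat_lit 228) (nat_lit 752320743) (nat_lit 69) (nat_lit 3) (nat_lit 72) (nat_lit 3) (nat_lit 72) (nat_lit 5) (nat_lit 261) (nat_lit 261) (nat_lit 258))))) (XT.nd (nat_lit 234)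 (nat_lit 1596) (nat_lit 0) (XT.nd (nat_lit 78) (nat_lit 228) (nat_lit 0) (XT.lf (nat_lit 0) (nat_lit 1326411725) (nat_lit 228) (nat_lit 2291248996) (nat_lit 304) (nat_lit 3046946187) (nat_lit 66) (nat_lit 5) (nat_lit 69) (nat_lit 3) (nat_lit 70) (nat_lit 5) (nat_lit 262) (nat_lit 261) (nat_lit 257)) (XT.nd (nat_lit 78) (nat_lit 228) (nat_lit 0) (XT.lf (nat_lit 76) (nat_lit 4067005289) (nat_lit 0) (nat_lit 1440663492) (nat_lit 304) (nat_lit 1351898281) (nat_lit 67) (nat_lit 5) (nat_lit 66) (nat_lit 5) (nat_lit 70) (nat_lit 5) (nat_lit 263) (nat_lit 261) (nat_lit 256)) (XT.lf (nat_lit 0) (nat_lit 2571550917) (nat_lit 304) (nat_lit 3062040104) (nat_lit 76) (nat_lit 1486103006) (nat_lit 63) (nat_lit 5) (nat_lit 67) (nat_lit 5) (nat_lit 64) (nat_lit 5) (nat_lit 264) (nat_lit 261) (nat_lit 255)))) (XT.nd (nat_lit 156) (nat_lit 836) (nat_lit 0) (XT.nd (nat_lit 78) (nat_lit 456) (nat_lit 0) (XT.lf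 (nat_lit 0) (nat_lit 4346801175) (nat_lit 304) (nat_lit 2269232536) (nat_lit 380) (nat_lit 832917337) (nat_lit 59) (nat_lit 5) (nat_lit 63) (nat_lit 5) (nat_lit 64) (nat_lit 5) (nat_lit 265) (nat_lit 261) (nat_lit 254)) (XT.lf (nat_lit 0) (nat_lit 2962104198) (nat_lit 456) (nat_lit 2979844131) (nat_lit 76) (nat_lit 1905014690) (nat_lit 53) (nat_lit 5) (nat_lit 59) (nat_lit 5) (nat_lit 54) (nat_lit 5) (nat_lit 266) (nat_lit 261) (nat_lit 253))) (XT.nd (nat_lit 78) (nat_lit 380) (nat_lit 0) (XT.lf (nat_lit 0) (nat_lit 5639504144) (nat_lit 456) (nat_lit 1431252310) (nat_lit 532) (nat_lit 1250041884) (nat_lit 47) (nat_lit 5) (nat_lit 53) (nat_lit 5) (nat_lit 54) (nat_lit 5) (nat_lit 267) (nat_lit 261) (nat_lit 252)) (XT.lf (nat_lit 0) (nat_lit 2674608418) (nat_lit 380) (nat_lit 2303189549) (nat_lit 76) (nat_lit 3892064463) (nat_lit 42) (nat_lit 5) (nat_lit 47) (nat_lit 5) (nat_lit 43) (nat_lit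 5) (nat_lit 268) (nat_lit 261) (nat_lit 251)))))) (XT.nd (nat_lit 468) (nat_lit 836) (nat_lit 0) (XT.nd (nat_lit 234) (nat_lit 684) (nat_lit 0) (XT.nd (nat_lit 78) (nat_lit 456) (nat_lit 0) (XT.lf (nat_lit 0) (nat_lit 7030777264) (nat_lit 304) (nat_lit 1800935596) (nat_lit 76) (nat_lit 674572520) (nat_lit 39) (nat_lit 5) (nat_lit 43) (nat_lit 5) (nat_lit 40) (nat_lit 5) (nat_lit 269) (nat_lit 261) (nat_lit 250)) (XT.nd (nat_lit 78) (nat_lit 152) (nat_lit 0) (XT.lf (nat_lit 0) (nat_lit 1769450702) (nat_lit 304) (nat_lit 1293033559) (nat_lit 76) (nat_lit 7168387573) (nat_lit 35) (nat_lit 5) (nat_lit 39) (nat_lit 5) (nat_lit 36) (nat_lit 5) (nat_lit 270) (nat_lit 261) (nat_lit 249)) (XT.lf (nat_lit 0) (nat_lit 6567904410) (nat_lit 228) (nat_lit 797016053) (nat_lit 76) (nat_lit 3689676315) (nat_lit 33) (nat_lit 5) (nat_lit 36) (nat_lit 5) (nat_lit 34) (nat_lit 5) (nat_lit 271) (nat_lit 261)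 (nat_lit 248)))) (XT.nd (nat_lit 78) (nat_lit 380) (nat_lit 0) (XT.lf (nat_lit 0) (nat_lit 182286671) (nat_lit 304) (nat_lit 291863623) (nat_lit 76) (nat_lit 11519919652) (nat_lit 29) (nat_lit 5) (nat_lit 33) (nat_lit 5) (nat_lit 30) (nat_lit 5) (nat_lit 272) (nat_lit 261) (nat_lit 247)) (XT.nd (nat_lit 78) (nat_lit 228) (nat_lit 0) (XT.lf (nat_lit 0) (nat_lit 5541574847) (nat_lit 228) (nat_lit 54851429) (nat_lit 76) (nat_lit 7448727457) (nat_lit 27) (nat_lit 5) (nat_lit 30) (nat_lit 5) (nat_lit 28) (nat_lit 5) (nat_lit 273) (nat_lit 261) (nat_lit 246)) (XT.lf (nat_lit 0) (nat_lit 51978178) (nat_lit 76) (nat_lit 11826098197) (nat_lit 152) (nat_lit 2362360365) (nat_lit 24) (nat_lit 5) (nat_lit 25) (nat_lit 5) (nat_lit 26) (nat_lit 4) (nat_lit 274) (nat_lit 261) (nat_lit 245))))) (XT.nd (nat_lit 234) (nat_lit 456) (nat_lit 0) (XT.nd (nat_lit 78) (nat_lit 304) (nat_lit 0) (XT.lf (nat_lit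 0) (nat_lit 3670692197) (nat_lit 152) (nat_lit 255588523) (nat_lit 76) (nat_lit 11658365983) (nat_lit 23) (nat_lit 5) (nat_lit 25) (nat_lit 5) (nat_lit 24) (nat_lit 5) (nat_lit 275) (nat_lit 261) (nat_lit 244)) (XT.nd (nat_lit 78) (nat_lit 152) (nat_lit 0) (XT.lf (nat_lit 0) (nat_lit 10777395703) (nat_lit 228) (nat_lit 1077258141) (nat_lit 76) (nat_lit 5246521460) (nat_lit 21) (nat_lit 5) (nat_lit 24) (nat_lit 5) (nat_lit 22) (nat_lit 4) (nat_lit 276) (nat_lit 261) (nat_lit 243)) (XT.lf (nat_lit 0) (nat_lit 416458009) (nat_lit 152) (nat_lit 2535964949) (nat_lit 76) (nat_lit 15867442325) (nat_lit 19) (nat_lit 5) (nat_lit 21) (nat_lit 5) (nat_lit 20) (nat_lit 5) (nat_lit 277) (nat_lit 261) (nat_lit 242)))) (XT.nd (nat_lit 156) (nat_lit 228) (nat_lit 0) (XT.nd (nat_lit 78) (nat_lit 76) (nat_lit 0) (XT.lf (nat_lit 0) (nat_lit 8218987268) (nat_lit 228) (nat_lit 5124773860) (nat_lit 76) (nat_lit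 7405598946) (nat_lit 17) (nat_lit 5) (nat_lit 20) (nat_lit 5) (nat_lit 18) (nat_lit 4) (nat_lit 278) (nat_lit 261) (nat_lit 241)) (XT.lf (nat_lit 0) (nat_lit 14024197699) (nat_lit 76) (nat_lit 3491704191) (nat_lit 152) (nat_lit 5426628182) (nat_lit 16) (nat_lit 5) (nat_lit 17) (nat_lit 5) (nat_lit 18) (nat_lit 4) (nat_lit 279) (nat_lit 261) (nat_lit 240))) (XT.nd (nat_lit 78) (nat_lit 76) (nat_lit 0) (XT.lf (nat_lit 0) (nat_lit 3065004548) (nat_lit 152) (nat_lit 14525612456) (nat_lit 76) (nat_lit 7832157598) (nat_lit 14) (nat_lit 5) (nat_lit 16) (nat_lit 5) (nat_lit 15) (nat_lit 4) (nat_lit 280) (nat_lit 261) (nat_lit 239)) (XT.lf (nat_lit 0) (nat_lit 5741238509) (nat_lit 76) (nat_lit 7130931257) (nat_lit 152) (nat_lit 15362681623) (nat_lit 13) (nat_lit 5) (nat_lit 14) (nat_lit 5) (nat_lit 15) (nat_lit 4) (nat_lit 281) (nat_lit 261) (nat_lit 238))))))))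
noncomputable def xc25 : XT := (XT.nd (nat_lit 2028) (nat_lit 0) (nat_lit 0) (XT.nd (nat_lit 1014) (nat_lit 228) (nat_lit 0) (XT.nd (nat_lit 468) (nat_lit 304) (nat_lit 0) (XT.nd (nat_lit 234) (nat_lit 152) (nat_lit 0) (XT.nd (nat_lit 78) (nat_lit 228) (nat_lit 0) (XT.lf (nat_lit 0) (nat_lit 24565814583) (nat_lit 152) (nat_lit 1885189041) (nat_lit 0) (nat_lit 4984608074) (nat_lit 13) (nat_lit 5) (nat_lit 15) (nat_lit 4) (nat_lit 13) (nat_lit 4) (nat_lit 282) (nat_lit 261) (nat_lit 237)) (XT.nd (nat_lit 78) (nat_lit 76) (nat_lit 0) (XT.lf (nat_lit 0) (nat_lit 3388646956) (nat_lit 152) (nat_lit 12625275288) (nat_lit 76) (nat_lit 19046150181) (nat_lit 11) (nat_lit 5) (nat_lit 13) (nat_lit 5) (nat_lit 12) (nat_lit 4) (nat_lit 283) (nat_lit 261) (nat_lit 236)) (XT.lf (nat_lit 0) (nat_lit 11471246668) (nat_lit 76) (nat_lit 3540918137) (nat_lit 152) (nat_lit 24183189573) (nat_lit 10) (nat_lit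 5) (nat_lit 11) (nat_lit 5) (nat_lit 12) (nat_lit 4) (nat_lit 284) (nat_lit 261) (nat_lit 235)))) (XT.nd (nat_lit 78) (nat_lit 152) (nat_lit 0) (XT.lf (nat_lit 0) (nat_lit 28913323256) (nat_lit 152) (nat_lit 4437139759) (nat_lit 0) (nat_lit 10557800131) (nat_lit 10) (nat_lit 5) (nat_lit 12) (nat_lit 4) (nat_lit 10) (nat_lit 4) (nat_lit 285) (nat_lit 261) (nat_lit 234)) (XT.nd (nat_lit 78) (nat_lit 76) (nat_lit 0) (XT.lf (nat_lit 0) (nat_lit 23239608850) (nat_lit 76) (nat_lit 22227485005) (nat_lit 76) (nat_lit 3815674566) (nat_lit 9) (nat_lit 4) (nat_lit 10) (nat_lit 5) (nat_lit 10) (nat_lit 4) (nat_lit 286) (nat_lit 261) (nat_lit 233)) (XT.lf (nat_lit 0) (nat_lit 8637174549) (nat_lit 152) (nat_lit 495432868) (nat_lit 76) (nat_lit 46309577829) (nat_lit 8) (nat_lit 5) (nat_lit 10) (nat_lit 5) (nat_lit 9) (nat_lit 4) (nat_lit 287) (nat_lit 261) (nat_lit 232))))) (XT.nd (nat_lit 234) (nat_lit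 152) (nat_lit 0) (XT.nd (nat_lit 78) (nat_lit 76) (nat_lit 0) (XT.lf (nat_lit 0) (nat_lit 23553395233) (nat_lit 152) (nat_lit 32477825305) (nat_lit 0) (nat_lit 6420694096) (nat_lit 7) (nat_lit 5) (nat_lit 9) (nat_lit 4) (nat_lit 7) (nat_lit 4) (nat_lit 288) (nat_lit 261) (nat_lit 231)) (XT.nd (nat_lit 78) (nat_lit 76) (nat_lit 0) (XT.lf (nat_lit 0) (nat_lit 40906757339) (nat_lit 152) (nat_lit 5850615227) (nat_lit 0) (nat_lit 23739787847) (nat_lit 7) (nat_lit 5) (nat_lit 9) (nat_lit 4) (nat_lit 7) (nat_lit 4) (nat_lit 289) (nat_lit 261) (nat_lit 230)) (XT.lf (nat_lit 0) (nat_lit 25956291271) (nat_lit 76) (nat_lit 35472233511) (nat_lit 76) (nat_lit 18275465450) (nat_lit 6) (nat_lit 4) (nat_lit 7) (nat_lit 5) (nat_lit 7) (nat_lit 4) (nat_lit 290) (nat_lit 261) (nat_lit 229)))) (XT.nd (nat_lit 156) (nat_lit 0) (nat_lit 0) (XT.nd (nat_lit 78) (nat_lit 152) (nat_lit 0) (XT.lf (nat_lit 0) (nat_lit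 62785255304) (nat_lit 76) (nat_lit 22359980136) (nat_lit 76) (nat_lit 5137300275) (nat_lit 6) (nat_lit 4) (nat_lit 7) (nat_lit 5) (nat_lit 7) (nat_lit 4) (nat_lit 291) (nat_lit 261) (nat_lit 228)) (XT.lf (nat_lit 0) (nat_lit 2482734665) (nat_lit 76) (nat_lit 7001855010) (nat_lit 152) (nat_lit 92943162930) (nat_lit 4) (nat_lit 5) (nat_lit 5) (nat_lit 5) (nat_lit 6) (nat_lit 4) (nat_lit 292) (nat_lit 261) (nat_lit 227))) (XT.nd (nat_lit 78) (nat_lit 0) (nat_lit 0) (XT.lf (nat_lit 0) (nat_lit 27037287234) (nat_lit 152) (nat_lit 78212114158) (nat_lit 0) (nat_lit 11051356767) (nat_lit 4) (nat_lit 5) (nat_lit 6) (nat_lit 4) (nat_lit 4) (nat_lit 4) (nat_lit 293) (nat_lit 261) (nat_lit 226)) (XT.lf (nat_lit 0) (nat_lit 47377709198) (nat_lit 152) (nat_lit 53488631923) (nat_lit 0) (nat_lit 31376003334) (nat_lit 4) (nat_lit 5) (nat_lit 6) (nat_lit 4) (nat_lit 4) (nat_lit 4) (nat_lit 294) (nat_lit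 261) (nat_lit 225)))))) (XT.nd (nat_lit 468) (nat_lit 152) (nat_lit 0) (XT.nd (nat_lit 234) (nat_lit 0) (nat_lit 0) (XT.nd (nat_lit 78) (nat_lit 76) (nat_lit 0) (XT.lf (nat_lit 0) (nat_lit 70735425562) (nat_lit 152) (nat_lit 25122456149) (nat_lit 0) (nat_lit 54720001962) (nat_lit 4) (nat_lit 5) (nat_lit 6) (nat_lit 4) (nat_lit 4) (nat_lit 4) (nat_lit 295) (nat_lit 261) (nat_lit 224)) (XT.nd (nat_lit 78) (nat_lit 0) (nat_lit 0) (XT.lf (nat_lit 0) (nat_lit 7833254683) (nat_lit 76) (nat_lit 89922570408) (nat_lit 76) (nat_lit 73895218341) (nat_lit 3) (nat_lit 4) (nat_lit 4) (nat_lit 5) (nat_lit 4) (nat_lit 4) (nat_lit 296) (nat_lit 261) (nat_lit 223)) (XT.lf (nat_lit 0) (nat_lit 47201264619) (nat_lit 76) (nat_lit 82332638922) (nat_lit 76) (nat_lit 66294914275) (nat_lit 3) (nat_lit 4) (nat_lit 4) (nat_lit 5) (nat_lit 4) (nat_lit 4) (nat_lit 297) (nat_lit 261) (nat_lit 222)))) (XT.nd (nat_lit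 78) (nat_lit 0) (nat_lit 0) (XT.lf (nat_lit 0) (nat_lit 92428913311) (nat_lit 76) (nat_lit 73626481068) (nat_lit 76) (nat_lit 57579736787) (nat_lit 3) (nat_lit 4) (nat_lit 4) (nat_lit 5) (nat_lit 4) (nat_lit 4) (nat_lit 298) (nat_lit 261) (nat_lit 221)) (XT.nd (nat_lit 78) (nat_lit 0) (nat_lit 0) (XT.lf (nat_lit 0) (nat_lit 144401089537) (nat_lit 76) (nat_lit 63633758974) (nat_lit 76) (nat_lit 47579171532) (nat_lit 3) (nat_lit 4) (nat_lit 4) (nat_lit 5) (nat_lit 4) (nat_lit 4) (nat_lit 299) (nat_lit 261) (nat_lit 220)) (XT.lf (nat_lit 0) (nat_lit 204134640225) (nat_lit 76) (nat_lit 52158962860) (nat_lit 76) (nat_lit 36097555279) (nat_lit 3) (nat_lit 4) (nat_lit 4) (nat_lit 5) (nat_lit 4) (nat_lit 4) (nat_lit 300) (nat_lit 261) (nat_lit 219))))) (XT.nd (nat_lit 234) (nat_lit 0) (nat_lit 0) (XT.nd (nat_lit 78) (nat_lit 152) (nat_lit 0) (XT.lf (nat_lit 0) (nat_lit 272798265278) (nat_lit 76)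 (nat_lit 38977585846) (nat_lit 76) (nat_lit 22910247709) (nat_lit 3) (nat_lit 4) (nat_lit 4) (nat_lit 5) (nat_lit 4) (nat_lit 4) (nat_lit 301) (nat_lit 261) (nat_lit 218)) (XT.nd (nat_lit 78) (nat_lit 152) (nat_lit 0) (XT.lf (nat_lit 0) (nat_lit 351735383448) (nat_lit 76) (nat_lit 23831731425) (nat_lit 76) (nat_lit 7759236283) (nat_lit 3) (nat_lit 4) (nat_lit 4) (nat_lit 5) (nat_lit 4) (nat_lit 4) (nat_lit 302) (nat_lit 261) (nat_lit 217)) (XT.lf (nat_lit 0) (nat_lit 3152411866) (nat_lit 76) (nat_lit 6092487826) (nat_lit 152) (nat_lit 429994037206) (nat_lit 1) (nat_lit 5) (nat_lit 2) (nat_lit 5) (nat_lit 3) (nat_lit 4) (nat_lit 303) (nat_lit 261) (nat_lit 216)))) (XT.nd (nat_lit 156) (nat_lit 0) (nat_lit 0) (XT.nd (nat_lit 78) (nat_lit 0) (nat_lit 0) (XT.lf (nat_lit 0) (nat_lit 29629908439) (nat_lit 152) (nat_lit 459049001935) (nat_lit 0) (nat_lit 14740205725) (nat_lit 1) (nat_lit 5) (nat_lit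 3) (nat_lit 4) (nat_lit 1) (nat_lit 4) (nat_lit 304) (nat_lit 261) (nat_lit 215)) (XT.lf (nat_lit 0) (nat_lit 53231517398) (nat_lit 152) (nat_lit 485643424912) (nat_lit 0) (nat_lit 38338675040) (nat_lit 1) (nat_lit 5) (nat_lit 3) (nat_lit 4) (nat_lit 1) (nat_lit 4) (nat_lit 305) (nat_lit 261) (nat_lit 214))) (XT.nd (nat_lit 78) (nat_lit 0) (nat_lit 0) (XT.lf (nat_lit 0) (nat_lit 80364972700) (nat_lit 152) (nat_lit 516243595151) (nat_lit 0) (nat_lit 65469400218) (nat_lit 1) (nat_lit 5) (nat_lit 3) (nat_lit 4) (nat_lit 1) (nat_lit 4) (nat_lit 306) (nat_lit 261) (nat_lit 213)) (XT.lf (nat_lit 0) (nat_lit 111561146298) (nat_lit 152) (nat_lit 551448211636) (nat_lit 0) (nat_lit 96663199794) (nat_lit 1) (nat_lit 5) (nat_lit 3) (nat_lit 4) (nat_lit 1) (nat_lit 4) (nat_lit 307) (nat_lit 261) (nat_lit 212))))))) (XT.nd (nat_lit 1014) (nat_lit 0) (nat_lit 0) (XT.nd (nat_lit 468) (nat_lit 0) (nat_lit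 0) (XT.nd (nat_lit 234) (nat_lit 0) (nat_lit 0) (XT.nd (nat_lit 78) (nat_lit 0) (nat_lit 0) (XT.lf (nat_lit 0) (nat_lit 147430398108) (nat_lit 152) (nat_lit 591946060341) (nat_lit 0) (nat_lit 132530387238) (nat_lit 1) (nat_lit 5) (nat_lit 3) (nat_lit 4) (nat_lit 1) (nat_lit 4) (nat_lit 308) (nat_lit 261) (nat_lit 211)) (XT.nd (nat_lit 78) (nat_lit 0) (nat_lit 0) (XT.lf (nat_lit 0) (nat_lit 188674517842) (nat_lit 152) (nat_lit 638529490479) (nat_lit 0) (nat_lit 173772711871) (nat_lit 1) (nat_lit 5) (nat_lit 3) (nat_lit 4) (nat_lit 1) (nat_lit 4) (nat_lit 309) (nat_lit 261) (nat_lit 210)) (XT.lf (nat_lit 0) (nat_lit 236100455666) (nat_lit 152) (nat_lit 692109916989) (nat_lit 0) (nat_lit 221197088738) (nat_lit 1) (nat_lit 5) (nat_lit 3) (nat_lit 4) (nat_lit 1) (nat_lit 4) (nat_lit 310) (nat_lit 261) (nat_lit 209)))) (XT.nd (nat_lit 78) (nat_lit 0) (nat_lit 0) (XT.lf (nat_lit 0) (nat_lit 290636110366)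 (nat_lit 152) (nat_lit 753735652564) (nat_lit 0) (nat_lit 275731386083) (nat_lit 1) (nat_lit 5) (nat_lit 3) (nat_lit 4) (nat_lit 1) (nat_lit 4) (nat_lit 311) (nat_lit 261) (nat_lit 208)) (XT.nd (nat_lit 78) (nat_lit 0) (nat_lit 0) (XT.lf (nat_lit 0) (nat_lit 353348483880) (nat_lit 152) (nat_lit 824612418115) (nat_lit 0) (nat_lit 338442579289) (nat_lit 1) (nat_lit 5) (nat_lit 3) (nat_lit 4) (nat_lit 1) (nat_lit 4) (nat_lit 312) (nat_lit 261) (nat_lit 207)) (XT.lf (nat_lit 0) (nat_lit 425464557430) (nat_lit 152) (nat_lit 906126932970) (nat_lit 0) (nat_lit 410557626484) (nat_lit 1) (nat_lit 5) (nat_lit 3) (nat_lit 4) (nat_lit 1) (nat_lit 4) (nat_lit 313) (nat_lit 261) (nat_lit 206))))) (XT.nd (nat_lit 234) (nat_lit 0) (nat_lit 0) (XT.nd (nat_lit 78) (nat_lit 0) (nat_lit 0) (XT.lf (nat_lit 0) (nat_lit 508395297672) (nat_lit 152) (nat_lit 999874046332) (nat_lit 0) (nat_lit 493487474244) (nat_lit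 1) (nat_lit 5) (nat_lit 3) (nat_lit 4) (nat_lit 1) (nat_lit 4) (nat_lit 314) (nat_lit 261) (nat_lit 205)) (XT.nd (nat_lit 78) (nat_lit 0) (nat_lit 0) (XT.lf (nat_lit 0) (nat_lit 603763262567) (nat_lit 152) (nat_lit 1107687940854) (nat_lit 0) (nat_lit 588854663067) (nat_lit 1) (nat_lit 5) (nat_lit 3) (nat_lit 4) (nat_lit 1) (nat_lit 4) (nat_lit 315) (nat_lit 261) (nat_lit 204)) (XT.lf (nat_lit 0) (nat_lit 713434347081) (nat_lit 152) (nat_lit 1231678018820) (nat_lit 0) (nat_lit 698525072736) (nat_lit 1) (nat_lit 5) (nat_lit 3) (nat_lit 4) (nat_lit 1) (nat_lit 4) (nat_lit 316) (nat_lit 261) (nat_lit 203)))) (XT.nd (nat_lit 156) (nat_lit 0) (nat_lit 0) (XT.nd (nat_lit 78) (nat_lit 0) (nat_lit 0) (XT.lf (nat_lit 0) (nat_lit 839554289824) (nat_lit 152) (nat_lit 1374270173059) (nat_lit 0) (nat_lit 824644428656) (nat_lit 1) (nat_lit 5) (nat_lit 3) (nat_lit 4) (nat_lit 1) (nat_lit 4) (nat_lit 317)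 (nat_lit 261) (nat_lit 202)) (XT.lf (nat_lit 0) (nat_lit 984590654892) (nat_lit 152) (nat_lit 1538254250068) (nat_lit 0) (nat_lit 969680283445) (nat_lit 1) (nat_lit 5) (nat_lit 3) (nat_lit 4) (nat_lit 1) (nat_lit 4) (nat_lit 318) (nat_lit 261) (nat_lit 201))) (XT.nd (nat_lit 78) (nat_lit 0) (nat_lit 0) (XT.lf (nat_lit 0) (nat_lit 1151381110298) (nat_lit 152) (nat_lit 1726838633962) (nat_lit 0) (nat_lit 1136470295129) (nat_lit 1) (nat_lit 5) (nat_lit 3) (nat_lit 4) (nat_lit 1) (nat_lit 4) (nat_lit 319) (nat_lit 261) (nat_lit 200)) (XT.lf (nat_lit 0) (nat_lit 1343188947561) (nat_lit 152) (nat_lit 1943713019209) (nat_lit 0) (nat_lit 1328277746547) (nat_lit 1) (nat_lit 5) (nat_lit 3) (nat_lit 4) (nat_lit 1) (nat_lit 4) (nat_lit 320) (nat_lit 261) (nat_lit 199)))))) (XT.nd (nat_lit 468) (nat_lit 0) (nat_lit 0) (XT.nd (nat_lit 234) (nat_lit 0) (nat_lit 0) (XT.nd (nat_lit 78) (nat_lit 0) (nat_lit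 0) (XT.lf (nat_lit 0) (nat_lit 1563766928714) (nat_lit 152) (nat_lit 2193120600303) (nat_lit 0) (nat_lit 1548855392183) (nat_lit 1) (nat_lit 5) (nat_lit 3) (nat_lit 4) (nat_lit 1) (nat_lit 4) (nat_lit 321) (nat_lit 261) (nat_lit 198)) (XT.nd (nat_lit 78) (nat_lit 0) (nat_lit 0) (XT.lf (nat_lit 0) (nat_lit 1817430709910) (nat_lit 152) (nat_lit 2479941090786) (nat_lit 0) (nat_lit 1802518881625) (nat_lit 1) (nat_lit 5) (nat_lit 3) (nat_lit 4) (nat_lit 1) (nat_lit 4) (nat_lit 322) (nat_lit 261) (nat_lit 197)) (XT.lf (nat_lit 0) (nat_lit 2109143278173) (nat_lit 152) (nat_lit 2809786195907) (nat_lit 0) (nat_lit 2094231196189) (nat_lit 1) (nat_lit 5) (nat_lit 3) (nat_lit 4) (nat_lit 1) (nat_lit 4) (nat_lit 323) (nat_lit 261) (nat_lit 196)))) (XT.nd (nat_lit 78) (nat_lit 0) (nat_lit 0) (XT.lf (nat_lit 0) (nat_lit 2444612053317) (nat_lit 152) (nat_lit 3189109406853) (nat_lit 0) (nat_lit 2429699750724)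 (nat_lit 1) (nat_lit 5) (nat_lit 3) (nat_lit 4) (nat_lit 1) (nat_lit 4) (nat_lit 324) (nat_lit 261) (nat_lit 195)) (XT.nd (nat_lit 78) (nat_lit 0) (nat_lit 0) (XT.lf (nat_lit 0) (nat_lit 2830400554854) (nat_lit 152) (nat_lit 3625332264709) (nat_lit 0) (nat_lit 2815488060429) (nat_lit 1) (nat_lit 5) (nat_lit 3) (nat_lit 4) (nat_lit 1) (nat_lit 4) (nat_lit 325) (nat_lit 261) (nat_lit 194)) (XT.lf (nat_lit 0) (nat_lit 3274056818685) (nat_lit 152) (nat_lit 4126989564519) (nat_lit 0) (nat_lit 3259144157449) (nat_lit 1) (nat_lit 5) (nat_lit 3) (nat_lit 4) (nat_lit 1) (nat_lit 4) (nat_lit 326) (nat_lit 261) (nat_lit 193))))) (XT.nd (nat_lit 35568) (nat_lit 0) (nat_lit 4332) (XT.nd (nat_lit 78) (nat_lit 0) (nat_lit 0) (XT.lf (nat_lit 0) (nat_lit 3784261076059) (nat_lit 152) (nat_lit 4703896340410) (nat_lit 0) (nat_lit 3769348269769) (nat_lit 1) (nat_lit 5) (nat_lit 3) (nat_lit 4) (nat_lit 1) (nat_lit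 4) (nat_lit 327) (nat_lit 261) (nat_lit 192)) (XT.nd (nat_lit 78) (nat_lit 0) (nat_lit 0) (XT.lf (nat_lit 0) (nat_lit 4370995584185) (nat_lit 152) (nat_lit 5367339898867) (nat_lit 0) (nat_lit 4356082651762) (nat_lit 1) (nat_lit 5) (nat_lit 3) (nat_lit 4) (nat_lit 1) (nat_lit 4) (nat_lit 328) (nat_lit 261) (nat_lit 191)) (XT.lf (nat_lit 0) (nat_lit 5045739931266) (nat_lit 152) (nat_lit 6130300657337) (nat_lit 0) (nat_lit 5030826889161) (nat_lit 1) (nat_lit 5) (nat_lit 3) (nat_lit 4) (nat_lit 1) (nat_lit 4) (nat_lit 329) (nat_lit 261) (nat_lit 190)))) (XT.nd (nat_lit 156) (nat_lit 304) (nat_lit 0) (XT.nd (nat_lit 78) (nat_lit 304) (nat_lit 0) (XT.lf (nat_lit 0) (nat_lit 1266765509) (nat_lit 0) (nat_lit 1266765509) (nat_lit 228) (nat_lit 878790651) (nat_lit 66) (nat_lit 5) (nat_lit 66) (nat_lit 3) (nat_lit 69) (nat_lit 3) (nat_lit 262) (nat_lit 262) (nat_lit 256)) (XT.lf (nat_lit 0) (nat_lit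 1677036744) (nat_lit 304) (nat_lit 5270184505) (nat_lit 380) (nat_lit 104339135) (nat_lit 62) (nat_lit 5) (nat_lit 66) (nat_lit 5) (nat_lit 67) (nat_lit 5) (nat_lit 263) (nat_lit 262) (nat_lit 255))) (XT.nd (nat_lit 78) (nat_lit 304) (nat_lit 0) (XT.lf (nat_lit 76) (nat_lit 1257330913) (nat_lit 0) (nat_lit 3884959264) (nat_lit 380) (nat_lit 2198937046) (nat_lit 63) (nat_lit 5) (nat_lit 62) (nat_lit 5) (nat_lit 67) (nat_lit 5) (nat_lit 264) (nat_lit 262) (nat_lit 254)) (XT.lf (nat_lit 0) (nat_lit 1006456767) (nat_lit 380) (nat_lit 6672188215) (nat_lit 76) (nat_lit 24361391) (nat_lit 58) (nat_lit 5) (nat_lit 63) (nat_lit 5) (nat_lit 59) (nat_lit 5) (nat_lit 265) (nat_lit 262) (nat_lit 253))))))))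
noncomputable def xc26 : XT := (XT.nd (nat_lit 2028) (nat_lit 380) (nat_lit 0) (XT.nd (nat_lit 1014) (nat_lit 988) (nat_lit 0) (XT.nd (nat_lit 468) (nat_lit 1064) (nat_lit 0) (XT.nd (nat_lit 234) (nat_lit 684) (nat_lit 0) (XT.nd (nat_lit 78) (nat_lit 836) (nat_lit 0) (XT.lf (nat_lit 0) (nat_lit 938383928) (nat_lit 380) (nat_lit 3449584951) (nat_lit 456) (nat_lit 3741821356) (nat_lit 53) (nat_lit 5) (nat_lit 58) (nat_lit 5) (nat_lit 59) (nat_lit 5) (nat_lit 266) (nat_lit 262) (nat_lit 252)) (XT.nd (nat_lit 78) (nat_lit 380) (nat_lit 0) (XT.lf (nat_lit 0) (nat_lit 1090569359) (nat_lit 456) (nat_lit 7011964266) (nat_lit 532) (nat_lit 533164099) (nat_lit 47) (nat_lit 5) (nat_lit 53) (nat_lit 5) (nat_lit 54) (nat_lit 5) (nat_lit 267) (nat_lit 262) (nat_lit 251)) (XT.lf (nat_lit 0) (nat_lit 1338527373) (nat_lit 304) (nat_lit 1605496247) (nat_lit 380) (nat_lit 6272725981) (nat_lit 42) (nat_lit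 5) (nat_lit 46) (nat_lit 5) (nat_lit 47) (nat_lit 5) (nat_lit 268) (nat_lit 262) (nat_lit 250)))) (XT.nd (nat_lit 78) (nat_lit 456) (nat_lit 0) (XT.lf (nat_lit 0) (nat_lit 1701881732) (nat_lit 228) (nat_lit 5232868323) (nat_lit 304) (nat_lit 2948039579) (nat_lit 39) (nat_lit 5) (nat_lit 42) (nat_lit 5) (nat_lit 43) (nat_lit 5) (nat_lit 269) (nat_lit 262) (nat_lit 249)) (XT.nd (nat_lit 78) (nat_lit 152) (nat_lit 0) (XT.lf (nat_lit 0) (nat_lit 872172656) (nat_lit 304) (nat_lit 8455312679) (nat_lit 76) (nat_lit 1316977985) (nat_lit 35) (nat_lit 5) (nat_lit 39) (nat_lit 5) (nat_lit 36) (nat_lit 5) (nat_lit 270) (nat_lit 262) (nat_lit 248)) (XT.lf (nat_lit 0) (nat_lit 2637485554) (nat_lit 152) (nat_lit 2617676071) (nat_lit 228) (nat_lit 6246531052) (nat_lit 33) (nat_lit 5) (nat_lit 35) (nat_lit 5) (nat_lit 36) (nat_lit 5) (nat_lit 271) (nat_lit 262) (nat_lit 247))))) (XT.nd (nat_lit 234) (nat_lit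 456) (nat_lit 0) (XT.nd (nat_lit 78) (nat_lit 380) (nat_lit 0) (XT.lf (nat_lit 0) (nat_lit 3105635405) (nat_lit 228) (nat_lit 7374894811) (nat_lit 304) (nat_lit 1992681330) (nat_lit 30) (nat_lit 5) (nat_lit 33) (nat_lit 5) (nat_lit 34) (nat_lit 5) (nat_lit 272) (nat_lit 262) (nat_lit 246)) (XT.nd (nat_lit 78) (nat_lit 152) (nat_lit 0) (XT.lf (nat_lit 0) (nat_lit 2945471020) (nat_lit 228) (nat_lit 10062030874) (nat_lit 76) (nat_lit 562479886) (nat_lit 27) (nat_lit 5) (nat_lit 30) (nat_lit 5) (nat_lit 28) (nat_lit 5) (nat_lit 273) (nat_lit 262) (nat_lit 245)) (XT.lf (nat_lit 0) (nat_lit 3660752941) (nat_lit 152) (nat_lit 5198076006) (nat_lit 228) (nat_lit 5940450025) (nat_lit 25) (nat_lit 5) (nat_lit 27) (nat_lit 5) (nat_lit 28) (nat_lit 5) (nat_lit 274) (nat_lit 262) (nat_lit 244)))) (XT.nd (nat_lit 156) (nat_lit 152) (nat_lit 0) (XT.nd (nat_lit 78) (nat_lit 228) (nat_lit 0) (XT.lf (nat_lit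 0) (nat_lit 3629767668) (nat_lit 76) (nat_lit 12304944449) (nat_lit 152) (nat_lit 256521069) (nat_lit 24) (nat_lit 5) (nat_lit 25) (nat_lit 5) (nat_lit 26) (nat_lit 4) (nat_lit 275) (nat_lit 262) (nat_lit 243)) (XT.lf (nat_lit 0) (nat_lit 3073833694) (nat_lit 152) (nat_lit 3253670293) (nat_lit 228) (nat_lit 11423706110) (nat_lit 21) (nat_lit 5) (nat_lit 23) (nat_lit 5) (nat_lit 24) (nat_lit 5) (nat_lit 276) (nat_lit 262) (nat_lit 242))) (XT.nd (nat_lit 78) (nat_lit 76) (nat_lit 0) (XT.lf (nat_lit 0) (nat_lit 1922025342) (nat_lit 76) (nat_lit 12382711247) (nat_lit 152) (nat_lit 5206463467) (nat_lit 20) (nat_lit 5) (nat_lit 21) (nat_lit 5) (nat_lit 22) (nat_lit 4) (nat_lit 277) (nat_lit 262) (nat_lit 241)) (XT.lf (nat_lit 0) (nat_lit 2213463300) (nat_lit 152) (nat_lit 17864804) (nat_lit 76) (nat_lit 19270907811) (nat_lit 19) (nat_lit 5) (nat_lit 21) (nat_lit 5) (nat_lit 20) (nat_lit 5) (nat_lit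 278) (nat_lit 262) (nat_lit 240)))))) (XT.nd (nat_lit 468) (nat_lit 380) (nat_lit 0) (XT.nd (nat_lit 234) (nat_lit 228) (nat_lit 0) (XT.nd (nat_lit 78) (nat_lit 228) (nat_lit 0) (XT.lf (nat_lit 0) (nat_lit 11049935702) (nat_lit 228) (nat_lit 3138963998) (nat_lit 76) (nat_lit 9543410938) (nat_lit 17) (nat_lit 5) (nat_lit 20) (nat_lit 5) (nat_lit 18) (nat_lit 4) (nat_lit 279) (nat_lit 262) (nat_lit 239)) (XT.nd (nat_lit 78) (nat_lit 152) (nat_lit 0) (XT.lf (nat_lit 0) (nat_lit 18649196393) (nat_lit 76) (nat_lit 2944382239) (nat_lit 152) (nat_lit 4672911616) (nat_lit 16) (nat_lit 5) (nat_lit 17) (nat_lit 5) (nat_lit 18) (nat_lit 4) (nat_lit 280) (nat_lit 262) (nat_lit 238)) (XT.lf (nat_lit 0) (nat_lit 4901787361) (nat_lit 152) (nat_lit 14238969197) (nat_lit 76) (nat_lit 9984147657) (nat_lit 14) (nat_lit 5) (nat_lit 16) (nat_lit 5) (nat_lit 15) (nat_lit 4) (nat_lit 281) (nat_lit 262) (nat_lit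 237)))) (XT.nd (nat_lit 78) (nat_lit 152) (nat_lit 0) (XT.lf (nat_lit 0) (nat_lit 8859218377) (nat_lit 76) (nat_lit 7195472050) (nat_lit 152) (nat_lit 16314275657) (nat_lit 13) (nat_lit 5) (nat_lit 14) (nat_lit 5) (nat_lit 15) (nat_lit 4) (nat_lit 282) (nat_lit 262) (nat_lit 236)) (XT.nd (nat_lit 78) (nat_lit 152) (nat_lit 0) (XT.lf (nat_lit 0) (nat_lit 29360137073) (nat_lit 152) (nat_lit 138633091) (nat_lit 0) (nat_lit 6562577352) (nat_lit 13) (nat_lit 5) (nat_lit 15) (nat_lit 4) (nat_lit 13) (nat_lit 4) (nat_lit 283) (nat_lit 262) (nat_lit 235)) (XT.lf (nat_lit 0) (nat_lit 4933278409) (nat_lit 152) (nat_lit 12606249474) (nat_lit 76) (nat_lit 22695964344) (nat_lit 11) (nat_lit 5) (nat_lit 13) (nat_lit 5) (nat_lit 12) (nat_lit 4) (nat_lit 284) (nat_lit 262) (nat_lit 234))))) (XT.nd (nat_lit 234) (nat_lit 228) (nat_lit 0) (XT.nd (nat_lit 78) (nat_lit 76) (nat_lit 0) (XT.lf (nat_lit 0) (nat_lit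 14942840335) (nat_lit 76) (nat_lit 3264418896) (nat_lit 152) (nat_lit 26791341678) (nat_lit 10) (nat_lit 5) (nat_lit 11) (nat_lit 5) (nat_lit 12) (nat_lit 4) (nat_lit 285) (nat_lit 262) (nat_lit 233)) (XT.nd (nat_lit 78) (nat_lit 76) (nat_lit 0) (XT.lf (nat_lit 0) (nat_lit 34087446433) (nat_lit 152) (nat_lit 3530937153) (nat_lit 0) (nat_lit 12808631621) (nat_lit 10) (nat_lit 5) (nat_lit 12) (nat_lit 4) (nat_lit 10) (nat_lit 4) (nat_lit 286) (nat_lit 262) (nat_lit 232)) (XT.lf (nat_lit 0) (nat_lit 28164280943) (nat_lit 76) (nat_lit 24885413012) (nat_lit 76) (nat_lit 3564036903) (nat_lit 9) (nat_lit 4) (nat_lit 10) (nat_lit 5) (nat_lit 10) (nat_lit 4) (nat_lit 287) (nat_lit 262) (nat_lit 231)))) (XT.nd (nat_lit 156) (nat_lit 76) (nat_lit 0) (XT.nd (nat_lit 78) (nat_lit 0) (nat_lit 0) (XT.lf (nat_lit 0) (nat_lit 755311269) (nat_lit 76) (nat_lit 9876273923) (nat_lit 152) (nat_lit 53070658810)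 (nat_lit 7) (nat_lit 5) (nat_lit 8) (nat_lit 5) (nat_lit 9) (nat_lit 4) (nat_lit 288) (nat_lit 262) (nat_lit 230)) (XT.lf (nat_lit 0) (nat_lit 27720051320) (nat_lit 152) (nat_lit 36134674265) (nat_lit 0) (nat_lit 7913969480) (nat_lit 7) (nat_lit 5) (nat_lit 9) (nat_lit 4) (nat_lit 7) (nat_lit 4) (nat_lit 289) (nat_lit 262) (nat_lit 229))) (XT.nd (nat_lit 78) (nat_lit 76) (nat_lit 0) (XT.lf (nat_lit 0) (nat_lit 47593768159) (nat_lit 152) (nat_lit 5671838088) (nat_lit 0) (nat_lit 27761774519) (nat_lit 7) (nat_lit 5) (nat_lit 9) (nat_lit 4) (nat_lit 7) (nat_lit 4) (nat_lit 290) (nat_lit 262) (nat_lit 228)) (XT.lf (nat_lit 0) (nat_lit 30816687973) (nat_lit 76) (nat_lit 40328498785) (nat_lit 76) (nat_lit 20473973146) (nat_lit 6) (nat_lit 4) (nat_lit 7) (nat_lit 5) (nat_lit 7) (nat_lit 4) (nat_lit 291) (nat_lit 262) (nat_lit 227))))))) (XT.nd (nat_lit 1014) (nat_lit 0) (nat_lit 0) (XT.nd (nat_lit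 468) (nat_lit 152) (nat_lit 0) (XT.nd (nat_lit 234) (nat_lit 76) (nat_lit 0) (XT.nd (nat_lit 78) (nat_lit 152) (nat_lit 0) (XT.lf (nat_lit 0) (nat_lit 73043872306) (nat_lit 76) (nat_lit 25310003459) (nat_lit 76) (nat_lit 5435884776) (nat_lit 6) (nat_lit 4) (nat_lit 7) (nat_lit 5) (nat_lit 7) (nat_lit 4) (nat_lit 292) (nat_lit 262) (nat_lit 226)) (XT.nd (nat_lit 78) (nat_lit 0) (nat_lit 0) (XT.lf (nat_lit 0) (nat_lit 3646590414) (nat_lit 76) (nat_lit 7669633876) (nat_lit 152) (nat_lit 106442808740) (nat_lit 4) (nat_lit 5) (nat_lit 5) (nat_lit 5) (nat_lit 6) (nat_lit 4) (nat_lit 293) (nat_lit 262) (nat_lit 225)) (XT.lf (nat_lit 0) (nat_lit 31456484913) (nat_lit 152) (nat_lit 89235123547) (nat_lit 0) (nat_lit 13025030037) (nat_lit 4) (nat_lit 5) (nat_lit 6) (nat_lit 4) (nat_lit 4) (nat_lit 4) (nat_lit 294) (nat_lit 262) (nat_lit 224)))) (XT.nd (nat_lit 78) (nat_lit 76) (nat_lit 0) (XT.lf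 (nat_lit 0) (nat_lit 54800543485) (nat_lit 152) (nat_lit 60895572160) (nat_lit 0) (nat_lit 36357160142) (nat_lit 4) (nat_lit 5) (nat_lit 6) (nat_lit 4) (nat_lit 4) (nat_lit 4) (nat_lit 295) (nat_lit 262) (nat_lit 223)) (XT.nd (nat_lit 78) (nat_lit 76) (nat_lit 0) (XT.lf (nat_lit 0) (nat_lit 81620676708) (nat_lit 152) (nat_lit 28354864091) (nat_lit 0) (nat_lit 63166920785) (nat_lit 4) (nat_lit 5) (nat_lit 6) (nat_lit 4) (nat_lit 4) (nat_lit 4) (nat_lit 296) (nat_lit 262) (nat_lit 222)) (XT.lf (nat_lit 0) (nat_lit 9498836980) (nat_lit 76) (nat_lit 103171236596) (nat_lit 76) (nat_lit 84708461039) (nat_lit 3) (nat_lit 4) (nat_lit 4) (nat_lit 5) (nat_lit 4) (nat_lit 4) (nat_lit 297) (nat_lit 262) (nat_lit 221))))) (XT.nd (nat_lit 234) (nat_lit 152) (nat_lit 0) (XT.nd (nat_lit 78) (nat_lit 0) (nat_lit 0) (XT.lf (nat_lit 0) (nat_lit 54708057873) (nat_lit 76) (nat_lit 94474083132) (nat_lit 76)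 (nat_lit 76003464414) (nat_lit 3) (nat_lit 4) (nat_lit 4) (nat_lit 5) (nat_lit 4) (nat_lit 4) (nat_lit 298) (nat_lit 262) (nat_lit 220)) (XT.nd (nat_lit 78) (nat_lit 0) (nat_lit 0) (XT.lf (nat_lit 0) (nat_lit 106664209926) (nat_lit 76) (nat_lit 84489190942) (nat_lit 76) (nat_lit 66011752085) (nat_lit 3) (nat_lit 4) (nat_lit 4) (nat_lit 5) (nat_lit 4) (nat_lit 4) (nat_lit 299) (nat_lit 262) (nat_lit 219)) (XT.lf (nat_lit 0) (nat_lit 166383826549) (nat_lit 76) (nat_lit 73021203441) (nat_lit 76) (nat_lit 54537834028) (nat_lit 3) (nat_lit 4) (nat_lit 4) (nat_lit 5) (nat_lit 4) (nat_lit 4) (nat_lit 300) (nat_lit 262) (nat_lit 218)))) (XT.nd (nat_lit 156) (nat_lit 152) (nat_lit 0) (XT.nd (nat_lit 78) (nat_lit 0) (nat_lit 0) (XT.lf (nat_lit 0) (nat_lit 235035335025) (nat_lit 76) (nat_lit 59845746960) (nat_lit 76) (nat_lit 41357220541) (nat_lit 3) (nat_lit 4) (nat_lit 4) (nat_lit 5) (nat_lit 4)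 (nat_lit 4) (nat_lit 301) (nat_lit 262) (nat_lit 217)) (XT.lf (nat_lit 0) (nat_lit 313961917040) (nat_lit 76) (nat_lit 44705040828) (nat_lit 76) (nat_lit 26212030057) (nat_lit 3) (nat_lit 4) (nat_lit 4) (nat_lit 5) (nat_lit 4) (nat_lit 4) (nat_lit 302) (nat_lit 262) (nat_lit 216))) (XT.nd (nat_lit 78) (nat_lit 152) (nat_lit 0) (XT.lf (nat_lit 0) (nat_lit 404707788330) (nat_lit 76) (nat_lit 27302853839) (nat_lit 76) (nat_lit 8805943630) (nat_lit 3) (nat_lit 4) (nat_lit 4) (nat_lit 5) (nat_lit 4) (nat_lit 4) (nat_lit 303) (nat_lit 262) (nat_lit 215)) (XT.lf (nat_lit 0) (nat_lit 3824818522) (nat_lit 76) (nat_lit 6908412028) (nat_lit 152) (nat_lit 494383386019) (nat_lit 1) (nat_lit 5) (nat_lit 2) (nat_lit 5) (nat_lit 3) (nat_lit 4) (nat_lit 304) (nat_lit 262) (nat_lit 214)))))) (XT.nd (nat_lit 468) (nat_lit 0) (nat_lit 0) (XT.nd (nat_lit 234) (nat_lit 0) (nat_lit 0) (XT.nd (nat_lit 78) (nat_lit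 0) (nat_lit 0) (XT.lf (nat_lit 0) (nat_lit 34164787382) (nat_lit 152) (nat_lit 527727786951) (nat_lit 0) (nat_lit 17032148903) (nat_lit 1) (nat_lit 5) (nat_lit 3) (nat_lit 4) (nat_lit 1) (nat_lit 4) (nat_lit 305) (nat_lit 262) (nat_lit 213)) (XT.nd (nat_lit 78) (nat_lit 0) (nat_lit 0) (XT.lf (nat_lit 0) (nat_lit 61294847336) (nat_lit 152) (nat_lit 558334664497) (nat_lit 0) (nat_lit 44159834835) (nat_lit 1) (nat_lit 5) (nat_lit 3) (nat_lit 4) (nat_lit 1) (nat_lit 4) (nat_lit 306) (nat_lit 262) (nat_lit 212)) (XT.lf (nat_lit 0) (nat_lit 92488068456) (nat_lit 152) (nat_lit 593545113423) (nat_lit 0) (nat_lit 75350991589) (nat_lit 1) (nat_lit 5) (nat_lit 3) (nat_lit 4) (nat_lit 1) (nat_lit 4) (nat_lit 307) (nat_lit 262) (nat_lit 211)))) (XT.nd (nat_lit 78) (nat_lit 0) (nat_lit 0) (XT.lf (nat_lit 0) (nat_lit 128354752895) (nat_lit 152) (nat_lit 634048033815) (nat_lit 0) (nat_lit 111215880927)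 (nat_lit 1) (nat_lit 5) (nat_lit 3) (nat_lit 4) (nat_lit 1) (nat_lit 4) (nat_lit 308) (nat_lit 262) (nat_lit 210)) (XT.nd (nat_lit 78) (nat_lit 0) (nat_lit 0) (XT.lf (nat_lit 0) (nat_lit 169596640131) (nat_lit 152) (nat_lit 680635874117) (nat_lit 0) (nat_lit 152456207206) (nat_lit 1) (nat_lit 5) (nat_lit 3) (nat_lit 4) (nat_lit 1) (nat_lit 4) (nat_lit 309) (nat_lit 262) (nat_lit 209)) (XT.lf (nat_lit 0) (nat_lit 217020636654) (nat_lit 152) (nat_lit 734220135551) (nat_lit 0) (nat_lit 199878846374) (nat_lit 1) (nat_lit 5) (nat_lit 3) (nat_lit 4) (nat_lit 1) (nat_lit 4) (nat_lit 310) (nat_lit 262) (nat_lit 208))))) (XT.nd (nat_lit 234) (nat_lit 0) (nat_lit 0) (XT.nd (nat_lit 78) (nat_lit 0) (nat_lit 0) (XT.lf (nat_lit 0) (nat_lit 271554603265) (nat_lit 152) (nat_lit 795849205842) (nat_lit 0) (nat_lit 254411632677) (nat_lit 1) (nat_lit 5) (nat_lit 3) (nat_lit 4) (nat_lit 1) (nat_lit 4) (nat_lit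 311) (nat_lit 262) (nat_lit 207)) (XT.nd (nat_lit 78) (nat_lit 0) (nat_lit 0) (XT.lf (nat_lit 0) (nat_lit 334265508877) (nat_lit 152) (nat_lit 866728871148) (nat_lit 0) (nat_lit 317121511934) (nat_lit 1) (nat_lit 5) (nat_lit 3) (nat_lit 4) (nat_lit 1) (nat_lit 4) (nat_lit 312) (nat_lit 262) (nat_lit 206)) (XT.lf (nat_lit 0) (nat_lit 406380305989) (nat_lit 152) (nat_lit 948245907528) (nat_lit 0) (nat_lit 389235416564) (nat_lit 1) (nat_lit 5) (nat_lit 3) (nat_lit 4) (nat_lit 1) (nat_lit 4) (nat_lit 313) (nat_lit 262) (nat_lit 205)))) (XT.nd (nat_lit 156) (nat_lit 0) (nat_lit 0) (XT.nd (nat_lit 78) (nat_lit 0) (nat_lit 0) (XT.lf (nat_lit 0) (nat_lit 489309936286) (nat_lit 152) (nat_lit 1041995213520) (nat_lit 0) (nat_lit 472164270788) (nat_lit 1) (nat_lit 5) (nat_lit 3) (nat_lit 4) (nat_lit 1) (nat_lit 4) (nat_lit 314) (nat_lit 262) (nat_lit 204)) (XT.lf (nat_lit 0) (nat_lit 584676936011)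 (nat_lit 152) (nat_lit 1149811014677) (nat_lit 0) (nat_lit 567530595668) (nat_lit 1) (nat_lit 5) (nat_lit 3) (nat_lit 4) (nat_lit 1) (nat_lit 4) (nat_lit 315) (nat_lit 262) (nat_lit 203))) (XT.nd (nat_lit 78) (nat_lit 0) (nat_lit 0) (XT.lf (nat_lit 0) (nat_lit 694347181246) (nat_lit 152) (nat_lit 1273802750587) (nat_lit 0) (nat_lit 677200254082) (nat_lit 1) (nat_lit 5) (nat_lit 3) (nat_lit 4) (nat_lit 1) (nat_lit 4) (nat_lit 316) (nat_lit 262) (nat_lit 202)) (XT.lf (nat_lit 0) (nat_lit 820466394181) (nat_lit 152) (nat_lit 1416396346516) (nat_lit 0) (nat_lit 803318956737) (nat_lit 1) (nat_lit 5) (nat_lit 3) (nat_lit 4) (nat_lit 1) (nat_lit 4) (nat_lit 317) (nat_lit 262) (nat_lit 201))))))))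
noncomputable def xc27 : XT := (XT.nd (nat_lit 37440) (nat_lit 0) (nat_lit 152) (XT.nd (nat_lit 36426) (nat_lit 0) (nat_lit 1672) (XT.nd (nat_lit 468) (nat_lit 0) (nat_lit 0) (XT.nd (nat_lit 234) (nat_lit 0) (nat_lit 0) (XT.nd (nat_lit 78) (nat_lit 0) (nat_lit 0) (XT.lf (nat_lit 0) (nat_lit 965502124634) (nat_lit 152) (nat_lit 1580381677169) (nat_lit 0) (nat_lit 948354243469) (nat_lit 1) (nat_lit 5) (nat_lit 3) (nat_lit 4) (nat_lit 1) (nat_lit 4) (nat_lit 318) (nat_lit 262) (nat_lit 200)) (XT.nd (nat_lit 78) (nat_lit 0) (nat_lit 0) (XT.lf (nat_lit 0) (nat_lit 1132292028201) (nat_lit 152) (nat_lit 1768967151188) (nat_lit 0) (nat_lit 1115143761191) (nat_lit 1) (nat_lit 5) (nat_lit 3) (nat_lit 4) (nat_lit 1) (nat_lit 4) (nat_lit 319) (nat_lit 262) (nat_lit 199)) (XT.lf (nat_lit 0) (nat_lit 1324099385604) (nat_lit 152) (nat_lit 1985842484369) (nat_lit 0) (nat_lit 1306950783076) (nat_lit 1)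 (nat_lit 5) (nat_lit 3) (nat_lit 4) (nat_lit 1) (nat_lit 4) (nat_lit 320) (nat_lit 262) (nat_lit 198)))) (XT.nd (nat_lit 78) (nat_lit 0) (nat_lit 0) (XT.lf (nat_lit 0) (nat_lit 1544676949488) (nat_lit 152) (nat_lit 2235250889754) (nat_lit 0) (nat_lit 1527528055206) (nat_lit 1) (nat_lit 5) (nat_lit 3) (nat_lit 4) (nat_lit 1) (nat_lit 4) (nat_lit 321) (nat_lit 262) (nat_lit 197)) (XT.nd (nat_lit 78) (nat_lit 0) (nat_lit 0) (XT.lf (nat_lit 0) (nat_lit 1798340367841) (nat_lit 152) (nat_lit 2522072097012) (nat_lit 0) (nat_lit 1781191219860) (nat_lit 1) (nat_lit 5) (nat_lit 3) (nat_lit 4) (nat_lit 1) (nat_lit 4) (nat_lit 322) (nat_lit 262) (nat_lit 196)) (XT.lf (nat_lit 0) (nat_lit 2090052620588) (nat_lit 152) (nat_lit 2851917825415) (nat_lit 0) (nat_lit 2072903251999) (nat_lit 1) (nat_lit 5) (nat_lit 3) (nat_lit 4) (nat_lit 1) (nat_lit 4) (nat_lit 323) (nat_lit 262) (nat_lit 195))))) (XT.nd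 (nat_lit 234) (nat_lit 0) (nat_lit 0) (XT.nd (nat_lit 78) (nat_lit 0) (nat_lit 0) (XT.lf (nat_lit 0) (nat_lit 2425521121370) (nat_lit 152) (nat_lit 3231241578347) (nat_lit 0) (nat_lit 2408371560948) (nat_lit 1) (nat_lit 5) (nat_lit 3) (nat_lit 4) (nat_lit 1) (nat_lit 4) (nat_lit 324) (nat_lit 262) (nat_lit 194)) (XT.nd (nat_lit 78) (nat_lit 0) (nat_lit 0) (XT.lf (nat_lit 0) (nat_lit 2811309384332) (nat_lit 152) (nat_lit 3667464907494) (nat_lit 0) (nat_lit 2794159657098) (nat_lit 1) (nat_lit 5) (nat_lit 3) (nat_lit 4) (nat_lit 1) (nat_lit 4) (nat_lit 325) (nat_lit 262) (nat_lit 193)) (XT.lf (nat_lit 0) (nat_lit 3254965440706) (nat_lit 152) (nat_lit 4169122617122) (nat_lit 0) (nat_lit 3237815568420) (nat_lit 1) (nat_lit 5) (nat_lit 3) (nat_lit 4) (nat_lit 1) (nat_lit 4) (nat_lit 326) (nat_lit 262) (nat_lit 192)))) (XT.nd (nat_lit 156) (nat_lit 0) (nat_lit 0) (XT.nd (nat_lit 78) (nat_lit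 0) (nat_lit 0) (XT.lf (nat_lit 0) (nat_lit 3765169517683) (nat_lit 152) (nat_lit 4746029749376) (nat_lit 0) (nat_lit 3748019519263) (nat_lit 1) (nat_lit 5) (nat_lit 3) (nat_lit 4) (nat_lit 1) (nat_lit 4) (nat_lit 327) (nat_lit 262) (nat_lit 191)) (XT.lf (nat_lit 0) (nat_lit 4351903868942) (nat_lit 152) (nat_lit 5409473617714) (nat_lit 0) (nat_lit 4334753760841) (nat_lit 1) (nat_lit 5) (nat_lit 3) (nat_lit 4) (nat_lit 1) (nat_lit 4) (nat_lit 328) (nat_lit 262) (nat_lit 190))) (XT.nd (nat_lit 35490) (nat_lit 0) (nat_lit 4560) (XT.lf (nat_lit 0) (nat_lit 5026648079617) (nat_lit 152) (nat_lit 6172434645647) (nat_lit 0) (nat_lit 5009497876140) (nat_lit 1) (nat_lit 5) (nat_lit 3) (nat_lit 4) (nat_lit 1) (nat_lit 4) (nat_lit 329) (nat_lit 262) (nat_lit 189)) (XT.lf (nat_lit 0) (nat_lit 2324435856) (nat_lit 380) (nat_lit 664277132) (nat_lit 380) (nat_lit 664277132) (nat_lit 61) (nat_lit 3) (nat_lit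 66) (nat_lit 3) (nat_lit 66) (nat_lit 5) (nat_lit 263) (nat_lit 263) (nat_lit 254)))))) (XT.nd (nat_lit 468) (nat_lit 1444) (nat_lit 0) (XT.nd (nat_lit 234) (nat_lit 1064) (nat_lit 0) (XT.nd (nat_lit 78) (nat_lit 0) (nat_lit 76) (XT.lf (nat_lit 0) (nat_lit 83366775) (nat_lit 380) (nat_lit 2322040698) (nat_lit 456) (nat_lit 5222697033) (nat_lit 56) (nat_lit 5) (nat_lit 61) (nat_lit 3) (nat_lit 62) (nat_lit 5) (nat_lit 264) (nat_lit 263) (nat_lit 253)) (XT.nd (nat_lit 78) (nat_lit 0) (nat_lit 0) (XT.lf (nat_lit 0) (nat_lit 2810020745) (nat_lit 380) (nat_lit 3169532414) (nat_lit 456) (nat_lit 2036225888) (nat_lit 57) (nat_lit 5) (nat_lit 62) (nat_lit 5) (nat_lit 63) (nat_lit 5) (nat_lit 265) (nat_lit 263) (nat_lit 252)) (XT.lf (nat_lit 76) (nat_lit 4633553814) (nat_lit 0) (nat_lit 1138504599) (nat_lit 456) (nat_lit 2704607620) (nat_lit 58) (nat_lit 5) (nat_lit 57) (nat_lit 5) (nat_lit 63)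 (nat_lit 5) (nat_lit 266) (nat_lit 263) (nat_lit 251)))) (XT.nd (nat_lit 78) (nat_lit 760) (nat_lit 0) (XT.lf (nat_lit 0) (nat_lit 102233232) (nat_lit 456) (nat_lit 4405039235) (nat_lit 76) (nat_lit 4504898350) (nat_lit 52) (nat_lit 5) (nat_lit 58) (nat_lit 5) (nat_lit 53) (nat_lit 5) (nat_lit 267) (nat_lit 263) (nat_lit 250)) (XT.nd (nat_lit 78) (nat_lit 304) (nat_lit 0) (XT.lf (nat_lit 0) (nat_lit 3137070525) (nat_lit 532) (nat_lit 4905208949) (nat_lit 76) (nat_lit 1583553453) (nat_lit 46) (nat_lit 5) (nat_lit 53) (nat_lit 5) (nat_lit 47) (nat_lit 5) (nat_lit 268) (nat_lit 263) (nat_lit 249)) (XT.lf (nat_lit 0) (nat_lit 4978242663) (nat_lit 304) (nat_lit 1724471482) (nat_lit 380) (nat_lit 3623497345) (nat_lit 42) (nat_lit 5) (nat_lit 46) (nat_lit 5) (nat_lit 47) (nat_lit 5) (nat_lit 269) (nat_lit 263) (nat_lit 248))))) (XT.nd (nat_lit 234) (nat_lit 760) (nat_lit 0) (XT.nd (nat_lit 78)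 (nat_lit 456) (nat_lit 0) (XT.lf (nat_lit 0) (nat_lit 5352267112) (nat_lit 228) (nat_lit 5591319466) (nat_lit 304) (nat_lit 177450196) (nat_lit 39) (nat_lit 5) (nat_lit 42) (nat_lit 5) (nat_lit 43) (nat_lit 5) (nat_lit 270) (nat_lit 263) (nat_lit 247)) (XT.nd (nat_lit 78) (nat_lit 152) (nat_lit 0) (XT.lf (nat_lit 0) (nat_lit 3748095709) (nat_lit 304) (nat_lit 6251838765) (nat_lit 76) (nat_lit 2016211036) (nat_lit 35) (nat_lit 5) (nat_lit 39) (nat_lit 5) (nat_lit 36) (nat_lit 5) (nat_lit 271) (nat_lit 263) (nat_lit 246)) (XT.lf (nat_lit 0) (nat_lit 6211011097) (nat_lit 152) (nat_lit 2295894414) (nat_lit 228) (nat_lit 4518285640) (nat_lit 33) (nat_lit 5) (nat_lit 35) (nat_lit 5) (nat_lit 36) (nat_lit 5) (nat_lit 272) (nat_lit 263) (nat_lit 245)))) (XT.nd (nat_lit 156) (nat_lit 304) (nat_lit 0) (XT.nd (nat_lit 78) (nat_lit 152) (nat_lit 0) (XT.lf (nat_lit 0) (nat_lit 115977000) (nat_lit 304)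 (nat_lit 7515232942) (nat_lit 76) (nat_lit 6530191858) (nat_lit 29) (nat_lit 5) (nat_lit 33) (nat_lit 5) (nat_lit 30) (nat_lit 5) (nat_lit 273) (nat_lit 263) (nat_lit 244)) (XT.lf (nat_lit 0) (nat_lit 5472488783) (nat_lit 228) (nat_lit 8492460378) (nat_lit 76) (nat_lit 1470438995) (nat_lit 27) (nat_lit 5) (nat_lit 30) (nat_lit 5) (nat_lit 28) (nat_lit 5) (nat_lit 274) (nat_lit 263) (nat_lit 243))) (XT.nd (nat_lit 78) (nat_lit 152) (nat_lit 0) (XT.lf (nat_lit 0) (nat_lit 7028129565) (nat_lit 152) (nat_lit 5040517912) (nat_lit 228) (nat_lit 4797195874) (nat_lit 25) (nat_lit 5) (nat_lit 27) (nat_lit 5) (nat_lit 28) (nat_lit 5) (nat_lit 275) (nat_lit 263) (nat_lit 242)) (XT.lf (nat_lit 0) (nat_lit 1486959727) (nat_lit 152) (nat_lit 11643812446) (nat_lit 76) (nat_lit 5346044397) (nat_lit 23) (nat_lit 5) (nat_lit 25) (nat_lit 5) (nat_lit 24) (nat_lit 5) (nat_lit 276) (nat_lit 263) (nat_lit 241)))))))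 (XT.nd (nat_lit 1014) (nat_lit 304) (nat_lit 0) (XT.nd (nat_lit 468) (nat_lit 532) (nat_lit 0) (XT.nd (nat_lit 234) (nat_lit 228) (nat_lit 0) (XT.nd (nat_lit 78) (nat_lit 304) (nat_lit 0) (XT.lf (nat_lit 0) (nat_lit 6093122859) (nat_lit 152) (nat_lit 2781729143) (nat_lit 228) (nat_lit 11409187885) (nat_lit 21) (nat_lit 5) (nat_lit 23) (nat_lit 5) (nat_lit 24) (nat_lit 5) (nat_lit 277) (nat_lit 263) (nat_lit 240)) (XT.nd (nat_lit 78) (nat_lit 228) (nat_lit 0) (XT.lf (nat_lit 0) (nat_lit 4649730041) (nat_lit 76) (nat_lit 13269219678) (nat_lit 152) (nat_lit 4399716280) (nat_lit 20) (nat_lit 5) (nat_lit 21) (nat_lit 5) (nat_lit 22) (nat_lit 4) (nat_lit 278) (nat_lit 263) (nat_lit 239)) (XT.lf (nat_lit 0) (nat_lit 2285462099) (nat_lit 152) (nat_lit 1626544972) (nat_lit 228) (nat_lit 20704846272) (nat_lit 17) (nat_lit 5) (nat_lit 19) (nat_lit 5) (nat_lit 20) (nat_lit 5) (nat_lit 279) (nat_lit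 263) (nat_lit 238)))) (XT.nd (nat_lit 78) (nat_lit 228) (nat_lit 0) (XT.lf (nat_lit 0) (nat_lit 13915819513) (nat_lit 228) (nat_lit 1526991251) (nat_lit 76) (nat_lit 11751461065) (nat_lit 17) (nat_lit 5) (nat_lit 20) (nat_lit 5) (nat_lit 18) (nat_lit 4) (nat_lit 280) (nat_lit 263) (nat_lit 237)) (XT.nd (nat_lit 78) (nat_lit 152) (nat_lit 0) (XT.lf (nat_lit 0) (nat_lit 23353093085) (nat_lit 76) (nat_lit 2576151045) (nat_lit 152) (nat_lit 4188433769) (nat_lit 16) (nat_lit 5) (nat_lit 17) (nat_lit 5) (nat_lit 18) (nat_lit 4) (nat_lit 281) (nat_lit 263) (nat_lit 236)) (XT.lf (nat_lit 0) (nat_lit 6678289590) (nat_lit 152) (nat_lit 14510553611) (nat_lit 76) (nat_lit 12220648005) (nat_lit 14) (nat_lit 5) (nat_lit 16) (nat_lit 5) (nat_lit 15) (nat_lit 4) (nat_lit 282) (nat_lit 263) (nat_lit 235))))) (XT.nd (nat_lit 234) (nat_lit 304) (nat_lit 0) (XT.nd (nat_lit 78) (nat_lit 152) (nat_lit 0) (XT.lf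 (nat_lit 0) (nat_lit 11894561694) (nat_lit 76) (nat_lit 7514793693) (nat_lit 152) (nat_lit 17738499645) (nat_lit 13) (nat_lit 5) (nat_lit 14) (nat_lit 5) (nat_lit 15) (nat_lit 4) (nat_lit 283) (nat_lit 263) (nat_lit 234)) (XT.nd (nat_lit 78) (nat_lit 76) (nat_lit 0) (XT.lf (nat_lit 0) (nat_lit 1447447411) (nat_lit 76) (nat_lit 33190425189) (nat_lit 76) (nat_lit 6762137192) (nat_lit 12) (nat_lit 4) (nat_lit 13) (nat_lit 5) (nat_lit 13) (nat_lit 4) (nat_lit 284) (nat_lit 263) (nat_lit 233)) (XT.lf (nat_lit 0) (nat_lit 6456887872) (nat_lit 152) (nat_lit 13050822353) (nat_lit 76) (nat_lit 26699898985) (nat_lit 11) (nat_lit 5) (nat_lit 13) (nat_lit 5) (nat_lit 12) (nat_lit 4) (nat_lit 285) (nat_lit 263) (nat_lit 232)))) (XT.nd (nat_lit 156) (nat_lit 228) (nat_lit 0) (XT.nd (nat_lit 78) (nat_lit 0) (nat_lit 0) (XT.lf (nat_lit 0) (nat_lit 18508203373) (nat_lit 76) (nat_lit 3143392156) (nat_lit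 152) (nat_lit 30039285779) (nat_lit 10) (nat_lit 5) (nat_lit 11) (nat_lit 5) (nat_lit 12) (nat_lit 4) (nat_lit 286) (nat_lit 263) (nat_lit 231)) (XT.lf (nat_lit 0) (nat_lit 39833549930) (nat_lit 152) (nat_lit 2872091095) (nat_lit 0) (nat_lit 15234396284) (nat_lit 10) (nat_lit 5) (nat_lit 12) (nat_lit 4) (nat_lit 10) (nat_lit 4) (nat_lit 287) (nat_lit 263) (nat_lit 230))) (XT.nd (nat_lit 78) (nat_lit 152) (nat_lit 0) (XT.lf (nat_lit 0) (nat_lit 33476810242) (nat_lit 76) (nat_lit 28106924591) (nat_lit 76) (nat_lit 3475588490) (nat_lit 9) (nat_lit 4) (nat_lit 10) (nat_lit 5) (nat_lit 10) (nat_lit 4) (nat_lit 288) (nat_lit 263) (nat_lit 229)) (XT.lf (nat_lit 0) (nat_lit 1893228736) (nat_lit 76) (nat_lit 10872420100) (nat_lit 152) (nat_lit 60448511767) (nat_lit 7) (nat_lit 5) (nat_lit 8) (nat_lit 5) (nat_lit 9) (nat_lit 4) (nat_lit 289) (nat_lit 263) (nat_lit 228)))))) (XT.nd (nat_lit 546)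 (nat_lit 76) (nat_lit 0) (XT.nd (nat_lit 234) (nat_lit 152) (nat_lit 0) (XT.nd (nat_lit 78) (nat_lit 76) (nat_lit 0) (XT.lf (nat_lit 0) (nat_lit 32357187035) (nat_lit 152) (nat_lit 40636293299) (nat_lit 0) (nat_lit 9501950550) (nat_lit 7) (nat_lit 5) (nat_lit 9) (nat_lit 4) (nat_lit 7) (nat_lit 4) (nat_lit 290) (nat_lit 263) (nat_lit 227)) (XT.nd (nat_lit 78) (nat_lit 76) (nat_lit 0) (XT.lf (nat_lit 0) (nat_lit 55149466440) (nat_lit 152) (nat_lit 5723846753) (nat_lit 0) (nat_lit 32274636912) (nat_lit 7) (nat_lit 5) (nat_lit 9) (nat_lit 4) (nat_lit 7) (nat_lit 4) (nat_lit 291) (nat_lit 263) (nat_lit 226)) (XT.lf (nat_lit 0) (nat_lit 36170346566) (nat_lit 76) (nat_lit 46026492127) (nat_lit 76) (nat_lit 23134625170) (nat_lit 6) (nat_lit 4) (nat_lit 7) (nat_lit 5) (nat_lit 7) (nat_lit 4) (nat_lit 292) (nat_lit 263) (nat_lit 225)))) (XT.nd (nat_lit 156) (nat_lit 0) (nat_lit 0) (XT.nd (nat_lit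 78) (nat_lit 152) (nat_lit 0) (XT.lf (nat_lit 0) (nat_lit 84636240454) (nat_lit 76) (nat_lit 28801041824) (nat_lit 76) (nat_lit 5894359712) (nat_lit 6) (nat_lit 4) (nat_lit 7) (nat_lit 5) (nat_lit 7) (nat_lit 4) (nat_lit 293) (nat_lit 263) (nat_lit 224)) (XT.lf (nat_lit 0) (nat_lit 4792025517) (nat_lit 76) (nat_lit 8530854470) (nat_lit 152) (nat_lit 122075144131) (nat_lit 4) (nat_lit 5) (nat_lit 5) (nat_lit 5) (nat_lit 6) (nat_lit 4) (nat_lit 294) (nat_lit 263) (nat_lit 223))) (XT.nd (nat_lit 78) (nat_lit 0) (nat_lit 0) (XT.lf (nat_lit 0) (nat_lit 36449894962) (nat_lit 152) (nat_lit 102084431599) (nat_lit 0) (nat_lit 15217703071) (nat_lit 4) (nat_lit 5) (nat_lit 6) (nat_lit 4) (nat_lit 4) (nat_lit 4) (nat_lit 295) (nat_lit 263) (nat_lit 222)) (XT.lf (nat_lit 0) (nat_lit 63259700931) (nat_lit 152) (nat_lit 69563855392) (nat_lit 0) (nat_lit 42018489405) (nat_lit 4) (nat_lit 5) (nat_lit 6)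 (nat_lit 4) (nat_lit 4) (nat_lit 4) (nat_lit 296) (nat_lit 263) (nat_lit 221))))) (XT.nd (nat_lit 234) (nat_lit 0) (nat_lit 0) (XT.nd (nat_lit 78) (nat_lit 76) (nat_lit 0) (XT.lf (nat_lit 0) (nat_lit 94071670321) (nat_lit 152) (nat_lit 32202830582) (nat_lit 0) (nat_lit 72822615635) (nat_lit 4) (nat_lit 5) (nat_lit 6) (nat_lit 4) (nat_lit 4) (nat_lit 4) (nat_lit 297) (nat_lit 263) (nat_lit 220)) (XT.nd (nat_lit 78) (nat_lit 0) (nat_lit 0) (XT.lf (nat_lit 0) (nat_lit 11294622145) (nat_lit 76) (nat_lit 118465659801) (nat_lit 76) (nat_lit 97209784975) (nat_lit 3) (nat_lit 4) (nat_lit 4) (nat_lit 5) (nat_lit 4) (nat_lit 4) (nat_lit 298) (nat_lit 263) (nat_lit 219)) (XT.lf (nat_lit 0) (nat_lit 63236840135) (nat_lit 76) (nat_lit 108487576223) (nat_lit 76) (nat_lit 87225770842) (nat_lit 3) (nat_lit 4) (nat_lit 4) (nat_lit 5) (nat_lit 4) (nat_lit 4) (nat_lit 299) (nat_lit 263) (nat_lit 218))))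 (XT.nd (nat_lit 156) (nat_lit 0) (nat_lit 0) (XT.nd (nat_lit 78) (nat_lit 0) (nat_lit 0) (XT.lf (nat_lit 0) (nat_lit 122944340181) (nat_lit 76) (nat_lit 97025509255) (nat_lit 76) (nat_lit 75758546868) (nat_lit 3) (nat_lit 4) (nat_lit 4) (nat_lit 5) (nat_lit 4) (nat_lit 4) (nat_lit 300) (nat_lit 263) (nat_lit 217)) (XT.lf (nat_lit 0) (nat_lit 191585312502) (nat_lit 76) (nat_lit 83855201062) (nat_lit 76) (nat_lit 62583754323) (nat_lit 3) (nat_lit 4) (nat_lit 4) (nat_lit 5) (nat_lit 4) (nat_lit 4) (nat_lit 301) (nat_lit 263) (nat_lit 216))) (XT.nd (nat_lit 78) (nat_lit 0) (nat_lit 0) (XT.lf (nat_lit 0) (nat_lit 270502732644) (nat_lit 76) (nat_lit 68718971704) (nat_lit 76) (nat_lit 47443625528) (nat_lit 3) (nat_lit 4) (nat_lit 4) (nat_lit 5) (nat_lit 4) (nat_lit 4) (nat_lit 302) (nat_lit 263) (nat_lit 215)) (XT.lf (nat_lit 0) (nat_lit 361240637088) (nat_lit 76) (nat_lit 51320677561) (nat_lit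 76) (nat_lit 30041940570) (nat_lit 3) (nat_lit 4) (nat_lit 4) (nat_lit 5) (nat_lit 4) (nat_lit 4) (nat_lit 303) (nat_lit 263) (nat_lit 214))))))))
noncomputable def xc28 : XT := (XT.nd (nat_lit 37518) (nat_lit 0) (nat_lit 608) (XT.nd (nat_lit 1014) (nat_lit 0) (nat_lit 0) (XT.nd (nat_lit 468) (nat_lit 0) (nat_lit 0) (XT.nd (nat_lit 234) (nat_lit 0) (nat_lit 0) (XT.nd (nat_lit 78) (nat_lit 152) (nat_lit 0) (XT.lf (nat_lit 0) (nat_lit 465574332660) (nat_lit 76) (nat_lit 31319917226) (nat_lit 76) (nat_lit 10038231701) (nat_lit 3) (nat_lit 4) (nat_lit 4) (nat_lit 5) (nat_lit 4) (nat_lit 4) (nat_lit 304) (nat_lit 263) (nat_lit 213)) (XT.nd (nat_lit 78) (nat_lit 0) (nat_lit 0) (XT.lf (nat_lit 0) (nat_lit 4549425895) (nat_lit 76) (nat_lit 7870610337) (nat_lit 152) (nat_lit 568457902037) (nat_lit 1) (nat_lit 5) (nat_lit 2) (nat_lit 5) (nat_lit 3) (nat_lit 4) (nat_lit 305) (nat_lit 263) (nat_lit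 212)) (XT.lf (nat_lit 0) (nat_lit 39357855340) (nat_lit 152) (nat_lit 606751933993) (nat_lit 0) (nat_lit 19648152577) (nat_lit 1) (nat_lit 5) (nat_lit 3) (nat_lit 4) (nat_lit 1) (nat_lit 4) (nat_lit 306) (nat_lit 263) (nat_lit 211)))) (XT.nd (nat_lit 78) (nat_lit 0) (nat_lit 0) (XT.lf (nat_lit 0) (nat_lit 70548509089) (nat_lit 152) (nat_lit 641967454606) (nat_lit 0) (nat_lit 50837011225) (nat_lit 1) (nat_lit 5) (nat_lit 3) (nat_lit 4) (nat_lit 1) (nat_lit 4) (nat_lit 307) (nat_lit 263) (nat_lit 210)) (XT.nd (nat_lit 78) (nat_lit 0) (nat_lit 0) (XT.lf (nat_lit 0) (nat_lit 106412961031) (nat_lit 152) (nat_lit 682474785161) (nat_lit 0) (nat_lit 86699902209) (nat_lit 1) (nat_lit 5) (nat_lit 3) (nat_lit 4) (nat_lit 1) (nat_lit 4) (nat_lit 308) (nat_lit 263) (nat_lit 209)) (XT.lf (nat_lit 0) (nat_lit 147652906966) (nat_lit 152) (nat_lit 729066460388) (nat_lit 0) (nat_lit 127938490789) (nat_lit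 1) (nat_lit 5) (nat_lit 3) (nat_lit 4) (nat_lit 1) (nat_lit 4) (nat_lit 309) (nat_lit 263) (nat_lit 208))))) (XT.nd (nat_lit 234) (nat_lit 0) (nat_lit 0) (XT.nd (nat_lit 78) (nat_lit 0) (nat_lit 0) (XT.lf (nat_lit 0) (nat_lit 195075215400) (nat_lit 152) (nat_lit 782654056539) (nat_lit 0) (nat_lit 175359618916) (nat_lit 1) (nat_lit 5) (nat_lit 3) (nat_lit 4) (nat_lit 1) (nat_lit 4) (nat_lit 310) (nat_lit 263) (nat_lit 207)) (XT.nd (nat_lit 78) (nat_lit 0) (nat_lit 0) (XT.lf (nat_lit 0) (nat_lit 249607714108) (nat_lit 152) (nat_lit 844286026584) (nat_lit 0) (nat_lit 229891091269) (nat_lit 1) (nat_lit 5) (nat_lit 3) (nat_lit 4) (nat_lit 1) (nat_lit 4) (nat_lit 311) (nat_lit 263) (nat_lit 206)) (XT.lf (nat_lit 0) (nat_lit 312317343282) (nat_lit 152) (nat_lit 915168213414) (nat_lit 0) (nat_lit 292599827960) (nat_lit 1) (nat_lit 5) (nat_lit 3) (nat_lit 4) (nat_lit 1) (nat_lit 4) (nat_lit 312)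 (nat_lit 263) (nat_lit 205)))) (XT.nd (nat_lit 156) (nat_lit 0) (nat_lit 0) (XT.nd (nat_lit 78) (nat_lit 0) (nat_lit 0) (XT.lf (nat_lit 0) (nat_lit 384431030449) (nat_lit 152) (nat_lit 996687442425) (nat_lit 0) (nat_lit 364712739055) (nat_lit 1) (nat_lit 5) (nat_lit 3) (nat_lit 4) (nat_lit 1) (nat_lit 4) (nat_lit 313) (nat_lit 263) (nat_lit 204)) (XT.lf (nat_lit 0) (nat_lit 467359695575) (nat_lit 152) (nat_lit 1090438655052) (nat_lit 0) (nat_lit 447640729336) (nat_lit 1) (nat_lit 5) (nat_lit 3) (nat_lit 4) (nat_lit 1) (nat_lit 4) (nat_lit 314) (nat_lit 263) (nat_lit 203))) (XT.nd (nat_lit 78) (nat_lit 0) (nat_lit 0) (XT.lf (nat_lit 0) (nat_lit 562725856022) (nat_lit 152) (nat_lit 1198256114153) (nat_lit 0) (nat_lit 543006302961) (nat_lit 1) (nat_lit 5) (nat_lit 3) (nat_lit 4) (nat_lit 1) (nat_lit 4) (nat_lit 315) (nat_lit 263) (nat_lit 202)) (XT.lf (nat_lit 0) (nat_lit 672395371450) (nat_lit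 152) (nat_lit 1322249291752) (nat_lit 0) (nat_lit 652675308110) (nat_lit 1) (nat_lit 5) (nat_lit 3) (nat_lit 4) (nat_lit 1) (nat_lit 4) (nat_lit 316) (nat_lit 263) (nat_lit 201)))))) (XT.nd (nat_lit 468) (nat_lit 0) (nat_lit 0) (XT.nd (nat_lit 234) (nat_lit 0) (nat_lit 0) (XT.nd (nat_lit 78) (nat_lit 0) (nat_lit 0) (XT.lf (nat_lit 0) (nat_lit 798513949770) (nat_lit 152) (nat_lit 1464844141326) (nat_lit 0) (nat_lit 778793442708) (nat_lit 1) (nat_lit 5) (nat_lit 3) (nat_lit 4) (nat_lit 1) (nat_lit 4) (nat_lit 317) (nat_lit 263) (nat_lit 200)) (XT.nd (nat_lit 78) (nat_lit 0) (nat_lit 0) (XT.lf (nat_lit 0) (nat_lit 943549128384) (nat_lit 152) (nat_lit 1628830562103) (nat_lit 0) (nat_lit 923828235477) (nat_lit 1) (nat_lit 5) (nat_lit 3) (nat_lit 4) (nat_lit 1) (nat_lit 4) (nat_lit 318) (nat_lit 263) (nat_lit 199)) (XT.lf (nat_lit 0) (nat_lit 1110338552091) (nat_lit 152) (nat_lit 1817416984057)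 (nat_lit 0) (nat_lit 1090617323667) (nat_lit 1) (nat_lit 5) (nat_lit 3) (nat_lit 4) (nat_lit 1) (nat_lit 4) (nat_lit 319) (nat_lit 263) (nat_lit 198)))) (XT.nd (nat_lit 78) (nat_lit 0) (nat_lit 0) (XT.lf (nat_lit 0) (nat_lit 1302145492224) (nat_lit 152) (nat_lit 2034293141529) (nat_lit 0) (nat_lit 1282423972046) (nat_lit 1) (nat_lit 5) (nat_lit 3) (nat_lit 4) (nat_lit 1) (nat_lit 4) (nat_lit 320) (nat_lit 263) (nat_lit 197)) (XT.nd (nat_lit 78) (nat_lit 0) (nat_lit 0) (XT.lf (nat_lit 0) (nat_lit 1522722693265) (nat_lit 152) (nat_lit 2283702263688) (nat_lit 0) (nat_lit 1503000919387) (nat_lit 1) (nat_lit 5) (nat_lit 3) (nat_lit 4) (nat_lit 1) (nat_lit 4) (nat_lit 321) (nat_lit 263) (nat_lit 196)) (XT.lf (nat_lit 0) (nat_lit 1776385796102) (nat_lit 152) (nat_lit 2570524094229) (nat_lit 0) (nat_lit 1756663801616) (nat_lit 1) (nat_lit 5) (nat_lit 3) (nat_lit 4) (nat_lit 1) (nat_lit 4) (nat_lit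 322) (nat_lit 263) (nat_lit 195))))) (XT.nd (nat_lit 234) (nat_lit 0) (nat_lit 0) (XT.nd (nat_lit 78) (nat_lit 0) (nat_lit 0) (XT.lf (nat_lit 0) (nat_lit 2068097774487) (nat_lit 152) (nat_lit 2900370364617) (nat_lit 0) (nat_lit 2048375588169) (nat_lit 1) (nat_lit 5) (nat_lit 3) (nat_lit 4) (nat_lit 1) (nat_lit 4) (nat_lit 323) (nat_lit 263) (nat_lit 194)) (XT.nd (nat_lit 78) (nat_lit 0) (nat_lit 0) (XT.lf (nat_lit 0) (nat_lit 2403566036694) (nat_lit 152) (nat_lit 3279694588840) (nat_lit 0) (nat_lit 2383843683564) (nat_lit 1) (nat_lit 5) (nat_lit 3) (nat_lit 4) (nat_lit 1) (nat_lit 4) (nat_lit 324) (nat_lit 263) (nat_lit 193)) (XT.lf (nat_lit 0) (nat_lit 2789354092199) (nat_lit 152) (nat_lit 3715918327805) (nat_lit 0) (nat_lit 2769631594016) (nat_lit 1) (nat_lit 5) (nat_lit 3) (nat_lit 4) (nat_lit 1) (nat_lit 4) (nat_lit 325) (nat_lit 263) (nat_lit 192)))) (XT.nd (nat_lit 156) (nat_lit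 0) (nat_lit 0) (XT.nd (nat_lit 78) (nat_lit 0) (nat_lit 0) (XT.lf (nat_lit 0) (nat_lit 3233009968177) (nat_lit 152) (nat_lit 4217576393797) (nat_lit 0) (nat_lit 3213287343860) (nat_lit 1) (nat_lit 5) (nat_lit 3) (nat_lit 4) (nat_lit 1) (nat_lit 4) (nat_lit 326) (nat_lit 263) (nat_lit 191)) (XT.lf (nat_lit 0) (nat_lit 3743213888286) (nat_lit 152) (nat_lit 4794483835933) (nat_lit 0) (nat_lit 3723491154289) (nat_lit 1) (nat_lit 5) (nat_lit 3) (nat_lit 4) (nat_lit 1) (nat_lit 4) (nat_lit 327) (nat_lit 263) (nat_lit 190))) (XT.nd (nat_lit 78) (nat_lit 0) (nat_lit 0) (XT.lf (nat_lit 0) (nat_lit 4329948103139) (nat_lit 152) (nat_lit 5457927973733) (nat_lit 0) (nat_lit 4310225273766) (nat_lit 1) (nat_lit 5) (nat_lit 3) (nat_lit 4) (nat_lit 1) (nat_lit 4) (nat_lit 328) (nat_lit 263) (nat_lit 189)) (XT.lf (nat_lit 0) (nat_lit 5004692195199) (nat_lit 152) (nat_lit 6220889235981) (nat_lit 0) (nat_lit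 4984969282892) (nat_lit 1) (nat_lit 5) (nat_lit 3) (nat_lit 4) (nat_lit 1) (nat_lit 4) (nat_lit 329) (nat_lit 263) (nat_lit 188))))))) (XT.nd (nat_lit 1014) (nat_lit 1216) (nat_lit 0) (XT.nd (nat_lit 468) (nat_lit 1596) (nat_lit 0) (XT.nd (nat_lit 234) (nat_lit 760) (nat_lit 0) (XT.nd (nat_lit 78) (nat_lit 0) (nat_lit 0) (XT.lf (nat_lit 0) (nat_lit 566403380) (nat_lit 0) (nat_lit 566403380) (nat_lit 380) (nat_lit 2857077325) (nat_lit 56) (nat_lit 5) (nat_lit 56) (nat_lit 3) (nat_lit 61) (nat_lit 3) (nat_lit 264) (nat_lit 264) (nat_lit 252)) (XT.nd (nat_lit 78) (nat_lit 0) (nat_lit 76) (XT.lf (nat_lit 76) (nat_lit 44076472) (nat_lit 0) (nat_lit 4557960713) (nat_lit 456) (nat_lit 3797169120) (nat_lit 57) (nat_lit 5) (nat_lit 56) (nat_lit 5) (nat_lit 62) (nat_lit 5) (nat_lit 265) (nat_lit 264) (nat_lit 251)) (XT.lf (nat_lit 0) (nat_lit 7172770475) (nat_lit 380) (nat_lit 797226032) (nat_lit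 456) (nat_lit 921875194) (nat_lit 57) (nat_lit 5) (nat_lit 62) (nat_lit 5) (nat_lit 63) (nat_lit 5) (nat_lit 266) (nat_lit 264) (nat_lit 250)))) (XT.nd (nat_lit 78) (nat_lit 380) (nat_lit 0) (XT.lf (nat_lit 0) (nat_lit 634864299) (nat_lit 456) (nat_lit 1540230038) (nat_lit 532) (nat_lit 7283053826) (nat_lit 51) (nat_lit 5) (nat_lit 57) (nat_lit 5) (nat_lit 58) (nat_lit 5) (nat_lit 267) (nat_lit 264) (nat_lit 249)) (XT.nd (nat_lit 78) (nat_lit 456) (nat_lit 0) (XT.lf (nat_lit 0) (nat_lit 3285862791) (nat_lit 456) (nat_lit 2221493804) (nat_lit 76) (nat_lit 4595492688) (nat_lit 52) (nat_lit 5) (nat_lit 58) (nat_lit 5) (nat_lit 53) (nat_lit 5) (nat_lit 268) (nat_lit 264) (nat_lit 248)) (XT.lf (nat_lit 0) (nat_lit 6420135873) (nat_lit 532) (nat_lit 2800201884) (nat_lit 76) (nat_lit 1617688344) (nat_lit 46) (nat_lit 5) (nat_lit 53) (nat_lit 5) (nat_lit 47) (nat_lit 5) (nat_lit 269) (nat_lit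 264) (nat_lit 247))))) (XT.nd (nat_lit 234) (nat_lit 760) (nat_lit 0) (XT.nd (nat_lit 78) (nat_lit 532) (nat_lit 0) (XT.lf (nat_lit 0) (nat_lit 8325308881) (nat_lit 304) (nat_lit 1891006702) (nat_lit 380) (nat_lit 1452362186) (nat_lit 42) (nat_lit 5) (nat_lit 46) (nat_lit 5) (nat_lit 47) (nat_lit 5) (nat_lit 270) (nat_lit 264) (nat_lit 246)) (XT.nd (nat_lit 78) (nat_lit 228) (nat_lit 0) (XT.lf (nat_lit 0) (nat_lit 2113950236) (nat_lit 304) (nat_lit 3935788529) (nat_lit 76) (nat_lit 6550543520) (nat_lit 38) (nat_lit 5) (nat_lit 42) (nat_lit 5) (nat_lit 39) (nat_lit 5) (nat_lit 271) (nat_lit 264) (nat_lit 245)) (XT.lf (nat_lit 0) (nat_lit 6385997894) (nat_lit 304) (nat_lit 4564457063) (nat_lit 76) (nat_lit 2697989651) (nat_lit 35) (nat_lit 5) (nat_lit 39) (nat_lit 5) (nat_lit 36) (nat_lit 5) (nat_lit 272) (nat_lit 264) (nat_lit 244)))) (XT.nd (nat_lit 156) (nat_lit 304) (nat_lit 0) (XT.nd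 (nat_lit 78) (nat_lit 304) (nat_lit 0) (XT.lf (nat_lit 0) (nat_lit 9545613770) (nat_lit 152) (nat_lit 2100064535) (nat_lit 228) (nat_lit 3180735428) (nat_lit 33) (nat_lit 5) (nat_lit 35) (nat_lit 5) (nat_lit 36) (nat_lit 5) (nat_lit 273) (nat_lit 264) (nat_lit 243)) (XT.lf (nat_lit 0) (nat_lit 1867155208) (nat_lit 304) (nat_lit 6221068369) (nat_lit 76) (nat_lit 8055838028) (nat_lit 29) (nat_lit 5) (nat_lit 33) (nat_lit 5) (nat_lit 30) (nat_lit 5) (nat_lit 274) (nat_lit 264) (nat_lit 242))) (XT.nd (nat_lit 78) (nat_lit 152) (nat_lit 0) (XT.lf (nat_lit 0) (nat_lit 7870070691) (nat_lit 228) (nat_lit 7438257505) (nat_lit 76) (nat_lit 2313755034) (nat_lit 27) (nat_lit 5) (nat_lit 30) (nat_lit 5) (nat_lit 28) (nat_lit 5) (nat_lit 275) (nat_lit 264) (nat_lit 241)) (XT.lf (nat_lit 0) (nat_lit 10213361236) (nat_lit 152) (nat_lit 5087885205) (nat_lit 228) (nat_lit 3978535818) (nat_lit 25) (nat_lit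 5) (nat_lit 27) (nat_lit 5) (nat_lit 28) (nat_lit 5) (nat_lit 276) (nat_lit 264) (nat_lit 240)))))) (XT.nd (nat_lit 468) (nat_lit 532) (nat_lit 0) (XT.nd (nat_lit 234) (nat_lit 304) (nat_lit 0) (XT.nd (nat_lit 78) (nat_lit 228) (nat_lit 0) (XT.lf (nat_lit 0) (nat_lit 3046262213) (nat_lit 152) (nat_lit 11277130505) (nat_lit 76) (nat_lit 6816311802) (nat_lit 23) (nat_lit 5) (nat_lit 25) (nat_lit 5) (nat_lit 24) (nat_lit 5) (nat_lit 277) (nat_lit 264) (nat_lit 239)) (XT.nd (nat_lit 78) (nat_lit 76) (nat_lit 0) (XT.lf (nat_lit 0) (nat_lit 8941468687) (nat_lit 152) (nat_lit 2473096874) (nat_lit 228) (nat_lit 11813893749) (nat_lit 21) (nat_lit 5) (nat_lit 23) (nat_lit 5) (nat_lit 24) (nat_lit 5) (nat_lit 278) (nat_lit 264) (nat_lit 238)) (XT.lf (nat_lit 0) (nat_lit 7191727087) (nat_lit 76) (nat_lit 14525464063) (nat_lit 152) (nat_lit 3859131789) (nat_lit 20) (nat_lit 5) (nat_lit 21) (nat_lit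 5) (nat_lit 22) (nat_lit 4) (nat_lit 279) (nat_lit 264) (nat_lit 237)))) (XT.nd (nat_lit 78) (nat_lit 76) (nat_lit 0) (XT.lf (nat_lit 0) (nat_lit 4372771745) (nat_lit 152) (nat_lit 1159718346) (nat_lit 228) (nat_lit 22693141107) (nat_lit 17) (nat_lit 5) (nat_lit 19) (nat_lit 5) (nat_lit 20) (nat_lit 5) (nat_lit 280) (nat_lit 264) (nat_lit 236)) (XT.nd (nat_lit 78) (nat_lit 76) (nat_lit 0) (XT.lf (nat_lit 0) (nat_lit 16916911498) (nat_lit 228) (nat_lit 181130792) (nat_lit 76) (nat_lit 14101354885) (nat_lit 17) (nat_lit 5) (nat_lit 20) (nat_lit 5) (nat_lit 18) (nat_lit 4) (nat_lit 281) (nat_lit 264) (nat_lit 235)) (XT.lf (nat_lit 0) (nat_lit 28297657979) (nat_lit 76) (nat_lit 2350181619) (nat_lit 152) (nat_lit 3920355100) (nat_lit 16) (nat_lit 5) (nat_lit 17) (nat_lit 5) (nat_lit 18) (nat_lit 4) (nat_lit 282) (nat_lit 264) (nat_lit 234))))) (XT.nd (nat_lit 234) (nat_lit 228) (nat_lit 0)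 (XT.nd (nat_lit 78) (nat_lit 152) (nat_lit 0) (XT.lf (nat_lit 0) (nat_lit 8467355618) (nat_lit 152) (nat_lit 15277487529) (nat_lit 76) (nat_lit 14612443278) (nat_lit 14) (nat_lit 5) (nat_lit 16) (nat_lit 5) (nat_lit 15) (nat_lit 4) (nat_lit 283) (nat_lit 264) (nat_lit 233)) (XT.nd (nat_lit 78) (nat_lit 76) (nat_lit 0) (XT.lf (nat_lit 0) (nat_lit 14969075295) (nat_lit 76) (nat_lit 8067344191) (nat_lit 152) (nat_lit 19625802107) (nat_lit 13) (nat_lit 5) (nat_lit 14) (nat_lit 5) (nat_lit 15) (nat_lit 4) (nat_lit 284) (nat_lit 264) (nat_lit 232)) (XT.lf (nat_lit 0) (nat_lit 2885941207) (nat_lit 76) (nat_lit 37611318233) (nat_lit 76) (nat_lit 7059169406) (nat_lit 12) (nat_lit 4) (nat_lit 13) (nat_lit 5) (nat_lit 13) (nat_lit 4) (nat_lit 285) (nat_lit 264) (nat_lit 231)))) (XT.nd (nat_lit 156) (nat_lit 76) (nat_lit 0) (XT.nd (nat_lit 78) (nat_lit 76) (nat_lit 0) (XT.lf (nat_lit 0) (nat_lit 8017948615)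 (nat_lit 152) (nat_lit 13914786317) (nat_lit 76) (nat_lit 31158222199) (nat_lit 11) (nat_lit 5) (nat_lit 13) (nat_lit 5) (nat_lit 12) (nat_lit 4) (nat_lit 286) (nat_lit 264) (nat_lit 230)) (XT.lf (nat_lit 0) (nat_lit 22285520448) (nat_lit 76) (nat_lit 3153131925) (nat_lit 152) (nat_lit 33962375508) (nat_lit 10) (nat_lit 5) (nat_lit 11) (nat_lit 5) (nat_lit 12) (nat_lit 4) (nat_lit 287) (nat_lit 264) (nat_lit 229))) (XT.nd (nat_lit 78) (nat_lit 76) (nat_lit 0) (XT.lf (nat_lit 0) (nat_lit 46287211177) (nat_lit 152) (nat_lit 2404238120) (nat_lit 0) (nat_lit 17901007463) (nat_lit 10) (nat_lit 5) (nat_lit 12) (nat_lit 4) (nat_lit 10) (nat_lit 4) (nat_lit 288) (nat_lit 264) (nat_lit 228)) (XT.lf (nat_lit 0) (nat_lit 39320930763) (nat_lit 76) (nat_lit 31936346740) (nat_lit 76) (nat_lit 3525808466) (nat_lit 9) (nat_lit 4) (nat_lit 10) (nat_lit 5) (nat_lit 10) (nat_lit 4) (nat_lit 289) (nat_lit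 264) (nat_lit 227))))))))
noncomputable def xc29 : XT := (XT.nd (nat_lit 2028) (nat_lit 0) (nat_lit 0) (XT.nd (nat_lit 1014) (nat_lit 152) (nat_lit 0) (XT.nd (nat_lit 468) (nat_lit 76) (nat_lit 0) (XT.nd (nat_lit 234) (nat_lit 228) (nat_lit 0) (XT.nd (nat_lit 78) (nat_lit 0) (nat_lit 0) (XT.lf (nat_lit 0) (nat_lit 2951973558) (nat_lit 76) (nat_lit 12136330441) (nat_lit 152) (nat_lit 69075148937) (nat_lit 7) (nat_lit 5) (nat_lit 8) (nat_lit 5) (nat_lit 9) (nat_lit 4) (nat_lit 290) (nat_lit 264) (nat_lit 226)) (XT.nd (nat_lit 78) (nat_lit 0) (nat_lit 0) (XT.lf (nat_lit 0) (nat_lit 37573054706) (nat_lit 152) (nat_lit 46037157251) (nat_lit 0) (nat_lit 11230370276) (nat_lit 7) (nat_lit 5) (nat_lit 9) (nat_lit 4) (nat_lit 7) (nat_lit 4) (nat_lit 291) (nat_lit 264) (nat_lit 225)) (XT.lf (nat_lit 0) (nat_lit 63736920855) (nat_lit 152) (nat_lit 5978441120) (nat_lit 0) (nat_lit 37379421270) (nat_lit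 7) (nat_lit 5) (nat_lit 9) (nat_lit 4) (nat_lit 7) (nat_lit 4) (nat_lit 292) (nat_lit 264) (nat_lit 224)))) (XT.nd (nat_lit 78) (nat_lit 152) (nat_lit 0) (XT.lf (nat_lit 0) (nat_lit 42148757074) (nat_lit 76) (nat_lit 52664846682) (nat_lit 76) (nat_lit 26294464353) (nat_lit 6) (nat_lit 4) (nat_lit 7) (nat_lit 5) (nat_lit 7) (nat_lit 4) (nat_lit 293) (nat_lit 264) (nat_lit 223)) (XT.nd (nat_lit 78) (nat_lit 152) (nat_lit 0) (XT.lf (nat_lit 0) (nat_lit 97812423064) (nat_lit 76) (nat_lit 32890224825) (nat_lit 76) (nat_lit 6508640110) (nat_lit 6) (nat_lit 4) (nat_lit 7) (nat_lit 5) (nat_lit 7) (nat_lit 4) (nat_lit 294) (nat_lit 264) (nat_lit 222)) (XT.lf (nat_lit 0) (nat_lit 5963340906) (nat_lit 76) (nat_lit 9591787375) (nat_lit 152) (nat_lit 140133798797) (nat_lit 4) (nat_lit 5) (nat_lit 5) (nat_lit 5) (nat_lit 6) (nat_lit 4) (nat_lit 295) (nat_lit 264) (nat_lit 221))))) (XT.nd (nat_lit 234)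 (nat_lit 76) (nat_lit 0) (XT.nd (nat_lit 78) (nat_lit 0) (nat_lit 0) (XT.lf (nat_lit 0) (nat_lit 42125271313) (nat_lit 152) (nat_lit 116991833216) (nat_lit 0) (nat_lit 17681015264) (nat_lit 4) (nat_lit 5) (nat_lit 6) (nat_lit 4) (nat_lit 4) (nat_lit 4) (nat_lit 296) (nat_lit 264) (nat_lit 220)) (XT.nd (nat_lit 78) (nat_lit 0) (nat_lit 0) (XT.lf (nat_lit 0) (nat_lit 72929431816) (nat_lit 152) (nat_lit 79646030985) (nat_lit 0) (nat_lit 48478355627) (nat_lit 4) (nat_lit 5) (nat_lit 6) (nat_lit 4) (nat_lit 4) (nat_lit 4) (nat_lit 297) (nat_lit 264) (nat_lit 219)) (XT.lf (nat_lit 0) (nat_lit 108339617170) (nat_lit 152) (nat_lit 36726818026) (nat_lit 0) (nat_lit 83882610425) (nat_lit 4) (nat_lit 5) (nat_lit 6) (nat_lit 4) (nat_lit 4) (nat_lit 4) (nat_lit 298) (nat_lit 264) (nat_lit 218)))) (XT.nd (nat_lit 156) (nat_lit 0) (nat_lit 0) (XT.nd (nat_lit 78) (nat_lit 0) (nat_lit 0) (XT.lf (nat_lit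 0) (nat_lit 13269314233) (nat_lit 76) (nat_lit 136098448442) (nat_lit 76) (nat_lit 111636284691) (nat_lit 3) (nat_lit 4) (nat_lit 4) (nat_lit 5) (nat_lit 4) (nat_lit 4) (nat_lit 299) (nat_lit 264) (nat_lit 217)) (XT.lf (nat_lit 0) (nat_lit 72966278125) (nat_lit 76) (nat_lit 124641529762) (nat_lit 76) (nat_lit 100174881659) (nat_lit 3) (nat_lit 4) (nat_lit 4) (nat_lit 5) (nat_lit 4) (nat_lit 4) (nat_lit 300) (nat_lit 264) (nat_lit 216))) (XT.nd (nat_lit 78) (nat_lit 0) (nat_lit 0) (XT.lf (nat_lit 0) (nat_lit 141598088574) (nat_lit 76) (nat_lit 111475698343) (nat_lit 76) (nat_lit 87005150803) (nat_lit 3) (nat_lit 4) (nat_lit 4) (nat_lit 5) (nat_lit 4) (nat_lit 4) (nat_lit 301) (nat_lit 264) (nat_lit 215)) (XT.lf (nat_lit 0) (nat_lit 220507541869) (nat_lit 76) (nat_lit 96343361831) (nat_lit 76) (nat_lit 71869423476) (nat_lit 3) (nat_lit 4) (nat_lit 4) (nat_lit 5) (nat_lit 4) (nat_lit 4) (nat_lit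 302) (nat_lit 264) (nat_lit 214)))))) (XT.nd (nat_lit 468) (nat_lit 0) (nat_lit 0) (XT.nd (nat_lit 234) (nat_lit 152) (nat_lit 0) (XT.nd (nat_lit 78) (nat_lit 0) (nat_lit 0) (XT.lf (nat_lit 0) (nat_lit 311238518621) (nat_lit 76) (nat_lit 78948452771) (nat_lit 76) (nat_lit 54471565883) (nat_lit 3) (nat_lit 4) (nat_lit 4) (nat_lit 5) (nat_lit 4) (nat_lit 4) (nat_lit 303) (nat_lit 264) (nat_lit 213)) (XT.nd (nat_lit 78) (nat_lit 0) (nat_lit 0) (XT.lf (nat_lit 0) (nat_lit 415566190112) (nat_lit 76) (nat_lit 58950635988) (nat_lit 76) (nat_lit 34471185156) (nat_lit 3) (nat_lit 4) (nat_lit 4) (nat_lit 5) (nat_lit 4) (nat_lit 4) (nat_lit 304) (nat_lit 264) (nat_lit 212)) (XT.lf (nat_lit 0) (nat_lit 535531749916) (nat_lit 76) (nat_lit 35958649848) (nat_lit 76) (nat_lit 11476969500) (nat_lit 3) (nat_lit 4) (nat_lit 4) (nat_lit 5) (nat_lit 4) (nat_lit 4) (nat_lit 305) (nat_lit 264) (nat_lit 211))))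 (XT.nd (nat_lit 78) (nat_lit 0) (nat_lit 0) (XT.lf (nat_lit 0) (nat_lit 5345930210) (nat_lit 76) (nat_lit 8995199244) (nat_lit 152) (nat_lit 653663833555) (nat_lit 1) (nat_lit 5) (nat_lit 2) (nat_lit 5) (nat_lit 3) (nat_lit 4) (nat_lit 306) (nat_lit 264) (nat_lit 210)) (XT.nd (nat_lit 78) (nat_lit 0) (nat_lit 0) (XT.lf (nat_lit 0) (nat_lit 45313215948) (nat_lit 152) (nat_lit 697662628817) (nat_lit 0) (nat_lit 22641637346) (nat_lit 1) (nat_lit 5) (nat_lit 3) (nat_lit 4) (nat_lit 1) (nat_lit 4) (nat_lit 307) (nat_lit 264) (nat_lit 209)) (XT.lf (nat_lit 0) (nat_lit 81175726589) (nat_lit 152) (nat_lit 738173794297) (nat_lit 0) (nat_lit 58502790631) (nat_lit 1) (nat_lit 5) (nat_lit 3) (nat_lit 4) (nat_lit 1) (nat_lit 4) (nat_lit 308) (nat_lit 264) (nat_lit 208))))) (XT.nd (nat_lit 234) (nat_lit 0) (nat_lit 0) (XT.nd (nat_lit 78) (nat_lit 0) (nat_lit 0) (XT.lf (nat_lit 0) (nat_lit 122413984435)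 (nat_lit 152) (nat_lit 784768804240) (nat_lit 0) (nat_lit 99739868169) (nat_lit 1) (nat_lit 5) (nat_lit 3) (nat_lit 4) (nat_lit 1) (nat_lit 4) (nat_lit 309) (nat_lit 264) (nat_lit 207)) (XT.nd (nat_lit 78) (nat_lit 0) (nat_lit 0) (XT.lf (nat_lit 0) (nat_lit 169834824966) (nat_lit 152) (nat_lit 838359300145) (nat_lit 0) (nat_lit 147159682346) (nat_lit 1) (nat_lit 5) (nat_lit 3) (nat_lit 4) (nat_lit 1) (nat_lit 4) (nat_lit 310) (nat_lit 264) (nat_lit 206)) (XT.lf (nat_lit 0) (nat_lit 224366047237) (nat_lit 152) (nat_lit 899993791715) (nat_lit 0) (nat_lit 201690012134) (nat_lit 1) (nat_lit 5) (nat_lit 3) (nat_lit 4) (nat_lit 1) (nat_lit 4) (nat_lit 311) (nat_lit 264) (nat_lit 205)))) (XT.nd (nat_lit 156) (nat_lit 0) (nat_lit 0) (XT.nd (nat_lit 78) (nat_lit 0) (nat_lit 0) (XT.lf (nat_lit 0) (nat_lit 287074566465) (nat_lit 152) (nat_lit 970878171176) (nat_lit 0) (nat_lit 264397755290) (nat_lit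 1) (nat_lit 5) (nat_lit 3) (nat_lit 4) (nat_lit 1) (nat_lit 4) (nat_lit 312) (nat_lit 264) (nat_lit 204)) (XT.lf (nat_lit 0) (nat_lit 359187288462) (nat_lit 152) (nat_lit 1052399306822) (nat_lit 0) (nat_lit 336509802442) (nat_lit 1) (nat_lit 5) (nat_lit 3) (nat_lit 4) (nat_lit 1) (nat_lit 4) (nat_lit 313) (nat_lit 264) (nat_lit 203))) (XT.nd (nat_lit 78) (nat_lit 0) (nat_lit 0) (XT.lf (nat_lit 0) (nat_lit 442115114310) (nat_lit 152) (nat_lit 1146152177393) (nat_lit 0) (nat_lit 419437041468) (nat_lit 1) (nat_lit 5) (nat_lit 3) (nat_lit 4) (nat_lit 1) (nat_lit 4) (nat_lit 314) (nat_lit 264) (nat_lit 202)) (XT.lf (nat_lit 0) (nat_lit 537480544949) (nat_lit 152) (nat_lit 1253971078184) (nat_lit 0) (nat_lit 514801961828) (nat_lit 1) (nat_lit 5) (nat_lit 3) (nat_lit 4) (nat_lit 1) (nat_lit 4) (nat_lit 315) (nat_lit 264) (nat_lit 201))))))) (XT.nd (nat_lit 36660) (nat_lit 0) (nat_lit 1672) (XT.nd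 (nat_lit 468) (nat_lit 0) (nat_lit 0) (XT.nd (nat_lit 234) (nat_lit 0) (nat_lit 0) (XT.nd (nat_lit 78) (nat_lit 0) (nat_lit 0) (XT.lf (nat_lit 0) (nat_lit 647149425762) (nat_lit 152) (nat_lit 1377965509427) (nat_lit 0) (nat_lit 624470398920) (nat_lit 1) (nat_lit 5) (nat_lit 3) (nat_lit 4) (nat_lit 1) (nat_lit 4) (nat_lit 316) (nat_lit 264) (nat_lit 200)) (XT.nd (nat_lit 78) (nat_lit 0) (nat_lit 0) (XT.lf (nat_lit 0) (nat_lit 773267452243) (nat_lit 152) (nat_lit 1520561449125) (nat_lit 0) (nat_lit 750588039556) (nat_lit 1) (nat_lit 5) (nat_lit 3) (nat_lit 4) (nat_lit 1) (nat_lit 4) (nat_lit 317) (nat_lit 264) (nat_lit 199)) (XT.lf (nat_lit 0) (nat_lit 918302150997) (nat_lit 152) (nat_lit 1684548817837) (nat_lit 0) (nat_lit 895622402792) (nat_lit 1) (nat_lit 5) (nat_lit 3) (nat_lit 4) (nat_lit 1) (nat_lit 4) (nat_lit 318) (nat_lit 264) (nat_lit 198)))) (XT.nd (nat_lit 78) (nat_lit 0) (nat_lit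 0) (XT.lf (nat_lit 0) (nat_lit 1085091157435) (nat_lit 152) (nat_lit 1873136064082) (nat_lit 0) (nat_lit 1062411117476) (nat_lit 1) (nat_lit 5) (nat_lit 3) (nat_lit 4) (nat_lit 1) (nat_lit 4) (nat_lit 319) (nat_lit 264) (nat_lit 197)) (XT.nd (nat_lit 78) (nat_lit 0) (nat_lit 0) (XT.lf (nat_lit 0) (nat_lit 1276897734725) (nat_lit 152) (nat_lit 2090012938329) (nat_lit 0) (nat_lit 1254217441066) (nat_lit 1) (nat_lit 5) (nat_lit 3) (nat_lit 4) (nat_lit 1) (nat_lit 4) (nat_lit 320) (nat_lit 264) (nat_lit 196)) (XT.lf (nat_lit 0) (nat_lit 1497474620249) (nat_lit 152) (nat_lit 2339422683771) (nat_lit 0) (nat_lit 1474794105983) (nat_lit 1) (nat_lit 5) (nat_lit 3) (nat_lit 4) (nat_lit 1) (nat_lit 4) (nat_lit 321) (nat_lit 264) (nat_lit 195))))) (XT.nd (nat_lit 234) (nat_lit 0) (nat_lit 0) (XT.nd (nat_lit 78) (nat_lit 0) (nat_lit 0) (XT.lf (nat_lit 0) (nat_lit 1751137448725) (nat_lit 152) (nat_lit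 2626245056296) (nat_lit 0) (nat_lit 1728456742625) (nat_lit 1) (nat_lit 5) (nat_lit 3) (nat_lit 4) (nat_lit 1) (nat_lit 4) (nat_lit 322) (nat_lit 264) (nat_lit 194)) (XT.nd (nat_lit 78) (nat_lit 0) (nat_lit 0) (XT.lf (nat_lit 0) (nat_lit 2042849188535) (nat_lit 152) (nat_lit 2956091797975) (nat_lit 0) (nat_lit 2020168315624) (nat_lit 1) (nat_lit 5) (nat_lit 3) (nat_lit 4) (nat_lit 1) (nat_lit 4) (nat_lit 323) (nat_lit 264) (nat_lit 193)) (XT.lf (nat_lit 0) (nat_lit 2378317243285) (nat_lit 152) (nat_lit 3335416432016) (nat_lit 0) (nat_lit 2355636225321) (nat_lit 1) (nat_lit 5) (nat_lit 3) (nat_lit 4) (nat_lit 1) (nat_lit 4) (nat_lit 324) (nat_lit 264) (nat_lit 192)))) (XT.nd (nat_lit 156) (nat_lit 0) (nat_lit 0) (XT.nd (nat_lit 78) (nat_lit 0) (nat_lit 0) (XT.lf (nat_lit 0) (nat_lit 2764105118393) (nat_lit 152) (nat_lit 3771640527345) (nat_lit 0) (nat_lit 2741423974296) (nat_lit 1) (nat_lit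 5) (nat_lit 3) (nat_lit 4) (nat_lit 1) (nat_lit 4) (nat_lit 325) (nat_lit 264) (nat_lit 191)) (XT.lf (nat_lit 0) (nat_lit 3207760837503) (nat_lit 152) (nat_lit 4273298903218) (nat_lit 0) (nat_lit 3185079583725) (nat_lit 1) (nat_lit 5) (nat_lit 3) (nat_lit 4) (nat_lit 1) (nat_lit 4) (nat_lit 326) (nat_lit 264) (nat_lit 190))) (XT.nd (nat_lit 78) (nat_lit 0) (nat_lit 0) (XT.lf (nat_lit 0) (nat_lit 3717964621207) (nat_lit 152) (nat_lit 4850206614817) (nat_lit 0) (nat_lit 3695283272053) (nat_lit 1) (nat_lit 5) (nat_lit 3) (nat_lit 4) (nat_lit 1) (nat_lit 4) (nat_lit 327) (nat_lit 264) (nat_lit 189)) (XT.lf (nat_lit 0) (nat_lit 4304698717445) (nat_lit 152) (nat_lit 5513650986932) (nat_lit 0) (nat_lit 4282017285357) (nat_lit 1) (nat_lit 5) (nat_lit 3) (nat_lit 4) (nat_lit 1) (nat_lit 4) (nat_lit 328) (nat_lit 264) (nat_lit 188)))))) (XT.nd (nat_lit 546) (nat_lit 1368) (nat_lit 0) (XT.nd (nat_lit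 234) (nat_lit 760) (nat_lit 0) (XT.nd (nat_lit 78) (nat_lit 380) (nat_lit 0) (XT.lf (nat_lit 0) (nat_lit 1642654902) (nat_lit 0) (nat_lit 1642654902) (nat_lit 380) (nat_lit 1138963094) (nat_lit 56) (nat_lit 5) (nat_lit 56) (nat_lit 3) (nat_lit 61) (nat_lit 3) (nat_lit 265) (nat_lit 265) (nat_lit 250)) (XT.nd (nat_lit 78) (nat_lit 380) (nat_lit 0) (XT.lf (nat_lit 76) (nat_lit 2209507607) (nat_lit 0) (nat_lit 6541261705) (nat_lit 456) (nat_lit 622100794) (nat_lit 57) (nat_lit 5) (nat_lit 56) (nat_lit 5) (nat_lit 62) (nat_lit 5) (nat_lit 266) (nat_lit 265) (nat_lit 249)) (XT.lf (nat_lit 0) (nat_lit 1219484316) (nat_lit 456) (nat_lit 8705711981) (nat_lit 532) (nat_lit 48771865) (nat_lit 51) (nat_lit 5) (nat_lit 57) (nat_lit 5) (nat_lit 58) (nat_lit 5) (nat_lit 267) (nat_lit 265) (nat_lit 248)))) (XT.nd (nat_lit 156) (nat_lit 760) (nat_lit 0) (XT.nd (nat_lit 78) (nat_lit 0) (nat_lit 76) (XT.lf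 (nat_lit 76) (nat_lit 367772833) (nat_lit 0) (nat_lit 3085399193) (nat_lit 532) (nat_lit 7199170732) (nat_lit 52) (nat_lit 5) (nat_lit 51) (nat_lit 5) (nat_lit 58) (nat_lit 5) (nat_lit 268) (nat_lit 265) (nat_lit 247)) (XT.lf (nat_lit 0) (nat_lit 6174428088) (nat_lit 456) (nat_lit 404017446) (nat_lit 76) (nat_lit 4842366371) (nat_lit 52) (nat_lit 5) (nat_lit 58) (nat_lit 5) (nat_lit 53) (nat_lit 5) (nat_lit 269) (nat_lit 265) (nat_lit 246))) (XT.nd (nat_lit 78) (nat_lit 380) (nat_lit 0) (XT.lf (nat_lit 0) (nat_lit 9509813925) (nat_lit 532) (nat_lit 1072188002) (nat_lit 76) (nat_lit 1706543390) (nat_lit 46) (nat_lit 5) (nat_lit 53) (nat_lit 5) (nat_lit 47) (nat_lit 5) (nat_lit 270) (nat_lit 265) (nat_lit 245)) (XT.lf (nat_lit 0) (nat_lit 363324260) (nat_lit 380) (nat_lit 1731731842) (nat_lit 76) (nat_lit 11167069949) (nat_lit 41) (nat_lit 5) (nat_lit 46) (nat_lit 5) (nat_lit 42) (nat_lit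 5) (nat_lit 271) (nat_lit 265) (nat_lit 244))))) (XT.nd (nat_lit 234) (nat_lit 760) (nat_lit 0) (XT.nd (nat_lit 78) (nat_lit 380) (nat_lit 0) (XT.lf (nat_lit 0) (nat_lit 4176078438) (nat_lit 304) (nat_lit 2489567962) (nat_lit 76) (nat_lit 7681538243) (nat_lit 38) (nat_lit 5) (nat_lit 42) (nat_lit 5) (nat_lit 39) (nat_lit 5) (nat_lit 272) (nat_lit 265) (nat_lit 243)) (XT.nd (nat_lit 78) (nat_lit 152) (nat_lit 0) (XT.lf (nat_lit 0) (nat_lit 8913415786) (nat_lit 304) (nat_lit 3264129390) (nat_lit 76) (nat_lit 3389528899) (nat_lit 35) (nat_lit 5) (nat_lit 39) (nat_lit 5) (nat_lit 36) (nat_lit 5) (nat_lit 273) (nat_lit 265) (nat_lit 242)) (XT.lf (nat_lit 0) (nat_lit 12794432023) (nat_lit 152) (nat_lit 2006594790) (nat_lit 228) (nat_lit 2133994658) (nat_lit 33) (nat_lit 5) (nat_lit 35) (nat_lit 5) (nat_lit 36) (nat_lit 5) (nat_lit 274) (nat_lit 265) (nat_lit 241)))) (XT.nd (nat_lit 156) (nat_lit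 304) (nat_lit 0) (XT.nd (nat_lit 78) (nat_lit 152) (nat_lit 0) (XT.lf (nat_lit 0) (nat_lit 3458216510) (nat_lit 304) (nat_lit 5323264908) (nat_lit 76) (nat_lit 9677156940) (nat_lit 29) (nat_lit 5) (nat_lit 33) (nat_lit 5) (nat_lit 30) (nat_lit 5) (nat_lit 275) (nat_lit 265) (nat_lit 240)) (XT.lf (nat_lit 0) (nat_lit 10242799510) (nat_lit 228) (nat_lit 6793639284) (nat_lit 76) (nat_lit 3131706902) (nat_lit 27) (nat_lit 5) (nat_lit 30) (nat_lit 5) (nat_lit 28) (nat_lit 5) (nat_lit 276) (nat_lit 265) (nat_lit 239))) (XT.nd (nat_lit 78) (nat_lit 152) (nat_lit 0) (XT.lf (nat_lit 0) (nat_lit 13356716829) (nat_lit 152) (nat_lit 5315181110) (nat_lit 228) (nat_lit 3412186181) (nat_lit 25) (nat_lit 5) (nat_lit 27) (nat_lit 5) (nat_lit 28) (nat_lit 5) (nat_lit 277) (nat_lit 265) (nat_lit 238)) (XT.lf (nat_lit 0) (nat_lit 4513604968) (nat_lit 152) (nat_lit 11370776596) (nat_lit 76) (nat_lit 8344135318)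 (nat_lit 23) (nat_lit 5) (nat_lit 25) (nat_lit 5) (nat_lit 24) (nat_lit 5) (nat_lit 278) (nat_lit 265) (nat_lit 237))))))))
noncomputable def xc30 : XT := (XT.nd (nat_lit 2028) (nat_lit 152) (nat_lit 0) (XT.nd (nat_lit 1014) (nat_lit 304) (nat_lit 0) (XT.nd (nat_lit 468) (nat_lit 532) (nat_lit 0) (XT.nd (nat_lit 234) (nat_lit 228) (nat_lit 0) (XT.nd (nat_lit 78) (nat_lit 304) (nat_lit 0) (XT.lf (nat_lit 0) (nat_lit 11745356211) (nat_lit 152) (nat_lit 2295183039) (nat_lit 228) (nat_lit 12597945812) (nat_lit 21) (nat_lit 5) (nat_lit 23) (nat_lit 5) (nat_lit 24) (nat_lit 5) (nat_lit 279) (nat_lit 265) (nat_lit 236)) (XT.nd (nat_lit 78) (nat_lit 228) (nat_lit 0) (XT.lf (nat_lit 0) (nat_lit 9665221531) (nat_lit 76) (nat_lit 16149169443) (nat_lit 152) (nat_lit 3530219378) (nat_lit 20) (nat_lit 5) (nat_lit 21) (nat_lit 5) (nat_lit 22) (nat_lit 4) (nat_lit 280) (nat_lit 265) (nat_lit 235)) (XT.lf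 (nat_lit 0) (nat_lit 6347772823) (nat_lit 152) (nat_lit 796202848) (nat_lit 228) (nat_lit 25252173063) (nat_lit 17) (nat_lit 5) (nat_lit 19) (nat_lit 5) (nat_lit 20) (nat_lit 5) (nat_lit 281) (nat_lit 265) (nat_lit 234)))) (XT.nd (nat_lit 78) (nat_lit 152) (nat_lit 0) (XT.lf (nat_lit 0) (nat_lit 1034296886) (nat_lit 76) (nat_lit 19135929082) (nat_lit 152) (nat_lit 15651124497) (nat_lit 16) (nat_lit 5) (nat_lit 17) (nat_lit 5) (nat_lit 18) (nat_lit 4) (nat_lit 282) (nat_lit 265) (nat_lit 233)) (XT.nd (nat_lit 78) (nat_lit 152) (nat_lit 0) (XT.lf (nat_lit 0) (nat_lit 33632364092) (nat_lit 76) (nat_lit 2239652467) (nat_lit 152) (nat_lit 3830643727) (nat_lit 16) (nat_lit 5) (nat_lit 17) (nat_lit 5) (nat_lit 18) (nat_lit 4) (nat_lit 283) (nat_lit 265) (nat_lit 232)) (XT.lf (nat_lit 0) (nat_lit 10332787951) (nat_lit 152) (nat_lit 16503213401) (nat_lit 76) (nat_lit 17226765778) (nat_lit 14) (nat_lit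 5) (nat_lit 16) (nat_lit 5) (nat_lit 15) (nat_lit 4) (nat_lit 284) (nat_lit 265) (nat_lit 231))))) (XT.nd (nat_lit 234) (nat_lit 304) (nat_lit 0) (XT.nd (nat_lit 78) (nat_lit 152) (nat_lit 0) (XT.lf (nat_lit 0) (nat_lit 18190110953) (nat_lit 76) (nat_lit 8842913831) (nat_lit 152) (nat_lit 21984816102) (nat_lit 13) (nat_lit 5) (nat_lit 14) (nat_lit 5) (nat_lit 15) (nat_lit 4) (nat_lit 285) (nat_lit 265) (nat_lit 230)) (XT.nd (nat_lit 78) (nat_lit 76) (nat_lit 0) (XT.lf (nat_lit 0) (nat_lit 4242368633) (nat_lit 76) (nat_lit 42831336774) (nat_lit 76) (nat_lit 7575671761) (nat_lit 12) (nat_lit 4) (nat_lit 13) (nat_lit 5) (nat_lit 13) (nat_lit 4) (nat_lit 286) (nat_lit 265) (nat_lit 229)) (XT.lf (nat_lit 0) (nat_lit 9668676871) (nat_lit 152) (nat_lit 15175040643) (nat_lit 76) (nat_lit 36174744464) (nat_lit 11) (nat_lit 5) (nat_lit 13) (nat_lit 5) (nat_lit 12) (nat_lit 4) (nat_lit 287) (nat_lit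 265) (nat_lit 228)))) (XT.nd (nat_lit 156) (nat_lit 228) (nat_lit 0) (XT.nd (nat_lit 78) (nat_lit 0) (nat_lit 0) (XT.lf (nat_lit 0) (nat_lit 26385313785) (nat_lit 76) (nat_lit 3276937967) (nat_lit 152) (nat_lit 38616048932) (nat_lit 10) (nat_lit 5) (nat_lit 11) (nat_lit 5) (nat_lit 12) (nat_lit 4) (nat_lit 288) (nat_lit 265) (nat_lit 227)) (XT.lf (nat_lit 0) (nat_lit 53592204958) (nat_lit 152) (nat_lit 2085352750) (nat_lit 0) (nat_lit 20874590897) (nat_lit 10) (nat_lit 5) (nat_lit 12) (nat_lit 4) (nat_lit 10) (nat_lit 4) (nat_lit 289) (nat_lit 265) (nat_lit 226))) (XT.nd (nat_lit 78) (nat_lit 152) (nat_lit 0) (XT.lf (nat_lit 0) (nat_lit 45841073390) (nat_lit 76) (nat_lit 36434461103) (nat_lit 76) (nat_lit 3698446619) (nat_lit 9) (nat_lit 4) (nat_lit 10) (nat_lit 5) (nat_lit 10) (nat_lit 4) (nat_lit 290) (nat_lit 265) (nat_lit 225)) (XT.lf (nat_lit 0) (nat_lit 3980599846) (nat_lit 76) (nat_lit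 13679311066) (nat_lit 152) (nat_lit 79103234438) (nat_lit 7) (nat_lit 5) (nat_lit 8) (nat_lit 5) (nat_lit 9) (nat_lit 4) (nat_lit 291) (nat_lit 265) (nat_lit 224)))))) (XT.nd (nat_lit 468) (nat_lit 76) (nat_lit 0) (XT.nd (nat_lit 234) (nat_lit 152) (nat_lit 0) (XT.nd (nat_lit 78) (nat_lit 76) (nat_lit 0) (XT.lf (nat_lit 0) (nat_lit 43482955910) (nat_lit 152) (nat_lit 52417528538) (nat_lit 0) (nat_lit 13144133488) (nat_lit 7) (nat_lit 5) (nat_lit 9) (nat_lit 4) (nat_lit 7) (nat_lit 4) (nat_lit 292) (nat_lit 265) (nat_lit 223)) (XT.nd (nat_lit 78) (nat_lit 76) (nat_lit 0) (XT.lf (nat_lit 0) (nat_lit 73535670286) (nat_lit 152) (nat_lit 6418509635) (nat_lit 0) (nat_lit 43185645478) (nat_lit 7) (nat_lit 5) (nat_lit 9) (nat_lit 4) (nat_lit 7) (nat_lit 4) (nat_lit 293) (nat_lit 265) (nat_lit 222)) (XT.lf (nat_lit 0) (nat_lit 48889111107) (nat_lit 76) (nat_lit 60363727360) (nat_lit 76) (nat_lit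 30003961347) (nat_lit 6) (nat_lit 4) (nat_lit 7) (nat_lit 5) (nat_lit 7) (nat_lit 4) (nat_lit 294) (nat_lit 265) (nat_lit 221)))) (XT.nd (nat_lit 78) (nat_lit 152) (nat_lit 0) (XT.lf (nat_lit 0) (nat_lit 112847799977) (nat_lit 76) (nat_lit 37649109571) (nat_lit 76) (nat_lit 7280872945) (nat_lit 6) (nat_lit 4) (nat_lit 7) (nat_lit 5) (nat_lit 7) (nat_lit 4) (nat_lit 295) (nat_lit 265) (nat_lit 220)) (XT.nd (nat_lit 78) (nat_lit 0) (nat_lit 0) (XT.lf (nat_lit 0) (nat_lit 7200005794) (nat_lit 76) (nat_lit 10865190442) (nat_lit 152) (nat_lit 160962853908) (nat_lit 4) (nat_lit 5) (nat_lit 5) (nat_lit 5) (nat_lit 6) (nat_lit 4) (nat_lit 296) (nat_lit 265) (nat_lit 219)) (XT.lf (nat_lit 0) (nat_lit 48601258310) (nat_lit 152) (nat_lit 134234171054) (nat_lit 0) (nat_lit 20469769997) (nat_lit 4) (nat_lit 5) (nat_lit 6) (nat_lit 4) (nat_lit 4) (nat_lit 4) (nat_lit 297) (nat_lit 265) (nat_lit 218)))))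 (XT.nd (nat_lit 234) (nat_lit 0) (nat_lit 0) (XT.nd (nat_lit 78) (nat_lit 76) (nat_lit 0) (XT.lf (nat_lit 0) (nat_lit 84005539023) (nat_lit 152) (nat_lit 91326468551) (nat_lit 0) (nat_lit 55868893705) (nat_lit 4) (nat_lit 5) (nat_lit 6) (nat_lit 4) (nat_lit 4) (nat_lit 4) (nat_lit 298) (nat_lit 265) (nat_lit 217)) (XT.nd (nat_lit 78) (nat_lit 76) (nat_lit 0) (XT.lf (nat_lit 0) (nat_lit 124709422732) (nat_lit 152) (nat_lit 42004130224) (nat_lit 0) (nat_lit 96568293062) (nat_lit 4) (nat_lit 5) (nat_lit 6) (nat_lit 4) (nat_lit 4) (nat_lit 4) (nat_lit 299) (nat_lit 265) (nat_lit 216)) (XT.lf (nat_lit 0) (nat_lit 15471808734) (nat_lit 76) (nat_lit 156409578408) (nat_lit 76) (nat_lit 128264549301) (nat_lit 3) (nat_lit 4) (nat_lit 4) (nat_lit 5) (nat_lit 4) (nat_lit 4) (nat_lit 300) (nat_lit 265) (nat_lit 215)))) (XT.nd (nat_lit 156) (nat_lit 0) (nat_lit 0) (XT.nd (nat_lit 78) (nat_lit 0) (nat_lit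 0) (XT.lf (nat_lit 0) (nat_lit 84095652336) (nat_lit 76) (nat_lit 143247639835) (nat_lit 76) (nat_lit 115099219913) (nat_lit 3) (nat_lit 4) (nat_lit 4) (nat_lit 5) (nat_lit 4) (nat_lit 4) (nat_lit 301) (nat_lit 265) (nat_lit 214)) (XT.lf (nat_lit 0) (nat_lit 162998177940) (nat_lit 76) (nat_lit 128118688407) (nat_lit 76) (nat_lit 99967319950) (nat_lit 3) (nat_lit 4) (nat_lit 4) (nat_lit 5) (nat_lit 4) (nat_lit 4) (nat_lit 302) (nat_lit 265) (nat_lit 213))) (XT.nd (nat_lit 78) (nat_lit 0) (nat_lit 0) (XT.lf (nat_lit 0) (nat_lit 253723130611) (nat_lit 76) (nat_lit 110726722898) (nat_lit 76) (nat_lit 82572790499) (nat_lit 3) (nat_lit 4) (nat_lit 4) (nat_lit 5) (nat_lit 4) (nat_lit 4) (nat_lit 303) (nat_lit 265) (nat_lit 212)) (XT.lf (nat_lit 0) (nat_lit 358045563771) (nat_lit 76) (nat_lit 90731465725) (nat_lit 76) (nat_lit 62575303809) (nat_lit 3) (nat_lit 4) (nat_lit 4) (nat_lit 5) (nat_lit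 4) (nat_lit 4) (nat_lit 304) (nat_lit 265) (nat_lit 211))))))) (XT.nd (nat_lit 1014) (nat_lit 0) (nat_lit 0) (XT.nd (nat_lit 468) (nat_lit 0) (nat_lit 0) (XT.nd (nat_lit 234) (nat_lit 0) (nat_lit 0) (XT.nd (nat_lit 78) (nat_lit 152) (nat_lit 0) (XT.lf (nat_lit 0) (nat_lit 478006568505) (nat_lit 76) (nat_lit 67741705332) (nat_lit 76) (nat_lit 39583604707) (nat_lit 3) (nat_lit 4) (nat_lit 4) (nat_lit 5) (nat_lit 4) (nat_lit 4) (nat_lit 305) (nat_lit 265) (nat_lit 210)) (XT.nd (nat_lit 78) (nat_lit 152) (nat_lit 0) (XT.lf (nat_lit 0) (nat_lit 615953207948) (nat_lit 76) (nat_lit 41307642060) (nat_lit 76) (nat_lit 13147855601) (nat_lit 3) (nat_lit 4) (nat_lit 4) (nat_lit 5) (nat_lit 4) (nat_lit 4) (nat_lit 306) (nat_lit 265) (nat_lit 209)) (XT.lf (nat_lit 0) (nat_lit 6234088499) (nat_lit 76) (nat_lit 10302133087) (nat_lit 152) (nat_lit 751665957708) (nat_lit 1) (nat_lit 5) (nat_lit 2) (nat_lit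 5) (nat_lit 3) (nat_lit 4) (nat_lit 307) (nat_lit 265) (nat_lit 208)))) (XT.nd (nat_lit 78) (nat_lit 0) (nat_lit 0) (XT.lf (nat_lit 0) (nat_lit 52149277590) (nat_lit 152) (nat_lit 802234824444) (nat_lit 0) (nat_lit 26072863576) (nat_lit 1) (nat_lit 5) (nat_lit 3) (nat_lit 4) (nat_lit 1) (nat_lit 4) (nat_lit 308) (nat_lit 265) (nat_lit 207)) (XT.nd (nat_lit 78) (nat_lit 0) (nat_lit 0) (XT.lf (nat_lit 0) (nat_lit 93386067533) (nat_lit 152) (nat_lit 848832734141) (nat_lit 0) (nat_lit 67308627164) (nat_lit 1) (nat_lit 5) (nat_lit 3) (nat_lit 4) (nat_lit 1) (nat_lit 4) (nat_lit 309) (nat_lit 265) (nat_lit 206)) (XT.lf (nat_lit 0) (nat_lit 140805631627) (nat_lit 152) (nat_lit 902425751571) (nat_lit 0) (nat_lit 114727298776) (nat_lit 1) (nat_lit 5) (nat_lit 3) (nat_lit 4) (nat_lit 1) (nat_lit 4) (nat_lit 310) (nat_lit 265) (nat_lit 205))))) (XT.nd (nat_lit 234) (nat_lit 0) (nat_lit 0) (XT.nd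 (nat_lit 78) (nat_lit 0) (nat_lit 0) (XT.lf (nat_lit 0) (nat_lit 195335743952) (nat_lit 152) (nat_lit 964062435772) (nat_lit 0) (nat_lit 169256635029) (nat_lit 1) (nat_lit 5) (nat_lit 3) (nat_lit 4) (nat_lit 1) (nat_lit 4) (nat_lit 311) (nat_lit 265) (nat_lit 204)) (XT.nd (nat_lit 78) (nat_lit 0) (nat_lit 0) (XT.lf (nat_lit 0) (nat_lit 258043298010) (nat_lit 152) (nat_lit 1034948721868) (nat_lit 0) (nat_lit 231963514242) (nat_lit 1) (nat_lit 5) (nat_lit 3) (nat_lit 4) (nat_lit 1) (nat_lit 4) (nat_lit 312) (nat_lit 265) (nat_lit 203)) (XT.lf (nat_lit 0) (nat_lit 330155180728) (nat_lit 152) (nat_lit 1116471515457) (nat_lit 0) (nat_lit 304074810139) (nat_lit 1) (nat_lit 5) (nat_lit 3) (nat_lit 4) (nat_lit 1) (nat_lit 4) (nat_lit 313) (nat_lit 265) (nat_lit 202)))) (XT.nd (nat_lit 156) (nat_lit 0) (nat_lit 0) (XT.nd (nat_lit 78) (nat_lit 0) (nat_lit 0) (XT.lf (nat_lit 0) (nat_lit 413082276769)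 (nat_lit 152) (nat_lit 1210225827718) (nat_lit 0) (nat_lit 387001395900) (nat_lit 1) (nat_lit 5) (nat_lit 3) (nat_lit 4) (nat_lit 1) (nat_lit 4) (nat_lit 314) (nat_lit 265) (nat_lit 201)) (XT.lf (nat_lit 0) (nat_lit 508447072793) (nat_lit 152) (nat_lit 1318045982153) (nat_lit 0) (nat_lit 482365748203) (nat_lit 1) (nat_lit 5) (nat_lit 3) (nat_lit 4) (nat_lit 1) (nat_lit 4) (nat_lit 315) (nat_lit 265) (nat_lit 200))) (XT.nd (nat_lit 78) (nat_lit 0) (nat_lit 0) (XT.lf (nat_lit 0) (nat_lit 618115401767) (nat_lit 152) (nat_lit 1442041503521) (nat_lit 0) (nat_lit 592033691332) (nat_lit 1) (nat_lit 5) (nat_lit 3) (nat_lit 4) (nat_lit 1) (nat_lit 4) (nat_lit 316) (nat_lit 265) (nat_lit 199)) (XT.lf (nat_lit 0) (nat_lit 744232948388) (nat_lit 152) (nat_lit 1584638391153) (nat_lit 0) (nat_lit 718150902435) (nat_lit 1) (nat_lit 5) (nat_lit 3) (nat_lit 4) (nat_lit 1) (nat_lit 4) (nat_lit 317) (nat_lit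 265) (nat_lit 198)))))) (XT.nd (nat_lit 468) (nat_lit 0) (nat_lit 0) (XT.nd (nat_lit 234) (nat_lit 0) (nat_lit 0) (XT.nd (nat_lit 78) (nat_lit 0) (nat_lit 0) (XT.lf (nat_lit 0) (nat_lit 889267229873) (nat_lit 152) (nat_lit 1748626584157) (nat_lit 0) (nat_lit 863184892166) (nat_lit 1) (nat_lit 5) (nat_lit 3) (nat_lit 4) (nat_lit 1) (nat_lit 4) (nat_lit 318) (nat_lit 265) (nat_lit 197)) (XT.nd (nat_lit 78) (nat_lit 0) (nat_lit 0) (XT.lf (nat_lit 0) (nat_lit 1056055873467) (nat_lit 152) (nat_lit 1937214547176) (nat_lit 0) (nat_lit 1029973282060) (nat_lit 1) (nat_lit 5) (nat_lit 3) (nat_lit 4) (nat_lit 1) (nat_lit 4) (nat_lit 319) (nat_lit 265) (nat_lit 196)) (XT.lf (nat_lit 0) (nat_lit 1247862135241) (nat_lit 152) (nat_lit 2154092044706) (nat_lit 0) (nat_lit 1221779323227) (nat_lit 1) (nat_lit 5) (nat_lit 3) (nat_lit 4) (nat_lit 1) (nat_lit 4) (nat_lit 320) (nat_lit 265) (nat_lit 195))))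 (XT.nd (nat_lit 78) (nat_lit 0) (nat_lit 0) (XT.lf (nat_lit 0) (nat_lit 1468438746404) (nat_lit 152) (nat_lit 2403502332132) (nat_lit 0) (nat_lit 1442355742556) (nat_lit 1) (nat_lit 5) (nat_lit 3) (nat_lit 4) (nat_lit 1) (nat_lit 4) (nat_lit 321) (nat_lit 265) (nat_lit 194)) (XT.nd (nat_lit 78) (nat_lit 0) (nat_lit 0) (XT.lf (nat_lit 0) (nat_lit 1722101336304) (nat_lit 152) (nat_lit 2690325175948) (nat_lit 0) (nat_lit 1696018165646) (nat_lit 1) (nat_lit 5) (nat_lit 3) (nat_lit 4) (nat_lit 1) (nat_lit 4) (nat_lit 322) (nat_lit 265) (nat_lit 193)) (XT.lf (nat_lit 0) (nat_lit 2013812868658) (nat_lit 152) (nat_lit 3020172327446) (nat_lit 0) (nat_lit 1987729552946) (nat_lit 1) (nat_lit 5) (nat_lit 3) (nat_lit 4) (nat_lit 1) (nat_lit 4) (nat_lit 323) (nat_lit 265) (nat_lit 192))))) (XT.nd (nat_lit 234) (nat_lit 0) (nat_lit 0) (XT.nd (nat_lit 78) (nat_lit 0) (nat_lit 0) (XT.lf (nat_lit 0) (nat_lit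 2349280743010) (nat_lit 152) (nat_lit 3399497317851) (nat_lit 0) (nat_lit 2323197301165) (nat_lit 1) (nat_lit 5) (nat_lit 3) (nat_lit 4) (nat_lit 1) (nat_lit 4) (nat_lit 324) (nat_lit 265) (nat_lit 191)) (XT.nd (nat_lit 78) (nat_lit 0) (nat_lit 0) (XT.lf (nat_lit 0) (nat_lit 2735068461251) (nat_lit 152) (nat_lit 3835721723061) (nat_lit 0) (nat_lit 2708984909725) (nat_lit 1) (nat_lit 5) (nat_lit 3) (nat_lit 4) (nat_lit 1) (nat_lit 4) (nat_lit 325) (nat_lit 265) (nat_lit 190)) (XT.lf (nat_lit 0) (nat_lit 3178724043955) (nat_lit 152) (nat_lit 4337380368397) (nat_lit 0) (nat_lit 3152640397054) (nat_lit 1) (nat_lit 5) (nat_lit 3) (nat_lit 4) (nat_lit 1) (nat_lit 4) (nat_lit 326) (nat_lit 265) (nat_lit 189)))) (XT.nd (nat_lit 35880) (nat_lit 0) (nat_lit 3648) (XT.nd (nat_lit 78) (nat_lit 0) (nat_lit 0) (XT.lf (nat_lit 0) (nat_lit 3688927709045) (nat_lit 152) (nat_lit 4914288314310) (nat_lit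 0) (nat_lit 3662843979208) (nat_lit 1) (nat_lit 5) (nat_lit 3) (nat_lit 4) (nat_lit 1) (nat_lit 4) (nat_lit 327) (nat_lit 265) (nat_lit 188)) (XT.lf (nat_lit 0) (nat_lit 4275661702141) (nat_lit 152) (nat_lit 5577732890177) (nat_lit 0) (nat_lit 4249577900187) (nat_lit 1) (nat_lit 5) (nat_lit 3) (nat_lit 4) (nat_lit 1) (nat_lit 4) (nat_lit 328) (nat_lit 265) (nat_lit 187))) (XT.nd (nat_lit 78) (nat_lit 0) (nat_lit 76) (XT.lf (nat_lit 0) (nat_lit 297710850) (nat_lit 532) (nat_lit 2332760768) (nat_lit 532) (nat_lit 2332760768) (nat_lit 49) (nat_lit 3) (nat_lit 56) (nat_lit 3) (nat_lit 56) (nat_lit 5) (nat_lit 266) (nat_lit 266) (nat_lit 248)) (XT.lf (nat_lit 0) (nat_lit 2010218174) (nat_lit 456) (nat_lit 6439959375) (nat_lit 532) (nat_lit 2108130464) (nat_lit 50) (nat_lit 5) (nat_lit 56) (nat_lit 5) (nat_lit 57) (nat_lit 5) (nat_lit 267) (nat_lit 266) (nat_lit 247))))))))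
noncomputable def xc31 : XT := (XT.nd (nat_lit 2028) (nat_lit 456) (nat_lit 0) (XT.nd (nat_lit 1014) (nat_lit 1064) (nat_lit 0) (XT.nd (nat_lit 468) (nat_lit 1292) (nat_lit 0) (XT.nd (nat_lit 234) (nat_lit 608) (nat_lit 0) (XT.nd (nat_lit 78) (nat_lit 304) (nat_lit 0) (XT.lf (nat_lit 76) (nat_lit 3090002343) (nat_lit 0) (nat_lit 689182196) (nat_lit 532) (nat_lit 7494926743) (nat_lit 51) (nat_lit 5) (nat_lit 50) (nat_lit 5) (nat_lit 57) (nat_lit 5) (nat_lit 268) (nat_lit 266) (nat_lit 246)) (XT.nd (nat_lit 78) (nat_lit 380) (nat_lit 0) (XT.lf (nat_lit 76) (nat_lit 2110885093) (nat_lit 0) (nat_lit 3953208084) (nat_lit 532) (nat_lit 6013613280) (nat_lit 52) (nat_lit 5) (nat_lit 51) (nat_lit 5) (nat_lit 58) (nat_lit 5) (nat_lit 269) (nat_lit 266) (nat_lit 245)) (XT.lf (nat_lit 0) (nat_lit 1222787214) (nat_lit 456) (nat_lit 7718695854) (nat_lit 532) (nat_lit 4040786243) (nat_lit 46) (nat_lit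 5) (nat_lit 52) (nat_lit 5) (nat_lit 53) (nat_lit 5) (nat_lit 270) (nat_lit 266) (nat_lit 244)))) (XT.nd (nat_lit 78) (nat_lit 304) (nat_lit 0) (XT.lf (nat_lit 0) (nat_lit 411814413) (nat_lit 304) (nat_lit 12142434476) (nat_lit 380) (nat_lit 1444321091) (nat_lit 42) (nat_lit 5) (nat_lit 46) (nat_lit 5) (nat_lit 47) (nat_lit 5) (nat_lit 271) (nat_lit 266) (nat_lit 243)) (XT.nd (nat_lit 78) (nat_lit 228) (nat_lit 0) (XT.lf (nat_lit 0) (nat_lit 1892295323) (nat_lit 380) (nat_lit 424025733) (nat_lit 76) (nat_lit 12814090342) (nat_lit 41) (nat_lit 5) (nat_lit 46) (nat_lit 5) (nat_lit 42) (nat_lit 5) (nat_lit 272) (nat_lit 266) (nat_lit 242)) (XT.lf (nat_lit 0) (nat_lit 6121987872) (nat_lit 304) (nat_lit 1323049398) (nat_lit 76) (nat_lit 8945990676) (nat_lit 38) (nat_lit 5) (nat_lit 42) (nat_lit 5) (nat_lit 39) (nat_lit 5) (nat_lit 273) (nat_lit 266) (nat_lit 241))))) (XT.nd (nat_lit 234) (nat_lit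 608) (nat_lit 0) (XT.nd (nat_lit 78) (nat_lit 456) (nat_lit 0) (XT.lf (nat_lit 0) (nat_lit 11437209408) (nat_lit 304) (nat_lit 2252806468) (nat_lit 76) (nat_lit 4114851089) (nat_lit 35) (nat_lit 5) (nat_lit 39) (nat_lit 5) (nat_lit 36) (nat_lit 5) (nat_lit 274) (nat_lit 266) (nat_lit 240)) (XT.nd (nat_lit 78) (nat_lit 304) (nat_lit 0) (XT.lf (nat_lit 0) (nat_lit 16087491865) (nat_lit 152) (nat_lit 1998714878) (nat_lit 228) (nat_lit 1301843510) (nat_lit 33) (nat_lit 5) (nat_lit 35) (nat_lit 5) (nat_lit 36) (nat_lit 5) (nat_lit 275) (nat_lit 266) (nat_lit 239)) (XT.lf (nat_lit 0) (nat_lit 4968244276) (nat_lit 304) (nat_lit 4737283026) (nat_lit 76) (nat_lit 11440974872) (nat_lit 29) (nat_lit 5) (nat_lit 33) (nat_lit 5) (nat_lit 30) (nat_lit 5) (nat_lit 276) (nat_lit 266) (nat_lit 238)))) (XT.nd (nat_lit 156) (nat_lit 304) (nat_lit 0) (XT.nd (nat_lit 78) (nat_lit 152) (nat_lit 0) (XT.lf (nat_lit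 0) (nat_lit 12680707690) (nat_lit 228) (nat_lit 6481602494) (nat_lit 76) (nat_lit 3957522379) (nat_lit 27) (nat_lit 5) (nat_lit 30) (nat_lit 5) (nat_lit 28) (nat_lit 5) (nat_lit 277) (nat_lit 266) (nat_lit 237)) (XT.lf (nat_lit 0) (nat_lit 16578637517) (nat_lit 152) (nat_lit 5707250809) (nat_lit 228) (nat_lit 3044520718) (nat_lit 25) (nat_lit 5) (nat_lit 27) (nat_lit 5) (nat_lit 28) (nat_lit 5) (nat_lit 278) (nat_lit 266) (nat_lit 236))) (XT.nd (nat_lit 78) (nat_lit 152) (nat_lit 0) (XT.lf (nat_lit 0) (nat_lit 5954655862) (nat_lit 152) (nat_lit 11868133362) (nat_lit 76) (nat_lit 9977893042) (nat_lit 23) (nat_lit 5) (nat_lit 25) (nat_lit 5) (nat_lit 24) (nat_lit 5) (nat_lit 279) (nat_lit 266) (nat_lit 235)) (XT.lf (nat_lit 0) (nat_lit 14613146199) (nat_lit 152) (nat_lit 2224429593) (nat_lit 228) (nat_lit 13740543544) (nat_lit 21) (nat_lit 5) (nat_lit 23) (nat_lit 5) (nat_lit 24) (nat_lit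 5) (nat_lit 280) (nat_lit 266) (nat_lit 234)))))) (XT.nd (nat_lit 468) (nat_lit 456) (nat_lit 0) (XT.nd (nat_lit 234) (nat_lit 228) (nat_lit 0) (XT.nd (nat_lit 78) (nat_lit 304) (nat_lit 0) (XT.lf (nat_lit 0) (nat_lit 12169625086) (nat_lit 76) (nat_lit 18151798751) (nat_lit 152) (nat_lit 3373338538) (nat_lit 20) (nat_lit 5) (nat_lit 21) (nat_lit 5) (nat_lit 22) (nat_lit 4) (nat_lit 281) (nat_lit 266) (nat_lit 233)) (XT.nd (nat_lit 78) (nat_lit 76) (nat_lit 0) (XT.lf (nat_lit 0) (nat_lit 8297356755) (nat_lit 152) (nat_lit 509226282) (nat_lit 228) (nat_lit 28401103589) (nat_lit 17) (nat_lit 5) (nat_lit 19) (nat_lit 5) (nat_lit 20) (nat_lit 5) (nat_lit 282) (nat_lit 266) (nat_lit 232)) (XT.lf (nat_lit 0) (nat_lit 2137317432) (nat_lit 76) (nat_lit 21603660709) (nat_lit 152) (nat_lit 17409432616) (nat_lit 16) (nat_lit 5) (nat_lit 17) (nat_lit 5) (nat_lit 18) (nat_lit 4) (nat_lit 283) (nat_lit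 266) (nat_lit 231)))) (XT.nd (nat_lit 78) (nat_lit 228) (nat_lit 0) (XT.lf (nat_lit 0) (nat_lit 39501458717) (nat_lit 76) (nat_lit 2225463176) (nat_lit 152) (nat_lit 3892752847) (nat_lit 16) (nat_lit 5) (nat_lit 17) (nat_lit 5) (nat_lit 18) (nat_lit 4) (nat_lit 284) (nat_lit 266) (nat_lit 230)) (XT.nd (nat_lit 78) (nat_lit 76) (nat_lit 0) (XT.lf (nat_lit 0) (nat_lit 12332860390) (nat_lit 152) (nat_lit 18172723949) (nat_lit 76) (nat_lit 20130218081) (nat_lit 14) (nat_lit 5) (nat_lit 16) (nat_lit 5) (nat_lit 15) (nat_lit 4) (nat_lit 285) (nat_lit 266) (nat_lit 229)) (XT.lf (nat_lit 0) (nat_lit 21656377588) (nat_lit 76) (nat_lit 9840782293) (nat_lit 152) (nat_lit 24840303114) (nat_lit 13) (nat_lit 5) (nat_lit 14) (nat_lit 5) (nat_lit 15) (nat_lit 4) (nat_lit 286) (nat_lit 266) (nat_lit 228))))) (XT.nd (nat_lit 234) (nat_lit 228) (nat_lit 0) (XT.nd (nat_lit 78) (nat_lit 152) (nat_lit 0) (XT.lf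 (nat_lit 0) (nat_lit 5577050011) (nat_lit 76) (nat_lit 48937187238) (nat_lit 76) (nat_lit 8301910574) (nat_lit 12) (nat_lit 4) (nat_lit 13) (nat_lit 5) (nat_lit 13) (nat_lit 4) (nat_lit 287) (nat_lit 266) (nat_lit 227)) (XT.nd (nat_lit 78) (nat_lit 76) (nat_lit 0) (XT.lf (nat_lit 0) (nat_lit 11457757959) (nat_lit 152) (nat_lit 16825993434) (nat_lit 76) (nat_lit 41860153816) (nat_lit 11) (nat_lit 5) (nat_lit 13) (nat_lit 5) (nat_lit 12) (nat_lit 4) (nat_lit 288) (nat_lit 266) (nat_lit 226)) (XT.lf (nat_lit 0) (nat_lit 30915485348) (nat_lit 76) (nat_lit 3504460707) (nat_lit 152) (nat_lit 44075236686) (nat_lit 10) (nat_lit 5) (nat_lit 11) (nat_lit 5) (nat_lit 12) (nat_lit 4) (nat_lit 289) (nat_lit 266) (nat_lit 225)))) (XT.nd (nat_lit 156) (nat_lit 152) (nat_lit 0) (XT.nd (nat_lit 78) (nat_lit 76) (nat_lit 0) (XT.lf (nat_lit 0) (nat_lit 61904693248) (nat_lit 152) (nat_lit 1884340094) (nat_lit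 0) (nat_lit 24223875800) (nat_lit 10) (nat_lit 5) (nat_lit 12) (nat_lit 4) (nat_lit 10) (nat_lit 4) (nat_lit 290) (nat_lit 266) (nat_lit 224)) (XT.lf (nat_lit 0) (nat_lit 53187558038) (nat_lit 76) (nat_lit 41678581007) (nat_lit 76) (nat_lit 3983850196) (nat_lit 9) (nat_lit 4) (nat_lit 10) (nat_lit 5) (nat_lit 10) (nat_lit 4) (nat_lit 291) (nat_lit 266) (nat_lit 223))) (XT.nd (nat_lit 78) (nat_lit 0) (nat_lit 0) (XT.lf (nat_lit 0) (nat_lit 5020661660) (nat_lit 76) (nat_lit 15521401344) (nat_lit 152) (nat_lit 90716782485) (nat_lit 7) (nat_lit 5) (nat_lit 8) (nat_lit 5) (nat_lit 9) (nat_lit 4) (nat_lit 292) (nat_lit 266) (nat_lit 222)) (XT.lf (nat_lit 0) (nat_lit 50212539560) (nat_lit 152) (nat_lit 59883029425) (nat_lit 0) (nat_lit 15289067440) (nat_lit 7) (nat_lit 5) (nat_lit 9) (nat_lit 4) (nat_lit 7) (nat_lit 4) (nat_lit 293) (nat_lit 266) (nat_lit 221))))))) (XT.nd (nat_lit 1014) (nat_lit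 152) (nat_lit 0) (XT.nd (nat_lit 468) (nat_lit 76) (nat_lit 0) (XT.nd (nat_lit 234) (nat_lit 152) (nat_lit 0) (XT.nd (nat_lit 78) (nat_lit 76) (nat_lit 0) (XT.lf (nat_lit 0) (nat_lit 84746142797) (nat_lit 152) (nat_lit 7035957043) (nat_lit 0) (nat_lit 49814200063) (nat_lit 7) (nat_lit 5) (nat_lit 9) (nat_lit 4) (nat_lit 7) (nat_lit 4) (nat_lit 294) (nat_lit 266) (nat_lit 220)) (XT.nd (nat_lit 78) (nat_lit 0) (nat_lit 0) (XT.lf (nat_lit 0) (nat_lit 56538576428) (nat_lit 76) (nat_lit 69266417788) (nat_lit 76) (nat_lit 34327109303) (nat_lit 6) (nat_lit 4) (nat_lit 7) (nat_lit 5) (nat_lit 7) (nat_lit 4) (nat_lit 295) (nat_lit 266) (nat_lit 219)) (XT.lf (nat_lit 0) (nat_lit 130049838369) (nat_lit 76) (nat_lit 43164416289) (nat_lit 76) (nat_lit 8218702804) (nat_lit 6) (nat_lit 4) (nat_lit 7) (nat_lit 5) (nat_lit 7) (nat_lit 4) (nat_lit 296) (nat_lit 266) (nat_lit 218)))) (XT.nd (nat_lit 78)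 (nat_lit 0) (nat_lit 0) (XT.lf (nat_lit 0) (nat_lit 8538731617) (nat_lit 76) (nat_lit 12369929280) (nat_lit 152) (nat_lit 184962847432) (nat_lit 4) (nat_lit 5) (nat_lit 5) (nat_lit 5) (nat_lit 6) (nat_lit 4) (nat_lit 297) (nat_lit 266) (nat_lit 217)) (XT.nd (nat_lit 78) (nat_lit 0) (nat_lit 0) (XT.lf (nat_lit 0) (nat_lit 56010310044) (nat_lit 152) (nat_lit 154137586206) (nat_lit 0) (nat_lit 23643526570) (nat_lit 4) (nat_lit 5) (nat_lit 6) (nat_lit 4) (nat_lit 4) (nat_lit 4) (nat_lit 298) (nat_lit 266) (nat_lit 216)) (XT.lf (nat_lit 0) (nat_lit 96709728996) (nat_lit 152) (nat_lit 104823951438) (nat_lit 0) (nat_lit 64339046085) (nat_lit 4) (nat_lit 5) (nat_lit 6) (nat_lit 4) (nat_lit 4) (nat_lit 4) (nat_lit 299) (nat_lit 266) (nat_lit 215))))) (XT.nd (nat_lit 234) (nat_lit 0) (nat_lit 0) (XT.nd (nat_lit 78) (nat_lit 76) (nat_lit 0) (XT.lf (nat_lit 0) (nat_lit 143505713637) (nat_lit 152)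 (nat_lit 48129543325) (nat_lit 0) (nat_lit 111131639912) (nat_lit 4) (nat_lit 5) (nat_lit 6) (nat_lit 4) (nat_lit 4) (nat_lit 4) (nat_lit 300) (nat_lit 266) (nat_lit 214)) (XT.nd (nat_lit 78) (nat_lit 0) (nat_lit 0) (XT.lf (nat_lit 0) (nat_lit 17952956124) (nat_lit 76) (nat_lit 179792650481) (nat_lit 76) (nat_lit 147415628222) (nat_lit 3) (nat_lit 4) (nat_lit 4) (nat_lit 5) (nat_lit 4) (nat_lit 4) (nat_lit 301) (nat_lit 266) (nat_lit 213)) (XT.lf (nat_lit 0) (nat_lit 96849457647) (nat_lit 76) (nat_lit 164666642604) (nat_lit 76) (nat_lit 132287056401) (nat_lit 3) (nat_lit 4) (nat_lit 4) (nat_lit 5) (nat_lit 4) (nat_lit 4) (nat_lit 302) (nat_lit 266) (nat_lit 212)))) (XT.nd (nat_lit 156) (nat_lit 0) (nat_lit 0) (XT.nd (nat_lit 78) (nat_lit 0) (nat_lit 0) (XT.lf (nat_lit 0) (nat_lit 187569171988) (nat_lit 76) (nat_lit 147277236705) (nat_lit 76) (nat_lit 114895420987) (nat_lit 3) (nat_lit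 4) (nat_lit 4) (nat_lit 5) (nat_lit 4) (nat_lit 4) (nat_lit 303) (nat_lit 266) (nat_lit 211)) (XT.lf (nat_lit 0) (nat_lit 291887050078) (nat_lit 76) (nat_lit 127284205279) (nat_lit 76) (nat_lit 94900450851) (nat_lit 3) (nat_lit 4) (nat_lit 4) (nat_lit 5) (nat_lit 4) (nat_lit 4) (nat_lit 304) (nat_lit 266) (nat_lit 210))) (XT.nd (nat_lit 78) (nat_lit 0) (nat_lit 0) (XT.lf (nat_lit 0) (nat_lit 411844093881) (nat_lit 76) (nat_lit 104296380319) (nat_lit 76) (nat_lit 71910940057) (nat_lit 3) (nat_lit 4) (nat_lit 4) (nat_lit 5) (nat_lit 4) (nat_lit 4) (nat_lit 305) (nat_lit 266) (nat_lit 209)) (XT.lf (nat_lit 0) (nat_lit 549787289037) (nat_lit 76) (nat_lit 77864000032) (nat_lit 76) (nat_lit 45477093827) (nat_lit 3) (nat_lit 4) (nat_lit 4) (nat_lit 5) (nat_lit 4) (nat_lit 4) (nat_lit 306) (nat_lit 266) (nat_lit 208)))))) (XT.nd (nat_lit 546) (nat_lit 0) (nat_lit 0) (XT.nd (nat_lit 234) (nat_lit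 0) (nat_lit 0) (XT.nd (nat_lit 78) (nat_lit 152) (nat_lit 0) (XT.lf (nat_lit 0) (nat_lit 708415524145) (nat_lit 76) (nat_lit 47469909152) (nat_lit 76) (nat_lit 15081728215) (nat_lit 3) (nat_lit 4) (nat_lit 4) (nat_lit 5) (nat_lit 4) (nat_lit 4) (nat_lit 307) (nat_lit 266) (nat_lit 207)) (XT.nd (nat_lit 78) (nat_lit 0) (nat_lit 0) (XT.lf (nat_lit 0) (nat_lit 7234433347) (nat_lit 76) (nat_lit 11815433358) (nat_lit 152) (nat_lit 864379971683) (nat_lit 1) (nat_lit 5) (nat_lit 2) (nat_lit 5) (nat_lit 3) (nat_lit 4) (nat_lit 308) (nat_lit 266) (nat_lit 206)) (XT.lf (nat_lit 0) (nat_lit 60001218755) (nat_lit 152) (nat_lit 922511674806) (nat_lit 0) (nat_lit 30010243494) (nat_lit 1) (nat_lit 5) (nat_lit 3) (nat_lit 4) (nat_lit 1) (nat_lit 4) (nat_lit 309) (nat_lit 266) (nat_lit 205)))) (XT.nd (nat_lit 156) (nat_lit 0) (nat_lit 0) (XT.nd (nat_lit 78) (nat_lit 0) (nat_lit 0) (XT.lf (nat_lit 0) (nat_lit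 107419672903) (nat_lit 152) (nat_lit 976106884867) (nat_lit 0) (nat_lit 77427921570) (nat_lit 1) (nat_lit 5) (nat_lit 3) (nat_lit 4) (nat_lit 1) (nat_lit 4) (nat_lit 310) (nat_lit 266) (nat_lit 204)) (XT.lf (nat_lit 0) (nat_lit 161948820058) (nat_lit 152) (nat_lit 1037745475703) (nat_lit 0) (nat_lit 131956393880) (nat_lit 1) (nat_lit 5) (nat_lit 3) (nat_lit 4) (nat_lit 1) (nat_lit 4) (nat_lit 311) (nat_lit 266) (nat_lit 203))) (XT.nd (nat_lit 78) (nat_lit 0) (nat_lit 0) (XT.lf (nat_lit 0) (nat_lit 224655534838) (nat_lit 152) (nat_lit 1108633419742) (nat_lit 0) (nat_lit 194662521838) (nat_lit 1) (nat_lit 5) (nat_lit 3) (nat_lit 4) (nat_lit 1) (nat_lit 4) (nat_lit 312) (nat_lit 266) (nat_lit 202)) (XT.lf (nat_lit 0) (nat_lit 296766687749) (nat_lit 152) (nat_lit 1190157655022) (nat_lit 0) (nat_lit 266773164470) (nat_lit 1) (nat_lit 5) (nat_lit 3) (nat_lit 4) (nat_lit 1) (nat_lit 4) (nat_lit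 313) (nat_lit 266) (nat_lit 201))))) (XT.nd (nat_lit 234) (nat_lit 0) (nat_lit 0) (XT.nd (nat_lit 78) (nat_lit 0) (nat_lit 0) (XT.lf (nat_lit 0) (nat_lit 379693149175) (nat_lit 152) (nat_lit 1283913220927) (nat_lit 0) (nat_lit 349699182174) (nat_lit 1) (nat_lit 5) (nat_lit 3) (nat_lit 4) (nat_lit 1) (nat_lit 4) (nat_lit 314) (nat_lit 266) (nat_lit 200)) (XT.nd (nat_lit 78) (nat_lit 0) (nat_lit 0) (XT.lf (nat_lit 0) (nat_lit 475057393360) (nat_lit 152) (nat_lit 1391734465486) (nat_lit 0) (nat_lit 445063040514) (nat_lit 1) (nat_lit 5) (nat_lit 3) (nat_lit 4) (nat_lit 1) (nat_lit 4) (nat_lit 315) (nat_lit 266) (nat_lit 199)) (XT.lf (nat_lit 0) (nat_lit 584725242474) (nat_lit 152) (nat_lit 1515730934788) (nat_lit 0) (nat_lit 554730554111) (nat_lit 1) (nat_lit 5) (nat_lit 3) (nat_lit 4) (nat_lit 1) (nat_lit 4) (nat_lit 316) (nat_lit 266) (nat_lit 198)))) (XT.nd (nat_lit 156) (nat_lit 0) (nat_lit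 0) (XT.nd (nat_lit 78) (nat_lit 0) (nat_lit 0) (XT.lf (nat_lit 0) (nat_lit 710842371825) (nat_lit 152) (nat_lit 1658328646712) (nat_lit 0) (nat_lit 680847391708) (nat_lit 1) (nat_lit 5) (nat_lit 3) (nat_lit 4) (nat_lit 1) (nat_lit 4) (nat_lit 317) (nat_lit 266) (nat_lit 197)) (XT.lf (nat_lit 0) (nat_lit 855876290466) (nat_lit 152) (nat_lit 1822317556490) (nat_lit 0) (nat_lit 825881056650) (nat_lit 1) (nat_lit 5) (nat_lit 3) (nat_lit 4) (nat_lit 1) (nat_lit 4) (nat_lit 318) (nat_lit 266) (nat_lit 196))) (XT.nd (nat_lit 78) (nat_lit 0) (nat_lit 0) (XT.lf (nat_lit 0) (nat_lit 1022664618545) (nat_lit 152) (nat_lit 2010906142792) (nat_lit 0) (nat_lit 992669164120) (nat_lit 1) (nat_lit 5) (nat_lit 3) (nat_lit 4) (nat_lit 1) (nat_lit 4) (nat_lit 319) (nat_lit 266) (nat_lit 195)) (XT.lf (nat_lit 0) (nat_lit 1214470605957) (nat_lit 152) (nat_lit 2227784182307) (nat_lit 0) (nat_lit 1184474959700)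 (nat_lit 1) (nat_lit 5) (nat_lit 3) (nat_lit 4) (nat_lit 1) (nat_lit 4) (nat_lit 320) (nat_lit 266) (nat_lit 194))))))))
noncomputable def xc32 : XT := (XT.nd (nat_lit 37830) (nat_lit 0) (nat_lit 0) (XT.nd (nat_lit 36816) (nat_lit 0) (nat_lit 1140) (XT.nd (nat_lit 468) (nat_lit 0) (nat_lit 0) (XT.nd (nat_lit 234) (nat_lit 0) (nat_lit 0) (XT.nd (nat_lit 78) (nat_lit 0) (nat_lit 0) (XT.lf (nat_lit 0) (nat_lit 1435046978545) (nat_lit 152) (nat_lit 2477194941024) (nat_lit 0) (nat_lit 1405051165476) (nat_lit 1) (nat_lit 5) (nat_lit 3) (nat_lit 4) (nat_lit 1) (nat_lit 4) (nat_lit 321) (nat_lit 266) (nat_lit 193)) (XT.nd (nat_lit 78) (nat_lit 0) (nat_lit 0) (XT.lf (nat_lit 0) (nat_lit 1688709360989) (nat_lit 152) (nat_lit 2764018194658) (nat_lit 0) (nat_lit 1658713402866) (nat_lit 1) (nat_lit 5) (nat_lit 3) (nat_lit 4) (nat_lit 1) (nat_lit 4) (nat_lit 322) (nat_lit 266) (nat_lit 192)) (XT.lf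 (nat_lit 0) (nat_lit 1980420712945) (nat_lit 152) (nat_lit 3093865702520) (nat_lit 0) (nat_lit 1950424628689) (nat_lit 1) (nat_lit 5) (nat_lit 3) (nat_lit 4) (nat_lit 1) (nat_lit 4) (nat_lit 323) (nat_lit 266) (nat_lit 191)))) (XT.nd (nat_lit 78) (nat_lit 0) (nat_lit 0) (XT.lf (nat_lit 0) (nat_lit 2315888430430) (nat_lit 152) (nat_lit 3473191002806) (nat_lit 0) (nat_lit 2285892236494) (nat_lit 1) (nat_lit 5) (nat_lit 3) (nat_lit 4) (nat_lit 1) (nat_lit 4) (nat_lit 324) (nat_lit 266) (nat_lit 190)) (XT.nd (nat_lit 78) (nat_lit 0) (nat_lit 0) (XT.lf (nat_lit 0) (nat_lit 2701676012265) (nat_lit 152) (nat_lit 3909415677478) (nat_lit 0) (nat_lit 2671679722954) (nat_lit 1) (nat_lit 5) (nat_lit 3) (nat_lit 4) (nat_lit 1) (nat_lit 4) (nat_lit 325) (nat_lit 266) (nat_lit 189)) (XT.lf (nat_lit 0) (nat_lit 3145331476355) (nat_lit 152) (nat_lit 4411074557129) (nat_lit 0) (nat_lit 3115335104109) (nat_lit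 1) (nat_lit 5) (nat_lit 3) (nat_lit 4) (nat_lit 1) (nat_lit 4) (nat_lit 326) (nat_lit 266) (nat_lit 188))))) (XT.nd (nat_lit 36036) (nat_lit 0) (nat_lit 3420) (XT.nd (nat_lit 78) (nat_lit 0) (nat_lit 0) (XT.lf (nat_lit 0) (nat_lit 3655535038302) (nat_lit 152) (nat_lit 4987982706795) (nat_lit 0) (nat_lit 3625538593938) (nat_lit 1) (nat_lit 5) (nat_lit 3) (nat_lit 4) (nat_lit 1) (nat_lit 4) (nat_lit 327) (nat_lit 266) (nat_lit 187)) (XT.nd (nat_lit 35880) (nat_lit 0) (nat_lit 3648) (XT.lf (nat_lit 0) (nat_lit 4242268941709) (nat_lit 152) (nat_lit 5651427459838) (nat_lit 0) (nat_lit 4212272434634) (nat_lit 1) (nat_lit 5) (nat_lit 3) (nat_lit 4) (nat_lit 1) (nat_lit 4) (nat_lit 328) (nat_lit 266) (nat_lit 186)) (XT.lf (nat_lit 0) (nat_lit 1508338390) (nat_lit 532) (nat_lit 2051598117) (nat_lit 532) (nat_lit 2051598117) (nat_lit 49) (nat_lit 3) (nat_lit 56) (nat_lit 3) (nat_lit 56) (nat_lit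 5) (nat_lit 267) (nat_lit 267) (nat_lit 246)))) (XT.nd (nat_lit 156) (nat_lit 304) (nat_lit 0) (XT.nd (nat_lit 78) (nat_lit 0) (nat_lit 0) (XT.lf (nat_lit 0) (nat_lit 4345660985) (nat_lit 456) (nat_lit 6059486944) (nat_lit 532) (nat_lit 1569141393) (nat_lit 50) (nat_lit 5) (nat_lit 56) (nat_lit 5) (nat_lit 57) (nat_lit 5) (nat_lit 268) (nat_lit 267) (nat_lit 245)) (XT.lf (nat_lit 76) (nat_lit 4785997362) (nat_lit 0) (nat_lit 1358323849) (nat_lit 532) (nat_lit 6672652926) (nat_lit 51) (nat_lit 5) (nat_lit 50) (nat_lit 5) (nat_lit 57) (nat_lit 5) (nat_lit 269) (nat_lit 267) (nat_lit 244))) (XT.nd (nat_lit 78) (nat_lit 380) (nat_lit 0) (XT.lf (nat_lit 76) (nat_lit 3703847789) (nat_lit 0) (nat_lit 4852426735) (nat_lit 532) (nat_lit 5202662408) (nat_lit 52) (nat_lit 5) (nat_lit 51) (nat_lit 5) (nat_lit 58) (nat_lit 5) (nat_lit 270) (nat_lit 267) (nat_lit 243)) (XT.lf (nat_lit 0) (nat_lit 2700627487)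 (nat_lit 456) (nat_lit 8982950103) (nat_lit 532) (nat_lit 3130640525) (nat_lit 46) (nat_lit 5) (nat_lit 52) (nat_lit 5) (nat_lit 53) (nat_lit 5) (nat_lit 271) (nat_lit 267) (nat_lit 242)))))) (XT.nd (nat_lit 468) (nat_lit 988) (nat_lit 0) (XT.nd (nat_lit 234) (nat_lit 684) (nat_lit 0) (XT.nd (nat_lit 78) (nat_lit 304) (nat_lit 0) (XT.lf (nat_lit 0) (nat_lit 1766410065) (nat_lit 304) (nat_lit 13917992020) (nat_lit 380) (nat_lit 311303578) (nat_lit 42) (nat_lit 5) (nat_lit 46) (nat_lit 5) (nat_lit 47) (nat_lit 5) (nat_lit 272) (nat_lit 267) (nat_lit 241)) (XT.nd (nat_lit 78) (nat_lit 0) (nat_lit 0) (XT.lf (nat_lit 0) (nat_lit 734334179) (nat_lit 228) (nat_lit 2574379182) (nat_lit 304) (nat_lit 13998328124) (nat_lit 38) (nat_lit 5) (nat_lit 41) (nat_lit 5) (nat_lit 42) (nat_lit 5) (nat_lit 273) (nat_lit 267) (nat_lit 240)) (XT.lf (nat_lit 0) (nat_lit 8038015859) (nat_lit 304) (nat_lit 357080525)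 (nat_lit 76) (nat_lit 10372745004) (nat_lit 38) (nat_lit 5) (nat_lit 42) (nat_lit 5) (nat_lit 39) (nat_lit 5) (nat_lit 274) (nat_lit 267) (nat_lit 239)))) (XT.nd (nat_lit 78) (nat_lit 456) (nat_lit 0) (XT.lf (nat_lit 0) (nat_lit 14050167948) (nat_lit 304) (nat_lit 1455799400) (nat_lit 76) (nat_lit 4896080911) (nat_lit 35) (nat_lit 5) (nat_lit 39) (nat_lit 5) (nat_lit 36) (nat_lit 5) (nat_lit 275) (nat_lit 267) (nat_lit 238)) (XT.nd (nat_lit 78) (nat_lit 304) (nat_lit 0) (XT.lf (nat_lit 0) (nat_lit 19539477677) (nat_lit 152) (nat_lit 2064972673) (nat_lit 228) (nat_lit 625853234) (nat_lit 33) (nat_lit 5) (nat_lit 35) (nat_lit 5) (nat_lit 36) (nat_lit 5) (nat_lit 276) (nat_lit 267) (nat_lit 237)) (XT.lf (nat_lit 0) (nat_lit 6463042573) (nat_lit 304) (nat_lit 4401016033) (nat_lit 76) (nat_lit 13393222721) (nat_lit 29) (nat_lit 5) (nat_lit 33) (nat_lit 5) (nat_lit 30) (nat_lit 5) (nat_lit 277)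 (nat_lit 267) (nat_lit 236))))) (XT.nd (nat_lit 234) (nat_lit 532) (nat_lit 0) (XT.nd (nat_lit 78) (nat_lit 304) (nat_lit 0) (XT.lf (nat_lit 0) (nat_lit 15264468478) (nat_lit 228) (nat_lit 6447353128) (nat_lit 76) (nat_lit 4820382828) (nat_lit 27) (nat_lit 5) (nat_lit 30) (nat_lit 5) (nat_lit 28) (nat_lit 5) (nat_lit 278) (nat_lit 267) (nat_lit 235)) (XT.nd (nat_lit 78) (nat_lit 152) (nat_lit 0) (XT.lf (nat_lit 0) (nat_lit 19986728541) (nat_lit 152) (nat_lit 6256943370) (nat_lit 228) (nat_lit 2836175468) (nat_lit 25) (nat_lit 5) (nat_lit 27) (nat_lit 5) (nat_lit 28) (nat_lit 5) (nat_lit 279) (nat_lit 267) (nat_lit 234)) (XT.lf (nat_lit 0) (nat_lit 7425555678) (nat_lit 152) (nat_lit 12734735427) (nat_lit 76) (nat_lit 11763527793) (nat_lit 23) (nat_lit 5) (nat_lit 25) (nat_lit 5) (nat_lit 24) (nat_lit 5) (nat_lit 280) (nat_lit 267) (nat_lit 233)))) (XT.nd (nat_lit 156) (nat_lit 304) (nat_lit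 0) (XT.nd (nat_lit 78) (nat_lit 76) (nat_lit 0) (XT.lf (nat_lit 0) (nat_lit 17641402859) (nat_lit 152) (nat_lit 2244271045) (nat_lit 228) (nat_lit 15236714574) (nat_lit 21) (nat_lit 5) (nat_lit 23) (nat_lit 5) (nat_lit 24) (nat_lit 5) (nat_lit 281) (nat_lit 267) (nat_lit 232)) (XT.lf (nat_lit 0) (nat_lit 14792513329) (nat_lit 76) (nat_lit 20557180202) (nat_lit 152) (nat_lit 3360311911) (nat_lit 20) (nat_lit 5) (nat_lit 21) (nat_lit 5) (nat_lit 22) (nat_lit 4) (nat_lit 282) (nat_lit 267) (nat_lit 231))) (XT.nd (nat_lit 78) (nat_lit 76) (nat_lit 0) (XT.lf (nat_lit 0) (nat_lit 10296151580) (nat_lit 152) (nat_lit 278308150) (nat_lit 228) (nat_lit 32178172392) (nat_lit 17) (nat_lit 5) (nat_lit 19) (nat_lit 5) (nat_lit 20) (nat_lit 5) (nat_lit 283) (nat_lit 267) (nat_lit 230)) (XT.lf (nat_lit 0) (nat_lit 3174645492) (nat_lit 76) (nat_lit 24539742719) (nat_lit 152) (nat_lit 19575206257) (nat_lit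 16) (nat_lit 5) (nat_lit 17) (nat_lit 5) (nat_lit 18) (nat_lit 4) (nat_lit 284) (nat_lit 267) (nat_lit 229))))))) (XT.nd (nat_lit 1014) (nat_lit 380) (nat_lit 0) (XT.nd (nat_lit 468) (nat_lit 304) (nat_lit 0) (XT.nd (nat_lit 234) (nat_lit 228) (nat_lit 0) (XT.nd (nat_lit 78) (nat_lit 228) (nat_lit 0) (XT.lf (nat_lit 0) (nat_lit 46049921390) (nat_lit 76) (nat_lit 2294528656) (nat_lit 152) (nat_lit 4089151642) (nat_lit 16) (nat_lit 5) (nat_lit 17) (nat_lit 5) (nat_lit 18) (nat_lit 4) (nat_lit 285) (nat_lit 267) (nat_lit 228)) (XT.nd (nat_lit 78) (nat_lit 76) (nat_lit 0) (XT.lf (nat_lit 0) (nat_lit 14523170731) (nat_lit 152) (nat_lit 20289202325) (nat_lit 76) (nat_lit 23391291387) (nat_lit 14) (nat_lit 5) (nat_lit 16) (nat_lit 5) (nat_lit 15) (nat_lit 4) (nat_lit 286) (nat_lit 267) (nat_lit 227)) (XT.lf (nat_lit 0) (nat_lit 25462679211) (nat_lit 76) (nat_lit 11068454562) (nat_lit 152) (nat_lit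 28231955081) (nat_lit 13) (nat_lit 5) (nat_lit 14) (nat_lit 5) (nat_lit 15) (nat_lit 4) (nat_lit 287) (nat_lit 267) (nat_lit 226)))) (XT.nd (nat_lit 78) (nat_lit 152) (nat_lit 0) (XT.lf (nat_lit 0) (nat_lit 6941642359) (nat_lit 76) (nat_lit 56036668876) (nat_lit 76) (nat_lit 9237093606) (nat_lit 12) (nat_lit 4) (nat_lit 13) (nat_lit 5) (nat_lit 13) (nat_lit 4) (nat_lit 288) (nat_lit 267) (nat_lit 225)) (XT.nd (nat_lit 78) (nat_lit 76) (nat_lit 0) (XT.lf (nat_lit 0) (nat_lit 13432587669) (nat_lit 152) (nat_lit 18877073315) (nat_lit 76) (nat_lit 48335167574) (nat_lit 11) (nat_lit 5) (nat_lit 13) (nat_lit 5) (nat_lit 12) (nat_lit 4) (nat_lit 289) (nat_lit 267) (nat_lit 224)) (XT.lf (nat_lit 0) (nat_lit 35985605500) (nat_lit 76) (nat_lit 3830494307) (nat_lit 152) (nat_lit 50434560310) (nat_lit 10) (nat_lit 5) (nat_lit 11) (nat_lit 5) (nat_lit 12) (nat_lit 4) (nat_lit 290) (nat_lit 267) (nat_lit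 223))))) (XT.nd (nat_lit 234) (nat_lit 76) (nat_lit 0) (XT.nd (nat_lit 78) (nat_lit 228) (nat_lit 0) (XT.lf (nat_lit 0) (nat_lit 71397321655) (nat_lit 152) (nat_lit 1778472720) (nat_lit 0) (nat_lit 28022369282) (nat_lit 10) (nat_lit 5) (nat_lit 12) (nat_lit 4) (nat_lit 10) (nat_lit 4) (nat_lit 291) (nat_lit 267) (nat_lit 222)) (XT.nd (nat_lit 78) (nat_lit 152) (nat_lit 0) (XT.lf (nat_lit 0) (nat_lit 61521323985) (nat_lit 76) (nat_lit 47763223159) (nat_lit 76) (nat_lit 4377750284) (nat_lit 9) (nat_lit 4) (nat_lit 10) (nat_lit 5) (nat_lit 10) (nat_lit 4) (nat_lit 292) (nat_lit 267) (nat_lit 221)) (XT.lf (nat_lit 0) (nat_lit 6108711258) (nat_lit 76) (nat_lit 17690967778) (nat_lit 152) (nat_lit 104133799201) (nat_lit 7) (nat_lit 5) (nat_lit 8) (nat_lit 5) (nat_lit 9) (nat_lit 4) (nat_lit 293) (nat_lit 267) (nat_lit 220)))) (XT.nd (nat_lit 156) (nat_lit 76) (nat_lit 0) (XT.nd (nat_lit 78) (nat_lit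 0) (nat_lit 0) (XT.lf (nat_lit 0) (nat_lit 57901048293) (nat_lit 152) (nat_lit 68565197719) (nat_lit 0) (nat_lit 17713477785) (nat_lit 7) (nat_lit 5) (nat_lit 9) (nat_lit 4) (nat_lit 7) (nat_lit 4) (nat_lit 294) (nat_lit 267) (nat_lit 219)) (XT.lf (nat_lit 0) (nat_lit 97594262302) (nat_lit 152) (nat_lit 7830232234) (nat_lit 0) (nat_lit 57400286794) (nat_lit 7) (nat_lit 5) (nat_lit 9) (nat_lit 4) (nat_lit 7) (nat_lit 4) (nat_lit 295) (nat_lit 267) (nat_lit 218))) (XT.nd (nat_lit 78) (nat_lit 0) (nat_lit 0) (XT.lf (nat_lit 0) (nat_lit 65258378888) (nat_lit 76) (nat_lit 79541545918) (nat_lit 76) (nat_lit 39342000844) (nat_lit 6) (nat_lit 4) (nat_lit 7) (nat_lit 5) (nat_lit 7) (nat_lit 4) (nat_lit 296) (nat_lit 267) (nat_lit 217)) (XT.lf (nat_lit 0) (nat_lit 149765154121) (nat_lit 76) (nat_lit 49539222612) (nat_lit 76) (nat_lit 9334834438) (nat_lit 6) (nat_lit 4) (nat_lit 7) (nat_lit 5) (nat_lit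 7) (nat_lit 4) (nat_lit 297) (nat_lit 267) (nat_lit 216)))))) (XT.nd (nat_lit 468) (nat_lit 152) (nat_lit 0) (XT.nd (nat_lit 234) (nat_lit 76) (nat_lit 0) (XT.nd (nat_lit 78) (nat_lit 0) (nat_lit 0) (XT.lf (nat_lit 0) (nat_lit 10015174595) (nat_lit 76) (nat_lit 14130870674) (nat_lit 152) (nat_lit 212598061266) (nat_lit 4) (nat_lit 5) (nat_lit 5) (nat_lit 5) (nat_lit 6) (nat_lit 4) (nat_lit 298) (nat_lit 267) (nat_lit 215)) (XT.nd (nat_lit 78) (nat_lit 0) (nat_lit 0) (XT.lf (nat_lit 0) (nat_lit 64501734045) (nat_lit 152) (nat_lit 177083017706) (nat_lit 0) (nat_lit 27268158447) (nat_lit 4) (nat_lit 5) (nat_lit 6) (nat_lit 4) (nat_lit 4) (nat_lit 4) (nat_lit 299) (nat_lit 267) (nat_lit 214)) (XT.lf (nat_lit 0) (nat_lit 111294342689) (nat_lit 152) (nat_lit 120395190734) (nat_lit 0) (nat_lit 74057818556) (nat_lit 4) (nat_lit 5) (nat_lit 6) (nat_lit 4) (nat_lit 4) (nat_lit 4) (nat_lit 300) (nat_lit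 267) (nat_lit 213)))) (XT.nd (nat_lit 78) (nat_lit 76) (nat_lit 0) (XT.lf (nat_lit 0) (nat_lit 165099530981) (nat_lit 152) (nat_lit 55216493590) (nat_lit 0) (nat_lit 127860442905) (nat_lit 4) (nat_lit 5) (nat_lit 6) (nat_lit 4) (nat_lit 4) (nat_lit 4) (nat_lit 301) (nat_lit 267) (nat_lit 212)) (XT.nd (nat_lit 78) (nat_lit 0) (nat_lit 0) (XT.lf (nat_lit 0) (nat_lit 20767166900) (nat_lit 76) (nat_lit 206702293091) (nat_lit 76) (nat_lit 169460975499) (nat_lit 3) (nat_lit 4) (nat_lit 4) (nat_lit 5) (nat_lit 4) (nat_lit 4) (nat_lit 302) (nat_lit 267) (nat_lit 211)) (XT.lf (nat_lit 0) (nat_lit 111482326170) (nat_lit 76) (nat_lit 189315112940) (nat_lit 76) (nat_lit 152071856639) (nat_lit 3) (nat_lit 4) (nat_lit 4) (nat_lit 5) (nat_lit 4) (nat_lit 4) (nat_lit 303) (nat_lit 267) (nat_lit 210))))) (XT.nd (nat_lit 234) (nat_lit 152) (nat_lit 0) (XT.nd (nat_lit 78) (nat_lit 0) (nat_lit 0) (XT.lf (nat_lit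 0) (nat_lit 215796243330) (nat_lit 76) (nat_lit 169324016946) (nat_lit 76) (nat_lit 132079074811) (nat_lit 3) (nat_lit 4) (nat_lit 4) (nat_lit 5) (nat_lit 4) (nat_lit 4) (nat_lit 304) (nat_lit 267) (nat_lit 209)) (XT.nd (nat_lit 78) (nat_lit 0) (nat_lit 0) (XT.lf (nat_lit 0) (nat_lit 335749842846) (nat_lit 76) (nat_lit 146337874971) (nat_lit 76) (nat_lit 109091466893) (nat_lit 3) (nat_lit 4) (nat_lit 4) (nat_lit 5) (nat_lit 4) (nat_lit 4) (nat_lit 305) (nat_lit 267) (nat_lit 208)) (XT.lf (nat_lit 0) (nat_lit 473690042969) (nat_lit 76) (nat_lit 119906958149) (nat_lit 76) (nat_lit 82659275338) (nat_lit 3) (nat_lit 4) (nat_lit 4) (nat_lit 5) (nat_lit 4) (nat_lit 4) (nat_lit 306) (nat_lit 267) (nat_lit 207)))) (XT.nd (nat_lit 156) (nat_lit 152) (nat_lit 0) (XT.nd (nat_lit 78) (nat_lit 0) (nat_lit 0) (XT.lf (nat_lit 0) (nat_lit 632315673701) (nat_lit 76) (nat_lit 89514139848) (nat_lit 76) (nat_lit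 52265348574) (nat_lit 3) (nat_lit 4) (nat_lit 4) (nat_lit 5) (nat_lit 4) (nat_lit 4) (nat_lit 307) (nat_lit 267) (nat_lit 206)) (XT.lf (nat_lit 0) (nat_lit 814730279992) (nat_lit 76) (nat_lit 54564777970) (nat_lit 76) (nat_lit 17315022814) (nat_lit 3) (nat_lit 4) (nat_lit 4) (nat_lit 5) (nat_lit 4) (nat_lit 4) (nat_lit 308) (nat_lit 267) (nat_lit 205))) (XT.nd (nat_lit 78) (nat_lit 0) (nat_lit 0) (XT.lf (nat_lit 0) (nat_lit 8368922791) (nat_lit 76) (nat_lit 13563536873) (nat_lit 152) (nat_lit 994009837241) (nat_lit 1) (nat_lit 5) (nat_lit 2) (nat_lit 5) (nat_lit 3) (nat_lit 4) (nat_lit 309) (nat_lit 267) (nat_lit 204)) (XT.lf (nat_lit 0) (nat_lit 69023745256) (nat_lit 152) (nat_lit 1060844287423) (nat_lit 0) (nat_lit 34531780306) (nat_lit 1) (nat_lit 5) (nat_lit 3) (nat_lit 4) (nat_lit 1) (nat_lit 4) (nat_lit 310) (nat_lit 267) (nat_lit 203))))))))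
noncomputable def xc33 : XT := (XT.nd (nat_lit 37908) (nat_lit 0) (nat_lit 228) (XT.nd (nat_lit 1014) (nat_lit 0) (nat_lit 0) (XT.nd (nat_lit 468) (nat_lit 0) (nat_lit 0) (XT.nd (nat_lit 234) (nat_lit 0) (nat_lit 0) (XT.nd (nat_lit 78) (nat_lit 0) (nat_lit 0) (XT.lf (nat_lit 0) (nat_lit 123552053132) (nat_lit 152) (nat_lit 1122484536202) (nat_lit 0) (nat_lit 89059501361) (nat_lit 1) (nat_lit 5) (nat_lit 3) (nat_lit 4) (nat_lit 1) (nat_lit 4) (nat_lit 311) (nat_lit 267) (nat_lit 202)) (XT.nd (nat_lit 78) (nat_lit 0) (nat_lit 0) (XT.lf (nat_lit 0) (nat_lit 186258038105) (nat_lit 152) (nat_lit 1193373921932) (nat_lit 0) (nat_lit 151764976054) (nat_lit 1) (nat_lit 5) (nat_lit 3) (nat_lit 4) (nat_lit 1) (nat_lit 4) (nat_lit 312) (nat_lit 267) (nat_lit 201)) (XT.lf (nat_lit 0) (nat_lit 258368556401) (nat_lit 152) (nat_lit 1274899410855) (nat_lit 0) (nat_lit 223875050628) (nat_lit 1) (nat_lit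 5) (nat_lit 3) (nat_lit 4) (nat_lit 1) (nat_lit 4) (nat_lit 313) (nat_lit 267) (nat_lit 200)))) (XT.nd (nat_lit 78) (nat_lit 0) (nat_lit 0) (XT.lf (nat_lit 0) (nat_lit 341294465987) (nat_lit 152) (nat_lit 1368656066884) (nat_lit 0) (nat_lit 306800574370) (nat_lit 1) (nat_lit 5) (nat_lit 3) (nat_lit 4) (nat_lit 1) (nat_lit 4) (nat_lit 314) (nat_lit 267) (nat_lit 199)) (XT.nd (nat_lit 78) (nat_lit 0) (nat_lit 0) (XT.lf (nat_lit 0) (nat_lit 436658230313) (nat_lit 152) (nat_lit 1476478259378) (nat_lit 0) (nat_lit 402164003178) (nat_lit 1) (nat_lit 5) (nat_lit 3) (nat_lit 4) (nat_lit 1) (nat_lit 4) (nat_lit 315) (nat_lit 267) (nat_lit 198)) (XT.lf (nat_lit 0) (nat_lit 546325662157) (nat_lit 152) (nat_lit 1600475552972) (nat_lit 0) (nat_lit 511831143268) (nat_lit 1) (nat_lit 5) (nat_lit 3) (nat_lit 4) (nat_lit 1) (nat_lit 4) (nat_lit 316) (nat_lit 267) (nat_lit 197))))) (XT.nd (nat_lit 234)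 (nat_lit 0) (nat_lit 0) (XT.nd (nat_lit 78) (nat_lit 0) (nat_lit 0) (XT.lf (nat_lit 0) (nat_lit 672442428665) (nat_lit 152) (nat_lit 1743073981670) (nat_lit 0) (nat_lit 637947656077) (nat_lit 1) (nat_lit 5) (nat_lit 3) (nat_lit 4) (nat_lit 1) (nat_lit 4) (nat_lit 317) (nat_lit 267) (nat_lit 196)) (XT.nd (nat_lit 78) (nat_lit 0) (nat_lit 0) (XT.lf (nat_lit 0) (nat_lit 817476031790) (nat_lit 152) (nat_lit 1907063514731) (nat_lit 0) (nat_lit 782981038594) (nat_lit 1) (nat_lit 5) (nat_lit 3) (nat_lit 4) (nat_lit 1) (nat_lit 4) (nat_lit 318) (nat_lit 267) (nat_lit 195)) (XT.lf (nat_lit 0) (nat_lit 984264085507) (nat_lit 152) (nat_lit 2095652643018) (nat_lit 0) (nat_lit 949768900478) (nat_lit 1) (nat_lit 5) (nat_lit 3) (nat_lit 4) (nat_lit 1) (nat_lit 4) (nat_lit 319) (nat_lit 267) (nat_lit 194)))) (XT.nd (nat_lit 156) (nat_lit 0) (nat_lit 0) (XT.nd (nat_lit 78) (nat_lit 0) (nat_lit 0) (XT.lf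 (nat_lit 0) (nat_lit 1176069834344) (nat_lit 152) (nat_lit 2312531153823) (nat_lit 0) (nat_lit 1141574482504) (nat_lit 1) (nat_lit 5) (nat_lit 3) (nat_lit 4) (nat_lit 1) (nat_lit 4) (nat_lit 320) (nat_lit 267) (nat_lit 193)) (XT.lf (nat_lit 0) (nat_lit 1396645999475) (nat_lit 152) (nat_lit 2561942322359) (nat_lit 0) (nat_lit 1362150502581) (nat_lit 1) (nat_lit 5) (nat_lit 3) (nat_lit 4) (nat_lit 1) (nat_lit 4) (nat_lit 321) (nat_lit 267) (nat_lit 192))) (XT.nd (nat_lit 78) (nat_lit 0) (nat_lit 0) (XT.lf (nat_lit 0) (nat_lit 1650308201522) (nat_lit 152) (nat_lit 2848765932357) (nat_lit 0) (nat_lit 1615812578494) (nat_lit 1) (nat_lit 5) (nat_lit 3) (nat_lit 4) (nat_lit 1) (nat_lit 4) (nat_lit 322) (nat_lit 267) (nat_lit 191)) (XT.lf (nat_lit 0) (nat_lit 1942019396611) (nat_lit 152) (nat_lit 3178613750100) (nat_lit 0) (nat_lit 1907523663902) (nat_lit 1) (nat_lit 5) (nat_lit 3) (nat_lit 4)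 (nat_lit 1) (nat_lit 4) (nat_lit 323) (nat_lit 267) (nat_lit 190)))))) (XT.nd (nat_lit 36348) (nat_lit 0) (nat_lit 2584) (XT.nd (nat_lit 234) (nat_lit 0) (nat_lit 0) (XT.nd (nat_lit 78) (nat_lit 0) (nat_lit 0) (XT.lf (nat_lit 0) (nat_lit 2277486977690) (nat_lit 152) (nat_lit 3557939319848) (nat_lit 0) (nat_lit 2242991149607) (nat_lit 1) (nat_lit 5) (nat_lit 3) (nat_lit 4) (nat_lit 1) (nat_lit 4) (nat_lit 324) (nat_lit 267) (nat_lit 189)) (XT.nd (nat_lit 78) (nat_lit 0) (nat_lit 0) (XT.lf (nat_lit 0) (nat_lit 2663274440911) (nat_lit 152) (nat_lit 3994164228836) (nat_lit 0) (nat_lit 2628778529893) (nat_lit 1) (nat_lit 5) (nat_lit 3) (nat_lit 4) (nat_lit 1) (nat_lit 4) (nat_lit 325) (nat_lit 267) (nat_lit 188)) (XT.lf (nat_lit 0) (nat_lit 3106929801858) (nat_lit 152) (nat_lit 4495823312238) (nat_lit 0) (nat_lit 3072433818723) (nat_lit 1) (nat_lit 5) (nat_lit 3) (nat_lit 4) (nat_lit 1) (nat_lit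 4) (nat_lit 326) (nat_lit 267) (nat_lit 187)))) (XT.nd (nat_lit 78) (nat_lit 0) (nat_lit 0) (XT.lf (nat_lit 0) (nat_lit 3617133274116) (nat_lit 152) (nat_lit 5072731639080) (nat_lit 0) (nat_lit 3582637228270) (nat_lit 1) (nat_lit 5) (nat_lit 3) (nat_lit 4) (nat_lit 1) (nat_lit 4) (nat_lit 327) (nat_lit 267) (nat_lit 186)) (XT.nd (nat_lit 35958) (nat_lit 0) (nat_lit 3648) (XT.lf (nat_lit 0) (nat_lit 4203867099532) (nat_lit 152) (nat_lit 5736176546189) (nat_lit 0) (nat_lit 4169370999155) (nat_lit 1) (nat_lit 5) (nat_lit 3) (nat_lit 4) (nat_lit 1) (nat_lit 4) (nat_lit 328) (nat_lit 267) (nat_lit 185)) (XT.lf (nat_lit 0) (nat_lit 2616230669) (nat_lit 532) (nat_lit 1882153133) (nat_lit 532) (nat_lit 1882153133) (nat_lit 49) (nat_lit 3) (nat_lit 56) (nat_lit 3) (nat_lit 56) (nat_lit 5) (nat_lit 268) (nat_lit 268) (nat_lit 244))))) (XT.nd (nat_lit 234) (nat_lit 1140) (nat_lit 0) (XT.nd (nat_lit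 78) (nat_lit 0) (nat_lit 0) (XT.lf (nat_lit 0) (nat_lit 6535438363) (nat_lit 456) (nat_lit 5950287992) (nat_lit 532) (nat_lit 1157852004) (nat_lit 50) (nat_lit 5) (nat_lit 56) (nat_lit 5) (nat_lit 57) (nat_lit 5) (nat_lit 269) (nat_lit 268) (nat_lit 243)) (XT.nd (nat_lit 78) (nat_lit 0) (nat_lit 76) (XT.lf (nat_lit 76) (nat_lit 6435840004) (nat_lit 0) (nat_lit 1989871538) (nat_lit 532) (nat_lit 6201707515) (nat_lit 51) (nat_lit 5) (nat_lit 50) (nat_lit 5) (nat_lit 57) (nat_lit 5) (nat_lit 270) (nat_lit 268) (nat_lit 242)) (XT.lf (nat_lit 76) (nat_lit 5224513754) (nat_lit 0) (nat_lit 5811850245) (nat_lit 532) (nat_lit 4687793064) (nat_lit 52) (nat_lit 5) (nat_lit 51) (nat_lit 5) (nat_lit 58) (nat_lit 5) (nat_lit 271) (nat_lit 268) (nat_lit 241)))) (XT.nd (nat_lit 156) (nat_lit 456) (nat_lit 0) (XT.nd (nat_lit 78) (nat_lit 380) (nat_lit 0) (XT.lf (nat_lit 0) (nat_lit 4084490752) (nat_lit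 456) (nat_lit 10410884014) (nat_lit 532) (nat_lit 2453723443) (nat_lit 46) (nat_lit 5) (nat_lit 52) (nat_lit 5) (nat_lit 53) (nat_lit 5) (nat_lit 272) (nat_lit 268) (nat_lit 240)) (XT.lf (nat_lit 0) (nat_lit 629399003) (nat_lit 380) (nat_lit 15324445787) (nat_lit 76) (nat_lit 2362323982) (nat_lit 41) (nat_lit 5) (nat_lit 46) (nat_lit 5) (nat_lit 42) (nat_lit 5) (nat_lit 273) (nat_lit 268) (nat_lit 239))) (XT.nd (nat_lit 78) (nat_lit 228) (nat_lit 0) (XT.lf (nat_lit 0) (nat_lit 1787880512) (nat_lit 228) (nat_lit 2882862949) (nat_lit 304) (nat_lit 15161337820) (nat_lit 38) (nat_lit 5) (nat_lit 41) (nat_lit 5) (nat_lit 42) (nat_lit 5) (nat_lit 274) (nat_lit 268) (nat_lit 238)) (XT.lf (nat_lit 0) (nat_lit 494571421) (nat_lit 228) (nat_lit 9515468345) (nat_lit 304) (nat_lit 11510142907) (nat_lit 35) (nat_lit 5) (nat_lit 38) (nat_lit 5) (nat_lit 39) (nat_lit 5) (nat_lit 275) (nat_lit 268) (nat_lit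 237))))))) (XT.nd (nat_lit 1014) (nat_lit 684) (nat_lit 0) (XT.nd (nat_lit 468) (nat_lit 760) (nat_lit 0) (XT.nd (nat_lit 234) (nat_lit 456) (nat_lit 0) (XT.nd (nat_lit 78) (nat_lit 456) (nat_lit 0) (XT.lf (nat_lit 0) (nat_lit 16836239174) (nat_lit 304) (nat_lit 816000661) (nat_lit 76) (nat_lit 5754502242) (nat_lit 35) (nat_lit 5) (nat_lit 39) (nat_lit 5) (nat_lit 36) (nat_lit 5) (nat_lit 276) (nat_lit 268) (nat_lit 236)) (XT.nd (nat_lit 78) (nat_lit 304) (nat_lit 0) (XT.lf (nat_lit 0) (nat_lit 23255928276) (nat_lit 152) (nat_lit 2198121646) (nat_lit 228) (nat_lit 60928343) (nat_lit 33) (nat_lit 5) (nat_lit 35) (nat_lit 5) (nat_lit 36) (nat_lit 5) (nat_lit 277) (nat_lit 268) (nat_lit 235)) (XT.lf (nat_lit 0) (nat_lit 7999275258) (nat_lit 304) (nat_lit 4269592297) (nat_lit 76) (nat_lit 15580732874) (nat_lit 29) (nat_lit 5) (nat_lit 33) (nat_lit 5) (nat_lit 30) (nat_lit 5) (nat_lit 278)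 (nat_lit 268) (nat_lit 234)))) (XT.nd (nat_lit 78) (nat_lit 304) (nat_lit 0) (XT.lf (nat_lit 0) (nat_lit 18069567584) (nat_lit 228) (nat_lit 6653405254) (nat_lit 76) (nat_lit 5747018394) (nat_lit 27) (nat_lit 5) (nat_lit 30) (nat_lit 5) (nat_lit 28) (nat_lit 5) (nat_lit 279) (nat_lit 268) (nat_lit 233)) (XT.nd (nat_lit 78) (nat_lit 152) (nat_lit 0) (XT.lf (nat_lit 0) (nat_lit 23681369503) (nat_lit 152) (nat_lit 6963806190) (nat_lit 228) (nat_lit 2758748588) (nat_lit 25) (nat_lit 5) (nat_lit 27) (nat_lit 5) (nat_lit 28) (nat_lit 5) (nat_lit 280) (nat_lit 268) (nat_lit 232)) (XT.lf (nat_lit 0) (nat_lit 8976214313) (nat_lit 152) (nat_lit 13954119323) (nat_lit 76) (nat_lit 13746545275) (nat_lit 23) (nat_lit 5) (nat_lit 25) (nat_lit 5) (nat_lit 24) (nat_lit 5) (nat_lit 281) (nat_lit 268) (nat_lit 231))))) (XT.nd (nat_lit 234) (nat_lit 304) (nat_lit 0) (XT.nd (nat_lit 78) (nat_lit 304) (nat_lit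 0) (XT.lf (nat_lit 0) (nat_lit 20919964691) (nat_lit 152) (nat_lit 2343616437) (nat_lit 228) (nat_lit 17095068261) (nat_lit 21) (nat_lit 5) (nat_lit 23) (nat_lit 5) (nat_lit 24) (nat_lit 5) (nat_lit 282) (nat_lit 268) (nat_lit 230)) (XT.nd (nat_lit 78) (nat_lit 228) (nat_lit 0) (XT.lf (nat_lit 0) (nat_lit 17614372922) (nat_lit 76) (nat_lit 23400766032) (nat_lit 152) (nat_lit 3471899410) (nat_lit 20) (nat_lit 5) (nat_lit 21) (nat_lit 5) (nat_lit 22) (nat_lit 4) (nat_lit 283) (nat_lit 268) (nat_lit 229)) (XT.lf (nat_lit 0) (nat_lit 12410851300) (nat_lit 152) (nat_lit 87689855) (nat_lit 228) (nat_lit 36639607713) (nat_lit 17) (nat_lit 5) (nat_lit 19) (nat_lit 5) (nat_lit 20) (nat_lit 5) (nat_lit 284) (nat_lit 268) (nat_lit 228)))) (XT.nd (nat_lit 156) (nat_lit 228) (nat_lit 0) (XT.nd (nat_lit 78) (nat_lit 0) (nat_lit 0) (XT.lf (nat_lit 0) (nat_lit 4192793503) (nat_lit 76) (nat_lit 27990483260)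 (nat_lit 152) (nat_lit 22174518385) (nat_lit 16) (nat_lit 5) (nat_lit 17) (nat_lit 5) (nat_lit 18) (nat_lit 4) (nat_lit 285) (nat_lit 268) (nat_lit 227)) (XT.lf (nat_lit 0) (nat_lit 53428671500) (nat_lit 76) (nat_lit 2438515896) (nat_lit 152) (nat_lit 4409508032) (nat_lit 16) (nat_lit 5) (nat_lit 17) (nat_lit 5) (nat_lit 18) (nat_lit 4) (nat_lit 286) (nat_lit 268) (nat_lit 226))) (XT.nd (nat_lit 78) (nat_lit 76) (nat_lit 0) (XT.lf (nat_lit 0) (nat_lit 16959023492) (nat_lit 152) (nat_lit 22871765875) (nat_lit 76) (nat_lit 27082624486) (nat_lit 14) (nat_lit 5) (nat_lit 16) (nat_lit 5) (nat_lit 15) (nat_lit 4) (nat_lit 287) (nat_lit 268) (nat_lit 225)) (XT.lf (nat_lit 0) (nat_lit 29703892044) (nat_lit 76) (nat_lit 12540862577) (nat_lit 152) (nat_lit 32213898817) (nat_lit 13) (nat_lit 5) (nat_lit 14) (nat_lit 5) (nat_lit 15) (nat_lit 4) (nat_lit 288) (nat_lit 268) (nat_lit 224)))))) (XT.nd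 (nat_lit 468) (nat_lit 228) (nat_lit 0) (XT.nd (nat_lit 234) (nat_lit 228) (nat_lit 0) (XT.nd (nat_lit 78) (nat_lit 152) (nat_lit 0) (XT.lf (nat_lit 0) (nat_lit 8382158918) (nat_lit 76) (nat_lit 64259865656) (nat_lit 76) (nat_lit 10388174808) (nat_lit 12) (nat_lit 4) (nat_lit 13) (nat_lit 5) (nat_lit 13) (nat_lit 4) (nat_lit 289) (nat_lit 268) (nat_lit 223)) (XT.nd (nat_lit 78) (nat_lit 76) (nat_lit 0) (XT.lf (nat_lit 0) (nat_lit 15641174131) (nat_lit 152) (nat_lit 21351115118) (nat_lit 76) (nat_lit 55733639826) (nat_lit 11) (nat_lit 5) (nat_lit 13) (nat_lit 5) (nat_lit 12) (nat_lit 4) (nat_lit 290) (nat_lit 268) (nat_lit 222)) (XT.lf (nat_lit 0) (nat_lit 41710703300) (nat_lit 76) (nat_lit 4254115331) (nat_lit 152) (nat_lit 57809224977) (nat_lit 10) (nat_lit 5) (nat_lit 11) (nat_lit 5) (nat_lit 12) (nat_lit 4) (nat_lit 291) (nat_lit 268) (nat_lit 221)))) (XT.nd (nat_lit 78) (nat_lit 228)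 (nat_lit 0) (XT.lf (nat_lit 0) (nat_lit 82263384494) (nat_lit 152) (nat_lit 1751467910) (nat_lit 0) (nat_lit 32350421923) (nat_lit 10) (nat_lit 5) (nat_lit 12) (nat_lit 4) (nat_lit 10) (nat_lit 4) (nat_lit 292) (nat_lit 268) (nat_lit 220)) (XT.nd (nat_lit 78) (nat_lit 152) (nat_lit 0) (XT.lf (nat_lit 0) (nat_lit 71018431650) (nat_lit 76) (nat_lit 54801321001) (nat_lit 76) (nat_lit 4880403419) (nat_lit 9) (nat_lit 4) (nat_lit 10) (nat_lit 5) (nat_lit 10) (nat_lit 4) (nat_lit 293) (nat_lit 268) (nat_lit 219)) (XT.lf (nat_lit 0) (nat_lit 7278288532) (nat_lit 76) (nat_lit 20224655464) (nat_lit 152) (nat_lit 119609823215) (nat_lit 7) (nat_lit 5) (nat_lit 8) (nat_lit 5) (nat_lit 9) (nat_lit 4) (nat_lit 294) (nat_lit 268) (nat_lit 218))))) (XT.nd (nat_lit 234) (nat_lit 152) (nat_lit 0) (XT.nd (nat_lit 78) (nat_lit 76) (nat_lit 0) (XT.lf (nat_lit 0) (nat_lit 66704638655) (nat_lit 152) (nat_lit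 78622917929) (nat_lit 0) (nat_lit 20469592254) (nat_lit 7) (nat_lit 5) (nat_lit 9) (nat_lit 4) (nat_lit 7) (nat_lit 4) (nat_lit 295) (nat_lit 268) (nat_lit 217)) (XT.nd (nat_lit 78) (nat_lit 76) (nat_lit 0) (XT.lf (nat_lit 0) (nat_lit 112336386968) (nat_lit 152) (nat_lit 8807324071) (nat_lit 0) (nat_lit 66096497466) (nat_lit 7) (nat_lit 5) (nat_lit 9) (nat_lit 4) (nat_lit 7) (nat_lit 4) (nat_lit 296) (nat_lit 268) (nat_lit 216)) (XT.lf (nat_lit 0) (nat_lit 75227866153) (nat_lit 76) (nat_lit 91385946398) (nat_lit 76) (nat_lit 45141845504) (nat_lit 6) (nat_lit 4) (nat_lit 7) (nat_lit 5) (nat_lit 7) (nat_lit 4) (nat_lit 297) (nat_lit 268) (nat_lit 215)))) (XT.nd (nat_lit 156) (nat_lit 0) (nat_lit 0) (XT.nd (nat_lit 78) (nat_lit 152) (nat_lit 0) (XT.lf (nat_lit 0) (nat_lit 172387084137) (nat_lit 76) (nat_lit 56894600432) (nat_lit 76) (nat_lit 10646837458) (nat_lit 6) (nat_lit 4) (nat_lit 7)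 (nat_lit 5) (nat_lit 7) (nat_lit 4) (nat_lit 298) (nat_lit 268) (nat_lit 214)) (XT.lf (nat_lit 0) (nat_lit 11665377616) (nat_lit 76) (nat_lit 16179009405) (nat_lit 152) (nat_lit 244405189527) (nat_lit 4) (nat_lit 5) (nat_lit 5) (nat_lit 5) (nat_lit 6) (nat_lit 4) (nat_lit 299) (nat_lit 268) (nat_lit 213))) (XT.nd (nat_lit 78) (nat_lit 0) (nat_lit 0) (XT.lf (nat_lit 0) (nat_lit 74244954450) (nat_lit 152) (nat_lit 203512989128) (nat_lit 0) (nat_lit 31417439220) (nat_lit 4) (nat_lit 5) (nat_lit 6) (nat_lit 4) (nat_lit 4) (nat_lit 4) (nat_lit 300) (nat_lit 268) (nat_lit 212)) (XT.lf (nat_lit 0) (nat_lit 128047590004) (nat_lit 152) (nat_lit 138339268272) (nat_lit 0) (nat_lit 85217845257) (nat_lit 4) (nat_lit 5) (nat_lit 6) (nat_lit 4) (nat_lit 4) (nat_lit 4) (nat_lit 301) (nat_lit 268) (nat_lit 211))))))))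
noncomputable def xc34 : XT := (XT.nd (nat_lit 2028) (nat_lit 0) (nat_lit 0) (XT.nd (nat_lit 1014) (nat_lit 0) (nat_lit 0) (XT.nd (nat_lit 468) (nat_lit 152) (nat_lit 0) (XT.nd (nat_lit 234) (nat_lit 0) (nat_lit 0) (XT.nd (nat_lit 78) (nat_lit 76) (nat_lit 0) (XT.lf (nat_lit 0) (nat_lit 189915848378) (nat_lit 152) (nat_lit 63398792783) (nat_lit 0) (nat_lit 147084164922) (nat_lit 4) (nat_lit 5) (nat_lit 6) (nat_lit 4) (nat_lit 4) (nat_lit 4) (nat_lit 302) (nat_lit 268) (nat_lit 210)) (XT.nd (nat_lit 78) (nat_lit 0) (nat_lit 0) (XT.lf (nat_lit 0) (nat_lit 23973937480) (nat_lit 76) (nat_lit 237662831790) (nat_lit 76) (nat_lit 194829462500) (nat_lit 3) (nat_lit 4) (nat_lit 4) (nat_lit 5) (nat_lit 4) (nat_lit 4) (nat_lit 303) (nat_lit 268) (nat_lit 209)) (XT.lf (nat_lit 0) (nat_lit 128284410352) (nat_lit 76) (nat_lit 217673418781) (nat_lit 76) (nat_lit 174838583549) (nat_lit 3) (nat_lit 4)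 (nat_lit 4) (nat_lit 5) (nat_lit 4) (nat_lit 4) (nat_lit 304) (nat_lit 268) (nat_lit 208)))) (XT.nd (nat_lit 78) (nat_lit 0) (nat_lit 0) (XT.lf (nat_lit 0) (nat_lit 248235014835) (nat_lit 76) (nat_lit 194688740271) (nat_lit 76) (nat_lit 151852630306) (nat_lit 3) (nat_lit 4) (nat_lit 4) (nat_lit 5) (nat_lit 4) (nat_lit 4) (nat_lit 305) (nat_lit 268) (nat_lit 207)) (XT.nd (nat_lit 78) (nat_lit 0) (nat_lit 0) (XT.lf (nat_lit 0) (nat_lit 386172610582) (nat_lit 76) (nat_lit 168259096028) (nat_lit 76) (nat_lit 125421877599) (nat_lit 3) (nat_lit 4) (nat_lit 4) (nat_lit 5) (nat_lit 4) (nat_lit 4) (nat_lit 306) (nat_lit 268) (nat_lit 206)) (XT.lf (nat_lit 0) (nat_lit 544795976639) (nat_lit 76) (nat_lit 137867384316) (nat_lit 76) (nat_lit 95029202006) (nat_lit 3) (nat_lit 4) (nat_lit 4) (nat_lit 5) (nat_lit 4) (nat_lit 4) (nat_lit 307) (nat_lit 268) (nat_lit 205))))) (XT.nd (nat_lit 234) (nat_lit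 0) (nat_lit 0) (XT.nd (nat_lit 78) (nat_lit 152) (nat_lit 0) (XT.lf (nat_lit 0) (nat_lit 727208613648) (nat_lit 76) (nat_lit 102918984690) (nat_lit 76) (nat_lit 60079964223) (nat_lit 3) (nat_lit 4) (nat_lit 4) (nat_lit 5) (nat_lit 4) (nat_lit 4) (nat_lit 308) (nat_lit 268) (nat_lit 204)) (XT.nd (nat_lit 78) (nat_lit 152) (nat_lit 0) (XT.lf (nat_lit 0) (nat_lit 936979464505) (nat_lit 76) (nat_lit 62730124113) (nat_lit 76) (nat_lit 19890374813) (nat_lit 3) (nat_lit 4) (nat_lit 4) (nat_lit 5) (nat_lit 4) (nat_lit 4) (nat_lit 309) (nat_lit 268) (nat_lit 203)) (XT.lf (nat_lit 0) (nat_lit 9661557574) (nat_lit 76) (nat_lit 15579760041) (nat_lit 152) (nat_lit 1143090798502) (nat_lit 1) (nat_lit 5) (nat_lit 2) (nat_lit 5) (nat_lit 3) (nat_lit 4) (nat_lit 310) (nat_lit 268) (nat_lit 202)))) (XT.nd (nat_lit 156) (nat_lit 0) (nat_lit 0) (XT.nd (nat_lit 78) (nat_lit 0) (nat_lit 0) (XT.lf (nat_lit 0)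 (nat_lit 79394202082) (nat_lit 152) (nat_lit 1219937555410) (nat_lit 0) (nat_lit 39726670443) (nat_lit 1) (nat_lit 5) (nat_lit 3) (nat_lit 4) (nat_lit 1) (nat_lit 4) (nat_lit 311) (nat_lit 268) (nat_lit 201)) (XT.lf (nat_lit 0) (nat_lit 142099552439) (nat_lit 152) (nat_lit 1290828194783) (nat_lit 0) (nat_lit 102431577079) (nat_lit 1) (nat_lit 5) (nat_lit 3) (nat_lit 4) (nat_lit 1) (nat_lit 4) (nat_lit 312) (nat_lit 268) (nat_lit 200))) (XT.nd (nat_lit 78) (nat_lit 0) (nat_lit 0) (XT.lf (nat_lit 0) (nat_lit 214209518896) (nat_lit 152) (nat_lit 1372354773831) (nat_lit 0) (nat_lit 174541157691) (nat_lit 1) (nat_lit 5) (nat_lit 3) (nat_lit 4) (nat_lit 1) (nat_lit 4) (nat_lit 313) (nat_lit 268) (nat_lit 199)) (XT.lf (nat_lit 0) (nat_lit 297134948623) (nat_lit 152) (nat_lit 1466112377795) (nat_lit 0) (nat_lit 257466251900) (nat_lit 1) (nat_lit 5) (nat_lit 3) (nat_lit 4) (nat_lit 1) (nat_lit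 4) (nat_lit 314) (nat_lit 268) (nat_lit 198)))))) (XT.nd (nat_lit 468) (nat_lit 0) (nat_lit 0) (XT.nd (nat_lit 234) (nat_lit 0) (nat_lit 0) (XT.nd (nat_lit 78) (nat_lit 0) (nat_lit 0) (XT.lf (nat_lit 0) (nat_lit 392498295678) (nat_lit 152) (nat_lit 1573935394580) (nat_lit 0) (nat_lit 352829307202) (nat_lit 1) (nat_lit 5) (nat_lit 3) (nat_lit 4) (nat_lit 1) (nat_lit 4) (nat_lit 315) (nat_lit 268) (nat_lit 197)) (XT.nd (nat_lit 78) (nat_lit 0) (nat_lit 0) (XT.lf (nat_lit 0) (nat_lit 502165364679) (nat_lit 152) (nat_lit 1697933404949) (nat_lit 0) (nat_lit 462496122504) (nat_lit 1) (nat_lit 5) (nat_lit 3) (nat_lit 4) (nat_lit 1) (nat_lit 4) (nat_lit 316) (nat_lit 268) (nat_lit 196)) (XT.lf (nat_lit 0) (nat_lit 628281815672) (nat_lit 152) (nat_lit 1840532456930) (nat_lit 0) (nat_lit 588612352888) (nat_lit 1) (nat_lit 5) (nat_lit 3) (nat_lit 4) (nat_lit 1) (nat_lit 4) (nat_lit 317) (nat_lit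 268) (nat_lit 195)))) (XT.nd (nat_lit 78) (nat_lit 0) (nat_lit 0) (XT.lf (nat_lit 0) (nat_lit 773315144435) (nat_lit 152) (nat_lit 2004522531975) (nat_lit 0) (nat_lit 733645489819) (nat_lit 1) (nat_lit 5) (nat_lit 3) (nat_lit 4) (nat_lit 1) (nat_lit 4) (nat_lit 318) (nat_lit 268) (nat_lit 194)) (XT.nd (nat_lit 78) (nat_lit 0) (nat_lit 0) (XT.lf (nat_lit 0) (nat_lit 940102959577) (nat_lit 152) (nat_lit 2193112131553) (nat_lit 0) (nat_lit 900433138149) (nat_lit 1) (nat_lit 5) (nat_lit 3) (nat_lit 4) (nat_lit 1) (nat_lit 4) (nat_lit 319) (nat_lit 268) (nat_lit 193)) (XT.lf (nat_lit 0) (nat_lit 1131908500957) (nat_lit 152) (nat_lit 2409991052176) (nat_lit 0) (nat_lit 1092238534476) (nat_lit 1) (nat_lit 5) (nat_lit 3) (nat_lit 4) (nat_lit 1) (nat_lit 4) (nat_lit 320) (nat_lit 268) (nat_lit 192))))) (XT.nd (nat_lit 234) (nat_lit 0) (nat_lit 0) (XT.nd (nat_lit 78) (nat_lit 0) (nat_lit 0) (XT.lf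 (nat_lit 0) (nat_lit 1352484485691) (nat_lit 152) (nat_lit 2659402577076) (nat_lit 0) (nat_lit 1312814393076) (nat_lit 1) (nat_lit 5) (nat_lit 3) (nat_lit 4) (nat_lit 1) (nat_lit 4) (nat_lit 321) (nat_lit 268) (nat_lit 191)) (XT.nd (nat_lit 78) (nat_lit 0) (nat_lit 0) (XT.lf (nat_lit 0) (nat_lit 1606146530870) (nat_lit 152) (nat_lit 2946226496955) (nat_lit 0) (nat_lit 1566476328574) (nat_lit 1) (nat_lit 5) (nat_lit 3) (nat_lit 4) (nat_lit 1) (nat_lit 4) (nat_lit 322) (nat_lit 268) (nat_lit 190)) (XT.lf (nat_lit 0) (nat_lit 1897857589553) (nat_lit 152) (nat_lit 3276074584161) (nat_lit 0) (nat_lit 1858187291882) (nat_lit 1) (nat_lit 5) (nat_lit 3) (nat_lit 4) (nat_lit 1) (nat_lit 4) (nat_lit 323) (nat_lit 268) (nat_lit 189)))) (XT.nd (nat_lit 156) (nat_lit 0) (nat_lit 0) (XT.nd (nat_lit 78) (nat_lit 0) (nat_lit 0) (XT.lf (nat_lit 0) (nat_lit 2233325052018) (nat_lit 152) (nat_lit 3655400388224)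 (nat_lit 0) (nat_lit 2193654671413) (nat_lit 1) (nat_lit 5) (nat_lit 3) (nat_lit 4) (nat_lit 1) (nat_lit 4) (nat_lit 324) (nat_lit 268) (nat_lit 188)) (XT.lf (nat_lit 0) (nat_lit 2619112412097) (nat_lit 152) (nat_lit 4091625500963) (nat_lit 0) (nat_lit 2579441959374) (nat_lit 1) (nat_lit 5) (nat_lit 3) (nat_lit 4) (nat_lit 1) (nat_lit 4) (nat_lit 325) (nat_lit 268) (nat_lit 187))) (XT.nd (nat_lit 78) (nat_lit 0) (nat_lit 0) (XT.lf (nat_lit 0) (nat_lit 3062767683355) (nat_lit 152) (nat_lit 4593284761542) (nat_lit 0) (nat_lit 3023097167921) (nat_lit 1) (nat_lit 5) (nat_lit 3) (nat_lit 4) (nat_lit 1) (nat_lit 4) (nat_lit 326) (nat_lit 268) (nat_lit 186)) (XT.lf (nat_lit 0) (nat_lit 3572971077621) (nat_lit 152) (nat_lit 5170193242449) (nat_lit 0) (nat_lit 3533300507657) (nat_lit 1) (nat_lit 5) (nat_lit 3) (nat_lit 4) (nat_lit 1) (nat_lit 4) (nat_lit 327) (nat_lit 268) (nat_lit 185))))))) (XT.nd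 (nat_lit 36972) (nat_lit 0) (nat_lit 684) (XT.nd (nat_lit 36426) (nat_lit 0) (nat_lit 1976) (XT.nd (nat_lit 36192) (nat_lit 0) (nat_lit 3420) (XT.nd (nat_lit 36036) (nat_lit 0) (nat_lit 3648) (XT.lf (nat_lit 0) (nat_lit 4159704835219) (nat_lit 152) (nat_lit 5833638283528) (nat_lit 0) (nat_lit 4120034217837) (nat_lit 1) (nat_lit 5) (nat_lit 3) (nat_lit 4) (nat_lit 1) (nat_lit 4) (nat_lit 328) (nat_lit 268) (nat_lit 184)) (XT.nd (nat_lit 78) (nat_lit 0) (nat_lit 76) (XT.lf (nat_lit 0) (nat_lit 3675312922) (nat_lit 532) (nat_lit 1803655914) (nat_lit 532) (nat_lit 1803655914) (nat_lit 49) (nat_lit 3) (nat_lit 56) (nat_lit 3) (nat_lit 56) (nat_lit 5) (nat_lit 269) (nat_lit 269) (nat_lit 242)) (XT.lf (nat_lit 0) (nat_lit 8678648810) (nat_lit 456) (nat_lit 6072984693) (nat_lit 532) (nat_lit 842561488) (nat_lit 50) (nat_lit 5) (nat_lit 56) (nat_lit 5) (nat_lit 57) (nat_lit 5) (nat_lit 270) (nat_lit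 269) (nat_lit 241)))) (XT.nd (nat_lit 78) (nat_lit 304) (nat_lit 0) (XT.lf (nat_lit 76) (nat_lit 8105898831) (nat_lit 0) (nat_lit 2611829857) (nat_lit 532) (nat_lit 6019038615) (nat_lit 51) (nat_lit 5) (nat_lit 50) (nat_lit 5) (nat_lit 57) (nat_lit 5) (nat_lit 271) (nat_lit 269) (nat_lit 240)) (XT.nd (nat_lit 78) (nat_lit 380) (nat_lit 0) (XT.lf (nat_lit 76) (nat_lit 6737936598) (nat_lit 0) (nat_lit 6858720031) (nat_lit 532) (nat_lit 4411552794) (nat_lit 52) (nat_lit 5) (nat_lit 51) (nat_lit 5) (nat_lit 58) (nat_lit 5) (nat_lit 272) (nat_lit 269) (nat_lit 239)) (XT.lf (nat_lit 0) (nat_lit 5437254454) (nat_lit 456) (nat_lit 12033379675) (nat_lit 532) (nat_lit 1954853294) (nat_lit 46) (nat_lit 5) (nat_lit 52) (nat_lit 5) (nat_lit 53) (nat_lit 5) (nat_lit 273) (nat_lit 269) (nat_lit 238))))) (XT.nd (nat_lit 234) (nat_lit 608) (nat_lit 0) (XT.nd (nat_lit 78) (nat_lit 456) (nat_lit 0) (XT.lf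 (nat_lit 0) (nat_lit 1456882239) (nat_lit 380) (nat_lit 16843805084) (nat_lit 76) (nat_lit 2702731695) (nat_lit 41) (nat_lit 5) (nat_lit 46) (nat_lit 5) (nat_lit 42) (nat_lit 5) (nat_lit 274) (nat_lit 269) (nat_lit 237)) (XT.nd (nat_lit 78) (nat_lit 228) (nat_lit 0) (XT.lf (nat_lit 0) (nat_lit 2769405656) (nat_lit 228) (nat_lit 3256560360) (nat_lit 304) (nat_lit 16727228835) (nat_lit 38) (nat_lit 5) (nat_lit 41) (nat_lit 5) (nat_lit 42) (nat_lit 5) (nat_lit 275) (nat_lit 269) (nat_lit 236)) (XT.lf (nat_lit 0) (nat_lit 1269579620) (nat_lit 228) (nat_lit 10829276163) (nat_lit 304) (nat_lit 12601213191) (nat_lit 35) (nat_lit 5) (nat_lit 38) (nat_lit 5) (nat_lit 39) (nat_lit 5) (nat_lit 276) (nat_lit 269) (nat_lit 235)))) (XT.nd (nat_lit 156) (nat_lit 380) (nat_lit 0) (XT.nd (nat_lit 78) (nat_lit 228) (nat_lit 0) (XT.lf (nat_lit 0) (nat_lit 19874753336) (nat_lit 304) (nat_lit 289501970) (nat_lit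 76) (nat_lit 6711446345) (nat_lit 35) (nat_lit 5) (nat_lit 39) (nat_lit 5) (nat_lit 36) (nat_lit 5) (nat_lit 277) (nat_lit 269) (nat_lit 234)) (XT.lf (nat_lit 0) (nat_lit 406667630) (nat_lit 228) (nat_lit 1976520600) (nat_lit 76) (nat_lit 26920503613) (nat_lit 32) (nat_lit 5) (nat_lit 35) (nat_lit 5) (nat_lit 33) (nat_lit 5) (nat_lit 278) (nat_lit 269) (nat_lit 233))) (XT.nd (nat_lit 78) (nat_lit 152) (nat_lit 0) (XT.lf (nat_lit 0) (nat_lit 9627730856) (nat_lit 304) (nat_lit 4311485855) (nat_lit 76) (nat_lit 18052834672) (nat_lit 29) (nat_lit 5) (nat_lit 33) (nat_lit 5) (nat_lit 30) (nat_lit 5) (nat_lit 279) (nat_lit 269) (nat_lit 232)) (XT.lf (nat_lit 0) (nat_lit 21169740971) (nat_lit 228) (nat_lit 7075952266) (nat_lit 76) (nat_lit 6763005476) (nat_lit 27) (nat_lit 5) (nat_lit 30) (nat_lit 5) (nat_lit 28) (nat_lit 5) (nat_lit 280) (nat_lit 269) (nat_lit 231)))))) (XT.nd (nat_lit 468)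 (nat_lit 456) (nat_lit 0) (XT.nd (nat_lit 234) (nat_lit 380) (nat_lit 0) (XT.nd (nat_lit 78) (nat_lit 304) (nat_lit 0) (XT.lf (nat_lit 0) (nat_lit 27760328562) (nat_lit 152) (nat_lit 7833194749) (nat_lit 228) (nat_lit 2792331613) (nat_lit 25) (nat_lit 5) (nat_lit 27) (nat_lit 5) (nat_lit 28) (nat_lit 5) (nat_lit 281) (nat_lit 269) (nat_lit 230)) (XT.nd (nat_lit 78) (nat_lit 152) (nat_lit 0) (XT.lf (nat_lit 0) (nat_lit 10652949131) (nat_lit 152) (nat_lit 15524873200) (nat_lit 76) (nat_lit 15973735621) (nat_lit 23) (nat_lit 5) (nat_lit 25) (nat_lit 5) (nat_lit 24) (nat_lit 5) (nat_lit 282) (nat_lit 269) (nat_lit 229)) (XT.lf (nat_lit 0) (nat_lit 24536107904) (nat_lit 152) (nat_lit 2515729591) (nat_lit 228) (nat_lit 19336339087) (nat_lit 21) (nat_lit 5) (nat_lit 23) (nat_lit 5) (nat_lit 24) (nat_lit 5) (nat_lit 283) (nat_lit 269) (nat_lit 228)))) (XT.nd (nat_lit 78) (nat_lit 304) (nat_lit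 0) (XT.lf (nat_lit 0) (nat_lit 20712470331) (nat_lit 76) (nat_lit 26729413111) (nat_lit 152) (nat_lit 3695928716) (nat_lit 20) (nat_lit 5) (nat_lit 21) (nat_lit 5) (nat_lit 22) (nat_lit 4) (nat_lit 284) (nat_lit 269) (nat_lit 227)) (XT.nd (nat_lit 78) (nat_lit 76) (nat_lit 0) (XT.lf (nat_lit 0) (nat_lit 14630633028) (nat_lit 228) (nat_lit 41786279447) (nat_lit 76) (nat_lit 71112943) (nat_lit 17) (nat_lit 5) (nat_lit 20) (nat_lit 5) (nat_lit 18) (nat_lit 4) (nat_lit 285) (nat_lit 269) (nat_lit 226)) (XT.lf (nat_lit 0) (nat_lit 5231505486) (nat_lit 76) (nat_lit 32014975699) (nat_lit 152) (nat_lit 25245899311) (nat_lit 16) (nat_lit 5) (nat_lit 17) (nat_lit 5) (nat_lit 18) (nat_lit 4) (nat_lit 286) (nat_lit 269) (nat_lit 225))))) (XT.nd (nat_lit 234) (nat_lit 228) (nat_lit 0) (XT.nd (nat_lit 78) (nat_lit 228) (nat_lit 0) (XT.lf (nat_lit 0) (nat_lit 61799313928) (nat_lit 76) (nat_lit 2652919323)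 (nat_lit 152) (nat_lit 4849371774) (nat_lit 16) (nat_lit 5) (nat_lit 17) (nat_lit 5) (nat_lit 18) (nat_lit 4) (nat_lit 287) (nat_lit 269) (nat_lit 224)) (XT.nd (nat_lit 78) (nat_lit 76) (nat_lit 0) (XT.lf (nat_lit 0) (nat_lit 19697491119) (nat_lit 152) (nat_lit 25954087052) (nat_lit 76) (nat_lit 31283119778) (nat_lit 14) (nat_lit 5) (nat_lit 16) (nat_lit 5) (nat_lit 15) (nat_lit 4) (nat_lit 288) (nat_lit 269) (nat_lit 223)) (XT.lf (nat_lit 0) (nat_lit 34478425531) (nat_lit 76) (nat_lit 14279942685) (nat_lit 152) (nat_lit 36854793070) (nat_lit 13) (nat_lit 5) (nat_lit 14) (nat_lit 5) (nat_lit 15) (nat_lit 4) (nat_lit 289) (nat_lit 269) (nat_lit 222)))) (XT.nd (nat_lit 156) (nat_lit 76) (nat_lit 0) (XT.nd (nat_lit 78) (nat_lit 76) (nat_lit 0) (XT.lf (nat_lit 0) (nat_lit 9941388392) (nat_lit 76) (nat_lit 73760997828) (nat_lit 76) (nat_lit 11769098315) (nat_lit 12) (nat_lit 4) (nat_lit 13)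 (nat_lit 5) (nat_lit 13) (nat_lit 4) (nat_lit 290) (nat_lit 269) (nat_lit 221)) (XT.lf (nat_lit 0) (nat_lit 18133814002) (nat_lit 152) (nat_lit 24283446511) (nat_lit 76) (nat_lit 64205744111) (nat_lit 11) (nat_lit 5) (nat_lit 13) (nat_lit 5) (nat_lit 12) (nat_lit 4) (nat_lit 291) (nat_lit 269) (nat_lit 220))) (XT.nd (nat_lit 78) (nat_lit 0) (nat_lit 0) (XT.lf (nat_lit 0) (nat_lit 48214762084) (nat_lit 76) (nat_lit 4778090382) (nat_lit 152) (nat_lit 66336548701) (nat_lit 10) (nat_lit 5) (nat_lit 11) (nat_lit 5) (nat_lit 12) (nat_lit 4) (nat_lit 292) (nat_lit 269) (nat_lit 219)) (XT.lf (nat_lit 0) (nat_lit 94721201877) (nat_lit 152) (nat_lit 1792051447) (nat_lit 0) (nat_lit 37297274247) (nat_lit 10) (nat_lit 5) (nat_lit 12) (nat_lit 4) (nat_lit 10) (nat_lit 4) (nat_lit 293) (nat_lit 269) (nat_lit 218))))))))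
noncomputable def xc35 : XT := (XT.nd (nat_lit 2028) (nat_lit 0) (nat_lit 0) (XT.nd (nat_lit 1014) (nat_lit 152) (nat_lit 0) (XT.nd (nat_lit 468) (nat_lit 228) (nat_lit 0) (XT.nd (nat_lit 234) (nat_lit 76) (nat_lit 0) (XT.nd (nat_lit 78) (nat_lit 152) (nat_lit 0) (XT.lf (nat_lit 0) (nat_lit 81874530286) (nat_lit 76) (nat_lit 62925953455) (nat_lit 76) (nat_lit 5496010694) (nat_lit 9) (nat_lit 4) (nat_lit 10) (nat_lit 5) (nat_lit 10) (nat_lit 4) (nat_lit 294) (nat_lit 269) (nat_lit 217)) (XT.nd (nat_lit 78) (nat_lit 0) (nat_lit 0) (XT.lf (nat_lit 0) (nat_lit 8561540762) (nat_lit 76) (nat_lit 23167648695) (nat_lit 152) (nat_lit 137442377329) (nat_lit 7) (nat_lit 5) (nat_lit 8) (nat_lit 5) (nat_lit 9) (nat_lit 4) (nat_lit 295) (nat_lit 269) (nat_lit 216)) (XT.lf (nat_lit 0) (nat_lit 76799886905) (nat_lit 152) (nat_lit 90244666054) (nat_lit 0) (nat_lit 23614959486) (nat_lit 7) (nat_lit 5) (nat_lit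 9) (nat_lit 4) (nat_lit 7) (nat_lit 4) (nat_lit 296) (nat_lit 269) (nat_lit 215)))) (XT.nd (nat_lit 78) (nat_lit 76) (nat_lit 0) (XT.lf (nat_lit 0) (nat_lit 129264716711) (nat_lit 152) (nat_lit 9979127409) (nat_lit 0) (nat_lit 76076127211) (nat_lit 7) (nat_lit 5) (nat_lit 9) (nat_lit 4) (nat_lit 7) (nat_lit 4) (nat_lit 297) (nat_lit 269) (nat_lit 214)) (XT.nd (nat_lit 78) (nat_lit 0) (nat_lit 0) (XT.lf (nat_lit 0) (nat_lit 86648704248) (nat_lit 76) (nat_lit 105028181338) (nat_lit 76) (nat_lit 51836407422) (nat_lit 6) (nat_lit 4) (nat_lit 7) (nat_lit 5) (nat_lit 7) (nat_lit 4) (nat_lit 298) (nat_lit 269) (nat_lit 213)) (XT.lf (nat_lit 0) (nat_lit 198363979950) (nat_lit 76) (nat_lit 65371697436) (nat_lit 76) (nat_lit 12177154461) (nat_lit 6) (nat_lit 4) (nat_lit 7) (nat_lit 5) (nat_lit 7) (nat_lit 4) (nat_lit 299) (nat_lit 269) (nat_lit 212))))) (XT.nd (nat_lit 234) (nat_lit 76) (nat_lit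 0) (XT.nd (nat_lit 78) (nat_lit 0) (nat_lit 0) (XT.lf (nat_lit 0) (nat_lit 13527038196) (nat_lit 76) (nat_lit 18551802692) (nat_lit 152) (nat_lit 281003524908) (nat_lit 4) (nat_lit 5) (nat_lit 5) (nat_lit 5) (nat_lit 6) (nat_lit 4) (nat_lit 300) (nat_lit 269) (nat_lit 211)) (XT.nd (nat_lit 78) (nat_lit 0) (nat_lit 0) (XT.lf (nat_lit 0) (nat_lit 85433085367) (nat_lit 152) (nat_lit 233939762651) (nat_lit 0) (nat_lit 36174710684) (nat_lit 4) (nat_lit 5) (nat_lit 6) (nat_lit 4) (nat_lit 4) (nat_lit 4) (nat_lit 301) (nat_lit 269) (nat_lit 210)) (XT.lf (nat_lit 0) (nat_lit 147299413504) (nat_lit 152) (nat_lit 159003049951) (nat_lit 0) (nat_lit 98039352986) (nat_lit 4) (nat_lit 5) (nat_lit 6) (nat_lit 4) (nat_lit 4) (nat_lit 4) (nat_lit 302) (nat_lit 269) (nat_lit 209)))) (XT.nd (nat_lit 156) (nat_lit 0) (nat_lit 0) (XT.nd (nat_lit 78) (nat_lit 76) (nat_lit 0) (XT.lf (nat_lit 0) (nat_lit 218442082156)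 (nat_lit 152) (nat_lit 72832865125) (nat_lit 0) (nat_lit 169180555696) (nat_lit 4) (nat_lit 5) (nat_lit 6) (nat_lit 4) (nat_lit 4) (nat_lit 4) (nat_lit 303) (nat_lit 269) (nat_lit 208)) (XT.lf (nat_lit 0) (nat_lit 27639363107) (nat_lit 76) (nat_lit 273278377341) (nat_lit 76) (nat_lit 224015576148) (nat_lit 3) (nat_lit 4) (nat_lit 4) (nat_lit 5) (nat_lit 4) (nat_lit 4) (nat_lit 304) (nat_lit 269) (nat_lit 207))) (XT.nd (nat_lit 78) (nat_lit 0) (nat_lit 0) (XT.lf (nat_lit 0) (nat_lit 147587363214) (nat_lit 76) (nat_lit 250294971409) (nat_lit 76) (nat_lit 201031061753) (nat_lit 3) (nat_lit 4) (nat_lit 4) (nat_lit 5) (nat_lit 4) (nat_lit 4) (nat_lit 305) (nat_lit 269) (nat_lit 206)) (XT.lf (nat_lit 0) (nat_lit 285522694285) (nat_lit 76) (nat_lit 223866433756) (nat_lit 76) (nat_lit 174601560219) (nat_lit 3) (nat_lit 4) (nat_lit 4) (nat_lit 5) (nat_lit 4) (nat_lit 4) (nat_lit 306) (nat_lit 269)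 (nat_lit 205)))))) (XT.nd (nat_lit 468) (nat_lit 0) (nat_lit 0) (XT.nd (nat_lit 234) (nat_lit 152) (nat_lit 0) (XT.nd (nat_lit 78) (nat_lit 0) (nat_lit 0) (XT.lf (nat_lit 0) (nat_lit 444144091060) (nat_lit 76) (nat_lit 193475684297) (nat_lit 76) (nat_lit 144209972602) (nat_lit 3) (nat_lit 4) (nat_lit 4) (nat_lit 5) (nat_lit 4) (nat_lit 4) (nat_lit 307) (nat_lit 269) (nat_lit 204)) (XT.nd (nat_lit 78) (nat_lit 0) (nat_lit 0) (XT.lf (nat_lit 0) (nat_lit 626555015649) (nat_lit 76) (nat_lit 158528121411) (nat_lit 76) (nat_lit 109261680884) (nat_lit 3) (nat_lit 4) (nat_lit 4) (nat_lit 5) (nat_lit 4) (nat_lit 4) (nat_lit 308) (nat_lit 269) (nat_lit 203)) (XT.lf (nat_lit 0) (nat_lit 836324377446) (nat_lit 76) (nat_lit 118339988435) (nat_lit 76) (nat_lit 69072914140) (nat_lit 3) (nat_lit 4) (nat_lit 4) (nat_lit 5) (nat_lit 4) (nat_lit 4) (nat_lit 309) (nat_lit 269) (nat_lit 202)))) (XT.nd (nat_lit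 78) (nat_lit 152) (nat_lit 0) (XT.lf (nat_lit 0) (nat_lit 1077556359617) (nat_lit 76) (nat_lit 72124995809) (nat_lit 76) (nat_lit 22857370412) (nat_lit 3) (nat_lit 4) (nat_lit 4) (nat_lit 5) (nat_lit 4) (nat_lit 4) (nat_lit 310) (nat_lit 269) (nat_lit 201)) (XT.nd (nat_lit 78) (nat_lit 0) (nat_lit 0) (XT.lf (nat_lit 0) (nat_lit 11138992620) (nat_lit 76) (nat_lit 17902881051) (nat_lit 152) (nat_lit 1314538906501) (nat_lit 1) (nat_lit 5) (nat_lit 2) (nat_lit 5) (nat_lit 3) (nat_lit 4) (nat_lit 311) (nat_lit 269) (nat_lit 200)) (XT.lf (nat_lit 0) (nat_lit 91316107470) (nat_lit 152) (nat_lit 1402902952331) (nat_lit 0) (nat_lit 45697106239) (nat_lit 1) (nat_lit 5) (nat_lit 3) (nat_lit 4) (nat_lit 1) (nat_lit 4) (nat_lit 312) (nat_lit 269) (nat_lit 199))))) (XT.nd (nat_lit 234) (nat_lit 0) (nat_lit 0) (XT.nd (nat_lit 78) (nat_lit 0) (nat_lit 0) (XT.lf (nat_lit 0) (nat_lit 163425594067) (nat_lit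 152) (nat_lit 1484430479313) (nat_lit 0) (nat_lit 117806257319) (nat_lit 1) (nat_lit 5) (nat_lit 3) (nat_lit 4) (nat_lit 1) (nat_lit 4) (nat_lit 313) (nat_lit 269) (nat_lit 198)) (XT.nd (nat_lit 78) (nat_lit 0) (nat_lit 0) (XT.lf (nat_lit 0) (nat_lit 246350606524) (nat_lit 152) (nat_lit 1578188907569) (nat_lit 0) (nat_lit 200730978022) (nat_lit 1) (nat_lit 5) (nat_lit 3) (nat_lit 4) (nat_lit 1) (nat_lit 4) (nat_lit 314) (nat_lit 269) (nat_lit 197)) (XT.lf (nat_lit 0) (nat_lit 341713590736) (nat_lit 152) (nat_lit 1686012641128) (nat_lit 0) (nat_lit 296093708535) (nat_lit 1) (nat_lit 5) (nat_lit 3) (nat_lit 4) (nat_lit 1) (nat_lit 4) (nat_lit 315) (nat_lit 269) (nat_lit 196)))) (XT.nd (nat_lit 156) (nat_lit 0) (nat_lit 0) (XT.nd (nat_lit 78) (nat_lit 0) (nat_lit 0) (XT.lf (nat_lit 0) (nat_lit 451380344221) (nat_lit 152) (nat_lit 1810011274779) (nat_lit 0) (nat_lit 405760241412) (nat_lit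 1) (nat_lit 5) (nat_lit 3) (nat_lit 4) (nat_lit 1) (nat_lit 4) (nat_lit 316) (nat_lit 269) (nat_lit 195)) (XT.lf (nat_lit 0) (nat_lit 577496520852) (nat_lit 152) (nat_lit 1952610868745) (nat_lit 0) (nat_lit 531876226210) (nat_lit 1) (nat_lit 5) (nat_lit 3) (nat_lit 4) (nat_lit 1) (nat_lit 4) (nat_lit 317) (nat_lit 269) (nat_lit 194))) (XT.nd (nat_lit 78) (nat_lit 0) (nat_lit 0) (XT.lf (nat_lit 0) (nat_lit 722529611040) (nat_lit 152) (nat_lit 2116601415081) (nat_lit 0) (nat_lit 676909149587) (nat_lit 1) (nat_lit 5) (nat_lit 3) (nat_lit 4) (nat_lit 1) (nat_lit 4) (nat_lit 318) (nat_lit 269) (nat_lit 193)) (XT.lf (nat_lit 0) (nat_lit 889317218725) (nat_lit 152) (nat_lit 2305191424477) (nat_lit 0) (nat_lit 843696612218) (nat_lit 1) (nat_lit 5) (nat_lit 3) (nat_lit 4) (nat_lit 1) (nat_lit 4) (nat_lit 319) (nat_lit 269) (nat_lit 192))))))) (XT.nd (nat_lit 37050) (nat_lit 0) (nat_lit 1140) (XT.nd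 (nat_lit 468) (nat_lit 0) (nat_lit 0) (XT.nd (nat_lit 234) (nat_lit 0) (nat_lit 0) (XT.nd (nat_lit 78) (nat_lit 0) (nat_lit 0) (XT.lf (nat_lit 0) (nat_lit 1081122579708) (nat_lit 152) (nat_lit 2522070701465) (nat_lit 0) (nat_lit 1035501847068) (nat_lit 1) (nat_lit 5) (nat_lit 3) (nat_lit 4) (nat_lit 1) (nat_lit 4) (nat_lit 320) (nat_lit 269) (nat_lit 191)) (XT.nd (nat_lit 78) (nat_lit 0) (nat_lit 0) (XT.lf (nat_lit 0) (nat_lit 1301698407575) (nat_lit 152) (nat_lit 2771482536246) (nat_lit 0) (nat_lit 1256077565253) (nat_lit 1) (nat_lit 5) (nat_lit 3) (nat_lit 4) (nat_lit 1) (nat_lit 4) (nat_lit 321) (nat_lit 269) (nat_lit 190)) (XT.lf (nat_lit 0) (nat_lit 1555360316348) (nat_lit 152) (nat_lit 3058306725587) (nat_lit 0) (nat_lit 1509739378651) (nat_lit 1) (nat_lit 5) (nat_lit 3) (nat_lit 4) (nat_lit 1) (nat_lit 4) (nat_lit 322) (nat_lit 269) (nat_lit 189)))) (XT.nd (nat_lit 78) (nat_lit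 0) (nat_lit 0) (XT.lf (nat_lit 0) (nat_lit 1847071256417) (nat_lit 152) (nat_lit 3388155047108) (nat_lit 0) (nat_lit 1801450235786) (nat_lit 1) (nat_lit 5) (nat_lit 3) (nat_lit 4) (nat_lit 1) (nat_lit 4) (nat_lit 323) (nat_lit 269) (nat_lit 188)) (XT.nd (nat_lit 78) (nat_lit 0) (nat_lit 0) (XT.lf (nat_lit 0) (nat_lit 2182538615739) (nat_lit 152) (nat_lit 3767481054923) (nat_lit 0) (nat_lit 2136917522991) (nat_lit 1) (nat_lit 5) (nat_lit 3) (nat_lit 4) (nat_lit 1) (nat_lit 4) (nat_lit 324) (nat_lit 269) (nat_lit 187)) (XT.lf (nat_lit 0) (nat_lit 2568325886128) (nat_lit 152) (nat_lit 4203706344838) (nat_lit 0) (nat_lit 2522704730669) (nat_lit 1) (nat_lit 5) (nat_lit 3) (nat_lit 4) (nat_lit 1) (nat_lit 4) (nat_lit 325) (nat_lit 269) (nat_lit 186))))) (XT.nd (nat_lit 36270) (nat_lit 0) (nat_lit 3648) (XT.nd (nat_lit 78) (nat_lit 0) (nat_lit 0) (XT.lf (nat_lit 0) (nat_lit 3011981079396) (nat_lit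 152) (nat_lit 4705365759483) (nat_lit 0) (nat_lit 2966359869406) (nat_lit 1) (nat_lit 5) (nat_lit 3) (nat_lit 4) (nat_lit 1) (nat_lit 4) (nat_lit 326) (nat_lit 269) (nat_lit 185)) (XT.nd (nat_lit 78) (nat_lit 0) (nat_lit 0) (XT.lf (nat_lit 0) (nat_lit 3522184405844) (nat_lit 152) (nat_lit 5282274374360) (nat_lit 0) (nat_lit 3476563148436) (nat_lit 1) (nat_lit 5) (nat_lit 3) (nat_lit 4) (nat_lit 1) (nat_lit 4) (nat_lit 327) (nat_lit 269) (nat_lit 184)) (XT.lf (nat_lit 0) (nat_lit 4108918104470) (nat_lit 152) (nat_lit 5945719531935) (nat_lit 0) (nat_lit 4063296805829) (nat_lit 1) (nat_lit 5) (nat_lit 3) (nat_lit 4) (nat_lit 1) (nat_lit 4) (nat_lit 328) (nat_lit 269) (nat_lit 183)))) (XT.nd (nat_lit 156) (nat_lit 0) (nat_lit 76) (XT.nd (nat_lit 78) (nat_lit 0) (nat_lit 76) (XT.lf (nat_lit 0) (nat_lit 4730691262) (nat_lit 532) (nat_lit 1801372399) (nat_lit 532) (nat_lit 1801372399) (nat_lit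 49) (nat_lit 3) (nat_lit 56) (nat_lit 3) (nat_lit 56) (nat_lit 5) (nat_lit 270) (nat_lit 270) (nat_lit 240)) (XT.lf (nat_lit 0) (nat_lit 10859761589) (nat_lit 456) (nat_lit 6401817843) (nat_lit 532) (nat_lit 599215415) (nat_lit 50) (nat_lit 5) (nat_lit 56) (nat_lit 5) (nat_lit 57) (nat_lit 5) (nat_lit 271) (nat_lit 270) (nat_lit 239))) (XT.nd (nat_lit 78) (nat_lit 0) (nat_lit 76) (XT.lf (nat_lit 76) (nat_lit 9854625113) (nat_lit 0) (nat_lit 3248199865) (nat_lit 532) (nat_lit 6080363195) (nat_lit 51) (nat_lit 5) (nat_lit 50) (nat_lit 5) (nat_lit 57) (nat_lit 5) (nat_lit 272) (nat_lit 270) (nat_lit 238)) (XT.lf (nat_lit 76) (nat_lit 8300419739) (nat_lit 0) (nat_lit 8019922932) (nat_lit 532) (nat_lit 4332711627) (nat_lit 52) (nat_lit 5) (nat_lit 51) (nat_lit 5) (nat_lit 58) (nat_lit 5) (nat_lit 273) (nat_lit 270) (nat_lit 237)))))) (XT.nd (nat_lit 546) (nat_lit 988) (nat_lit 0) (XT.nd (nat_lit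 234) (nat_lit 684) (nat_lit 0) (XT.nd (nat_lit 78) (nat_lit 608) (nat_lit 0) (XT.lf (nat_lit 0) (nat_lit 6812457056) (nat_lit 456) (nat_lit 13884407843) (nat_lit 532) (nat_lit 1592558667) (nat_lit 46) (nat_lit 5) (nat_lit 52) (nat_lit 5) (nat_lit 53) (nat_lit 5) (nat_lit 274) (nat_lit 270) (nat_lit 236)) (XT.nd (nat_lit 78) (nat_lit 228) (nat_lit 0) (XT.lf (nat_lit 0) (nat_lit 2229723374) (nat_lit 380) (nat_lit 18781107361) (nat_lit 76) (nat_lit 3097600137) (nat_lit 41) (nat_lit 5) (nat_lit 46) (nat_lit 5) (nat_lit 42) (nat_lit 5) (nat_lit 275) (nat_lit 270) (nat_lit 235)) (XT.lf (nat_lit 0) (nat_lit 3724206348) (nat_lit 228) (nat_lit 3700634561) (nat_lit 304) (nat_lit 18700729298) (nat_lit 38) (nat_lit 5) (nat_lit 41) (nat_lit 5) (nat_lit 42) (nat_lit 5) (nat_lit 276) (nat_lit 270) (nat_lit 234)))) (XT.nd (nat_lit 156) (nat_lit 304) (nat_lit 0) (XT.nd (nat_lit 78) (nat_lit 152) (nat_lit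 0) (XT.lf (nat_lit 0) (nat_lit 1989939047) (nat_lit 228) (nat_lit 12367835881) (nat_lit 304) (nat_lit 14010902806) (nat_lit 35) (nat_lit 5) (nat_lit 38) (nat_lit 5) (nat_lit 39) (nat_lit 5) (nat_lit 277) (nat_lit 270) (nat_lit 233)) (XT.lf (nat_lit 0) (nat_lit 166039407) (nat_lit 152) (nat_lit 23081881078) (nat_lit 228) (nat_lit 7627019800) (nat_lit 33) (nat_lit 5) (nat_lit 35) (nat_lit 5) (nat_lit 36) (nat_lit 5) (nat_lit 278) (nat_lit 270) (nat_lit 232))) (XT.nd (nat_lit 78) (nat_lit 228) (nat_lit 0) (XT.lf (nat_lit 0) (nat_lit 825497763) (nat_lit 228) (nat_lit 1804415128) (nat_lit 76) (nat_lit 31040094184) (nat_lit 32) (nat_lit 5) (nat_lit 35) (nat_lit 5) (nat_lit 33) (nat_lit 5) (nat_lit 279) (nat_lit 270) (nat_lit 231)) (XT.lf (nat_lit 0) (nat_lit 11395946673) (nat_lit 304) (nat_lit 4505622505) (nat_lit 76) (nat_lit 20862833118) (nat_lit 29) (nat_lit 5) (nat_lit 33) (nat_lit 5) (nat_lit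 30) (nat_lit 5) (nat_lit 280) (nat_lit 270) (nat_lit 230))))) (XT.nd (nat_lit 234) (nat_lit 532) (nat_lit 0) (XT.nd (nat_lit 78) (nat_lit 304) (nat_lit 0) (XT.lf (nat_lit 0) (nat_lit 24639900226) (nat_lit 228) (nat_lit 7702211816) (nat_lit 76) (nat_lit 7893852761) (nat_lit 27) (nat_lit 5) (nat_lit 30) (nat_lit 5) (nat_lit 28) (nat_lit 5) (nat_lit 281) (nat_lit 270) (nat_lit 229)) (XT.nd (nat_lit 78) (nat_lit 152) (nat_lit 0) (XT.lf (nat_lit 0) (nat_lit 32322679270) (nat_lit 152) (nat_lit 8875710921) (nat_lit 228) (nat_lit 2923673405) (nat_lit 25) (nat_lit 5) (nat_lit 27) (nat_lit 5) (nat_lit 28) (nat_lit 5) (nat_lit 282) (nat_lit 270) (nat_lit 228)) (XT.lf (nat_lit 0) (nat_lit 12500647774) (nat_lit 152) (nat_lit 17458621933) (nat_lit 76) (nat_lit 18494717367) (nat_lit 23) (nat_lit 5) (nat_lit 25) (nat_lit 5) (nat_lit 24) (nat_lit 5) (nat_lit 283) (nat_lit 270) (nat_lit 227)))) (XT.nd (nat_lit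 156) (nat_lit 304) (nat_lit 0) (XT.nd (nat_lit 78) (nat_lit 76) (nat_lit 0) (XT.lf (nat_lit 0) (nat_lit 28578073057) (nat_lit 152) (nat_lit 2757414692) (nat_lit 228) (nat_lit 21992563551) (nat_lit 21) (nat_lit 5) (nat_lit 23) (nat_lit 5) (nat_lit 24) (nat_lit 5) (nat_lit 284) (nat_lit 270) (nat_lit 226)) (XT.lf (nat_lit 0) (nat_lit 24164098135) (nat_lit 76) (nat_lit 30601609330) (nat_lit 152) (nat_lit 4025928152) (nat_lit 20) (nat_lit 5) (nat_lit 21) (nat_lit 5) (nat_lit 22) (nat_lit 4) (nat_lit 285) (nat_lit 270) (nat_lit 225))) (XT.nd (nat_lit 78) (nat_lit 76) (nat_lit 0) (XT.lf (nat_lit 0) (nat_lit 17021625702) (nat_lit 228) (nat_lit 47715705316) (nat_lit 76) (nat_lit 207989098) (nat_lit 17) (nat_lit 5) (nat_lit 20) (nat_lit 5) (nat_lit 18) (nat_lit 4) (nat_lit 286) (nat_lit 270) (nat_lit 224)) (XT.lf (nat_lit 0) (nat_lit 6326093659) (nat_lit 76) (nat_lit 36685592526) (nat_lit 152)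 (nat_lit 28840121197) (nat_lit 16) (nat_lit 5) (nat_lit 17) (nat_lit 5) (nat_lit 18) (nat_lit 4) (nat_lit 287) (nat_lit 270) (nat_lit 223))))))))
noncomputable def xc36 : XT := (XT.nd (nat_lit 2028) (nat_lit 0) (nat_lit 0) (XT.nd (nat_lit 1014) (nat_lit 380) (nat_lit 0) (XT.nd (nat_lit 468) (nat_lit 304) (nat_lit 0) (XT.nd (nat_lit 234) (nat_lit 228) (nat_lit 0) (XT.nd (nat_lit 78) (nat_lit 228) (nat_lit 0) (XT.lf (nat_lit 0) (nat_lit 71338656539) (nat_lit 76) (nat_lit 2936396763) (nat_lit 152) (nat_lit 5409244487) (nat_lit 16) (nat_lit 5) (nat_lit 17) (nat_lit 5) (nat_lit 18) (nat_lit 4) (nat_lit 288) (nat_lit 270) (nat_lit 222)) (XT.nd (nat_lit 78) (nat_lit 76) (nat_lit 0) (XT.lf (nat_lit 0) (nat_lit 22799271008) (nat_lit 152) (nat_lit 29583726609) (nat_lit 76) (nat_lit 36080012409) (nat_lit 14) (nat_lit 5) (nat_lit 16) (nat_lit 5) (nat_lit 15) (nat_lit 4) (nat_lit 289) (nat_lit 270)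 (nat_lit 221)) (XT.lf (nat_lit 0) (nat_lit 39891361142) (nat_lit 76) (nat_lit 16314524426) (nat_lit 152) (nat_lit 42238444493) (nat_lit 13) (nat_lit 5) (nat_lit 14) (nat_lit 5) (nat_lit 15) (nat_lit 4) (nat_lit 290) (nat_lit 270) (nat_lit 220)))) (XT.nd (nat_lit 78) (nat_lit 152) (nat_lit 0) (XT.lf (nat_lit 0) (nat_lit 11660880686) (nat_lit 76) (nat_lit 84720914854) (nat_lit 76) (nat_lit 13400396738) (nat_lit 12) (nat_lit 4) (nat_lit 13) (nat_lit 5) (nat_lit 13) (nat_lit 4) (nat_lit 291) (nat_lit 270) (nat_lit 219)) (XT.nd (nat_lit 78) (nat_lit 76) (nat_lit 0) (XT.lf (nat_lit 0) (nat_lit 20964633740) (nat_lit 152) (nat_lit 27721550728) (nat_lit 76) (nat_lit 73921337910) (nat_lit 11) (nat_lit 5) (nat_lit 13) (nat_lit 5) (nat_lit 12) (nat_lit 4) (nat_lit 292) (nat_lit 270) (nat_lit 218)) (XT.lf (nat_lit 0) (nat_lit 55634086635) (nat_lit 76) (nat_lit 5408496002) (nat_lit 152) (nat_lit 76178100933)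 (nat_lit 10) (nat_lit 5) (nat_lit 11) (nat_lit 5) (nat_lit 12) (nat_lit 4) (nat_lit 293) (nat_lit 270) (nat_lit 217))))) (XT.nd (nat_lit 234) (nat_lit 76) (nat_lit 0) (XT.nd (nat_lit 78) (nat_lit 228) (nat_lit 0) (XT.lf (nat_lit 0) (nat_lit 109018841295) (nat_lit 152) (nat_lit 1892891944) (nat_lit 0) (nat_lit 42963161441) (nat_lit 10) (nat_lit 5) (nat_lit 12) (nat_lit 4) (nat_lit 10) (nat_lit 4) (nat_lit 294) (nat_lit 270) (nat_lit 216)) (XT.nd (nat_lit 78) (nat_lit 152) (nat_lit 0) (XT.lf (nat_lit 0) (nat_lit 94309459461) (nat_lit 76) (nat_lit 72292585078) (nat_lit 76) (nat_lit 6232356920) (nat_lit 9) (nat_lit 4) (nat_lit 10) (nat_lit 5) (nat_lit 10) (nat_lit 4) (nat_lit 295) (nat_lit 270) (nat_lit 215)) (XT.lf (nat_lit 0) (nat_lit 9990580155) (nat_lit 76) (nat_lit 26574209921) (nat_lit 152) (nat_lit 157976375237) (nat_lit 7) (nat_lit 5) (nat_lit 8) (nat_lit 5) (nat_lit 9) (nat_lit 4)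 (nat_lit 296) (nat_lit 270) (nat_lit 214)))) (XT.nd (nat_lit 156) (nat_lit 76) (nat_lit 0) (XT.nd (nat_lit 78) (nat_lit 0) (nat_lit 0) (XT.lf (nat_lit 0) (nat_lit 88387584461) (nat_lit 152) (nat_lit 103651543986) (nat_lit 0) (nat_lit 27213860040) (nat_lit 7) (nat_lit 5) (nat_lit 9) (nat_lit 4) (nat_lit 7) (nat_lit 4) (nat_lit 297) (nat_lit 270) (nat_lit 213)) (XT.lf (nat_lit 0) (nat_lit 148713306408) (nat_lit 152) (nat_lit 11363107845) (nat_lit 0) (nat_lit 87536812929) (nat_lit 7) (nat_lit 5) (nat_lit 9) (nat_lit 4) (nat_lit 7) (nat_lit 4) (nat_lit 298) (nat_lit 270) (nat_lit 212))) (XT.nd (nat_lit 78) (nat_lit 0) (nat_lit 0) (XT.lf (nat_lit 0) (nat_lit 99749343096) (nat_lit 76) (nat_lit 120732762399) (nat_lit 76) (nat_lit 59553861042) (nat_lit 6) (nat_lit 4) (nat_lit 7) (nat_lit 5) (nat_lit 7) (nat_lit 4) (nat_lit 299) (nat_lit 270) (nat_lit 211)) (XT.lf (nat_lit 0) (nat_lit 228208431908)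 (nat_lit 76) (nat_lit 75134281495) (nat_lit 76) (nat_lit 13953286333) (nat_lit 6) (nat_lit 4) (nat_lit 7) (nat_lit 5) (nat_lit 7) (nat_lit 4) (nat_lit 300) (nat_lit 270) (nat_lit 210)))))) (XT.nd (nat_lit 468) (nat_lit 152) (nat_lit 0) (XT.nd (nat_lit 234) (nat_lit 76) (nat_lit 0) (XT.nd (nat_lit 78) (nat_lit 0) (nat_lit 0) (XT.lf (nat_lit 0) (nat_lit 15640671572) (nat_lit 76) (nat_lit 21293697387) (nat_lit 152) (nat_lit 323106837730) (nat_lit 4) (nat_lit 5) (nat_lit 5) (nat_lit 5) (nat_lit 6) (nat_lit 4) (nat_lit 301) (nat_lit 270) (nat_lit 209)) (XT.nd (nat_lit 78) (nat_lit 0) (nat_lit 0) (XT.lf (nat_lit 0) (nat_lit 98286904694) (nat_lit 152) (nat_lit 268954980473) (nat_lit 0) (nat_lit 41634683322) (nat_lit 4) (nat_lit 5) (nat_lit 6) (nat_lit 4) (nat_lit 4) (nat_lit 4) (nat_lit 302) (nat_lit 270) (nat_lit 208)) (XT.lf (nat_lit 0) (nat_lit 169428113809) (nat_lit 152) (nat_lit 182787640856)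 (nat_lit 0) (nat_lit 112774617704) (nat_lit 4) (nat_lit 5) (nat_lit 6) (nat_lit 4) (nat_lit 4) (nat_lit 4) (nat_lit 303) (nat_lit 270) (nat_lit 207)))) (XT.nd (nat_lit 78) (nat_lit 76) (nat_lit 0) (XT.lf (nat_lit 0) (nat_lit 251237775592) (nat_lit 152) (nat_lit 83700519601) (nat_lit 0) (nat_lit 194583171023) (nat_lit 4) (nat_lit 5) (nat_lit 6) (nat_lit 4) (nat_lit 4) (nat_lit 4) (nat_lit 304) (nat_lit 270) (nat_lit 206)) (XT.nd (nat_lit 78) (nat_lit 0) (nat_lit 0) (XT.lf (nat_lit 0) (nat_lit 31837694798) (nat_lit 76) (nat_lit 314244516387) (nat_lit 76) (nat_lit 257588947938) (nat_lit 3) (nat_lit 4) (nat_lit 4) (nat_lit 5) (nat_lit 4) (nat_lit 4) (nat_lit 305) (nat_lit 270) (nat_lit 205)) (XT.lf (nat_lit 0) (nat_lit 169771056587) (nat_lit 76) (nat_lit 287816940986) (nat_lit 76) (nat_lit 231160534379) (nat_lit 3) (nat_lit 4) (nat_lit 4) (nat_lit 5) (nat_lit 4) (nat_lit 4) (nat_lit 306) (nat_lit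 270) (nat_lit 204))))) (XT.nd (nat_lit 234) (nat_lit 152) (nat_lit 0) (XT.nd (nat_lit 78) (nat_lit 0) (nat_lit 0) (XT.lf (nat_lit 0) (nat_lit 328390740942) (nat_lit 76) (nat_lit 257427028267) (nat_lit 76) (nat_lit 200769892828) (nat_lit 3) (nat_lit 4) (nat_lit 4) (nat_lit 5) (nat_lit 4) (nat_lit 4) (nat_lit 307) (nat_lit 270) (nat_lit 203)) (XT.nd (nat_lit 78) (nat_lit 0) (nat_lit 0) (XT.lf (nat_lit 0) (nat_lit 510800176471) (nat_lit 76) (nat_lit 222480192983) (nat_lit 76) (nat_lit 165822423776) (nat_lit 3) (nat_lit 4) (nat_lit 4) (nat_lit 5) (nat_lit 4) (nat_lit 4) (nat_lit 308) (nat_lit 270) (nat_lit 202)) (XT.lf (nat_lit 0) (nat_lit 720568243433) (nat_lit 76) (nat_lit 182292692702) (nat_lit 76) (nat_lit 125634372393) (nat_lit 3) (nat_lit 4) (nat_lit 4) (nat_lit 5) (nat_lit 4) (nat_lit 4) (nat_lit 309) (nat_lit 270) (nat_lit 201)))) (XT.nd (nat_lit 156) (nat_lit 152) (nat_lit 0) (XT.nd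 (nat_lit 78) (nat_lit 0) (nat_lit 0) (XT.lf (nat_lit 0) (nat_lit 961799099660) (nat_lit 76) (nat_lit 136078250247) (nat_lit 76) (nat_lit 79419450719) (nat_lit 3) (nat_lit 4) (nat_lit 4) (nat_lit 5) (nat_lit 4) (nat_lit 4) (nat_lit 310) (nat_lit 270) (nat_lit 200)) (XT.lf (nat_lit 0) (nat_lit 1239212479296) (nat_lit 76) (nat_lit 82932670004) (nat_lit 76) (nat_lit 26273453764) (nat_lit 3) (nat_lit 4) (nat_lit 4) (nat_lit 5) (nat_lit 4) (nat_lit 4) (nat_lit 311) (nat_lit 270) (nat_lit 199))) (XT.nd (nat_lit 78) (nat_lit 0) (nat_lit 0) (XT.lf (nat_lit 0) (nat_lit 12831165830) (nat_lit 76) (nat_lit 20577845914) (nat_lit 152) (nat_lit 1511708013345) (nat_lit 1) (nat_lit 5) (nat_lit 2) (nat_lit 5) (nat_lit 3) (nat_lit 4) (nat_lit 312) (nat_lit 270) (nat_lit 198)) (XT.lf (nat_lit 0) (nat_lit 105023183383) (nat_lit 152) (nat_lit 1613319312843) (nat_lit 0) (nat_lit 52560318852) (nat_lit 1) (nat_lit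 5) (nat_lit 3) (nat_lit 4) (nat_lit 1) (nat_lit 4) (nat_lit 313) (nat_lit 270) (nat_lit 197))))))) (XT.nd (nat_lit 1014) (nat_lit 0) (nat_lit 0) (XT.nd (nat_lit 468) (nat_lit 0) (nat_lit 0) (XT.nd (nat_lit 234) (nat_lit 0) (nat_lit 0) (XT.nd (nat_lit 78) (nat_lit 0) (nat_lit 0) (XT.lf (nat_lit 0) (nat_lit 187947832997) (nat_lit 152) (nat_lit 1707078457874) (nat_lit 0) (nat_lit 135484714766) (nat_lit 1) (nat_lit 5) (nat_lit 3) (nat_lit 4) (nat_lit 1) (nat_lit 4) (nat_lit 314) (nat_lit 270) (nat_lit 196)) (XT.nd (nat_lit 78) (nat_lit 0) (nat_lit 0) (XT.lf (nat_lit 0) (nat_lit 283310501693) (nat_lit 152) (nat_lit 1814902814716) (nat_lit 0) (nat_lit 230847162855) (nat_lit 1) (nat_lit 5) (nat_lit 3) (nat_lit 4) (nat_lit 1) (nat_lit 4) (nat_lit 315) (nat_lit 270) (nat_lit 195)) (XT.lf (nat_lit 0) (nat_lit 392976980817) (nat_lit 152) (nat_lit 1938901990351) (nat_lit 0) (nat_lit 340513450145)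 (nat_lit 1) (nat_lit 5) (nat_lit 3) (nat_lit 4) (nat_lit 1) (nat_lit 4) (nat_lit 316) (nat_lit 270) (nat_lit 194)))) (XT.nd (nat_lit 78) (nat_lit 0) (nat_lit 0) (XT.lf (nat_lit 0) (nat_lit 519092918872) (nat_lit 152) (nat_lit 2081502055608) (nat_lit 0) (nat_lit 466629221389) (nat_lit 1) (nat_lit 5) (nat_lit 3) (nat_lit 4) (nat_lit 1) (nat_lit 4) (nat_lit 317) (nat_lit 270) (nat_lit 193)) (XT.nd (nat_lit 78) (nat_lit 0) (nat_lit 0) (XT.lf (nat_lit 0) (nat_lit 664125801604) (nat_lit 152) (nat_lit 2245493011763) (nat_lit 0) (nat_lit 611661959067) (nat_lit 1) (nat_lit 5) (nat_lit 3) (nat_lit 4) (nat_lit 1) (nat_lit 4) (nat_lit 318) (nat_lit 270) (nat_lit 192)) (XT.lf (nat_lit 0) (nat_lit 830913228891) (nat_lit 152) (nat_lit 2434083377522) (nat_lit 0) (nat_lit 778449260221) (nat_lit 1) (nat_lit 5) (nat_lit 3) (nat_lit 4) (nat_lit 1) (nat_lit 4) (nat_lit 319) (nat_lit 270) (nat_lit 191)))))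 (XT.nd (nat_lit 234) (nat_lit 0) (nat_lit 0) (XT.nd (nat_lit 78) (nat_lit 0) (nat_lit 0) (XT.lf (nat_lit 0) (nat_lit 1022718433008) (nat_lit 152) (nat_lit 2650962964392) (nat_lit 0) (nat_lit 970254354657) (nat_lit 1) (nat_lit 5) (nat_lit 3) (nat_lit 4) (nat_lit 1) (nat_lit 4) (nat_lit 320) (nat_lit 270) (nat_lit 190)) (XT.nd (nat_lit 78) (nat_lit 0) (nat_lit 0) (XT.lf (nat_lit 0) (nat_lit 1243294124468) (nat_lit 152) (nat_lit 2900375068635) (nat_lit 0) (nat_lit 1190829950742) (nat_lit 1) (nat_lit 5) (nat_lit 3) (nat_lit 4) (nat_lit 1) (nat_lit 4) (nat_lit 321) (nat_lit 270) (nat_lit 189)) (XT.lf (nat_lit 0) (nat_lit 1496955914627) (nat_lit 152) (nat_lit 3187199492291) (nat_lit 0) (nat_lit 1444491657966) (nat_lit 1) (nat_lit 5) (nat_lit 3) (nat_lit 4) (nat_lit 1) (nat_lit 4) (nat_lit 322) (nat_lit 270) (nat_lit 188)))) (XT.nd (nat_lit 156) (nat_lit 0) (nat_lit 0) (XT.nd (nat_lit 78) (nat_lit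 0) (nat_lit 0) (XT.lf (nat_lit 0) (nat_lit 1788666751553) (nat_lit 152) (nat_lit 3517048017564) (nat_lit 0) (nat_lit 1736202422775) (nat_lit 1) (nat_lit 5) (nat_lit 3) (nat_lit 4) (nat_lit 1) (nat_lit 4) (nat_lit 323) (nat_lit 270) (nat_lit 187)) (XT.lf (nat_lit 0) (nat_lit 2124134021186) (nat_lit 152) (nat_lit 3896374202555) (nat_lit 0) (nat_lit 2071669629698) (nat_lit 1) (nat_lit 5) (nat_lit 3) (nat_lit 4) (nat_lit 1) (nat_lit 4) (nat_lit 324) (nat_lit 270) (nat_lit 186))) (XT.nd (nat_lit 78) (nat_lit 0) (nat_lit 0) (XT.lf (nat_lit 0) (nat_lit 2509921213585) (nat_lit 152) (nat_lit 4332599646536) (nat_lit 0) (nat_lit 2457456767565) (nat_lit 1) (nat_lit 5) (nat_lit 3) (nat_lit 4) (nat_lit 1) (nat_lit 4) (nat_lit 325) (nat_lit 270) (nat_lit 185)) (XT.lf (nat_lit 0) (nat_lit 2953576339034) (nat_lit 152) (nat_lit 4834259195151) (nat_lit 0) (nat_lit 2901111845596) (nat_lit 1) (nat_lit 5) (nat_lit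 3) (nat_lit 4) (nat_lit 1) (nat_lit 4) (nat_lit 326) (nat_lit 270) (nat_lit 184)))))) (XT.nd (nat_lit 36582) (nat_lit 0) (nat_lit 2128) (XT.nd (nat_lit 36348) (nat_lit 0) (nat_lit 3724) (XT.nd (nat_lit 78) (nat_lit 0) (nat_lit 0) (XT.lf (nat_lit 0) (nat_lit 3463779606511) (nat_lit 152) (nat_lit 5411167926524) (nat_lit 0) (nat_lit 3411315071840) (nat_lit 1) (nat_lit 5) (nat_lit 3) (nat_lit 4) (nat_lit 1) (nat_lit 4) (nat_lit 327) (nat_lit 270) (nat_lit 183)) (XT.nd (nat_lit 36192) (nat_lit 0) (nat_lit 3648) (XT.lf (nat_lit 0) (nat_lit 4050513253856) (nat_lit 152) (nat_lit 6074613185400) (nat_lit 0) (nat_lit 3998048683331) (nat_lit 1) (nat_lit 5) (nat_lit 3) (nat_lit 4) (nat_lit 1) (nat_lit 4) (nat_lit 328) (nat_lit 270) (nat_lit 182)) (XT.lf (nat_lit 0) (nat_lit 5821452910) (nat_lit 532) (nat_lit 1865278145) (nat_lit 532) (nat_lit 1865278145) (nat_lit 49) (nat_lit 3) (nat_lit 56) (nat_lit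 3) (nat_lit 56) (nat_lit 5) (nat_lit 271) (nat_lit 271) (nat_lit 238)))) (XT.nd (nat_lit 78) (nat_lit 0) (nat_lit 0) (XT.lf (nat_lit 0) (nat_lit 13153614642) (nat_lit 456) (nat_lit 6921928286) (nat_lit 532) (nat_lit 409528506) (nat_lit 50) (nat_lit 5) (nat_lit 56) (nat_lit 5) (nat_lit 57) (nat_lit 5) (nat_lit 272) (nat_lit 271) (nat_lit 237)) (XT.nd (nat_lit 78) (nat_lit 0) (nat_lit 76) (XT.lf (nat_lit 76) (nat_lit 11735723573) (nat_lit 0) (nat_lit 3920379206) (nat_lit 532) (nat_lit 6356099178) (nat_lit 51) (nat_lit 5) (nat_lit 50) (nat_lit 5) (nat_lit 57) (nat_lit 5) (nat_lit 273) (nat_lit 271) (nat_lit 236)) (XT.lf (nat_lit 76) (nat_lit 9962717219) (nat_lit 0) (nat_lit 9323020933) (nat_lit 532) (nat_lit 4422637966) (nat_lit 52) (nat_lit 5) (nat_lit 51) (nat_lit 5) (nat_lit 58) (nat_lit 5) (nat_lit 274) (nat_lit 271) (nat_lit 235))))) (XT.nd (nat_lit 234) (nat_lit 684) (nat_lit 0) (XT.nd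 (nat_lit 78) (nat_lit 608) (nat_lit 0) (XT.lf (nat_lit 0) (nat_lit 8257474524) (nat_lit 456) (nat_lit 16001867671) (nat_lit 532) (nat_lit 1335773189) (nat_lit 46) (nat_lit 5) (nat_lit 52) (nat_lit 5) (nat_lit 53) (nat_lit 5) (nat_lit 275) (nat_lit 271) (nat_lit 234)) (XT.nd (nat_lit 78) (nat_lit 228) (nat_lit 0) (XT.lf (nat_lit 0) (nat_lit 2983318968) (nat_lit 380) (nat_lit 21152701832) (nat_lit 76) (nat_lit 3554269411) (nat_lit 41) (nat_lit 5) (nat_lit 46) (nat_lit 5) (nat_lit 42) (nat_lit 5) (nat_lit 276) (nat_lit 271) (nat_lit 233)) (XT.lf (nat_lit 0) (nat_lit 4690693514) (nat_lit 228) (nat_lit 4222149516) (nat_lit 304) (nat_lit 21100860347) (nat_lit 38) (nat_lit 5) (nat_lit 41) (nat_lit 5) (nat_lit 42) (nat_lit 5) (nat_lit 277) (nat_lit 271) (nat_lit 232)))) (XT.nd (nat_lit 156) (nat_lit 304) (nat_lit 0) (XT.nd (nat_lit 78) (nat_lit 152) (nat_lit 0) (XT.lf (nat_lit 0) (nat_lit 2689127435)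 (nat_lit 228) (nat_lit 14158110161) (nat_lit 304) (nat_lit 15749216969) (nat_lit 35) (nat_lit 5) (nat_lit 38) (nat_lit 5) (nat_lit 39) (nat_lit 5) (nat_lit 278) (nat_lit 271) (nat_lit 231)) (XT.lf (nat_lit 0) (nat_lit 581492036) (nat_lit 152) (nat_lit 26456363356) (nat_lit 228) (nat_lit 8443531307) (nat_lit 33) (nat_lit 5) (nat_lit 35) (nat_lit 5) (nat_lit 36) (nat_lit 5) (nat_lit 279) (nat_lit 271) (nat_lit 230))) (XT.nd (nat_lit 78) (nat_lit 228) (nat_lit 0) (XT.lf (nat_lit 0) (nat_lit 1219893308) (nat_lit 228) (nat_lit 1720760904) (nat_lit 76) (nat_lit 35757745386) (nat_lit 32) (nat_lit 5) (nat_lit 35) (nat_lit 5) (nat_lit 33) (nat_lit 5) (nat_lit 280) (nat_lit 271) (nat_lit 229)) (XT.lf (nat_lit 0) (nat_lit 13350371709) (nat_lit 304) (nat_lit 4839245670) (nat_lit 76) (nat_lit 24069440124) (nat_lit 29) (nat_lit 5) (nat_lit 33) (nat_lit 5) (nat_lit 30) (nat_lit 5) (nat_lit 281) (nat_lit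 271) (nat_lit 228))))))))
noncomputable def xc37 : XT := (XT.nd (nat_lit 2028) (nat_lit 152) (nat_lit 0) (XT.nd (nat_lit 1014) (nat_lit 532) (nat_lit 0) (XT.nd (nat_lit 468) (nat_lit 532) (nat_lit 0) (XT.nd (nat_lit 234) (nat_lit 456) (nat_lit 0) (XT.nd (nat_lit 78) (nat_lit 304) (nat_lit 0) (XT.lf (nat_lit 0) (nat_lit 28558719370) (nat_lit 228) (nat_lit 8528520307) (nat_lit 76) (nat_lit 9165943124) (nat_lit 27) (nat_lit 5) (nat_lit 30) (nat_lit 5) (nat_lit 28) (nat_lit 5) (nat_lit 282) (nat_lit 271) (nat_lit 227)) (XT.nd (nat_lit 78) (nat_lit 152) (nat_lit 0) (XT.lf (nat_lit 0) (nat_lit 37472254261) (nat_lit 152) (nat_lit 10106906471) (nat_lit 228) (nat_lit 3144827101) (nat_lit 25) (nat_lit 5) (nat_lit 27) (nat_lit 5) (nat_lit 28) (nat_lit 5) (nat_lit 283) (nat_lit 271) (nat_lit 226)) (XT.lf (nat_lit 0) (nat_lit 14564596564) (nat_lit 152) (nat_lit 19778751898) (nat_lit 76) (nat_lit 21363383499)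 (nat_lit 23) (nat_lit 5) (nat_lit 25) (nat_lit 5) (nat_lit 24) (nat_lit 5) (nat_lit 284) (nat_lit 271) (nat_lit 225)))) (XT.nd (nat_lit 78) (nat_lit 304) (nat_lit 0) (XT.lf (nat_lit 0) (nat_lit 33138166977) (nat_lit 152) (nat_lit 3068437604) (nat_lit 228) (nat_lit 25106777839) (nat_lit 21) (nat_lit 5) (nat_lit 23) (nat_lit 5) (nat_lit 24) (nat_lit 5) (nat_lit 285) (nat_lit 271) (nat_lit 224)) (XT.nd (nat_lit 78) (nat_lit 228) (nat_lit 0) (XT.lf (nat_lit 0) (nat_lit 28049398871) (nat_lit 76) (nat_lit 35088095912) (nat_lit 152) (nat_lit 4460146395) (nat_lit 20) (nat_lit 5) (nat_lit 21) (nat_lit 5) (nat_lit 22) (nat_lit 4) (nat_lit 286) (nat_lit 271) (nat_lit 223)) (XT.lf (nat_lit 0) (nat_lit 19723374448) (nat_lit 228) (nat_lit 54617094348) (nat_lit 76) (nat_lit 334619760) (nat_lit 17) (nat_lit 5) (nat_lit 20) (nat_lit 5) (nat_lit 18) (nat_lit 4) (nat_lit 287) (nat_lit 271) (nat_lit 222)))))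 (XT.nd (nat_lit 234) (nat_lit 304) (nat_lit 0) (XT.nd (nat_lit 78) (nat_lit 152) (nat_lit 0) (XT.lf (nat_lit 0) (nat_lit 7509308162) (nat_lit 76) (nat_lit 42088900571) (nat_lit 152) (nat_lit 33020458461) (nat_lit 16) (nat_lit 5) (nat_lit 17) (nat_lit 5) (nat_lit 18) (nat_lit 4) (nat_lit 288) (nat_lit 271) (nat_lit 221)) (XT.nd (nat_lit 78) (nat_lit 152) (nat_lit 0) (XT.lf (nat_lit 0) (nat_lit 82243194545) (nat_lit 76) (nat_lit 3290307726) (nat_lit 152) (nat_lit 6093952103) (nat_lit 16) (nat_lit 5) (nat_lit 17) (nat_lit 5) (nat_lit 18) (nat_lit 4) (nat_lit 289) (nat_lit 271) (nat_lit 220)) (XT.lf (nat_lit 0) (nat_lit 26330432905) (nat_lit 152) (nat_lit 33822061782) (nat_lit 76) (nat_lit 41570974319) (nat_lit 14) (nat_lit 5) (nat_lit 16) (nat_lit 5) (nat_lit 15) (nat_lit 4) (nat_lit 290) (nat_lit 271) (nat_lit 219)))) (XT.nd (nat_lit 156) (nat_lit 152) (nat_lit 0) (XT.nd (nat_lit 78) (nat_lit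 76) (nat_lit 0) (XT.lf (nat_lit 0) (nat_lit 46057425828) (nat_lit 76) (nat_lit 18680485954) (nat_lit 152) (nat_lit 48464897339) (nat_lit 13) (nat_lit 5) (nat_lit 14) (nat_lit 5) (nat_lit 15) (nat_lit 4) (nat_lit 291) (nat_lit 271) (nat_lit 218)) (XT.lf (nat_lit 0) (nat_lit 13582628317) (nat_lit 76) (nat_lit 97350237226) (nat_lit 76) (nat_lit 15309082847) (nat_lit 12) (nat_lit 4) (nat_lit 13) (nat_lit 5) (nat_lit 13) (nat_lit 4) (nat_lit 292) (nat_lit 271) (nat_lit 217))) (XT.nd (nat_lit 78) (nat_lit 76) (nat_lit 0) (XT.lf (nat_lit 0) (nat_lit 24193069926) (nat_lit 152) (nat_lit 31725217923) (nat_lit 76) (nat_lit 85073608300) (nat_lit 11) (nat_lit 5) (nat_lit 13) (nat_lit 5) (nat_lit 12) (nat_lit 4) (nat_lit 293) (nat_lit 271) (nat_lit 216)) (XT.lf (nat_lit 0) (nat_lit 64120681851) (nat_lit 76) (nat_lit 6154509201) (nat_lit 152) (nat_lit 87522449287) (nat_lit 10) (nat_lit 5) (nat_lit 11)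 (nat_lit 5) (nat_lit 12) (nat_lit 4) (nat_lit 294) (nat_lit 271) (nat_lit 215)))))) (XT.nd (nat_lit 468) (nat_lit 228) (nat_lit 0) (XT.nd (nat_lit 234) (nat_lit 76) (nat_lit 0) (XT.nd (nat_lit 78) (nat_lit 228) (nat_lit 0) (XT.lf (nat_lit 0) (nat_lit 125439311450) (nat_lit 152) (nat_lit 2049818385) (nat_lit 0) (nat_lit 49461545719) (nat_lit 10) (nat_lit 5) (nat_lit 12) (nat_lit 4) (nat_lit 10) (nat_lit 4) (nat_lit 295) (nat_lit 271) (nat_lit 214)) (XT.nd (nat_lit 78) (nat_lit 152) (nat_lit 0) (XT.lf (nat_lit 0) (nat_lit 108572135191) (nat_lit 76) (nat_lit 83081832843) (nat_lit 76) (nat_lit 7100627942) (nat_lit 9) (nat_lit 4) (nat_lit 10) (nat_lit 5) (nat_lit 10) (nat_lit 4) (nat_lit 296) (nat_lit 271) (nat_lit 213)) (XT.lf (nat_lit 0) (nat_lit 11598663042) (nat_lit 76) (nat_lit 30508480480) (nat_lit 152) (nat_lit 181610556520) (nat_lit 7) (nat_lit 5) (nat_lit 8) (nat_lit 5) (nat_lit 9)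 (nat_lit 4) (nat_lit 297) (nat_lit 271) (nat_lit 212)))) (XT.nd (nat_lit 78) (nat_lit 76) (nat_lit 0) (XT.lf (nat_lit 0) (nat_lit 101696924035) (nat_lit 152) (nat_lit 119101111519) (nat_lit 0) (nat_lit 31338779598) (nat_lit 7) (nat_lit 5) (nat_lit 9) (nat_lit 4) (nat_lit 7) (nat_lit 4) (nat_lit 298) (nat_lit 271) (nat_lit 211)) (XT.nd (nat_lit 78) (nat_lit 76) (nat_lit 0) (XT.lf (nat_lit 0) (nat_lit 171064825765) (nat_lit 152) (nat_lit 12982213965) (nat_lit 0) (nat_lit 100704587522) (nat_lit 7) (nat_lit 5) (nat_lit 9) (nat_lit 4) (nat_lit 7) (nat_lit 4) (nat_lit 299) (nat_lit 271) (nat_lit 210)) (XT.lf (nat_lit 0) (nat_lit 114789879314) (nat_lit 76) (nat_lit 138805137145) (nat_lit 76) (nat_lit 68443078201) (nat_lit 6) (nat_lit 4) (nat_lit 7) (nat_lit 5) (nat_lit 7) (nat_lit 4) (nat_lit 300) (nat_lit 271) (nat_lit 209))))) (XT.nd (nat_lit 234) (nat_lit 76) (nat_lit 0) (XT.nd (nat_lit 78)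 (nat_lit 152) (nat_lit 0) (XT.lf (nat_lit 0) (nat_lit 262507639958) (nat_lit 76) (nat_lit 86371780577) (nat_lit 76) (nat_lit 16008138415) (nat_lit 6) (nat_lit 4) (nat_lit 7) (nat_lit 5) (nat_lit 7) (nat_lit 4) (nat_lit 301) (nat_lit 271) (nat_lit 208)) (XT.nd (nat_lit 78) (nat_lit 0) (nat_lit 0) (XT.lf (nat_lit 0) (nat_lit 18050725160) (nat_lit 76) (nat_lit 24456844086) (nat_lit 152) (nat_lit 371537161375) (nat_lit 4) (nat_lit 5) (nat_lit 5) (nat_lit 5) (nat_lit 6) (nat_lit 4) (nat_lit 302) (nat_lit 271) (nat_lit 207)) (XT.lf (nat_lit 0) (nat_lit 113059321510) (nat_lit 152) (nat_lit 309240952251) (nat_lit 0) (nat_lit 47905417794) (nat_lit 4) (nat_lit 5) (nat_lit 6) (nat_lit 4) (nat_lit 4) (nat_lit 4) (nat_lit 303) (nat_lit 271) (nat_lit 206)))) (XT.nd (nat_lit 156) (nat_lit 76) (nat_lit 0) (XT.nd (nat_lit 78) (nat_lit 0) (nat_lit 0) (XT.lf (nat_lit 0) (nat_lit 194867879674) (nat_lit 152)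 (nat_lit 210155982382) (nat_lit 0) (nat_lit 129713012076) (nat_lit 4) (nat_lit 5) (nat_lit 6) (nat_lit 4) (nat_lit 4) (nat_lit 4) (nat_lit 304) (nat_lit 271) (nat_lit 205)) (XT.lf (nat_lit 0) (nat_lit 288945658272) (nat_lit 152) (nat_lit 96212289191) (nat_lit 0) (nat_lit 223789952517) (nat_lit 4) (nat_lit 5) (nat_lit 6) (nat_lit 4) (nat_lit 4) (nat_lit 4) (nat_lit 305) (nat_lit 271) (nat_lit 204))) (XT.nd (nat_lit 78) (nat_lit 0) (nat_lit 0) (XT.lf (nat_lit 0) (nat_lit 36652991532) (nat_lit 76) (nat_lit 361361823293) (nat_lit 76) (nat_lit 296205388705) (nat_lit 3) (nat_lit 4) (nat_lit 4) (nat_lit 5) (nat_lit 4) (nat_lit 4) (nat_lit 306) (nat_lit 271) (nat_lit 203)) (XT.lf (nat_lit 0) (nat_lit 195271186827) (nat_lit 76) (nat_lit 330972638175) (nat_lit 76) (nat_lit 265815569819) (nat_lit 3) (nat_lit 4) (nat_lit 4) (nat_lit 5) (nat_lit 4) (nat_lit 4) (nat_lit 307) (nat_lit 271) (nat_lit 202)))))))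 (XT.nd (nat_lit 1014) (nat_lit 0) (nat_lit 0) (XT.nd (nat_lit 468) (nat_lit 0) (nat_lit 0) (XT.nd (nat_lit 234) (nat_lit 152) (nat_lit 0) (XT.nd (nat_lit 78) (nat_lit 0) (nat_lit 0) (XT.lf (nat_lit 0) (nat_lit 377679327520) (nat_lit 76) (nat_lit 296026435587) (nat_lit 76) (nat_lit 230868816129) (nat_lit 3) (nat_lit 4) (nat_lit 4) (nat_lit 5) (nat_lit 4) (nat_lit 4) (nat_lit 308) (nat_lit 271) (nat_lit 201)) (XT.nd (nat_lit 78) (nat_lit 0) (nat_lit 0) (XT.lf (nat_lit 0) (nat_lit 587446268538) (nat_lit 76) (nat_lit 255839485477) (nat_lit 76) (nat_lit 190681386800) (nat_lit 3) (nat_lit 4) (nat_lit 4) (nat_lit 5) (nat_lit 4) (nat_lit 4) (nat_lit 309) (nat_lit 271) (nat_lit 200)) (XT.lf (nat_lit 0) (nat_lit 828676145684) (nat_lit 76) (nat_lit 209625521432) (nat_lit 76) (nat_lit 144467006042) (nat_lit 3) (nat_lit 4) (nat_lit 4) (nat_lit 5) (nat_lit 4) (nat_lit 4) (nat_lit 310) (nat_lit 271)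 (nat_lit 199)))) (XT.nd (nat_lit 78) (nat_lit 152) (nat_lit 0) (XT.lf (nat_lit 0) (nat_lit 1106088673945) (nat_lit 76) (nat_lit 156480357197) (nat_lit 76) (nat_lit 91321479449) (nat_lit 3) (nat_lit 4) (nat_lit 4) (nat_lit 5) (nat_lit 4) (nat_lit 4) (nat_lit 311) (nat_lit 271) (nat_lit 198)) (XT.nd (nat_lit 78) (nat_lit 152) (nat_lit 0) (XT.lf (nat_lit 0) (nat_lit 1425111489743) (nat_lit 76) (nat_lit 95364196081) (nat_lit 76) (nat_lit 30205003238) (nat_lit 3) (nat_lit 4) (nat_lit 4) (nat_lit 5) (nat_lit 4) (nat_lit 4) (nat_lit 312) (nat_lit 271) (nat_lit 197)) (XT.lf (nat_lit 0) (nat_lit 14771964953) (nat_lit 76) (nat_lit 23656608023) (nat_lit 152) (nat_lit 1738455346438) (nat_lit 1) (nat_lit 5) (nat_lit 2) (nat_lit 5) (nat_lit 3) (nat_lit 4) (nat_lit 313) (nat_lit 271) (nat_lit 196))))) (XT.nd (nat_lit 234) (nat_lit 0) (nat_lit 0) (XT.nd (nat_lit 78) (nat_lit 0) (nat_lit 0) (XT.lf (nat_lit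 0) (nat_lit 120783965082) (nat_lit 152) (nat_lit 1855302780782) (nat_lit 0) (nat_lit 60450904809) (nat_lit 1) (nat_lit 5) (nat_lit 3) (nat_lit 4) (nat_lit 1) (nat_lit 4) (nat_lit 314) (nat_lit 271) (nat_lit 195)) (XT.nd (nat_lit 78) (nat_lit 0) (nat_lit 0) (XT.lf (nat_lit 0) (nat_lit 216146359417) (nat_lit 152) (nat_lit 1963127679609) (nat_lit 0) (nat_lit 155813107311) (nat_lit 1) (nat_lit 5) (nat_lit 3) (nat_lit 4) (nat_lit 1) (nat_lit 4) (nat_lit 315) (nat_lit 271) (nat_lit 194)) (XT.lf (nat_lit 0) (nat_lit 325812599965) (nat_lit 152) (nat_lit 2087127326535) (nat_lit 0) (nat_lit 265479181048) (nat_lit 1) (nat_lit 5) (nat_lit 3) (nat_lit 4) (nat_lit 1) (nat_lit 4) (nat_lit 316) (nat_lit 271) (nat_lit 193)))) (XT.nd (nat_lit 156) (nat_lit 0) (nat_lit 0) (XT.nd (nat_lit 78) (nat_lit 0) (nat_lit 0) (XT.lf (nat_lit 0) (nat_lit 451928330564) (nat_lit 152) (nat_lit 2229727801610) (nat_lit 0)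 (nat_lit 391594766593) (nat_lit 1) (nat_lit 5) (nat_lit 3) (nat_lit 4) (nat_lit 1) (nat_lit 4) (nat_lit 317) (nat_lit 271) (nat_lit 192)) (XT.lf (nat_lit 0) (nat_lit 596961032898) (nat_lit 152) (nat_lit 2393719114129) (nat_lit 0) (nat_lit 536627342794) (nat_lit 1) (nat_lit 5) (nat_lit 3) (nat_lit 4) (nat_lit 1) (nat_lit 4) (nat_lit 318) (nat_lit 271) (nat_lit 191))) (XT.nd (nat_lit 78) (nat_lit 0) (nat_lit 0) (XT.lf (nat_lit 0) (nat_lit 763748303318) (nat_lit 152) (nat_lit 2582309789770) (nat_lit 0) (nat_lit 703414503534) (nat_lit 1) (nat_lit 5) (nat_lit 3) (nat_lit 4) (nat_lit 1) (nat_lit 4) (nat_lit 319) (nat_lit 271) (nat_lit 190)) (XT.lf (nat_lit 0) (nat_lit 955553371028) (nat_lit 152) (nat_lit 2799189646101) (nat_lit 0) (nat_lit 895219475869) (nat_lit 1) (nat_lit 5) (nat_lit 3) (nat_lit 4) (nat_lit 1) (nat_lit 4) (nat_lit 320) (nat_lit 271) (nat_lit 189)))))) (XT.nd (nat_lit 468)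 (nat_lit 0) (nat_lit 0) (XT.nd (nat_lit 234) (nat_lit 0) (nat_lit 0) (XT.nd (nat_lit 78) (nat_lit 0) (nat_lit 0) (XT.lf (nat_lit 0) (nat_lit 1176128943875) (nat_lit 152) (nat_lit 3048601984659) (nat_lit 0) (nat_lit 1115794965780) (nat_lit 1) (nat_lit 5) (nat_lit 3) (nat_lit 4) (nat_lit 1) (nat_lit 4) (nat_lit 321) (nat_lit 271) (nat_lit 188)) (XT.nd (nat_lit 78) (nat_lit 0) (nat_lit 0) (XT.lf (nat_lit 0) (nat_lit 1429790630891) (nat_lit 152) (nat_lit 3335426612068) (nat_lit 0) (nat_lit 1369456580679) (nat_lit 1) (nat_lit 5) (nat_lit 3) (nat_lit 4) (nat_lit 1) (nat_lit 4) (nat_lit 322) (nat_lit 271) (nat_lit 187)) (XT.lf (nat_lit 0) (nat_lit 1721501378128) (nat_lit 152) (nat_lit 3665275314516) (nat_lit 0) (nat_lit 1661167265206) (nat_lit 1) (nat_lit 5) (nat_lit 3) (nat_lit 4) (nat_lit 1) (nat_lit 4) (nat_lit 323) (nat_lit 271) (nat_lit 186)))) (XT.nd (nat_lit 78) (nat_lit 0) (nat_lit 0)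 (XT.lf (nat_lit 0) (nat_lit 2056968569771) (nat_lit 152) (nat_lit 4044601653573) (nat_lit 0) (nat_lit 1996634402317) (nat_lit 1) (nat_lit 5) (nat_lit 3) (nat_lit 4) (nat_lit 1) (nat_lit 4) (nat_lit 324) (nat_lit 271) (nat_lit 185)) (XT.nd (nat_lit 78) (nat_lit 0) (nat_lit 0) (XT.lf (nat_lit 0) (nat_lit 2442755694351) (nat_lit 152) (nat_lit 4480827231525) (nat_lit 0) (nat_lit 2382421479480) (nat_lit 1) (nat_lit 5) (nat_lit 3) (nat_lit 4) (nat_lit 1) (nat_lit 4) (nat_lit 325) (nat_lit 271) (nat_lit 184)) (XT.lf (nat_lit 0) (nat_lit 2886410760828) (nat_lit 152) (nat_lit 4982486896636) (nat_lit 0) (nat_lit 2826076504723) (nat_lit 1) (nat_lit 5) (nat_lit 3) (nat_lit 4) (nat_lit 1) (nat_lit 4) (nat_lit 326) (nat_lit 271) (nat_lit 183))))) (XT.nd (nat_lit 36426) (nat_lit 0) (nat_lit 3420) (XT.nd (nat_lit 78) (nat_lit 0) (nat_lit 0) (XT.lf (nat_lit 0) (nat_lit 3396613977024) (nat_lit 152) (nat_lit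 5559395729310) (nat_lit 0) (nat_lit 3336279685065) (nat_lit 1) (nat_lit 5) (nat_lit 3) (nat_lit 4) (nat_lit 1) (nat_lit 4) (nat_lit 327) (nat_lit 271) (nat_lit 182)) (XT.nd (nat_lit 36270) (nat_lit 0) (nat_lit 3648) (XT.lf (nat_lit 0) (nat_lit 3983347579779) (nat_lit 152) (nat_lit 6222841076273) (nat_lit 0) (nat_lit 3923013256641) (nat_lit 1) (nat_lit 5) (nat_lit 3) (nat_lit 4) (nat_lit 1) (nat_lit 4) (nat_lit 328) (nat_lit 271) (nat_lit 181)) (XT.lf (nat_lit 0) (nat_lit 6982881024) (nat_lit 532) (nat_lit 1989077341) (nat_lit 532) (nat_lit 1989077341) (nat_lit 49) (nat_lit 3) (nat_lit 56) (nat_lit 3) (nat_lit 56) (nat_lit 5) (nat_lit 272) (nat_lit 272) (nat_lit 236)))) (XT.nd (nat_lit 156) (nat_lit 304) (nat_lit 0) (XT.nd (nat_lit 78) (nat_lit 0) (nat_lit 0) (XT.lf (nat_lit 0) (nat_lit 15629408304) (nat_lit 456) (nat_lit 7627391643) (nat_lit 532) (nat_lit 259563285) (nat_lit 50) (nat_lit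 5) (nat_lit 56) (nat_lit 5) (nat_lit 57) (nat_lit 5) (nat_lit 273) (nat_lit 272) (nat_lit 235)) (XT.lf (nat_lit 76) (nat_lit 13800735941) (nat_lit 0) (nat_lit 4648284375) (nat_lit 532) (nat_lit 6828365853) (nat_lit 51) (nat_lit 5) (nat_lit 50) (nat_lit 5) (nat_lit 57) (nat_lit 5) (nat_lit 274) (nat_lit 272) (nat_lit 234))) (XT.nd (nat_lit 78) (nat_lit 380) (nat_lit 0) (XT.lf (nat_lit 76) (nat_lit 11772614041) (nat_lit 0) (nat_lit 10797171284) (nat_lit 532) (nat_lit 4662608023) (nat_lit 52) (nat_lit 5) (nat_lit 51) (nat_lit 5) (nat_lit 58) (nat_lit 5) (nat_lit 275) (nat_lit 272) (nat_lit 233)) (XT.lf (nat_lit 0) (nat_lit 9816057072) (nat_lit 456) (nat_lit 18428460602) (nat_lit 532) (nat_lit 1161341982) (nat_lit 46) (nat_lit 5) (nat_lit 52) (nat_lit 5) (nat_lit 53) (nat_lit 5) (nat_lit 276) (nat_lit 272) (nat_lit 232))))))))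
noncomputable def xc38 : XT := (XT.nd (nat_lit 2028) (nat_lit 380) (nat_lit 0) (XT.nd (nat_lit 1014) (nat_lit 760) (nat_lit 0) (XT.nd (nat_lit 468) (nat_lit 988) (nat_lit 0) (XT.nd (nat_lit 234) (nat_lit 456) (nat_lit 0) (XT.nd (nat_lit 78) (nat_lit 456) (nat_lit 0) (XT.lf (nat_lit 0) (nat_lit 3747744667) (nat_lit 380) (nat_lit 23988690938) (nat_lit 76) (nat_lit 4081382793) (nat_lit 41) (nat_lit 5) (nat_lit 46) (nat_lit 5) (nat_lit 42) (nat_lit 5) (nat_lit 277) (nat_lit 272) (nat_lit 231)) (XT.nd (nat_lit 78) (nat_lit 228) (nat_lit 0) (XT.lf (nat_lit 0) (nat_lit 5702695434) (nat_lit 228) (nat_lit 4830080465) (nat_lit 304) (nat_lit 23959767587) (nat_lit 38) (nat_lit 5) (nat_lit 41) (nat_lit 5) (nat_lit 42) (nat_lit 5) (nat_lit 278) (nat_lit 272) (nat_lit 230)) (XT.lf (nat_lit 0) (nat_lit 3395481451) (nat_lit 228) (nat_lit 16232752127) (nat_lit 304) (nat_lit 17836876446) (nat_lit 35) (nat_lit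 5) (nat_lit 38) (nat_lit 5) (nat_lit 39) (nat_lit 5) (nat_lit 279) (nat_lit 272) (nat_lit 229)))) (XT.nd (nat_lit 78) (nat_lit 304) (nat_lit 0) (XT.lf (nat_lit 0) (nat_lit 964025268) (nat_lit 152) (nat_lit 30358428533) (nat_lit 228) (nat_lit 9462392601) (nat_lit 33) (nat_lit 5) (nat_lit 35) (nat_lit 5) (nat_lit 36) (nat_lit 5) (nat_lit 280) (nat_lit 272) (nat_lit 228)) (XT.nd (nat_lit 78) (nat_lit 228) (nat_lit 0) (XT.lf (nat_lit 0) (nat_lit 1607467762) (nat_lit 228) (nat_lit 1710960868) (nat_lit 76) (nat_lit 41168013676) (nat_lit 32) (nat_lit 5) (nat_lit 35) (nat_lit 5) (nat_lit 33) (nat_lit 5) (nat_lit 281) (nat_lit 272) (nat_lit 227)) (XT.lf (nat_lit 0) (nat_lit 15538207643) (nat_lit 304) (nat_lit 5306364876) (nat_lit 76) (nat_lit 27738216852) (nat_lit 29) (nat_lit 5) (nat_lit 33) (nat_lit 5) (nat_lit 30) (nat_lit 5) (nat_lit 282) (nat_lit 272) (nat_lit 226))))) (XT.nd (nat_lit 234)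 (nat_lit 532) (nat_lit 0) (XT.nd (nat_lit 78) (nat_lit 304) (nat_lit 0) (XT.lf (nat_lit 0) (nat_lit 33011021875) (nat_lit 228) (nat_lit 9559009482) (nat_lit 76) (nat_lit 10607384648) (nat_lit 27) (nat_lit 5) (nat_lit 30) (nat_lit 5) (nat_lit 28) (nat_lit 5) (nat_lit 283) (nat_lit 272) (nat_lit 225)) (XT.nd (nat_lit 78) (nat_lit 152) (nat_lit 0) (XT.lf (nat_lit 0) (nat_lit 43320822532) (nat_lit 152) (nat_lit 11547206268) (nat_lit 228) (nat_lit 3452167563) (nat_lit 25) (nat_lit 5) (nat_lit 27) (nat_lit 5) (nat_lit 28) (nat_lit 5) (nat_lit 284) (nat_lit 272) (nat_lit 224)) (XT.lf (nat_lit 0) (nat_lit 16892085008) (nat_lit 152) (nat_lit 22519732301) (nat_lit 76) (nat_lit 24639315241) (nat_lit 23) (nat_lit 5) (nat_lit 25) (nat_lit 5) (nat_lit 24) (nat_lit 5) (nat_lit 285) (nat_lit 272) (nat_lit 223)))) (XT.nd (nat_lit 156) (nat_lit 304) (nat_lit 0) (XT.nd (nat_lit 78) (nat_lit 76) (nat_lit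 0) (XT.lf (nat_lit 0) (nat_lit 38315608819) (nat_lit 152) (nat_lit 3451131002) (nat_lit 228) (nat_lit 28733157278) (nat_lit 21) (nat_lit 5) (nat_lit 23) (nat_lit 5) (nat_lit 24) (nat_lit 5) (nat_lit 286) (nat_lit 272) (nat_lit 222)) (XT.lf (nat_lit 0) (nat_lit 32453924781) (nat_lit 76) (nat_lit 40272856749) (nat_lit 152) (nat_lit 5000872717) (nat_lit 20) (nat_lit 5) (nat_lit 21) (nat_lit 5) (nat_lit 22) (nat_lit 4) (nat_lit 287) (nat_lit 272) (nat_lit 221))) (XT.nd (nat_lit 78) (nat_lit 76) (nat_lit 0) (XT.lf (nat_lit 0) (nat_lit 22794171649) (nat_lit 228) (nat_lit 62616110852) (nat_lit 76) (nat_lit 456973252) (nat_lit 17) (nat_lit 5) (nat_lit 20) (nat_lit 5) (nat_lit 18) (nat_lit 4) (nat_lit 288) (nat_lit 272) (nat_lit 220)) (XT.lf (nat_lit 0) (nat_lit 8812869191) (nat_lit 76) (nat_lit 48326976047) (nat_lit 152) (nat_lit 37863371528) (nat_lit 16) (nat_lit 5) (nat_lit 17) (nat_lit 5) (nat_lit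 18) (nat_lit 4) (nat_lit 289) (nat_lit 272) (nat_lit 219)))))) (XT.nd (nat_lit 468) (nat_lit 304) (nat_lit 0) (XT.nd (nat_lit 234) (nat_lit 228) (nat_lit 0) (XT.nd (nat_lit 78) (nat_lit 228) (nat_lit 0) (XT.lf (nat_lit 0) (nat_lit 94733730079) (nat_lit 76) (nat_lit 3718410746) (nat_lit 152) (nat_lit 6912257352) (nat_lit 16) (nat_lit 5) (nat_lit 17) (nat_lit 5) (nat_lit 18) (nat_lit 4) (nat_lit 290) (nat_lit 272) (nat_lit 218)) (XT.nd (nat_lit 78) (nat_lit 76) (nat_lit 0) (XT.lf (nat_lit 0) (nat_lit 30364134888) (nat_lit 152) (nat_lit 38744729220) (nat_lit 76) (nat_lit 47866325608) (nat_lit 14) (nat_lit 5) (nat_lit 16) (nat_lit 5) (nat_lit 15) (nat_lit 4) (nat_lit 291) (nat_lit 272) (nat_lit 217)) (XT.lf (nat_lit 0) (nat_lit 53103930451) (nat_lit 76) (nat_lit 21421147025) (nat_lit 152) (nat_lit 55651974981) (nat_lit 13) (nat_lit 5) (nat_lit 14) (nat_lit 5) (nat_lit 15) (nat_lit 4) (nat_lit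 292) (nat_lit 272) (nat_lit 216)))) (XT.nd (nat_lit 78) (nat_lit 152) (nat_lit 0) (XT.lf (nat_lit 0) (nat_lit 15750544703) (nat_lit 76) (nat_lit 111893177455) (nat_lit 76) (nat_lit 17528792418) (nat_lit 12) (nat_lit 4) (nat_lit 13) (nat_lit 5) (nat_lit 13) (nat_lit 4) (nat_lit 293) (nat_lit 272) (nat_lit 215)) (XT.nd (nat_lit 78) (nat_lit 76) (nat_lit 0) (XT.lf (nat_lit 0) (nat_lit 27885350737) (nat_lit 152) (nat_lit 36367126953) (nat_lit 76) (nat_lit 97883095445) (nat_lit 11) (nat_lit 5) (nat_lit 13) (nat_lit 5) (nat_lit 12) (nat_lit 4) (nat_lit 294) (nat_lit 272) (nat_lit 214)) (XT.lf (nat_lit 0) (nat_lit 73845765015) (nat_lit 76) (nat_lit 7028338738) (nat_lit 152) (nat_lit 100588535557) (nat_lit 10) (nat_lit 5) (nat_lit 11) (nat_lit 5) (nat_lit 12) (nat_lit 4) (nat_lit 295) (nat_lit 272) (nat_lit 213))))) (XT.nd (nat_lit 234) (nat_lit 76) (nat_lit 0) (XT.nd (nat_lit 78) (nat_lit 228)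 (nat_lit 0) (XT.lf (nat_lit 0) (nat_lit 144306356719) (nat_lit 152) (nat_lit 2261255340) (nat_lit 0) (nat_lit 56921541328) (nat_lit 10) (nat_lit 5) (nat_lit 12) (nat_lit 4) (nat_lit 10) (nat_lit 4) (nat_lit 296) (nat_lit 272) (nat_lit 212)) (XT.nd (nat_lit 78) (nat_lit 152) (nat_lit 0) (XT.lf (nat_lit 0) (nat_lit 124945862321) (nat_lit 76) (nat_lit 95502792082) (nat_lit 76) (nat_lit 8115376185) (nat_lit 9) (nat_lit 4) (nat_lit 10) (nat_lit 5) (nat_lit 10) (nat_lit 4) (nat_lit 297) (nat_lit 272) (nat_lit 211)) (XT.lf (nat_lit 0) (nat_lit 13421257102) (nat_lit 76) (nat_lit 35045538239) (nat_lit 152) (nat_lit 208805051150) (nat_lit 7) (nat_lit 5) (nat_lit 8) (nat_lit 5) (nat_lit 9) (nat_lit 4) (nat_lit 298) (nat_lit 272) (nat_lit 210)))) (XT.nd (nat_lit 156) (nat_lit 76) (nat_lit 0) (XT.nd (nat_lit 78) (nat_lit 0) (nat_lit 0) (XT.lf (nat_lit 0) (nat_lit 116990178637) (nat_lit 152) (nat_lit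 136892052110) (nat_lit 0) (nat_lit 36071990150) (nat_lit 7) (nat_lit 5) (nat_lit 9) (nat_lit 4) (nat_lit 7) (nat_lit 4) (nat_lit 299) (nat_lit 272) (nat_lit 209)) (XT.lf (nat_lit 0) (nat_lit 196758215714) (nat_lit 152) (nat_lit 14865001593) (nat_lit 0) (nat_lit 115838444009) (nat_lit 7) (nat_lit 5) (nat_lit 9) (nat_lit 4) (nat_lit 7) (nat_lit 4) (nat_lit 300) (nat_lit 272) (nat_lit 208))) (XT.nd (nat_lit 78) (nat_lit 0) (nat_lit 0) (XT.lf (nat_lit 0) (nat_lit 132067442310) (nat_lit 76) (nat_lit 159597522375) (nat_lit 76) (nat_lit 78676373959) (nat_lit 6) (nat_lit 4) (nat_lit 7) (nat_lit 5) (nat_lit 7) (nat_lit 4) (nat_lit 301) (nat_lit 272) (nat_lit 207)) (XT.lf (nat_lit 0) (nat_lit 301935160821) (nat_lit 76) (nat_lit 99302864758) (nat_lit 76) (nat_lit 18380519201) (nat_lit 6) (nat_lit 4) (nat_lit 7) (nat_lit 5) (nat_lit 7) (nat_lit 4) (nat_lit 302) (nat_lit 272) (nat_lit 206))))))) (XT.nd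 (nat_lit 1014) (nat_lit 0) (nat_lit 0) (XT.nd (nat_lit 468) (nat_lit 152) (nat_lit 0) (XT.nd (nat_lit 234) (nat_lit 76) (nat_lit 0) (XT.nd (nat_lit 78) (nat_lit 0) (nat_lit 0) (XT.lf (nat_lit 0) (nat_lit 20806691477) (nat_lit 76) (nat_lit 28101999880) (nat_lit 152) (nat_lit 427240739728) (nat_lit 4) (nat_lit 5) (nat_lit 5) (nat_lit 5) (nat_lit 6) (nat_lit 4) (nat_lit 303) (nat_lit 272) (nat_lit 205)) (XT.nd (nat_lit 78) (nat_lit 0) (nat_lit 0) (XT.lf (nat_lit 0) (nat_lit 130040436079) (nat_lit 152) (nat_lit 355583786738) (nat_lit 0) (nat_lit 55110536303) (nat_lit 4) (nat_lit 5) (nat_lit 6) (nat_lit 4) (nat_lit 4) (nat_lit 4) (nat_lit 304) (nat_lit 272) (nat_lit 204)) (XT.lf (nat_lit 0) (nat_lit 224117380183) (nat_lit 152) (nat_lit 241641720304) (nat_lit 0) (nat_lit 149186751574) (nat_lit 4) (nat_lit 5) (nat_lit 6) (nat_lit 4) (nat_lit 4) (nat_lit 4) (nat_lit 305) (nat_lit 272) (nat_lit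 203)))) (XT.nd (nat_lit 78) (nat_lit 76) (nat_lit 0) (XT.lf (nat_lit 0) (nat_lit 332304305760) (nat_lit 152) (nat_lit 110611385235) (nat_lit 0) (nat_lit 257373043384) (nat_lit 4) (nat_lit 5) (nat_lit 6) (nat_lit 4) (nat_lit 4) (nat_lit 4) (nat_lit 306) (nat_lit 272) (nat_lit 202)) (XT.nd (nat_lit 78) (nat_lit 0) (nat_lit 0) (XT.lf (nat_lit 0) (nat_lit 42180915698) (nat_lit 76) (nat_lit 415551449866) (nat_lit 76) (nat_lit 340619636388) (nat_lit 3) (nat_lit 4) (nat_lit 4) (nat_lit 5) (nat_lit 4) (nat_lit 4) (nat_lit 307) (nat_lit 272) (nat_lit 201)) (XT.lf (nat_lit 0) (nat_lit 224587930447) (nat_lit 76) (nat_lit 380605797449) (nat_lit 76) (nat_lit 305673504751) (nat_lit 3) (nat_lit 4) (nat_lit 4) (nat_lit 5) (nat_lit 4) (nat_lit 4) (nat_lit 308) (nat_lit 272) (nat_lit 200))))) (XT.nd (nat_lit 234) (nat_lit 152) (nat_lit 0) (XT.nd (nat_lit 78) (nat_lit 0) (nat_lit 0) (XT.lf (nat_lit 0) (nat_lit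 434353892384) (nat_lit 76) (nat_lit 340419325749) (nat_lit 76) (nat_lit 265486616338) (nat_lit 3) (nat_lit 4) (nat_lit 4) (nat_lit 5) (nat_lit 4) (nat_lit 4) (nat_lit 309) (nat_lit 272) (nat_lit 199)) (XT.nd (nat_lit 78) (nat_lit 0) (nat_lit 0) (XT.lf (nat_lit 0) (nat_lit 675582918154) (nat_lit 76) (nat_lit 294205777711) (nat_lit 76) (nat_lit 219272705942) (nat_lit 3) (nat_lit 4) (nat_lit 4) (nat_lit 5) (nat_lit 4) (nat_lit 4) (nat_lit 310) (nat_lit 272) (nat_lit 198)) (XT.lf (nat_lit 0) (nat_lit 952994706089) (nat_lit 76) (nat_lit 241060975222) (nat_lit 76) (nat_lit 166127588359) (nat_lit 3) (nat_lit 4) (nat_lit 4) (nat_lit 5) (nat_lit 4) (nat_lit 4) (nat_lit 311) (nat_lit 272) (nat_lit 197)))) (XT.nd (nat_lit 156) (nat_lit 152) (nat_lit 0) (XT.nd (nat_lit 78) (nat_lit 0) (nat_lit 0) (XT.lf (nat_lit 0) (nat_lit 1272016878126) (nat_lit 76) (nat_lit 179945128668) (nat_lit 76) (nat_lit 105011467810)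 (nat_lit 3) (nat_lit 4) (nat_lit 4) (nat_lit 5) (nat_lit 4) (nat_lit 4) (nat_lit 312) (nat_lit 272) (nat_lit 196)) (XT.lf (nat_lit 0) (nat_lit 1638891172413) (nat_lit 76) (nat_lit 109662493225) (nat_lit 76) (nat_lit 34728594110) (nat_lit 3) (nat_lit 4) (nat_lit 4) (nat_lit 5) (nat_lit 4) (nat_lit 4) (nat_lit 313) (nat_lit 272) (nat_lit 195))) (XT.nd (nat_lit 78) (nat_lit 0) (nat_lit 0) (XT.lf (nat_lit 0) (nat_lit 16999951943) (nat_lit 76) (nat_lit 27199114517) (nat_lit 152) (nat_lit 1999216942234) (nat_lit 1) (nat_lit 5) (nat_lit 2) (nat_lit 5) (nat_lit 3) (nat_lit 4) (nat_lit 314) (nat_lit 272) (nat_lit 194)) (XT.lf (nat_lit 0) (nat_lit 138907082862) (nat_lit 152) (nat_lit 2133587287511) (nat_lit 0) (nat_lit 69523484296) (nat_lit 1) (nat_lit 5) (nat_lit 3) (nat_lit 4) (nat_lit 1) (nat_lit 4) (nat_lit 315) (nat_lit 272) (nat_lit 193)))))) (XT.nd (nat_lit 468) (nat_lit 0) (nat_lit 0) (XT.nd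 (nat_lit 234) (nat_lit 0) (nat_lit 0) (XT.nd (nat_lit 78) (nat_lit 0) (nat_lit 0) (XT.lf (nat_lit 0) (nat_lit 248573115953) (nat_lit 152) (nat_lit 2257587344256) (nat_lit 0) (nat_lit 179189372334) (nat_lit 1) (nat_lit 5) (nat_lit 3) (nat_lit 4) (nat_lit 1) (nat_lit 4) (nat_lit 316) (nat_lit 272) (nat_lit 192)) (XT.nd (nat_lit 78) (nat_lit 0) (nat_lit 0) (XT.lf (nat_lit 0) (nat_lit 374688666155) (nat_lit 152) (nat_lit 2400188175695) (nat_lit 0) (nat_lit 305304796402) (nat_lit 1) (nat_lit 5) (nat_lit 3) (nat_lit 4) (nat_lit 1) (nat_lit 4) (nat_lit 317) (nat_lit 272) (nat_lit 191)) (XT.lf (nat_lit 0) (nat_lit 519721211622) (nat_lit 152) (nat_lit 2564179798095) (nat_lit 0) (nat_lit 450337232188) (nat_lit 1) (nat_lit 5) (nat_lit 3) (nat_lit 4) (nat_lit 1) (nat_lit 4) (nat_lit 318) (nat_lit 272) (nat_lit 190)))) (XT.nd (nat_lit 78) (nat_lit 0) (nat_lit 0) (XT.lf (nat_lit 0) (nat_lit 686508345636)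 (nat_lit 152) (nat_lit 2752770743198) (nat_lit 0) (nat_lit 617124270828) (nat_lit 1) (nat_lit 5) (nat_lit 3) (nat_lit 4) (nat_lit 1) (nat_lit 4) (nat_lit 319) (nat_lit 272) (nat_lit 189)) (XT.nd (nat_lit 78) (nat_lit 0) (nat_lit 0) (XT.lf (nat_lit 0) (nat_lit 878313294732) (nat_lit 152) (nat_lit 2969650833844) (nat_lit 0) (nat_lit 808929136989) (nat_lit 1) (nat_lit 5) (nat_lit 3) (nat_lit 4) (nat_lit 1) (nat_lit 4) (nat_lit 320) (nat_lit 272) (nat_lit 188)) (XT.lf (nat_lit 0) (nat_lit 1098888764436) (nat_lit 152) (nat_lit 3219063376155) (nat_lit 0) (nat_lit 1029504534575) (nat_lit 1) (nat_lit 5) (nat_lit 3) (nat_lit 4) (nat_lit 1) (nat_lit 4) (nat_lit 321) (nat_lit 272) (nat_lit 187))))) (XT.nd (nat_lit 234) (nat_lit 0) (nat_lit 0) (XT.nd (nat_lit 78) (nat_lit 0) (nat_lit 0) (XT.lf (nat_lit 0) (nat_lit 1352550361763) (nat_lit 152) (nat_lit 3505888180739) (nat_lit 0) (nat_lit 1283166069192)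 (nat_lit 1) (nat_lit 5) (nat_lit 3) (nat_lit 4) (nat_lit 1) (nat_lit 4) (nat_lit 322) (nat_lit 272) (nat_lit 186)) (XT.nd (nat_lit 78) (nat_lit 0) (nat_lit 0) (XT.lf (nat_lit 0) (nat_lit 1644261031009) (nat_lit 152) (nat_lit 3835737037253) (nat_lit 0) (nat_lit 1574876683907) (nat_lit 1) (nat_lit 5) (nat_lit 3) (nat_lit 4) (nat_lit 1) (nat_lit 4) (nat_lit 323) (nat_lit 272) (nat_lit 185)) (XT.lf (nat_lit 0) (nat_lit 1979728154834) (nat_lit 152) (nat_lit 4215063510280) (nat_lit 0) (nat_lit 1910343760313) (nat_lit 1) (nat_lit 5) (nat_lit 3) (nat_lit 4) (nat_lit 1) (nat_lit 4) (nat_lit 324) (nat_lit 272) (nat_lit 184)))) (XT.nd (nat_lit 156) (nat_lit 0) (nat_lit 0) (XT.nd (nat_lit 78) (nat_lit 0) (nat_lit 0) (XT.lf (nat_lit 0) (nat_lit 2365515220442) (nat_lit 152) (nat_lit 4651289204728) (nat_lit 0) (nat_lit 2296130784688) (nat_lit 1) (nat_lit 5) (nat_lit 3) (nat_lit 4) (nat_lit 1) (nat_lit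 4) (nat_lit 325) (nat_lit 272) (nat_lit 183)) (XT.lf (nat_lit 0) (nat_lit 2809170235639) (nat_lit 152) (nat_lit 5152948971140) (nat_lit 0) (nat_lit 2739785764030) (nat_lit 1) (nat_lit 5) (nat_lit 3) (nat_lit 4) (nat_lit 1) (nat_lit 4) (nat_lit 326) (nat_lit 272) (nat_lit 182))) (XT.nd (nat_lit 78) (nat_lit 0) (nat_lit 0) (XT.lf (nat_lit 0) (nat_lit 3319373407244) (nat_lit 152) (nat_lit 5729857891902) (nat_lit 0) (nat_lit 3249988904457) (nat_lit 1) (nat_lit 5) (nat_lit 3) (nat_lit 4) (nat_lit 1) (nat_lit 4) (nat_lit 327) (nat_lit 272) (nat_lit 181)) (XT.lf (nat_lit 0) (nat_lit 3906106971223) (nat_lit 152) (nat_lit 6393303315463) (nat_lit 0) (nat_lit 3836722441325) (nat_lit 1) (nat_lit 5) (nat_lit 3) (nat_lit 4) (nat_lit 1) (nat_lit 4) (nat_lit 328) (nat_lit 272) (nat_lit 180))))))))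
noncomputable def xc39 : XT := (XT.nd (nat_lit 2028) (nat_lit 608) (nat_lit 0) (XT.nd (nat_lit 1014) (nat_lit 1216) (nat_lit 0) (XT.nd (nat_lit 468) (nat_lit 1216) (nat_lit 0) (XT.nd (nat_lit 234) (nat_lit 608) (nat_lit 0) (XT.nd (nat_lit 78) (nat_lit 0) (nat_lit 76) (XT.lf (nat_lit 0) (nat_lit 8248241478) (nat_lit 532) (nat_lit 2169486182) (nat_lit 532) (nat_lit 2169486182) (nat_lit 49) (nat_lit 3) (nat_lit 56) (nat_lit 3) (nat_lit 56) (nat_lit 5) (nat_lit 273) (nat_lit 273) (nat_lit 234)) (XT.nd (nat_lit 78) (nat_lit 0) (nat_lit 0) (XT.lf (nat_lit 0) (nat_lit 18353971888) (nat_lit 456) (nat_lit 8519836204) (nat_lit 532) (nat_lit 138653168) (nat_lit 50) (nat_lit 5) (nat_lit 56) (nat_lit 5) (nat_lit 57) (nat_lit 5) (nat_lit 274) (nat_lit 273) (nat_lit 233)) (XT.lf (nat_lit 76) (nat_lit 16101208398) (nat_lit 0) (nat_lit 5451272429) (nat_lit 532) (nat_lit 7488803566) (nat_lit 51) (nat_lit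 5) (nat_lit 50) (nat_lit 5) (nat_lit 57) (nat_lit 5) (nat_lit 275) (nat_lit 273) (nat_lit 232)))) (XT.nd (nat_lit 78) (nat_lit 760) (nat_lit 0) (XT.lf (nat_lit 76) (nat_lit 13777061338) (nat_lit 0) (nat_lit 12473984944) (nat_lit 532) (nat_lit 5041828612) (nat_lit 52) (nat_lit 5) (nat_lit 51) (nat_lit 5) (nat_lit 58) (nat_lit 5) (nat_lit 276) (nat_lit 273) (nat_lit 231)) (XT.nd (nat_lit 78) (nat_lit 380) (nat_lit 0) (XT.lf (nat_lit 0) (nat_lit 11530402395) (nat_lit 456) (nat_lit 21212625934) (nat_lit 532) (nat_lit 1052142760) (nat_lit 46) (nat_lit 5) (nat_lit 52) (nat_lit 5) (nat_lit 53) (nat_lit 5) (nat_lit 277) (nat_lit 273) (nat_lit 230)) (XT.lf (nat_lit 0) (nat_lit 4549549358) (nat_lit 380) (nat_lit 27332237551) (nat_lit 76) (nat_lit 4689032912) (nat_lit 41) (nat_lit 5) (nat_lit 46) (nat_lit 5) (nat_lit 42) (nat_lit 5) (nat_lit 278) (nat_lit 273) (nat_lit 229))))) (XT.nd (nat_lit 234)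 (nat_lit 608) (nat_lit 0) (XT.nd (nat_lit 78) (nat_lit 380) (nat_lit 0) (XT.lf (nat_lit 0) (nat_lit 6791292863) (nat_lit 228) (nat_lit 5535392930) (nat_lit 304) (nat_lit 27322185042) (nat_lit 38) (nat_lit 5) (nat_lit 41) (nat_lit 5) (nat_lit 42) (nat_lit 5) (nat_lit 279) (nat_lit 273) (nat_lit 228)) (XT.nd (nat_lit 78) (nat_lit 152) (nat_lit 0) (XT.lf (nat_lit 0) (nat_lit 4133903782) (nat_lit 228) (nat_lit 18630557531) (nat_lit 304) (nat_lit 20304677804) (nat_lit 35) (nat_lit 5) (nat_lit 38) (nat_lit 5) (nat_lit 39) (nat_lit 5) (nat_lit 280) (nat_lit 273) (nat_lit 227)) (XT.lf (nat_lit 0) (nat_lit 1331925412) (nat_lit 152) (nat_lit 34861992944) (nat_lit 228) (nat_lit 10694478596) (nat_lit 33) (nat_lit 5) (nat_lit 35) (nat_lit 5) (nat_lit 36) (nat_lit 5) (nat_lit 281) (nat_lit 273) (nat_lit 226)))) (XT.nd (nat_lit 156) (nat_lit 304) (nat_lit 0) (XT.nd (nat_lit 78) (nat_lit 228) (nat_lit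 0) (XT.lf (nat_lit 0) (nat_lit 2003287706) (nat_lit 228) (nat_lit 1765023393) (nat_lit 76) (nat_lit 47378456925) (nat_lit 32) (nat_lit 5) (nat_lit 35) (nat_lit 5) (nat_lit 33) (nat_lit 5) (nat_lit 282) (nat_lit 273) (nat_lit 225)) (XT.lf (nat_lit 0) (nat_lit 18009037223) (nat_lit 304) (nat_lit 5906654092) (nat_lit 76) (nat_lit 31943078461) (nat_lit 29) (nat_lit 5) (nat_lit 33) (nat_lit 5) (nat_lit 30) (nat_lit 5) (nat_lit 283) (nat_lit 273) (nat_lit 224))) (XT.nd (nat_lit 78) (nat_lit 152) (nat_lit 0) (XT.lf (nat_lit 0) (nat_lit 38090081282) (nat_lit 228) (nat_lit 10804740776) (nat_lit 76) (nat_lit 12248813748) (nat_lit 27) (nat_lit 5) (nat_lit 30) (nat_lit 5) (nat_lit 28) (nat_lit 5) (nat_lit 284) (nat_lit 273) (nat_lit 223)) (XT.lf (nat_lit 0) (nat_lit 49991142609) (nat_lit 152) (nat_lit 13222019781) (nat_lit 228) (nat_lit 3845695077) (nat_lit 25) (nat_lit 5) (nat_lit 27) (nat_lit 5)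 (nat_lit 28) (nat_lit 5) (nat_lit 285) (nat_lit 273) (nat_lit 222)))))) (XT.nd (nat_lit 468) (nat_lit 532) (nat_lit 0) (XT.nd (nat_lit 234) (nat_lit 304) (nat_lit 0) (XT.nd (nat_lit 78) (nat_lit 228) (nat_lit 0) (XT.lf (nat_lit 0) (nat_lit 19533874289) (nat_lit 152) (nat_lit 25726930421) (nat_lit 76) (nat_lit 28389219497) (nat_lit 23) (nat_lit 5) (nat_lit 25) (nat_lit 5) (nat_lit 24) (nat_lit 5) (nat_lit 286) (nat_lit 273) (nat_lit 221)) (XT.nd (nat_lit 78) (nat_lit 76) (nat_lit 0) (XT.lf (nat_lit 0) (nat_lit 44219257738) (nat_lit 152) (nat_lit 3910144892) (nat_lit 228) (nat_lit 32937545058) (nat_lit 21) (nat_lit 5) (nat_lit 23) (nat_lit 5) (nat_lit 24) (nat_lit 5) (nat_lit 287) (nat_lit 273) (nat_lit 220)) (XT.lf (nat_lit 0) (nat_lit 37471061574) (nat_lit 76) (nat_lit 46254463108) (nat_lit 152) (nat_lit 5653993691) (nat_lit 20) (nat_lit 5) (nat_lit 21) (nat_lit 5) (nat_lit 22) (nat_lit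 4) (nat_lit 288) (nat_lit 273) (nat_lit 219)))) (XT.nd (nat_lit 78) (nat_lit 76) (nat_lit 0) (XT.lf (nat_lit 0) (nat_lit 26298205550) (nat_lit 228) (nat_lit 71862177651) (nat_lit 76) (nat_lit 580082965) (nat_lit 17) (nat_lit 5) (nat_lit 20) (nat_lit 5) (nat_lit 18) (nat_lit 4) (nat_lit 289) (nat_lit 273) (nat_lit 218)) (XT.nd (nat_lit 78) (nat_lit 0) (nat_lit 0) (XT.lf (nat_lit 0) (nat_lit 10268761615) (nat_lit 76) (nat_lit 55519115377) (nat_lit 152) (nat_lit 43459583721) (nat_lit 16) (nat_lit 5) (nat_lit 17) (nat_lit 5) (nat_lit 18) (nat_lit 4) (nat_lit 290) (nat_lit 273) (nat_lit 217)) (XT.lf (nat_lit 0) (nat_lit 109060278326) (nat_lit 76) (nat_lit 4226687943) (nat_lit 152) (nat_lit 7876666792) (nat_lit 16) (nat_lit 5) (nat_lit 17) (nat_lit 5) (nat_lit 18) (nat_lit 4) (nat_lit 291) (nat_lit 273) (nat_lit 216))))) (XT.nd (nat_lit 234) (nat_lit 228) (nat_lit 0) (XT.nd (nat_lit 78) (nat_lit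 152) (nat_lit 0) (XT.lf (nat_lit 0) (nat_lit 34982374816) (nat_lit 152) (nat_lit 44442531738) (nat_lit 76) (nat_lit 55091420113) (nat_lit 14) (nat_lit 5) (nat_lit 16) (nat_lit 5) (nat_lit 15) (nat_lit 4) (nat_lit 292) (nat_lit 273) (nat_lit 215)) (XT.nd (nat_lit 78) (nat_lit 76) (nat_lit 0) (XT.lf (nat_lit 0) (nat_lit 61173785235) (nat_lit 76) (nat_lit 24587882917) (nat_lit 152) (nat_lit 63937270692) (nat_lit 13) (nat_lit 5) (nat_lit 14) (nat_lit 5) (nat_lit 15) (nat_lit 4) (nat_lit 293) (nat_lit 273) (nat_lit 214)) (XT.lf (nat_lit 0) (nat_lit 18211819897) (nat_lit 76) (nat_lit 128632091424) (nat_lit 76) (nat_lit 20100150709) (nat_lit 12) (nat_lit 4) (nat_lit 13) (nat_lit 5) (nat_lit 13) (nat_lit 4) (nat_lit 294) (nat_lit 273) (nat_lit 213)))) (XT.nd (nat_lit 156) (nat_lit 76) (nat_lit 0) (XT.nd (nat_lit 78) (nat_lit 76) (nat_lit 0) (XT.lf (nat_lit 0) (nat_lit 32116032608) (nat_lit 152)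 (nat_lit 41733822719) (nat_lit 76) (nat_lit 112602191822) (nat_lit 11) (nat_lit 5) (nat_lit 13) (nat_lit 5) (nat_lit 12) (nat_lit 4) (nat_lit 295) (nat_lit 273) (nat_lit 212)) (XT.lf (nat_lit 0) (nat_lit 85003522686) (nat_lit 76) (nat_lit 8045276245) (nat_lit 152) (nat_lit 115629722414) (nat_lit 10) (nat_lit 5) (nat_lit 11) (nat_lit 5) (nat_lit 12) (nat_lit 4) (nat_lit 296) (nat_lit 273) (nat_lit 211))) (XT.nd (nat_lit 78) (nat_lit 76) (nat_lit 0) (XT.lf (nat_lit 0) (nat_lit 165990985881) (nat_lit 152) (nat_lit 2527826776) (nat_lit 0) (nat_lit 65490595781) (nat_lit 10) (nat_lit 5) (nat_lit 12) (nat_lit 4) (nat_lit 10) (nat_lit 4) (nat_lit 297) (nat_lit 273) (nat_lit 210)) (XT.lf (nat_lit 0) (nat_lit 143754211878) (nat_lit 76) (nat_lit 109796970299) (nat_lit 76) (nat_lit 9294613842) (nat_lit 9) (nat_lit 4) (nat_lit 10) (nat_lit 5) (nat_lit 10) (nat_lit 4) (nat_lit 298) (nat_lit 273) (nat_lit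 209))))))) (XT.nd (nat_lit 1014) (nat_lit 152) (nat_lit 0) (XT.nd (nat_lit 468) (nat_lit 76) (nat_lit 0) (XT.nd (nat_lit 234) (nat_lit 228) (nat_lit 0) (XT.nd (nat_lit 78) (nat_lit 0) (nat_lit 0) (XT.lf (nat_lit 0) (nat_lit 15497050282) (nat_lit 76) (nat_lit 40272717320) (nat_lit 152) (nat_lit 240090202887) (nat_lit 7) (nat_lit 5) (nat_lit 8) (nat_lit 5) (nat_lit 9) (nat_lit 4) (nat_lit 299) (nat_lit 273) (nat_lit 208)) (XT.nd (nat_lit 78) (nat_lit 0) (nat_lit 0) (XT.lf (nat_lit 0) (nat_lit 134567980288) (nat_lit 152) (nat_lit 157369734304) (nat_lit 0) (nat_lit 41507282898) (nat_lit 7) (nat_lit 5) (nat_lit 9) (nat_lit 4) (nat_lit 7) (nat_lit 4) (nat_lit 300) (nat_lit 273) (nat_lit 207)) (XT.lf (nat_lit 0) (nat_lit 226297404467) (nat_lit 152) (nat_lit 17045946943) (nat_lit 0) (nat_lit 133235509937) (nat_lit 7) (nat_lit 5) (nat_lit 9) (nat_lit 4) (nat_lit 7) (nat_lit 4) (nat_lit 301) (nat_lit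 273) (nat_lit 206)))) (XT.nd (nat_lit 78) (nat_lit 152) (nat_lit 0) (XT.lf (nat_lit 0) (nat_lit 151922232455) (nat_lit 76) (nat_lit 183515687335) (nat_lit 76) (nat_lit 90452751813) (nat_lit 6) (nat_lit 4) (nat_lit 7) (nat_lit 5) (nat_lit 7) (nat_lit 4) (nat_lit 302) (nat_lit 273) (nat_lit 205)) (XT.nd (nat_lit 78) (nat_lit 152) (nat_lit 0) (XT.lf (nat_lit 0) (nat_lit 347264281725) (nat_lit 76) (nat_lit 114179630649) (nat_lit 76) (nat_lit 21115789917) (nat_lit 6) (nat_lit 4) (nat_lit 7) (nat_lit 5) (nat_lit 7) (nat_lit 4) (nat_lit 303) (nat_lit 273) (nat_lit 204)) (XT.lf (nat_lit 0) (nat_lit 23964260450) (nat_lit 76) (nat_lit 32299628165) (nat_lit 152) (nat_lit 491306437945) (nat_lit 4) (nat_lit 5) (nat_lit 5) (nat_lit 5) (nat_lit 6) (nat_lit 4) (nat_lit 304) (nat_lit 273) (nat_lit 203))))) (XT.nd (nat_lit 234) (nat_lit 76) (nat_lit 0) (XT.nd (nat_lit 78) (nat_lit 0) (nat_lit 0) (XT.lf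 (nat_lit 0) (nat_lit 149563300238) (nat_lit 152) (nat_lit 408888607414) (nat_lit 0) (nat_lit 63391714737) (nat_lit 4) (nat_lit 5) (nat_lit 6) (nat_lit 4) (nat_lit 4) (nat_lit 4) (nat_lit 305) (nat_lit 273) (nat_lit 202)) (XT.nd (nat_lit 78) (nat_lit 0) (nat_lit 0) (XT.lf (nat_lit 0) (nat_lit 257749594816) (nat_lit 152) (nat_lit 277859502407) (nat_lit 0) (nat_lit 171577458214) (nat_lit 4) (nat_lit 5) (nat_lit 6) (nat_lit 4) (nat_lit 4) (nat_lit 4) (nat_lit 306) (nat_lit 273) (nat_lit 201)) (XT.lf (nat_lit 0) (nat_lit 382162653890) (nat_lit 152) (nat_lit 127178331330) (nat_lit 0) (nat_lit 295990038068) (nat_lit 4) (nat_lit 5) (nat_lit 6) (nat_lit 4) (nat_lit 4) (nat_lit 4) (nat_lit 307) (nat_lit 273) (nat_lit 200)))) (XT.nd (nat_lit 156) (nat_lit 0) (nat_lit 0) (XT.nd (nat_lit 78) (nat_lit 0) (nat_lit 0) (XT.lf (nat_lit 0) (nat_lit 48530718789) (nat_lit 76) (nat_lit 477873092170) (nat_lit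 76) (nat_lit 391700059636) (nat_lit 3) (nat_lit 4) (nat_lit 4) (nat_lit 5) (nat_lit 4) (nat_lit 4) (nat_lit 308) (nat_lit 273) (nat_lit 199)) (XT.lf (nat_lit 0) (nat_lit 258295829350) (nat_lit 76) (nat_lit 437687036478) (nat_lit 76) (nat_lit 351513641585) (nat_lit 3) (nat_lit 4) (nat_lit 4) (nat_lit 5) (nat_lit 4) (nat_lit 4) (nat_lit 309) (nat_lit 273) (nat_lit 198))) (XT.nd (nat_lit 78) (nat_lit 0) (nat_lit 0) (XT.lf (nat_lit 0) (nat_lit 499524114794) (nat_lit 76) (nat_lit 391473850187) (nat_lit 76) (nat_lit 305300140199) (nat_lit 3) (nat_lit 4) (nat_lit 4) (nat_lit 5) (nat_lit 4) (nat_lit 4) (nat_lit 310) (nat_lit 273) (nat_lit 197)) (XT.lf (nat_lit 0) (nat_lit 776935258967) (nat_lit 76) (nat_lit 338329362260) (nat_lit 76) (nat_lit 252155378277) (nat_lit 3) (nat_lit 4) (nat_lit 4) (nat_lit 5) (nat_lit 4) (nat_lit 4) (nat_lit 311) (nat_lit 273) (nat_lit 196)))))) (XT.nd (nat_lit 546)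 (nat_lit 0) (nat_lit 0) (XT.nd (nat_lit 234) (nat_lit 152) (nat_lit 0) (XT.nd (nat_lit 78) (nat_lit 0) (nat_lit 0) (XT.lf (nat_lit 0) (nat_lit 1095956871211) (nat_lit 76) (nat_lit 277213789238) (nat_lit 76) (nat_lit 191039566999) (nat_lit 3) (nat_lit 4) (nat_lit 4) (nat_lit 5) (nat_lit 4) (nat_lit 4) (nat_lit 312) (nat_lit 273) (nat_lit 195)) (XT.nd (nat_lit 78) (nat_lit 0) (nat_lit 0) (XT.lf (nat_lit 0) (nat_lit 1462830678722) (nat_lit 76) (nat_lit 206931391649) (nat_lit 76) (nat_lit 120756962230) (nat_lit 3) (nat_lit 4) (nat_lit 4) (nat_lit 5) (nat_lit 4) (nat_lit 4) (nat_lit 313) (nat_lit 273) (nat_lit 194)) (XT.lf (nat_lit 0) (nat_lit 1884734647298) (nat_lit 76) (nat_lit 126107079104) (nat_lit 76) (nat_lit 39932469529) (nat_lit 3) (nat_lit 4) (nat_lit 4) (nat_lit 5) (nat_lit 4) (nat_lit 4) (nat_lit 314) (nat_lit 273) (nat_lit 193)))) (XT.nd (nat_lit 156) (nat_lit 0) (nat_lit 0) (XT.nd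 (nat_lit 78) (nat_lit 0) (nat_lit 0) (XT.lf (nat_lit 0) (nat_lit 19559163825) (nat_lit 76) (nat_lit 31274456394) (nat_lit 152) (nat_lit 2299094412742) (nat_lit 1) (nat_lit 5) (nat_lit 2) (nat_lit 5) (nat_lit 3) (nat_lit 4) (nat_lit 315) (nat_lit 273) (nat_lit 192)) (XT.lf (nat_lit 0) (nat_lit 159747321486) (nat_lit 152) (nat_lit 2453617130817) (nat_lit 0) (nat_lit 79955745137) (nat_lit 1) (nat_lit 5) (nat_lit 3) (nat_lit 4) (nat_lit 1) (nat_lit 4) (nat_lit 316) (nat_lit 273) (nat_lit 191))) (XT.nd (nat_lit 78) (nat_lit 0) (nat_lit 0) (XT.lf (nat_lit 0) (nat_lit 285862714820) (nat_lit 152) (nat_lit 2596218272137) (nat_lit 0) (nat_lit 206071028790) (nat_lit 1) (nat_lit 5) (nat_lit 3) (nat_lit 4) (nat_lit 1) (nat_lit 4) (nat_lit 317) (nat_lit 273) (nat_lit 190)) (XT.lf (nat_lit 0) (nat_lit 430895123881) (nat_lit 152) (nat_lit 2760210163999) (nat_lit 0) (nat_lit 351103342477) (nat_lit 1) (nat_lit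 5) (nat_lit 3) (nat_lit 4) (nat_lit 1) (nat_lit 4) (nat_lit 318) (nat_lit 273) (nat_lit 189))))) (XT.nd (nat_lit 234) (nat_lit 0) (nat_lit 0) (XT.nd (nat_lit 78) (nat_lit 0) (nat_lit 0) (XT.lf (nat_lit 0) (nat_lit 597682139281) (nat_lit 152) (nat_lit 2948801343418) (nat_lit 0) (nat_lit 517890274942) (nat_lit 1) (nat_lit 5) (nat_lit 3) (nat_lit 4) (nat_lit 1) (nat_lit 4) (nat_lit 319) (nat_lit 273) (nat_lit 188)) (XT.nd (nat_lit 78) (nat_lit 0) (nat_lit 0) (XT.lf (nat_lit 0) (nat_lit 789486985235) (nat_lit 152) (nat_lit 3165681637816) (nat_lit 0) (nat_lit 709695048778) (nat_lit 1) (nat_lit 5) (nat_lit 3) (nat_lit 4) (nat_lit 1) (nat_lit 4) (nat_lit 320) (nat_lit 273) (nat_lit 187)) (XT.lf (nat_lit 0) (nat_lit 1010062365249) (nat_lit 152) (nat_lit 3415094357302) (nat_lit 0) (nat_lit 930270366082) (nat_lit 1) (nat_lit 5) (nat_lit 3) (nat_lit 4) (nat_lit 1) (nat_lit 4) (nat_lit 321) (nat_lit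 273) (nat_lit 186)))) (XT.nd (nat_lit 156) (nat_lit 0) (nat_lit 0) (XT.nd (nat_lit 78) (nat_lit 0) (nat_lit 0) (XT.lf (nat_lit 0) (nat_lit 1263723884586) (nat_lit 152) (nat_lit 3701919315953) (nat_lit 0) (nat_lit 1183931830887) (nat_lit 1) (nat_lit 5) (nat_lit 3) (nat_lit 4) (nat_lit 1) (nat_lit 4) (nat_lit 322) (nat_lit 273) (nat_lit 185)) (XT.lf (nat_lit 0) (nat_lit 1555434486014) (nat_lit 152) (nat_lit 4031768306437) (nat_lit 0) (nat_lit 1475642384897) (nat_lit 1) (nat_lit 5) (nat_lit 3) (nat_lit 4) (nat_lit 1) (nat_lit 4) (nat_lit 323) (nat_lit 273) (nat_lit 184))) (XT.nd (nat_lit 78) (nat_lit 0) (nat_lit 0) (XT.lf (nat_lit 0) (nat_lit 1890901550866) (nat_lit 152) (nat_lit 4411094895960) (nat_lit 0) (nat_lit 1811109408516) (nat_lit 1) (nat_lit 5) (nat_lit 3) (nat_lit 4) (nat_lit 1) (nat_lit 4) (nat_lit 324) (nat_lit 273) (nat_lit 183)) (XT.lf (nat_lit 0) (nat_lit 2276688565194) (nat_lit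 152) (nat_lit 4847320691709) (nat_lit 0) (nat_lit 2196896386989) (nat_lit 1) (nat_lit 5) (nat_lit 3) (nat_lit 4) (nat_lit 1) (nat_lit 4) (nat_lit 325) (nat_lit 273) (nat_lit 182))))))))
noncomputable def xc40 : XT := (XT.nd (nat_lit 38454) (nat_lit 0) (nat_lit 0) (XT.nd (nat_lit 37440) (nat_lit 0) (nat_lit 684) (XT.nd (nat_lit 36894) (nat_lit 0) (nat_lit 2128) (XT.nd (nat_lit 36660) (nat_lit 0) (nat_lit 3724) (XT.nd (nat_lit 78) (nat_lit 0) (nat_lit 0) (XT.lf (nat_lit 0) (nat_lit 2720343535800) (nat_lit 152) (nat_lit 5348980546208) (nat_lit 0) (nat_lit 2640551326417) (nat_lit 1) (nat_lit 5) (nat_lit 3) (nat_lit 4) (nat_lit 1) (nat_lit 4) (nat_lit 326) (nat_lit 273) (nat_lit 181)) (XT.nd (nat_lit 36504) (nat_lit 0) (nat_lit 3648) (XT.lf (nat_lit 0) (nat_lit 3230546668630) (nat_lit 152) (nat_lit 5925889543568) (nat_lit 0) (nat_lit 3150754432135) (nat_lit 1) (nat_lit 5) (nat_lit 3) (nat_lit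 4) (nat_lit 1) (nat_lit 4) (nat_lit 327) (nat_lit 273) (nat_lit 180)) (XT.lf (nat_lit 0) (nat_lit 9650262804) (nat_lit 532) (nat_lit 2405719877) (nat_lit 532) (nat_lit 2405719877) (nat_lit 49) (nat_lit 3) (nat_lit 56) (nat_lit 3) (nat_lit 56) (nat_lit 5) (nat_lit 274) (nat_lit 274) (nat_lit 232)))) (XT.nd (nat_lit 78) (nat_lit 0) (nat_lit 0) (XT.lf (nat_lit 0) (nat_lit 21394517454) (nat_lit 456) (nat_lit 9607517354) (nat_lit 532) (nat_lit 38585654) (nat_lit 50) (nat_lit 5) (nat_lit 56) (nat_lit 5) (nat_lit 57) (nat_lit 5) (nat_lit 275) (nat_lit 274) (nat_lit 231)) (XT.nd (nat_lit 78) (nat_lit 0) (nat_lit 76) (XT.lf (nat_lit 76) (nat_lit 18690576476) (nat_lit 0) (nat_lit 6348922006) (nat_lit 532) (nat_lit 8337026055) (nat_lit 51) (nat_lit 5) (nat_lit 50) (nat_lit 5) (nat_lit 57) (nat_lit 5) (nat_lit 276) (nat_lit 274) (nat_lit 230)) (XT.lf (nat_lit 76) (nat_lit 16024002535) (nat_lit 0)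 (nat_lit 14388362812) (nat_lit 532) (nat_lit 5556007922) (nat_lit 52) (nat_lit 5) (nat_lit 51) (nat_lit 5) (nat_lit 58) (nat_lit 5) (nat_lit 277) (nat_lit 274) (nat_lit 229))))) (XT.nd (nat_lit 234) (nat_lit 684) (nat_lit 0) (XT.nd (nat_lit 78) (nat_lit 608) (nat_lit 0) (XT.lf (nat_lit 0) (nat_lit 13442901706) (nat_lit 456) (nat_lit 24409564242) (nat_lit 532) (nat_lit 995672667) (nat_lit 46) (nat_lit 5) (nat_lit 52) (nat_lit 5) (nat_lit 53) (nat_lit 5) (nat_lit 278) (nat_lit 274) (nat_lit 228)) (XT.nd (nat_lit 78) (nat_lit 228) (nat_lit 0) (XT.lf (nat_lit 0) (nat_lit 5413186291) (nat_lit 380) (nat_lit 31239440271) (nat_lit 76) (nat_lit 5388941875) (nat_lit 41) (nat_lit 5) (nat_lit 46) (nat_lit 5) (nat_lit 42) (nat_lit 5) (nat_lit 279) (nat_lit 274) (nat_lit 227)) (XT.lf (nat_lit 0) (nat_lit 7986314289) (nat_lit 228) (nat_lit 6351184210) (nat_lit 304) (nat_lit 31245429483) (nat_lit 38)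 (nat_lit 5) (nat_lit 41) (nat_lit 5) (nat_lit 42) (nat_lit 5) (nat_lit 280) (nat_lit 274) (nat_lit 226)))) (XT.nd (nat_lit 156) (nat_lit 304) (nat_lit 0) (XT.nd (nat_lit 78) (nat_lit 152) (nat_lit 0) (XT.lf (nat_lit 0) (nat_lit 4927221949) (nat_lit 228) (nat_lit 21397082623) (nat_lit 304) (nat_lit 23193305669) (nat_lit 35) (nat_lit 5) (nat_lit 38) (nat_lit 5) (nat_lit 39) (nat_lit 5) (nat_lit 281) (nat_lit 274) (nat_lit 225)) (XT.lf (nat_lit 0) (nat_lit 1700558347) (nat_lit 152) (nat_lit 40053333573) (nat_lit 228) (nat_lit 12157045173) (nat_lit 33) (nat_lit 5) (nat_lit 35) (nat_lit 5) (nat_lit 36) (nat_lit 5) (nat_lit 282) (nat_lit 274) (nat_lit 224))) (XT.nd (nat_lit 78) (nat_lit 228) (nat_lit 0) (XT.lf (nat_lit 0) (nat_lit 2420756120) (nat_lit 228) (nat_lit 1876596104) (nat_lit 76) (nat_lit 54511872871) (nat_lit 32) (nat_lit 5) (nat_lit 35) (nat_lit 5) (nat_lit 33) (nat_lit 5) (nat_lit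 283) (nat_lit 274) (nat_lit 223)) (XT.lf (nat_lit 0) (nat_lit 20816327349) (nat_lit 304) (nat_lit 6644700965) (nat_lit 76) (nat_lit 36767908155) (nat_lit 29) (nat_lit 5) (nat_lit 33) (nat_lit 5) (nat_lit 30) (nat_lit 5) (nat_lit 284) (nat_lit 274) (nat_lit 222)))))) (XT.nd (nat_lit 468) (nat_lit 532) (nat_lit 0) (XT.nd (nat_lit 234) (nat_lit 456) (nat_lit 0) (XT.nd (nat_lit 78) (nat_lit 304) (nat_lit 0) (XT.lf (nat_lit 0) (nat_lit 43899930809) (nat_lit 228) (nat_lit 12283206048) (nat_lit 76) (nat_lit 14124186021) (nat_lit 27) (nat_lit 5) (nat_lit 30) (nat_lit 5) (nat_lit 28) (nat_lit 5) (nat_lit 285) (nat_lit 274) (nat_lit 221)) (XT.nd (nat_lit 78) (nat_lit 152) (nat_lit 0) (XT.lf (nat_lit 0) (nat_lit 57620019442) (nat_lit 152) (nat_lit 15162020345) (nat_lit 228) (nat_lit 4328562480) (nat_lit 25) (nat_lit 5) (nat_lit 27) (nat_lit 5) (nat_lit 28) (nat_lit 5) (nat_lit 286) (nat_lit 274)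 (nat_lit 220)) (XT.lf (nat_lit 0) (nat_lit 22545601201) (nat_lit 152) (nat_lit 29456849587) (nat_lit 76) (nat_lit 32688439450) (nat_lit 23) (nat_lit 5) (nat_lit 25) (nat_lit 5) (nat_lit 24) (nat_lit 5) (nat_lit 287) (nat_lit 274) (nat_lit 219)))) (XT.nd (nat_lit 78) (nat_lit 304) (nat_lit 0) (XT.lf (nat_lit 0) (nat_lit 50970337397) (nat_lit 152) (nat_lit 4452314445) (nat_lit 228) (nat_lit 37798338773) (nat_lit 21) (nat_lit 5) (nat_lit 23) (nat_lit 5) (nat_lit 24) (nat_lit 5) (nat_lit 288) (nat_lit 274) (nat_lit 218)) (XT.nd (nat_lit 78) (nat_lit 228) (nat_lit 0) (XT.lf (nat_lit 0) (nat_lit 43204422568) (nat_lit 76) (nat_lit 53147776503) (nat_lit 152) (nat_lit 6428739298) (nat_lit 20) (nat_lit 5) (nat_lit 21) (nat_lit 5) (nat_lit 22) (nat_lit 4) (nat_lit 289) (nat_lit 274) (nat_lit 217)) (XT.lf (nat_lit 0) (nat_lit 30307139146) (nat_lit 228) (nat_lit 82530842802) (nat_lit 76) (nat_lit 708353426)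 (nat_lit 17) (nat_lit 5) (nat_lit 20) (nat_lit 5) (nat_lit 18) (nat_lit 4) (nat_lit 290) (nat_lit 274) (nat_lit 216))))) (XT.nd (nat_lit 234) (nat_lit 304) (nat_lit 0) (XT.nd (nat_lit 78) (nat_lit 152) (nat_lit 0) (XT.lf (nat_lit 0) (nat_lit 11910370409) (nat_lit 76) (nat_lit 63803952757) (nat_lit 152) (nat_lit 49915539399) (nat_lit 16) (nat_lit 5) (nat_lit 17) (nat_lit 5) (nat_lit 18) (nat_lit 4) (nat_lit 291) (nat_lit 274) (nat_lit 215)) (XT.nd (nat_lit 78) (nat_lit 152) (nat_lit 0) (XT.lf (nat_lit 0) (nat_lit 125507402294) (nat_lit 76) (nat_lit 4823273807) (nat_lit 152) (nat_lit 9003399959) (nat_lit 16) (nat_lit 5) (nat_lit 17) (nat_lit 5) (nat_lit 18) (nat_lit 4) (nat_lit 292) (nat_lit 274) (nat_lit 214)) (XT.lf (nat_lit 0) (nat_lit 40277836669) (nat_lit 152) (nat_lit 51022781544) (nat_lit 76) (nat_lit 63389269738) (nat_lit 14) (nat_lit 5) (nat_lit 16) (nat_lit 5) (nat_lit 15) (nat_lit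 4) (nat_lit 293) (nat_lit 274) (nat_lit 213)))) (XT.nd (nat_lit 156) (nat_lit 152) (nat_lit 0) (XT.nd (nat_lit 78) (nat_lit 76) (nat_lit 0) (XT.lf (nat_lit 0) (nat_lit 70428692504) (nat_lit 76) (nat_lit 28240952946) (nat_lit 152) (nat_lit 73480601912) (nat_lit 13) (nat_lit 5) (nat_lit 14) (nat_lit 5) (nat_lit 15) (nat_lit 4) (nat_lit 294) (nat_lit 274) (nat_lit 212)) (XT.lf (nat_lit 0) (nat_lit 21018219337) (nat_lit 76) (nat_lit 147892831300) (nat_lit 76) (nat_lit 23071346796) (nat_lit 12) (nat_lit 4) (nat_lit 13) (nat_lit 5) (nat_lit 13) (nat_lit 4) (nat_lit 295) (nat_lit 274) (nat_lit 211))) (XT.nd (nat_lit 78) (nat_lit 76) (nat_lit 0) (XT.lf (nat_lit 0) (nat_lit 36969641098) (nat_lit 152) (nat_lit 47927073233) (nat_lit 76) (nat_lit 129520219696) (nat_lit 11) (nat_lit 5) (nat_lit 13) (nat_lit 5) (nat_lit 12) (nat_lit 4) (nat_lit 296) (nat_lit 274) (nat_lit 210)) (XT.lf (nat_lit 0) (nat_lit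 97815217758) (nat_lit 76) (nat_lit 9223853464) (nat_lit 152) (nat_lit 132938571342) (nat_lit 10) (nat_lit 5) (nat_lit 11) (nat_lit 5) (nat_lit 12) (nat_lit 4) (nat_lit 297) (nat_lit 274) (nat_lit 209))))))) (XT.nd (nat_lit 1014) (nat_lit 152) (nat_lit 0) (XT.nd (nat_lit 468) (nat_lit 228) (nat_lit 0) (XT.nd (nat_lit 234) (nat_lit 76) (nat_lit 0) (XT.nd (nat_lit 78) (nat_lit 228) (nat_lit 0) (XT.lf (nat_lit 0) (nat_lit 190918878113) (nat_lit 152) (nat_lit 2852092010) (nat_lit 0) (nat_lit 75337491955) (nat_lit 10) (nat_lit 5) (nat_lit 12) (nat_lit 4) (nat_lit 10) (nat_lit 4) (nat_lit 298) (nat_lit 274) (nat_lit 208)) (XT.nd (nat_lit 78) (nat_lit 152) (nat_lit 0) (XT.lf (nat_lit 0) (nat_lit 165367604687) (nat_lit 76) (nat_lit 126242893466) (nat_lit 76) (nat_lit 10660020459) (nat_lit 9) (nat_lit 4) (nat_lit 10) (nat_lit 5) (nat_lit 10) (nat_lit 4) (nat_lit 299) (nat_lit 274) (nat_lit 207))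 (XT.lf (nat_lit 0) (nat_lit 17868945908) (nat_lit 76) (nat_lit 46291204008) (nat_lit 152) (nat_lit 276076810118) (nat_lit 7) (nat_lit 5) (nat_lit 8) (nat_lit 5) (nat_lit 9) (nat_lit 4) (nat_lit 300) (nat_lit 274) (nat_lit 206)))) (XT.nd (nat_lit 78) (nat_lit 76) (nat_lit 0) (XT.lf (nat_lit 0) (nat_lit 154775313327) (nat_lit 152) (nat_lit 180932755415) (nat_lit 0) (nat_lit 47751896486) (nat_lit 7) (nat_lit 5) (nat_lit 9) (nat_lit 4) (nat_lit 7) (nat_lit 4) (nat_lit 301) (nat_lit 274) (nat_lit 205)) (XT.nd (nat_lit 78) (nat_lit 76) (nat_lit 0) (XT.lf (nat_lit 0) (nat_lit 260261263830) (nat_lit 152) (nat_lit 19565935476) (nat_lit 0) (nat_lit 153236941778) (nat_lit 7) (nat_lit 5) (nat_lit 9) (nat_lit 4) (nat_lit 7) (nat_lit 4) (nat_lit 302) (nat_lit 274) (nat_lit 204)) (XT.lf (nat_lit 0) (nat_lit 174744347133) (nat_lit 76) (nat_lit 211026811024) (nat_lit 76) (nat_lit 104001701833) (nat_lit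 6) (nat_lit 4) (nat_lit 7) (nat_lit 5) (nat_lit 7) (nat_lit 4) (nat_lit 303) (nat_lit 274) (nat_lit 203))))) (XT.nd (nat_lit 234) (nat_lit 76) (nat_lit 0) (XT.nd (nat_lit 78) (nat_lit 152) (nat_lit 0) (XT.lf (nat_lit 0) (nat_lit 399383297732) (nat_lit 76) (nat_lit 131292462715) (nat_lit 76) (nat_lit 24266669055) (nat_lit 6) (nat_lit 4) (nat_lit 7) (nat_lit 5) (nat_lit 7) (nat_lit 4) (nat_lit 304) (nat_lit 274) (nat_lit 202)) (XT.nd (nat_lit 78) (nat_lit 0) (nat_lit 0) (XT.lf (nat_lit 0) (nat_lit 27586548100) (nat_lit 76) (nat_lit 37131210049) (nat_lit 152) (nat_lit 564986968670) (nat_lit 4) (nat_lit 5) (nat_lit 5) (nat_lit 5) (nat_lit 6) (nat_lit 4) (nat_lit 305) (nat_lit 274) (nat_lit 201)) (XT.lf (nat_lit 0) (nat_lit 172010497539) (nat_lit 152) (nat_lit 470197136837) (nat_lit 0) (nat_lit 72911510125) (nat_lit 4) (nat_lit 5) (nat_lit 6) (nat_lit 4) (nat_lit 4) (nat_lit 4) (nat_lit 306)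 (nat_lit 274) (nat_lit 200)))) (XT.nd (nat_lit 156) (nat_lit 76) (nat_lit 0) (XT.nd (nat_lit 78) (nat_lit 0) (nat_lit 0) (XT.lf (nat_lit 0) (nat_lit 296423079487) (nat_lit 152) (nat_lit 319516895864) (nat_lit 0) (nat_lit 197323675360) (nat_lit 4) (nat_lit 5) (nat_lit 6) (nat_lit 4) (nat_lit 4) (nat_lit 4) (nat_lit 307) (nat_lit 274) (nat_lit 199)) (XT.lf (nat_lit 0) (nat_lit 439496656711) (nat_lit 152) (nat_lit 146236357635) (nat_lit 0) (nat_lit 340396890226) (nat_lit 4) (nat_lit 5) (nat_lit 6) (nat_lit 4) (nat_lit 4) (nat_lit 4) (nat_lit 308) (nat_lit 274) (nat_lit 198))) (XT.nd (nat_lit 78) (nat_lit 0) (nat_lit 0) (XT.lf (nat_lit 0) (nat_lit 55827465160) (nat_lit 76) (nat_lit 549545681571) (nat_lit 76) (nat_lit 450445599991) (nat_lit 3) (nat_lit 4) (nat_lit 4) (nat_lit 5) (nat_lit 4) (nat_lit 4) (nat_lit 309) (nat_lit 274) (nat_lit 197)) (XT.lf (nat_lit 0) (nat_lit 297055106842) (nat_lit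 76) (nat_lit 503332809842) (nat_lit 76) (nat_lit 404232454267) (nat_lit 3) (nat_lit 4) (nat_lit 4) (nat_lit 5) (nat_lit 4) (nat_lit 4) (nat_lit 310) (nat_lit 274) (nat_lit 196)))))) (XT.nd (nat_lit 468) (nat_lit 0) (nat_lit 0) (XT.nd (nat_lit 234) (nat_lit 152) (nat_lit 0) (XT.nd (nat_lit 78) (nat_lit 0) (nat_lit 0) (XT.lf (nat_lit 0) (nat_lit 574465691222) (nat_lit 76) (nat_lit 450188595447) (nat_lit 76) (nat_lit 351088001615) (nat_lit 3) (nat_lit 4) (nat_lit 4) (nat_lit 5) (nat_lit 4) (nat_lit 4) (nat_lit 311) (nat_lit 274) (nat_lit 195)) (XT.nd (nat_lit 78) (nat_lit 0) (nat_lit 0) (XT.lf (nat_lit 0) (nat_lit 893486816689) (nat_lit 76) (nat_lit 389073260279) (nat_lit 76) (nat_lit 289972459267) (nat_lit 3) (nat_lit 4) (nat_lit 4) (nat_lit 5) (nat_lit 4) (nat_lit 4) (nat_lit 312) (nat_lit 274) (nat_lit 194)) (XT.lf (nat_lit 0) (nat_lit 1260360200916) (nat_lit 76) (nat_lit 318791069519)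 (nat_lit 76) (nat_lit 219690088352) (nat_lit 3) (nat_lit 4) (nat_lit 4) (nat_lit 5) (nat_lit 4) (nat_lit 4) (nat_lit 313) (nat_lit 274) (nat_lit 193)))) (XT.nd (nat_lit 78) (nat_lit 152) (nat_lit 0) (XT.lf (nat_lit 0) (nat_lit 1682263801420) (nat_lit 76) (nat_lit 237966936827) (nat_lit 76) (nat_lit 138865799002) (nat_lit 3) (nat_lit 4) (nat_lit 4) (nat_lit 5) (nat_lit 4) (nat_lit 4) (nat_lit 314) (nat_lit 274) (nat_lit 192)) (XT.nd (nat_lit 78) (nat_lit 152) (nat_lit 0) (XT.lf (nat_lit 0) (nat_lit 2167452253863) (nat_lit 76) (nat_lit 145019520475) (nat_lit 76) (nat_lit 45918246426) (nat_lit 3) (nat_lit 4) (nat_lit 4) (nat_lit 5) (nat_lit 4) (nat_lit 4) (nat_lit 315) (nat_lit 274) (nat_lit 191)) (XT.lf (nat_lit 0) (nat_lit 22500009356) (nat_lit 76) (nat_lit 35962203076) (nat_lit 152) (nat_lit 2643954740380) (nat_lit 1) (nat_lit 5) (nat_lit 2) (nat_lit 5) (nat_lit 3) (nat_lit 4) (nat_lit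 316) (nat_lit 274) (nat_lit 190))))) (XT.nd (nat_lit 234) (nat_lit 0) (nat_lit 0) (XT.nd (nat_lit 78) (nat_lit 0) (nat_lit 0) (XT.lf (nat_lit 0) (nat_lit 183712577512) (nat_lit 152) (nat_lit 2821653462390) (nat_lit 0) (nat_lit 91951933522) (nat_lit 1) (nat_lit 5) (nat_lit 3) (nat_lit 4) (nat_lit 1) (nat_lit 4) (nat_lit 317) (nat_lit 274) (nat_lit 189)) (XT.nd (nat_lit 78) (nat_lit 0) (nat_lit 0) (XT.lf (nat_lit 0) (nat_lit 328744867959) (nat_lit 152) (nat_lit 2985645588567) (nat_lit 0) (nat_lit 236984141034) (nat_lit 1) (nat_lit 5) (nat_lit 3) (nat_lit 4) (nat_lit 1) (nat_lit 4) (nat_lit 318) (nat_lit 274) (nat_lit 188)) (XT.lf (nat_lit 0) (nat_lit 495531780217) (nat_lit 152) (nat_lit 3174236971737) (nat_lit 0) (nat_lit 403770981174) (nat_lit 1) (nat_lit 5) (nat_lit 3) (nat_lit 4) (nat_lit 1) (nat_lit 4) (nat_lit 319) (nat_lit 274) (nat_lit 187)))) (XT.nd (nat_lit 156) (nat_lit 0) (nat_lit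 0) (XT.nd (nat_lit 78) (nat_lit 0) (nat_lit 0) (XT.lf (nat_lit 0) (nat_lit 687336536481) (nat_lit 152) (nat_lit 3391117443312) (nat_lit 0) (nat_lit 595575674728) (nat_lit 1) (nat_lit 5) (nat_lit 3) (nat_lit 4) (nat_lit 1) (nat_lit 4) (nat_lit 320) (nat_lit 274) (nat_lit 186)) (XT.lf (nat_lit 0) (nat_lit 907911838504) (nat_lit 152) (nat_lit 3640530316863) (nat_lit 0) (nat_lit 816150922220) (nat_lit 1) (nat_lit 5) (nat_lit 3) (nat_lit 4) (nat_lit 1) (nat_lit 4) (nat_lit 321) (nat_lit 274) (nat_lit 185))) (XT.nd (nat_lit 78) (nat_lit 0) (nat_lit 0) (XT.lf (nat_lit 0) (nat_lit 1161573290023) (nat_lit 152) (nat_lit 3927355409484) (nat_lit 0) (nat_lit 1069812326321) (nat_lit 1) (nat_lit 5) (nat_lit 3) (nat_lit 4) (nat_lit 1) (nat_lit 4) (nat_lit 322) (nat_lit 274) (nat_lit 184)) (XT.lf (nat_lit 0) (nat_lit 1453283832479) (nat_lit 152) (nat_lit 4257204516465) (nat_lit 0) (nat_lit 1361522827544)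 (nat_lit 1) (nat_lit 5) (nat_lit 3) (nat_lit 4) (nat_lit 1) (nat_lit 4) (nat_lit 323) (nat_lit 274) (nat_lit 183))))))))
noncomputable def xc41 : XT := (XT.nd (nat_lit 38532) (nat_lit 0) (nat_lit 0) (XT.nd (nat_lit 37518) (nat_lit 0) (nat_lit 836) (XT.nd (nat_lit 36972) (nat_lit 0) (nat_lit 2432) (XT.nd (nat_lit 234) (nat_lit 0) (nat_lit 0) (XT.nd (nat_lit 78) (nat_lit 0) (nat_lit 0) (XT.lf (nat_lit 0) (nat_lit 1788750846051) (nat_lit 152) (nat_lit 4636531207289) (nat_lit 0) (nat_lit 1696989805261) (nat_lit 1) (nat_lit 5) (nat_lit 3) (nat_lit 4) (nat_lit 1) (nat_lit 4) (nat_lit 324) (nat_lit 274) (nat_lit 182)) (XT.nd (nat_lit 78) (nat_lit 0) (nat_lit 0) (XT.lf (nat_lit 0) (nat_lit 2174537815788) (nat_lit 152) (nat_lit 5072757091125) (nat_lit 0) (nat_lit 2082776743819) (nat_lit 1) (nat_lit 5) (nat_lit 3) (nat_lit 4) (nat_lit 1) (nat_lit 4) (nat_lit 325) (nat_lit 274) (nat_lit 181)) (XT.lf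 (nat_lit 0) (nat_lit 2618192747618) (nat_lit 152) (nat_lit 5574417022222) (nat_lit 0) (nat_lit 2526431648538) (nat_lit 1) (nat_lit 5) (nat_lit 3) (nat_lit 4) (nat_lit 1) (nat_lit 4) (nat_lit 326) (nat_lit 274) (nat_lit 180)))) (XT.nd (nat_lit 36582) (nat_lit 0) (nat_lit 3648) (XT.lf (nat_lit 0) (nat_lit 3128395846730) (nat_lit 152) (nat_lit 6151326086189) (nat_lit 0) (nat_lit 3036634724075) (nat_lit 1) (nat_lit 5) (nat_lit 3) (nat_lit 4) (nat_lit 1) (nat_lit 4) (nat_lit 327) (nat_lit 274) (nat_lit 179)) (XT.nd (nat_lit 78) (nat_lit 0) (nat_lit 0) (XT.lf (nat_lit 0) (nat_lit 11222403438) (nat_lit 532) (nat_lit 2699137986) (nat_lit 532) (nat_lit 2699137986) (nat_lit 49) (nat_lit 3) (nat_lit 56) (nat_lit 3) (nat_lit 56) (nat_lit 5) (nat_lit 275) (nat_lit 275) (nat_lit 230)) (XT.lf (nat_lit 76) (nat_lit 24772744673) (nat_lit 0) (nat_lit 49494065) (nat_lit 532) (nat_lit 10856451410) (nat_lit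 50) (nat_lit 5) (nat_lit 49) (nat_lit 3) (nat_lit 56) (nat_lit 5) (nat_lit 276) (nat_lit 275) (nat_lit 229))))) (XT.nd (nat_lit 234) (nat_lit 988) (nat_lit 0) (XT.nd (nat_lit 78) (nat_lit 304) (nat_lit 0) (XT.lf (nat_lit 76) (nat_lit 21625873206) (nat_lit 0) (nat_lit 7361720581) (nat_lit 532) (nat_lit 9379566318) (nat_lit 51) (nat_lit 5) (nat_lit 50) (nat_lit 5) (nat_lit 57) (nat_lit 5) (nat_lit 277) (nat_lit 275) (nat_lit 228)) (XT.nd (nat_lit 78) (nat_lit 380) (nat_lit 0) (XT.lf (nat_lit 76) (nat_lit 18563997619) (nat_lit 0) (nat_lit 16579343227) (nat_lit 532) (nat_lit 6206350522) (nat_lit 52) (nat_lit 5) (nat_lit 51) (nat_lit 5) (nat_lit 58) (nat_lit 5) (nat_lit 278) (nat_lit 275) (nat_lit 227)) (XT.lf (nat_lit 0) (nat_lit 15597665091) (nat_lit 456) (nat_lit 28082374619) (nat_lit 532) (nat_lit 982988401) (nat_lit 46) (nat_lit 5) (nat_lit 52) (nat_lit 5) (nat_lit 53) (nat_lit 5) (nat_lit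 279) (nat_lit 275) (nat_lit 226)))) (XT.nd (nat_lit 156) (nat_lit 380) (nat_lit 0) (XT.nd (nat_lit 78) (nat_lit 228) (nat_lit 0) (XT.lf (nat_lit 0) (nat_lit 6362180892) (nat_lit 380) (nat_lit 35779698155) (nat_lit 76) (nat_lit 6194677506) (nat_lit 41) (nat_lit 5) (nat_lit 46) (nat_lit 5) (nat_lit 42) (nat_lit 5) (nat_lit 280) (nat_lit 275) (nat_lit 225)) (XT.lf (nat_lit 0) (nat_lit 9317590353) (nat_lit 228) (nat_lit 7292884405) (nat_lit 304) (nat_lit 35799855766) (nat_lit 38) (nat_lit 5) (nat_lit 41) (nat_lit 5) (nat_lit 42) (nat_lit 5) (nat_lit 281) (nat_lit 275) (nat_lit 224))) (XT.nd (nat_lit 78) (nat_lit 152) (nat_lit 0) (XT.lf (nat_lit 0) (nat_lit 5797293975) (nat_lit 228) (nat_lit 24585428731) (nat_lit 304) (nat_lit 26553531155) (nat_lit 35) (nat_lit 5) (nat_lit 38) (nat_lit 5) (nat_lit 39) (nat_lit 5) (nat_lit 282) (nat_lit 275) (nat_lit 223)) (XT.lf (nat_lit 0) (nat_lit 2083312514)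 (nat_lit 152) (nat_lit 46032631671) (nat_lit 228) (nat_lit 13873528063) (nat_lit 33) (nat_lit 5) (nat_lit 35) (nat_lit 5) (nat_lit 36) (nat_lit 5) (nat_lit 283) (nat_lit 275) (nat_lit 222)))))) (XT.nd (nat_lit 468) (nat_lit 684) (nat_lit 0) (XT.nd (nat_lit 234) (nat_lit 456) (nat_lit 0) (XT.nd (nat_lit 78) (nat_lit 380) (nat_lit 0) (XT.lf (nat_lit 0) (nat_lit 2872319638) (nat_lit 228) (nat_lit 2042258830) (nat_lit 76) (nat_lit 62708803071) (nat_lit 32) (nat_lit 5) (nat_lit 35) (nat_lit 5) (nat_lit 33) (nat_lit 5) (nat_lit 284) (nat_lit 275) (nat_lit 221)) (XT.nd (nat_lit 78) (nat_lit 152) (nat_lit 0) (XT.lf (nat_lit 0) (nat_lit 24018878186) (nat_lit 304) (nat_lit 7529533716) (nat_lit 76) (nat_lit 42308325323) (nat_lit 29) (nat_lit 5) (nat_lit 33) (nat_lit 5) (nat_lit 30) (nat_lit 5) (nat_lit 285) (nat_lit 275) (nat_lit 220)) (XT.lf (nat_lit 0) (nat_lit 50557765296) (nat_lit 228) (nat_lit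 14018128661) (nat_lit 76) (nat_lit 16271585350) (nat_lit 27) (nat_lit 5) (nat_lit 30) (nat_lit 5) (nat_lit 28) (nat_lit 5) (nat_lit 286) (nat_lit 275) (nat_lit 219)))) (XT.nd (nat_lit 78) (nat_lit 304) (nat_lit 0) (XT.lf (nat_lit 0) (nat_lit 66361476379) (nat_lit 152) (nat_lit 17403580560) (nat_lit 228) (nat_lit 4906779284) (nat_lit 25) (nat_lit 5) (nat_lit 27) (nat_lit 5) (nat_lit 28) (nat_lit 5) (nat_lit 287) (nat_lit 275) (nat_lit 218)) (XT.nd (nat_lit 78) (nat_lit 152) (nat_lit 0) (XT.lf (nat_lit 0) (nat_lit 25989177312) (nat_lit 152) (nat_lit 33777743454) (nat_lit 76) (nat_lit 37622584027) (nat_lit 23) (nat_lit 5) (nat_lit 25) (nat_lit 5) (nat_lit 24) (nat_lit 5) (nat_lit 288) (nat_lit 275) (nat_lit 217)) (XT.lf (nat_lit 0) (nat_lit 58705257382) (nat_lit 152) (nat_lit 5086624990) (nat_lit 228) (nat_lit 43407720559) (nat_lit 21) (nat_lit 5) (nat_lit 23) (nat_lit 5) (nat_lit 24) (nat_lit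 5) (nat_lit 289) (nat_lit 275) (nat_lit 216))))) (XT.nd (nat_lit 234) (nat_lit 304) (nat_lit 0) (XT.nd (nat_lit 78) (nat_lit 304) (nat_lit 0) (XT.lf (nat_lit 0) (nat_lit 49770304674) (nat_lit 76) (nat_lit 61086025344) (nat_lit 152) (nat_lit 7337584448) (nat_lit 20) (nat_lit 5) (nat_lit 21) (nat_lit 5) (nat_lit 22) (nat_lit 4) (nat_lit 290) (nat_lit 275) (nat_lit 215)) (XT.nd (nat_lit 78) (nat_lit 76) (nat_lit 0) (XT.lf (nat_lit 0) (nat_lit 34901756530) (nat_lit 228) (nat_lit 94826793232) (nat_lit 76) (nat_lit 845803428) (nat_lit 17) (nat_lit 5) (nat_lit 20) (nat_lit 5) (nat_lit 18) (nat_lit 4) (nat_lit 291) (nat_lit 275) (nat_lit 214)) (XT.lf (nat_lit 0) (nat_lit 13773519204) (nat_lit 76) (nat_lit 73342008865) (nat_lit 152) (nat_lit 57355246959) (nat_lit 16) (nat_lit 5) (nat_lit 17) (nat_lit 5) (nat_lit 18) (nat_lit 4) (nat_lit 292) (nat_lit 275) (nat_lit 213)))) (XT.nd (nat_lit 156) (nat_lit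 152) (nat_lit 0) (XT.nd (nat_lit 78) (nat_lit 152) (nat_lit 0) (XT.lf (nat_lit 0) (nat_lit 144400115450) (nat_lit 76) (nat_lit 5518472004) (nat_lit 152) (nat_lit 10312498345) (nat_lit 16) (nat_lit 5) (nat_lit 17) (nat_lit 5) (nat_lit 18) (nat_lit 4) (nat_lit 293) (nat_lit 275) (nat_lit 212)) (XT.lf (nat_lit 0) (nat_lit 46355886936) (nat_lit 152) (nat_lit 58611072156) (nat_lit 76) (nat_lit 72923472379) (nat_lit 14) (nat_lit 5) (nat_lit 16) (nat_lit 5) (nat_lit 15) (nat_lit 4) (nat_lit 294) (nat_lit 275) (nat_lit 211))) (XT.nd (nat_lit 78) (nat_lit 76) (nat_lit 0) (XT.lf (nat_lit 0) (nat_lit 81052610355) (nat_lit 76) (nat_lit 32450545862) (nat_lit 152) (nat_lit 84466957314) (nat_lit 13) (nat_lit 5) (nat_lit 14) (nat_lit 5) (nat_lit 15) (nat_lit 4) (nat_lit 295) (nat_lit 275) (nat_lit 210)) (XT.lf (nat_lit 0) (nat_lit 24227380560) (nat_lit 76) (nat_lit 170050991279) (nat_lit 76) (nat_lit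 26498909670) (nat_lit 12) (nat_lit 4) (nat_lit 13) (nat_lit 5) (nat_lit 13) (nat_lit 4) (nat_lit 296) (nat_lit 275) (nat_lit 209))))))) (XT.nd (nat_lit 1014) (nat_lit 228) (nat_lit 0) (XT.nd (nat_lit 468) (nat_lit 228) (nat_lit 0) (XT.nd (nat_lit 234) (nat_lit 228) (nat_lit 0) (XT.nd (nat_lit 78) (nat_lit 76) (nat_lit 0) (XT.lf (nat_lit 0) (nat_lit 42542462386) (nat_lit 152) (nat_lit 55065606511) (nat_lit 76) (nat_lit 148969197150) (nat_lit 11) (nat_lit 5) (nat_lit 13) (nat_lit 5) (nat_lit 12) (nat_lit 4) (nat_lit 297) (nat_lit 275) (nat_lit 208)) (XT.nd (nat_lit 78) (nat_lit 0) (nat_lit 0) (XT.lf (nat_lit 0) (nat_lit 112533751211) (nat_lit 76) (nat_lit 10586097481) (nat_lit 152) (nat_lit 152852431195) (nat_lit 10) (nat_lit 5) (nat_lit 11) (nat_lit 5) (nat_lit 12) (nat_lit 4) (nat_lit 298) (nat_lit 275) (nat_lit 207)) (XT.lf (nat_lit 0) (nat_lit 219578822761) (nat_lit 152) (nat_lit 3238386884)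 (nat_lit 0) (nat_lit 86655739043) (nat_lit 10) (nat_lit 5) (nat_lit 12) (nat_lit 4) (nat_lit 10) (nat_lit 4) (nat_lit 299) (nat_lit 275) (nat_lit 206)))) (XT.nd (nat_lit 78) (nat_lit 152) (nat_lit 0) (XT.lf (nat_lit 0) (nat_lit 190210749947) (nat_lit 76) (nat_lit 145161465574) (nat_lit 76) (nat_lit 12237257585) (nat_lit 9) (nat_lit 4) (nat_lit 10) (nat_lit 5) (nat_lit 10) (nat_lit 4) (nat_lit 300) (nat_lit 275) (nat_lit 205)) (XT.nd (nat_lit 78) (nat_lit 0) (nat_lit 0) (XT.lf (nat_lit 0) (nat_lit 20585082186) (nat_lit 76) (nat_lit 53217931179) (nat_lit 152) (nat_lit 317467973827) (nat_lit 7) (nat_lit 5) (nat_lit 8) (nat_lit 5) (nat_lit 9) (nat_lit 4) (nat_lit 301) (nat_lit 275) (nat_lit 204)) (XT.lf (nat_lit 0) (nat_lit 178008348320) (nat_lit 152) (nat_lit 208040578721) (nat_lit 0) (nat_lit 54928685611) (nat_lit 7) (nat_lit 5) (nat_lit 9) (nat_lit 4) (nat_lit 7) (nat_lit 4) (nat_lit 302)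 (nat_lit 275) (nat_lit 203))))) (XT.nd (nat_lit 234) (nat_lit 152) (nat_lit 0) (XT.nd (nat_lit 78) (nat_lit 76) (nat_lit 0) (XT.lf (nat_lit 0) (nat_lit 299315008181) (nat_lit 152) (nat_lit 22472921444) (nat_lit 0) (nat_lit 176234661003) (nat_lit 7) (nat_lit 5) (nat_lit 9) (nat_lit 4) (nat_lit 7) (nat_lit 4) (nat_lit 303) (nat_lit 275) (nat_lit 202)) (XT.nd (nat_lit 78) (nat_lit 0) (nat_lit 0) (XT.lf (nat_lit 0) (nat_lit 200981541593) (nat_lit 76) (nat_lit 242668560912) (nat_lit 76) (nat_lit 119587618543) (nat_lit 6) (nat_lit 4) (nat_lit 7) (nat_lit 5) (nat_lit 7) (nat_lit 4) (nat_lit 304) (nat_lit 275) (nat_lit 201)) (XT.lf (nat_lit 0) (nat_lit 459313003165) (nat_lit 76) (nat_lit 150975661021) (nat_lit 76) (nat_lit 27894201095) (nat_lit 6) (nat_lit 4) (nat_lit 7) (nat_lit 5) (nat_lit 7) (nat_lit 4) (nat_lit 305) (nat_lit 275) (nat_lit 200)))) (XT.nd (nat_lit 156) (nat_lit 0) (nat_lit 0)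 (XT.nd (nat_lit 78) (nat_lit 0) (nat_lit 0) (XT.lf (nat_lit 0) (nat_lit 31745436616) (nat_lit 76) (nat_lit 42690787706) (nat_lit 152) (nat_lit 649723342919) (nat_lit 4) (nat_lit 5) (nat_lit 5) (nat_lit 5) (nat_lit 6) (nat_lit 4) (nat_lit 306) (nat_lit 275) (nat_lit 199)) (XT.lf (nat_lit 0) (nat_lit 197821676908) (nat_lit 152) (nat_lit 540707983967) (nat_lit 0) (nat_lit 83856583091) (nat_lit 4) (nat_lit 5) (nat_lit 6) (nat_lit 4) (nat_lit 4) (nat_lit 4) (nat_lit 307) (nat_lit 275) (nat_lit 198))) (XT.nd (nat_lit 78) (nat_lit 0) (nat_lit 0) (XT.lf (nat_lit 0) (nat_lit 340894893356) (nat_lit 152) (nat_lit 367428149030) (nat_lit 0) (nat_lit 226929484445) (nat_lit 4) (nat_lit 5) (nat_lit 6) (nat_lit 4) (nat_lit 4) (nat_lit 4) (nat_lit 308) (nat_lit 275) (nat_lit 197)) (XT.lf (nat_lit 0) (nat_lit 505428417779) (nat_lit 152) (nat_lit 168157653703) (nat_lit 0) (nat_lit 391462734873) (nat_lit 4)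 (nat_lit 5) (nat_lit 6) (nat_lit 4) (nat_lit 4) (nat_lit 4) (nat_lit 309) (nat_lit 275) (nat_lit 196)))))) (XT.nd (nat_lit 468) (nat_lit 152) (nat_lit 0) (XT.nd (nat_lit 234) (nat_lit 0) (nat_lit 0) (XT.nd (nat_lit 78) (nat_lit 0) (nat_lit 0) (XT.lf (nat_lit 0) (nat_lit 64214544142) (nat_lit 76) (nat_lit 631971201539) (nat_lit 76) (nat_lit 518005280376) (nat_lit 3) (nat_lit 4) (nat_lit 4) (nat_lit 5) (nat_lit 4) (nat_lit 4) (nat_lit 310) (nat_lit 275) (nat_lit 195)) (XT.nd (nat_lit 78) (nat_lit 0) (nat_lit 0) (XT.lf (nat_lit 0) (nat_lit 341624641745) (nat_lit 76) (nat_lit 578827224998) (nat_lit 76) (nat_lit 464861096655) (nat_lit 3) (nat_lit 4) (nat_lit 4) (nat_lit 5) (nat_lit 4) (nat_lit 4) (nat_lit 311) (nat_lit 275) (nat_lit 194)) (XT.lf (nat_lit 0) (nat_lit 660645343928) (nat_lit 76) (nat_lit 517712096660) (nat_lit 76) (nat_lit 403745788161) (nat_lit 3) (nat_lit 4) (nat_lit 4) (nat_lit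 5) (nat_lit 4) (nat_lit 4) (nat_lit 312) (nat_lit 275) (nat_lit 193)))) (XT.nd (nat_lit 78) (nat_lit 0) (nat_lit 0) (XT.lf (nat_lit 0) (nat_lit 1027518360082) (nat_lit 76) (nat_lit 447430085752) (nat_lit 76) (nat_lit 333463620595) (nat_lit 3) (nat_lit 4) (nat_lit 4) (nat_lit 5) (nat_lit 4) (nat_lit 4) (nat_lit 313) (nat_lit 275) (nat_lit 192)) (XT.nd (nat_lit 78) (nat_lit 0) (nat_lit 0) (XT.lf (nat_lit 0) (nat_lit 1449421640523) (nat_lit 76) (nat_lit 366606109452) (nat_lit 76) (nat_lit 252639508072) (nat_lit 3) (nat_lit 4) (nat_lit 4) (nat_lit 5) (nat_lit 4) (nat_lit 4) (nat_lit 314) (nat_lit 275) (nat_lit 191)) (XT.lf (nat_lit 0) (nat_lit 1934609814649) (nat_lit 76) (nat_lit 273658829095) (nat_lit 76) (nat_lit 159692109258) (nat_lit 3) (nat_lit 4) (nat_lit 4) (nat_lit 5) (nat_lit 4) (nat_lit 4) (nat_lit 315) (nat_lit 275) (nat_lit 190))))) (XT.nd (nat_lit 234) (nat_lit 0) (nat_lit 0)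 (XT.nd (nat_lit 78) (nat_lit 152) (nat_lit 0) (XT.lf (nat_lit 0) (nat_lit 2492575694565) (nat_lit 76) (nat_lit 166769710933) (nat_lit 76) (nat_lit 52802888091) (nat_lit 3) (nat_lit 4) (nat_lit 4) (nat_lit 5) (nat_lit 4) (nat_lit 4) (nat_lit 316) (nat_lit 275) (nat_lit 189)) (XT.nd (nat_lit 78) (nat_lit 0) (nat_lit 0) (XT.lf (nat_lit 0) (nat_lit 25880281805) (nat_lit 76) (nat_lit 41353946183) (nat_lit 152) (nat_lit 3040545052175) (nat_lit 1) (nat_lit 5) (nat_lit 2) (nat_lit 5) (nat_lit 3) (nat_lit 4) (nat_lit 317) (nat_lit 275) (nat_lit 188)) (XT.lf (nat_lit 0) (nat_lit 211271851892) (nat_lit 152) (nat_lit 3244896764887) (nat_lit 0) (nat_lit 105746860876) (nat_lit 1) (nat_lit 5) (nat_lit 3) (nat_lit 4) (nat_lit 1) (nat_lit 4) (nat_lit 318) (nat_lit 275) (nat_lit 187)))) (XT.nd (nat_lit 156) (nat_lit 0) (nat_lit 0) (XT.nd (nat_lit 78) (nat_lit 0) (nat_lit 0) (XT.lf (nat_lit 0) (nat_lit 378058674460)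 (nat_lit 152) (nat_lit 3433488325233) (nat_lit 0) (nat_lit 272533620734) (nat_lit 1) (nat_lit 5) (nat_lit 3) (nat_lit 4) (nat_lit 1) (nat_lit 4) (nat_lit 319) (nat_lit 275) (nat_lit 186)) (XT.lf (nat_lit 0) (nat_lit 569863352734) (nat_lit 152) (nat_lit 3650368950873) (nat_lit 0) (nat_lit 464338244476) (nat_lit 1) (nat_lit 5) (nat_lit 3) (nat_lit 4) (nat_lit 1) (nat_lit 4) (nat_lit 320) (nat_lit 275) (nat_lit 185))) (XT.nd (nat_lit 78) (nat_lit 0) (nat_lit 0) (XT.lf (nat_lit 0) (nat_lit 790438586939) (nat_lit 152) (nat_lit 3899781958395) (nat_lit 0) (nat_lit 684913431264) (nat_lit 1) (nat_lit 5) (nat_lit 3) (nat_lit 4) (nat_lit 1) (nat_lit 4) (nat_lit 321) (nat_lit 275) (nat_lit 184)) (XT.lf (nat_lit 0) (nat_lit 1044099979486) (nat_lit 152) (nat_lit 4186607167512) (nat_lit 0) (nat_lit 938574782577) (nat_lit 1) (nat_lit 5) (nat_lit 3) (nat_lit 4) (nat_lit 1) (nat_lit 4) (nat_lit 322) (nat_lit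 275) (nat_lit 183))))))))
noncomputable def xc42 : XT := (XT.nd (nat_lit 38610) (nat_lit 0) (nat_lit 0) (XT.nd (nat_lit 37596) (nat_lit 0) (nat_lit 912) (XT.nd (nat_lit 37050) (nat_lit 0) (nat_lit 2584) (XT.nd (nat_lit 234) (nat_lit 0) (nat_lit 0) (XT.nd (nat_lit 78) (nat_lit 0) (nat_lit 0) (XT.lf (nat_lit 0) (nat_lit 1335810470662) (nat_lit 152) (nat_lit 4516456375793) (nat_lit 0) (nat_lit 1230285237898) (nat_lit 1) (nat_lit 5) (nat_lit 3) (nat_lit 4) (nat_lit 1) (nat_lit 4) (nat_lit 323) (nat_lit 275) (nat_lit 182)) (XT.nd (nat_lit 78) (nat_lit 0) (nat_lit 0) (XT.lf (nat_lit 0) (nat_lit 1671277439642) (nat_lit 152) (nat_lit 4895783154705) (nat_lit 0) (nat_lit 1565752175700) (nat_lit 1) (nat_lit 5) (nat_lit 3) (nat_lit 4) (nat_lit 1) (nat_lit 4) (nat_lit 324) (nat_lit 275) (nat_lit 181)) (XT.lf (nat_lit 0) (nat_lit 2057064370604) (nat_lit 152) (nat_lit 5332009115139) (nat_lit 0) (nat_lit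 1951539079550) (nat_lit 1) (nat_lit 5) (nat_lit 3) (nat_lit 4) (nat_lit 1) (nat_lit 4) (nat_lit 325) (nat_lit 275) (nat_lit 180)))) (XT.nd (nat_lit 78) (nat_lit 0) (nat_lit 0) (XT.lf (nat_lit 0) (nat_lit 2500719268717) (nat_lit 152) (nat_lit 5833669112843) (nat_lit 0) (nat_lit 2395193954088) (nat_lit 1) (nat_lit 5) (nat_lit 3) (nat_lit 4) (nat_lit 1) (nat_lit 4) (nat_lit 326) (nat_lit 275) (nat_lit 179)) (XT.nd (nat_lit 36660) (nat_lit 0) (nat_lit 3648) (XT.lf (nat_lit 0) (nat_lit 3010922338509) (nat_lit 152) (nat_lit 6410578234729) (nat_lit 0) (nat_lit 2905397003380) (nat_lit 1) (nat_lit 5) (nat_lit 3) (nat_lit 4) (nat_lit 1) (nat_lit 4) (nat_lit 327) (nat_lit 275) (nat_lit 178)) (XT.lf (nat_lit 0) (nat_lit 12999980371) (nat_lit 532) (nat_lit 3053014450) (nat_lit 532) (nat_lit 3053014450) (nat_lit 49) (nat_lit 3) (nat_lit 56) (nat_lit 3) (nat_lit 56) (nat_lit 5) (nat_lit 276) (nat_lit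 276) (nat_lit 228))))) (XT.nd (nat_lit 234) (nat_lit 1064) (nat_lit 0) (XT.nd (nat_lit 78) (nat_lit 0) (nat_lit 76) (XT.lf (nat_lit 76) (nat_lit 28582012025) (nat_lit 0) (nat_lit 129662370) (nat_lit 532) (nat_lit 12305123054) (nat_lit 50) (nat_lit 5) (nat_lit 49) (nat_lit 3) (nat_lit 56) (nat_lit 5) (nat_lit 277) (nat_lit 276) (nat_lit 227)) (XT.nd (nat_lit 78) (nat_lit 0) (nat_lit 76) (XT.lf (nat_lit 76) (nat_lit 24969346065) (nat_lit 0) (nat_lit 8511695322) (nat_lit 532) (nat_lit 10629213065) (nat_lit 51) (nat_lit 5) (nat_lit 50) (nat_lit 5) (nat_lit 57) (nat_lit 5) (nat_lit 278) (nat_lit 276) (nat_lit 226)) (XT.lf (nat_lit 76) (nat_lit 21451731254) (nat_lit 0) (nat_lit 19090990264) (nat_lit 532) (nat_lit 6998884509) (nat_lit 52) (nat_lit 5) (nat_lit 51) (nat_lit 5) (nat_lit 58) (nat_lit 5) (nat_lit 279) (nat_lit 276) (nat_lit 225)))) (XT.nd (nat_lit 156) (nat_lit 456) (nat_lit 0) (XT.nd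 (nat_lit 78) (nat_lit 380) (nat_lit 0) (XT.lf (nat_lit 0) (nat_lit 18041910794) (nat_lit 456) (nat_lit 32303332507) (nat_lit 532) (nat_lit 1007914796) (nat_lit 46) (nat_lit 5) (nat_lit 52) (nat_lit 5) (nat_lit 53) (nat_lit 5) (nat_lit 280) (nat_lit 276) (nat_lit 224)) (XT.lf (nat_lit 0) (nat_lit 7420112304) (nat_lit 380) (nat_lit 41036514385) (nat_lit 76) (nat_lit 7121908885) (nat_lit 41) (nat_lit 5) (nat_lit 46) (nat_lit 5) (nat_lit 42) (nat_lit 5) (nat_lit 281) (nat_lit 276) (nat_lit 223))) (XT.nd (nat_lit 78) (nat_lit 228) (nat_lit 0) (XT.lf (nat_lit 0) (nat_lit 10816044724) (nat_lit 228) (nat_lit 8378516547) (nat_lit 304) (nat_lit 41069729678) (nat_lit 38) (nat_lit 5) (nat_lit 41) (nat_lit 5) (nat_lit 42) (nat_lit 5) (nat_lit 282) (nat_lit 276) (nat_lit 222)) (XT.lf (nat_lit 0) (nat_lit 6765934373) (nat_lit 228) (nat_lit 28257200481) (nat_lit 304) (nat_lit 30446753370) (nat_lit 35)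 (nat_lit 5) (nat_lit 38) (nat_lit 5) (nat_lit 39) (nat_lit 5) (nat_lit 283) (nat_lit 276) (nat_lit 221)))))) (XT.nd (nat_lit 468) (nat_lit 760) (nat_lit 0) (XT.nd (nat_lit 234) (nat_lit 456) (nat_lit 0) (XT.nd (nat_lit 78) (nat_lit 304) (nat_lit 0) (XT.lf (nat_lit 0) (nat_lit 2492346566) (nat_lit 152) (nat_lit 52915823633) (nat_lit 228) (nat_lit 15873594033) (nat_lit 33) (nat_lit 5) (nat_lit 35) (nat_lit 5) (nat_lit 36) (nat_lit 5) (nat_lit 284) (nat_lit 276) (nat_lit 220)) (XT.nd (nat_lit 78) (nat_lit 228) (nat_lit 0) (XT.lf (nat_lit 0) (nat_lit 3370048568) (nat_lit 228) (nat_lit 2261016036) (nat_lit 76) (nat_lit 72130359274) (nat_lit 32) (nat_lit 5) (nat_lit 35) (nat_lit 5) (nat_lit 33) (nat_lit 5) (nat_lit 285) (nat_lit 276) (nat_lit 219)) (XT.lf (nat_lit 0) (nat_lit 27682278332) (nat_lit 304) (nat_lit 8574372171) (nat_lit 76) (nat_lit 48673652341) (nat_lit 29) (nat_lit 5) (nat_lit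 33) (nat_lit 5) (nat_lit 30) (nat_lit 5) (nat_lit 286) (nat_lit 276) (nat_lit 218)))) (XT.nd (nat_lit 78) (nat_lit 304) (nat_lit 0) (XT.lf (nat_lit 0) (nat_lit 58196511274) (nat_lit 228) (nat_lit 16039518437) (nat_lit 76) (nat_lit 18734078483) (nat_lit 27) (nat_lit 5) (nat_lit 30) (nat_lit 5) (nat_lit 28) (nat_lit 5) (nat_lit 287) (nat_lit 276) (nat_lit 217)) (XT.nd (nat_lit 78) (nat_lit 152) (nat_lit 0) (XT.lf (nat_lit 0) (nat_lit 76390143220) (nat_lit 152) (nat_lit 19989359355) (nat_lit 228) (nat_lit 5589058885) (nat_lit 25) (nat_lit 5) (nat_lit 27) (nat_lit 5) (nat_lit 28) (nat_lit 5) (nat_lit 288) (nat_lit 276) (nat_lit 216)) (XT.lf (nat_lit 0) (nat_lit 29934235142) (nat_lit 152) (nat_lit 38770579967) (nat_lit 76) (nat_lit 43289320335) (nat_lit 23) (nat_lit 5) (nat_lit 25) (nat_lit 5) (nat_lit 24) (nat_lit 5) (nat_lit 289) (nat_lit 276) (nat_lit 215))))) (XT.nd (nat_lit 234) (nat_lit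 304) (nat_lit 0) (XT.nd (nat_lit 78) (nat_lit 304) (nat_lit 0) (XT.lf (nat_lit 0) (nat_lit 67578622076) (nat_lit 152) (nat_lit 5824260235) (nat_lit 228) (nat_lit 49873230982) (nat_lit 21) (nat_lit 5) (nat_lit 23) (nat_lit 5) (nat_lit 24) (nat_lit 5) (nat_lit 290) (nat_lit 276) (nat_lit 214)) (XT.nd (nat_lit 78) (nat_lit 228) (nat_lit 0) (XT.lf (nat_lit 0) (nat_lit 57300287972) (nat_lit 76) (nat_lit 70223282541) (nat_lit 152) (nat_lit 8396282044) (nat_lit 20) (nat_lit 5) (nat_lit 21) (nat_lit 5) (nat_lit 22) (nat_lit 4) (nat_lit 291) (nat_lit 276) (nat_lit 213)) (XT.lf (nat_lit 0) (nat_lit 40173728148) (nat_lit 228) (nat_lit 108987541148) (nat_lit 76) (nat_lit 996263346) (nat_lit 17) (nat_lit 5) (nat_lit 20) (nat_lit 5) (nat_lit 18) (nat_lit 4) (nat_lit 292) (nat_lit 276) (nat_lit 212)))) (XT.nd (nat_lit 156) (nat_lit 228) (nat_lit 0) (XT.nd (nat_lit 78) (nat_lit 0) (nat_lit 0) (XT.lf (nat_lit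 0) (nat_lit 15897462574) (nat_lit 76) (nat_lit 84318707695) (nat_lit 152) (nat_lit 65922523909) (nat_lit 16) (nat_lit 5) (nat_lit 17) (nat_lit 5) (nat_lit 18) (nat_lit 4) (nat_lit 293) (nat_lit 276) (nat_lit 211)) (XT.lf (nat_lit 0) (nat_lit 166110494062) (nat_lit 76) (nat_lit 6324849326) (nat_lit 152) (nat_lit 11828059971) (nat_lit 16) (nat_lit 5) (nat_lit 17) (nat_lit 5) (nat_lit 18) (nat_lit 4) (nat_lit 294) (nat_lit 276) (nat_lit 210))) (XT.nd (nat_lit 78) (nat_lit 76) (nat_lit 0) (XT.lf (nat_lit 0) (nat_lit 53336774527) (nat_lit 152) (nat_lit 67353487899) (nat_lit 76) (nat_lit 83881510952) (nat_lit 14) (nat_lit 5) (nat_lit 16) (nat_lit 5) (nat_lit 15) (nat_lit 4) (nat_lit 295) (nat_lit 276) (nat_lit 209)) (XT.lf (nat_lit 0) (nat_lit 93255578639) (nat_lit 76) (nat_lit 37298052108) (nat_lit 152) (nat_lit 97109980205) (nat_lit 13) (nat_lit 5) (nat_lit 14) (nat_lit 5) (nat_lit 15) (nat_lit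 4) (nat_lit 296) (nat_lit 276) (nat_lit 208))))))) (XT.nd (nat_lit 1014) (nat_lit 228) (nat_lit 0) (XT.nd (nat_lit 468) (nat_lit 228) (nat_lit 0) (XT.nd (nat_lit 234) (nat_lit 228) (nat_lit 0) (XT.nd (nat_lit 78) (nat_lit 152) (nat_lit 0) (XT.lf (nat_lit 0) (nat_lit 27904155563) (nat_lit 76) (nat_lit 195539158143) (nat_lit 76) (nat_lit 30448688166) (nat_lit 12) (nat_lit 4) (nat_lit 13) (nat_lit 5) (nat_lit 13) (nat_lit 4) (nat_lit 297) (nat_lit 276) (nat_lit 207)) (XT.nd (nat_lit 78) (nat_lit 76) (nat_lit 0) (XT.lf (nat_lit 0) (nat_lit 48944531269) (nat_lit 152) (nat_lit 63287241281) (nat_lit 76) (nat_lit 171330413774) (nat_lit 11) (nat_lit 5) (nat_lit 13) (nat_lit 5) (nat_lit 12) (nat_lit 4) (nat_lit 298) (nat_lit 276) (nat_lit 206)) (XT.lf (nat_lit 0) (nat_lit 129448786134) (nat_lit 76) (nat_lit 12157880533) (nat_lit 152) (nat_lit 175759936065) (nat_lit 10) (nat_lit 5) (nat_lit 11) (nat_lit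 5) (nat_lit 12) (nat_lit 4) (nat_lit 299) (nat_lit 276) (nat_lit 205)))) (XT.nd (nat_lit 78) (nat_lit 228) (nat_lit 0) (XT.lf (nat_lit 0) (nat_lit 252532366728) (nat_lit 152) (nat_lit 3692750642) (nat_lit 0) (nat_lit 99667425643) (nat_lit 10) (nat_lit 5) (nat_lit 12) (nat_lit 4) (nat_lit 10) (nat_lit 4) (nat_lit 300) (nat_lit 276) (nat_lit 204)) (XT.nd (nat_lit 78) (nat_lit 152) (nat_lit 0) (XT.lf (nat_lit 0) (nat_lit 218771099345) (nat_lit 76) (nat_lit 166922179239) (nat_lit 76) (nat_lit 14056388043) (nat_lit 9) (nat_lit 4) (nat_lit 10) (nat_lit 5) (nat_lit 10) (nat_lit 4) (nat_lit 301) (nat_lit 276) (nat_lit 203)) (XT.lf (nat_lit 0) (nat_lit 23699910217) (nat_lit 76) (nat_lit 61187801628) (nat_lit 152) (nat_lit 365072776473) (nat_lit 7) (nat_lit 5) (nat_lit 8) (nat_lit 5) (nat_lit 9) (nat_lit 4) (nat_lit 302) (nat_lit 276) (nat_lit 202))))) (XT.nd (nat_lit 234) (nat_lit 152) (nat_lit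 0) (XT.nd (nat_lit 78) (nat_lit 76) (nat_lit 0) (XT.lf (nat_lit 0) (nat_lit 204722256896) (nat_lit 152) (nat_lit 239222400873) (nat_lit 0) (nat_lit 63178577982) (nat_lit 7) (nat_lit 5) (nat_lit 9) (nat_lit 4) (nat_lit 7) (nat_lit 4) (nat_lit 303) (nat_lit 276) (nat_lit 201)) (XT.nd (nat_lit 78) (nat_lit 76) (nat_lit 0) (XT.lf (nat_lit 0) (nat_lit 344223264911) (nat_lit 152) (nat_lit 25822759960) (nat_lit 0) (nat_lit 202679068440) (nat_lit 7) (nat_lit 5) (nat_lit 9) (nat_lit 4) (nat_lit 7) (nat_lit 4) (nat_lit 304) (nat_lit 276) (nat_lit 200)) (XT.lf (nat_lit 0) (nat_lit 231148086548) (nat_lit 76) (nat_lit 279059565830) (nat_lit 76) (nat_lit 137514919310) (nat_lit 6) (nat_lit 4) (nat_lit 7) (nat_lit 5) (nat_lit 7) (nat_lit 4) (nat_lit 305) (nat_lit 276) (nat_lit 199)))) (XT.nd (nat_lit 156) (nat_lit 0) (nat_lit 0) (XT.nd (nat_lit 78) (nat_lit 152) (nat_lit 0) (XT.lf (nat_lit 0) (nat_lit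 528226748176) (nat_lit 76) (nat_lit 173613941288) (nat_lit 76) (nat_lit 32068903421) (nat_lit 6) (nat_lit 4) (nat_lit 7) (nat_lit 5) (nat_lit 7) (nat_lit 4) (nat_lit 306) (nat_lit 276) (nat_lit 198)) (XT.lf (nat_lit 0) (nat_lit 36523060275) (nat_lit 76) (nat_lit 49086765900) (nat_lit 152) (nat_lit 747173019365) (nat_lit 4) (nat_lit 5) (nat_lit 5) (nat_lit 5) (nat_lit 6) (nat_lit 4) (nat_lit 307) (nat_lit 276) (nat_lit 197))) (XT.nd (nat_lit 78) (nat_lit 0) (nat_lit 0) (XT.lf (nat_lit 0) (nat_lit 227502191006) (nat_lit 152) (nat_lit 621800023986) (nat_lit 0) (nat_lit 96441381668) (nat_lit 4) (nat_lit 5) (nat_lit 6) (nat_lit 4) (nat_lit 4) (nat_lit 4) (nat_lit 308) (nat_lit 276) (nat_lit 196)) (XT.lf (nat_lit 0) (nat_lit 392035442631) (nat_lit 152) (nat_lit 422530060449) (nat_lit 0) (nat_lit 260974395037) (nat_lit 4) (nat_lit 5) (nat_lit 6) (nat_lit 4) (nat_lit 4) (nat_lit 4) (nat_lit 309)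 (nat_lit 276) (nat_lit 195)))))) (XT.nd (nat_lit 468) (nat_lit 152) (nat_lit 0) (XT.nd (nat_lit 234) (nat_lit 0) (nat_lit 0) (XT.nd (nat_lit 78) (nat_lit 76) (nat_lit 0) (XT.lf (nat_lit 0) (nat_lit 581248171986) (nat_lit 152) (nat_lit 193370596597) (nat_lit 0) (nat_lit 450186917212) (nat_lit 4) (nat_lit 5) (nat_lit 6) (nat_lit 4) (nat_lit 4) (nat_lit 4) (nat_lit 310) (nat_lit 276) (nat_lit 194)) (XT.nd (nat_lit 78) (nat_lit 0) (nat_lit 0) (XT.lf (nat_lit 0) (nat_lit 73856524787) (nat_lit 76) (nat_lit 726762093665) (nat_lit 76) (nat_lit 595700658735) (nat_lit 3) (nat_lit 4) (nat_lit 4) (nat_lit 5) (nat_lit 4) (nat_lit 4) (nat_lit 311) (nat_lit 276) (nat_lit 193)) (XT.lf (nat_lit 0) (nat_lit 392876858897) (nat_lit 76) (nat_lit 665647145179) (nat_lit 76) (nat_lit 534585553591) (nat_lit 3) (nat_lit 4) (nat_lit 4) (nat_lit 5) (nat_lit 4) (nat_lit 4) (nat_lit 312) (nat_lit 276) (nat_lit 192))))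 (XT.nd (nat_lit 78) (nat_lit 0) (nat_lit 0) (XT.lf (nat_lit 0) (nat_lit 759749554987) (nat_lit 76) (nat_lit 595365290664) (nat_lit 76) (nat_lit 464303562852) (nat_lit 3) (nat_lit 4) (nat_lit 4) (nat_lit 5) (nat_lit 4) (nat_lit 4) (nat_lit 313) (nat_lit 276) (nat_lit 191)) (XT.nd (nat_lit 78) (nat_lit 0) (nat_lit 0) (XT.lf (nat_lit 0) (nat_lit 1181652557111) (nat_lit 76) (nat_lit 514541450358) (nat_lit 76) (nat_lit 383479604091) (nat_lit 3) (nat_lit 4) (nat_lit 4) (nat_lit 5) (nat_lit 4) (nat_lit 4) (nat_lit 314) (nat_lit 276) (nat_lit 190)) (XT.lf (nat_lit 0) (nat_lit 1666840489224) (nat_lit 76) (nat_lit 421594288256) (nat_lit 76) (nat_lit 290532338984) (nat_lit 3) (nat_lit 4) (nat_lit 4) (nat_lit 5) (nat_lit 4) (nat_lit 4) (nat_lit 315) (nat_lit 276) (nat_lit 189))))) (XT.nd (nat_lit 234) (nat_lit 0) (nat_lit 0) (XT.nd (nat_lit 78) (nat_lit 152) (nat_lit 0) (XT.lf (nat_lit 0) (nat_lit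 2224806158693) (nat_lit 76) (nat_lit 314705272925) (nat_lit 76) (nat_lit 183643234083) (nat_lit 3) (nat_lit 4) (nat_lit 4) (nat_lit 5) (nat_lit 4) (nat_lit 4) (nat_lit 316) (nat_lit 276) (nat_lit 188)) (XT.nd (nat_lit 78) (nat_lit 152) (nat_lit 0) (XT.lf (nat_lit 0) (nat_lit 2866466285138) (nat_lit 76) (nat_lit 191783097543) (nat_lit 76) (nat_lit 60720980815) (nat_lit 3) (nat_lit 4) (nat_lit 4) (nat_lit 5) (nat_lit 4) (nat_lit 4) (nat_lit 317) (nat_lit 276) (nat_lit 187)) (XT.lf (nat_lit 0) (nat_lit 29766309743) (nat_lit 76) (nat_lit 47555081698) (nat_lit 152) (nat_lit 3496624617742) (nat_lit 1) (nat_lit 5) (nat_lit 2) (nat_lit 5) (nat_lit 3) (nat_lit 4) (nat_lit 318) (nat_lit 276) (nat_lit 186)))) (XT.nd (nat_lit 156) (nat_lit 0) (nat_lit 0) (XT.nd (nat_lit 78) (nat_lit 0) (nat_lit 0) (XT.lf (nat_lit 0) (nat_lit 242964435161) (nat_lit 152) (nat_lit 3731627712995) (nat_lit 0) (nat_lit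 121610506133) (nat_lit 1) (nat_lit 5) (nat_lit 3) (nat_lit 4) (nat_lit 1) (nat_lit 4) (nat_lit 319) (nat_lit 276) (nat_lit 185)) (XT.lf (nat_lit 0) (nat_lit 434769045616) (nat_lit 152) (nat_lit 3948508472605) (nat_lit 0) (nat_lit 313415069171) (nat_lit 1) (nat_lit 5) (nat_lit 3) (nat_lit 4) (nat_lit 1) (nat_lit 4) (nat_lit 320) (nat_lit 276) (nat_lit 184))) (XT.nd (nat_lit 78) (nat_lit 0) (nat_lit 0) (XT.lf (nat_lit 0) (nat_lit 655344220849) (nat_lit 152) (nat_lit 4197921596623) (nat_lit 0) (nat_lit 533990203171) (nat_lit 1) (nat_lit 5) (nat_lit 3) (nat_lit 4) (nat_lit 1) (nat_lit 4) (nat_lit 321) (nat_lit 276) (nat_lit 183)) (XT.lf (nat_lit 0) (nat_lit 909005562116) (nat_lit 152) (nat_lit 4484746907041) (nat_lit 0) (nat_lit 787651508582) (nat_lit 1) (nat_lit 5) (nat_lit 3) (nat_lit 4) (nat_lit 1) (nat_lit 4) (nat_lit 322) (nat_lit 276) (nat_lit 182))))))))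
noncomputable def xc43 : XT := (XT.nd (nat_lit 38688) (nat_lit 0) (nat_lit 0) (XT.nd (nat_lit 37674) (nat_lit 0) (nat_lit 912) (XT.nd (nat_lit 37128) (nat_lit 0) (nat_lit 2584) (XT.nd (nat_lit 234) (nat_lit 0) (nat_lit 0) (XT.nd (nat_lit 78) (nat_lit 0) (nat_lit 0) (XT.lf (nat_lit 0) (nat_lit 1200716008700) (nat_lit 152) (nat_lit 4814596203409) (nat_lit 0) (nat_lit 1079361923988) (nat_lit 1) (nat_lit 5) (nat_lit 3) (nat_lit 4) (nat_lit 1) (nat_lit 4) (nat_lit 323) (nat_lit 276) (nat_lit 181)) (XT.nd (nat_lit 78) (nat_lit 0) (nat_lit 0) (XT.lf (nat_lit 0) (nat_lit 1536182938906) (nat_lit 152) (nat_lit 5193923058919) (nat_lit 0) (nat_lit 1414828827082) (nat_lit 1) (nat_lit 5) (nat_lit 3) (nat_lit 4) (nat_lit 1) (nat_lit 4) (nat_lit 324) (nat_lit 276) (nat_lit 180)) (XT.lf (nat_lit 0) (nat_lit 1921969836150) (nat_lit 152) (nat_lit 5630149085960) (nat_lit 0) (nat_lit 1800615700751) (nat_lit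 1) (nat_lit 5) (nat_lit 3) (nat_lit 4) (nat_lit 1) (nat_lit 4) (nat_lit 325) (nat_lit 276) (nat_lit 179)))) (XT.nd (nat_lit 78) (nat_lit 0) (nat_lit 0) (XT.lf (nat_lit 0) (nat_lit 2365624704943) (nat_lit 152) (nat_lit 6131809141583) (nat_lit 0) (nat_lit 2244270549044) (nat_lit 1) (nat_lit 5) (nat_lit 3) (nat_lit 4) (nat_lit 1) (nat_lit 4) (nat_lit 326) (nat_lit 276) (nat_lit 178)) (XT.nd (nat_lit 36738) (nat_lit 0) (nat_lit 3648) (XT.lf (nat_lit 0) (nat_lit 2875827749240) (nat_lit 152) (nat_lit 6708718313833) (nat_lit 0) (nat_lit 2754473575515) (nat_lit 1) (nat_lit 5) (nat_lit 3) (nat_lit 4) (nat_lit 1) (nat_lit 4) (nat_lit 327) (nat_lit 276) (nat_lit 177)) (XT.lf (nat_lit 0) (nat_lit 15021218575) (nat_lit 532) (nat_lit 3472407651) (nat_lit 532) (nat_lit 3472407651) (nat_lit 49) (nat_lit 3) (nat_lit 56) (nat_lit 3) (nat_lit 56) (nat_lit 5) (nat_lit 277) (nat_lit 277) (nat_lit 226)))))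 (XT.nd (nat_lit 234) (nat_lit 1064) (nat_lit 0) (XT.nd (nat_lit 78) (nat_lit 0) (nat_lit 76) (XT.lf (nat_lit 76) (nat_lit 32939904113) (nat_lit 0) (nat_lit 204116788) (nat_lit 532) (nat_lit 14014939854) (nat_lit 50) (nat_lit 5) (nat_lit 49) (nat_lit 3) (nat_lit 56) (nat_lit 5) (nat_lit 278) (nat_lit 277) (nat_lit 225)) (XT.nd (nat_lit 78) (nat_lit 0) (nat_lit 76) (XT.lf (nat_lit 76) (nat_lit 28790053743) (nat_lit 0) (nat_lit 9823017978) (nat_lit 532) (nat_lit 12104662548) (nat_lit 51) (nat_lit 5) (nat_lit 50) (nat_lit 5) (nat_lit 57) (nat_lit 5) (nat_lit 279) (nat_lit 277) (nat_lit 224)) (XT.lf (nat_lit 76) (nat_lit 24747475057) (nat_lit 0) (nat_lit 21973349996) (nat_lit 532) (nat_lit 7944052843) (nat_lit 52) (nat_lit 5) (nat_lit 51) (nat_lit 5) (nat_lit 58) (nat_lit 5) (nat_lit 280) (nat_lit 277) (nat_lit 223)))) (XT.nd (nat_lit 156) (nat_lit 456) (nat_lit 0) (XT.nd (nat_lit 78) (nat_lit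 380) (nat_lit 0) (XT.lf (nat_lit 0) (nat_lit 20827286970) (nat_lit 456) (nat_lit 37155336500) (nat_lit 532) (nat_lit 1066457883) (nat_lit 46) (nat_lit 5) (nat_lit 52) (nat_lit 5) (nat_lit 53) (nat_lit 5) (nat_lit 281) (nat_lit 277) (nat_lit 222)) (XT.lf (nat_lit 0) (nat_lit 8611468868) (nat_lit 380) (nat_lit 47108711018) (nat_lit 76) (nat_lit 8188705428) (nat_lit 41) (nat_lit 5) (nat_lit 46) (nat_lit 5) (nat_lit 42) (nat_lit 5) (nat_lit 282) (nat_lit 277) (nat_lit 221))) (XT.nd (nat_lit 78) (nat_lit 228) (nat_lit 0) (XT.lf (nat_lit 0) (nat_lit 12514682675) (nat_lit 228) (nat_lit 9629017644) (nat_lit 304) (nat_lit 47154495781) (nat_lit 38) (nat_lit 5) (nat_lit 41) (nat_lit 5) (nat_lit 42) (nat_lit 5) (nat_lit 283) (nat_lit 277) (nat_lit 220)) (XT.lf (nat_lit 0) (nat_lit 7855717763) (nat_lit 228) (nat_lit 32483650073) (nat_lit 304) (nat_lit 34945859035) (nat_lit 35) (nat_lit 5) (nat_lit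 38) (nat_lit 5) (nat_lit 39) (nat_lit 5) (nat_lit 284) (nat_lit 277) (nat_lit 219)))))) (XT.nd (nat_lit 468) (nat_lit 760) (nat_lit 0) (XT.nd (nat_lit 234) (nat_lit 456) (nat_lit 0) (XT.nd (nat_lit 78) (nat_lit 304) (nat_lit 0) (XT.lf (nat_lit 0) (nat_lit 2939194525) (nat_lit 152) (nat_lit 60836786752) (nat_lit 228) (nat_lit 18193413296) (nat_lit 33) (nat_lit 5) (nat_lit 35) (nat_lit 5) (nat_lit 36) (nat_lit 5) (nat_lit 285) (nat_lit 277) (nat_lit 218)) (XT.nd (nat_lit 78) (nat_lit 228) (nat_lit 0) (XT.lf (nat_lit 0) (nat_lit 3926127485) (nat_lit 228) (nat_lit 2533944156) (nat_lit 76) (nat_lit 82961433575) (nat_lit 32) (nat_lit 5) (nat_lit 35) (nat_lit 5) (nat_lit 33) (nat_lit 5) (nat_lit 286) (nat_lit 277) (nat_lit 217)) (XT.lf (nat_lit 0) (nat_lit 31880418508) (nat_lit 304) (nat_lit 9796564593) (nat_lit 76) (nat_lit 55989126067) (nat_lit 29) (nat_lit 5) (nat_lit 33) (nat_lit 5) (nat_lit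 30) (nat_lit 5) (nat_lit 287) (nat_lit 277) (nat_lit 216)))) (XT.nd (nat_lit 78) (nat_lit 304) (nat_lit 0) (XT.lf (nat_lit 0) (nat_lit 66967637253) (nat_lit 228) (nat_lit 18383949399) (nat_lit 76) (nat_lit 21560640412) (nat_lit 27) (nat_lit 5) (nat_lit 30) (nat_lit 5) (nat_lit 28) (nat_lit 5) (nat_lit 288) (nat_lit 277) (nat_lit 215)) (XT.nd (nat_lit 78) (nat_lit 152) (nat_lit 0) (XT.lf (nat_lit 0) (nat_lit 87904956109) (nat_lit 152) (nat_lit 22969042434) (nat_lit 228) (nat_lit 6386784605) (nat_lit 25) (nat_lit 5) (nat_lit 27) (nat_lit 5) (nat_lit 28) (nat_lit 5) (nat_lit 289) (nat_lit 277) (nat_lit 214)) (XT.lf (nat_lit 0) (nat_lit 34459668133) (nat_lit 152) (nat_lit 44530344651) (nat_lit 76) (nat_lit 49800373359) (nat_lit 23) (nat_lit 5) (nat_lit 25) (nat_lit 5) (nat_lit 24) (nat_lit 5) (nat_lit 290) (nat_lit 277) (nat_lit 213))))) (XT.nd (nat_lit 234) (nat_lit 304) (nat_lit 0) (XT.nd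 (nat_lit 78) (nat_lit 304) (nat_lit 0) (XT.lf (nat_lit 0) (nat_lit 77766512618) (nat_lit 152) (nat_lit 6678724598) (nat_lit 228) (nat_lit 57319699440) (nat_lit 21) (nat_lit 5) (nat_lit 23) (nat_lit 5) (nat_lit 24) (nat_lit 5) (nat_lit 291) (nat_lit 277) (nat_lit 212)) (XT.nd (nat_lit 78) (nat_lit 228) (nat_lit 0) (XT.lf (nat_lit 0) (nat_lit 65944055248) (nat_lit 76) (nat_lit 80737382405) (nat_lit 152) (nat_lit 9624011632) (nat_lit 20) (nat_lit 5) (nat_lit 21) (nat_lit 5) (nat_lit 22) (nat_lit 4) (nat_lit 292) (nat_lit 277) (nat_lit 211)) (XT.lf (nat_lit 0) (nat_lit 46227543996) (nat_lit 228) (nat_lit 125287830301) (nat_lit 76) (nat_lit 1163539827) (nat_lit 17) (nat_lit 5) (nat_lit 20) (nat_lit 5) (nat_lit 18) (nat_lit 4) (nat_lit 293) (nat_lit 277) (nat_lit 210)))) (XT.nd (nat_lit 156) (nat_lit 228) (nat_lit 0) (XT.nd (nat_lit 78) (nat_lit 0) (nat_lit 0) (XT.lf (nat_lit 0) (nat_lit 18325874390)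 (nat_lit 76) (nat_lit 96947910825) (nat_lit 152) (nat_lit 75783673690) (nat_lit 16) (nat_lit 5) (nat_lit 17) (nat_lit 5) (nat_lit 18) (nat_lit 4) (nat_lit 294) (nat_lit 277) (nat_lit 209)) (XT.lf (nat_lit 0) (nat_lit 191065148545) (nat_lit 76) (nat_lit 7257400182) (nat_lit 152) (nat_lit 13578591745) (nat_lit 16) (nat_lit 5) (nat_lit 17) (nat_lit 5) (nat_lit 18) (nat_lit 4) (nat_lit 295) (nat_lit 277) (nat_lit 208))) (XT.nd (nat_lit 78) (nat_lit 76) (nat_lit 0) (XT.lf (nat_lit 0) (nat_lit 61358088097) (nat_lit 152) (nat_lit 77419274727) (nat_lit 76) (nat_lit 96478495793) (nat_lit 14) (nat_lit 5) (nat_lit 16) (nat_lit 5) (nat_lit 15) (nat_lit 4) (nat_lit 296) (nat_lit 277) (nat_lit 207)) (XT.lf (nat_lit 0) (nat_lit 107277999919) (nat_lit 76) (nat_lit 42877579861) (nat_lit 152) (nat_lit 111656045699) (nat_lit 13) (nat_lit 5) (nat_lit 14) (nat_lit 5) (nat_lit 15) (nat_lit 4) (nat_lit 297)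 (nat_lit 277) (nat_lit 206))))))) (XT.nd (nat_lit 1014) (nat_lit 228) (nat_lit 0) (XT.nd (nat_lit 468) (nat_lit 228) (nat_lit 0) (XT.nd (nat_lit 234) (nat_lit 228) (nat_lit 0) (XT.nd (nat_lit 78) (nat_lit 152) (nat_lit 0) (XT.lf (nat_lit 0) (nat_lit 32122041973) (nat_lit 76) (nat_lit 224855300805) (nat_lit 76) (nat_lit 34997043977) (nat_lit 12) (nat_lit 4) (nat_lit 13) (nat_lit 5) (nat_lit 13) (nat_lit 4) (nat_lit 298) (nat_lit 277) (nat_lit 205)) (XT.nd (nat_lit 78) (nat_lit 76) (nat_lit 0) (XT.lf (nat_lit 0) (nat_lit 56301862774) (nat_lit 152) (nat_lit 72751438092) (nat_lit 76) (nat_lit 197041950925) (nat_lit 11) (nat_lit 5) (nat_lit 13) (nat_lit 5) (nat_lit 12) (nat_lit 4) (nat_lit 299) (nat_lit 277) (nat_lit 204)) (XT.lf (nat_lit 0) (nat_lit 148892548093) (nat_lit 76) (nat_lit 13969364828) (nat_lit 152) (nat_lit 202108531533) (nat_lit 10) (nat_lit 5) (nat_lit 11) (nat_lit 5) (nat_lit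 12) (nat_lit 4) (nat_lit 300) (nat_lit 277) (nat_lit 203)))) (XT.nd (nat_lit 78) (nat_lit 228) (nat_lit 0) (XT.lf (nat_lit 0) (nat_lit 290424864877) (nat_lit 152) (nat_lit 4222924656) (nat_lit 0) (nat_lit 114627615665) (nat_lit 10) (nat_lit 5) (nat_lit 12) (nat_lit 4) (nat_lit 10) (nat_lit 4) (nat_lit 301) (nat_lit 277) (nat_lit 202)) (XT.nd (nat_lit 78) (nat_lit 152) (nat_lit 0) (XT.lf (nat_lit 0) (nat_lit 251608493476) (nat_lit 76) (nat_lit 191950293518) (nat_lit 76) (nat_lit 16152401501) (nat_lit 9) (nat_lit 4) (nat_lit 10) (nat_lit 5) (nat_lit 10) (nat_lit 4) (nat_lit 302) (nat_lit 277) (nat_lit 201)) (XT.lf (nat_lit 0) (nat_lit 27275362310) (nat_lit 76) (nat_lit 70356278693) (nat_lit 152) (nat_lit 419822053301) (nat_lit 7) (nat_lit 5) (nat_lit 8) (nat_lit 5) (nat_lit 9) (nat_lit 4) (nat_lit 303) (nat_lit 277) (nat_lit 200))))) (XT.nd (nat_lit 234) (nat_lit 152) (nat_lit 0) (XT.nd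 (nat_lit 78) (nat_lit 76) (nat_lit 0) (XT.lf (nat_lit 0) (nat_lit 235440165433) (nat_lit 152) (nat_lit 275087413439) (nat_lit 0) (nat_lit 72663371885) (nat_lit 7) (nat_lit 5) (nat_lit 9) (nat_lit 4) (nat_lit 7) (nat_lit 4) (nat_lit 304) (nat_lit 277) (nat_lit 199)) (XT.nd (nat_lit 78) (nat_lit 76) (nat_lit 0) (XT.lf (nat_lit 0) (nat_lit 395865076389) (nat_lit 152) (nat_lit 29680219549) (nat_lit 0) (nat_lit 233087891494) (nat_lit 7) (nat_lit 5) (nat_lit 9) (nat_lit 4) (nat_lit 7) (nat_lit 4) (nat_lit 305) (nat_lit 277) (nat_lit 198)) (XT.lf (nat_lit 0) (nat_lit 265834903474) (nat_lit 76) (nat_lit 320911484282) (nat_lit 76) (nat_lit 158133959085) (nat_lit 6) (nat_lit 4) (nat_lit 7) (nat_lit 5) (nat_lit 7) (nat_lit 4) (nat_lit 306) (nat_lit 277) (nat_lit 197)))) (XT.nd (nat_lit 156) (nat_lit 0) (nat_lit 0) (XT.nd (nat_lit 78) (nat_lit 152) (nat_lit 0) (XT.lf (nat_lit 0) (nat_lit 607473459484)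 (nat_lit 76) (nat_lit 199649931245) (nat_lit 76) (nat_lit 36872110133) (nat_lit 6) (nat_lit 4) (nat_lit 7) (nat_lit 5) (nat_lit 7) (nat_lit 4) (nat_lit 307) (nat_lit 277) (nat_lit 196)) (XT.lf (nat_lit 0) (nat_lit 42013472561) (nat_lit 76) (nat_lit 56444003876) (nat_lit 152) (nat_lit 859242299308) (nat_lit 4) (nat_lit 5) (nat_lit 5) (nat_lit 5) (nat_lit 6) (nat_lit 4) (nat_lit 308) (nat_lit 277) (nat_lit 195))) (XT.nd (nat_lit 78) (nat_lit 0) (nat_lit 0) (XT.lf (nat_lit 0) (nat_lit 261633011196) (nat_lit 152) (nat_lit 715059322422) (nat_lit 0) (nat_lit 110912361027) (nat_lit 4) (nat_lit 5) (nat_lit 6) (nat_lit 4) (nat_lit 4) (nat_lit 4) (nat_lit 309) (nat_lit 277) (nat_lit 194)) (XT.lf (nat_lit 0) (nat_lit 450845534278) (nat_lit 152) (nat_lit 485900260680) (nat_lit 0) (nat_lit 300124703952) (nat_lit 4) (nat_lit 5) (nat_lit 6) (nat_lit 4) (nat_lit 4) (nat_lit 4) (nat_lit 310) (nat_lit 277)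 (nat_lit 193)))))) (XT.nd (nat_lit 546) (nat_lit 152) (nat_lit 0) (XT.nd (nat_lit 234) (nat_lit 0) (nat_lit 0) (XT.nd (nat_lit 78) (nat_lit 76) (nat_lit 0) (XT.lf (nat_lit 0) (nat_lit 668439550177) (nat_lit 152) (nat_lit 222368091446) (nat_lit 0) (nat_lit 517718563194) (nat_lit 4) (nat_lit 5) (nat_lit 6) (nat_lit 4) (nat_lit 4) (nat_lit 4) (nat_lit 311) (nat_lit 277) (nat_lit 192)) (XT.nd (nat_lit 78) (nat_lit 0) (nat_lit 0) (XT.lf (nat_lit 0) (nat_lit 84942412974) (nat_lit 76) (nat_lit 835772787221) (nat_lit 76) (nat_lit 685051664013) (nat_lit 3) (nat_lit 4) (nat_lit 4) (nat_lit 5) (nat_lit 4) (nat_lit 4) (nat_lit 312) (nat_lit 277) (nat_lit 191)) (XT.lf (nat_lit 0) (nat_lit 451814830748) (nat_lit 76) (nat_lit 765491068699) (nat_lit 76) (nat_lit 614769827036) (nat_lit 3) (nat_lit 4) (nat_lit 4) (nat_lit 5) (nat_lit 4) (nat_lit 4) (nat_lit 313) (nat_lit 277) (nat_lit 190)))) (XT.nd (nat_lit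 156) (nat_lit 0) (nat_lit 0) (XT.nd (nat_lit 78) (nat_lit 0) (nat_lit 0) (XT.lf (nat_lit 0) (nat_lit 873717590859) (nat_lit 76) (nat_lit 684667346649) (nat_lit 76) (nat_lit 533946001981) (nat_lit 3) (nat_lit 4) (nat_lit 4) (nat_lit 5) (nat_lit 4) (nat_lit 4) (nat_lit 314) (nat_lit 277) (nat_lit 189)) (XT.lf (nat_lit 0) (nat_lit 1358905312525) (nat_lit 76) (nat_lit 591720287378) (nat_lit 76) (nat_lit 440998853140) (nat_lit 3) (nat_lit 4) (nat_lit 4) (nat_lit 5) (nat_lit 4) (nat_lit 4) (nat_lit 315) (nat_lit 277) (nat_lit 188))) (XT.nd (nat_lit 78) (nat_lit 0) (nat_lit 0) (XT.lf (nat_lit 0) (nat_lit 1916870798996) (nat_lit 76) (nat_lit 484831361465) (nat_lit 76) (nat_lit 334109849341) (nat_lit 3) (nat_lit 4) (nat_lit 4) (nat_lit 5) (nat_lit 4) (nat_lit 4) (nat_lit 316) (nat_lit 277) (nat_lit 187)) (XT.lf (nat_lit 0) (nat_lit 2558530766313) (nat_lit 76) (nat_lit 361909263838) (nat_lit 76)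 (nat_lit 211187683986) (nat_lit 3) (nat_lit 4) (nat_lit 4) (nat_lit 5) (nat_lit 4) (nat_lit 4) (nat_lit 317) (nat_lit 277) (nat_lit 186))))) (XT.nd (nat_lit 234) (nat_lit 0) (nat_lit 0) (XT.nd (nat_lit 78) (nat_lit 152) (nat_lit 0) (XT.lf (nat_lit 0) (nat_lit 3296439431227) (nat_lit 76) (nat_lit 220548996935) (nat_lit 76) (nat_lit 69827358190) (nat_lit 3) (nat_lit 4) (nat_lit 4) (nat_lit 5) (nat_lit 4) (nat_lit 4) (nat_lit 318) (nat_lit 277) (nat_lit 185)) (XT.nd (nat_lit 78) (nat_lit 0) (nat_lit 0) (XT.lf (nat_lit 0) (nat_lit 34234269942) (nat_lit 76) (nat_lit 54686864624) (nat_lit 152) (nat_lit 4021116652741) (nat_lit 1) (nat_lit 5) (nat_lit 2) (nat_lit 5) (nat_lit 3) (nat_lit 4) (nat_lit 319) (nat_lit 277) (nat_lit 184)) (XT.lf (nat_lit 0) (nat_lit 279410465640) (nat_lit 152) (nat_lit 4291369173063) (nat_lit 0) (nat_lit 139853304077) (nat_lit 1) (nat_lit 5) (nat_lit 3) (nat_lit 4) (nat_lit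 1) (nat_lit 4) (nat_lit 320) (nat_lit 277) (nat_lit 183)))) (XT.nd (nat_lit 156) (nat_lit 0) (nat_lit 0) (XT.nd (nat_lit 78) (nat_lit 0) (nat_lit 0) (XT.lf (nat_lit 0) (nat_lit 499985589594) (nat_lit 152) (nat_lit 4540782398382) (nat_lit 0) (nat_lit 360428392175) (nat_lit 1) (nat_lit 5) (nat_lit 3) (nat_lit 4) (nat_lit 1) (nat_lit 4) (nat_lit 321) (nat_lit 277) (nat_lit 182)) (XT.lf (nat_lit 0) (nat_lit 753646886268) (nat_lit 152) (nat_lit 4827607796887) (nat_lit 0) (nat_lit 614089657672) (nat_lit 1) (nat_lit 5) (nat_lit 3) (nat_lit 4) (nat_lit 1) (nat_lit 4) (nat_lit 322) (nat_lit 277) (nat_lit 181))) (XT.nd (nat_lit 78) (nat_lit 0) (nat_lit 0) (XT.lf (nat_lit 0) (nat_lit 1045357294078) (nat_lit 152) (nat_lit 5157457169854) (nat_lit 0) (nat_lit 905800038369) (nat_lit 1) (nat_lit 5) (nat_lit 3) (nat_lit 4) (nat_lit 1) (nat_lit 4) (nat_lit 323) (nat_lit 277) (nat_lit 180)) (XT.lf (nat_lit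 0) (nat_lit 1380824190566) (nat_lit 152) (nat_lit 5536784091970) (nat_lit 0) (nat_lit 1241266911282) (nat_lit 1) (nat_lit 5) (nat_lit 3) (nat_lit 4) (nat_lit 1) (nat_lit 4) (nat_lit 324) (nat_lit 277) (nat_lit 179))))))))
noncomputable def xc44 : XT := (XT.nd (nat_lit 38766) (nat_lit 0) (nat_lit 0) (XT.nd (nat_lit 37752) (nat_lit 0) (nat_lit 760) (XT.nd (nat_lit 37206) (nat_lit 0) (nat_lit 2356) (XT.nd (nat_lit 36972) (nat_lit 0) (nat_lit 3648) (XT.nd (nat_lit 78) (nat_lit 0) (nat_lit 0) (XT.lf (nat_lit 0) (nat_lit 1766611058490) (nat_lit 152) (nat_lit 5973010176930) (nat_lit 0) (nat_lit 1627053758706) (nat_lit 1) (nat_lit 5) (nat_lit 3) (nat_lit 4) (nat_lit 1) (nat_lit 4) (nat_lit 325) (nat_lit 277) (nat_lit 178)) (XT.nd (nat_lit 78) (nat_lit 0) (nat_lit 0) (XT.lf (nat_lit 0) (nat_lit 2210265901788) (nat_lit 152) (nat_lit 6474670282918) (nat_lit 0) (nat_lit 2070708584178) (nat_lit 1)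 (nat_lit 5) (nat_lit 3) (nat_lit 4) (nat_lit 1) (nat_lit 4) (nat_lit 326) (nat_lit 277) (nat_lit 177)) (XT.lf (nat_lit 0) (nat_lit 2720468923916) (nat_lit 152) (nat_lit 7051579498963) (nat_lit 0) (nat_lit 2580911590805) (nat_lit 1) (nat_lit 5) (nat_lit 3) (nat_lit 4) (nat_lit 1) (nat_lit 4) (nat_lit 327) (nat_lit 277) (nat_lit 176)))) (XT.nd (nat_lit 78) (nat_lit 0) (nat_lit 0) (XT.lf (nat_lit 0) (nat_lit 17328269904) (nat_lit 532) (nat_lit 3964112681) (nat_lit 532) (nat_lit 3964112681) (nat_lit 49) (nat_lit 3) (nat_lit 56) (nat_lit 3) (nat_lit 56) (nat_lit 5) (nat_lit 278) (nat_lit 278) (nat_lit 224)) (XT.nd (nat_lit 78) (nat_lit 0) (nat_lit 76) (XT.lf (nat_lit 76) (nat_lit 37934266126) (nat_lit 0) (nat_lit 276326036) (nat_lit 532) (nat_lit 16014381846) (nat_lit 50) (nat_lit 5) (nat_lit 49) (nat_lit 3) (nat_lit 56) (nat_lit 5) (nat_lit 279) (nat_lit 278) (nat_lit 223)) (XT.lf (nat_lit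 76) (nat_lit 33165503784) (nat_lit 0) (nat_lit 11322609320) (nat_lit 532) (nat_lit 13830431891) (nat_lit 51) (nat_lit 5) (nat_lit 50) (nat_lit 5) (nat_lit 57) (nat_lit 5) (nat_lit 280) (nat_lit 278) (nat_lit 222))))) (XT.nd (nat_lit 234) (nat_lit 684) (nat_lit 0) (XT.nd (nat_lit 78) (nat_lit 760) (nat_lit 0) (XT.lf (nat_lit 76) (nat_lit 28518563511) (nat_lit 0) (nat_lit 25283500846) (nat_lit 532) (nat_lit 9056519491) (nat_lit 52) (nat_lit 5) (nat_lit 51) (nat_lit 5) (nat_lit 58) (nat_lit 5) (nat_lit 281) (nat_lit 278) (nat_lit 221)) (XT.nd (nat_lit 78) (nat_lit 380) (nat_lit 0) (XT.lf (nat_lit 0) (nat_lit 24011183083) (nat_lit 456) (nat_lit 42733555021) (nat_lit 532) (nat_lit 1156374292) (nat_lit 46) (nat_lit 5) (nat_lit 52) (nat_lit 5) (nat_lit 53) (nat_lit 5) (nat_lit 282) (nat_lit 278) (nat_lit 220)) (XT.lf (nat_lit 0) (nat_lit 9962425281) (nat_lit 380) (nat_lit 54112045630) (nat_lit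 76) (nat_lit 9415884748) (nat_lit 41) (nat_lit 5) (nat_lit 46) (nat_lit 5) (nat_lit 42) (nat_lit 5) (nat_lit 283) (nat_lit 278) (nat_lit 219)))) (XT.nd (nat_lit 156) (nat_lit 228) (nat_lit 0) (XT.nd (nat_lit 78) (nat_lit 228) (nat_lit 0) (XT.lf (nat_lit 0) (nat_lit 14449526848) (nat_lit 228) (nat_lit 11068624442) (nat_lit 304) (nat_lit 54170435102) (nat_lit 38) (nat_lit 5) (nat_lit 41) (nat_lit 5) (nat_lit 42) (nat_lit 5) (nat_lit 284) (nat_lit 278) (nat_lit 218)) (XT.lf (nat_lit 0) (nat_lit 9090705472) (nat_lit 228) (nat_lit 37347025199) (nat_lit 304) (nat_lit 40136390185) (nat_lit 35) (nat_lit 5) (nat_lit 38) (nat_lit 5) (nat_lit 39) (nat_lit 5) (nat_lit 285) (nat_lit 278) (nat_lit 217))) (XT.nd (nat_lit 78) (nat_lit 76) (nat_lit 0) (XT.lf (nat_lit 0) (nat_lit 3435269148) (nat_lit 152) (nat_lit 69949896125) (nat_lit 228) (nat_lit 20876134295) (nat_lit 33) (nat_lit 5) (nat_lit 35) (nat_lit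 5) (nat_lit 36) (nat_lit 5) (nat_lit 286) (nat_lit 278) (nat_lit 216)) (XT.lf (nat_lit 0) (nat_lit 4553286027) (nat_lit 228) (nat_lit 2863960705) (nat_lit 76) (nat_lit 95414359696) (nat_lit 32) (nat_lit 5) (nat_lit 35) (nat_lit 5) (nat_lit 33) (nat_lit 5) (nat_lit 287) (nat_lit 278) (nat_lit 215)))))) (XT.nd (nat_lit 468) (nat_lit 684) (nat_lit 0) (XT.nd (nat_lit 234) (nat_lit 380) (nat_lit 0) (XT.nd (nat_lit 78) (nat_lit 304) (nat_lit 0) (XT.lf (nat_lit 0) (nat_lit 36697111475) (nat_lit 304) (nat_lit 11217683759) (nat_lit 76) (nat_lit 64398403011) (nat_lit 29) (nat_lit 5) (nat_lit 33) (nat_lit 5) (nat_lit 30) (nat_lit 5) (nat_lit 288) (nat_lit 278) (nat_lit 214)) (XT.nd (nat_lit 78) (nat_lit 152) (nat_lit 0) (XT.lf (nat_lit 0) (nat_lit 77044275687) (nat_lit 228) (nat_lit 21095041390) (nat_lit 76) (nat_lit 24807175155) (nat_lit 27) (nat_lit 5) (nat_lit 30) (nat_lit 5) (nat_lit 28) (nat_lit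 5) (nat_lit 289) (nat_lit 278) (nat_lit 213)) (XT.lf (nat_lit 0) (nat_lit 101133263915) (nat_lit 152) (nat_lit 26400243167) (nat_lit 228) (nat_lit 7314077825) (nat_lit 25) (nat_lit 5) (nat_lit 27) (nat_lit 5) (nat_lit 28) (nat_lit 5) (nat_lit 290) (nat_lit 278) (nat_lit 212)))) (XT.nd (nat_lit 78) (nat_lit 228) (nat_lit 0) (XT.lf (nat_lit 0) (nat_lit 39655308499) (nat_lit 152) (nat_lit 51167686662) (nat_lit 76) (nat_lit 57283779060) (nat_lit 23) (nat_lit 5) (nat_lit 25) (nat_lit 5) (nat_lit 24) (nat_lit 5) (nat_lit 291) (nat_lit 278) (nat_lit 211)) (XT.nd (nat_lit 78) (nat_lit 76) (nat_lit 0) (XT.lf (nat_lit 0) (nat_lit 89470126358) (nat_lit 152) (nat_lit 7666034481) (nat_lit 228) (nat_lit 65891555159) (nat_lit 21) (nat_lit 5) (nat_lit 23) (nat_lit 5) (nat_lit 24) (nat_lit 5) (nat_lit 292) (nat_lit 278) (nat_lit 210)) (XT.lf (nat_lit 0) (nat_lit 75872505939) (nat_lit 76) (nat_lit 92833326237)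 (nat_lit 152) (nat_lit 11043634004) (nat_lit 20) (nat_lit 5) (nat_lit 21) (nat_lit 5) (nat_lit 22) (nat_lit 4) (nat_lit 293) (nat_lit 278) (nat_lit 209))))) (XT.nd (nat_lit 234) (nat_lit 380) (nat_lit 0) (XT.nd (nat_lit 78) (nat_lit 76) (nat_lit 0) (XT.lf (nat_lit 0) (nat_lit 53182663593) (nat_lit 228) (nat_lit 144044829407) (nat_lit 76) (nat_lit 1351558120) (nat_lit 17) (nat_lit 5) (nat_lit 20) (nat_lit 5) (nat_lit 18) (nat_lit 4) (nat_lit 294) (nat_lit 278) (nat_lit 208)) (XT.nd (nat_lit 78) (nat_lit 0) (nat_lit 0) (XT.lf (nat_lit 0) (nat_lit 21107868917) (nat_lit 76) (nat_lit 111476030889) (nat_lit 152) (nat_lit 87130635856) (nat_lit 16) (nat_lit 5) (nat_lit 17) (nat_lit 5) (nat_lit 18) (nat_lit 4) (nat_lit 295) (nat_lit 278) (nat_lit 207)) (XT.lf (nat_lit 0) (nat_lit 219753715061) (nat_lit 76) (nat_lit 8333778419) (nat_lit 152) (nat_lit 15597477126) (nat_lit 16) (nat_lit 5) (nat_lit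 17) (nat_lit 5) (nat_lit 18) (nat_lit 4) (nat_lit 296) (nat_lit 278) (nat_lit 206)))) (XT.nd (nat_lit 156) (nat_lit 152) (nat_lit 0) (XT.nd (nat_lit 78) (nat_lit 76) (nat_lit 0) (XT.lf (nat_lit 0) (nat_lit 70577527128) (nat_lit 152) (nat_lit 89004009902) (nat_lit 76) (nat_lit 110961429479) (nat_lit 14) (nat_lit 5) (nat_lit 16) (nat_lit 5) (nat_lit 15) (nat_lit 4) (nat_lit 297) (nat_lit 278) (nat_lit 205)) (XT.lf (nat_lit 0) (nat_lit 123395472673) (nat_lit 76) (nat_lit 49297738531) (nat_lit 152) (nat_lit 128389003378) (nat_lit 13) (nat_lit 5) (nat_lit 14) (nat_lit 5) (nat_lit 15) (nat_lit 4) (nat_lit 298) (nat_lit 278) (nat_lit 204))) (XT.nd (nat_lit 78) (nat_lit 76) (nat_lit 0) (XT.lf (nat_lit 0) (nat_lit 36964743790) (nat_lit 76) (nat_lit 258572457128) (nat_lit 76) (nat_lit 40232273607) (nat_lit 12) (nat_lit 4) (nat_lit 13) (nat_lit 5) (nat_lit 13) (nat_lit 4) (nat_lit 299) (nat_lit 278)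 (nat_lit 203)) (XT.lf (nat_lit 0) (nat_lit 64758977211) (nat_lit 152) (nat_lit 83642309284) (nat_lit 76) (nat_lit 226607298449) (nat_lit 11) (nat_lit 5) (nat_lit 13) (nat_lit 5) (nat_lit 12) (nat_lit 4) (nat_lit 300) (nat_lit 278) (nat_lit 202))))))) (XT.nd (nat_lit 1014) (nat_lit 152) (nat_lit 0) (XT.nd (nat_lit 468) (nat_lit 304) (nat_lit 0) (XT.nd (nat_lit 234) (nat_lit 152) (nat_lit 0) (XT.nd (nat_lit 78) (nat_lit 76) (nat_lit 0) (XT.lf (nat_lit 0) (nat_lit 171246425799) (nat_lit 76) (nat_lit 16055546274) (nat_lit 152) (nat_lit 232413170476) (nat_lit 10) (nat_lit 5) (nat_lit 11) (nat_lit 5) (nat_lit 12) (nat_lit 4) (nat_lit 301) (nat_lit 278) (nat_lit 201)) (XT.nd (nat_lit 78) (nat_lit 76) (nat_lit 0) (XT.lf (nat_lit 0) (nat_lit 333998154638) (nat_lit 152) (nat_lit 4838413576) (nat_lit 0) (nat_lit 131829377052) (nat_lit 10) (nat_lit 5) (nat_lit 12) (nat_lit 4) (nat_lit 10) (nat_lit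 4) (nat_lit 302) (nat_lit 278) (nat_lit 200)) (XT.lf (nat_lit 0) (nat_lit 289366197917) (nat_lit 76) (nat_lit 220735115349) (nat_lit 76) (nat_lit 18565851709) (nat_lit 9) (nat_lit 4) (nat_lit 10) (nat_lit 5) (nat_lit 10) (nat_lit 4) (nat_lit 303) (nat_lit 278) (nat_lit 199)))) (XT.nd (nat_lit 78) (nat_lit 0) (nat_lit 0) (XT.lf (nat_lit 0) (nat_lit 31382141560) (nat_lit 76) (nat_lit 80902391062) (nat_lit 152) (nat_lit 482786560054) (nat_lit 7) (nat_lit 5) (nat_lit 8) (nat_lit 5) (nat_lit 9) (nat_lit 4) (nat_lit 304) (nat_lit 278) (nat_lit 198)) (XT.nd (nat_lit 78) (nat_lit 0) (nat_lit 0) (XT.lf (nat_lit 0) (nat_lit 270763426544) (nat_lit 152) (nat_lit 316336652059) (nat_lit 0) (nat_lit 83568932266) (nat_lit 7) (nat_lit 5) (nat_lit 9) (nat_lit 4) (nat_lit 7) (nat_lit 4) (nat_lit 305) (nat_lit 278) (nat_lit 197)) (XT.lf (nat_lit 0) (nat_lit 455251130279) (nat_lit 152) (nat_lit 34120188659)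 (nat_lit 0) (nat_lit 268056340086) (nat_lit 7) (nat_lit 5) (nat_lit 9) (nat_lit 4) (nat_lit 7) (nat_lit 4) (nat_lit 306) (nat_lit 278) (nat_lit 196))))) (XT.nd (nat_lit 234) (nat_lit 76) (nat_lit 0) (XT.nd (nat_lit 78) (nat_lit 152) (nat_lit 0) (XT.lf (nat_lit 0) (nat_lit 305721181675) (nat_lit 76) (nat_lit 369042901502) (nat_lit 76) (nat_lit 181847853991) (nat_lit 6) (nat_lit 4) (nat_lit 7) (nat_lit 5) (nat_lit 7) (nat_lit 4) (nat_lit 307) (nat_lit 278) (nat_lit 195)) (XT.nd (nat_lit 78) (nat_lit 152) (nat_lit 0) (XT.lf (nat_lit 0) (nat_lit 698604080737) (nat_lit 76) (nat_lit 229592807520) (nat_lit 76) (nat_lit 42397536255) (nat_lit 6) (nat_lit 4) (nat_lit 7) (nat_lit 5) (nat_lit 7) (nat_lit 4) (nat_lit 308) (nat_lit 278) (nat_lit 194)) (XT.lf (nat_lit 0) (nat_lit 48324531816) (nat_lit 76) (nat_lit 64906236284) (nat_lit 152) (nat_lit 988123598486) (nat_lit 4) (nat_lit 5) (nat_lit 5) (nat_lit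 5) (nat_lit 6) (nat_lit 4) (nat_lit 309) (nat_lit 278) (nat_lit 193)))) (XT.nd (nat_lit 156) (nat_lit 76) (nat_lit 0) (XT.nd (nat_lit 78) (nat_lit 0) (nat_lit 0) (XT.lf (nat_lit 0) (nat_lit 300882115269) (nat_lit 152) (nat_lit 822310126145) (nat_lit 0) (nat_lit 127552823580) (nat_lit 4) (nat_lit 5) (nat_lit 6) (nat_lit 4) (nat_lit 4) (nat_lit 4) (nat_lit 310) (nat_lit 278) (nat_lit 192)) (XT.lf (nat_lit 0) (nat_lit 518475975196) (nat_lit 152) (nat_lit 558778260964) (nat_lit 0) (nat_lit 345146547283) (nat_lit 4) (nat_lit 5) (nat_lit 6) (nat_lit 4) (nat_lit 4) (nat_lit 4) (nat_lit 311) (nat_lit 278) (nat_lit 191))) (XT.nd (nat_lit 78) (nat_lit 76) (nat_lit 0) (XT.lf (nat_lit 0) (nat_lit 768708622510) (nat_lit 152) (nat_lit 255717184452) (nat_lit 0) (nat_lit 595379076141) (nat_lit 4) (nat_lit 5) (nat_lit 6) (nat_lit 4) (nat_lit 4) (nat_lit 4) (nat_lit 312) (nat_lit 278) (nat_lit 190)) (XT.lf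 (nat_lit 0) (nat_lit 97689377543) (nat_lit 76) (nat_lit 961135967689) (nat_lit 76) (nat_lit 787806318316) (nat_lit 3) (nat_lit 4) (nat_lit 4) (nat_lit 5) (nat_lit 4) (nat_lit 4) (nat_lit 313) (nat_lit 278) (nat_lit 189)))))) (XT.nd (nat_lit 468) (nat_lit 152) (nat_lit 0) (XT.nd (nat_lit 234) (nat_lit 0) (nat_lit 0) (XT.nd (nat_lit 78) (nat_lit 0) (nat_lit 0) (XT.lf (nat_lit 0) (nat_lit 519591927207) (nat_lit 76) (nat_lit 880312348470) (nat_lit 76) (nat_lit 706982609527) (nat_lit 3) (nat_lit 4) (nat_lit 4) (nat_lit 5) (nat_lit 4) (nat_lit 4) (nat_lit 314) (nat_lit 278) (nat_lit 188)) (XT.nd (nat_lit 78) (nat_lit 0) (nat_lit 0) (XT.lf (nat_lit 0) (nat_lit 1004779465876) (nat_lit 76) (nat_lit 787365378617) (nat_lit 76) (nat_lit 614035561788) (nat_lit 3) (nat_lit 4) (nat_lit 4) (nat_lit 5) (nat_lit 4) (nat_lit 4) (nat_lit 315) (nat_lit 278) (nat_lit 187)) (XT.lf (nat_lit 0) (nat_lit 1562744793219)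 (nat_lit 76) (nat_lit 680476530459) (nat_lit 76) (nat_lit 507146645902) (nat_lit 3) (nat_lit 4) (nat_lit 4) (nat_lit 5) (nat_lit 4) (nat_lit 4) (nat_lit 316) (nat_lit 278) (nat_lit 186)))) (XT.nd (nat_lit 78) (nat_lit 0) (nat_lit 0) (XT.lf (nat_lit 0) (nat_lit 2204404622164) (nat_lit 76) (nat_lit 557554500445) (nat_lit 76) (nat_lit 384224556995) (nat_lit 3) (nat_lit 4) (nat_lit 4) (nat_lit 5) (nat_lit 4) (nat_lit 4) (nat_lit 317) (nat_lit 278) (nat_lit 185)) (XT.nd (nat_lit 78) (nat_lit 0) (nat_lit 0) (XT.lf (nat_lit 0) (nat_lit 2942313166754) (nat_lit 76) (nat_lit 416194292336) (nat_lit 76) (nat_lit 242864297674) (nat_lit 3) (nat_lit 4) (nat_lit 4) (nat_lit 5) (nat_lit 4) (nat_lit 4) (nat_lit 318) (nat_lit 278) (nat_lit 184)) (XT.lf (nat_lit 0) (nat_lit 3790907768080) (nat_lit 76) (nat_lit 253630162929) (nat_lit 76) (nat_lit 80300123735) (nat_lit 3) (nat_lit 4) (nat_lit 4) (nat_lit 5)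 (nat_lit 4) (nat_lit 4) (nat_lit 319) (nat_lit 278) (nat_lit 183))))) (XT.nd (nat_lit 234) (nat_lit 0) (nat_lit 0) (XT.nd (nat_lit 78) (nat_lit 0) (nat_lit 0) (XT.lf (nat_lit 0) (nat_lit 39371689252) (nat_lit 76) (nat_lit 62888775733) (nat_lit 152) (nat_lit 4624282897222) (nat_lit 1) (nat_lit 5) (nat_lit 2) (nat_lit 5) (nat_lit 3) (nat_lit 4) (nat_lit 320) (nat_lit 278) (nat_lit 182)) (XT.nd (nat_lit 78) (nat_lit 0) (nat_lit 0) (XT.lf (nat_lit 0) (nat_lit 321323067778) (nat_lit 152) (nat_lit 4935072509793) (nat_lit 0) (nat_lit 160832223713) (nat_lit 1) (nat_lit 5) (nat_lit 3) (nat_lit 4) (nat_lit 1) (nat_lit 4) (nat_lit 321) (nat_lit 278) (nat_lit 181)) (XT.lf (nat_lit 0) (nat_lit 574984325677) (nat_lit 152) (nat_lit 5221897984896) (nat_lit 0) (nat_lit 414493454501) (nat_lit 1) (nat_lit 5) (nat_lit 3) (nat_lit 4) (nat_lit 1) (nat_lit 4) (nat_lit 322) (nat_lit 278) (nat_lit 180)))) (XT.nd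 (nat_lit 156) (nat_lit 0) (nat_lit 0) (XT.nd (nat_lit 78) (nat_lit 0) (nat_lit 0) (XT.lf (nat_lit 0) (nat_lit 866694699769) (nat_lit 152) (nat_lit 5551747424470) (nat_lit 0) (nat_lit 706203805018) (nat_lit 1) (nat_lit 5) (nat_lit 3) (nat_lit 4) (nat_lit 1) (nat_lit 4) (nat_lit 323) (nat_lit 278) (nat_lit 179)) (XT.lf (nat_lit 0) (nat_lit 1202161566938) (nat_lit 152) (nat_lit 5931074404505) (nat_lit 0) (nat_lit 1041670651686) (nat_lit 1) (nat_lit 5) (nat_lit 3) (nat_lit 4) (nat_lit 1) (nat_lit 4) (nat_lit 324) (nat_lit 278) (nat_lit 178))) (XT.nd (nat_lit 78) (nat_lit 0) (nat_lit 0) (XT.lf (nat_lit 0) (nat_lit 1587948409367) (nat_lit 152) (nat_lit 6367300539830) (nat_lit 0) (nat_lit 1427457476289) (nat_lit 1) (nat_lit 5) (nat_lit 3) (nat_lit 4) (nat_lit 1) (nat_lit 4) (nat_lit 325) (nat_lit 278) (nat_lit 177)) (XT.lf (nat_lit 0) (nat_lit 2031603230495) (nat_lit 152) (nat_lit 6868960689613)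 (nat_lit 0) (nat_lit 1871112281916) (nat_lit 1) (nat_lit 5) (nat_lit 3) (nat_lit 4) (nat_lit 1) (nat_lit 4) (nat_lit 326) (nat_lit 278) (nat_lit 176))))))))
noncomputable def xc45 : XT := (XT.nd (nat_lit 38844) (nat_lit 0) (nat_lit 0) (XT.nd (nat_lit 37830) (nat_lit 0) (nat_lit 684) (XT.nd (nat_lit 37284) (nat_lit 0) (nat_lit 1976) (XT.nd (nat_lit 37050) (nat_lit 0) (nat_lit 3420) (XT.nd (nat_lit 36894) (nat_lit 0) (nat_lit 3648) (XT.lf (nat_lit 0) (nat_lit 2541806233344) (nat_lit 152) (nat_lit 7445869943741) (nat_lit 0) (nat_lit 2381315271286) (nat_lit 1) (nat_lit 5) (nat_lit 3) (nat_lit 4) (nat_lit 1) (nat_lit 4) (nat_lit 327) (nat_lit 278) (nat_lit 175)) (XT.nd (nat_lit 78) (nat_lit 0) (nat_lit 0) (XT.lf (nat_lit 0) (nat_lit 19968242748) (nat_lit 532) (nat_lit 4536683369) (nat_lit 532) (nat_lit 4536683369) (nat_lit 49) (nat_lit 3) (nat_lit 56) (nat_lit 3) (nat_lit 56) (nat_lit 5) (nat_lit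 279) (nat_lit 279) (nat_lit 222)) (XT.lf (nat_lit 76) (nat_lit 43664766269) (nat_lit 0) (nat_lit 349224264) (nat_lit 532) (nat_lit 18338808322) (nat_lit 50) (nat_lit 5) (nat_lit 49) (nat_lit 3) (nat_lit 56) (nat_lit 5) (nat_lit 280) (nat_lit 279) (nat_lit 221)))) (XT.nd (nat_lit 78) (nat_lit 304) (nat_lit 0) (XT.lf (nat_lit 76) (nat_lit 38183385669) (nat_lit 0) (nat_lit 13040765289) (nat_lit 532) (nat_lit 15836996645) (nat_lit 51) (nat_lit 5) (nat_lit 50) (nat_lit 5) (nat_lit 57) (nat_lit 5) (nat_lit 281) (nat_lit 279) (nat_lit 220)) (XT.nd (nat_lit 78) (nat_lit 380) (nat_lit 0) (XT.lf (nat_lit 76) (nat_lit 32840935708) (nat_lit 0) (nat_lit 29086724158) (nat_lit 532) (nat_lit 10355155237) (nat_lit 52) (nat_lit 5) (nat_lit 51) (nat_lit 5) (nat_lit 58) (nat_lit 5) (nat_lit 282) (nat_lit 279) (nat_lit 219)) (XT.lf (nat_lit 0) (nat_lit 27658080257) (nat_lit 456) (nat_lit 49147307024) (nat_lit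 532) (nat_lit 1276860852) (nat_lit 46) (nat_lit 5) (nat_lit 52) (nat_lit 5) (nat_lit 53) (nat_lit 5) (nat_lit 283) (nat_lit 279) (nat_lit 218))))) (XT.nd (nat_lit 234) (nat_lit 608) (nat_lit 0) (XT.nd (nat_lit 78) (nat_lit 456) (nat_lit 0) (XT.lf (nat_lit 0) (nat_lit 11501580061) (nat_lit 380) (nat_lit 62181236564) (nat_lit 76) (nat_lit 10827415668) (nat_lit 41) (nat_lit 5) (nat_lit 46) (nat_lit 5) (nat_lit 42) (nat_lit 5) (nat_lit 284) (nat_lit 279) (nat_lit 217)) (XT.nd (nat_lit 78) (nat_lit 228) (nat_lit 0) (XT.lf (nat_lit 0) (nat_lit 16660541335) (nat_lit 228) (nat_lit 12725329565) (nat_lit 304) (nat_lit 62252722450) (nat_lit 38) (nat_lit 5) (nat_lit 41) (nat_lit 5) (nat_lit 42) (nat_lit 5) (nat_lit 285) (nat_lit 279) (nat_lit 216)) (XT.lf (nat_lit 0) (nat_lit 10497131742) (nat_lit 228) (nat_lit 42942143337) (nat_lit 304) (nat_lit 46118022470) (nat_lit 35) (nat_lit 5) (nat_lit 38)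 (nat_lit 5) (nat_lit 39) (nat_lit 5) (nat_lit 286) (nat_lit 279) (nat_lit 215)))) (XT.nd (nat_lit 156) (nat_lit 380) (nat_lit 0) (XT.nd (nat_lit 78) (nat_lit 76) (nat_lit 0) (XT.lf (nat_lit 0) (nat_lit 3992295205) (nat_lit 152) (nat_lit 80432997830) (nat_lit 228) (nat_lit 23972551797) (nat_lit 33) (nat_lit 5) (nat_lit 35) (nat_lit 5) (nat_lit 36) (nat_lit 5) (nat_lit 287) (nat_lit 279) (nat_lit 214)) (XT.lf (nat_lit 0) (nat_lit 5265193426) (nat_lit 228) (nat_lit 3255690860) (nat_lit 76) (nat_lit 109733100482) (nat_lit 32) (nat_lit 5) (nat_lit 35) (nat_lit 5) (nat_lit 33) (nat_lit 5) (nat_lit 288) (nat_lit 279) (nat_lit 213))) (XT.nd (nat_lit 78) (nat_lit 152) (nat_lit 0) (XT.lf (nat_lit 0) (nat_lit 42227863595) (nat_lit 304) (nat_lit 12863765039) (nat_lit 76) (nat_lit 74066411503) (nat_lit 29) (nat_lit 5) (nat_lit 33) (nat_lit 5) (nat_lit 30) (nat_lit 5) (nat_lit 289) (nat_lit 279) (nat_lit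 212)) (XT.lf (nat_lit 0) (nat_lit 88624730156) (nat_lit 228) (nat_lit 24224136601) (nat_lit 76) (nat_lit 28537656859) (nat_lit 27) (nat_lit 5) (nat_lit 30) (nat_lit 5) (nat_lit 28) (nat_lit 5) (nat_lit 290) (nat_lit 279) (nat_lit 211)))))) (XT.nd (nat_lit 468) (nat_lit 456) (nat_lit 0) (XT.nd (nat_lit 234) (nat_lit 380) (nat_lit 0) (XT.nd (nat_lit 78) (nat_lit 304) (nat_lit 0) (XT.lf (nat_lit 0) (nat_lit 116335438297) (nat_lit 152) (nat_lit 30349575950) (nat_lit 228) (nat_lit 8387957385) (nat_lit 25) (nat_lit 5) (nat_lit 27) (nat_lit 5) (nat_lit 28) (nat_lit 5) (nat_lit 291) (nat_lit 279) (nat_lit 210)) (XT.nd (nat_lit 78) (nat_lit 152) (nat_lit 0) (XT.lf (nat_lit 0) (nat_lit 45623786360) (nat_lit 152) (nat_lit 58810923073) (nat_lit 76) (nat_lit 65886440208) (nat_lit 23) (nat_lit 5) (nat_lit 25) (nat_lit 5) (nat_lit 24) (nat_lit 5) (nat_lit 292) (nat_lit 279) (nat_lit 209)) (XT.lf (nat_lit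 0) (nat_lit 102919860319) (nat_lit 152) (nat_lit 8804976472) (nat_lit 228) (nat_lit 75755553689) (nat_lit 21) (nat_lit 5) (nat_lit 23) (nat_lit 5) (nat_lit 24) (nat_lit 5) (nat_lit 293) (nat_lit 279) (nat_lit 208)))) (XT.nd (nat_lit 78) (nat_lit 304) (nat_lit 0) (XT.lf (nat_lit 0) (nat_lit 87281239981) (nat_lit 76) (nat_lit 106747237437) (nat_lit 152) (nat_lit 12682047255) (nat_lit 20) (nat_lit 5) (nat_lit 21) (nat_lit 5) (nat_lit 22) (nat_lit 4) (nat_lit 294) (nat_lit 279) (nat_lit 207)) (XT.nd (nat_lit 78) (nat_lit 76) (nat_lit 0) (XT.lf (nat_lit 0) (nat_lit 61175933073) (nat_lit 228) (nat_lit 165624199988) (nat_lit 76) (nat_lit 1564490188) (nat_lit 17) (nat_lit 5) (nat_lit 20) (nat_lit 5) (nat_lit 18) (nat_lit 4) (nat_lit 295) (nat_lit 279) (nat_lit 206)) (XT.lf (nat_lit 0) (nat_lit 24299087719) (nat_lit 76) (nat_lit 128186799183) (nat_lit 152) (nat_lit 100184663077) (nat_lit 16) (nat_lit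 5) (nat_lit 17) (nat_lit 5) (nat_lit 18) (nat_lit 4) (nat_lit 296) (nat_lit 279) (nat_lit 205))))) (XT.nd (nat_lit 234) (nat_lit 228) (nat_lit 0) (XT.nd (nat_lit 78) (nat_lit 228) (nat_lit 0) (XT.lf (nat_lit 0) (nat_lit 252738544897) (nat_lit 76) (nat_lit 9574596190) (nat_lit 152) (nat_lit 17923561167) (nat_lit 16) (nat_lit 5) (nat_lit 17) (nat_lit 5) (nat_lit 18) (nat_lit 4) (nat_lit 297) (nat_lit 279) (nat_lit 204)) (XT.nd (nat_lit 78) (nat_lit 76) (nat_lit 0) (XT.lf (nat_lit 0) (nat_lit 81176047173) (nat_lit 152) (nat_lit 102333321379) (nat_lit 76) (nat_lit 127614081949) (nat_lit 14) (nat_lit 5) (nat_lit 16) (nat_lit 5) (nat_lit 15) (nat_lit 4) (nat_lit 298) (nat_lit 279) (nat_lit 203)) (XT.lf (nat_lit 0) (nat_lit 141924281489) (nat_lit 76) (nat_lit 56683720060) (nat_lit 152) (nat_lit 147635672087) (nat_lit 13) (nat_lit 5) (nat_lit 14) (nat_lit 5) (nat_lit 15) (nat_lit 4) (nat_lit 299)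 (nat_lit 279) (nat_lit 202)))) (XT.nd (nat_lit 156) (nat_lit 76) (nat_lit 0) (XT.nd (nat_lit 78) (nat_lit 76) (nat_lit 0) (XT.lf (nat_lit 0) (nat_lit 42527901878) (nat_lit 76) (nat_lit 297349903165) (nat_lit 76) (nat_lit 46256281403) (nat_lit 12) (nat_lit 4) (nat_lit 13) (nat_lit 5) (nat_lit 13) (nat_lit 4) (nat_lit 300) (nat_lit 279) (nat_lit 201)) (XT.lf (nat_lit 0) (nat_lit 74481772769) (nat_lit 152) (nat_lit 96172138079) (nat_lit 76) (nat_lit 260605240011) (nat_lit 11) (nat_lit 5) (nat_lit 13) (nat_lit 5) (nat_lit 12) (nat_lit 4) (nat_lit 301) (nat_lit 279) (nat_lit 200))) (XT.nd (nat_lit 78) (nat_lit 0) (nat_lit 0) (XT.lf (nat_lit 0) (nat_lit 196948509134) (nat_lit 76) (nat_lit 18456904092) (nat_lit 152) (nat_lit 267266343940) (nat_lit 10) (nat_lit 5) (nat_lit 11) (nat_lit 5) (nat_lit 12) (nat_lit 4) (nat_lit 302) (nat_lit 279) (nat_lit 199)) (XT.lf (nat_lit 0) (nat_lit 384105106590)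 (nat_lit 152) (nat_lit 5550603002) (nat_lit 0) (nat_lit 151609544696) (nat_lit 10) (nat_lit 5) (nat_lit 12) (nat_lit 4) (nat_lit 10) (nat_lit 4) (nat_lit 303) (nat_lit 279) (nat_lit 198))))))) (XT.nd (nat_lit 1014) (nat_lit 152) (nat_lit 0) (XT.nd (nat_lit 468) (nat_lit 228) (nat_lit 0) (XT.nd (nat_lit 234) (nat_lit 76) (nat_lit 0) (XT.nd (nat_lit 78) (nat_lit 152) (nat_lit 0) (XT.lf (nat_lit 0) (nat_lit 332783551361) (nat_lit 76) (nat_lit 253839543560) (nat_lit 76) (nat_lit 21343614140) (nat_lit 9) (nat_lit 4) (nat_lit 10) (nat_lit 5) (nat_lit 10) (nat_lit 4) (nat_lit 304) (nat_lit 279) (nat_lit 197)) (XT.nd (nat_lit 78) (nat_lit 0) (nat_lit 0) (XT.lf (nat_lit 0) (nat_lit 36101164044) (nat_lit 76) (nat_lit 93032207615) (nat_lit 152) (nat_lit 555197889058) (nat_lit 7) (nat_lit 5) (nat_lit 8) (nat_lit 5) (nat_lit 9) (nat_lit 4) (nat_lit 305) (nat_lit 279) (nat_lit 196)) (XT.lf (nat_lit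 0) (nat_lit 311383412206) (nat_lit 152) (nat_lit 363776659587) (nat_lit 0) (nat_lit 96108850251) (nat_lit 7) (nat_lit 5) (nat_lit 9) (nat_lit 4) (nat_lit 7) (nat_lit 4) (nat_lit 306) (nat_lit 279) (nat_lit 195)))) (XT.nd (nat_lit 78) (nat_lit 76) (nat_lit 0) (XT.lf (nat_lit 0) (nat_lit 523543557804) (nat_lit 152) (nat_lit 39229094976) (nat_lit 0) (nat_lit 308268772095) (nat_lit 7) (nat_lit 5) (nat_lit 9) (nat_lit 4) (nat_lit 7) (nat_lit 4) (nat_lit 307) (nat_lit 279) (nat_lit 194)) (XT.nd (nat_lit 78) (nat_lit 0) (nat_lit 0) (XT.lf (nat_lit 0) (nat_lit 351587708779) (nat_lit 76) (nat_lit 424395325065) (nat_lit 76) (nat_lit 209120344787) (nat_lit 6) (nat_lit 4) (nat_lit 7) (nat_lit 5) (nat_lit 7) (nat_lit 4) (nat_lit 308) (nat_lit 279) (nat_lit 193)) (XT.lf (nat_lit 0) (nat_lit 803401953589) (nat_lit 76) (nat_lit 264028240246) (nat_lit 76) (nat_lit 48753090779) (nat_lit 6) (nat_lit 4) (nat_lit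 7) (nat_lit 5) (nat_lit 7) (nat_lit 4) (nat_lit 309) (nat_lit 279) (nat_lit 192))))) (XT.nd (nat_lit 234) (nat_lit 76) (nat_lit 0) (XT.nd (nat_lit 78) (nat_lit 0) (nat_lit 0) (XT.lf (nat_lit 0) (nat_lit 55580045896) (nat_lit 76) (nat_lit 74638868760) (nat_lit 152) (nat_lit 1136338322971) (nat_lit 4) (nat_lit 5) (nat_lit 5) (nat_lit 5) (nat_lit 6) (nat_lit 4) (nat_lit 310) (nat_lit 279) (nat_lit 191)) (XT.nd (nat_lit 78) (nat_lit 0) (nat_lit 0) (XT.lf (nat_lit 0) (nat_lit 346017572365) (nat_lit 152) (nat_lit 945650524356) (nat_lit 0) (nat_lit 146688475586) (nat_lit 4) (nat_lit 5) (nat_lit 6) (nat_lit 4) (nat_lit 4) (nat_lit 4) (nat_lit 311) (nat_lit 279) (nat_lit 190)) (XT.lf (nat_lit 0) (nat_lit 596250101741) (nat_lit 152) (nat_lit 642589677751) (nat_lit 0) (nat_lit 396920901957) (nat_lit 4) (nat_lit 5) (nat_lit 6) (nat_lit 4) (nat_lit 4) (nat_lit 4) (nat_lit 312) (nat_lit 279) (nat_lit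 189)))) (XT.nd (nat_lit 156) (nat_lit 0) (nat_lit 0) (XT.nd (nat_lit 78) (nat_lit 76) (nat_lit 0) (XT.lf (nat_lit 0) (nat_lit 884017290031) (nat_lit 152) (nat_lit 294070133983) (nat_lit 0) (nat_lit 684688000677) (nat_lit 4) (nat_lit 5) (nat_lit 6) (nat_lit 4) (nat_lit 4) (nat_lit 4) (nat_lit 313) (nat_lit 279) (nat_lit 188)) (XT.lf (nat_lit 0) (nat_lit 112347020563) (nat_lit 76) (nat_lit 1105304292813) (nat_lit 76) (nat_lit 905974925573) (nat_lit 3) (nat_lit 4) (nat_lit 4) (nat_lit 5) (nat_lit 4) (nat_lit 4) (nat_lit 314) (nat_lit 279) (nat_lit 187))) (XT.nd (nat_lit 78) (nat_lit 0) (nat_lit 0) (XT.lf (nat_lit 0) (nat_lit 597534400104) (nat_lit 76) (nat_lit 1012357400715) (nat_lit 76) (nat_lit 813027965747) (nat_lit 3) (nat_lit 4) (nat_lit 4) (nat_lit 5) (nat_lit 4) (nat_lit 4) (nat_lit 315) (nat_lit 279) (nat_lit 186)) (XT.lf (nat_lit 0) (nat_lit 1155499589075) (nat_lit 76) (nat_lit 905468620170)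 (nat_lit 76) (nat_lit 706139126309) (nat_lit 3) (nat_lit 4) (nat_lit 4) (nat_lit 5) (nat_lit 4) (nat_lit 4) (nat_lit 316) (nat_lit 279) (nat_lit 185)))))) (XT.nd (nat_lit 546) (nat_lit 0) (nat_lit 0) (XT.nd (nat_lit 234) (nat_lit 152) (nat_lit 0) (XT.nd (nat_lit 78) (nat_lit 0) (nat_lit 0) (XT.lf (nat_lit 0) (nat_lit 1797159297696) (nat_lit 76) (nat_lit 782546648950) (nat_lit 76) (nat_lit 583217103877) (nat_lit 3) (nat_lit 4) (nat_lit 4) (nat_lit 5) (nat_lit 4) (nat_lit 4) (nat_lit 317) (nat_lit 279) (nat_lit 184)) (XT.nd (nat_lit 78) (nat_lit 0) (nat_lit 0) (XT.lf (nat_lit 0) (nat_lit 2535067737657) (nat_lit 76) (nat_lit 641186491966) (nat_lit 76) (nat_lit 441856902361) (nat_lit 3) (nat_lit 4) (nat_lit 4) (nat_lit 5) (nat_lit 4) (nat_lit 4) (nat_lit 318) (nat_lit 279) (nat_lit 183)) (XT.lf (nat_lit 0) (nat_lit 3383662248001) (nat_lit 76) (nat_lit 478622407016) (nat_lit 76) (nat_lit 279292778687)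 (nat_lit 3) (nat_lit 4) (nat_lit 4) (nat_lit 5) (nat_lit 4) (nat_lit 4) (nat_lit 319) (nat_lit 279) (nat_lit 182)))) (XT.nd (nat_lit 156) (nat_lit 0) (nat_lit 0) (XT.nd (nat_lit 78) (nat_lit 152) (nat_lit 0) (XT.lf (nat_lit 0) (nat_lit 4359545764800) (nat_lit 76) (nat_lit 291673792437) (nat_lit 76) (nat_lit 92344130437) (nat_lit 3) (nat_lit 4) (nat_lit 4) (nat_lit 5) (nat_lit 4) (nat_lit 4) (nat_lit 320) (nat_lit 279) (nat_lit 181)) (XT.lf (nat_lit 0) (nat_lit 45279165754) (nat_lit 76) (nat_lit 72321246282) (nat_lit 152) (nat_lit 5317924384031) (nat_lit 1) (nat_lit 5) (nat_lit 2) (nat_lit 5) (nat_lit 3) (nat_lit 4) (nat_lit 321) (nat_lit 279) (nat_lit 180))) (XT.nd (nat_lit 78) (nat_lit 0) (nat_lit 0) (XT.lf (nat_lit 0) (nat_lit 369522308505) (nat_lit 152) (nat_lit 5675331844311) (nat_lit 0) (nat_lit 184957755966) (nat_lit 1) (nat_lit 5) (nat_lit 3) (nat_lit 4) (nat_lit 1) (nat_lit 4)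 (nat_lit 322) (nat_lit 279) (nat_lit 179)) (XT.lf (nat_lit 0) (nat_lit 661232653278) (nat_lit 152) (nat_lit 6005181341804) (nat_lit 0) (nat_lit 476668080238) (nat_lit 1) (nat_lit 5) (nat_lit 3) (nat_lit 4) (nat_lit 1) (nat_lit 4) (nat_lit 323) (nat_lit 279) (nat_lit 178))))) (XT.nd (nat_lit 234) (nat_lit 0) (nat_lit 0) (XT.nd (nat_lit 78) (nat_lit 0) (nat_lit 0) (XT.lf (nat_lit 0) (nat_lit 996699494951) (nat_lit 152) (nat_lit 6384508372204) (nat_lit 0) (nat_lit 812134904085) (nat_lit 1) (nat_lit 5) (nat_lit 3) (nat_lit 4) (nat_lit 1) (nat_lit 4) (nat_lit 324) (nat_lit 279) (nat_lit 177)) (XT.nd (nat_lit 78) (nat_lit 0) (nat_lit 0) (XT.lf (nat_lit 0) (nat_lit 1382486315210) (nat_lit 152) (nat_lit 6820734551324) (nat_lit 0) (nat_lit 1197921708843) (nat_lit 1) (nat_lit 5) (nat_lit 3) (nat_lit 4) (nat_lit 1) (nat_lit 4) (nat_lit 325) (nat_lit 279) (nat_lit 176)) (XT.lf (nat_lit 0) (nat_lit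 1826141117060) (nat_lit 152) (nat_lit 7322394739189) (nat_lit 0) (nat_lit 1641576497214) (nat_lit 1) (nat_lit 5) (nat_lit 3) (nat_lit 4) (nat_lit 1) (nat_lit 4) (nat_lit 326) (nat_lit 279) (nat_lit 175)))) (XT.nd (nat_lit 37050) (nat_lit 0) (nat_lit 3648) (XT.nd (nat_lit 36972) (nat_lit 0) (nat_lit 3648) (XT.lf (nat_lit 0) (nat_lit 2336344103146) (nat_lit 152) (nat_lit 7899304026433) (nat_lit 0) (nat_lit 2151779471579) (nat_lit 1) (nat_lit 5) (nat_lit 3) (nat_lit 4) (nat_lit 1) (nat_lit 4) (nat_lit 327) (nat_lit 279) (nat_lit 174)) (XT.lf (nat_lit 0) (nat_lit 22994278674) (nat_lit 532) (nat_lit 5200515769) (nat_lit 532) (nat_lit 5200515769) (nat_lit 49) (nat_lit 3) (nat_lit 56) (nat_lit 3) (nat_lit 56) (nat_lit 5) (nat_lit 280) (nat_lit 280) (nat_lit 220))) (XT.nd (nat_lit 78) (nat_lit 0) (nat_lit 76) (XT.lf (nat_lit 76) (nat_lit 50244999337) (nat_lit 0) (nat_lit 425388111) (nat_lit 532)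 (nat_lit 21030853916) (nat_lit 50) (nat_lit 5) (nat_lit 49) (nat_lit 3) (nat_lit 56) (nat_lit 5) (nat_lit 281) (nat_lit 280) (nat_lit 219)) (XT.lf (nat_lit 76) (nat_lit 43943450281) (nat_lit 0) (nat_lit 15011824938) (nat_lit 532) (nat_lit 18161128350) (nat_lit 51) (nat_lit 5) (nat_lit 50) (nat_lit 5) (nat_lit 57) (nat_lit 5) (nat_lit 282) (nat_lit 280) (nat_lit 218))))))))
noncomputable def xc46 : XT := (XT.nd (nat_lit 2028) (nat_lit 456) (nat_lit 0) (XT.nd (nat_lit 1014) (nat_lit 988) (nat_lit 0) (XT.nd (nat_lit 468) (nat_lit 988) (nat_lit 0) (XT.nd (nat_lit 234) (nat_lit 608) (nat_lit 0) (XT.nd (nat_lit 78) (nat_lit 760) (nat_lit 0) (XT.lf (nat_lit 76) (nat_lit 37800790750) (nat_lit 0) (nat_lit 33457822147) (nat_lit 532) (nat_lit 11863179240) (nat_lit 52) (nat_lit 5) (nat_lit 51) (nat_lit 5) (nat_lit 58) (nat_lit 5) (nat_lit 283) (nat_lit 280) (nat_lit 217)) (XT.nd (nat_lit 78) (nat_lit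 380) (nat_lit 0) (XT.lf (nat_lit 0) (nat_lit 31840984893) (nat_lit 456) (nat_lit 56522214987) (nat_lit 532) (nat_lit 1428337365) (nat_lit 46) (nat_lit 5) (nat_lit 52) (nat_lit 5) (nat_lit 53) (nat_lit 5) (nat_lit 284) (nat_lit 280) (nat_lit 216)) (XT.lf (nat_lit 0) (nat_lit 13260685492) (nat_lit 380) (nat_lit 71472417580) (nat_lit 76) (nat_lit 12450883941) (nat_lit 41) (nat_lit 5) (nat_lit 46) (nat_lit 5) (nat_lit 42) (nat_lit 5) (nat_lit 285) (nat_lit 280) (nat_lit 215)))) (XT.nd (nat_lit 78) (nat_lit 380) (nat_lit 0) (XT.lf (nat_lit 0) (nat_lit 19192579406) (nat_lit 228) (nat_lit 14631415545) (nat_lit 304) (nat_lit 71557906494) (nat_lit 38) (nat_lit 5) (nat_lit 41) (nat_lit 5) (nat_lit 42) (nat_lit 5) (nat_lit 286) (nat_lit 280) (nat_lit 214)) (XT.nd (nat_lit 78) (nat_lit 152) (nat_lit 0) (XT.lf (nat_lit 0) (nat_lit 12104079915) (nat_lit 228) (nat_lit 49378220497) (nat_lit 304) (nat_lit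 53006367623) (nat_lit 35) (nat_lit 5) (nat_lit 38) (nat_lit 5) (nat_lit 39) (nat_lit 5) (nat_lit 287) (nat_lit 280) (nat_lit 213)) (XT.lf (nat_lit 0) (nat_lit 4622697660) (nat_lit 152) (nat_lit 92490852824) (nat_lit 228) (nat_lit 27541967539) (nat_lit 33) (nat_lit 5) (nat_lit 35) (nat_lit 5) (nat_lit 36) (nat_lit 5) (nat_lit 288) (nat_lit 280) (nat_lit 212))))) (XT.nd (nat_lit 234) (nat_lit 532) (nat_lit 0) (XT.nd (nat_lit 78) (nat_lit 380) (nat_lit 0) (XT.lf (nat_lit 0) (nat_lit 6076835953) (nat_lit 228) (nat_lit 3715413903) (nat_lit 76) (nat_lit 126198046145) (nat_lit 32) (nat_lit 5) (nat_lit 35) (nat_lit 5) (nat_lit 33) (nat_lit 5) (nat_lit 289) (nat_lit 280) (nat_lit 211)) (XT.nd (nat_lit 78) (nat_lit 152) (nat_lit 0) (XT.lf (nat_lit 0) (nat_lit 48581843058) (nat_lit 304) (nat_lit 14765676650) (nat_lit 76) (nat_lit 85182609933) (nat_lit 29) (nat_lit 5) (nat_lit 33) (nat_lit 5) (nat_lit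 30) (nat_lit 5) (nat_lit 290) (nat_lit 280) (nat_lit 210)) (XT.lf (nat_lit 0) (nat_lit 101936445816) (nat_lit 228) (nat_lit 27831170326) (nat_lit 76) (nat_lit 32825417244) (nat_lit 27) (nat_lit 5) (nat_lit 30) (nat_lit 5) (nat_lit 28) (nat_lit 5) (nat_lit 291) (nat_lit 280) (nat_lit 209)))) (XT.nd (nat_lit 156) (nat_lit 228) (nat_lit 0) (XT.nd (nat_lit 78) (nat_lit 152) (nat_lit 0) (XT.lf (nat_lit 0) (nat_lit 133810090369) (nat_lit 152) (nat_lit 34893918814) (nat_lit 228) (nat_lit 9628584177) (nat_lit 25) (nat_lit 5) (nat_lit 27) (nat_lit 5) (nat_lit 28) (nat_lit 5) (nat_lit 292) (nat_lit 280) (nat_lit 208)) (XT.lf (nat_lit 0) (nat_lit 52482614492) (nat_lit 152) (nat_lit 67608428009) (nat_lit 76) (nat_lit 75777038972) (nat_lit 23) (nat_lit 5) (nat_lit 25) (nat_lit 5) (nat_lit 24) (nat_lit 5) (nat_lit 293) (nat_lit 280) (nat_lit 207))) (XT.nd (nat_lit 78) (nat_lit 76) (nat_lit 0) (XT.lf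 (nat_lit 0) (nat_lit 118379930110) (nat_lit 152) (nat_lit 10117433203) (nat_lit 228) (nat_lit 87103964442) (nat_lit 21) (nat_lit 5) (nat_lit 23) (nat_lit 5) (nat_lit 24) (nat_lit 5) (nat_lit 294) (nat_lit 280) (nat_lit 206)) (XT.lf (nat_lit 0) (nat_lit 100394490743) (nat_lit 76) (nat_lit 122750939133) (nat_lit 152) (nat_lit 14570644060) (nat_lit 20) (nat_lit 5) (nat_lit 21) (nat_lit 5) (nat_lit 22) (nat_lit 4) (nat_lit 295) (nat_lit 280) (nat_lit 205)))))) (XT.nd (nat_lit 468) (nat_lit 380) (nat_lit 0) (XT.nd (nat_lit 234) (nat_lit 304) (nat_lit 0) (XT.nd (nat_lit 78) (nat_lit 76) (nat_lit 0) (XT.lf (nat_lit 0) (nat_lit 70364322989) (nat_lit 228) (nat_lit 190447146562) (nat_lit 76) (nat_lit 1806875135) (nat_lit 17) (nat_lit 5) (nat_lit 20) (nat_lit 5) (nat_lit 18) (nat_lit 4) (nat_lit 296) (nat_lit 280) (nat_lit 204)) (XT.nd (nat_lit 78) (nat_lit 0) (nat_lit 0) (XT.lf (nat_lit 0) (nat_lit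 27962883553) (nat_lit 76) (nat_lit 147406776460) (nat_lit 152) (nat_lit 115200590775) (nat_lit 16) (nat_lit 5) (nat_lit 17) (nat_lit 5) (nat_lit 18) (nat_lit 4) (nat_lit 297) (nat_lit 280) (nat_lit 203)) (XT.lf (nat_lit 0) (nat_lit 290665789829) (nat_lit 76) (nat_lit 11003792053) (nat_lit 152) (nat_lit 20601859025) (nat_lit 16) (nat_lit 5) (nat_lit 17) (nat_lit 5) (nat_lit 18) (nat_lit 4) (nat_lit 298) (nat_lit 280) (nat_lit 202)))) (XT.nd (nat_lit 78) (nat_lit 152) (nat_lit 0) (XT.lf (nat_lit 0) (nat_lit 93361445535) (nat_lit 152) (nat_lit 117667221282) (nat_lit 76) (nat_lit 146762574617) (nat_lit 14) (nat_lit 5) (nat_lit 16) (nat_lit 5) (nat_lit 15) (nat_lit 4) (nat_lit 299) (nat_lit 280) (nat_lit 201)) (XT.nd (nat_lit 78) (nat_lit 76) (nat_lit 0) (XT.lf (nat_lit 0) (nat_lit 163227659375) (nat_lit 76) (nat_lit 65179715309) (nat_lit 152) (nat_lit 169772189784) (nat_lit 13) (nat_lit 5)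 (nat_lit 14) (nat_lit 5) (nat_lit 15) (nat_lit 4) (nat_lit 300) (nat_lit 280) (nat_lit 200)) (XT.lf (nat_lit 0) (nat_lit 48921035378) (nat_lit 76) (nat_lit 341946019996) (nat_lit 76) (nat_lit 53186532124) (nat_lit 12) (nat_lit 4) (nat_lit 13) (nat_lit 5) (nat_lit 13) (nat_lit 4) (nat_lit 301) (nat_lit 280) (nat_lit 199))))) (XT.nd (nat_lit 234) (nat_lit 228) (nat_lit 0) (XT.nd (nat_lit 78) (nat_lit 76) (nat_lit 0) (XT.lf (nat_lit 0) (nat_lit 85660805396) (nat_lit 152) (nat_lit 110585469114) (nat_lit 76) (nat_lit 299701203173) (nat_lit 11) (nat_lit 5) (nat_lit 13) (nat_lit 5) (nat_lit 12) (nat_lit 4) (nat_lit 302) (nat_lit 280) (nat_lit 198)) (XT.nd (nat_lit 78) (nat_lit 0) (nat_lit 0) (XT.lf (nat_lit 0) (nat_lit 226502217992) (nat_lit 76) (nat_lit 21220166267) (nat_lit 152) (nat_lit 307349639874) (nat_lit 10) (nat_lit 5) (nat_lit 11) (nat_lit 5) (nat_lit 12) (nat_lit 4) (nat_lit 303) (nat_lit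 280) (nat_lit 197)) (XT.lf (nat_lit 0) (nat_lit 441726338557) (nat_lit 152) (nat_lit 6372930608) (nat_lit 0) (nat_lit 174355332610) (nat_lit 10) (nat_lit 5) (nat_lit 12) (nat_lit 4) (nat_lit 10) (nat_lit 4) (nat_lit 304) (nat_lit 280) (nat_lit 196)))) (XT.nd (nat_lit 156) (nat_lit 0) (nat_lit 0) (XT.nd (nat_lit 78) (nat_lit 152) (nat_lit 0) (XT.lf (nat_lit 0) (nat_lit 382710478211) (nat_lit 76) (nat_lit 291911059903) (nat_lit 76) (nat_lit 24539776053) (nat_lit 9) (nat_lit 4) (nat_lit 10) (nat_lit 5) (nat_lit 10) (nat_lit 4) (nat_lit 305) (nat_lit 280) (nat_lit 195)) (XT.lf (nat_lit 0) (nat_lit 41525186477) (nat_lit 76) (nat_lit 106982848129) (nat_lit 152) (nat_lit 638472540278) (nat_lit 7) (nat_lit 5) (nat_lit 8) (nat_lit 5) (nat_lit 9) (nat_lit 4) (nat_lit 306) (nat_lit 280) (nat_lit 194))) (XT.nd (nat_lit 78) (nat_lit 0) (nat_lit 0) (XT.lf (nat_lit 0) (nat_lit 358095061413) (nat_lit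 152) (nat_lit 418335226367) (nat_lit 0) (nat_lit 110528639525) (nat_lit 7) (nat_lit 5) (nat_lit 9) (nat_lit 4) (nat_lit 7) (nat_lit 4) (nat_lit 307) (nat_lit 280) (nat_lit 193)) (XT.lf (nat_lit 0) (nat_lit 602078689193) (nat_lit 152) (nat_lit 45106561693) (nat_lit 0) (nat_lit 354512098114) (nat_lit 7) (nat_lit 5) (nat_lit 9) (nat_lit 4) (nat_lit 7) (nat_lit 4) (nat_lit 308) (nat_lit 280) (nat_lit 192))))))) (XT.nd (nat_lit 1014) (nat_lit 152) (nat_lit 0) (XT.nd (nat_lit 468) (nat_lit 76) (nat_lit 0) (XT.nd (nat_lit 234) (nat_lit 0) (nat_lit 0) (XT.nd (nat_lit 78) (nat_lit 152) (nat_lit 0) (XT.lf (nat_lit 0) (nat_lit 404332178784) (nat_lit 76) (nat_lit 488051590431) (nat_lit 76) (nat_lit 240484852231) (nat_lit 6) (nat_lit 4) (nat_lit 7) (nat_lit 5) (nat_lit 7) (nat_lit 4) (nat_lit 309) (nat_lit 280) (nat_lit 191)) (XT.nd (nat_lit 78) (nat_lit 152) (nat_lit 0) (XT.lf (nat_lit 0) (nat_lit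 923917736790) (nat_lit 76) (nat_lit 303629838550) (nat_lit 76) (nat_lit 56062972418) (nat_lit 6) (nat_lit 4) (nat_lit 7) (nat_lit 5) (nat_lit 7) (nat_lit 4) (nat_lit 310) (nat_lit 280) (nat_lit 190)) (XT.lf (nat_lit 0) (nat_lit 63922220498) (nat_lit 76) (nat_lit 85832201557) (nat_lit 152) (nat_lit 1306786186512) (nat_lit 4) (nat_lit 5) (nat_lit 5) (nat_lit 5) (nat_lit 6) (nat_lit 4) (nat_lit 311) (nat_lit 280) (nat_lit 189)))) (XT.nd (nat_lit 78) (nat_lit 0) (nat_lit 0) (XT.lf (nat_lit 0) (nat_lit 397922582365) (nat_lit 152) (nat_lit 1087493474872) (nat_lit 0) (nat_lit 168693810038) (nat_lit 4) (nat_lit 5) (nat_lit 6) (nat_lit 4) (nat_lit 4) (nat_lit 4) (nat_lit 312) (nat_lit 280) (nat_lit 188)) (XT.nd (nat_lit 78) (nat_lit 0) (nat_lit 0) (XT.lf (nat_lit 0) (nat_lit 685689681476) (nat_lit 152) (nat_lit 738974104947) (nat_lit 0) (nat_lit 456460831263) (nat_lit 4) (nat_lit 5) (nat_lit 6)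 (nat_lit 4) (nat_lit 4) (nat_lit 4) (nat_lit 313) (nat_lit 280) (nat_lit 187)) (XT.lf (nat_lit 0) (nat_lit 1016621678730) (nat_lit 152) (nat_lit 338177154544) (nat_lit 0) (nat_lit 787392760789) (nat_lit 4) (nat_lit 5) (nat_lit 6) (nat_lit 4) (nat_lit 4) (nat_lit 4) (nat_lit 314) (nat_lit 280) (nat_lit 186))))) (XT.nd (nat_lit 234) (nat_lit 0) (nat_lit 0) (XT.nd (nat_lit 78) (nat_lit 0) (nat_lit 0) (XT.lf (nat_lit 0) (nat_lit 129202276966) (nat_lit 76) (nat_lit 1271098371496) (nat_lit 76) (nat_lit 1041869394662) (nat_lit 3) (nat_lit 4) (nat_lit 4) (nat_lit 5) (nat_lit 4) (nat_lit 4) (nat_lit 315) (nat_lit 280) (nat_lit 185)) (XT.nd (nat_lit 78) (nat_lit 0) (nat_lit 0) (XT.lf (nat_lit 0) (nat_lit 687167345613) (nat_lit 76) (nat_lit 1164209649744) (nat_lit 76) (nat_lit 934980621699) (nat_lit 3) (nat_lit 4) (nat_lit 4) (nat_lit 5) (nat_lit 4) (nat_lit 4) (nat_lit 316) (nat_lit 280) (nat_lit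 184)) (XT.lf (nat_lit 0) (nat_lit 1328826949605) (nat_lit 76) (nat_lit 1041287729649) (nat_lit 76) (nat_lit 812058657072) (nat_lit 3) (nat_lit 4) (nat_lit 4) (nat_lit 5) (nat_lit 4) (nat_lit 4) (nat_lit 317) (nat_lit 280) (nat_lit 183)))) (XT.nd (nat_lit 156) (nat_lit 0) (nat_lit 0) (XT.nd (nat_lit 78) (nat_lit 0) (nat_lit 0) (XT.lf (nat_lit 0) (nat_lit 2066735298584) (nat_lit 76) (nat_lit 899927617122) (nat_lit 76) (nat_lit 670698505821) (nat_lit 3) (nat_lit 4) (nat_lit 4) (nat_lit 5) (nat_lit 4) (nat_lit 4) (nat_lit 318) (nat_lit 280) (nat_lit 182)) (XT.lf (nat_lit 0) (nat_lit 2915329729813) (nat_lit 76) (nat_lit 737363570830) (nat_lit 76) (nat_lit 508134425856) (nat_lit 3) (nat_lit 4) (nat_lit 4) (nat_lit 5) (nat_lit 4) (nat_lit 4) (nat_lit 319) (nat_lit 280) (nat_lit 181))) (XT.nd (nat_lit 78) (nat_lit 0) (nat_lit 0) (XT.lf (nat_lit 0) (nat_lit 3891213177816) (nat_lit 76) (nat_lit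 550414989867) (nat_lit 76) (nat_lit 321185815613) (nat_lit 3) (nat_lit 4) (nat_lit 4) (nat_lit 5) (nat_lit 4) (nat_lit 4) (nat_lit 320) (nat_lit 280) (nat_lit 180)) (XT.lf (nat_lit 0) (nat_lit 5013479014403) (nat_lit 76) (nat_lit 335424184607) (nat_lit 76) (nat_lit 106194984892) (nat_lit 3) (nat_lit 4) (nat_lit 4) (nat_lit 5) (nat_lit 4) (nat_lit 4) (nat_lit 321) (nat_lit 280) (nat_lit 179)))))) (XT.nd (nat_lit 37440) (nat_lit 0) (nat_lit 2812) (XT.nd (nat_lit 234) (nat_lit 0) (nat_lit 0) (XT.nd (nat_lit 78) (nat_lit 0) (nat_lit 0) (XT.lf (nat_lit 0) (nat_lit 52072343538) (nat_lit 76) (nat_lit 83168793669) (nat_lit 152) (nat_lit 6115612324983) (nat_lit 1) (nat_lit 5) (nat_lit 2) (nat_lit 5) (nat_lit 3) (nat_lit 4) (nat_lit 322) (nat_lit 280) (nat_lit 178)) (XT.nd (nat_lit 78) (nat_lit 0) (nat_lit 0) (XT.lf (nat_lit 0) (nat_lit 424951244997) (nat_lit 152) (nat_lit 6526630455022) (nat_lit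 0) (nat_lit 212701947675) (nat_lit 1) (nat_lit 5) (nat_lit 3) (nat_lit 4) (nat_lit 1) (nat_lit 4) (nat_lit 323) (nat_lit 280) (nat_lit 177)) (XT.lf (nat_lit 0) (nat_lit 760418064501) (nat_lit 152) (nat_lit 6905957529217) (nat_lit 0) (nat_lit 548168751678) (nat_lit 1) (nat_lit 5) (nat_lit 3) (nat_lit 4) (nat_lit 1) (nat_lit 4) (nat_lit 324) (nat_lit 280) (nat_lit 176)))) (XT.nd (nat_lit 78) (nat_lit 0) (nat_lit 0) (XT.lf (nat_lit 0) (nat_lit 1146204865482) (nat_lit 152) (nat_lit 7342183746419) (nat_lit 0) (nat_lit 933955539180) (nat_lit 1) (nat_lit 5) (nat_lit 3) (nat_lit 4) (nat_lit 1) (nat_lit 4) (nat_lit 325) (nat_lit 280) (nat_lit 175)) (XT.nd (nat_lit 78) (nat_lit 0) (nat_lit 0) (XT.lf (nat_lit 0) (nat_lit 1589859650568) (nat_lit 152) (nat_lit 7843843967400) (nat_lit 0) (nat_lit 1377610312545) (nat_lit 1) (nat_lit 5) (nat_lit 3) (nat_lit 4) (nat_lit 1) (nat_lit 4) (nat_lit 326) (nat_lit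 280) (nat_lit 174)) (XT.lf (nat_lit 0) (nat_lit 2100062622077) (nat_lit 152) (nat_lit 8420753283440) (nat_lit 0) (nat_lit 1887813273862) (nat_lit 1) (nat_lit 5) (nat_lit 3) (nat_lit 4) (nat_lit 1) (nat_lit 4) (nat_lit 327) (nat_lit 280) (nat_lit 173))))) (XT.nd (nat_lit 234) (nat_lit 836) (nat_lit 0) (XT.nd (nat_lit 78) (nat_lit 0) (nat_lit 0) (XT.lf (nat_lit 0) (nat_lit 26466709333) (nat_lit 532) (nat_lit 5967988140) (nat_lit 532) (nat_lit 5967988140) (nat_lit 49) (nat_lit 3) (nat_lit 56) (nat_lit 3) (nat_lit 56) (nat_lit 5) (nat_lit 281) (nat_lit 281) (nat_lit 218)) (XT.nd (nat_lit 78) (nat_lit 0) (nat_lit 76) (XT.lf (nat_lit 76) (nat_lit 57804825327) (nat_lit 0) (nat_lit 507177580) (nat_lit 532) (nat_lit 24141039166) (nat_lit 50) (nat_lit 5) (nat_lit 49) (nat_lit 3) (nat_lit 56) (nat_lit 5) (nat_lit 282) (nat_lit 281) (nat_lit 217)) (XT.lf (nat_lit 76) (nat_lit 50559585412) (nat_lit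 0) (nat_lit 17274899136) (nat_lit 532) (nat_lit 20846418365) (nat_lit 51) (nat_lit 5) (nat_lit 50) (nat_lit 5) (nat_lit 57) (nat_lit 5) (nat_lit 283) (nat_lit 281) (nat_lit 216)))) (XT.nd (nat_lit 156) (nat_lit 608) (nat_lit 0) (XT.nd (nat_lit 78) (nat_lit 380) (nat_lit 0) (XT.lf (nat_lit 76) (nat_lit 43496402507) (nat_lit 0) (nat_lit 38482612191) (nat_lit 532) (nat_lit 13608441167) (nat_lit 52) (nat_lit 5) (nat_lit 51) (nat_lit 5) (nat_lit 58) (nat_lit 5) (nat_lit 284) (nat_lit 281) (nat_lit 215)) (XT.lf (nat_lit 0) (nat_lit 36642987144) (nat_lit 456) (nat_lit 65002673443) (nat_lit 532) (nat_lit 1612302439) (nat_lit 46) (nat_lit 5) (nat_lit 52) (nat_lit 5) (nat_lit 53) (nat_lit 5) (nat_lit 285) (nat_lit 281) (nat_lit 214))) (XT.nd (nat_lit 78) (nat_lit 228) (nat_lit 0) (XT.lf (nat_lit 0) (nat_lit 15275397709) (nat_lit 380) (nat_lit 82166055666) (nat_lit 76) (nat_lit 14318029518) (nat_lit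 41) (nat_lit 5) (nat_lit 46) (nat_lit 5) (nat_lit 42) (nat_lit 5) (nat_lit 286) (nat_lit 281) (nat_lit 213)) (XT.lf (nat_lit 0) (nat_lit 22096386445) (nat_lit 228) (nat_lit 16824076115) (nat_lit 304) (nat_lit 82266848178) (nat_lit 38) (nat_lit 5) (nat_lit 41) (nat_lit 5) (nat_lit 42) (nat_lit 5) (nat_lit 287) (nat_lit 281) (nat_lit 212))))))))
noncomputable def xc47 : XT := (XT.nd (nat_lit 2028) (nat_lit 228) (nat_lit 0) (XT.nd (nat_lit 1014) (nat_lit 760) (nat_lit 0) (XT.nd (nat_lit 468) (nat_lit 836) (nat_lit 0) (XT.nd (nat_lit 234) (nat_lit 532) (nat_lit 0) (XT.nd (nat_lit 78) (nat_lit 228) (nat_lit 0) (XT.lf (nat_lit 0) (nat_lit 13944174633) (nat_lit 228) (nat_lit 56780988096) (nat_lit 304) (nat_lit 60935123736) (nat_lit 35) (nat_lit 5) (nat_lit 38) (nat_lit 5) (nat_lit 39) (nat_lit 5) (nat_lit 288) (nat_lit 281) (nat_lit 211)) (XT.nd (nat_lit 78) (nat_lit 76) (nat_lit 0) (XT.lf (nat_lit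 0) (nat_lit 5339964822) (nat_lit 152) (nat_lit 106359116150) (nat_lit 228) (nat_lit 31653249796) (nat_lit 33) (nat_lit 5) (nat_lit 35) (nat_lit 5) (nat_lit 36) (nat_lit 5) (nat_lit 289) (nat_lit 281) (nat_lit 210)) (XT.lf (nat_lit 0) (nat_lit 7004893302) (nat_lit 228) (nat_lit 4251077152) (nat_lit 76) (nat_lit 145131519109) (nat_lit 32) (nat_lit 5) (nat_lit 35) (nat_lit 5) (nat_lit 33) (nat_lit 5) (nat_lit 290) (nat_lit 281) (nat_lit 209)))) (XT.nd (nat_lit 78) (nat_lit 304) (nat_lit 0) (XT.lf (nat_lit 0) (nat_lit 55884091103) (nat_lit 304) (nat_lit 16959618397) (nat_lit 76) (nat_lit 97964717267) (nat_lit 29) (nat_lit 5) (nat_lit 33) (nat_lit 5) (nat_lit 30) (nat_lit 5) (nat_lit 291) (nat_lit 281) (nat_lit 208)) (XT.nd (nat_lit 78) (nat_lit 152) (nat_lit 0) (XT.lf (nat_lit 0) (nat_lit 117240527915) (nat_lit 228) (nat_lit 31985742460) (nat_lit 76) (nat_lit 37754607416) (nat_lit 27) (nat_lit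 5) (nat_lit 30) (nat_lit 5) (nat_lit 28) (nat_lit 5) (nat_lit 292) (nat_lit 281) (nat_lit 207)) (XT.lf (nat_lit 0) (nat_lit 153900005685) (nat_lit 152) (nat_lit 40121886766) (nat_lit 228) (nat_lit 11059588767) (nat_lit 25) (nat_lit 5) (nat_lit 27) (nat_lit 5) (nat_lit 28) (nat_lit 5) (nat_lit 293) (nat_lit 281) (nat_lit 206))))) (XT.nd (nat_lit 234) (nat_lit 456) (nat_lit 0) (XT.nd (nat_lit 78) (nat_lit 228) (nat_lit 0) (XT.lf (nat_lit 0) (nat_lit 60366545553) (nat_lit 152) (nat_lit 77731443798) (nat_lit 76) (nat_lit 87149366260) (nat_lit 23) (nat_lit 5) (nat_lit 25) (nat_lit 5) (nat_lit 24) (nat_lit 5) (nat_lit 294) (nat_lit 281) (nat_lit 205)) (XT.nd (nat_lit 78) (nat_lit 76) (nat_lit 0) (XT.lf (nat_lit 0) (nat_lit 136153623402) (nat_lit 152) (nat_lit 11628779949) (nat_lit 228) (nat_lit 100158275704) (nat_lit 21) (nat_lit 5) (nat_lit 23) (nat_lit 5) (nat_lit 24) (nat_lit 5) (nat_lit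 295) (nat_lit 281) (nat_lit 204)) (XT.lf (nat_lit 0) (nat_lit 115469592343) (nat_lit 76) (nat_lit 141157240554) (nat_lit 152) (nat_lit 16745873724) (nat_lit 20) (nat_lit 5) (nat_lit 21) (nat_lit 5) (nat_lit 22) (nat_lit 4) (nat_lit 296) (nat_lit 281) (nat_lit 203)))) (XT.nd (nat_lit 156) (nat_lit 152) (nat_lit 0) (XT.nd (nat_lit 78) (nat_lit 76) (nat_lit 0) (XT.lf (nat_lit 0) (nat_lit 80928045128) (nat_lit 228) (nat_lit 218998578905) (nat_lit 76) (nat_lit 2083737345) (nat_lit 17) (nat_lit 5) (nat_lit 20) (nat_lit 5) (nat_lit 18) (nat_lit 4) (nat_lit 297) (nat_lit 281) (nat_lit 202)) (XT.lf (nat_lit 0) (nat_lit 32171631909) (nat_lit 76) (nat_lit 169511711567) (nat_lit 152) (nat_lit 132471778246) (nat_lit 16) (nat_lit 5) (nat_lit 17) (nat_lit 5) (nat_lit 18) (nat_lit 4) (nat_lit 298) (nat_lit 281) (nat_lit 201))) (XT.nd (nat_lit 78) (nat_lit 152) (nat_lit 0) (XT.lf (nat_lit 0) (nat_lit 334278106845)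 (nat_lit 76) (nat_lit 12649072721) (nat_lit 152) (nat_lit 23684397753) (nat_lit 16) (nat_lit 5) (nat_lit 17) (nat_lit 5) (nat_lit 18) (nat_lit 4) (nat_lit 299) (nat_lit 281) (nat_lit 200)) (XT.lf (nat_lit 0) (nat_lit 107372461070) (nat_lit 152) (nat_lit 135305131843) (nat_lit 76) (nat_lit 168781785291) (nat_lit 14) (nat_lit 5) (nat_lit 16) (nat_lit 5) (nat_lit 15) (nat_lit 4) (nat_lit 300) (nat_lit 281) (nat_lit 199)))))) (XT.nd (nat_lit 468) (nat_lit 380) (nat_lit 0) (XT.nd (nat_lit 234) (nat_lit 152) (nat_lit 0) (XT.nd (nat_lit 78) (nat_lit 152) (nat_lit 0) (XT.lf (nat_lit 0) (nat_lit 187722950560) (nat_lit 76) (nat_lit 74951710216) (nat_lit 152) (nat_lit 195231339146) (nat_lit 13) (nat_lit 5) (nat_lit 14) (nat_lit 5) (nat_lit 15) (nat_lit 4) (nat_lit 301) (nat_lit 281) (nat_lit 198)) (XT.nd (nat_lit 78) (nat_lit 76) (nat_lit 0) (XT.lf (nat_lit 0) (nat_lit 56269737541) (nat_lit 76) (nat_lit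 393233107386) (nat_lit 76) (nat_lit 61158317999) (nat_lit 12) (nat_lit 4) (nat_lit 13) (nat_lit 5) (nat_lit 13) (nat_lit 4) (nat_lit 302) (nat_lit 281) (nat_lit 197)) (XT.lf (nat_lit 0) (nat_lit 98515042812) (nat_lit 152) (nat_lit 127163845491) (nat_lit 76) (nat_lit 344660298325) (nat_lit 11) (nat_lit 5) (nat_lit 13) (nat_lit 5) (nat_lit 12) (nat_lit 4) (nat_lit 303) (nat_lit 281) (nat_lit 196)))) (XT.nd (nat_lit 78) (nat_lit 76) (nat_lit 0) (XT.lf (nat_lit 0) (nat_lit 260486195294) (nat_lit 76) (nat_lit 24399203730) (nat_lit 152) (nat_lit 353447053221) (nat_lit 10) (nat_lit 5) (nat_lit 11) (nat_lit 5) (nat_lit 12) (nat_lit 4) (nat_lit 304) (nat_lit 281) (nat_lit 195)) (XT.nd (nat_lit 78) (nat_lit 76) (nat_lit 0) (XT.lf (nat_lit 0) (nat_lit 507989422406) (nat_lit 152) (nat_lit 7321110015) (nat_lit 0) (nat_lit 200511926421) (nat_lit 10) (nat_lit 5) (nat_lit 12) (nat_lit 4) (nat_lit 10)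 (nat_lit 4) (nat_lit 305) (nat_lit 281) (nat_lit 194)) (XT.lf (nat_lit 0) (nat_lit 440124153266) (nat_lit 76) (nat_lit 335694380370) (nat_lit 76) (nat_lit 28216674251) (nat_lit 9) (nat_lit 4) (nat_lit 10) (nat_lit 5) (nat_lit 10) (nat_lit 4) (nat_lit 306) (nat_lit 281) (nat_lit 193))))) (XT.nd (nat_lit 234) (nat_lit 228) (nat_lit 0) (XT.nd (nat_lit 78) (nat_lit 0) (nat_lit 0) (XT.lf (nat_lit 0) (nat_lit 47760654676) (nat_lit 76) (nat_lit 123027106631) (nat_lit 152) (nat_lit 734239616299) (nat_lit 7) (nat_lit 5) (nat_lit 8) (nat_lit 5) (nat_lit 9) (nat_lit 4) (nat_lit 307) (nat_lit 281) (nat_lit 192)) (XT.nd (nat_lit 78) (nat_lit 0) (nat_lit 0) (XT.lf (nat_lit 0) (nat_lit 411812449076) (nat_lit 152) (nat_lit 481079512470) (nat_lit 0) (nat_lit 127110553024) (nat_lit 7) (nat_lit 5) (nat_lit 9) (nat_lit 4) (nat_lit 7) (nat_lit 4) (nat_lit 308) (nat_lit 281) (nat_lit 191)) (XT.lf (nat_lit 0)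 (nat_lit 692393212963) (nat_lit 152) (nat_lit 51867330423) (nat_lit 0) (nat_lit 407691188979) (nat_lit 7) (nat_lit 5) (nat_lit 9) (nat_lit 4) (nat_lit 7) (nat_lit 4) (nat_lit 309) (nat_lit 281) (nat_lit 190)))) (XT.nd (nat_lit 156) (nat_lit 152) (nat_lit 0) (XT.nd (nat_lit 78) (nat_lit 0) (nat_lit 0) (XT.lf (nat_lit 0) (nat_lit 464986779656) (nat_lit 76) (nat_lit 561257035315) (nat_lit 76) (nat_lit 276554900086) (nat_lit 6) (nat_lit 4) (nat_lit 7) (nat_lit 5) (nat_lit 7) (nat_lit 4) (nat_lit 310) (nat_lit 281) (nat_lit 189)) (XT.lf (nat_lit 0) (nat_lit 1062509548661) (nat_lit 76) (nat_lit 349172319828) (nat_lit 76) (nat_lit 64470087863) (nat_lit 6) (nat_lit 4) (nat_lit 7) (nat_lit 5) (nat_lit 7) (nat_lit 4) (nat_lit 311) (nat_lit 281) (nat_lit 188))) (XT.nd (nat_lit 78) (nat_lit 0) (nat_lit 0) (XT.lf (nat_lit 0) (nat_lit 73514461110) (nat_lit 76) (nat_lit 98705143309) (nat_lit 152) (nat_lit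 1502801933085) (nat_lit 4) (nat_lit 5) (nat_lit 5) (nat_lit 5) (nat_lit 6) (nat_lit 4) (nat_lit 312) (nat_lit 281) (nat_lit 187)) (XT.lf (nat_lit 0) (nat_lit 457612764914) (nat_lit 152) (nat_lit 1250613996567) (nat_lit 0) (nat_lit 193999441555) (nat_lit 4) (nat_lit 5) (nat_lit 6) (nat_lit 4) (nat_lit 4) (nat_lit 4) (nat_lit 313) (nat_lit 281) (nat_lit 186))))))) (XT.nd (nat_lit 38142) (nat_lit 0) (nat_lit 1672) (XT.nd (nat_lit 468) (nat_lit 152) (nat_lit 0) (XT.nd (nat_lit 234) (nat_lit 0) (nat_lit 0) (XT.nd (nat_lit 78) (nat_lit 76) (nat_lit 0) (XT.lf (nat_lit 0) (nat_lit 788544694736) (nat_lit 152) (nat_lit 849817177614) (nat_lit 0) (nat_lit 524931312483) (nat_lit 4) (nat_lit 5) (nat_lit 6) (nat_lit 4) (nat_lit 4) (nat_lit 4) (nat_lit 314) (nat_lit 281) (nat_lit 185)) (XT.nd (nat_lit 78) (nat_lit 76) (nat_lit 0) (XT.lf (nat_lit 0) (nat_lit 1169116287964) (nat_lit 152) (nat_lit 388901081574)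 (nat_lit 0) (nat_lit 905502854500) (nat_lit 4) (nat_lit 5) (nat_lit 6) (nat_lit 4) (nat_lit 4) (nat_lit 4) (nat_lit 315) (nat_lit 281) (nat_lit 184)) (XT.lf (nat_lit 0) (nat_lit 148585040679) (nat_lit 76) (nat_lit 1461761943674) (nat_lit 76) (nat_lit 1198148465678) (nat_lit 3) (nat_lit 4) (nat_lit 4) (nat_lit 5) (nat_lit 4) (nat_lit 4) (nat_lit 316) (nat_lit 281) (nat_lit 183)))) (XT.nd (nat_lit 78) (nat_lit 0) (nat_lit 0) (XT.lf (nat_lit 0) (nat_lit 790244553689) (nat_lit 76) (nat_lit 1338840068036) (nat_lit 76) (nat_lit 1075226551316) (nat_lit 3) (nat_lit 4) (nat_lit 4) (nat_lit 5) (nat_lit 4) (nat_lit 4) (nat_lit 317) (nat_lit 281) (nat_lit 182)) (XT.nd (nat_lit 78) (nat_lit 0) (nat_lit 0) (XT.lf (nat_lit 0) (nat_lit 1528152823553) (nat_lit 76) (nat_lit 1197479994166) (nat_lit 76) (nat_lit 933866443774) (nat_lit 3) (nat_lit 4) (nat_lit 4) (nat_lit 5) (nat_lit 4) (nat_lit 4) (nat_lit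 318) (nat_lit 281) (nat_lit 181)) (XT.lf (nat_lit 0) (nat_lit 2376747185987) (nat_lit 76) (nat_lit 1034915981489) (nat_lit 76) (nat_lit 771302401817) (nat_lit 3) (nat_lit 4) (nat_lit 4) (nat_lit 5) (nat_lit 4) (nat_lit 4) (nat_lit 319) (nat_lit 281) (nat_lit 180))))) (XT.nd (nat_lit 234) (nat_lit 152) (nat_lit 0) (XT.nd (nat_lit 78) (nat_lit 0) (nat_lit 0) (XT.lf (nat_lit 0) (nat_lit 3352630574168) (nat_lit 76) (nat_lit 847967429758) (nat_lit 76) (nat_lit 584353824624) (nat_lit 3) (nat_lit 4) (nat_lit 4) (nat_lit 5) (nat_lit 4) (nat_lit 4) (nat_lit 320) (nat_lit 281) (nat_lit 179)) (XT.nd (nat_lit 78) (nat_lit 0) (nat_lit 0) (XT.lf (nat_lit 0) (nat_lit 4474896358735) (nat_lit 76) (nat_lit 632976649916) (nat_lit 76) (nat_lit 369363022642) (nat_lit 3) (nat_lit 4) (nat_lit 4) (nat_lit 5) (nat_lit 4) (nat_lit 4) (nat_lit 321) (nat_lit 281) (nat_lit 178)) (XT.lf (nat_lit 0) (nat_lit 5765501913733)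 (nat_lit 76) (nat_lit 385737300618) (nat_lit 76) (nat_lit 122123654092) (nat_lit 3) (nat_lit 4) (nat_lit 4) (nat_lit 5) (nat_lit 4) (nat_lit 4) (nat_lit 322) (nat_lit 281) (nat_lit 177)))) (XT.nd (nat_lit 156) (nat_lit 0) (nat_lit 0) (XT.nd (nat_lit 78) (nat_lit 0) (nat_lit 0) (XT.lf (nat_lit 0) (nat_lit 59884180265) (nat_lit 76) (nat_lit 95643629125) (nat_lit 152) (nat_lit 7032953631837) (nat_lit 1) (nat_lit 5) (nat_lit 2) (nat_lit 5) (nat_lit 3) (nat_lit 4) (nat_lit 323) (nat_lit 281) (nat_lit 176)) (XT.lf (nat_lit 0) (nat_lit 488694378035) (nat_lit 152) (nat_lit 7505624141660) (nat_lit 0) (nat_lit 244607639308) (nat_lit 1) (nat_lit 5) (nat_lit 3) (nat_lit 4) (nat_lit 1) (nat_lit 4) (nat_lit 324) (nat_lit 281) (nat_lit 175))) (XT.nd (nat_lit 78) (nat_lit 0) (nat_lit 0) (XT.lf (nat_lit 0) (nat_lit 874481162252) (nat_lit 152) (nat_lit 7941850391978) (nat_lit 0) (nat_lit 630394411805) (nat_lit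 1) (nat_lit 5) (nat_lit 3) (nat_lit 4) (nat_lit 1) (nat_lit 4) (nat_lit 325) (nat_lit 281) (nat_lit 174)) (XT.lf (nat_lit 0) (nat_lit 1318135932762) (nat_lit 152) (nat_lit 8443510641755) (nat_lit 0) (nat_lit 1074049172122) (nat_lit 1) (nat_lit 5) (nat_lit 3) (nat_lit 4) (nat_lit 1) (nat_lit 4) (nat_lit 326) (nat_lit 281) (nat_lit 173)))))) (XT.nd (nat_lit 546) (nat_lit 1140) (nat_lit 0) (XT.nd (nat_lit 234) (nat_lit 836) (nat_lit 0) (XT.nd (nat_lit 78) (nat_lit 0) (nat_lit 0) (XT.lf (nat_lit 0) (nat_lit 30454325455) (nat_lit 532) (nat_lit 6853655174) (nat_lit 532) (nat_lit 6853655174) (nat_lit 49) (nat_lit 3) (nat_lit 56) (nat_lit 3) (nat_lit 56) (nat_lit 5) (nat_lit 282) (nat_lit 282) (nat_lit 216)) (XT.nd (nat_lit 78) (nat_lit 0) (nat_lit 76) (XT.lf (nat_lit 76) (nat_lit 66492997964) (nat_lit 0) (nat_lit 596850627) (nat_lit 532) (nat_lit 27728589870) (nat_lit 50) (nat_lit 5) (nat_lit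 49) (nat_lit 3) (nat_lit 56) (nat_lit 5) (nat_lit 283) (nat_lit 282) (nat_lit 215)) (XT.lf (nat_lit 76) (nat_lit 58162137658) (nat_lit 0) (nat_lit 19874678776) (nat_lit 532) (nat_lit 23943982830) (nat_lit 51) (nat_lit 5) (nat_lit 50) (nat_lit 5) (nat_lit 57) (nat_lit 5) (nat_lit 284) (nat_lit 282) (nat_lit 214)))) (XT.nd (nat_lit 156) (nat_lit 608) (nat_lit 0) (XT.nd (nat_lit 78) (nat_lit 380) (nat_lit 0) (XT.lf (nat_lit 76) (nat_lit 50040139364) (nat_lit 0) (nat_lit 44259629141) (nat_lit 532) (nat_lit 15623835917) (nat_lit 52) (nat_lit 5) (nat_lit 51) (nat_lit 5) (nat_lit 58) (nat_lit 5) (nat_lit 285) (nat_lit 282) (nat_lit 213)) (XT.lf (nat_lit 0) (nat_lit 42158984944) (nat_lit 456) (nat_lit 74754682178) (nat_lit 532) (nat_lit 1831247592) (nat_lit 46) (nat_lit 5) (nat_lit 52) (nat_lit 5) (nat_lit 53) (nat_lit 5) (nat_lit 286) (nat_lit 282) (nat_lit 212))) (XT.nd (nat_lit 78) (nat_lit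 228) (nat_lit 0) (XT.lf (nat_lit 0) (nat_lit 17586071746) (nat_lit 380) (nat_lit 94470378345) (nat_lit 76) (nat_lit 16465365692) (nat_lit 41) (nat_lit 5) (nat_lit 46) (nat_lit 5) (nat_lit 42) (nat_lit 5) (nat_lit 287) (nat_lit 282) (nat_lit 211)) (XT.lf (nat_lit 0) (nat_lit 25429687609) (nat_lit 228) (nat_lit 19346136106) (nat_lit 304) (nat_lit 94588165167) (nat_lit 38) (nat_lit 5) (nat_lit 41) (nat_lit 5) (nat_lit 42) (nat_lit 5) (nat_lit 288) (nat_lit 282) (nat_lit 210))))) (XT.nd (nat_lit 234) (nat_lit 684) (nat_lit 0) (XT.nd (nat_lit 78) (nat_lit 228) (nat_lit 0) (XT.lf (nat_lit 0) (nat_lit 16054313290) (nat_lit 228) (nat_lit 65295137841) (nat_lit 304) (nat_lit 70058606640) (nat_lit 35) (nat_lit 5) (nat_lit 38) (nat_lit 5) (nat_lit 39) (nat_lit 5) (nat_lit 289) (nat_lit 282) (nat_lit 209)) (XT.nd (nat_lit 78) (nat_lit 76) (nat_lit 0) (XT.lf (nat_lit 0) (nat_lit 6159003034) (nat_lit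 152) (nat_lit 122308927167) (nat_lit 228) (nat_lit 36386104657) (nat_lit 33) (nat_lit 5) (nat_lit 35) (nat_lit 5) (nat_lit 36) (nat_lit 5) (nat_lit 290) (nat_lit 282) (nat_lit 208)) (XT.lf (nat_lit 0) (nat_lit 8068127831) (nat_lit 228) (nat_lit 4872369094) (nat_lit 76) (nat_lit 166904094645) (nat_lit 32) (nat_lit 5) (nat_lit 35) (nat_lit 5) (nat_lit 33) (nat_lit 5) (nat_lit 291) (nat_lit 282) (nat_lit 207)))) (XT.nd (nat_lit 156) (nat_lit 304) (nat_lit 0) (XT.nd (nat_lit 78) (nat_lit 152) (nat_lit 0) (XT.lf (nat_lit 0) (nat_lit 64278025439) (nat_lit 304) (nat_lit 19487750382) (nat_lit 76) (nat_lit 112662990713) (nat_lit 29) (nat_lit 5) (nat_lit 33) (nat_lit 5) (nat_lit 30) (nat_lit 5) (nat_lit 292) (nat_lit 282) (nat_lit 206)) (XT.lf (nat_lit 0) (nat_lit 134836902169) (nat_lit 228) (nat_lit 36768402760) (nat_lit 76) (nat_lit 43421864755) (nat_lit 27) (nat_lit 5) (nat_lit 30) (nat_lit 5)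 (nat_lit 28) (nat_lit 5) (nat_lit 293) (nat_lit 282) (nat_lit 205))) (XT.nd (nat_lit 78) (nat_lit 152) (nat_lit 0) (XT.lf (nat_lit 0) (nat_lit 176998920913) (nat_lit 152) (nat_lit 46135542280) (nat_lit 228) (nat_lit 12708483198) (nat_lit 25) (nat_lit 5) (nat_lit 27) (nat_lit 5) (nat_lit 28) (nat_lit 5) (nat_lit 294) (nat_lit 282) (nat_lit 204)) (XT.lf (nat_lit 0) (nat_lit 69430252442) (nat_lit 152) (nat_lit 89377361946) (nat_lit 76) (nat_lit 100226135239) (nat_lit 23) (nat_lit 5) (nat_lit 25) (nat_lit 5) (nat_lit 24) (nat_lit 5) (nat_lit 295) (nat_lit 282) (nat_lit 203))))))))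
noncomputable def xc48 : XT := (XT.nd (nat_lit 2028) (nat_lit 152) (nat_lit 0) (XT.nd (nat_lit 1014) (nat_lit 304) (nat_lit 0) (XT.nd (nat_lit 468) (nat_lit 532) (nat_lit 0) (XT.nd (nat_lit 234) (nat_lit 228) (nat_lit 0) (XT.nd (nat_lit 78) (nat_lit 304) (nat_lit 0) (XT.lf (nat_lit 0) (nat_lit 156589297366) (nat_lit 152) (nat_lit 13368357256) (nat_lit 228) (nat_lit 115173485186) (nat_lit 21) (nat_lit 5) (nat_lit 23) (nat_lit 5) (nat_lit 24) (nat_lit 5) (nat_lit 296) (nat_lit 282) (nat_lit 202)) (XT.nd (nat_lit 78) (nat_lit 228) (nat_lit 0) (XT.lf (nat_lit 0) (nat_lit 132802075042) (nat_lit 76) (nat_lit 162326033104) (nat_lit 152) (nat_lit 19249915884) (nat_lit 20) (nat_lit 5) (nat_lit 21) (nat_lit 5) (nat_lit 22) (nat_lit 4) (nat_lit 297) (nat_lit 282) (nat_lit 201)) (XT.lf (nat_lit 0) (nat_lit 93074112910) (nat_lit 228) (nat_lit 251836539926) (nat_lit 76) (nat_lit 2400706975) (nat_lit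 17) (nat_lit 5) (nat_lit 20) (nat_lit 5) (nat_lit 18) (nat_lit 4) (nat_lit 298) (nat_lit 282) (nat_lit 200)))) (XT.nd (nat_lit 78) (nat_lit 152) (nat_lit 0) (XT.lf (nat_lit 0) (nat_lit 37008201514) (nat_lit 76) (nat_lit 194933869919) (nat_lit 152) (nat_lit 152335814439) (nat_lit 16) (nat_lit 5) (nat_lit 17) (nat_lit 5) (nat_lit 18) (nat_lit 4) (nat_lit 299) (nat_lit 282) (nat_lit 199)) (XT.nd (nat_lit 78) (nat_lit 152) (nat_lit 0) (XT.lf (nat_lit 0) (nat_lit 384429235758) (nat_lit 76) (nat_lit 14542435035) (nat_lit 152) (nat_lit 27231204769) (nat_lit 16) (nat_lit 5) (nat_lit 17) (nat_lit 5) (nat_lit 18) (nat_lit 4) (nat_lit 300) (nat_lit 282) (nat_lit 198)) (XT.lf (nat_lit 0) (nat_lit 123483471027) (nat_lit 152) (nat_lit 155591697362) (nat_lit 76) (nat_lit 194102701085) (nat_lit 14) (nat_lit 5) (nat_lit 16) (nat_lit 5) (nat_lit 15) (nat_lit 4) (nat_lit 301) (nat_lit 282) (nat_lit 197)))))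 (XT.nd (nat_lit 234) (nat_lit 304) (nat_lit 0) (XT.nd (nat_lit 78) (nat_lit 152) (nat_lit 0) (XT.lf (nat_lit 0) (nat_lit 215889818307) (nat_lit 76) (nat_lit 86190714469) (nat_lit 152) (nat_lit 224510989654) (nat_lit 13) (nat_lit 5) (nat_lit 14) (nat_lit 5) (nat_lit 15) (nat_lit 4) (nat_lit 302) (nat_lit 282) (nat_lit 196)) (XT.nd (nat_lit 78) (nat_lit 76) (nat_lit 0) (XT.lf (nat_lit 0) (nat_lit 64718173112) (nat_lit 76) (nat_lit 452214432201) (nat_lit 76) (nat_lit 70327382188) (nat_lit 12) (nat_lit 4) (nat_lit 13) (nat_lit 5) (nat_lit 13) (nat_lit 4) (nat_lit 303) (nat_lit 282) (nat_lit 195)) (XT.lf (nat_lit 0) (nat_lit 113296168123) (nat_lit 152) (nat_lit 146231281302) (nat_lit 76) (nat_lit 396362303132) (nat_lit 11) (nat_lit 5) (nat_lit 13) (nat_lit 5) (nat_lit 12) (nat_lit 4) (nat_lit 304) (nat_lit 282) (nat_lit 194)))) (XT.nd (nat_lit 156) (nat_lit 228) (nat_lit 0) (XT.nd (nat_lit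 78) (nat_lit 0) (nat_lit 0) (XT.lf (nat_lit 0) (nat_lit 299565661150) (nat_lit 76) (nat_lit 28056069183) (nat_lit 152) (nat_lit 406460305810) (nat_lit 10) (nat_lit 5) (nat_lit 11) (nat_lit 5) (nat_lit 12) (nat_lit 4) (nat_lit 305) (nat_lit 282) (nat_lit 193)) (XT.lf (nat_lit 0) (nat_lit 584190960957) (nat_lit 152) (nat_lit 8413408703) (nat_lit 0) (nat_lit 230591206061) (nat_lit 10) (nat_lit 5) (nat_lit 12) (nat_lit 4) (nat_lit 10) (nat_lit 4) (nat_lit 306) (nat_lit 282) (nat_lit 192))) (XT.nd (nat_lit 78) (nat_lit 152) (nat_lit 0) (XT.lf (nat_lit 0) (nat_lit 506148147390) (nat_lit 76) (nat_lit 386046013025) (nat_lit 76) (nat_lit 32446099237) (nat_lit 9) (nat_lit 4) (nat_lit 10) (nat_lit 5) (nat_lit 10) (nat_lit 4) (nat_lit 307) (nat_lit 282) (nat_lit 191)) (XT.lf (nat_lit 0) (nat_lit 54929811651) (nat_lit 76) (nat_lit 141478776620) (nat_lit 152) (nat_lit 844372681603) (nat_lit 7) (nat_lit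 5) (nat_lit 8) (nat_lit 5) (nat_lit 9) (nat_lit 4) (nat_lit 308) (nat_lit 282) (nat_lit 190)))))) (XT.nd (nat_lit 468) (nat_lit 76) (nat_lit 0) (XT.nd (nat_lit 234) (nat_lit 152) (nat_lit 0) (XT.nd (nat_lit 78) (nat_lit 76) (nat_lit 0) (XT.lf (nat_lit 0) (nat_lit 473586681995) (nat_lit 152) (nat_lit 553236904103) (nat_lit 0) (nat_lit 146179115236) (nat_lit 7) (nat_lit 5) (nat_lit 9) (nat_lit 4) (nat_lit 7) (nat_lit 4) (nat_lit 309) (nat_lit 282) (nat_lit 189)) (XT.nd (nat_lit 78) (nat_lit 76) (nat_lit 0) (XT.lf (nat_lit 0) (nat_lit 796254251915) (nat_lit 152) (nat_lit 59643486302) (nat_lit 0) (nat_lit 468846588421) (nat_lit 7) (nat_lit 5) (nat_lit 9) (nat_lit 4) (nat_lit 7) (nat_lit 4) (nat_lit 310) (nat_lit 282) (nat_lit 188)) (XT.lf (nat_lit 0) (nat_lit 534738406477) (nat_lit 76) (nat_lit 645443856261) (nat_lit 76) (nat_lit 318036108649) (nat_lit 6) (nat_lit 4) (nat_lit 7) (nat_lit 5)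 (nat_lit 7) (nat_lit 4) (nat_lit 311) (nat_lit 282) (nat_lit 187)))) (XT.nd (nat_lit 78) (nat_lit 152) (nat_lit 0) (XT.lf (nat_lit 0) (nat_lit 1221889119979) (nat_lit 76) (nat_lit 401546659669) (nat_lit 76) (nat_lit 74138838912) (nat_lit 6) (nat_lit 4) (nat_lit 7) (nat_lit 5) (nat_lit 7) (nat_lit 4) (nat_lit 312) (nat_lit 282) (nat_lit 186)) (XT.nd (nat_lit 78) (nat_lit 0) (nat_lit 0) (XT.lf (nat_lit 0) (nat_lit 84544584936) (nat_lit 76) (nat_lit 113509486841) (nat_lit 152) (nat_lit 1728220573594) (nat_lit 4) (nat_lit 5) (nat_lit 5) (nat_lit 5) (nat_lit 6) (nat_lit 4) (nat_lit 313) (nat_lit 282) (nat_lit 185)) (XT.lf (nat_lit 0) (nat_lit 526256037075) (nat_lit 152) (nat_lit 1438203449900) (nat_lit 0) (nat_lit 223100537380) (nat_lit 4) (nat_lit 5) (nat_lit 6) (nat_lit 4) (nat_lit 4) (nat_lit 4) (nat_lit 314) (nat_lit 282) (nat_lit 184))))) (XT.nd (nat_lit 234) (nat_lit 0) (nat_lit 0) (XT.nd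 (nat_lit 78) (nat_lit 76) (nat_lit 0) (XT.lf (nat_lit 0) (nat_lit 906827579315) (nat_lit 152) (nat_lit 977287453254) (nat_lit 0) (nat_lit 603672035088) (nat_lit 4) (nat_lit 5) (nat_lit 6) (nat_lit 4) (nat_lit 4) (nat_lit 4) (nat_lit 315) (nat_lit 282) (nat_lit 183)) (XT.nd (nat_lit 78) (nat_lit 76) (nat_lit 0) (XT.lf (nat_lit 0) (nat_lit 1344484757567) (nat_lit 152) (nat_lit 447234242939) (nat_lit 0) (nat_lit 1041329174616) (nat_lit 4) (nat_lit 5) (nat_lit 6) (nat_lit 4) (nat_lit 4) (nat_lit 4) (nat_lit 316) (nat_lit 282) (nat_lit 182)) (XT.lf (nat_lit 0) (nat_lit 170874628289) (nat_lit 76) (nat_lit 1681025340294) (nat_lit 76) (nat_lit 1377869723671) (nat_lit 3) (nat_lit 4) (nat_lit 4) (nat_lit 5) (nat_lit 4) (nat_lit 4) (nat_lit 317) (nat_lit 282) (nat_lit 181)))) (XT.nd (nat_lit 156) (nat_lit 0) (nat_lit 0) (XT.nd (nat_lit 78) (nat_lit 0) (nat_lit 0) (XT.lf (nat_lit 0) (nat_lit 908782829358)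 (nat_lit 76) (nat_lit 1539665300040) (nat_lit 76) (nat_lit 1236509654137) (nat_lit 3) (nat_lit 4) (nat_lit 4) (nat_lit 5) (nat_lit 4) (nat_lit 4) (nat_lit 318) (nat_lit 282) (nat_lit 180)) (XT.lf (nat_lit 0) (nat_lit 1757377131969) (nat_lit 76) (nat_lit 1377101316594) (nat_lit 76) (nat_lit 1073945645230) (nat_lit 3) (nat_lit 4) (nat_lit 4) (nat_lit 5) (nat_lit 4) (nat_lit 4) (nat_lit 319) (nat_lit 282) (nat_lit 179))) (XT.nd (nat_lit 78) (nat_lit 0) (nat_lit 0) (XT.lf (nat_lit 0) (nat_lit 2733260468131) (nat_lit 76) (nat_lit 1190152790281) (nat_lit 76) (nat_lit 886997096776) (nat_lit 3) (nat_lit 4) (nat_lit 4) (nat_lit 5) (nat_lit 4) (nat_lit 4) (nat_lit 320) (nat_lit 282) (nat_lit 178)) (XT.lf (nat_lit 0) (nat_lit 3855526207464) (nat_lit 76) (nat_lit 975162032542) (nat_lit 76) (nat_lit 672006319785) (nat_lit 3) (nat_lit 4) (nat_lit 4) (nat_lit 5) (nat_lit 4) (nat_lit 4) (nat_lit 321)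 (nat_lit 282) (nat_lit 177))))))) (XT.nd (nat_lit 38220) (nat_lit 0) (nat_lit 912) (XT.nd (nat_lit 37674) (nat_lit 0) (nat_lit 2584) (XT.nd (nat_lit 234) (nat_lit 0) (nat_lit 0) (XT.nd (nat_lit 78) (nat_lit 152) (nat_lit 0) (XT.lf (nat_lit 0) (nat_lit 5146131723128) (nat_lit 76) (nat_lit 727922702464) (nat_lit 76) (nat_lit 424766972966) (nat_lit 3) (nat_lit 4) (nat_lit 4) (nat_lit 5) (nat_lit 4) (nat_lit 4) (nat_lit 322) (nat_lit 282) (nat_lit 176)) (XT.nd (nat_lit 78) (nat_lit 152) (nat_lit 0) (XT.lf (nat_lit 0) (nat_lit 6630327992605) (nat_lit 76) (nat_lit 443597508808) (nat_lit 76) (nat_lit 140441764752) (nat_lit 3) (nat_lit 4) (nat_lit 4) (nat_lit 5) (nat_lit 4) (nat_lit 4) (nat_lit 323) (nat_lit 282) (nat_lit 175)) (XT.lf (nat_lit 0) (nat_lit 68867552255) (nat_lit 76) (nat_lit 109989807826) (nat_lit 152) (nat_lit 8087896266864) (nat_lit 1) (nat_lit 5) (nat_lit 2) (nat_lit 5) (nat_lit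 3) (nat_lit 4) (nat_lit 324) (nat_lit 282) (nat_lit 174)))) (XT.nd (nat_lit 78) (nat_lit 0) (nat_lit 0) (XT.lf (nat_lit 0) (nat_lit 561998872198) (nat_lit 152) (nat_lit 8631467096281) (nat_lit 0) (nat_lit 281299087270) (nat_lit 1) (nat_lit 5) (nat_lit 3) (nat_lit 4) (nat_lit 1) (nat_lit 4) (nat_lit 325) (nat_lit 282) (nat_lit 173)) (XT.nd (nat_lit 37284) (nat_lit 0) (nat_lit 3648) (XT.lf (nat_lit 0) (nat_lit 1005653630032) (nat_lit 152) (nat_lit 9133127371098) (nat_lit 0) (nat_lit 724953836241) (nat_lit 1) (nat_lit 5) (nat_lit 3) (nat_lit 4) (nat_lit 1) (nat_lit 4) (nat_lit 326) (nat_lit 282) (nat_lit 172)) (XT.lf (nat_lit 0) (nat_lit 35035789753) (nat_lit 532) (nat_lit 7874496504) (nat_lit 532) (nat_lit 7874496504) (nat_lit 49) (nat_lit 3) (nat_lit 56) (nat_lit 3) (nat_lit 56) (nat_lit 5) (nat_lit 283) (nat_lit 283) (nat_lit 214))))) (XT.nd (nat_lit 234) (nat_lit 1064) (nat_lit 0) (XT.nd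 (nat_lit 78) (nat_lit 0) (nat_lit 76) (XT.lf (nat_lit 76) (nat_lit 76480141488) (nat_lit 0) (nat_lit 696659061) (nat_lit 532) (nat_lit 31862468013) (nat_lit 50) (nat_lit 5) (nat_lit 49) (nat_lit 3) (nat_lit 56) (nat_lit 5) (nat_lit 284) (nat_lit 283) (nat_lit 213)) (XT.nd (nat_lit 78) (nat_lit 0) (nat_lit 76) (XT.lf (nat_lit 76) (nat_lit 66900533493) (nat_lit 0) (nat_lit 22862341666) (nat_lit 532) (nat_lit 27513350925) (nat_lit 51) (nat_lit 5) (nat_lit 50) (nat_lit 5) (nat_lit 57) (nat_lit 5) (nat_lit 285) (nat_lit 283) (nat_lit 212)) (XT.lf (nat_lit 76) (nat_lit 57560736058) (nat_lit 0) (nat_lit 50902070768) (nat_lit 532) (nat_lit 17947848791) (nat_lit 52) (nat_lit 5) (nat_lit 51) (nat_lit 5) (nat_lit 58) (nat_lit 5) (nat_lit 286) (nat_lit 283) (nat_lit 211)))) (XT.nd (nat_lit 156) (nat_lit 456) (nat_lit 0) (XT.nd (nat_lit 78) (nat_lit 380) (nat_lit 0) (XT.lf (nat_lit 0) (nat_lit 48497615090)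 (nat_lit 456) (nat_lit 85969100170) (nat_lit 532) (nat_lit 2088618881) (nat_lit 46) (nat_lit 5) (nat_lit 52) (nat_lit 5) (nat_lit 53) (nat_lit 5) (nat_lit 287) (nat_lit 283) (nat_lit 210)) (XT.lf (nat_lit 0) (nat_lit 20238624762) (nat_lit 380) (nat_lit 108625369371) (nat_lit 76) (nat_lit 18934892094) (nat_lit 41) (nat_lit 5) (nat_lit 46) (nat_lit 5) (nat_lit 42) (nat_lit 5) (nat_lit 288) (nat_lit 283) (nat_lit 209))) (XT.nd (nat_lit 78) (nat_lit 228) (nat_lit 0) (XT.lf (nat_lit 0) (nat_lit 29258388915) (nat_lit 228) (nat_lit 22246883421) (nat_lit 304) (nat_lit 108762242314) (nat_lit 38) (nat_lit 5) (nat_lit 41) (nat_lit 5) (nat_lit 42) (nat_lit 5) (nat_lit 289) (nat_lit 283) (nat_lit 208)) (XT.lf (nat_lit 0) (nat_lit 18476458364) (nat_lit 228) (nat_lit 75087141244) (nat_lit 304) (nat_lit 80554705269) (nat_lit 35) (nat_lit 5) (nat_lit 38) (nat_lit 5) (nat_lit 39) (nat_lit 5) (nat_lit 290)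 (nat_lit 283) (nat_lit 207)))))) (XT.nd (nat_lit 468) (nat_lit 760) (nat_lit 0) (XT.nd (nat_lit 234) (nat_lit 456) (nat_lit 0) (XT.nd (nat_lit 78) (nat_lit 304) (nat_lit 0) (XT.lf (nat_lit 0) (nat_lit 7096496959) (nat_lit 152) (nat_lit 140652199016) (nat_lit 228) (nat_lit 41832577929) (nat_lit 33) (nat_lit 5) (nat_lit 35) (nat_lit 5) (nat_lit 36) (nat_lit 5) (nat_lit 291) (nat_lit 283) (nat_lit 206)) (XT.nd (nat_lit 78) (nat_lit 228) (nat_lit 0) (XT.lf (nat_lit 0) (nat_lit 9287799206) (nat_lit 228) (nat_lit 5590846666) (nat_lit 76) (nat_lit 191941862089) (nat_lit 32) (nat_lit 5) (nat_lit 35) (nat_lit 5) (nat_lit 33) (nat_lit 5) (nat_lit 292) (nat_lit 283) (nat_lit 205)) (XT.lf (nat_lit 0) (nat_lit 73928289309) (nat_lit 304) (nat_lit 22398957721) (nat_lit 76) (nat_lit 129565135619) (nat_lit 29) (nat_lit 5) (nat_lit 33) (nat_lit 5) (nat_lit 30) (nat_lit 5) (nat_lit 293) (nat_lit 283) (nat_lit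 204)))) (XT.nd (nat_lit 78) (nat_lit 304) (nat_lit 0) (XT.lf (nat_lit 0) (nat_lit 155070222045) (nat_lit 228) (nat_lit 42272168982) (nat_lit 76) (nat_lit 49938219120) (nat_lit 27) (nat_lit 5) (nat_lit 30) (nat_lit 5) (nat_lit 28) (nat_lit 5) (nat_lit 294) (nat_lit 283) (nat_lit 203)) (XT.nd (nat_lit 78) (nat_lit 152) (nat_lit 0) (XT.lf (nat_lit 0) (nat_lit 203559280316) (nat_lit 152) (nat_lit 53052374566) (nat_lit 228) (nat_lit 14607161058) (nat_lit 25) (nat_lit 5) (nat_lit 27) (nat_lit 5) (nat_lit 28) (nat_lit 5) (nat_lit 295) (nat_lit 283) (nat_lit 202)) (XT.lf (nat_lit 0) (nat_lit 79851387704) (nat_lit 152) (nat_lit 102773532649) (nat_lit 76) (nat_lit 115263355366) (nat_lit 23) (nat_lit 5) (nat_lit 25) (nat_lit 5) (nat_lit 24) (nat_lit 5) (nat_lit 296) (nat_lit 283) (nat_lit 201))))) (XT.nd (nat_lit 234) (nat_lit 304) (nat_lit 0) (XT.nd (nat_lit 78) (nat_lit 304) (nat_lit 0) (XT.lf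 (nat_lit 0) (nat_lit 180087242408) (nat_lit 152) (nat_lit 15370026961) (nat_lit 228) (nat_lit 132443056641) (nat_lit 21) (nat_lit 5) (nat_lit 23) (nat_lit 5) (nat_lit 24) (nat_lit 5) (nat_lit 297) (nat_lit 283) (nat_lit 200)) (XT.nd (nat_lit 78) (nat_lit 228) (nat_lit 0) (XT.lf (nat_lit 0) (nat_lit 152731493177) (nat_lit 76) (nat_lit 186671313469) (nat_lit 152) (nat_lit 22131475933) (nat_lit 20) (nat_lit 5) (nat_lit 21) (nat_lit 5) (nat_lit 22) (nat_lit 4) (nat_lit 298) (nat_lit 283) (nat_lit 199)) (XT.lf (nat_lit 0) (nat_lit 107040417759) (nat_lit 228) (nat_lit 289603078900) (nat_lit 76) (nat_lit 2764146880) (nat_lit 17) (nat_lit 5) (nat_lit 20) (nat_lit 5) (nat_lit 18) (nat_lit 4) (nat_lit 299) (nat_lit 283) (nat_lit 198)))) (XT.nd (nat_lit 156) (nat_lit 228) (nat_lit 0) (XT.nd (nat_lit 78) (nat_lit 0) (nat_lit 0) (XT.lf (nat_lit 0) (nat_lit 42567616860) (nat_lit 76) (nat_lit 224170473368)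 (nat_lit 152) (nat_lit 175181097347) (nat_lit 16) (nat_lit 5) (nat_lit 17) (nat_lit 5) (nat_lit 18) (nat_lit 4) (nat_lit 300) (nat_lit 283) (nat_lit 197)) (XT.lf (nat_lit 0) (nat_lit 442100738616) (nat_lit 76) (nat_lit 16720776778) (nat_lit 152) (nat_lit 31311460043) (nat_lit 16) (nat_lit 5) (nat_lit 17) (nat_lit 5) (nat_lit 18) (nat_lit 4) (nat_lit 301) (nat_lit 283) (nat_lit 196))) (XT.nd (nat_lit 78) (nat_lit 76) (nat_lit 0) (XT.lf (nat_lit 0) (nat_lit 142009878863) (nat_lit 152) (nat_lit 178923492226) (nat_lit 76) (nat_lit 223220864661) (nat_lit 14) (nat_lit 5) (nat_lit 16) (nat_lit 5) (nat_lit 15) (nat_lit 4) (nat_lit 302) (nat_lit 283) (nat_lit 195)) (XT.lf (nat_lit 0) (nat_lit 248279661687) (nat_lit 76) (nat_lit 99116484377) (nat_lit 152) (nat_lit 258183819303) (nat_lit 13) (nat_lit 5) (nat_lit 14) (nat_lit 5) (nat_lit 15) (nat_lit 4) (nat_lit 303) (nat_lit 283) (nat_lit 194))))))))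
noncomputable def xc49 : XT := (XT.nd (nat_lit 39312) (nat_lit 0) (nat_lit 456) (XT.nd (nat_lit 1014) (nat_lit 228) (nat_lit 0) (XT.nd (nat_lit 468) (nat_lit 228) (nat_lit 0) (XT.nd (nat_lit 234) (nat_lit 228) (nat_lit 0) (XT.nd (nat_lit 78) (nat_lit 152) (nat_lit 0) (XT.lf (nat_lit 0) (nat_lit 74431929278) (nat_lit 76) (nat_lit 520043843691) (nat_lit 76) (nat_lit 80872948110) (nat_lit 12) (nat_lit 4) (nat_lit 13) (nat_lit 5) (nat_lit 13) (nat_lit 4) (nat_lit 304) (nat_lit 283) (nat_lit 193)) (XT.nd (nat_lit 78) (nat_lit 76) (nat_lit 0) (XT.lf (nat_lit 0) (nat_lit 130293518778) (nat_lit 152) (nat_lit 168160573866) (nat_lit 76) (nat_lit 455818886831) (nat_lit 11) (nat_lit 5) (nat_lit 13) (nat_lit 5) (nat_lit 12) (nat_lit 4) (nat_lit 305) (nat_lit 283) (nat_lit 192)) (XT.lf (nat_lit 0) (nat_lit 344505452903) (nat_lit 76) (nat_lit 32262199708) (nat_lit 152) (nat_lit 467426474257) (nat_lit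 10) (nat_lit 5) (nat_lit 11) (nat_lit 5) (nat_lit 12) (nat_lit 4) (nat_lit 306) (nat_lit 283) (nat_lit 191)))) (XT.nd (nat_lit 78) (nat_lit 228) (nat_lit 0) (XT.lf (nat_lit 0) (nat_lit 671821968194) (nat_lit 152) (nat_lit 9670983097) (nat_lit 0) (nat_lit 265181770279) (nat_lit 10) (nat_lit 5) (nat_lit 12) (nat_lit 4) (nat_lit 10) (nat_lit 4) (nat_lit 307) (nat_lit 283) (nat_lit 190)) (XT.nd (nat_lit 78) (nat_lit 152) (nat_lit 0) (XT.lf (nat_lit 0) (nat_lit 582074430846) (nat_lit 76) (nat_lit 443951006170) (nat_lit 76) (nat_lit 37310688110) (nat_lit 9) (nat_lit 4) (nat_lit 10) (nat_lit 5) (nat_lit 10) (nat_lit 4) (nat_lit 308) (nat_lit 283) (nat_lit 189)) (XT.lf (nat_lit 0) (nat_lit 63173108558) (nat_lit 76) (nat_lit 162698781389) (nat_lit 152) (nat_lit 971026408311) (nat_lit 7) (nat_lit 5) (nat_lit 8) (nat_lit 5) (nat_lit 9) (nat_lit 4) (nat_lit 309) (nat_lit 283) (nat_lit 188))))) (XT.nd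 (nat_lit 234) (nat_lit 152) (nat_lit 0) (XT.nd (nat_lit 78) (nat_lit 76) (nat_lit 0) (XT.lf (nat_lit 0) (nat_lit 544626472997) (nat_lit 152) (nat_lit 636219010427) (nat_lit 0) (nat_lit 168107479126) (nat_lit 7) (nat_lit 5) (nat_lit 9) (nat_lit 4) (nat_lit 7) (nat_lit 4) (nat_lit 310) (nat_lit 283) (nat_lit 187)) (XT.nd (nat_lit 78) (nat_lit 76) (nat_lit 0) (XT.lf (nat_lit 0) (nat_lit 915693945095) (nat_lit 152) (nat_lit 68587027255) (nat_lit 0) (nat_lit 539174878079) (nat_lit 7) (nat_lit 5) (nat_lit 9) (nat_lit 4) (nat_lit 7) (nat_lit 4) (nat_lit 311) (nat_lit 283) (nat_lit 186)) (XT.lf (nat_lit 0) (nat_lit 614951897030) (nat_lit 76) (nat_lit 742259123280) (nat_lit 76) (nat_lit 365739992659) (nat_lit 6) (nat_lit 4) (nat_lit 7) (nat_lit 5) (nat_lit 7) (nat_lit 4) (nat_lit 312) (nat_lit 283) (nat_lit 185)))) (XT.nd (nat_lit 156) (nat_lit 0) (nat_lit 0) (XT.nd (nat_lit 78) (nat_lit 152) (nat_lit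 0) (XT.lf (nat_lit 0) (nat_lit 1405174861526) (nat_lit 76) (nat_lit 461777518255) (nat_lit 76) (nat_lit 85258332325) (nat_lit 6) (nat_lit 4) (nat_lit 7) (nat_lit 5) (nat_lit 7) (nat_lit 4) (nat_lit 313) (nat_lit 283) (nat_lit 184)) (XT.lf (nat_lit 0) (nat_lit 97228506823) (nat_lit 76) (nat_lit 130534830122) (nat_lit 152) (nat_lit 1987452412409) (nat_lit 4) (nat_lit 5) (nat_lit 5) (nat_lit 5) (nat_lit 6) (nat_lit 4) (nat_lit 314) (nat_lit 283) (nat_lit 183))) (XT.nd (nat_lit 78) (nat_lit 0) (nat_lit 0) (XT.lf (nat_lit 0) (nat_lit 605195469045) (nat_lit 152) (nat_lit 1653931966513) (nat_lit 0) (nat_lit 256566509928) (nat_lit 4) (nat_lit 5) (nat_lit 6) (nat_lit 4) (nat_lit 4) (nat_lit 4) (nat_lit 315) (nat_lit 283) (nat_lit 182)) (XT.lf (nat_lit 0) (nat_lit 1042852608742) (nat_lit 152) (nat_lit 1123878831355) (nat_lit 0) (nat_lit 694223615953) (nat_lit 4) (nat_lit 5) (nat_lit 6) (nat_lit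 4) (nat_lit 4) (nat_lit 4) (nat_lit 316) (nat_lit 283) (nat_lit 181)))))) (XT.nd (nat_lit 468) (nat_lit 152) (nat_lit 0) (XT.nd (nat_lit 234) (nat_lit 0) (nat_lit 0) (XT.nd (nat_lit 78) (nat_lit 76) (nat_lit 0) (XT.lf (nat_lit 0) (nat_lit 1546158247314) (nat_lit 152) (nat_lit 514317866433) (nat_lit 0) (nat_lit 1197529225244) (nat_lit 4) (nat_lit 5) (nat_lit 6) (nat_lit 4) (nat_lit 4) (nat_lit 4) (nat_lit 317) (nat_lit 283) (nat_lit 180)) (XT.nd (nat_lit 78) (nat_lit 0) (nat_lit 0) (XT.lf (nat_lit 0) (nat_lit 196507207415) (nat_lit 76) (nat_lit 1933178464642) (nat_lit 76) (nat_lit 1584549417111) (nat_lit 3) (nat_lit 4) (nat_lit 4) (nat_lit 5) (nat_lit 4) (nat_lit 4) (nat_lit 318) (nat_lit 283) (nat_lit 179)) (XT.lf (nat_lit 0) (nat_lit 1045101458007) (nat_lit 76) (nat_lit 1770614506615) (nat_lit 76) (nat_lit 1421985436944) (nat_lit 3) (nat_lit 4) (nat_lit 4) (nat_lit 5) (nat_lit 4) (nat_lit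 4) (nat_lit 319) (nat_lit 283) (nat_lit 178)))) (XT.nd (nat_lit 78) (nat_lit 0) (nat_lit 0) (XT.lf (nat_lit 0) (nat_lit 2020984748935) (nat_lit 76) (nat_lit 1583666002404) (nat_lit 76) (nat_lit 1235036913481) (nat_lit 3) (nat_lit 4) (nat_lit 4) (nat_lit 5) (nat_lit 4) (nat_lit 4) (nat_lit 320) (nat_lit 283) (nat_lit 177)) (XT.nd (nat_lit 78) (nat_lit 0) (nat_lit 0) (XT.lf (nat_lit 0) (nat_lit 3143250448934) (nat_lit 76) (nat_lit 1368675263885) (nat_lit 76) (nat_lit 1020046158220) (nat_lit 3) (nat_lit 4) (nat_lit 4) (nat_lit 5) (nat_lit 4) (nat_lit 4) (nat_lit 321) (nat_lit 283) (nat_lit 176)) (XT.lf (nat_lit 0) (nat_lit 4433855930395) (nat_lit 76) (nat_lit 1121435950520) (nat_lit 76) (nat_lit 772806830298) (nat_lit 3) (nat_lit 4) (nat_lit 4) (nat_lit 5) (nat_lit 4) (nat_lit 4) (nat_lit 322) (nat_lit 283) (nat_lit 175))))) (XT.nd (nat_lit 234) (nat_lit 0) (nat_lit 0) (XT.nd (nat_lit 78)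 (nat_lit 152) (nat_lit 0) (XT.lf (nat_lit 0) (nat_lit 5918052170129) (nat_lit 76) (nat_lit 837110771396) (nat_lit 76) (nat_lit 488481638516) (nat_lit 3) (nat_lit 4) (nat_lit 4) (nat_lit 5) (nat_lit 4) (nat_lit 4) (nat_lit 323) (nat_lit 283) (nat_lit 174)) (XT.nd (nat_lit 78) (nat_lit 152) (nat_lit 0) (XT.lf (nat_lit 0) (nat_lit 7624877790218) (nat_lit 76) (nat_lit 510136842574) (nat_lit 76) (nat_lit 161507698686) (nat_lit 3) (nat_lit 4) (nat_lit 4) (nat_lit 5) (nat_lit 4) (nat_lit 4) (nat_lit 324) (nat_lit 283) (nat_lit 173)) (XT.lf (nat_lit 0) (nat_lit 79198248382) (nat_lit 76) (nat_lit 126488002503) (nat_lit 152) (nat_lit 9301080397065) (nat_lit 1) (nat_lit 5) (nat_lit 2) (nat_lit 5) (nat_lit 3) (nat_lit 4) (nat_lit 325) (nat_lit 283) (nat_lit 172)))) (XT.nd (nat_lit 37440) (nat_lit 0) (nat_lit 3648) (XT.nd (nat_lit 37362) (nat_lit 0) (nat_lit 3648) (XT.lf (nat_lit 0) (nat_lit 646298958195)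 (nat_lit 152) (nat_lit 9926186656657) (nat_lit 0) (nat_lit 323494178766) (nat_lit 1) (nat_lit 5) (nat_lit 3) (nat_lit 4) (nat_lit 1) (nat_lit 4) (nat_lit 326) (nat_lit 283) (nat_lit 171)) (XT.lf (nat_lit 0) (nat_lit 40301226632) (nat_lit 532) (nat_lit 9050221492) (nat_lit 532) (nat_lit 9050221492) (nat_lit 49) (nat_lit 3) (nat_lit 56) (nat_lit 3) (nat_lit 56) (nat_lit 5) (nat_lit 284) (nat_lit 284) (nat_lit 212))) (XT.nd (nat_lit 78) (nat_lit 0) (nat_lit 76) (XT.lf (nat_lit 76) (nat_lit 87962139141) (nat_lit 0) (nat_lit 808931712) (nat_lit 532) (nat_lit 36622624350) (nat_lit 50) (nat_lit 5) (nat_lit 49) (nat_lit 3) (nat_lit 56) (nat_lit 5) (nat_lit 285) (nat_lit 284) (nat_lit 211)) (XT.lf (nat_lit 76) (nat_lit 76946256380) (nat_lit 0) (nat_lit 26296578415) (nat_lit 532) (nat_lit 31623544996) (nat_lit 51) (nat_lit 5) (nat_lit 50) (nat_lit 5) (nat_lit 57) (nat_lit 5) (nat_lit 286) (nat_lit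 284) (nat_lit 210))))))) (XT.nd (nat_lit 1014) (nat_lit 988) (nat_lit 0) (XT.nd (nat_lit 468) (nat_lit 988) (nat_lit 0) (XT.nd (nat_lit 234) (nat_lit 608) (nat_lit 0) (XT.nd (nat_lit 78) (nat_lit 760) (nat_lit 0) (XT.lf (nat_lit 76) (nat_lit 66205867857) (nat_lit 0) (nat_lit 58540025811) (nat_lit 532) (nat_lit 20625234039) (nat_lit 52) (nat_lit 5) (nat_lit 51) (nat_lit 5) (nat_lit 58) (nat_lit 5) (nat_lit 287) (nat_lit 284) (nat_lit 209)) (XT.nd (nat_lit 78) (nat_lit 380) (nat_lit 0) (XT.lf (nat_lit 0) (nat_lit 55783434974) (nat_lit 456) (nat_lit 98865384414) (nat_lit 532) (nat_lit 2388818442) (nat_lit 46) (nat_lit 5) (nat_lit 52) (nat_lit 5) (nat_lit 53) (nat_lit 5) (nat_lit 288) (nat_lit 284) (nat_lit 208)) (XT.lf (nat_lit 0) (nat_lit 23285490123) (nat_lit 380) (nat_lit 124907404852) (nat_lit 76) (nat_lit 21774915358) (nat_lit 41) (nat_lit 5) (nat_lit 46) (nat_lit 5) (nat_lit 42) (nat_lit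 5) (nat_lit 289) (nat_lit 284) (nat_lit 207)))) (XT.nd (nat_lit 78) (nat_lit 380) (nat_lit 0) (XT.lf (nat_lit 0) (nat_lit 33657920912) (nat_lit 228) (nat_lit 25583028901) (nat_lit 304) (nat_lit 125065881022) (nat_lit 38) (nat_lit 5) (nat_lit 41) (nat_lit 5) (nat_lit 42) (nat_lit 5) (nat_lit 290) (nat_lit 284) (nat_lit 206)) (XT.nd (nat_lit 78) (nat_lit 152) (nat_lit 0) (XT.lf (nat_lit 0) (nat_lit 21258511679) (nat_lit 228) (nat_lit 86348498046) (nat_lit 304) (nat_lit 92628313806) (nat_lit 35) (nat_lit 5) (nat_lit 38) (nat_lit 5) (nat_lit 39) (nat_lit 5) (nat_lit 291) (nat_lit 284) (nat_lit 205)) (XT.lf (nat_lit 0) (nat_lit 8171287926) (nat_lit 152) (nat_lit 161747709605) (nat_lit 228) (nat_lit 48098812500) (nat_lit 33) (nat_lit 5) (nat_lit 35) (nat_lit 5) (nat_lit 36) (nat_lit 5) (nat_lit 292) (nat_lit 284) (nat_lit 204))))) (XT.nd (nat_lit 234) (nat_lit 532) (nat_lit 0) (XT.nd (nat_lit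 78) (nat_lit 380) (nat_lit 0) (XT.lf (nat_lit 0) (nat_lit 10688116308) (nat_lit 228) (nat_lit 6420114277) (nat_lit 76) (nat_lit 220734769566) (nat_lit 32) (nat_lit 5) (nat_lit 35) (nat_lit 5) (nat_lit 33) (nat_lit 5) (nat_lit 293) (nat_lit 284) (nat_lit 203)) (XT.nd (nat_lit 78) (nat_lit 152) (nat_lit 0) (XT.lf (nat_lit 0) (nat_lit 85024005335) (nat_lit 304) (nat_lit 25749761518) (nat_lit 76) (nat_lit 149001944751) (nat_lit 29) (nat_lit 5) (nat_lit 33) (nat_lit 5) (nat_lit 30) (nat_lit 5) (nat_lit 294) (nat_lit 284) (nat_lit 202)) (XT.lf (nat_lit 0) (nat_lit 178336641589) (nat_lit 228) (nat_lit 48604303068) (nat_lit 76) (nat_lit 57431276867) (nat_lit 27) (nat_lit 5) (nat_lit 30) (nat_lit 5) (nat_lit 28) (nat_lit 5) (nat_lit 295) (nat_lit 284) (nat_lit 201)))) (XT.nd (nat_lit 156) (nat_lit 228) (nat_lit 0) (XT.nd (nat_lit 78) (nat_lit 152) (nat_lit 0) (XT.lf (nat_lit 0) (nat_lit 234101127952)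 (nat_lit 152) (nat_lit 61007584962) (nat_lit 228) (nat_lit 16792492594) (nat_lit 25) (nat_lit 5) (nat_lit 27) (nat_lit 5) (nat_lit 28) (nat_lit 5) (nat_lit 296) (nat_lit 284) (nat_lit 200)) (XT.lf (nat_lit 0) (nat_lit 91834084439) (nat_lit 152) (nat_lit 118181673254) (nat_lit 76) (nat_lit 132555353824) (nat_lit 23) (nat_lit 5) (nat_lit 25) (nat_lit 5) (nat_lit 24) (nat_lit 5) (nat_lit 297) (nat_lit 284) (nat_lit 199))) (XT.nd (nat_lit 78) (nat_lit 76) (nat_lit 0) (XT.lf (nat_lit 0) (nat_lit 207107550273) (nat_lit 152) (nat_lit 17672821075) (nat_lit 228) (nat_lit 152304637011) (nat_lit 21) (nat_lit 5) (nat_lit 23) (nat_lit 5) (nat_lit 24) (nat_lit 5) (nat_lit 298) (nat_lit 284) (nat_lit 198)) (XT.lf (nat_lit 0) (nat_lit 175648103263) (nat_lit 76) (nat_lit 214669269771) (nat_lit 152) (nat_lit 25446715406) (nat_lit 20) (nat_lit 5) (nat_lit 21) (nat_lit 5) (nat_lit 22) (nat_lit 4) (nat_lit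 299) (nat_lit 284) (nat_lit 197)))))) (XT.nd (nat_lit 468) (nat_lit 380) (nat_lit 0) (XT.nd (nat_lit 234) (nat_lit 304) (nat_lit 0) (XT.nd (nat_lit 78) (nat_lit 76) (nat_lit 0) (XT.lf (nat_lit 0) (nat_lit 123100403229) (nat_lit 228) (nat_lit 333036779286) (nat_lit 76) (nat_lit 3181289789) (nat_lit 17) (nat_lit 5) (nat_lit 20) (nat_lit 5) (nat_lit 18) (nat_lit 4) (nat_lit 300) (nat_lit 284) (nat_lit 196)) (XT.nd (nat_lit 78) (nat_lit 0) (nat_lit 0) (XT.lf (nat_lit 0) (nat_lit 48958948514) (nat_lit 76) (nat_lit 257793415233) (nat_lit 152) (nat_lit 201454413738) (nat_lit 16) (nat_lit 5) (nat_lit 17) (nat_lit 5) (nat_lit 18) (nat_lit 4) (nat_lit 301) (nat_lit 284) (nat_lit 195)) (XT.lf (nat_lit 0) (nat_lit 508421231256) (nat_lit 76) (nat_lit 19226607086) (nat_lit 152) (nat_lit 36004832780) (nat_lit 16) (nat_lit 5) (nat_lit 17) (nat_lit 5) (nat_lit 18) (nat_lit 4) (nat_lit 302) (nat_lit 284)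 (nat_lit 194)))) (XT.nd (nat_lit 78) (nat_lit 152) (nat_lit 0) (XT.lf (nat_lit 0) (nat_lit 163314299960) (nat_lit 152) (nat_lit 205756753495) (nat_lit 76) (nat_lit 256706080117) (nat_lit 14) (nat_lit 5) (nat_lit 16) (nat_lit 5) (nat_lit 15) (nat_lit 4) (nat_lit 303) (nat_lit 284) (nat_lit 193)) (XT.nd (nat_lit 78) (nat_lit 76) (nat_lit 0) (XT.lf (nat_lit 0) (nat_lit 285526428055) (nat_lit 76) (nat_lit 113981811655) (nat_lit 152) (nat_lit 296908504636) (nat_lit 13) (nat_lit 5) (nat_lit 14) (nat_lit 5) (nat_lit 15) (nat_lit 4) (nat_lit 304) (nat_lit 284) (nat_lit 192)) (XT.lf (nat_lit 0) (nat_lit 85601278367) (nat_lit 76) (nat_lit 598048338324) (nat_lit 76) (nat_lit 93001212514) (nat_lit 12) (nat_lit 4) (nat_lit 13) (nat_lit 5) (nat_lit 13) (nat_lit 4) (nat_lit 305) (nat_lit 284) (nat_lit 191))))) (XT.nd (nat_lit 234) (nat_lit 228) (nat_lit 0) (XT.nd (nat_lit 78) (nat_lit 76) (nat_lit 0)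 (XT.lf (nat_lit 0) (nat_lit 149839758645) (nat_lit 152) (nat_lit 193380577048) (nat_lit 76) (nat_lit 524193412279) (nat_lit 11) (nat_lit 5) (nat_lit 13) (nat_lit 5) (nat_lit 12) (nat_lit 4) (nat_lit 306) (nat_lit 284) (nat_lit 190)) (XT.nd (nat_lit 78) (nat_lit 0) (nat_lit 0) (XT.lf (nat_lit 0) (nat_lit 396185008139) (nat_lit 76) (nat_lit 37099805767) (nat_lit 152) (nat_lit 537538269650) (nat_lit 10) (nat_lit 5) (nat_lit 11) (nat_lit 5) (nat_lit 12) (nat_lit 4) (nat_lit 307) (nat_lit 284) (nat_lit 189)) (XT.lf (nat_lit 0) (nat_lit 772597050262) (nat_lit 152) (nat_lit 11118275620) (nat_lit 0) (nat_lit 304960459874) (nat_lit 10) (nat_lit 5) (nat_lit 12) (nat_lit 4) (nat_lit 10) (nat_lit 4) (nat_lit 308) (nat_lit 284) (nat_lit 188)))) (XT.nd (nat_lit 156) (nat_lit 0) (nat_lit 0) (XT.nd (nat_lit 78) (nat_lit 152) (nat_lit 0) (XT.lf (nat_lit 0) (nat_lit 669388666436) (nat_lit 76) (nat_lit 510542213762)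 (nat_lit 76) (nat_lit 42905532527) (nat_lit 9) (nat_lit 4) (nat_lit 10) (nat_lit 5) (nat_lit 10) (nat_lit 4) (nat_lit 309) (nat_lit 284) (nat_lit 187)) (XT.lf (nat_lit 0) (nat_lit 72651967212) (nat_lit 76) (nat_lit 187102228674) (nat_lit 152) (nat_lit 1116678724542) (nat_lit 7) (nat_lit 5) (nat_lit 8) (nat_lit 5) (nat_lit 9) (nat_lit 4) (nat_lit 310) (nat_lit 284) (nat_lit 186))) (XT.nd (nat_lit 78) (nat_lit 0) (nat_lit 0) (XT.lf (nat_lit 0) (nat_lit 626321796462) (nat_lit 152) (nat_lit 731649268955) (nat_lit 0) (nat_lit 193324732642) (nat_lit 7) (nat_lit 5) (nat_lit 9) (nat_lit 4) (nat_lit 7) (nat_lit 4) (nat_lit 311) (nat_lit 284) (nat_lit 185)) (XT.lf (nat_lit 0) (nat_lit 1053049212960) (nat_lit 152) (nat_lit 78872826529) (nat_lit 0) (nat_lit 620052093832) (nat_lit 7) (nat_lit 5) (nat_lit 9) (nat_lit 4) (nat_lit 7) (nat_lit 4) (nat_lit 312) (nat_lit 284) (nat_lit 184))))))))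
noncomputable def xc50 : XT := (XT.nd (nat_lit 39390) (nat_lit 0) (nat_lit 152) (XT.nd (nat_lit 1014) (nat_lit 152) (nat_lit 0) (XT.nd (nat_lit 468) (nat_lit 76) (nat_lit 0) (XT.nd (nat_lit 234) (nat_lit 0) (nat_lit 0) (XT.nd (nat_lit 78) (nat_lit 152) (nat_lit 0) (XT.lf (nat_lit 0) (nat_lit 707196745540) (nat_lit 76) (nat_lit 853597000151) (nat_lit 76) (nat_lit 420599832928) (nat_lit 6) (nat_lit 4) (nat_lit 7) (nat_lit 5) (nat_lit 7) (nat_lit 4) (nat_lit 313) (nat_lit 284) (nat_lit 183)) (XT.nd (nat_lit 78) (nat_lit 152) (nat_lit 0) (XT.lf (nat_lit 0) (nat_lit 1615952885499) (nat_lit 76) (nat_lit 531043283714) (nat_lit 76) (nat_lit 98046074670) (nat_lit 6) (nat_lit 4) (nat_lit 7) (nat_lit 5) (nat_lit 7) (nat_lit 4) (nat_lit 314) (nat_lit 284) (nat_lit 182)) (XT.lf (nat_lit 0) (nat_lit 111814472183) (nat_lit 76) (nat_lit 150114238198) (nat_lit 152) (nat_lit 2285569331190) (nat_lit 4) (nat_lit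 5) (nat_lit 5) (nat_lit 5) (nat_lit 6) (nat_lit 4) (nat_lit 315) (nat_lit 284) (nat_lit 181)))) (XT.nd (nat_lit 78) (nat_lit 0) (nat_lit 0) (XT.lf (nat_lit 0) (nat_lit 695975565514) (nat_lit 152) (nat_lit 1902020248544) (nat_lit 0) (nat_lit 295052160853) (nat_lit 4) (nat_lit 5) (nat_lit 6) (nat_lit 4) (nat_lit 4) (nat_lit 4) (nat_lit 316) (nat_lit 284) (nat_lit 180)) (XT.nd (nat_lit 78) (nat_lit 0) (nat_lit 0) (XT.lf (nat_lit 0) (nat_lit 1199281174933) (nat_lit 152) (nat_lit 1292459340453) (nat_lit 0) (nat_lit 798357744812) (nat_lit 4) (nat_lit 5) (nat_lit 6) (nat_lit 4) (nat_lit 4) (nat_lit 4) (nat_lit 317) (nat_lit 284) (nat_lit 179)) (XT.lf (nat_lit 0) (nat_lit 1778082571263) (nat_lit 152) (nat_lit 591464402394) (nat_lit 0) (nat_lit 1377159119001) (nat_lit 4) (nat_lit 5) (nat_lit 6) (nat_lit 4) (nat_lit 4) (nat_lit 4) (nat_lit 318) (nat_lit 284) (nat_lit 178))))) (XT.nd (nat_lit 234)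 (nat_lit 0) (nat_lit 0) (XT.nd (nat_lit 78) (nat_lit 0) (nat_lit 0) (XT.lf (nat_lit 0) (nat_lit 225984335698) (nat_lit 76) (nat_lit 2223154722659) (nat_lit 76) (nat_lit 1822231251145) (nat_lit 3) (nat_lit 4) (nat_lit 4) (nat_lit 5) (nat_lit 4) (nat_lit 4) (nat_lit 319) (nat_lit 284) (nat_lit 177)) (XT.nd (nat_lit 78) (nat_lit 0) (nat_lit 0) (XT.lf (nat_lit 0) (nat_lit 1201867587292) (nat_lit 76) (nat_lit 2036206237668) (nat_lit 76) (nat_lit 1635282749413) (nat_lit 3) (nat_lit 4) (nat_lit 4) (nat_lit 5) (nat_lit 4) (nat_lit 4) (nat_lit 320) (nat_lit 284) (nat_lit 176)) (XT.lf (nat_lit 0) (nat_lit 2324133253087) (nat_lit 76) (nat_lit 1821215515861) (nat_lit 76) (nat_lit 1420292013049) (nat_lit 3) (nat_lit 4) (nat_lit 4) (nat_lit 5) (nat_lit 4) (nat_lit 4) (nat_lit 321) (nat_lit 284) (nat_lit 175)))) (XT.nd (nat_lit 156) (nat_lit 0) (nat_lit 0) (XT.nd (nat_lit 78) (nat_lit 0) (nat_lit 0)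 (XT.lf (nat_lit 0) (nat_lit 3614738704805) (nat_lit 76) (nat_lit 1573976217030) (nat_lit 76) (nat_lit 1173052701558) (nat_lit 3) (nat_lit 4) (nat_lit 4) (nat_lit 5) (nat_lit 4) (nat_lit 4) (nat_lit 322) (nat_lit 284) (nat_lit 174)) (XT.lf (nat_lit 0) (nat_lit 5098934918677) (nat_lit 76) (nat_lit 1289651050543) (nat_lit 76) (nat_lit 888727524064) (nat_lit 3) (nat_lit 4) (nat_lit 4) (nat_lit 5) (nat_lit 4) (nat_lit 4) (nat_lit 323) (nat_lit 284) (nat_lit 173))) (XT.nd (nat_lit 78) (nat_lit 0) (nat_lit 0) (XT.lf (nat_lit 0) (nat_lit 6805760516277) (nat_lit 76) (nat_lit 962677132711) (nat_lit 76) (nat_lit 561753596660) (nat_lit 3) (nat_lit 4) (nat_lit 4) (nat_lit 5) (nat_lit 4) (nat_lit 4) (nat_lit 324) (nat_lit 284) (nat_lit 172)) (XT.lf (nat_lit 0) (nat_lit 8768609911472) (nat_lit 76) (nat_lit 586657147747) (nat_lit 76) (nat_lit 185733603373) (nat_lit 3) (nat_lit 4) (nat_lit 4) (nat_lit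 5) (nat_lit 4) (nat_lit 4) (nat_lit 325) (nat_lit 284) (nat_lit 171)))))) (XT.nd (nat_lit 37830) (nat_lit 0) (nat_lit 1976) (XT.nd (nat_lit 37596) (nat_lit 0) (nat_lit 3420) (XT.nd (nat_lit 37440) (nat_lit 0) (nat_lit 3648) (XT.lf (nat_lit 0) (nat_lit 91078411567) (nat_lit 76) (nat_lit 145460993807) (nat_lit 152) (nat_lit 10696242222350) (nat_lit 1) (nat_lit 5) (nat_lit 2) (nat_lit 5) (nat_lit 3) (nat_lit 4) (nat_lit 326) (nat_lit 284) (nat_lit 170)) (XT.nd (nat_lit 78) (nat_lit 0) (nat_lit 0) (XT.lf (nat_lit 0) (nat_lit 46354023796) (nat_lit 532) (nat_lit 10403634121) (nat_lit 532) (nat_lit 10403634121) (nat_lit 49) (nat_lit 3) (nat_lit 56) (nat_lit 3) (nat_lit 56) (nat_lit 5) (nat_lit 285) (nat_lit 285) (nat_lit 210)) (XT.lf (nat_lit 76) (nat_lit 101164003627) (nat_lit 0) (nat_lit 936149572) (nat_lit 532) (nat_lit 42101489560) (nat_lit 50) (nat_lit 5) (nat_lit 49) (nat_lit 3) (nat_lit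 56) (nat_lit 5) (nat_lit 286) (nat_lit 285) (nat_lit 209)))) (XT.nd (nat_lit 78) (nat_lit 304) (nat_lit 0) (XT.lf (nat_lit 76) (nat_lit 88496242371) (nat_lit 0) (nat_lit 30244759317) (nat_lit 532) (nat_lit 36354367054) (nat_lit 51) (nat_lit 5) (nat_lit 50) (nat_lit 5) (nat_lit 57) (nat_lit 5) (nat_lit 287) (nat_lit 285) (nat_lit 208)) (XT.nd (nat_lit 78) (nat_lit 380) (nat_lit 0) (XT.lf (nat_lit 76) (nat_lit 76145081790) (nat_lit 0) (nat_lit 67323029250) (nat_lit 532) (nat_lit 23707834214) (nat_lit 52) (nat_lit 5) (nat_lit 51) (nat_lit 5) (nat_lit 58) (nat_lit 5) (nat_lit 288) (nat_lit 285) (nat_lit 207)) (XT.lf (nat_lit 0) (nat_lit 64159402108) (nat_lit 456) (nat_lit 113695887137) (nat_lit 532) (nat_lit 2737240814) (nat_lit 46) (nat_lit 5) (nat_lit 52) (nat_lit 5) (nat_lit 53) (nat_lit 5) (nat_lit 289) (nat_lit 285) (nat_lit 206))))) (XT.nd (nat_lit 234) (nat_lit 608) (nat_lit 0) (XT.nd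 (nat_lit 78) (nat_lit 456) (nat_lit 0) (XT.lf (nat_lit 0) (nat_lit 26786685398) (nat_lit 380) (nat_lit 143634615826) (nat_lit 76) (nat_lit 25040993456) (nat_lit 41) (nat_lit 5) (nat_lit 46) (nat_lit 5) (nat_lit 42) (nat_lit 5) (nat_lit 290) (nat_lit 285) (nat_lit 205)) (XT.nd (nat_lit 78) (nat_lit 228) (nat_lit 0) (XT.lf (nat_lit 0) (nat_lit 38714755483) (nat_lit 228) (nat_lit 29419812512) (nat_lit 304) (nat_lit 143817674223) (nat_lit 38) (nat_lit 5) (nat_lit 41) (nat_lit 5) (nat_lit 42) (nat_lit 5) (nat_lit 291) (nat_lit 285) (nat_lit 204)) (XT.lf (nat_lit 0) (nat_lit 24455291879) (nat_lit 228) (nat_lit 99299476433) (nat_lit 304) (nat_lit 106515303975) (nat_lit 35) (nat_lit 5) (nat_lit 38) (nat_lit 5) (nat_lit 39) (nat_lit 5) (nat_lit 292) (nat_lit 285) (nat_lit 203)))) (XT.nd (nat_lit 156) (nat_lit 380) (nat_lit 0) (XT.nd (nat_lit 78) (nat_lit 76) (nat_lit 0) (XT.lf (nat_lit 0) (nat_lit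 9404781812) (nat_lit 152) (nat_lit 186008112349) (nat_lit 228) (nat_lit 55307092131) (nat_lit 33) (nat_lit 5) (nat_lit 35) (nat_lit 5) (nat_lit 36) (nat_lit 5) (nat_lit 293) (nat_lit 285) (nat_lit 202)) (XT.lf (nat_lit 0) (nat_lit 12296738080) (nat_lit 228) (nat_lit 7376054375) (nat_lit 76) (nat_lit 253846216127) (nat_lit 32) (nat_lit 5) (nat_lit 35) (nat_lit 5) (nat_lit 33) (nat_lit 5) (nat_lit 294) (nat_lit 285) (nat_lit 201))) (XT.nd (nat_lit 78) (nat_lit 152) (nat_lit 0) (XT.lf (nat_lit 0) (nat_lit 97782500374) (nat_lit 304) (nat_lit 29605390311) (nat_lit 76) (nat_lit 171353778082) (nat_lit 29) (nat_lit 5) (nat_lit 33) (nat_lit 5) (nat_lit 30) (nat_lit 5) (nat_lit 295) (nat_lit 285) (nat_lit 200)) (XT.lf (nat_lit 0) (nat_lit 205091588669) (nat_lit 228) (nat_lit 55888376687) (nat_lit 76) (nat_lit 66047726339) (nat_lit 27) (nat_lit 5) (nat_lit 30) (nat_lit 5) (nat_lit 28) (nat_lit 5)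 (nat_lit 296) (nat_lit 285) (nat_lit 199))))))) (XT.nd (nat_lit 1014) (nat_lit 532) (nat_lit 0) (XT.nd (nat_lit 468) (nat_lit 456) (nat_lit 0) (XT.nd (nat_lit 234) (nat_lit 380) (nat_lit 0) (XT.nd (nat_lit 78) (nat_lit 304) (nat_lit 0) (XT.lf (nat_lit 0) (nat_lit 269222312713) (nat_lit 152) (nat_lit 70156722110) (nat_lit 228) (nat_lit 19307024235) (nat_lit 25) (nat_lit 5) (nat_lit 27) (nat_lit 5) (nat_lit 28) (nat_lit 5) (nat_lit 297) (nat_lit 285) (nat_lit 198)) (XT.nd (nat_lit 78) (nat_lit 152) (nat_lit 0) (XT.lf (nat_lit 0) (nat_lit 105612969188) (nat_lit 152) (nat_lit 135902958804) (nat_lit 76) (nat_lit 152440543593) (nat_lit 23) (nat_lit 5) (nat_lit 25) (nat_lit 5) (nat_lit 24) (nat_lit 5) (nat_lit 298) (nat_lit 285) (nat_lit 197)) (XT.lf (nat_lit 0) (nat_lit 238179143307) (nat_lit 152) (nat_lit 20321695139) (nat_lit 228) (nat_lit 175146643998) (nat_lit 21) (nat_lit 5) (nat_lit 23)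 (nat_lit 5) (nat_lit 24) (nat_lit 5) (nat_lit 299) (nat_lit 285) (nat_lit 196)))) (XT.nd (nat_lit 78) (nat_lit 304) (nat_lit 0) (XT.lf (nat_lit 0) (nat_lit 202000525640) (nat_lit 76) (nat_lit 246867587860) (nat_lit 152) (nat_lit 29260333745) (nat_lit 20) (nat_lit 5) (nat_lit 21) (nat_lit 5) (nat_lit 22) (nat_lit 4) (nat_lit 300) (nat_lit 285) (nat_lit 195)) (XT.nd (nat_lit 78) (nat_lit 76) (nat_lit 0) (XT.lf (nat_lit 0) (nat_lit 141568429919) (nat_lit 228) (nat_lit 382987183553) (nat_lit 76) (nat_lit 3660389402) (nat_lit 17) (nat_lit 5) (nat_lit 20) (nat_lit 5) (nat_lit 18) (nat_lit 4) (nat_lit 301) (nat_lit 285) (nat_lit 194)) (XT.lf (nat_lit 0) (nat_lit 56307470659) (nat_lit 76) (nat_lit 296460439510) (nat_lit 152) (nat_lit 231669665999) (nat_lit 16) (nat_lit 5) (nat_lit 17) (nat_lit 5) (nat_lit 18) (nat_lit 4) (nat_lit 302) (nat_lit 285) (nat_lit 193))))) (XT.nd (nat_lit 234) (nat_lit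 228) (nat_lit 0) (XT.nd (nat_lit 78) (nat_lit 228) (nat_lit 0) (XT.lf (nat_lit 0) (nat_lit 584688485395) (nat_lit 76) (nat_lit 22108869446) (nat_lit 152) (nat_lit 41403027436) (nat_lit 16) (nat_lit 5) (nat_lit 17) (nat_lit 5) (nat_lit 18) (nat_lit 4) (nat_lit 303) (nat_lit 285) (nat_lit 192)) (XT.nd (nat_lit 78) (nat_lit 76) (nat_lit 0) (XT.lf (nat_lit 0) (nat_lit 187813667462) (nat_lit 152) (nat_lit 236616287265) (nat_lit 76) (nat_lit 295213569265) (nat_lit 14) (nat_lit 5) (nat_lit 16) (nat_lit 5) (nat_lit 15) (nat_lit 4) (nat_lit 304) (nat_lit 285) (nat_lit 191)) (XT.lf (nat_lit 0) (nat_lit 328359034693) (nat_lit 76) (nat_lit 131077461190) (nat_lit 152) (nat_lit 341442596921) (nat_lit 13) (nat_lit 5) (nat_lit 14) (nat_lit 5) (nat_lit 15) (nat_lit 4) (nat_lit 305) (nat_lit 285) (nat_lit 190)))) (XT.nd (nat_lit 156) (nat_lit 76) (nat_lit 0) (XT.nd (nat_lit 78) (nat_lit 76) (nat_lit 0)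 (XT.lf (nat_lit 0) (nat_lit 98444917909) (nat_lit 76) (nat_lit 687754014841) (nat_lit 76) (nat_lit 106949369580) (nat_lit 12) (nat_lit 4) (nat_lit 13) (nat_lit 5) (nat_lit 13) (nat_lit 4) (nat_lit 306) (nat_lit 285) (nat_lit 189)) (XT.lf (nat_lit 0) (nat_lit 172317395069) (nat_lit 152) (nat_lit 222384576348) (nat_lit 76) (nat_lit 602823703835) (nat_lit 11) (nat_lit 5) (nat_lit 13) (nat_lit 5) (nat_lit 12) (nat_lit 4) (nat_lit 307) (nat_lit 285) (nat_lit 188))) (XT.nd (nat_lit 78) (nat_lit 0) (nat_lit 0) (XT.lf (nat_lit 0) (nat_lit 455615585296) (nat_lit 76) (nat_lit 42663473119) (nat_lit 152) (nat_lit 618167364920) (nat_lit 10) (nat_lit 5) (nat_lit 11) (nat_lit 5) (nat_lit 12) (nat_lit 4) (nat_lit 308) (nat_lit 285) (nat_lit 187)) (XT.lf (nat_lit 0) (nat_lit 888487958907) (nat_lit 152) (nat_lit 12783480145) (nat_lit 0) (nat_lit 350705605643) (nat_lit 10) (nat_lit 5) (nat_lit 12) (nat_lit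 4) (nat_lit 10) (nat_lit 4) (nat_lit 309) (nat_lit 285) (nat_lit 186)))))) (XT.nd (nat_lit 468) (nat_lit 228) (nat_lit 0) (XT.nd (nat_lit 234) (nat_lit 76) (nat_lit 0) (XT.nd (nat_lit 78) (nat_lit 152) (nat_lit 0) (XT.lf (nat_lit 0) (nat_lit 769799288491) (nat_lit 76) (nat_lit 587122454458) (nat_lit 76) (nat_lit 49340032501) (nat_lit 9) (nat_lit 4) (nat_lit 10) (nat_lit 5) (nat_lit 10) (nat_lit 4) (nat_lit 310) (nat_lit 285) (nat_lit 185)) (XT.nd (nat_lit 78) (nat_lit 0) (nat_lit 0) (XT.lf (nat_lit 0) (nat_lit 83551949342) (nat_lit 76) (nat_lit 215166527115) (nat_lit 152) (nat_lit 1284179289356) (nat_lit 7) (nat_lit 5) (nat_lit 8) (nat_lit 5) (nat_lit 9) (nat_lit 4) (nat_lit 311) (nat_lit 285) (nat_lit 184)) (XT.lf (nat_lit 0) (nat_lit 720271088627) (nat_lit 152) (nat_lit 841394698589) (nat_lit 0) (nat_lit 222324298227) (nat_lit 7) (nat_lit 5) (nat_lit 9) (nat_lit 4) (nat_lit 7) (nat_lit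 4) (nat_lit 312) (nat_lit 285) (nat_lit 183)))) (XT.nd (nat_lit 78) (nat_lit 76) (nat_lit 0) (XT.lf (nat_lit 0) (nat_lit 1211007484205) (nat_lit 152) (nat_lit 90702045544) (nat_lit 0) (nat_lit 713060651984) (nat_lit 7) (nat_lit 5) (nat_lit 9) (nat_lit 4) (nat_lit 7) (nat_lit 4) (nat_lit 313) (nat_lit 285) (nat_lit 182)) (XT.nd (nat_lit 78) (nat_lit 0) (nat_lit 0) (XT.lf (nat_lit 0) (nat_lit 813277818018) (nat_lit 76) (nat_lit 981635800365) (nat_lit 76) (nat_lit 483688931777) (nat_lit 6) (nat_lit 4) (nat_lit 7) (nat_lit 5) (nat_lit 7) (nat_lit 4) (nat_lit 314) (nat_lit 285) (nat_lit 181)) (XT.lf (nat_lit 0) (nat_lit 1858347175408) (nat_lit 76) (nat_lit 610699124264) (nat_lit 76) (nat_lit 112752224053) (nat_lit 6) (nat_lit 4) (nat_lit 7) (nat_lit 5) (nat_lit 7) (nat_lit 4) (nat_lit 315) (nat_lit 285) (nat_lit 180))))) (XT.nd (nat_lit 234) (nat_lit 76) (nat_lit 0) (XT.nd (nat_lit 78) (nat_lit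 0) (nat_lit 0) (XT.lf (nat_lit 0) (nat_lit 128587920391) (nat_lit 76) (nat_lit 172630756579) (nat_lit 152) (nat_lit 2628404017764) (nat_lit 4) (nat_lit 5) (nat_lit 5) (nat_lit 5) (nat_lit 6) (nat_lit 4) (nat_lit 316) (nat_lit 285) (nat_lit 179)) (XT.nd (nat_lit 78) (nat_lit 0) (nat_lit 0) (XT.lf (nat_lit 0) (nat_lit 800372487193) (nat_lit 152) (nat_lit 2187322141821) (nat_lit 0) (nat_lit 339310494952) (nat_lit 4) (nat_lit 5) (nat_lit 6) (nat_lit 4) (nat_lit 4) (nat_lit 4) (nat_lit 317) (nat_lit 285) (nat_lit 178)) (XT.lf (nat_lit 0) (nat_lit 1379173861479) (nat_lit 152) (nat_lit 1486327246734) (nat_lit 0) (nat_lit 918111849986) (nat_lit 4) (nat_lit 5) (nat_lit 6) (nat_lit 4) (nat_lit 4) (nat_lit 4) (nat_lit 318) (nat_lit 285) (nat_lit 177)))) (XT.nd (nat_lit 156) (nat_lit 0) (nat_lit 0) (XT.nd (nat_lit 78) (nat_lit 76) (nat_lit 0) (XT.lf (nat_lit 0) (nat_lit 2044795400697) (nat_lit 152)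 (nat_lit 680183197721) (nat_lit 0) (nat_lit 1583733372462) (nat_lit 4) (nat_lit 5) (nat_lit 6) (nat_lit 4) (nat_lit 4) (nat_lit 4) (nat_lit 319) (nat_lit 285) (nat_lit 176)) (XT.lf (nat_lit 0) (nat_lit 259882777864) (nat_lit 76) (nat_lit 2556627544154) (nat_lit 76) (nat_lit 2095565501362) (nat_lit 3) (nat_lit 4) (nat_lit 4) (nat_lit 5) (nat_lit 4) (nat_lit 4) (nat_lit 320) (nat_lit 285) (nat_lit 175))) (XT.nd (nat_lit 78) (nat_lit 0) (nat_lit 0) (XT.lf (nat_lit 0) (nat_lit 1382148413917) (nat_lit 76) (nat_lit 2341636836881) (nat_lit 76) (nat_lit 1880574781430) (nat_lit 3) (nat_lit 4) (nat_lit 4) (nat_lit 5) (nat_lit 4) (nat_lit 4) (nat_lit 321) (nat_lit 285) (nat_lit 174)) (XT.lf (nat_lit 0) (nat_lit 2672753839773) (nat_lit 76) (nat_lit 2094397550686) (nat_lit 76) (nat_lit 1633335484228) (nat_lit 3) (nat_lit 4) (nat_lit 4) (nat_lit 5) (nat_lit 4) (nat_lit 4) (nat_lit 322) (nat_lit 285)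 (nat_lit 173))))))))
noncomputable def xc51 : XT := (XT.nd (nat_lit 39468) (nat_lit 0) (nat_lit 0) (XT.nd (nat_lit 38454) (nat_lit 0) (nat_lit 684) (XT.nd (nat_lit 37908) (nat_lit 0) (nat_lit 2280) (XT.nd (nat_lit 234) (nat_lit 0) (nat_lit 0) (XT.nd (nat_lit 78) (nat_lit 0) (nat_lit 0) (XT.lf (nat_lit 0) (nat_lit 4156950031155) (nat_lit 76) (nat_lit 1810072395189) (nat_lit 76) (nat_lit 1349010319159) (nat_lit 3) (nat_lit 4) (nat_lit 4) (nat_lit 5) (nat_lit 4) (nat_lit 4) (nat_lit 323) (nat_lit 285) (nat_lit 172)) (XT.nd (nat_lit 78) (nat_lit 0) (nat_lit 0) (XT.lf (nat_lit 0) (nat_lit 5863775609199) (nat_lit 76) (nat_lit 1483098486912) (nat_lit 76) (nat_lit 1022036402558) (nat_lit 3) (nat_lit 4) (nat_lit 4) (nat_lit 5) (nat_lit 4) (nat_lit 4) (nat_lit 324) (nat_lit 285) (nat_lit 171)) (XT.lf (nat_lit 0) (nat_lit 7826624987389) (nat_lit 76) (nat_lit 1107078510258) (nat_lit 76) (nat_lit 646016418667)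 (nat_lit 3) (nat_lit 4) (nat_lit 4) (nat_lit 5) (nat_lit 4) (nat_lit 4) (nat_lit 325) (nat_lit 285) (nat_lit 170)))) (XT.nd (nat_lit 37518) (nat_lit 0) (nat_lit 3496) (XT.lf (nat_lit 0) (nat_lit 10083901740515) (nat_lit 76) (nat_lit 674655552641) (nat_lit 76) (nat_lit 213593454756) (nat_lit 3) (nat_lit 4) (nat_lit 4) (nat_lit 5) (nat_lit 4) (nat_lit 4) (nat_lit 326) (nat_lit 285) (nat_lit 169)) (XT.nd (nat_lit 78) (nat_lit 0) (nat_lit 0) (XT.lf (nat_lit 0) (nat_lit 53312884015) (nat_lit 532) (nat_lit 11961063477) (nat_lit 532) (nat_lit 11961063477) (nat_lit 49) (nat_lit 3) (nat_lit 56) (nat_lit 3) (nat_lit 56) (nat_lit 5) (nat_lit 286) (nat_lit 286) (nat_lit 208)) (XT.lf (nat_lit 76) (nat_lit 116344308227) (nat_lit 0) (nat_lit 1081016698) (nat_lit 532) (nat_lit 48405727404) (nat_lit 50) (nat_lit 5) (nat_lit 49) (nat_lit 3) (nat_lit 56) (nat_lit 5) (nat_lit 287) (nat_lit 286) (nat_lit 207)))))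 (XT.nd (nat_lit 234) (nat_lit 988) (nat_lit 0) (XT.nd (nat_lit 78) (nat_lit 304) (nat_lit 0) (XT.lf (nat_lit 76) (nat_lit 101776763818) (nat_lit 0) (nat_lit 34784266515) (nat_lit 532) (nat_lit 41797911759) (nat_lit 51) (nat_lit 5) (nat_lit 50) (nat_lit 5) (nat_lit 57) (nat_lit 5) (nat_lit 288) (nat_lit 286) (nat_lit 206)) (XT.nd (nat_lit 78) (nat_lit 380) (nat_lit 0) (XT.lf (nat_lit 76) (nat_lit 87573145574) (nat_lit 0) (nat_lit 77422995597) (nat_lit 532) (nat_lit 27255551932) (nat_lit 52) (nat_lit 5) (nat_lit 51) (nat_lit 5) (nat_lit 58) (nat_lit 5) (nat_lit 289) (nat_lit 286) (nat_lit 205)) (XT.lf (nat_lit 0) (nat_lit 73789703265) (nat_lit 456) (nat_lit 130750795774) (nat_lit 532) (nat_lit 3140340817) (nat_lit 46) (nat_lit 5) (nat_lit 52) (nat_lit 5) (nat_lit 53) (nat_lit 5) (nat_lit 290) (nat_lit 286) (nat_lit 204)))) (XT.nd (nat_lit 156) (nat_lit 380) (nat_lit 0) (XT.nd (nat_lit 78)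 (nat_lit 228) (nat_lit 0) (XT.lf (nat_lit 0) (nat_lit 30811018458) (nat_lit 380) (nat_lit 165173078707) (nat_lit 76) (nat_lit 28797022092) (nat_lit 41) (nat_lit 5) (nat_lit 46) (nat_lit 5) (nat_lit 42) (nat_lit 5) (nat_lit 291) (nat_lit 286) (nat_lit 203)) (XT.lf (nat_lit 0) (nat_lit 44528128680) (nat_lit 228) (nat_lit 33832277225) (nat_lit 304) (nat_lit 165384208946) (nat_lit 38) (nat_lit 5) (nat_lit 41) (nat_lit 5) (nat_lit 42) (nat_lit 5) (nat_lit 292) (nat_lit 286) (nat_lit 202))) (XT.nd (nat_lit 78) (nat_lit 152) (nat_lit 0) (XT.lf (nat_lit 0) (nat_lit 28129637418) (nat_lit 228) (nat_lit 114193417693) (nat_lit 304) (nat_lit 122487112310) (nat_lit 35) (nat_lit 5) (nat_lit 38) (nat_lit 5) (nat_lit 39) (nat_lit 5) (nat_lit 293) (nat_lit 286) (nat_lit 201)) (XT.lf (nat_lit 0) (nat_lit 10821397533) (nat_lit 152) (nat_lit 213908003155) (nat_lit 228) (nat_lit 63598209074) (nat_lit 33) (nat_lit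 5) (nat_lit 35) (nat_lit 5) (nat_lit 36) (nat_lit 5) (nat_lit 294) (nat_lit 286) (nat_lit 200)))))) (XT.nd (nat_lit 468) (nat_lit 684) (nat_lit 0) (XT.nd (nat_lit 234) (nat_lit 456) (nat_lit 0) (XT.nd (nat_lit 78) (nat_lit 380) (nat_lit 0) (XT.lf (nat_lit 0) (nat_lit 14145335238) (nat_lit 228) (nat_lit 8477111270) (nat_lit 76) (nat_lit 291924079454) (nat_lit 32) (nat_lit 5) (nat_lit 35) (nat_lit 5) (nat_lit 33) (nat_lit 5) (nat_lit 295) (nat_lit 286) (nat_lit 199)) (XT.nd (nat_lit 78) (nat_lit 152) (nat_lit 0) (XT.lf (nat_lit 0) (nat_lit 112453576177) (nat_lit 304) (nat_lit 34041030287) (nat_lit 76) (nat_lit 197058010478) (nat_lit 29) (nat_lit 5) (nat_lit 33) (nat_lit 5) (nat_lit 30) (nat_lit 5) (nat_lit 296) (nat_lit 286) (nat_lit 198)) (XT.lf (nat_lit 0) (nat_lit 235858692446) (nat_lit 228) (nat_lit 64266663933) (nat_lit 76) (nat_lit 75956214546) (nat_lit 27) (nat_lit 5) (nat_lit 30)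 (nat_lit 5) (nat_lit 28) (nat_lit 5) (nat_lit 297) (nat_lit 286) (nat_lit 197)))) (XT.nd (nat_lit 78) (nat_lit 304) (nat_lit 0) (XT.lf (nat_lit 0) (nat_lit 309610208254) (nat_lit 152) (nat_lit 80678717688) (nat_lit 228) (nat_lit 22199794507) (nat_lit 25) (nat_lit 5) (nat_lit 27) (nat_lit 5) (nat_lit 28) (nat_lit 5) (nat_lit 298) (nat_lit 286) (nat_lit 196)) (XT.nd (nat_lit 78) (nat_lit 152) (nat_lit 0) (XT.lf (nat_lit 0) (nat_lit 121457766802) (nat_lit 152) (nat_lit 156283891896) (nat_lit 76) (nat_lit 175308051744) (nat_lit 23) (nat_lit 5) (nat_lit 25) (nat_lit 5) (nat_lit 24) (nat_lit 5) (nat_lit 299) (nat_lit 286) (nat_lit 195)) (XT.lf (nat_lit 0) (nat_lit 273910143721) (nat_lit 152) (nat_lit 23368399998) (nat_lit 228) (nat_lit 201415851513) (nat_lit 21) (nat_lit 5) (nat_lit 23) (nat_lit 5) (nat_lit 24) (nat_lit 5) (nat_lit 300) (nat_lit 286) (nat_lit 194))))) (XT.nd (nat_lit 234) (nat_lit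 304) (nat_lit 0) (XT.nd (nat_lit 78) (nat_lit 304) (nat_lit 0) (XT.lf (nat_lit 0) (nat_lit 232304541641) (nat_lit 76) (nat_lit 283896159025) (nat_lit 152) (nat_lit 33646821257) (nat_lit 20) (nat_lit 5) (nat_lit 21) (nat_lit 5) (nat_lit 22) (nat_lit 4) (nat_lit 301) (nat_lit 286) (nat_lit 193)) (XT.nd (nat_lit 78) (nat_lit 76) (nat_lit 0) (XT.lf (nat_lit 0) (nat_lit 162805937285) (nat_lit 228) (nat_lit 440431395206) (nat_lit 76) (nat_lit 4210889131) (nat_lit 17) (nat_lit 5) (nat_lit 20) (nat_lit 5) (nat_lit 18) (nat_lit 4) (nat_lit 302) (nat_lit 286) (nat_lit 192)) (XT.lf (nat_lit 0) (nat_lit 64757129911) (nat_lit 76) (nat_lit 340928002217) (nat_lit 152) (nat_lit 266417915672) (nat_lit 16) (nat_lit 5) (nat_lit 17) (nat_lit 5) (nat_lit 18) (nat_lit 4) (nat_lit 303) (nat_lit 286) (nat_lit 191)))) (XT.nd (nat_lit 156) (nat_lit 152) (nat_lit 0) (XT.nd (nat_lit 78) (nat_lit 152) (nat_lit 0)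 (XT.lf (nat_lit 0) (nat_lit 672394835294) (nat_lit 76) (nat_lit 25423892716) (nat_lit 152) (nat_lit 47611568310) (nat_lit 16) (nat_lit 5) (nat_lit 17) (nat_lit 5) (nat_lit 18) (nat_lit 4) (nat_lit 304) (nat_lit 286) (nat_lit 190)) (XT.lf (nat_lit 0) (nat_lit 215987398117) (nat_lit 152) (nat_lit 272105721466) (nat_lit 76) (nat_lit 339496797193) (nat_lit 14) (nat_lit 5) (nat_lit 16) (nat_lit 5) (nat_lit 15) (nat_lit 4) (nat_lit 305) (nat_lit 286) (nat_lit 189))) (XT.nd (nat_lit 78) (nat_lit 76) (nat_lit 0) (XT.lf (nat_lit 0) (nat_lit 377615644098) (nat_lit 76) (nat_lit 150737853742) (nat_lit 152) (nat_lit 392657335486) (nat_lit 13) (nat_lit 5) (nat_lit 14) (nat_lit 5) (nat_lit 15) (nat_lit 4) (nat_lit 306) (nat_lit 286) (nat_lit 188)) (XT.lf (nat_lit 0) (nat_lit 113214262617) (nat_lit 76) (nat_lit 790915926722) (nat_lit 76) (nat_lit 122990243969) (nat_lit 12) (nat_lit 4) (nat_lit 13) (nat_lit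 5) (nat_lit 13) (nat_lit 4) (nat_lit 307) (nat_lit 286) (nat_lit 187))))))) (XT.nd (nat_lit 1014) (nat_lit 76) (nat_lit 0) (XT.nd (nat_lit 468) (nat_lit 228) (nat_lit 0) (XT.nd (nat_lit 234) (nat_lit 228) (nat_lit 0) (XT.nd (nat_lit 78) (nat_lit 76) (nat_lit 0) (XT.lf (nat_lit 0) (nat_lit 198166269076) (nat_lit 152) (nat_lit 255739928391) (nat_lit 76) (nat_lit 693248227059) (nat_lit 11) (nat_lit 5) (nat_lit 13) (nat_lit 5) (nat_lit 12) (nat_lit 4) (nat_lit 308) (nat_lit 286) (nat_lit 186)) (XT.nd (nat_lit 78) (nat_lit 0) (nat_lit 0) (XT.lf (nat_lit 0) (nat_lit 523960059904) (nat_lit 76) (nat_lit 49062008443) (nat_lit 152) (nat_lit 710891225669) (nat_lit 10) (nat_lit 5) (nat_lit 11) (nat_lit 5) (nat_lit 12) (nat_lit 4) (nat_lit 309) (nat_lit 286) (nat_lit 185)) (XT.lf (nat_lit 0) (nat_lit 1021762174374) (nat_lit 152) (nat_lit 14699083968) (nat_lit 0) (nat_lit 403312260696) (nat_lit 10)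 (nat_lit 5) (nat_lit 12) (nat_lit 4) (nat_lit 10) (nat_lit 4) (nat_lit 310) (nat_lit 286) (nat_lit 184)))) (XT.nd (nat_lit 78) (nat_lit 152) (nat_lit 0) (XT.lf (nat_lit 0) (nat_lit 885270937597) (nat_lit 76) (nat_lit 675189997396) (nat_lit 76) (nat_lit 56740031777) (nat_lit 9) (nat_lit 4) (nat_lit 10) (nat_lit 5) (nat_lit 10) (nat_lit 4) (nat_lit 311) (nat_lit 286) (nat_lit 183)) (XT.nd (nat_lit 78) (nat_lit 0) (nat_lit 0) (XT.lf (nat_lit 0) (nat_lit 96086395465) (nat_lit 76) (nat_lit 247440722924) (nat_lit 152) (nat_lit 1476805242216) (nat_lit 7) (nat_lit 5) (nat_lit 8) (nat_lit 5) (nat_lit 9) (nat_lit 4) (nat_lit 312) (nat_lit 286) (nat_lit 182)) (XT.lf (nat_lit 0) (nat_lit 828312525226) (nat_lit 152) (nat_lit 967602420801) (nat_lit 0) (nat_lit 255673589984) (nat_lit 7) (nat_lit 5) (nat_lit 9) (nat_lit 4) (nat_lit 7) (nat_lit 4) (nat_lit 313) (nat_lit 286) (nat_lit 181))))) (XT.nd (nat_lit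 234) (nat_lit 152) (nat_lit 0) (XT.nd (nat_lit 78) (nat_lit 76) (nat_lit 0) (XT.lf (nat_lit 0) (nat_lit 1392659279275) (nat_lit 152) (nat_lit 104306063178) (nat_lit 0) (nat_lit 820020312410) (nat_lit 7) (nat_lit 5) (nat_lit 9) (nat_lit 4) (nat_lit 7) (nat_lit 4) (nat_lit 314) (nat_lit 286) (nat_lit 180)) (XT.nd (nat_lit 78) (nat_lit 0) (nat_lit 0) (XT.lf (nat_lit 0) (nat_lit 935270670795) (nat_lit 76) (nat_lit 1128880603457) (nat_lit 76) (nat_lit 556241609094) (nat_lit 6) (nat_lit 4) (nat_lit 7) (nat_lit 5) (nat_lit 7) (nat_lit 4) (nat_lit 315) (nat_lit 286) (nat_lit 179)) (XT.lf (nat_lit 0) (nat_lit 2137100277870) (nat_lit 76) (nat_lit 702303499892) (nat_lit 76) (nat_lit 129664481617) (nat_lit 6) (nat_lit 4) (nat_lit 7) (nat_lit 5) (nat_lit 7) (nat_lit 4) (nat_lit 316) (nat_lit 286) (nat_lit 178)))) (XT.nd (nat_lit 156) (nat_lit 0) (nat_lit 0) (XT.nd (nat_lit 78) (nat_lit 0) (nat_lit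 0) (XT.lf (nat_lit 0) (nat_lit 147877074333) (nat_lit 76) (nat_lit 198524903262) (nat_lit 152) (nat_lit 3022664081219) (nat_lit 4) (nat_lit 5) (nat_lit 5) (nat_lit 5) (nat_lit 6) (nat_lit 4) (nat_lit 317) (nat_lit 286) (nat_lit 177)) (XT.lf (nat_lit 0) (nat_lit 920428804016) (nat_lit 152) (nat_lit 2515419598063) (nat_lit 0) (nat_lit 390207454805) (nat_lit 4) (nat_lit 5) (nat_lit 6) (nat_lit 4) (nat_lit 4) (nat_lit 4) (nat_lit 318) (nat_lit 286) (nat_lit 176))) (XT.nd (nat_lit 78) (nat_lit 0) (nat_lit 0) (XT.lf (nat_lit 0) (nat_lit 1586050326566) (nat_lit 152) (nat_lit 1709275581542) (nat_lit 0) (nat_lit 1055828962797) (nat_lit 4) (nat_lit 5) (nat_lit 6) (nat_lit 4) (nat_lit 4) (nat_lit 4) (nat_lit 319) (nat_lit 286) (nat_lit 175)) (XT.lf (nat_lit 0) (nat_lit 2351515046336) (nat_lit 152) (nat_lit 782210023291) (nat_lit 0) (nat_lit 1821293669909) (nat_lit 4) (nat_lit 5) (nat_lit 6) (nat_lit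 4) (nat_lit 4) (nat_lit 4) (nat_lit 320) (nat_lit 286) (nat_lit 174)))))) (XT.nd (nat_lit 38142) (nat_lit 0) (nat_lit 2280) (XT.nd (nat_lit 234) (nat_lit 0) (nat_lit 0) (XT.nd (nat_lit 78) (nat_lit 0) (nat_lit 0) (XT.lf (nat_lit 0) (nat_lit 298865793267) (nat_lit 76) (nat_lit 2940121383223) (nat_lit 76) (nat_lit 2409899995788) (nat_lit 3) (nat_lit 4) (nat_lit 4) (nat_lit 5) (nat_lit 4) (nat_lit 4) (nat_lit 321) (nat_lit 286) (nat_lit 173)) (XT.nd (nat_lit 78) (nat_lit 0) (nat_lit 0) (XT.lf (nat_lit 0) (nat_lit 1589471196633) (nat_lit 76) (nat_lit 2692882108018) (nat_lit 76) (nat_lit 2162660711011) (nat_lit 3) (nat_lit 4) (nat_lit 4) (nat_lit 5) (nat_lit 4) (nat_lit 4) (nat_lit 322) (nat_lit 286) (nat_lit 172)) (XT.lf (nat_lit 0) (nat_lit 3073667368459) (nat_lit 76) (nat_lit 2408556962076) (nat_lit 76) (nat_lit 1878335556746) (nat_lit 3) (nat_lit 4) (nat_lit 4) (nat_lit 5) (nat_lit 4) (nat_lit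 4) (nat_lit 323) (nat_lit 286) (nat_lit 171)))) (XT.nd (nat_lit 37752) (nat_lit 0) (nat_lit 3496) (XT.nd (nat_lit 78) (nat_lit 0) (nat_lit 0) (XT.lf (nat_lit 0) (nat_lit 4780492929498) (nat_lit 76) (nat_lit 2081583062108) (nat_lit 76) (nat_lit 1551361649540) (nat_lit 3) (nat_lit 4) (nat_lit 4) (nat_lit 5) (nat_lit 4) (nat_lit 4) (nat_lit 324) (nat_lit 286) (nat_lit 170)) (XT.lf (nat_lit 0) (nat_lit 6743342292901) (nat_lit 76) (nat_lit 1705563092680) (nat_lit 76) (nat_lit 1175341673818) (nat_lit 3) (nat_lit 4) (nat_lit 4) (nat_lit 5) (nat_lit 4) (nat_lit 4) (nat_lit 325) (nat_lit 286) (nat_lit 169))) (XT.nd (nat_lit 78) (nat_lit 0) (nat_lit 0) (XT.lf (nat_lit 0) (nat_lit 61314169471) (nat_lit 532) (nat_lit 13752867035) (nat_lit 532) (nat_lit 13752867035) (nat_lit 49) (nat_lit 3) (nat_lit 56) (nat_lit 3) (nat_lit 56) (nat_lit 5) (nat_lit 287) (nat_lit 287) (nat_lit 206)) (XT.lf (nat_lit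 76) (nat_lit 133800267547) (nat_lit 0) (nat_lit 1246530028) (nat_lit 532) (nat_lit 55658279831) (nat_lit 50) (nat_lit 5) (nat_lit 49) (nat_lit 3) (nat_lit 56) (nat_lit 5) (nat_lit 288) (nat_lit 287) (nat_lit 205))))) (XT.nd (nat_lit 234) (nat_lit 988) (nat_lit 0) (XT.nd (nat_lit 78) (nat_lit 304) (nat_lit 0) (XT.lf (nat_lit 76) (nat_lit 117047879595) (nat_lit 0) (nat_lit 40004018629) (nat_lit 532) (nat_lit 48060331716) (nat_lit 51) (nat_lit 5) (nat_lit 50) (nat_lit 5) (nat_lit 57) (nat_lit 5) (nat_lit 289) (nat_lit 287) (nat_lit 204)) (XT.nd (nat_lit 78) (nat_lit 380) (nat_lit 0) (XT.lf (nat_lit 76) (nat_lit 100713882261) (nat_lit 0) (nat_lit 89037588196) (nat_lit 532) (nat_lit 31337489701) (nat_lit 52) (nat_lit 5) (nat_lit 51) (nat_lit 5) (nat_lit 58) (nat_lit 5) (nat_lit 290) (nat_lit 287) (nat_lit 203)) (XT.lf (nat_lit 0) (nat_lit 84862991149) (nat_lit 456) (nat_lit 150363812543) (nat_lit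 532) (nat_lit 3605731357) (nat_lit 46) (nat_lit 5) (nat_lit 52) (nat_lit 5) (nat_lit 53) (nat_lit 5) (nat_lit 291) (nat_lit 287) (nat_lit 202)))) (XT.nd (nat_lit 156) (nat_lit 380) (nat_lit 0) (XT.nd (nat_lit 78) (nat_lit 228) (nat_lit 0) (XT.lf (nat_lit 0) (nat_lit 35437457805) (nat_lit 380) (nat_lit 189943952050) (nat_lit 76) (nat_lit 33116484379) (nat_lit 41) (nat_lit 5) (nat_lit 46) (nat_lit 5) (nat_lit 42) (nat_lit 5) (nat_lit 292) (nat_lit 287) (nat_lit 201)) (XT.lf (nat_lit 0) (nat_lit 51212005732) (nat_lit 228) (nat_lit 38906735320) (nat_lit 304) (nat_lit 190187215403) (nat_lit 38) (nat_lit 5) (nat_lit 41) (nat_lit 5) (nat_lit 42) (nat_lit 5) (nat_lit 293) (nat_lit 287) (nat_lit 200))) (XT.nd (nat_lit 78) (nat_lit 152) (nat_lit 0) (XT.lf (nat_lit 0) (nat_lit 32353659028) (nat_lit 228) (nat_lit 131321689171) (nat_lit 304) (nat_lit 140856029999) (nat_lit 35) (nat_lit 5) (nat_lit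 38) (nat_lit 5) (nat_lit 39) (nat_lit 5) (nat_lit 294) (nat_lit 287) (nat_lit 199)) (XT.lf (nat_lit 0) (nat_lit 12449067237) (nat_lit 152) (nat_lit 245993200947) (nat_lit 228) (nat_lit 73134199886) (nat_lit 33) (nat_lit 5) (nat_lit 35) (nat_lit 5) (nat_lit 36) (nat_lit 5) (nat_lit 295) (nat_lit 287) (nat_lit 198))))))))
noncomputable def xc52 : XT := (XT.nd (nat_lit 2028) (nat_lit 76) (nat_lit 0) (XT.nd (nat_lit 1014) (nat_lit 608) (nat_lit 0) (XT.nd (nat_lit 468) (nat_lit 684) (nat_lit 0) (XT.nd (nat_lit 234) (nat_lit 456) (nat_lit 0) (XT.nd (nat_lit 78) (nat_lit 380) (nat_lit 0) (XT.lf (nat_lit 0) (nat_lit 16270225465) (nat_lit 228) (nat_lit 9744631639) (nat_lit 76) (nat_lit 335713395273) (nat_lit 32) (nat_lit 5) (nat_lit 35) (nat_lit 5) (nat_lit 33) (nat_lit 5) (nat_lit 296) (nat_lit 287) (nat_lit 197)) (XT.nd (nat_lit 78) (nat_lit 152) (nat_lit 0) (XT.lf (nat_lit 0) (nat_lit 129324410900)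 (nat_lit 304) (nat_lit 39143276649) (nat_lit 76) (nat_lit 226617593475) (nat_lit 29) (nat_lit 5) (nat_lit 33) (nat_lit 5) (nat_lit 30) (nat_lit 5) (nat_lit 297) (nat_lit 287) (nat_lit 196)) (XT.lf (nat_lit 0) (nat_lit 271240041096) (nat_lit 228) (nat_lit 73902906052) (nat_lit 76) (nat_lit 87350651838) (nat_lit 27) (nat_lit 5) (nat_lit 30) (nat_lit 5) (nat_lit 28) (nat_lit 5) (nat_lit 298) (nat_lit 287) (nat_lit 195)))) (XT.nd (nat_lit 78) (nat_lit 304) (nat_lit 0) (XT.lf (nat_lit 0) (nat_lit 356055178913) (nat_lit 152) (nat_lit 92779381494) (nat_lit 228) (nat_lit 25527280988) (nat_lit 25) (nat_lit 5) (nat_lit 27) (nat_lit 5) (nat_lit 28) (nat_lit 5) (nat_lit 299) (nat_lit 287) (nat_lit 194)) (XT.nd (nat_lit 78) (nat_lit 152) (nat_lit 0) (XT.lf (nat_lit 0) (nat_lit 139678588523) (nat_lit 152) (nat_lit 179723064922) (nat_lit 76) (nat_lit 201605338230) (nat_lit 23) (nat_lit 5) (nat_lit 25)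 (nat_lit 5) (nat_lit 24) (nat_lit 5) (nat_lit 300) (nat_lit 287) (nat_lit 193)) (XT.lf (nat_lit 0) (nat_lit 314999787335) (nat_lit 152) (nat_lit 26872488420) (nat_lit 228) (nat_lit 231626120291) (nat_lit 21) (nat_lit 5) (nat_lit 23) (nat_lit 5) (nat_lit 24) (nat_lit 5) (nat_lit 301) (nat_lit 287) (nat_lit 192))))) (XT.nd (nat_lit 234) (nat_lit 304) (nat_lit 0) (XT.nd (nat_lit 78) (nat_lit 304) (nat_lit 0) (XT.lf (nat_lit 0) (nat_lit 267153199942) (nat_lit 76) (nat_lit 326479397990) (nat_lit 152) (nat_lit 38691906789) (nat_lit 20) (nat_lit 5) (nat_lit 21) (nat_lit 5) (nat_lit 22) (nat_lit 4) (nat_lit 302) (nat_lit 287) (nat_lit 191)) (XT.nd (nat_lit 78) (nat_lit 76) (nat_lit 0) (XT.lf (nat_lit 0) (nat_lit 187228523815) (nat_lit 228) (nat_lit 506493181326) (nat_lit 76) (nat_lit 4843612345) (nat_lit 17) (nat_lit 5) (nat_lit 20) (nat_lit 5) (nat_lit 18) (nat_lit 4) (nat_lit 303) (nat_lit 287)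 (nat_lit 190)) (XT.lf (nat_lit 0) (nat_lit 74473375127) (nat_lit 76) (nat_lit 392066065900) (nat_lit 152) (nat_lit 306378939336) (nat_lit 16) (nat_lit 5) (nat_lit 17) (nat_lit 5) (nat_lit 18) (nat_lit 4) (nat_lit 304) (nat_lit 287) (nat_lit 189)))) (XT.nd (nat_lit 156) (nat_lit 152) (nat_lit 0) (XT.nd (nat_lit 78) (nat_lit 152) (nat_lit 0) (XT.lf (nat_lit 0) (nat_lit 773256387309) (nat_lit 76) (nat_lit 29236488232) (nat_lit 152) (nat_lit 54751856872) (nat_lit 16) (nat_lit 5) (nat_lit 17) (nat_lit 5) (nat_lit 18) (nat_lit 4) (nat_lit 305) (nat_lit 287) (nat_lit 188)) (XT.lf (nat_lit 0) (nat_lit 248386778561) (nat_lit 152) (nat_lit 312919304535) (nat_lit 76) (nat_lit 390422218502) (nat_lit 14) (nat_lit 5) (nat_lit 16) (nat_lit 5) (nat_lit 15) (nat_lit 4) (nat_lit 306) (nat_lit 287) (nat_lit 187))) (XT.nd (nat_lit 78) (nat_lit 76) (nat_lit 0) (XT.lf (nat_lit 0) (nat_lit 434260073284) (nat_lit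 76) (nat_lit 173347604297) (nat_lit 152) (nat_lit 451554687436) (nat_lit 13) (nat_lit 5) (nat_lit 14) (nat_lit 5) (nat_lit 15) (nat_lit 4) (nat_lit 307) (nat_lit 287) (nat_lit 186)) (XT.lf (nat_lit 0) (nat_lit 130198373292) (nat_lit 76) (nat_lit 909552415659) (nat_lit 76) (nat_lit 141437622872) (nat_lit 12) (nat_lit 4) (nat_lit 13) (nat_lit 5) (nat_lit 13) (nat_lit 4) (nat_lit 308) (nat_lit 287) (nat_lit 185)))))) (XT.nd (nat_lit 468) (nat_lit 228) (nat_lit 0) (XT.nd (nat_lit 234) (nat_lit 228) (nat_lit 0) (XT.nd (nat_lit 78) (nat_lit 76) (nat_lit 0) (XT.lf (nat_lit 0) (nat_lit 227892165768) (nat_lit 152) (nat_lit 294099152500) (nat_lit 76) (nat_lit 797236192799) (nat_lit 11) (nat_lit 5) (nat_lit 13) (nat_lit 5) (nat_lit 12) (nat_lit 4) (nat_lit 309) (nat_lit 287) (nat_lit 184)) (XT.nd (nat_lit 78) (nat_lit 0) (nat_lit 0) (XT.lf (nat_lit 0) (nat_lit 602555684627) (nat_lit 76) (nat_lit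 56420564422) (nat_lit 152) (nat_lit 817523968884) (nat_lit 10) (nat_lit 5) (nat_lit 11) (nat_lit 5) (nat_lit 12) (nat_lit 4) (nat_lit 310) (nat_lit 287) (nat_lit 183)) (XT.lf (nat_lit 0) (nat_lit 1175027273029) (nat_lit 152) (nat_lit 16902496129) (nat_lit 0) (nat_lit 463809715458) (nat_lit 10) (nat_lit 5) (nat_lit 12) (nat_lit 4) (nat_lit 10) (nat_lit 4) (nat_lit 311) (nat_lit 287) (nat_lit 182)))) (XT.nd (nat_lit 78) (nat_lit 152) (nat_lit 0) (XT.lf (nat_lit 0) (nat_lit 1018062905899) (nat_lit 76) (nat_lit 776467873012) (nat_lit 76) (nat_lit 65250276166) (nat_lit 9) (nat_lit 4) (nat_lit 10) (nat_lit 5) (nat_lit 10) (nat_lit 4) (nat_lit 312) (nat_lit 287) (nat_lit 181)) (XT.nd (nat_lit 78) (nat_lit 0) (nat_lit 0) (XT.lf (nat_lit 0) (nat_lit 110500605236) (nat_lit 76) (nat_lit 284556239107) (nat_lit 152) (nat_lit 1698325317363) (nat_lit 7) (nat_lit 5) (nat_lit 8) (nat_lit 5) (nat_lit 9)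 (nat_lit 4) (nat_lit 313) (nat_lit 287) (nat_lit 180)) (XT.lf (nat_lit 0) (nat_lit 952559988740) (nat_lit 152) (nat_lit 1112741662879) (nat_lit 0) (nat_lit 294025117724) (nat_lit 7) (nat_lit 5) (nat_lit 9) (nat_lit 4) (nat_lit 7) (nat_lit 4) (nat_lit 314) (nat_lit 287) (nat_lit 179))))) (XT.nd (nat_lit 234) (nat_lit 152) (nat_lit 0) (XT.nd (nat_lit 78) (nat_lit 76) (nat_lit 0) (XT.lf (nat_lit 0) (nat_lit 1601558679627) (nat_lit 152) (nat_lit 119950997836) (nat_lit 0) (nat_lit 943023784700) (nat_lit 7) (nat_lit 5) (nat_lit 9) (nat_lit 4) (nat_lit 7) (nat_lit 4) (nat_lit 315) (nat_lit 287) (nat_lit 178)) (XT.nd (nat_lit 78) (nat_lit 0) (nat_lit 0) (XT.lf (nat_lit 0) (nat_lit 1075562163719) (nat_lit 76) (nat_lit 1298212265270) (nat_lit 76) (nat_lit 639677349550) (nat_lit 6) (nat_lit 4) (nat_lit 7) (nat_lit 5) (nat_lit 7) (nat_lit 4) (nat_lit 316) (nat_lit 287) (nat_lit 177)) (XT.lf (nat_lit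 0) (nat_lit 2457666095468) (nat_lit 76) (nat_lit 807648652089) (nat_lit 76) (nat_lit 149113718288) (nat_lit 6) (nat_lit 4) (nat_lit 7) (nat_lit 5) (nat_lit 7) (nat_lit 4) (nat_lit 317) (nat_lit 287) (nat_lit 176)))) (XT.nd (nat_lit 156) (nat_lit 0) (nat_lit 0) (XT.nd (nat_lit 78) (nat_lit 0) (nat_lit 0) (XT.lf (nat_lit 0) (nat_lit 170059365830) (nat_lit 76) (nat_lit 228303285781) (nat_lit 152) (nat_lit 3476063285682) (nat_lit 4) (nat_lit 5) (nat_lit 5) (nat_lit 5) (nat_lit 6) (nat_lit 4) (nat_lit 318) (nat_lit 287) (nat_lit 175)) (XT.lf (nat_lit 0) (nat_lit 1058493460153) (nat_lit 152) (nat_lit 2892731883684) (nat_lit 0) (nat_lit 448738864603) (nat_lit 4) (nat_lit 5) (nat_lit 6) (nat_lit 4) (nat_lit 4) (nat_lit 4) (nat_lit 319) (nat_lit 287) (nat_lit 174))) (XT.nd (nat_lit 78) (nat_lit 0) (nat_lit 0) (XT.lf (nat_lit 0) (nat_lit 1823958167320) (nat_lit 152) (nat_lit 1965666350001) (nat_lit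 0) (nat_lit 1214203560762) (nat_lit 4) (nat_lit 5) (nat_lit 6) (nat_lit 4) (nat_lit 4) (nat_lit 4) (nat_lit 320) (nat_lit 287) (nat_lit 173)) (XT.lf (nat_lit 0) (nat_lit 2704242556999) (nat_lit 152) (nat_lit 899541032200) (nat_lit 0) (nat_lit 2094487940869) (nat_lit 4) (nat_lit 5) (nat_lit 6) (nat_lit 4) (nat_lit 4) (nat_lit 4) (nat_lit 321) (nat_lit 287) (nat_lit 172))))))) (XT.nd (nat_lit 38688) (nat_lit 0) (nat_lit 684) (XT.nd (nat_lit 38142) (nat_lit 0) (nat_lit 2280) (XT.nd (nat_lit 234) (nat_lit 0) (nat_lit 0) (XT.nd (nat_lit 78) (nat_lit 0) (nat_lit 0) (XT.lf (nat_lit 0) (nat_lit 343696114977) (nat_lit 76) (nat_lit 3381139369493) (nat_lit 76) (nat_lit 2771384745040) (nat_lit 3) (nat_lit 4) (nat_lit 4) (nat_lit 5) (nat_lit 4) (nat_lit 4) (nat_lit 322) (nat_lit 287) (nat_lit 171)) (XT.nd (nat_lit 78) (nat_lit 0) (nat_lit 0) (XT.lf (nat_lit 0) (nat_lit 1827892269798) (nat_lit 76) (nat_lit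 3096814231861) (nat_lit 76) (nat_lit 2487059600170) (nat_lit 3) (nat_lit 4) (nat_lit 4) (nat_lit 5) (nat_lit 4) (nat_lit 4) (nat_lit 323) (nat_lit 287) (nat_lit 170)) (XT.lf (nat_lit 0) (nat_lit 3534717816050) (nat_lit 76) (nat_lit 2769840339118) (nat_lit 76) (nat_lit 2160085701134) (nat_lit 3) (nat_lit 4) (nat_lit 4) (nat_lit 5) (nat_lit 4) (nat_lit 4) (nat_lit 324) (nat_lit 287) (nat_lit 169)))) (XT.nd (nat_lit 37752) (nat_lit 0) (nat_lit 3496) (XT.lf (nat_lit 0) (nat_lit 5497567166594) (nat_lit 76) (nat_lit 2393820375973) (nat_lit 76) (nat_lit 1784065732516) (nat_lit 3) (nat_lit 4) (nat_lit 4) (nat_lit 5) (nat_lit 4) (nat_lit 4) (nat_lit 325) (nat_lit 287) (nat_lit 168)) (XT.nd (nat_lit 78) (nat_lit 0) (nat_lit 0) (XT.lf (nat_lit 0) (nat_lit 70514586275) (nat_lit 532) (nat_lit 15814015644) (nat_lit 532) (nat_lit 15814015644) (nat_lit 49) (nat_lit 3) (nat_lit 56) (nat_lit 3) (nat_lit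 56) (nat_lit 5) (nat_lit 288) (nat_lit 288) (nat_lit 204)) (XT.lf (nat_lit 76) (nat_lit 153873568992) (nat_lit 0) (nat_lit 1436050798) (nat_lit 532) (nat_lit 64000740759) (nat_lit 50) (nat_lit 5) (nat_lit 49) (nat_lit 3) (nat_lit 56) (nat_lit 5) (nat_lit 289) (nat_lit 288) (nat_lit 203))))) (XT.nd (nat_lit 234) (nat_lit 988) (nat_lit 0) (XT.nd (nat_lit 78) (nat_lit 304) (nat_lit 0) (XT.lf (nat_lit 76) (nat_lit 134608540705) (nat_lit 0) (nat_lit 46006218502) (nat_lit 532) (nat_lit 55263886723) (nat_lit 51) (nat_lit 5) (nat_lit 50) (nat_lit 5) (nat_lit 57) (nat_lit 5) (nat_lit 290) (nat_lit 288) (nat_lit 202)) (XT.nd (nat_lit 78) (nat_lit 380) (nat_lit 0) (XT.lf (nat_lit 76) (nat_lit 115824567512) (nat_lit 0) (nat_lit 102394090894) (nat_lit 532) (nat_lit 36033277602) (nat_lit 52) (nat_lit 5) (nat_lit 51) (nat_lit 5) (nat_lit 58) (nat_lit 5) (nat_lit 291) (nat_lit 288) (nat_lit 201)) (XT.lf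 (nat_lit 0) (nat_lit 97596093806) (nat_lit 456) (nat_lit 172918684919) (nat_lit 532) (nat_lit 4142310847) (nat_lit 46) (nat_lit 5) (nat_lit 52) (nat_lit 5) (nat_lit 53) (nat_lit 5) (nat_lit 292) (nat_lit 288) (nat_lit 200)))) (XT.nd (nat_lit 156) (nat_lit 380) (nat_lit 0) (XT.nd (nat_lit 78) (nat_lit 228) (nat_lit 0) (XT.lf (nat_lit 0) (nat_lit 40756695817) (nat_lit 380) (nat_lit 218431697248) (nat_lit 76) (nat_lit 38083888207) (nat_lit 41) (nat_lit 5) (nat_lit 46) (nat_lit 5) (nat_lit 42) (nat_lit 5) (nat_lit 293) (nat_lit 288) (nat_lit 199)) (XT.lf (nat_lit 0) (nat_lit 58897328520) (nat_lit 228) (nat_lit 44742455645) (nat_lit 304) (nat_lit 218711800637) (nat_lit 38) (nat_lit 5) (nat_lit 41) (nat_lit 5) (nat_lit 42) (nat_lit 5) (nat_lit 294) (nat_lit 288) (nat_lit 198))) (XT.nd (nat_lit 78) (nat_lit 152) (nat_lit 0) (XT.lf (nat_lit 0) (nat_lit 37210167994) (nat_lit 228) (nat_lit 151019382111)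 (nat_lit 304) (nat_lit 161981297140) (nat_lit 35) (nat_lit 5) (nat_lit 38) (nat_lit 5) (nat_lit 39) (nat_lit 5) (nat_lit 295) (nat_lit 288) (nat_lit 197)) (XT.lf (nat_lit 0) (nat_lit 14319799780) (nat_lit 152) (nat_lit 282891422917) (nat_lit 228) (nat_lit 84101501477) (nat_lit 33) (nat_lit 5) (nat_lit 35) (nat_lit 5) (nat_lit 36) (nat_lit 5) (nat_lit 296) (nat_lit 288) (nat_lit 196)))))) (XT.nd (nat_lit 468) (nat_lit 684) (nat_lit 0) (XT.nd (nat_lit 234) (nat_lit 456) (nat_lit 0) (XT.nd (nat_lit 78) (nat_lit 380) (nat_lit 0) (XT.lf (nat_lit 0) (nat_lit 18713095724) (nat_lit 228) (nat_lit 11203266783) (nat_lit 76) (nat_lit 386070936814) (nat_lit 32) (nat_lit 5) (nat_lit 35) (nat_lit 5) (nat_lit 33) (nat_lit 5) (nat_lit 297) (nat_lit 288) (nat_lit 195)) (XT.nd (nat_lit 78) (nat_lit 152) (nat_lit 0) (XT.lf (nat_lit 0) (nat_lit 148725188450) (nat_lit 304) (nat_lit 45011812999) (nat_lit 76)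 (nat_lit 260610898980) (nat_lit 29) (nat_lit 5) (nat_lit 33) (nat_lit 5) (nat_lit 30) (nat_lit 5) (nat_lit 298) (nat_lit 288) (nat_lit 194)) (XT.lf (nat_lit 0) (nat_lit 311927971482) (nat_lit 228) (nat_lit 84985500771) (nat_lit 76) (nat_lit 100454009620) (nat_lit 27) (nat_lit 5) (nat_lit 30) (nat_lit 5) (nat_lit 28) (nat_lit 5) (nat_lit 299) (nat_lit 288) (nat_lit 193)))) (XT.nd (nat_lit 78) (nat_lit 304) (nat_lit 0) (XT.lf (nat_lit 0) (nat_lit 409466056446) (nat_lit 152) (nat_lit 106695423805) (nat_lit 228) (nat_lit 29354495863) (nat_lit 25) (nat_lit 5) (nat_lit 27) (nat_lit 5) (nat_lit 28) (nat_lit 5) (nat_lit 300) (nat_lit 288) (nat_lit 192)) (XT.nd (nat_lit 78) (nat_lit 152) (nat_lit 0) (XT.lf (nat_lit 0) (nat_lit 160632007577) (nat_lit 152) (nat_lit 206678945637) (nat_lit 76) (nat_lit 231846954634) (nat_lit 23) (nat_lit 5) (nat_lit 25) (nat_lit 5) (nat_lit 24) (nat_lit 5) (nat_lit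 301) (nat_lit 288) (nat_lit 191)) (XT.lf (nat_lit 0) (nat_lit 362252116157) (nat_lit 152) (nat_lit 30902475802) (nat_lit 228) (nat_lit 266368443667) (nat_lit 21) (nat_lit 5) (nat_lit 23) (nat_lit 5) (nat_lit 24) (nat_lit 5) (nat_lit 302) (nat_lit 288) (nat_lit 190))))) (XT.nd (nat_lit 234) (nat_lit 304) (nat_lit 0) (XT.nd (nat_lit 78) (nat_lit 304) (nat_lit 0) (XT.lf (nat_lit 0) (nat_lit 307228431015) (nat_lit 76) (nat_lit 375450411743) (nat_lit 152) (nat_lit 44494227662) (nat_lit 20) (nat_lit 5) (nat_lit 21) (nat_lit 5) (nat_lit 22) (nat_lit 4) (nat_lit 303) (nat_lit 288) (nat_lit 189)) (XT.nd (nat_lit 78) (nat_lit 76) (nat_lit 0) (XT.lf (nat_lit 0) (nat_lit 215314084760) (nat_lit 228) (nat_lit 582464948196) (nat_lit 76) (nat_lit 5570978276) (nat_lit 17) (nat_lit 5) (nat_lit 20) (nat_lit 5) (nat_lit 18) (nat_lit 4) (nat_lit 304) (nat_lit 288) (nat_lit 188)) (XT.lf (nat_lit 0) (nat_lit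 85646404633) (nat_lit 76) (nat_lit 450875116315) (nat_lit 152) (nat_lit 352334522249) (nat_lit 16) (nat_lit 5) (nat_lit 17) (nat_lit 5) (nat_lit 18) (nat_lit 4) (nat_lit 305) (nat_lit 288) (nat_lit 187)))) (XT.nd (nat_lit 156) (nat_lit 152) (nat_lit 0) (XT.nd (nat_lit 78) (nat_lit 152) (nat_lit 0) (XT.lf (nat_lit 0) (nat_lit 889246604741) (nat_lit 76) (nat_lit 33621214101) (nat_lit 152) (nat_lit 62963541502) (nat_lit 16) (nat_lit 5) (nat_lit 17) (nat_lit 5) (nat_lit 18) (nat_lit 4) (nat_lit 306) (nat_lit 288) (nat_lit 186)) (XT.lf (nat_lit 0) (nat_lit 285645756197) (nat_lit 152) (nat_lit 359855479873) (nat_lit 76) (nat_lit 448986233115) (nat_lit 14) (nat_lit 5) (nat_lit 16) (nat_lit 5) (nat_lit 15) (nat_lit 4) (nat_lit 307) (nat_lit 288) (nat_lit 185))) (XT.nd (nat_lit 78) (nat_lit 76) (nat_lit 0) (XT.lf (nat_lit 0) (nat_lit 499400659000) (nat_lit 76) (nat_lit 199349043614) (nat_lit 152)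 (nat_lit 519286946603) (nat_lit 13) (nat_lit 5) (nat_lit 14) (nat_lit 5) (nat_lit 15) (nat_lit 4) (nat_lit 308) (nat_lit 288) (nat_lit 184)) (XT.lf (nat_lit 0) (nat_lit 149729619859) (nat_lit 76) (nat_lit 1045984597424) (nat_lit 76) (nat_lit 162652390921) (nat_lit 12) (nat_lit 4) (nat_lit 13) (nat_lit 5) (nat_lit 13) (nat_lit 4) (nat_lit 309) (nat_lit 288) (nat_lit 183))))))))
noncomputable def xc53 : XT := (XT.nd (nat_lit 39780) (nat_lit 0) (nat_lit 0) (XT.nd (nat_lit 1014) (nat_lit 76) (nat_lit 0) (XT.nd (nat_lit 468) (nat_lit 228) (nat_lit 0) (XT.nd (nat_lit 234) (nat_lit 228) (nat_lit 0) (XT.nd (nat_lit 78) (nat_lit 76) (nat_lit 0) (XT.lf (nat_lit 0) (nat_lit 262076713756) (nat_lit 152) (nat_lit 338212690669) (nat_lit 76) (nat_lit 916822174975) (nat_lit 11) (nat_lit 5) (nat_lit 13) (nat_lit 5) (nat_lit 12) (nat_lit 4) (nat_lit 310) (nat_lit 288) (nat_lit 182)) (XT.nd (nat_lit 78) (nat_lit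 0) (nat_lit 0) (XT.lf (nat_lit 0) (nat_lit 692940259052) (nat_lit 76) (nat_lit 64883085540) (nat_lit 152) (nat_lit 940151852961) (nat_lit 10) (nat_lit 5) (nat_lit 11) (nat_lit 5) (nat_lit 12) (nat_lit 4) (nat_lit 311) (nat_lit 288) (nat_lit 181)) (XT.lf (nat_lit 0) (nat_lit 1351281948104) (nat_lit 152) (nat_lit 19436773812) (nat_lit 0) (nat_lit 533381638302) (nat_lit 10) (nat_lit 5) (nat_lit 12) (nat_lit 4) (nat_lit 10) (nat_lit 4) (nat_lit 312) (nat_lit 288) (nat_lit 180)))) (XT.nd (nat_lit 78) (nat_lit 152) (nat_lit 0) (XT.lf (nat_lit 0) (nat_lit 1170773345687) (nat_lit 76) (nat_lit 892937582136) (nat_lit 76) (nat_lit 75037242636) (nat_lit 9) (nat_lit 4) (nat_lit 10) (nat_lit 5) (nat_lit 10) (nat_lit 4) (nat_lit 313) (nat_lit 288) (nat_lit 179)) (XT.nd (nat_lit 78) (nat_lit 0) (nat_lit 0) (XT.lf (nat_lit 0) (nat_lit 127076641542) (nat_lit 76) (nat_lit 327239227143) (nat_lit 152) (nat_lit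 1953073577210) (nat_lit 7) (nat_lit 5) (nat_lit 8) (nat_lit 5) (nat_lit 9) (nat_lit 4) (nat_lit 314) (nat_lit 288) (nat_lit 178)) (XT.lf (nat_lit 0) (nat_lit 1095444429191) (nat_lit 152) (nat_lit 1279652064643) (nat_lit 0) (nat_lit 338129255320) (nat_lit 7) (nat_lit 5) (nat_lit 9) (nat_lit 4) (nat_lit 7) (nat_lit 4) (nat_lit 315) (nat_lit 288) (nat_lit 177))))) (XT.nd (nat_lit 234) (nat_lit 152) (nat_lit 0) (XT.nd (nat_lit 78) (nat_lit 76) (nat_lit 0) (XT.lf (nat_lit 0) (nat_lit 1841792866041) (nat_lit 152) (nat_lit 137942910409) (nat_lit 0) (nat_lit 1084477674090) (nat_lit 7) (nat_lit 5) (nat_lit 9) (nat_lit 4) (nat_lit 7) (nat_lit 4) (nat_lit 316) (nat_lit 288) (nat_lit 176)) (XT.nd (nat_lit 78) (nat_lit 0) (nat_lit 0) (XT.lf (nat_lit 0) (nat_lit 1236897162988) (nat_lit 76) (nat_lit 1492943780898) (nat_lit 76) (nat_lit 735628573225) (nat_lit 6) (nat_lit 4) (nat_lit 7) (nat_lit 5) (nat_lit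 7) (nat_lit 4) (nat_lit 317) (nat_lit 288) (nat_lit 175)) (XT.lf (nat_lit 0) (nat_lit 2826316596493) (nat_lit 76) (nat_lit 928795668022) (nat_lit 76) (nat_lit 171480446677) (nat_lit 6) (nat_lit 4) (nat_lit 7) (nat_lit 5) (nat_lit 7) (nat_lit 4) (nat_lit 318) (nat_lit 288) (nat_lit 174)))) (XT.nd (nat_lit 156) (nat_lit 0) (nat_lit 0) (XT.nd (nat_lit 78) (nat_lit 0) (nat_lit 0) (XT.lf (nat_lit 0) (nat_lit 195568822951) (nat_lit 76) (nat_lit 262548511752) (nat_lit 152) (nat_lit 3997472470239) (nat_lit 4) (nat_lit 5) (nat_lit 5) (nat_lit 5) (nat_lit 6) (nat_lit 4) (nat_lit 319) (nat_lit 288) (nat_lit 173)) (XT.lf (nat_lit 0) (nat_lit 1217267732889) (nat_lit 152) (nat_lit 3326641171652) (nat_lit 0) (nat_lit 516049914768) (nat_lit 4) (nat_lit 5) (nat_lit 6) (nat_lit 4) (nat_lit 4) (nat_lit 4) (nat_lit 320) (nat_lit 288) (nat_lit 172))) (XT.nd (nat_lit 78) (nat_lit 0) (nat_lit 0) (XT.lf (nat_lit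 0) (nat_lit 2097552113038) (nat_lit 152) (nat_lit 2260515872428) (nat_lit 0) (nat_lit 1396334286594) (nat_lit 4) (nat_lit 5) (nat_lit 6) (nat_lit 4) (nat_lit 4) (nat_lit 4) (nat_lit 321) (nat_lit 288) (nat_lit 171)) (XT.lf (nat_lit 0) (nat_lit 3109879132392) (nat_lit 152) (nat_lit 1034471813053) (nat_lit 0) (nat_lit 2408661298710) (nat_lit 4) (nat_lit 5) (nat_lit 6) (nat_lit 4) (nat_lit 4) (nat_lit 4) (nat_lit 322) (nat_lit 288) (nat_lit 170)))))) (XT.nd (nat_lit 38220) (nat_lit 0) (nat_lit 2204) (XT.nd (nat_lit 37986) (nat_lit 0) (nat_lit 3496) (XT.nd (nat_lit 78) (nat_lit 0) (nat_lit 0) (XT.lf (nat_lit 0) (nat_lit 395250874546) (nat_lit 76) (nat_lit 3888310107648) (nat_lit 76) (nat_lit 3187092267673) (nat_lit 3) (nat_lit 4) (nat_lit 4) (nat_lit 5) (nat_lit 4) (nat_lit 4) (nat_lit 323) (nat_lit 288) (nat_lit 169)) (XT.nd (nat_lit 78) (nat_lit 0) (nat_lit 0) (XT.lf (nat_lit 0) (nat_lit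 2102076407939) (nat_lit 76) (nat_lit 3561336221189) (nat_lit 76) (nat_lit 2860118375741) (nat_lit 3) (nat_lit 4) (nat_lit 4) (nat_lit 5) (nat_lit 4) (nat_lit 4) (nat_lit 324) (nat_lit 288) (nat_lit 168)) (XT.lf (nat_lit 0) (nat_lit 4064925747302) (nat_lit 76) (nat_lit 3185316263507) (nat_lit 76) (nat_lit 2484098413300) (nat_lit 3) (nat_lit 4) (nat_lit 4) (nat_lit 5) (nat_lit 4) (nat_lit 4) (nat_lit 325) (nat_lit 288) (nat_lit 167)))) (XT.nd (nat_lit 78) (nat_lit 0) (nat_lit 0) (XT.lf (nat_lit 0) (nat_lit 81094262975) (nat_lit 532) (nat_lit 18184770961) (nat_lit 532) (nat_lit 18184770961) (nat_lit 49) (nat_lit 3) (nat_lit 56) (nat_lit 3) (nat_lit 56) (nat_lit 5) (nat_lit 289) (nat_lit 289) (nat_lit 202)) (XT.nd (nat_lit 78) (nat_lit 0) (nat_lit 76) (XT.lf (nat_lit 76) (nat_lit 176957070362) (nat_lit 0) (nat_lit 1653379980) (nat_lit 532) (nat_lit 73596102499) (nat_lit 50) (nat_lit 5) (nat_lit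 49) (nat_lit 3) (nat_lit 56) (nat_lit 5) (nat_lit 290) (nat_lit 289) (nat_lit 201)) (XT.lf (nat_lit 76) (nat_lit 154802452564) (nat_lit 0) (nat_lit 52908358898) (nat_lit 532) (nat_lit 63549314910) (nat_lit 51) (nat_lit 5) (nat_lit 50) (nat_lit 5) (nat_lit 57) (nat_lit 5) (nat_lit 291) (nat_lit 289) (nat_lit 200))))) (XT.nd (nat_lit 234) (nat_lit 684) (nat_lit 0) (XT.nd (nat_lit 78) (nat_lit 760) (nat_lit 0) (XT.lf (nat_lit 76) (nat_lit 133200976959) (nat_lit 0) (nat_lit 117753858190) (nat_lit 532) (nat_lit 41434612869) (nat_lit 52) (nat_lit 5) (nat_lit 51) (nat_lit 5) (nat_lit 58) (nat_lit 5) (nat_lit 292) (nat_lit 289) (nat_lit 199)) (XT.nd (nat_lit 78) (nat_lit 380) (nat_lit 0) (XT.lf (nat_lit 0) (nat_lit 112238270813) (nat_lit 456) (nat_lit 198856714873) (nat_lit 532) (nat_lit 4760421018) (nat_lit 46) (nat_lit 5) (nat_lit 52) (nat_lit 5) (nat_lit 53) (nat_lit 5) (nat_lit 293) (nat_lit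 289) (nat_lit 198)) (XT.lf (nat_lit 0) (nat_lit 46872936932) (nat_lit 380) (nat_lit 251193542490) (nat_lit 76) (nat_lit 43796419393) (nat_lit 41) (nat_lit 5) (nat_lit 46) (nat_lit 5) (nat_lit 42) (nat_lit 5) (nat_lit 294) (nat_lit 289) (nat_lit 197)))) (XT.nd (nat_lit 156) (nat_lit 228) (nat_lit 0) (XT.nd (nat_lit 78) (nat_lit 228) (nat_lit 0) (XT.lf (nat_lit 0) (nat_lit 67734590882) (nat_lit 228) (nat_lit 51453604731) (nat_lit 304) (nat_lit 251515926440) (nat_lit 38) (nat_lit 5) (nat_lit 41) (nat_lit 5) (nat_lit 42) (nat_lit 5) (nat_lit 295) (nat_lit 289) (nat_lit 196)) (XT.lf (nat_lit 0) (nat_lit 42794309534) (nat_lit 228) (nat_lit 173671865658) (nat_lit 304) (nat_lit 186276119417) (nat_lit 35) (nat_lit 5) (nat_lit 38) (nat_lit 5) (nat_lit 39) (nat_lit 5) (nat_lit 296) (nat_lit 289) (nat_lit 195))) (XT.nd (nat_lit 78) (nat_lit 76) (nat_lit 0) (XT.lf (nat_lit 0) (nat_lit 16470319809)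 (nat_lit 152) (nat_lit 325324563069) (nat_lit 228) (nat_lit 96714588027) (nat_lit 33) (nat_lit 5) (nat_lit 35) (nat_lit 5) (nat_lit 36) (nat_lit 5) (nat_lit 297) (nat_lit 289) (nat_lit 194)) (XT.lf (nat_lit 0) (nat_lit 21521826766) (nat_lit 228) (nat_lit 12881443303) (nat_lit 76) (nat_lit 443981979793) (nat_lit 32) (nat_lit 5) (nat_lit 35) (nat_lit 5) (nat_lit 33) (nat_lit 5) (nat_lit 298) (nat_lit 289) (nat_lit 193))))))) (XT.nd (nat_lit 1014) (nat_lit 608) (nat_lit 0) (XT.nd (nat_lit 468) (nat_lit 684) (nat_lit 0) (XT.nd (nat_lit 234) (nat_lit 380) (nat_lit 0) (XT.nd (nat_lit 78) (nat_lit 304) (nat_lit 0) (XT.lf (nat_lit 0) (nat_lit 171035566653) (nat_lit 304) (nat_lit 51761350433) (nat_lit 76) (nat_lit 299703037785) (nat_lit 29) (nat_lit 5) (nat_lit 33) (nat_lit 5) (nat_lit 30) (nat_lit 5) (nat_lit 299) (nat_lit 289) (nat_lit 192)) (XT.nd (nat_lit 78) (nat_lit 152) (nat_lit 0) (XT.lf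 (nat_lit 0) (nat_lit 358718622192) (nat_lit 228) (nat_lit 97731177540) (nat_lit 76) (nat_lit 115522685738) (nat_lit 27) (nat_lit 5) (nat_lit 30) (nat_lit 5) (nat_lit 28) (nat_lit 5) (nat_lit 300) (nat_lit 289) (nat_lit 191)) (XT.lf (nat_lit 0) (nat_lit 470887931413) (nat_lit 152) (nat_lit 122699083378) (nat_lit 228) (nat_lit 33756250754) (nat_lit 25) (nat_lit 5) (nat_lit 27) (nat_lit 5) (nat_lit 28) (nat_lit 5) (nat_lit 301) (nat_lit 289) (nat_lit 190)))) (XT.nd (nat_lit 78) (nat_lit 228) (nat_lit 0) (XT.lf (nat_lit 0) (nat_lit 184728041814) (nat_lit 152) (nat_lit 237678837370) (nat_lit 76) (nat_lit 266624614593) (nat_lit 23) (nat_lit 5) (nat_lit 25) (nat_lit 5) (nat_lit 24) (nat_lit 5) (nat_lit 302) (nat_lit 289) (nat_lit 189)) (XT.nd (nat_lit 78) (nat_lit 76) (nat_lit 0) (XT.lf (nat_lit 0) (nat_lit 416591718626) (nat_lit 152) (nat_lit 35537177320) (nat_lit 228) (nat_lit 306322504419)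 (nat_lit 21) (nat_lit 5) (nat_lit 23) (nat_lit 5) (nat_lit 24) (nat_lit 5) (nat_lit 303) (nat_lit 289) (nat_lit 188)) (XT.lf (nat_lit 0) (nat_lit 353314397808) (nat_lit 76) (nat_lit 431767296041) (nat_lit 152) (nat_lit 51167253950) (nat_lit 20) (nat_lit 5) (nat_lit 21) (nat_lit 5) (nat_lit 22) (nat_lit 4) (nat_lit 304) (nat_lit 289) (nat_lit 187))))) (XT.nd (nat_lit 234) (nat_lit 380) (nat_lit 0) (XT.nd (nat_lit 78) (nat_lit 76) (nat_lit 0) (XT.lf (nat_lit 0) (nat_lit 247612167132) (nat_lit 228) (nat_lit 669833019099) (nat_lit 76) (nat_lit 6407248139) (nat_lit 17) (nat_lit 5) (nat_lit 20) (nat_lit 5) (nat_lit 18) (nat_lit 4) (nat_lit 305) (nat_lit 289) (nat_lit 186)) (XT.nd (nat_lit 78) (nat_lit 0) (nat_lit 0) (XT.lf (nat_lit 0) (nat_lit 98494895185) (nat_lit 76) (nat_lit 518505733879) (nat_lit 152) (nat_lit 405183749368) (nat_lit 16) (nat_lit 5) (nat_lit 17) (nat_lit 5) (nat_lit 18) (nat_lit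 4) (nat_lit 306) (nat_lit 289) (nat_lit 185)) (XT.lf (nat_lit 0) (nat_lit 1022634925763) (nat_lit 76) (nat_lit 38663831101) (nat_lit 152) (nat_lit 72407245580) (nat_lit 16) (nat_lit 5) (nat_lit 17) (nat_lit 5) (nat_lit 18) (nat_lit 4) (nat_lit 307) (nat_lit 289) (nat_lit 184)))) (XT.nd (nat_lit 156) (nat_lit 152) (nat_lit 0) (XT.nd (nat_lit 78) (nat_lit 76) (nat_lit 0) (XT.lf (nat_lit 0) (nat_lit 328493346169) (nat_lit 152) (nat_lit 413832501029) (nat_lit 76) (nat_lit 516334683650) (nat_lit 14) (nat_lit 5) (nat_lit 16) (nat_lit 5) (nat_lit 15) (nat_lit 4) (nat_lit 308) (nat_lit 289) (nat_lit 183)) (XT.lf (nat_lit 0) (nat_lit 574311948568) (nat_lit 76) (nat_lit 229250869851) (nat_lit 152) (nat_lit 597179274832) (nat_lit 13) (nat_lit 5) (nat_lit 14) (nat_lit 5) (nat_lit 15) (nat_lit 4) (nat_lit 309) (nat_lit 289) (nat_lit 182))) (XT.nd (nat_lit 78) (nat_lit 76) (nat_lit 0) (XT.lf (nat_lit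 0) (nat_lit 172190189926) (nat_lit 76) (nat_lit 1202881772419) (nat_lit 76) (nat_lit 187049587645) (nat_lit 12) (nat_lit 4) (nat_lit 13) (nat_lit 5) (nat_lit 13) (nat_lit 4) (nat_lit 310) (nat_lit 289) (nat_lit 181)) (XT.lf (nat_lit 0) (nat_lit 301388767605) (nat_lit 152) (nat_lit 388943585039) (nat_lit 76) (nat_lit 1054345919562) (nat_lit 11) (nat_lit 5) (nat_lit 13) (nat_lit 5) (nat_lit 12) (nat_lit 4) (nat_lit 311) (nat_lit 289) (nat_lit 180)))))) (XT.nd (nat_lit 546) (nat_lit 228) (nat_lit 0) (XT.nd (nat_lit 234) (nat_lit 228) (nat_lit 0) (XT.nd (nat_lit 78) (nat_lit 76) (nat_lit 0) (XT.lf (nat_lit 0) (nat_lit 796882221713) (nat_lit 76) (nat_lit 74615122250) (nat_lit 152) (nat_lit 1081174093094) (nat_lit 10) (nat_lit 5) (nat_lit 11) (nat_lit 5) (nat_lit 12) (nat_lit 4) (nat_lit 312) (nat_lit 289) (nat_lit 179)) (XT.nd (nat_lit 78) (nat_lit 76) (nat_lit 0) (XT.lf (nat_lit 0) (nat_lit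 1553974681999) (nat_lit 152) (nat_lit 22351460594) (nat_lit 0) (nat_lit 613389236052) (nat_lit 10) (nat_lit 5) (nat_lit 12) (nat_lit 4) (nat_lit 10) (nat_lit 4) (nat_lit 313) (nat_lit 289) (nat_lit 178)) (XT.lf (nat_lit 0) (nat_lit 1346390106635) (nat_lit 76) (nat_lit 1026877862686) (nat_lit 76) (nat_lit 86292394283) (nat_lit 9) (nat_lit 4) (nat_lit 10) (nat_lit 5) (nat_lit 10) (nat_lit 4) (nat_lit 314) (nat_lit 289) (nat_lit 177)))) (XT.nd (nat_lit 156) (nat_lit 76) (nat_lit 0) (XT.nd (nat_lit 78) (nat_lit 0) (nat_lit 0) (XT.lf (nat_lit 0) (nat_lit 146138852724) (nat_lit 76) (nat_lit 376324772590) (nat_lit 152) (nat_lit 2246034207168) (nat_lit 7) (nat_lit 5) (nat_lit 8) (nat_lit 5) (nat_lit 9) (nat_lit 4) (nat_lit 315) (nat_lit 289) (nat_lit 176)) (XT.lf (nat_lit 0) (nat_lit 1259761427891) (nat_lit 152) (nat_lit 1471599233381) (nat_lit 0) (nat_lit 388848923345) (nat_lit 7) (nat_lit 5)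 (nat_lit 9) (nat_lit 4) (nat_lit 7) (nat_lit 4) (nat_lit 316) (nat_lit 289) (nat_lit 175))) (XT.nd (nat_lit 78) (nat_lit 76) (nat_lit 0) (XT.lf (nat_lit 0) (nat_lit 2118062086661) (nat_lit 152) (nat_lit 158633789615) (nat_lit 0) (nat_lit 1247149568443) (nat_lit 7) (nat_lit 5) (nat_lit 9) (nat_lit 4) (nat_lit 7) (nat_lit 4) (nat_lit 317) (nat_lit 289) (nat_lit 174)) (XT.lf (nat_lit 0) (nat_lit 1422432247614) (nat_lit 76) (nat_lit 1716885102919) (nat_lit 76) (nat_lit 845972572813) (nat_lit 6) (nat_lit 4) (nat_lit 7) (nat_lit 5) (nat_lit 7) (nat_lit 4) (nat_lit 318) (nat_lit 289) (nat_lit 173))))) (XT.nd (nat_lit 234) (nat_lit 76) (nat_lit 0) (XT.nd (nat_lit 78) (nat_lit 152) (nat_lit 0) (XT.lf (nat_lit 0) (nat_lit 3250264529601) (nat_lit 76) (nat_lit 1068114805083) (nat_lit 76) (nat_lit 197202264639) (nat_lit 6) (nat_lit 4) (nat_lit 7) (nat_lit 5) (nat_lit 7) (nat_lit 4) (nat_lit 319) (nat_lit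 289) (nat_lit 172)) (XT.nd (nat_lit 78) (nat_lit 0) (nat_lit 0) (XT.lf (nat_lit 0) (nat_lit 224904563972) (nat_lit 76) (nat_lit 301930586702) (nat_lit 152) (nat_lit 4597093107660) (nat_lit 4) (nat_lit 5) (nat_lit 5) (nat_lit 5) (nat_lit 6) (nat_lit 4) (nat_lit 320) (nat_lit 289) (nat_lit 171)) (XT.lf (nat_lit 0) (nat_lit 1399858084665) (nat_lit 152) (nat_lit 3825636973422) (nat_lit 0) (nat_lit 593457568694) (nat_lit 4) (nat_lit 5) (nat_lit 6) (nat_lit 4) (nat_lit 4) (nat_lit 4) (nat_lit 321) (nat_lit 289) (nat_lit 170)))) (XT.nd (nat_lit 156) (nat_lit 76) (nat_lit 0) (XT.nd (nat_lit 78) (nat_lit 0) (nat_lit 0) (XT.lf (nat_lit 0) (nat_lit 2412185096813) (nat_lit 152) (nat_lit 2599592928095) (nat_lit 0) (nat_lit 1605784574548) (nat_lit 4) (nat_lit 5) (nat_lit 6) (nat_lit 4) (nat_lit 4) (nat_lit 4) (nat_lit 322) (nat_lit 289) (nat_lit 169)) (XT.lf (nat_lit 0) (nat_lit 3576361147312) (nat_lit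 152) (nat_lit 1189642302230) (nat_lit 0) (nat_lit 2769960619574) (nat_lit 4) (nat_lit 5) (nat_lit 6) (nat_lit 4) (nat_lit 4) (nat_lit 4) (nat_lit 323) (nat_lit 289) (nat_lit 168))) (XT.nd (nat_lit 78) (nat_lit 0) (nat_lit 0) (XT.lf (nat_lit 0) (nat_lit 454538764572) (nat_lit 76) (nat_lit 4471556497316) (nat_lit 76) (nat_lit 3665155964819) (nat_lit 3) (nat_lit 4) (nat_lit 4) (nat_lit 5) (nat_lit 4) (nat_lit 4) (nat_lit 324) (nat_lit 289) (nat_lit 167)) (XT.lf (nat_lit 0) (nat_lit 2417388094213) (nat_lit 76) (nat_lit 4095536544385) (nat_lit 76) (nat_lit 3289136007750) (nat_lit 3) (nat_lit 4) (nat_lit 4) (nat_lit 5) (nat_lit 4) (nat_lit 4) (nat_lit 325) (nat_lit 289) (nat_lit 166))))))))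
noncomputable def xc54 : XT := (XT.nd (nat_lit 2028) (nat_lit 456) (nat_lit 0) (XT.nd (nat_lit 1014) (nat_lit 1216) (nat_lit 0) (XT.nd (nat_lit 468) (nat_lit 1216) (nat_lit 0) (XT.nd (nat_lit 234) (nat_lit 608) (nat_lit 0) (XT.nd (nat_lit 78) (nat_lit 0) (nat_lit 0) (XT.lf (nat_lit 0) (nat_lit 93260284280) (nat_lit 532) (nat_lit 20911468057) (nat_lit 532) (nat_lit 20911468057) (nat_lit 49) (nat_lit 3) (nat_lit 56) (nat_lit 3) (nat_lit 56) (nat_lit 5) (nat_lit 290) (nat_lit 290) (nat_lit 200)) (XT.nd (nat_lit 78) (nat_lit 0) (nat_lit 76) (XT.lf (nat_lit 76) (nat_lit 203502495583) (nat_lit 0) (nat_lit 1902839955) (nat_lit 532) (nat_lit 84631926665) (nat_lit 50) (nat_lit 5) (nat_lit 49) (nat_lit 3) (nat_lit 56) (nat_lit 5) (nat_lit 291) (nat_lit 290) (nat_lit 199)) (XT.lf (nat_lit 76) (nat_lit 178024809675) (nat_lit 0) (nat_lit 60845525868) (nat_lit 532) (nat_lit 73078570506) (nat_lit 51)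 (nat_lit 5) (nat_lit 50) (nat_lit 5) (nat_lit 57) (nat_lit 5) (nat_lit 292) (nat_lit 290) (nat_lit 198)))) (XT.nd (nat_lit 78) (nat_lit 760) (nat_lit 0) (XT.lf (nat_lit 76) (nat_lit 153183183479) (nat_lit 0) (nat_lit 135417431181) (nat_lit 532) (nat_lit 47647040055) (nat_lit 52) (nat_lit 5) (nat_lit 51) (nat_lit 5) (nat_lit 58) (nat_lit 5) (nat_lit 293) (nat_lit 290) (nat_lit 197)) (XT.nd (nat_lit 78) (nat_lit 380) (nat_lit 0) (XT.lf (nat_lit 0) (nat_lit 129076100613) (nat_lit 456) (nat_lit 228685393913) (nat_lit 532) (nat_lit 5472036945) (nat_lit 46) (nat_lit 5) (nat_lit 52) (nat_lit 5) (nat_lit 53) (nat_lit 5) (nat_lit 294) (nat_lit 290) (nat_lit 196)) (XT.lf (nat_lit 0) (nat_lit 53905946842) (nat_lit 380) (nat_lit 288870373980) (nat_lit 76) (nat_lit 50365842949) (nat_lit 41) (nat_lit 5) (nat_lit 46) (nat_lit 5) (nat_lit 42) (nat_lit 5) (nat_lit 295) (nat_lit 290) (nat_lit 195))))) (XT.nd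 (nat_lit 234) (nat_lit 608) (nat_lit 0) (XT.nd (nat_lit 78) (nat_lit 380) (nat_lit 0) (XT.lf (nat_lit 0) (nat_lit 77896793188) (nat_lit 228) (nat_lit 59171479648) (nat_lit 304) (nat_lit 289241315940) (nat_lit 38) (nat_lit 5) (nat_lit 41) (nat_lit 5) (nat_lit 42) (nat_lit 5) (nat_lit 296) (nat_lit 290) (nat_lit 194)) (XT.nd (nat_lit 78) (nat_lit 152) (nat_lit 0) (XT.lf (nat_lit 0) (nat_lit 49215434294) (nat_lit 228) (nat_lit 199722325076) (nat_lit 304) (nat_lit 214215743534) (nat_lit 35) (nat_lit 5) (nat_lit 38) (nat_lit 5) (nat_lit 39) (nat_lit 5) (nat_lit 297) (nat_lit 290) (nat_lit 193)) (XT.lf (nat_lit 0) (nat_lit 18942795993) (nat_lit 152) (nat_lit 374122814042) (nat_lit 228) (nat_lit 111220159088) (nat_lit 33) (nat_lit 5) (nat_lit 35) (nat_lit 5) (nat_lit 36) (nat_lit 5) (nat_lit 298) (nat_lit 290) (nat_lit 192)))) (XT.nd (nat_lit 156) (nat_lit 304) (nat_lit 0) (XT.nd (nat_lit 78)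 (nat_lit 228) (nat_lit 0) (XT.lf (nat_lit 0) (nat_lit 24751436648) (nat_lit 228) (nat_lit 14811910462) (nat_lit 76) (nat_lit 510579581077) (nat_lit 32) (nat_lit 5) (nat_lit 35) (nat_lit 5) (nat_lit 33) (nat_lit 5) (nat_lit 299) (nat_lit 290) (nat_lit 191)) (XT.lf (nat_lit 0) (nat_lit 196692111431) (nat_lit 304) (nat_lit 59523863383) (nat_lit 76) (nat_lit 344658874517) (nat_lit 29) (nat_lit 5) (nat_lit 33) (nat_lit 5) (nat_lit 30) (nat_lit 5) (nat_lit 300) (nat_lit 290) (nat_lit 190))) (XT.nd (nat_lit 78) (nat_lit 152) (nat_lit 0) (XT.lf (nat_lit 0) (nat_lit 412527515701) (nat_lit 228) (nat_lit 112389229712) (nat_lit 76) (nat_lit 132851523135) (nat_lit 27) (nat_lit 5) (nat_lit 30) (nat_lit 5) (nat_lit 28) (nat_lit 5) (nat_lit 301) (nat_lit 290) (nat_lit 189)) (XT.lf (nat_lit 0) (nat_lit 541522608081) (nat_lit 152) (nat_lit 141103451368) (nat_lit 228) (nat_lit 38818615030) (nat_lit 25) (nat_lit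 5) (nat_lit 27) (nat_lit 5) (nat_lit 28) (nat_lit 5) (nat_lit 302) (nat_lit 290) (nat_lit 188)))))) (XT.nd (nat_lit 468) (nat_lit 532) (nat_lit 0) (XT.nd (nat_lit 234) (nat_lit 304) (nat_lit 0) (XT.nd (nat_lit 78) (nat_lit 228) (nat_lit 0) (XT.lf (nat_lit 0) (nat_lit 212438180488) (nat_lit 152) (nat_lit 273329188411) (nat_lit 76) (nat_lit 306618773145) (nat_lit 23) (nat_lit 5) (nat_lit 25) (nat_lit 5) (nat_lit 24) (nat_lit 5) (nat_lit 303) (nat_lit 290) (nat_lit 187)) (XT.nd (nat_lit 78) (nat_lit 76) (nat_lit 0) (XT.lf (nat_lit 0) (nat_lit 479081826170) (nat_lit 152) (nat_lit 40867247412) (nat_lit 228) (nat_lit 352269968325) (nat_lit 21) (nat_lit 5) (nat_lit 23) (nat_lit 5) (nat_lit 24) (nat_lit 5) (nat_lit 304) (nat_lit 290) (nat_lit 186)) (XT.lf (nat_lit 0) (nat_lit 406312844542) (nat_lit 76) (nat_lit 496531878187) (nat_lit 152) (nat_lit 58841504340) (nat_lit 20) (nat_lit 5) (nat_lit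 21) (nat_lit 5) (nat_lit 22) (nat_lit 4) (nat_lit 305) (nat_lit 290) (nat_lit 185)))) (XT.nd (nat_lit 78) (nat_lit 76) (nat_lit 0) (XT.lf (nat_lit 0) (nat_lit 284754725402) (nat_lit 228) (nat_lit 770306708201) (nat_lit 76) (nat_lit 7368806530) (nat_lit 17) (nat_lit 5) (nat_lit 20) (nat_lit 5) (nat_lit 18) (nat_lit 4) (nat_lit 306) (nat_lit 290) (nat_lit 184)) (XT.nd (nat_lit 78) (nat_lit 0) (nat_lit 0) (XT.lf (nat_lit 0) (nat_lit 113270286254) (nat_lit 76) (nat_lit 596281102555) (nat_lit 152) (nat_lit 465960592515) (nat_lit 16) (nat_lit 5) (nat_lit 17) (nat_lit 5) (nat_lit 18) (nat_lit 4) (nat_lit 307) (nat_lit 290) (nat_lit 183)) (XT.lf (nat_lit 0) (nat_lit 1176031170534) (nat_lit 76) (nat_lit 44462978457) (nat_lit 152) (nat_lit 83267706975) (nat_lit 16) (nat_lit 5) (nat_lit 17) (nat_lit 5) (nat_lit 18) (nat_lit 4) (nat_lit 308) (nat_lit 290) (nat_lit 182))))) (XT.nd (nat_lit 234) (nat_lit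 228) (nat_lit 0) (XT.nd (nat_lit 78) (nat_lit 152) (nat_lit 0) (XT.lf (nat_lit 0) (nat_lit 377767897464) (nat_lit 152) (nat_lit 475906392573) (nat_lit 76) (nat_lit 593785276040) (nat_lit 14) (nat_lit 5) (nat_lit 16) (nat_lit 5) (nat_lit 15) (nat_lit 4) (nat_lit 309) (nat_lit 290) (nat_lit 181)) (XT.nd (nat_lit 78) (nat_lit 76) (nat_lit 0) (XT.lf (nat_lit 0) (nat_lit 660459641206) (nat_lit 76) (nat_lit 263638099342) (nat_lit 152) (nat_lit 686755626351) (nat_lit 13) (nat_lit 5) (nat_lit 14) (nat_lit 5) (nat_lit 15) (nat_lit 4) (nat_lit 310) (nat_lit 290) (nat_lit 180)) (XT.lf (nat_lit 0) (nat_lit 198019570654) (nat_lit 76) (nat_lit 1383313649156) (nat_lit 76) (nat_lit 215106525289) (nat_lit 12) (nat_lit 4) (nat_lit 13) (nat_lit 5) (nat_lit 13) (nat_lit 4) (nat_lit 311) (nat_lit 290) (nat_lit 179)))) (XT.nd (nat_lit 156) (nat_lit 76) (nat_lit 0) (XT.nd (nat_lit 78) (nat_lit 76) (nat_lit 0)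 (XT.lf (nat_lit 0) (nat_lit 346597496194) (nat_lit 152) (nat_lit 447284359673) (nat_lit 76) (nat_lit 1212498123822) (nat_lit 11) (nat_lit 5) (nat_lit 13) (nat_lit 5) (nat_lit 12) (nat_lit 4) (nat_lit 312) (nat_lit 290) (nat_lit 178)) (XT.lf (nat_lit 0) (nat_lit 916415253498) (nat_lit 76) (nat_lit 85807068379) (nat_lit 152) (nat_lit 1243349800396) (nat_lit 10) (nat_lit 5) (nat_lit 11) (nat_lit 5) (nat_lit 12) (nat_lit 4) (nat_lit 313) (nat_lit 290) (nat_lit 177))) (XT.nd (nat_lit 78) (nat_lit 76) (nat_lit 0) (XT.lf (nat_lit 0) (nat_lit 1787071218272) (nat_lit 152) (nat_lit 25703552620) (nat_lit 0) (nat_lit 705397887625) (nat_lit 10) (nat_lit 5) (nat_lit 12) (nat_lit 4) (nat_lit 10) (nat_lit 4) (nat_lit 314) (nat_lit 290) (nat_lit 176)) (XT.lf (nat_lit 0) (nat_lit 1548349196615) (nat_lit 76) (nat_lit 1180909272320) (nat_lit 76) (nat_lit 99235924694) (nat_lit 9) (nat_lit 4) (nat_lit 10) (nat_lit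 5) (nat_lit 10) (nat_lit 4) (nat_lit 315) (nat_lit 290) (nat_lit 175))))))) (XT.nd (nat_lit 38922) (nat_lit 0) (nat_lit 1292) (XT.nd (nat_lit 468) (nat_lit 76) (nat_lit 0) (XT.nd (nat_lit 234) (nat_lit 228) (nat_lit 0) (XT.nd (nat_lit 78) (nat_lit 0) (nat_lit 0) (XT.lf (nat_lit 0) (nat_lit 168060221237) (nat_lit 76) (nat_lit 432773232430) (nat_lit 152) (nat_lit 2582939030779) (nat_lit 7) (nat_lit 5) (nat_lit 8) (nat_lit 5) (nat_lit 9) (nat_lit 4) (nat_lit 316) (nat_lit 290) (nat_lit 174)) (XT.nd (nat_lit 78) (nat_lit 0) (nat_lit 0) (XT.lf (nat_lit 0) (nat_lit 1448725894869) (nat_lit 152) (nat_lit 1692338633731) (nat_lit 0) (nat_lit 447176473359) (nat_lit 7) (nat_lit 5) (nat_lit 9) (nat_lit 4) (nat_lit 7) (nat_lit 4) (nat_lit 317) (nat_lit 290) (nat_lit 173)) (XT.lf (nat_lit 0) (nat_lit 2435771619482) (nat_lit 152) (nat_lit 182428436616) (nat_lit 0) (nat_lit 1434222187634) (nat_lit 7) (nat_lit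 5) (nat_lit 9) (nat_lit 4) (nat_lit 7) (nat_lit 4) (nat_lit 318) (nat_lit 290) (nat_lit 172)))) (XT.nd (nat_lit 78) (nat_lit 152) (nat_lit 0) (XT.lf (nat_lit 0) (nat_lit 1635797470525) (nat_lit 76) (nat_lit 1974417683016) (nat_lit 76) (nat_lit 972868242179) (nat_lit 6) (nat_lit 4) (nat_lit 7) (nat_lit 5) (nat_lit 7) (nat_lit 4) (nat_lit 319) (nat_lit 290) (nat_lit 171)) (XT.nd (nat_lit 78) (nat_lit 152) (nat_lit 0) (XT.lf (nat_lit 0) (nat_lit 3737804544492) (nat_lit 76) (nat_lit 1228331864679) (nat_lit 76) (nat_lit 226782416025) (nat_lit 6) (nat_lit 4) (nat_lit 7) (nat_lit 5) (nat_lit 7) (nat_lit 4) (nat_lit 320) (nat_lit 290) (nat_lit 170)) (XT.lf (nat_lit 0) (nat_lit 258640564317) (nat_lit 76) (nat_lit 347220022109) (nat_lit 152) (nat_lit 5286656897541) (nat_lit 4) (nat_lit 5) (nat_lit 5) (nat_lit 5) (nat_lit 6) (nat_lit 4) (nat_lit 321) (nat_lit 290) (nat_lit 169))))) (XT.nd (nat_lit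 234) (nat_lit 76) (nat_lit 0) (XT.nd (nat_lit 78) (nat_lit 0) (nat_lit 0) (XT.lf (nat_lit 0) (nat_lit 1609836942426) (nat_lit 152) (nat_lit 4399482236655) (nat_lit 0) (nat_lit 682476330055) (nat_lit 4) (nat_lit 5) (nat_lit 6) (nat_lit 4) (nat_lit 4) (nat_lit 4) (nat_lit 322) (nat_lit 290) (nat_lit 168)) (XT.nd (nat_lit 78) (nat_lit 0) (nat_lit 0) (XT.lf (nat_lit 0) (nat_lit 2774012987475) (nat_lit 152) (nat_lit 2989531621413) (nat_lit 0) (nat_lit 1846652370345) (nat_lit 4) (nat_lit 5) (nat_lit 6) (nat_lit 4) (nat_lit 4) (nat_lit 4) (nat_lit 323) (nat_lit 290) (nat_lit 167)) (XT.lf (nat_lit 0) (nat_lit 4112815429095) (nat_lit 152) (nat_lit 1368088433742) (nat_lit 0) (nat_lit 3185454807827) (nat_lit 4) (nat_lit 5) (nat_lit 6) (nat_lit 4) (nat_lit 4) (nat_lit 4) (nat_lit 324) (nat_lit 290) (nat_lit 166)))) (XT.nd (nat_lit 38064) (nat_lit 0) (nat_lit 3496) (XT.nd (nat_lit 37986) (nat_lit 0)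 (nat_lit 3496) (XT.lf (nat_lit 0) (nat_lit 522719774982) (nat_lit 76) (nat_lit 5142289876277) (nat_lit 76) (nat_lit 4214929251410) (nat_lit 3) (nat_lit 4) (nat_lit 4) (nat_lit 5) (nat_lit 4) (nat_lit 4) (nat_lit 325) (nat_lit 290) (nat_lit 165)) (XT.lf (nat_lit 0) (nat_lit 107250749878) (nat_lit 532) (nat_lit 24047418097) (nat_lit 532) (nat_lit 24047418097) (nat_lit 49) (nat_lit 3) (nat_lit 56) (nat_lit 3) (nat_lit 56) (nat_lit 5) (nat_lit 291) (nat_lit 291) (nat_lit 198))) (XT.nd (nat_lit 78) (nat_lit 0) (nat_lit 76) (XT.lf (nat_lit 76) (nat_lit 234029279876) (nat_lit 0) (nat_lit 2189364608) (nat_lit 532) (nat_lit 97324000195) (nat_lit 50) (nat_lit 5) (nat_lit 49) (nat_lit 3) (nat_lit 56) (nat_lit 5) (nat_lit 292) (nat_lit 291) (nat_lit 197)) (XT.lf (nat_lit 76) (nat_lit 204730035268) (nat_lit 0) (nat_lit 69973045209) (nat_lit 532) (nat_lit 84037980549) (nat_lit 51) (nat_lit 5) (nat_lit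 50) (nat_lit 5) (nat_lit 57) (nat_lit 5) (nat_lit 293) (nat_lit 291) (nat_lit 196)))))) (XT.nd (nat_lit 468) (nat_lit 988) (nat_lit 0) (XT.nd (nat_lit 234) (nat_lit 608) (nat_lit 0) (XT.nd (nat_lit 78) (nat_lit 760) (nat_lit 0) (XT.lf (nat_lit 76) (nat_lit 176162218639) (nat_lit 0) (nat_lit 155730419592) (nat_lit 532) (nat_lit 54792005520) (nat_lit 52) (nat_lit 5) (nat_lit 51) (nat_lit 5) (nat_lit 58) (nat_lit 5) (nat_lit 294) (nat_lit 291) (nat_lit 195)) (XT.nd (nat_lit 78) (nat_lit 380) (nat_lit 0) (XT.lf (nat_lit 0) (nat_lit 148439095423) (nat_lit 456) (nat_lit 262988332912) (nat_lit 532) (nat_lit 6290992032) (nat_lit 46) (nat_lit 5) (nat_lit 52) (nat_lit 5) (nat_lit 53) (nat_lit 5) (nat_lit 295) (nat_lit 291) (nat_lit 194)) (XT.lf (nat_lit 0) (nat_lit 61993403609) (nat_lit 380) (nat_lit 332199266650) (nat_lit 76) (nat_lit 57920689635) (nat_lit 41) (nat_lit 5) (nat_lit 46) (nat_lit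 5) (nat_lit 42) (nat_lit 5) (nat_lit 296) (nat_lit 291) (nat_lit 193)))) (XT.nd (nat_lit 78) (nat_lit 380) (nat_lit 0) (XT.lf (nat_lit 0) (nat_lit 89582834793) (nat_lit 228) (nat_lit 68047076232) (nat_lit 304) (nat_lit 332626001448) (nat_lit 38) (nat_lit 5) (nat_lit 41) (nat_lit 5) (nat_lit 42) (nat_lit 5) (nat_lit 297) (nat_lit 291) (nat_lit 192)) (XT.nd (nat_lit 78) (nat_lit 152) (nat_lit 0) (XT.lf (nat_lit 0) (nat_lit 56599245340) (nat_lit 228) (nat_lit 229680431546) (nat_lit 304) (nat_lit 246346748697) (nat_lit 35) (nat_lit 5) (nat_lit 38) (nat_lit 5) (nat_lit 39) (nat_lit 5) (nat_lit 298) (nat_lit 291) (nat_lit 191)) (XT.lf (nat_lit 0) (nat_lit 21785673399) (nat_lit 152) (nat_lit 430240908370) (nat_lit 228) (nat_lit 127901960159) (nat_lit 33) (nat_lit 5) (nat_lit 35) (nat_lit 5) (nat_lit 36) (nat_lit 5) (nat_lit 299) (nat_lit 291) (nat_lit 190))))) (XT.nd (nat_lit 234) (nat_lit 532)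 (nat_lit 0) (XT.nd (nat_lit 78) (nat_lit 380) (nat_lit 0) (XT.lf (nat_lit 0) (nat_lit 28465162252) (nat_lit 228) (nat_lit 17032374281) (nat_lit 76) (nat_lit 587166748345) (nat_lit 32) (nat_lit 5) (nat_lit 35) (nat_lit 5) (nat_lit 33) (nat_lit 5) (nat_lit 300) (nat_lit 291) (nat_lit 189)) (XT.nd (nat_lit 78) (nat_lit 152) (nat_lit 0) (XT.lf (nat_lit 0) (nat_lit 226196842914) (nat_lit 304) (nat_lit 68451165299) (nat_lit 76) (nat_lit 396357993835) (nat_lit 29) (nat_lit 5) (nat_lit 33) (nat_lit 5) (nat_lit 30) (nat_lit 5) (nat_lit 301) (nat_lit 291) (nat_lit 188)) (XT.lf (nat_lit 0) (nat_lit 474407474950) (nat_lit 228) (nat_lit 129246385845) (nat_lit 76) (nat_lit 152779580177) (nat_lit 27) (nat_lit 5) (nat_lit 30) (nat_lit 5) (nat_lit 28) (nat_lit 5) (nat_lit 302) (nat_lit 291) (nat_lit 187)))) (XT.nd (nat_lit 156) (nat_lit 228) (nat_lit 0) (XT.nd (nat_lit 78) (nat_lit 152) (nat_lit 0) (XT.lf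 (nat_lit 0) (nat_lit 622752123646) (nat_lit 152) (nat_lit 162268595147) (nat_lit 228) (nat_lit 44640595687) (nat_lit 25) (nat_lit 5) (nat_lit 27) (nat_lit 5) (nat_lit 28) (nat_lit 5) (nat_lit 303) (nat_lit 291) (nat_lit 186)) (XT.lf (nat_lit 0) (nat_lit 244304612590) (nat_lit 152) (nat_lit 314327451689) (nat_lit 76) (nat_lit 352611941753) (nat_lit 23) (nat_lit 5) (nat_lit 25) (nat_lit 5) (nat_lit 24) (nat_lit 5) (nat_lit 304) (nat_lit 291) (nat_lit 185))) (XT.nd (nat_lit 78) (nat_lit 76) (nat_lit 0) (XT.lf (nat_lit 0) (nat_lit 550945120701) (nat_lit 152) (nat_lit 46996951533) (nat_lit 228) (nat_lit 405109774154) (nat_lit 21) (nat_lit 5) (nat_lit 23) (nat_lit 5) (nat_lit 24) (nat_lit 5) (nat_lit 305) (nat_lit 291) (nat_lit 184)) (XT.lf (nat_lit 0) (nat_lit 467260744428) (nat_lit 76) (nat_lit 571011272573) (nat_lit 152) (nat_lit 67667096568) (nat_lit 20) (nat_lit 5) (nat_lit 21) (nat_lit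 5) (nat_lit 22) (nat_lit 4) (nat_lit 306) (nat_lit 291) (nat_lit 183))))))))
noncomputable def xc55 : XT := (XT.nd (nat_lit 40092) (nat_lit 0) (nat_lit 0) (XT.nd (nat_lit 1014) (nat_lit 228) (nat_lit 0) (XT.nd (nat_lit 468) (nat_lit 380) (nat_lit 0) (XT.nd (nat_lit 234) (nat_lit 304) (nat_lit 0) (XT.nd (nat_lit 78) (nat_lit 76) (nat_lit 0) (XT.lf (nat_lit 0) (nat_lit 327468488618) (nat_lit 228) (nat_lit 885851758844) (nat_lit 76) (nat_lit 8474483782) (nat_lit 17) (nat_lit 5) (nat_lit 20) (nat_lit 5) (nat_lit 18) (nat_lit 4) (nat_lit 307) (nat_lit 291) (nat_lit 182)) (XT.nd (nat_lit 78) (nat_lit 0) (nat_lit 0) (XT.lf (nat_lit 0) (nat_lit 130261703893) (nat_lit 76) (nat_lit 685722896366) (nat_lit 152) (nat_lit 535854137530) (nat_lit 16) (nat_lit 5) (nat_lit 17) (nat_lit 5) (nat_lit 18) (nat_lit 4) (nat_lit 308) (nat_lit 291) (nat_lit 181)) (XT.lf (nat_lit 0) (nat_lit 1352436606723) (nat_lit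 76) (nat_lit 51132102119) (nat_lit 152) (nat_lit 95757390098) (nat_lit 16) (nat_lit 5) (nat_lit 17) (nat_lit 5) (nat_lit 18) (nat_lit 4) (nat_lit 309) (nat_lit 291) (nat_lit 180)))) (XT.nd (nat_lit 78) (nat_lit 152) (nat_lit 0) (XT.lf (nat_lit 0) (nat_lit 434433497487) (nat_lit 152) (nat_lit 547291607708) (nat_lit 76) (nat_lit 682853362223) (nat_lit 14) (nat_lit 5) (nat_lit 16) (nat_lit 5) (nat_lit 15) (nat_lit 4) (nat_lit 310) (nat_lit 291) (nat_lit 179)) (XT.nd (nat_lit 78) (nat_lit 76) (nat_lit 0) (XT.lf (nat_lit 0) (nat_lit 759529268183) (nat_lit 76) (nat_lit 303183511040) (nat_lit 152) (nat_lit 789768562209) (nat_lit 13) (nat_lit 5) (nat_lit 14) (nat_lit 5) (nat_lit 15) (nat_lit 4) (nat_lit 311) (nat_lit 291) (nat_lit 178)) (XT.lf (nat_lit 0) (nat_lit 227723150669) (nat_lit 76) (nat_lit 1590810402294) (nat_lit 76) (nat_lit 247372125631) (nat_lit 12) (nat_lit 4) (nat_lit 13) (nat_lit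 5) (nat_lit 13) (nat_lit 4) (nat_lit 312) (nat_lit 291) (nat_lit 177))))) (XT.nd (nat_lit 234) (nat_lit 228) (nat_lit 0) (XT.nd (nat_lit 78) (nat_lit 76) (nat_lit 0) (XT.lf (nat_lit 0) (nat_lit 398587433249) (nat_lit 152) (nat_lit 514376436593) (nat_lit 76) (nat_lit 1394373081583) (nat_lit 11) (nat_lit 5) (nat_lit 13) (nat_lit 5) (nat_lit 12) (nat_lit 4) (nat_lit 313) (nat_lit 291) (nat_lit 176)) (XT.nd (nat_lit 78) (nat_lit 0) (nat_lit 0) (XT.lf (nat_lit 0) (nat_lit 1053878069711) (nat_lit 76) (nat_lit 98677885001) (nat_lit 152) (nat_lit 1429851962960) (nat_lit 10) (nat_lit 5) (nat_lit 11) (nat_lit 5) (nat_lit 12) (nat_lit 4) (nat_lit 314) (nat_lit 291) (nat_lit 175)) (XT.lf (nat_lit 0) (nat_lit 2055132153544) (nat_lit 152) (nat_lit 29558611364) (nat_lit 0) (nat_lit 811207772028) (nat_lit 10) (nat_lit 5) (nat_lit 12) (nat_lit 4) (nat_lit 10) (nat_lit 4) (nat_lit 315) (nat_lit 291) (nat_lit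 174)))) (XT.nd (nat_lit 156) (nat_lit 0) (nat_lit 0) (XT.nd (nat_lit 78) (nat_lit 152) (nat_lit 0) (XT.lf (nat_lit 0) (nat_lit 1780602010123) (nat_lit 76) (nat_lit 1358045459184) (nat_lit 76) (nat_lit 114121064829) (nat_lit 9) (nat_lit 4) (nat_lit 10) (nat_lit 5) (nat_lit 10) (nat_lit 4) (nat_lit 316) (nat_lit 291) (nat_lit 173)) (XT.lf (nat_lit 0) (nat_lit 193269663197) (nat_lit 76) (nat_lit 497689023685) (nat_lit 152) (nat_lit 2970379652908) (nat_lit 7) (nat_lit 5) (nat_lit 8) (nat_lit 5) (nat_lit 9) (nat_lit 4) (nat_lit 317) (nat_lit 291) (nat_lit 172))) (XT.nd (nat_lit 78) (nat_lit 0) (nat_lit 0) (XT.lf (nat_lit 0) (nat_lit 1666034970249) (nat_lit 152) (nat_lit 1946189062320) (nat_lit 0) (nat_lit 514253104298) (nat_lit 7) (nat_lit 5) (nat_lit 9) (nat_lit 4) (nat_lit 7) (nat_lit 4) (nat_lit 318) (nat_lit 291) (nat_lit 171)) (XT.lf (nat_lit 0) (nat_lit 2801137528621) (nat_lit 152) (nat_lit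 209792383439) (nat_lit 0) (nat_lit 1649355654853) (nat_lit 7) (nat_lit 5) (nat_lit 9) (nat_lit 4) (nat_lit 7) (nat_lit 4) (nat_lit 319) (nat_lit 291) (nat_lit 170)))))) (XT.nd (nat_lit 38532) (nat_lit 0) (nat_lit 2356) (XT.nd (nat_lit 234) (nat_lit 0) (nat_lit 0) (XT.nd (nat_lit 78) (nat_lit 152) (nat_lit 0) (XT.lf (nat_lit 0) (nat_lit 1881167382799) (nat_lit 76) (nat_lit 2270580195324) (nat_lit 76) (nat_lit 1118798314759) (nat_lit 6) (nat_lit 4) (nat_lit 7) (nat_lit 5) (nat_lit 7) (nat_lit 4) (nat_lit 320) (nat_lit 291) (nat_lit 169)) (XT.nd (nat_lit 78) (nat_lit 152) (nat_lit 0) (XT.lf (nat_lit 0) (nat_lit 4298475479814) (nat_lit 76) (nat_lit 1412581522516) (nat_lit 76) (nat_lit 260799636040) (nat_lit 6) (nat_lit 4) (nat_lit 7) (nat_lit 5) (nat_lit 7) (nat_lit 4) (nat_lit 321) (nat_lit 291) (nat_lit 168)) (XT.lf (nat_lit 0) (nat_lit 297436887716) (nat_lit 76) (nat_lit 399302910039) (nat_lit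 152) (nat_lit 6079655298887) (nat_lit 4) (nat_lit 5) (nat_lit 5) (nat_lit 5) (nat_lit 6) (nat_lit 4) (nat_lit 322) (nat_lit 291) (nat_lit 167)))) (XT.nd (nat_lit 78) (nat_lit 0) (nat_lit 0) (XT.lf (nat_lit 0) (nat_lit 1851312593477) (nat_lit 152) (nat_lit 5059404358331) (nat_lit 0) (nat_lit 784847874880) (nat_lit 4) (nat_lit 5) (nat_lit 6) (nat_lit 4) (nat_lit 4) (nat_lit 4) (nat_lit 323) (nat_lit 291) (nat_lit 166)) (XT.nd (nat_lit 38142) (nat_lit 0) (nat_lit 3420) (XT.lf (nat_lit 0) (nat_lit 3190115030977) (nat_lit 152) (nat_lit 3437961178692) (nat_lit 0) (nat_lit 2123650308781) (nat_lit 4) (nat_lit 5) (nat_lit 6) (nat_lit 4) (nat_lit 4) (nat_lit 4) (nat_lit 324) (nat_lit 291) (nat_lit 165)) (XT.lf (nat_lit 0) (nat_lit 123339438318) (nat_lit 532) (nat_lit 27653948453) (nat_lit 532) (nat_lit 27653948453) (nat_lit 49) (nat_lit 3) (nat_lit 56) (nat_lit 3) (nat_lit 56) (nat_lit 5) (nat_lit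 292) (nat_lit 292) (nat_lit 196))))) (XT.nd (nat_lit 234) (nat_lit 1064) (nat_lit 0) (XT.nd (nat_lit 78) (nat_lit 0) (nat_lit 76) (XT.lf (nat_lit 76) (nat_lit 269134737986) (nat_lit 0) (nat_lit 2518600043) (nat_lit 532) (nat_lit 111920546939) (nat_lit 50) (nat_lit 5) (nat_lit 49) (nat_lit 3) (nat_lit 56) (nat_lit 5) (nat_lit 293) (nat_lit 292) (nat_lit 195)) (XT.nd (nat_lit 78) (nat_lit 0) (nat_lit 76) (XT.lf (nat_lit 76) (nat_lit 235440677906) (nat_lit 0) (nat_lit 80469524078) (nat_lit 532) (nat_lit 96641881388) (nat_lit 51) (nat_lit 5) (nat_lit 50) (nat_lit 5) (nat_lit 57) (nat_lit 5) (nat_lit 294) (nat_lit 292) (nat_lit 194)) (XT.lf (nat_lit 76) (nat_lit 202587729234) (nat_lit 0) (nat_lit 179090265127) (nat_lit 532) (nat_lit 63009225597) (nat_lit 52) (nat_lit 5) (nat_lit 51) (nat_lit 5) (nat_lit 58) (nat_lit 5) (nat_lit 295) (nat_lit 292) (nat_lit 193)))) (XT.nd (nat_lit 156) (nat_lit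 456) (nat_lit 0) (XT.nd (nat_lit 78) (nat_lit 380) (nat_lit 0) (XT.lf (nat_lit 0) (nat_lit 170706154230) (nat_lit 456) (nat_lit 302436681080) (nat_lit 532) (nat_lit 7233241627) (nat_lit 46) (nat_lit 5) (nat_lit 52) (nat_lit 5) (nat_lit 53) (nat_lit 5) (nat_lit 296) (nat_lit 292) (nat_lit 192)) (XT.lf (nat_lit 0) (nat_lit 71293597320) (nat_lit 380) (nat_lit 382027898857) (nat_lit 76) (nat_lit 66608770579) (nat_lit 41) (nat_lit 5) (nat_lit 46) (nat_lit 5) (nat_lit 42) (nat_lit 5) (nat_lit 297) (nat_lit 292) (nat_lit 191))) (XT.nd (nat_lit 78) (nat_lit 228) (nat_lit 0) (XT.lf (nat_lit 0) (nat_lit 103021411337) (nat_lit 228) (nat_lit 78254042875) (nat_lit 304) (nat_lit 382518758465) (nat_lit 38) (nat_lit 5) (nat_lit 41) (nat_lit 5) (nat_lit 42) (nat_lit 5) (nat_lit 298) (nat_lit 292) (nat_lit 190)) (XT.lf (nat_lit 0) (nat_lit 65090263258) (nat_lit 228) (nat_lit 264132313071) (nat_lit 304)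 (nat_lit 283297735394) (nat_lit 35) (nat_lit 5) (nat_lit 38) (nat_lit 5) (nat_lit 39) (nat_lit 5) (nat_lit 299) (nat_lit 292) (nat_lit 189))))))) (XT.nd (nat_lit 1014) (nat_lit 684) (nat_lit 0) (XT.nd (nat_lit 468) (nat_lit 760) (nat_lit 0) (XT.nd (nat_lit 234) (nat_lit 456) (nat_lit 0) (XT.nd (nat_lit 78) (nat_lit 304) (nat_lit 0) (XT.lf (nat_lit 0) (nat_lit 25054626871) (nat_lit 152) (nat_lit 494776796778) (nat_lit 228) (nat_lit 147086329577) (nat_lit 33) (nat_lit 5) (nat_lit 35) (nat_lit 5) (nat_lit 36) (nat_lit 5) (nat_lit 300) (nat_lit 292) (nat_lit 188)) (XT.nd (nat_lit 78) (nat_lit 228) (nat_lit 0) (XT.lf (nat_lit 0) (nat_lit 32735700377) (nat_lit 228) (nat_lit 19586230234) (nat_lit 76) (nat_lit 675241934591) (nat_lit 32) (nat_lit 5) (nat_lit 35) (nat_lit 5) (nat_lit 33) (nat_lit 5) (nat_lit 301) (nat_lit 292) (nat_lit 187)) (XT.lf (nat_lit 0) (nat_lit 260127061048) (nat_lit 304)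 (nat_lit 78717874052) (nat_lit 76) (nat_lit 455811910785) (nat_lit 29) (nat_lit 5) (nat_lit 33) (nat_lit 5) (nat_lit 30) (nat_lit 5) (nat_lit 302) (nat_lit 292) (nat_lit 186)))) (XT.nd (nat_lit 78) (nat_lit 304) (nat_lit 0) (XT.lf (nat_lit 0) (nat_lit 545569225224) (nat_lit 228) (nat_lit 148632414932) (nat_lit 76) (nat_lit 175696765651) (nat_lit 27) (nat_lit 5) (nat_lit 30) (nat_lit 5) (nat_lit 28) (nat_lit 5) (nat_lit 303) (nat_lit 292) (nat_lit 185)) (XT.nd (nat_lit 78) (nat_lit 152) (nat_lit 0) (XT.lf (nat_lit 0) (nat_lit 716165792365) (nat_lit 152) (nat_lit 186608601677) (nat_lit 228) (nat_lit 51336071356) (nat_lit 25) (nat_lit 5) (nat_lit 27) (nat_lit 5) (nat_lit 28) (nat_lit 5) (nat_lit 304) (nat_lit 292) (nat_lit 184)) (XT.lf (nat_lit 0) (nat_lit 280950837582) (nat_lit 152) (nat_lit 361475726355) (nat_lit 76) (nat_lit 405503999660) (nat_lit 23) (nat_lit 5) (nat_lit 25) (nat_lit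 5) (nat_lit 24) (nat_lit 5) (nat_lit 305) (nat_lit 292) (nat_lit 183))))) (XT.nd (nat_lit 234) (nat_lit 304) (nat_lit 0) (XT.nd (nat_lit 78) (nat_lit 304) (nat_lit 0) (XT.lf (nat_lit 0) (nat_lit 633587660531) (nat_lit 152) (nat_lit 54046204667) (nat_lit 228) (nat_lit 465875718978) (nat_lit 21) (nat_lit 5) (nat_lit 23) (nat_lit 5) (nat_lit 24) (nat_lit 5) (nat_lit 306) (nat_lit 292) (nat_lit 182)) (XT.nd (nat_lit 78) (nat_lit 228) (nat_lit 0) (XT.lf (nat_lit 0) (nat_lit 537350591974) (nat_lit 76) (nat_lit 656662670573) (nat_lit 152) (nat_lit 77816682094) (nat_lit 20) (nat_lit 5) (nat_lit 21) (nat_lit 5) (nat_lit 22) (nat_lit 4) (nat_lit 307) (nat_lit 292) (nat_lit 181)) (XT.lf (nat_lit 0) (nat_lit 376589181120) (nat_lit 228) (nat_lit 1018728800110) (nat_lit 76) (nat_lit 9745925742) (nat_lit 17) (nat_lit 5) (nat_lit 20) (nat_lit 5) (nat_lit 18) (nat_lit 4) (nat_lit 308) (nat_lit 292) (nat_lit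 180)))) (XT.nd (nat_lit 156) (nat_lit 228) (nat_lit 0) (XT.nd (nat_lit 78) (nat_lit 0) (nat_lit 0) (XT.lf (nat_lit 0) (nat_lit 149801620877) (nat_lit 76) (nat_lit 788581049858) (nat_lit 152) (nat_lit 616231846922) (nat_lit 16) (nat_lit 5) (nat_lit 17) (nat_lit 5) (nat_lit 18) (nat_lit 4) (nat_lit 309) (nat_lit 292) (nat_lit 179)) (XT.lf (nat_lit 0) (nat_lit 1555302672862) (nat_lit 76) (nat_lit 58801673121) (nat_lit 152) (nat_lit 110120641014) (nat_lit 16) (nat_lit 5) (nat_lit 17) (nat_lit 5) (nat_lit 18) (nat_lit 4) (nat_lit 310) (nat_lit 292) (nat_lit 178))) (XT.nd (nat_lit 78) (nat_lit 76) (nat_lit 0) (XT.lf (nat_lit 0) (nat_lit 499598836214) (nat_lit 152) (nat_lit 629384786481) (nat_lit 76) (nat_lit 785281589450) (nat_lit 14) (nat_lit 5) (nat_lit 16) (nat_lit 5) (nat_lit 15) (nat_lit 4) (nat_lit 311) (nat_lit 292) (nat_lit 177)) (XT.lf (nat_lit 0) (nat_lit 873459173191) (nat_lit 76)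 (nat_lit 348660808431) (nat_lit 152) (nat_lit 908233537962) (nat_lit 13) (nat_lit 5) (nat_lit 14) (nat_lit 5) (nat_lit 15) (nat_lit 4) (nat_lit 312) (nat_lit 292) (nat_lit 176)))))) (XT.nd (nat_lit 546) (nat_lit 228) (nat_lit 0) (XT.nd (nat_lit 234) (nat_lit 228) (nat_lit 0) (XT.nd (nat_lit 78) (nat_lit 152) (nat_lit 0) (XT.lf (nat_lit 0) (nat_lit 261882110540) (nat_lit 76) (nat_lit 1829431740155) (nat_lit 76) (nat_lit 284477658312) (nat_lit 12) (nat_lit 4) (nat_lit 13) (nat_lit 5) (nat_lit 13) (nat_lit 4) (nat_lit 313) (nat_lit 292) (nat_lit 175)) (XT.nd (nat_lit 78) (nat_lit 76) (nat_lit 0) (XT.lf (nat_lit 0) (nat_lit 458375784626) (nat_lit 152) (nat_lit 591532465764) (nat_lit 76) (nat_lit 1603529224681) (nat_lit 11) (nat_lit 5) (nat_lit 13) (nat_lit 5) (nat_lit 12) (nat_lit 4) (nat_lit 314) (nat_lit 292) (nat_lit 174)) (XT.lf (nat_lit 0) (nat_lit 1211960179553) (nat_lit 76) (nat_lit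 113479383527) (nat_lit 152) (nat_lit 1644329524893) (nat_lit 10) (nat_lit 5) (nat_lit 11) (nat_lit 5) (nat_lit 12) (nat_lit 4) (nat_lit 315) (nat_lit 292) (nat_lit 173)))) (XT.nd (nat_lit 156) (nat_lit 152) (nat_lit 0) (XT.nd (nat_lit 78) (nat_lit 76) (nat_lit 0) (XT.lf (nat_lit 0) (nat_lit 2363402167526) (nat_lit 152) (nat_lit 33992044544) (nat_lit 0) (nat_lit 932889090014) (nat_lit 10) (nat_lit 5) (nat_lit 12) (nat_lit 4) (nat_lit 10) (nat_lit 4) (nat_lit 316) (nat_lit 292) (nat_lit 172)) (XT.lf (nat_lit 0) (nat_lit 2047692639819) (nat_lit 76) (nat_lit 1561752123820) (nat_lit 76) (nat_lit 131239036600) (nat_lit 9) (nat_lit 4) (nat_lit 10) (nat_lit 5) (nat_lit 10) (nat_lit 4) (nat_lit 317) (nat_lit 292) (nat_lit 171))) (XT.nd (nat_lit 78) (nat_lit 0) (nat_lit 0) (XT.lf (nat_lit 0) (nat_lit 222260421769) (nat_lit 76) (nat_lit 572342230841) (nat_lit 152) (nat_lit 3415936425050) (nat_lit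 7) (nat_lit 5) (nat_lit 8) (nat_lit 5) (nat_lit 9) (nat_lit 4) (nat_lit 318) (nat_lit 292) (nat_lit 170)) (XT.lf (nat_lit 0) (nat_lit 1915940360323) (nat_lit 152) (nat_lit 2238117144564) (nat_lit 0) (nat_lit 591391190876) (nat_lit 7) (nat_lit 5) (nat_lit 9) (nat_lit 4) (nat_lit 7) (nat_lit 4) (nat_lit 319) (nat_lit 292) (nat_lit 169))))) (XT.nd (nat_lit 234) (nat_lit 152) (nat_lit 0) (XT.nd (nat_lit 78) (nat_lit 76) (nat_lit 0) (XT.lf (nat_lit 0) (nat_lit 3221308283598) (nat_lit 152) (nat_lit 241260999994) (nat_lit 0) (nat_lit 1896759108240) (nat_lit 7) (nat_lit 5) (nat_lit 9) (nat_lit 4) (nat_lit 7) (nat_lit 4) (nat_lit 320) (nat_lit 292) (nat_lit 168)) (XT.nd (nat_lit 78) (nat_lit 0) (nat_lit 0) (XT.lf (nat_lit 0) (nat_lit 2163342710784) (nat_lit 76) (nat_lit 2611167118653) (nat_lit 76) (nat_lit 1286617938156) (nat_lit 6) (nat_lit 4) (nat_lit 7) (nat_lit 5) (nat_lit 7) (nat_lit 4) (nat_lit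 321) (nat_lit 292) (nat_lit 167)) (XT.lf (nat_lit 0) (nat_lit 4943246993581) (nat_lit 76) (nat_lit 1624468658746) (nat_lit 76) (nat_lit 299919473779) (nat_lit 6) (nat_lit 4) (nat_lit 7) (nat_lit 5) (nat_lit 7) (nat_lit 4) (nat_lit 322) (nat_lit 292) (nat_lit 166)))) (XT.nd (nat_lit 38298) (nat_lit 0) (nat_lit 3420) (XT.nd (nat_lit 78) (nat_lit 0) (nat_lit 0) (XT.lf (nat_lit 0) (nat_lit 342052601404) (nat_lit 76) (nat_lit 459198259295) (nat_lit 152) (nat_lit 6991603492939) (nat_lit 4) (nat_lit 5) (nat_lit 5) (nat_lit 5) (nat_lit 6) (nat_lit 4) (nat_lit 323) (nat_lit 292) (nat_lit 165)) (XT.lf (nat_lit 0) (nat_lit 2129009565438) (nat_lit 152) (nat_lit 5818314850400) (nat_lit 0) (nat_lit 902575128186) (nat_lit 4) (nat_lit 5) (nat_lit 6) (nat_lit 4) (nat_lit 4) (nat_lit 4) (nat_lit 324) (nat_lit 292) (nat_lit 164))) (XT.nd (nat_lit 78) (nat_lit 0) (nat_lit 0) (XT.lf (nat_lit 0) (nat_lit 141841167646)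 (nat_lit 532) (nat_lit 31801600375) (nat_lit 532) (nat_lit 31801600375) (nat_lit 49) (nat_lit 3) (nat_lit 56) (nat_lit 3) (nat_lit 56) (nat_lit 5) (nat_lit 293) (nat_lit 293) (nat_lit 194)) (XT.lf (nat_lit 76) (nat_lit 309505754831) (nat_lit 0) (nat_lit 2897018212) (nat_lit 532) (nat_lit 128707076401) (nat_lit 50) (nat_lit 5) (nat_lit 49) (nat_lit 3) (nat_lit 56) (nat_lit 5) (nat_lit 294) (nat_lit 293) (nat_lit 193))))))))
noncomputable def xc56 : XT := (XT.nd (nat_lit 2028) (nat_lit 228) (nat_lit 0) (XT.nd (nat_lit 1014) (nat_lit 1064) (nat_lit 0) (XT.nd (nat_lit 468) (nat_lit 1064) (nat_lit 0) (XT.nd (nat_lit 234) (nat_lit 836) (nat_lit 0) (XT.nd (nat_lit 78) (nat_lit 304) (nat_lit 0) (XT.lf (nat_lit 76) (nat_lit 270757639590) (nat_lit 0) (nat_lit 92540347464) (nat_lit 532) (nat_lit 111136805378) (nat_lit 51) (nat_lit 5) (nat_lit 50) (nat_lit 5) (nat_lit 57) (nat_lit 5) (nat_lit 295)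 (nat_lit 293) (nat_lit 192)) (XT.nd (nat_lit 78) (nat_lit 380) (nat_lit 0) (XT.lf (nat_lit 76) (nat_lit 232976779203) (nat_lit 0) (nat_lit 205954018579) (nat_lit 532) (nat_lit 72459414162) (nat_lit 52) (nat_lit 5) (nat_lit 51) (nat_lit 5) (nat_lit 58) (nat_lit 5) (nat_lit 296) (nat_lit 293) (nat_lit 191)) (XT.lf (nat_lit 0) (nat_lit 196312980574) (nat_lit 456) (nat_lit 347802257520) (nat_lit 532) (nat_lit 8317169868) (nat_lit 46) (nat_lit 5) (nat_lit 52) (nat_lit 5) (nat_lit 53) (nat_lit 5) (nat_lit 297) (nat_lit 293) (nat_lit 190)))) (XT.nd (nat_lit 78) (nat_lit 456) (nat_lit 0) (XT.lf (nat_lit 0) (nat_lit 81988531564) (nat_lit 380) (nat_lit 439331132616) (nat_lit 76) (nat_lit 76600069153) (nat_lit 41) (nat_lit 5) (nat_lit 46) (nat_lit 5) (nat_lit 42) (nat_lit 5) (nat_lit 298) (nat_lit 293) (nat_lit 189)) (XT.nd (nat_lit 78) (nat_lit 228) (nat_lit 0) (XT.lf (nat_lit 0) (nat_lit 118475493604)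 (nat_lit 228) (nat_lit 89992077629) (nat_lit 304) (nat_lit 439895707811) (nat_lit 38) (nat_lit 5) (nat_lit 41) (nat_lit 5) (nat_lit 42) (nat_lit 5) (nat_lit 299) (nat_lit 293) (nat_lit 188)) (XT.lf (nat_lit 0) (nat_lit 74854658033) (nat_lit 228) (nat_lit 303752021501) (nat_lit 304) (nat_lit 325791620196) (nat_lit 35) (nat_lit 5) (nat_lit 38) (nat_lit 5) (nat_lit 39) (nat_lit 5) (nat_lit 300) (nat_lit 293) (nat_lit 187))))) (XT.nd (nat_lit 234) (nat_lit 608) (nat_lit 0) (XT.nd (nat_lit 78) (nat_lit 304) (nat_lit 0) (XT.lf (nat_lit 0) (nat_lit 28813654521) (nat_lit 152) (nat_lit 568993128887) (nat_lit 228) (nat_lit 169148579878) (nat_lit 33) (nat_lit 5) (nat_lit 35) (nat_lit 5) (nat_lit 36) (nat_lit 5) (nat_lit 301) (nat_lit 293) (nat_lit 186)) (XT.nd (nat_lit 78) (nat_lit 228) (nat_lit 0) (XT.lf (nat_lit 0) (nat_lit 37646632965) (nat_lit 228) (nat_lit 22523408483) (nat_lit 76) (nat_lit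 776528356343) (nat_lit 32) (nat_lit 5) (nat_lit 35) (nat_lit 5) (nat_lit 33) (nat_lit 5) (nat_lit 302) (nat_lit 293) (nat_lit 185)) (XT.lf (nat_lit 0) (nat_lit 299146643227) (nat_lit 304) (nat_lit 90524824692) (nat_lit 76) (nat_lit 524183862147) (nat_lit 29) (nat_lit 5) (nat_lit 33) (nat_lit 5) (nat_lit 30) (nat_lit 5) (nat_lit 303) (nat_lit 293) (nat_lit 184)))) (XT.nd (nat_lit 156) (nat_lit 304) (nat_lit 0) (XT.nd (nat_lit 78) (nat_lit 152) (nat_lit 0) (XT.lf (nat_lit 0) (nat_lit 627405084646) (nat_lit 228) (nat_lit 170926574873) (nat_lit 76) (nat_lit 202051468361) (nat_lit 27) (nat_lit 5) (nat_lit 30) (nat_lit 5) (nat_lit 28) (nat_lit 5) (nat_lit 304) (nat_lit 293) (nat_lit 183)) (XT.lf (nat_lit 0) (nat_lit 823591304073) (nat_lit 152) (nat_lit 214599678136) (nat_lit 228) (nat_lit 59036018026) (nat_lit 25) (nat_lit 5) (nat_lit 27) (nat_lit 5) (nat_lit 28) (nat_lit 5) (nat_lit 305) (nat_lit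 293) (nat_lit 182))) (XT.nd (nat_lit 78) (nat_lit 152) (nat_lit 0) (XT.lf (nat_lit 0) (nat_lit 323093866322) (nat_lit 152) (nat_lit 415696447814) (nat_lit 76) (nat_lit 466329801230) (nat_lit 23) (nat_lit 5) (nat_lit 25) (nat_lit 5) (nat_lit 24) (nat_lit 5) (nat_lit 306) (nat_lit 293) (nat_lit 181)) (XT.lf (nat_lit 0) (nat_lit 728626393145) (nat_lit 152) (nat_lit 62152916391) (nat_lit 228) (nat_lit 535756682647) (nat_lit 21) (nat_lit 5) (nat_lit 23) (nat_lit 5) (nat_lit 24) (nat_lit 5) (nat_lit 307) (nat_lit 293) (nat_lit 180)))))) (XT.nd (nat_lit 468) (nat_lit 456) (nat_lit 0) (XT.nd (nat_lit 234) (nat_lit 228) (nat_lit 0) (XT.nd (nat_lit 78) (nat_lit 304) (nat_lit 0) (XT.lf (nat_lit 0) (nat_lit 617953737203) (nat_lit 76) (nat_lit 755161849695) (nat_lit 152) (nat_lit 89488822247) (nat_lit 20) (nat_lit 5) (nat_lit 21) (nat_lit 5) (nat_lit 22) (nat_lit 4) (nat_lit 308) (nat_lit 293) (nat_lit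 179)) (XT.nd (nat_lit 78) (nat_lit 76) (nat_lit 0) (XT.lf (nat_lit 0) (nat_lit 433077875271) (nat_lit 228) (nat_lit 1171537573767) (nat_lit 76) (nat_lit 11208018303) (nat_lit 17) (nat_lit 5) (nat_lit 20) (nat_lit 5) (nat_lit 18) (nat_lit 4) (nat_lit 309) (nat_lit 293) (nat_lit 178)) (XT.lf (nat_lit 0) (nat_lit 172272364121) (nat_lit 76) (nat_lit 906867994889) (nat_lit 152) (nat_lit 708666313005) (nat_lit 16) (nat_lit 5) (nat_lit 17) (nat_lit 5) (nat_lit 18) (nat_lit 4) (nat_lit 310) (nat_lit 293) (nat_lit 177)))) (XT.nd (nat_lit 78) (nat_lit 228) (nat_lit 0) (XT.lf (nat_lit 0) (nat_lit 1788598508672) (nat_lit 76) (nat_lit 67621739352) (nat_lit 152) (nat_lit 126638466771) (nat_lit 16) (nat_lit 5) (nat_lit 17) (nat_lit 5) (nat_lit 18) (nat_lit 4) (nat_lit 311) (nat_lit 293) (nat_lit 176)) (XT.nd (nat_lit 78) (nat_lit 76) (nat_lit 0) (XT.lf (nat_lit 0) (nat_lit 574538899154) (nat_lit 152)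 (nat_lit 723792079211) (nat_lit 76) (nat_lit 903073996408) (nat_lit 14) (nat_lit 5) (nat_lit 16) (nat_lit 5) (nat_lit 15) (nat_lit 4) (nat_lit 312) (nat_lit 293) (nat_lit 175)) (XT.lf (nat_lit 0) (nat_lit 1004478438417) (nat_lit 76) (nat_lit 400959756338) (nat_lit 152) (nat_lit 1044468335326) (nat_lit 13) (nat_lit 5) (nat_lit 14) (nat_lit 5) (nat_lit 15) (nat_lit 4) (nat_lit 313) (nat_lit 293) (nat_lit 174))))) (XT.nd (nat_lit 234) (nat_lit 228) (nat_lit 0) (XT.nd (nat_lit 78) (nat_lit 152) (nat_lit 0) (XT.lf (nat_lit 0) (nat_lit 301164795568) (nat_lit 76) (nat_lit 2103846332948) (nat_lit 76) (nat_lit 327149090678) (nat_lit 12) (nat_lit 4) (nat_lit 13) (nat_lit 5) (nat_lit 13) (nat_lit 4) (nat_lit 314) (nat_lit 293) (nat_lit 173)) (XT.nd (nat_lit 78) (nat_lit 76) (nat_lit 0) (XT.lf (nat_lit 0) (nat_lit 527132331065) (nat_lit 152) (nat_lit 680262005710) (nat_lit 76) (nat_lit 1844058745140)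 (nat_lit 11) (nat_lit 5) (nat_lit 13) (nat_lit 5) (nat_lit 12) (nat_lit 4) (nat_lit 315) (nat_lit 293) (nat_lit 172)) (XT.lf (nat_lit 0) (nat_lit 1393754508479) (nat_lit 76) (nat_lit 130501151756) (nat_lit 152) (nat_lit 1890978777816) (nat_lit 10) (nat_lit 5) (nat_lit 11) (nat_lit 5) (nat_lit 12) (nat_lit 4) (nat_lit 316) (nat_lit 293) (nat_lit 171)))) (XT.nd (nat_lit 156) (nat_lit 152) (nat_lit 0) (XT.nd (nat_lit 78) (nat_lit 76) (nat_lit 0) (XT.lf (nat_lit 0) (nat_lit 2717912637040) (nat_lit 152) (nat_lit 39090580129) (nat_lit 0) (nat_lit 1072822568587) (nat_lit 10) (nat_lit 5) (nat_lit 12) (nat_lit 4) (nat_lit 10) (nat_lit 4) (nat_lit 317) (nat_lit 293) (nat_lit 170)) (XT.lf (nat_lit 0) (nat_lit 2354846783942) (nat_lit 76) (nat_lit 1796014825764) (nat_lit 76) (nat_lit 150924749969) (nat_lit 9) (nat_lit 4) (nat_lit 10) (nat_lit 5) (nat_lit 10) (nat_lit 4) (nat_lit 318) (nat_lit 293)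 (nat_lit 169))) (XT.nd (nat_lit 78) (nat_lit 0) (nat_lit 0) (XT.lf (nat_lit 0) (nat_lit 255599718753) (nat_lit 76) (nat_lit 658193454771) (nat_lit 152) (nat_lit 3928326755882) (nat_lit 7) (nat_lit 5) (nat_lit 8) (nat_lit 5) (nat_lit 9) (nat_lit 4) (nat_lit 319) (nat_lit 293) (nat_lit 168)) (XT.lf (nat_lit 0) (nat_lit 2203331523662) (nat_lit 152) (nat_lit 2573834506718) (nat_lit 0) (nat_lit 680099960950) (nat_lit 7) (nat_lit 5) (nat_lit 9) (nat_lit 4) (nat_lit 7) (nat_lit 4) (nat_lit 320) (nat_lit 293) (nat_lit 167))))))) (XT.nd (nat_lit 39234) (nat_lit 0) (nat_lit 608) (XT.nd (nat_lit 38688) (nat_lit 0) (nat_lit 2204) (XT.nd (nat_lit 234) (nat_lit 152) (nat_lit 0) (XT.nd (nat_lit 78) (nat_lit 76) (nat_lit 0) (XT.lf (nat_lit 0) (nat_lit 3704504621173) (nat_lit 152) (nat_lit 277449967793) (nat_lit 0) (nat_lit 2181273053992) (nat_lit 7) (nat_lit 5) (nat_lit 9) (nat_lit 4) (nat_lit 7) (nat_lit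 4) (nat_lit 321) (nat_lit 293) (nat_lit 166)) (XT.nd (nat_lit 78) (nat_lit 0) (nat_lit 0) (XT.lf (nat_lit 0) (nat_lit 2487844284179) (nat_lit 76) (nat_lit 3002842106323) (nat_lit 76) (nat_lit 1479610535256) (nat_lit 6) (nat_lit 4) (nat_lit 7) (nat_lit 5) (nat_lit 7) (nat_lit 4) (nat_lit 322) (nat_lit 293) (nat_lit 165)) (XT.lf (nat_lit 0) (nat_lit 5684734187643) (nat_lit 76) (nat_lit 1868138887881) (nat_lit 76) (nat_lit 344907313435) (nat_lit 6) (nat_lit 4) (nat_lit 7) (nat_lit 5) (nat_lit 7) (nat_lit 4) (nat_lit 323) (nat_lit 293) (nat_lit 164)))) (XT.nd (nat_lit 38298) (nat_lit 0) (nat_lit 3420) (XT.lf (nat_lit 0) (nat_lit 393360628122) (nat_lit 76) (nat_lit 528077932217) (nat_lit 152) (nat_lit 8040343940674) (nat_lit 4) (nat_lit 5) (nat_lit 5) (nat_lit 5) (nat_lit 6) (nat_lit 4) (nat_lit 324) (nat_lit 293) (nat_lit 163)) (XT.nd (nat_lit 78) (nat_lit 0) (nat_lit 0) (XT.lf (nat_lit 0)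 (nat_lit 163117957976) (nat_lit 532) (nat_lit 36571507466) (nat_lit 532) (nat_lit 36571507466) (nat_lit 49) (nat_lit 3) (nat_lit 56) (nat_lit 3) (nat_lit 56) (nat_lit 5) (nat_lit 294) (nat_lit 294) (nat_lit 192)) (XT.lf (nat_lit 76) (nat_lit 355932227618) (nat_lit 0) (nat_lit 3332045925) (nat_lit 532) (nat_lit 148011963889) (nat_lit 50) (nat_lit 5) (nat_lit 49) (nat_lit 3) (nat_lit 56) (nat_lit 5) (nat_lit 295) (nat_lit 294) (nat_lit 191))))) (XT.nd (nat_lit 234) (nat_lit 988) (nat_lit 0) (XT.nd (nat_lit 78) (nat_lit 304) (nat_lit 0) (XT.lf (nat_lit 76) (nat_lit 311371935810) (nat_lit 0) (nat_lit 106421698089) (nat_lit 532) (nat_lit 127806299177) (nat_lit 51) (nat_lit 5) (nat_lit 50) (nat_lit 5) (nat_lit 57) (nat_lit 5) (nat_lit 296) (nat_lit 294) (nat_lit 190)) (XT.nd (nat_lit 78) (nat_lit 380) (nat_lit 0) (XT.lf (nat_lit 76) (nat_lit 267923969494) (nat_lit 0) (nat_lit 236847282942) (nat_lit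 532) (nat_lit 83327422486) (nat_lit 52) (nat_lit 5) (nat_lit 51) (nat_lit 5) (nat_lit 58) (nat_lit 5) (nat_lit 297) (nat_lit 294) (nat_lit 189)) (XT.lf (nat_lit 0) (nat_lit 225760610616) (nat_lit 456) (nat_lit 399972652313) (nat_lit 532) (nat_lit 9563945346) (nat_lit 46) (nat_lit 5) (nat_lit 52) (nat_lit 5) (nat_lit 53) (nat_lit 5) (nat_lit 298) (nat_lit 294) (nat_lit 188)))) (XT.nd (nat_lit 156) (nat_lit 380) (nat_lit 0) (XT.nd (nat_lit 78) (nat_lit 228) (nat_lit 0) (XT.lf (nat_lit 0) (nat_lit 94287487779) (nat_lit 380) (nat_lit 505230083362) (nat_lit 76) (nat_lit 88090066661) (nat_lit 41) (nat_lit 5) (nat_lit 46) (nat_lit 5) (nat_lit 42) (nat_lit 5) (nat_lit 299) (nat_lit 294) (nat_lit 187)) (XT.lf (nat_lit 0) (nat_lit 136247475919) (nat_lit 228) (nat_lit 103490835075) (nat_lit 304) (nat_lit 505879410354) (nat_lit 38) (nat_lit 5) (nat_lit 41) (nat_lit 5) (nat_lit 42) (nat_lit 5) (nat_lit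 300) (nat_lit 294) (nat_lit 186))) (XT.nd (nat_lit 78) (nat_lit 152) (nat_lit 0) (XT.lf (nat_lit 0) (nat_lit 86083503458) (nat_lit 228) (nat_lit 349314719977) (nat_lit 304) (nat_lit 374659776830) (nat_lit 35) (nat_lit 5) (nat_lit 38) (nat_lit 5) (nat_lit 39) (nat_lit 5) (nat_lit 301) (nat_lit 294) (nat_lit 185)) (XT.lf (nat_lit 0) (nat_lit 33136333036) (nat_lit 152) (nat_lit 654341956512) (nat_lit 228) (nat_lit 194520338213) (nat_lit 33) (nat_lit 5) (nat_lit 35) (nat_lit 5) (nat_lit 36) (nat_lit 5) (nat_lit 302) (nat_lit 294) (nat_lit 184)))))) (XT.nd (nat_lit 468) (nat_lit 684) (nat_lit 0) (XT.nd (nat_lit 234) (nat_lit 456) (nat_lit 0) (XT.nd (nat_lit 78) (nat_lit 380) (nat_lit 0) (XT.lf (nat_lit 0) (nat_lit 43294064607) (nat_lit 228) (nat_lit 25901347894) (nat_lit 76) (nat_lit 893007709276) (nat_lit 32) (nat_lit 5) (nat_lit 35) (nat_lit 5) (nat_lit 33) (nat_lit 5) (nat_lit 303) (nat_lit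 294) (nat_lit 183)) (XT.nd (nat_lit 78) (nat_lit 152) (nat_lit 0) (XT.lf (nat_lit 0) (nat_lit 344019035190) (nat_lit 304) (nat_lit 104102996058) (nat_lit 76) (nat_lit 602811566040) (nat_lit 29) (nat_lit 5) (nat_lit 33) (nat_lit 5) (nat_lit 30) (nat_lit 5) (nat_lit 304) (nat_lit 294) (nat_lit 182)) (XT.lf (nat_lit 0) (nat_lit 721516206994) (nat_lit 228) (nat_lit 196565030066) (nat_lit 76) (nat_lit 232359330666) (nat_lit 27) (nat_lit 5) (nat_lit 30) (nat_lit 5) (nat_lit 28) (nat_lit 5) (nat_lit 305) (nat_lit 294) (nat_lit 181)))) (XT.nd (nat_lit 78) (nat_lit 304) (nat_lit 0) (XT.lf (nat_lit 0) (nat_lit 947130485772) (nat_lit 152) (nat_lit 246789468198) (nat_lit 228) (nat_lit 67891069854) (nat_lit 25) (nat_lit 5) (nat_lit 27) (nat_lit 5) (nat_lit 28) (nat_lit 5) (nat_lit 306) (nat_lit 294) (nat_lit 180)) (XT.nd (nat_lit 78) (nat_lit 152) (nat_lit 0) (XT.lf (nat_lit 0) (nat_lit 371558251074)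 (nat_lit 152) (nat_lit 478050432948) (nat_lit 76) (nat_lit 536279423870) (nat_lit 23) (nat_lit 5) (nat_lit 25) (nat_lit 5) (nat_lit 24) (nat_lit 5) (nat_lit 307) (nat_lit 294) (nat_lit 179)) (XT.lf (nat_lit 0) (nat_lit 837920793353) (nat_lit 152) (nat_lit 71475688272) (nat_lit 228) (nat_lit 616119886989) (nat_lit 21) (nat_lit 5) (nat_lit 23) (nat_lit 5) (nat_lit 24) (nat_lit 5) (nat_lit 308) (nat_lit 294) (nat_lit 178))))) (XT.nd (nat_lit 234) (nat_lit 304) (nat_lit 0) (XT.nd (nat_lit 78) (nat_lit 304) (nat_lit 0) (XT.lf (nat_lit 0) (nat_lit 710647218527) (nat_lit 76) (nat_lit 868435959691) (nat_lit 152) (nat_lit 102911871738) (nat_lit 20) (nat_lit 5) (nat_lit 21) (nat_lit 5) (nat_lit 22) (nat_lit 4) (nat_lit 309) (nat_lit 294) (nat_lit 177)) (XT.nd (nat_lit 78) (nat_lit 76) (nat_lit 0) (XT.lf (nat_lit 0) (nat_lit 498039796247) (nat_lit 228) (nat_lit 1347267796706) (nat_lit 76) (nat_lit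 12889375075) (nat_lit 17) (nat_lit 5) (nat_lit 20) (nat_lit 5) (nat_lit 18) (nat_lit 4) (nat_lit 310) (nat_lit 294) (nat_lit 176)) (XT.lf (nat_lit 0) (nat_lit 198113596897) (nat_lit 76) (nat_lit 1042898033481) (nat_lit 152) (nat_lit 814966024829) (nat_lit 16) (nat_lit 5) (nat_lit 17) (nat_lit 5) (nat_lit 18) (nat_lit 4) (nat_lit 311) (nat_lit 294) (nat_lit 175)))) (XT.nd (nat_lit 156) (nat_lit 152) (nat_lit 0) (XT.nd (nat_lit 78) (nat_lit 152) (nat_lit 0) (XT.lf (nat_lit 0) (nat_lit 2056888613805) (nat_lit 76) (nat_lit 77764860567) (nat_lit 152) (nat_lit 145634032329) (nat_lit 16) (nat_lit 5) (nat_lit 17) (nat_lit 5) (nat_lit 18) (nat_lit 4) (nat_lit 312) (nat_lit 294) (nat_lit 174)) (XT.lf (nat_lit 0) (nat_lit 660719913617) (nat_lit 152) (nat_lit 832360569549) (nat_lit 76) (nat_lit 1038535223309) (nat_lit 14) (nat_lit 5) (nat_lit 16) (nat_lit 5) (nat_lit 15) (nat_lit 4) (nat_lit 313)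 (nat_lit 294) (nat_lit 173))) (XT.nd (nat_lit 78) (nat_lit 76) (nat_lit 0) (XT.lf (nat_lit 0) (nat_lit 1155150498506) (nat_lit 76) (nat_lit 461103588706) (nat_lit 152) (nat_lit 1201138409195) (nat_lit 13) (nat_lit 5) (nat_lit 14) (nat_lit 5) (nat_lit 15) (nat_lit 4) (nat_lit 314) (nat_lit 294) (nat_lit 172)) (XT.lf (nat_lit 0) (nat_lit 346339793502) (nat_lit 76) (nat_lit 2419423155684) (nat_lit 76) (nat_lit 376221290665) (nat_lit 12) (nat_lit 4) (nat_lit 13) (nat_lit 5) (nat_lit 13) (nat_lit 4) (nat_lit 315) (nat_lit 294) (nat_lit 171))))))))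
noncomputable def xc57 : XT := (XT.nd (nat_lit 40326) (nat_lit 0) (nat_lit 0) (XT.nd (nat_lit 39312) (nat_lit 0) (nat_lit 836) (XT.nd (nat_lit 468) (nat_lit 76) (nat_lit 0) (XT.nd (nat_lit 234) (nat_lit 228) (nat_lit 0) (XT.nd (nat_lit 78) (nat_lit 76) (nat_lit 0) (XT.lf (nat_lit 0) (nat_lit 606202315882) (nat_lit 152) (nat_lit 782301057100) (nat_lit 76) (nat_lit 2120667660319) (nat_lit 11) (nat_lit 5) (nat_lit 13) (nat_lit 5) (nat_lit 12) (nat_lit 4) (nat_lit 316) (nat_lit 294) (nat_lit 170)) (XT.nd (nat_lit 78) (nat_lit 0) (nat_lit 0) (XT.lf (nat_lit 0) (nat_lit 1602817913102) (nat_lit 76) (nat_lit 150076219189) (nat_lit 152) (nat_lit 2174625461549) (nat_lit 10) (nat_lit 5) (nat_lit 11) (nat_lit 5) (nat_lit 12) (nat_lit 4) (nat_lit 317) (nat_lit 294) (nat_lit 169)) (XT.lf (nat_lit 0) (nat_lit 3125599641772) (nat_lit 152) (nat_lit 44953962160) (nat_lit 0) (nat_lit 1233746040885) (nat_lit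 10) (nat_lit 5) (nat_lit 12) (nat_lit 4) (nat_lit 10) (nat_lit 4) (nat_lit 318) (nat_lit 294) (nat_lit 168)))) (XT.nd (nat_lit 78) (nat_lit 152) (nat_lit 0) (XT.lf (nat_lit 0) (nat_lit 2708073989170) (nat_lit 76) (nat_lit 2065416961440) (nat_lit 76) (nat_lit 173563355002) (nat_lit 9) (nat_lit 4) (nat_lit 10) (nat_lit 5) (nat_lit 10) (nat_lit 4) (nat_lit 319) (nat_lit 294) (nat_lit 167)) (XT.nd (nat_lit 78) (nat_lit 0) (nat_lit 0) (XT.lf (nat_lit 0) (nat_lit 293939853291) (nat_lit 76) (nat_lit 756922389284) (nat_lit 152) (nat_lit 4517575668753) (nat_lit 7) (nat_lit 5) (nat_lit 8) (nat_lit 5) (nat_lit 9) (nat_lit 4) (nat_lit 320) (nat_lit 294) (nat_lit 166)) (XT.lf (nat_lit 0) (nat_lit 2533831334850) (nat_lit 152) (nat_lit 2959909524290) (nat_lit 0) (nat_lit 782115024236) (nat_lit 7) (nat_lit 5) (nat_lit 9) (nat_lit 4) (nat_lit 7) (nat_lit 4) (nat_lit 321) (nat_lit 294) (nat_lit 165)))))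 (XT.nd (nat_lit 38532) (nat_lit 0) (nat_lit 3268) (XT.nd (nat_lit 78) (nat_lit 76) (nat_lit 0) (XT.lf (nat_lit 0) (nat_lit 4260180386209) (nat_lit 152) (nat_lit 319067325192) (nat_lit 0) (nat_lit 2508464072216) (nat_lit 7) (nat_lit 5) (nat_lit 9) (nat_lit 4) (nat_lit 7) (nat_lit 4) (nat_lit 322) (nat_lit 294) (nat_lit 164)) (XT.nd (nat_lit 78) (nat_lit 0) (nat_lit 0) (XT.lf (nat_lit 0) (nat_lit 2861021052915) (nat_lit 76) (nat_lit 3453268361683) (nat_lit 76) (nat_lit 1701552044752) (nat_lit 6) (nat_lit 4) (nat_lit 7) (nat_lit 5) (nat_lit 7) (nat_lit 4) (nat_lit 323) (nat_lit 294) (nat_lit 163)) (XT.lf (nat_lit 0) (nat_lit 6537444425449) (nat_lit 76) (nat_lit 2148359668378) (nat_lit 76) (nat_lit 396643348891) (nat_lit 6) (nat_lit 4) (nat_lit 7) (nat_lit 5) (nat_lit 7) (nat_lit 4) (nat_lit 324) (nat_lit 294) (nat_lit 162)))) (XT.nd (nat_lit 156) (nat_lit 0) (nat_lit 76) (XT.nd (nat_lit 78)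 (nat_lit 0) (nat_lit 0) (XT.lf (nat_lit 0) (nat_lit 187586116839) (nat_lit 532) (nat_lit 42056981816) (nat_lit 532) (nat_lit 42056981816) (nat_lit 49) (nat_lit 3) (nat_lit 56) (nat_lit 3) (nat_lit 56) (nat_lit 5) (nat_lit 295) (nat_lit 295) (nat_lit 190)) (XT.lf (nat_lit 76) (nat_lit 409322522678) (nat_lit 0) (nat_lit 3832211967) (nat_lit 532) (nat_lit 170212870781) (nat_lit 50) (nat_lit 5) (nat_lit 49) (nat_lit 3) (nat_lit 56) (nat_lit 5) (nat_lit 296) (nat_lit 295) (nat_lit 189))) (XT.nd (nat_lit 78) (nat_lit 0) (nat_lit 76) (XT.lf (nat_lit 76) (nat_lit 358078217888) (nat_lit 0) (nat_lit 122385178515) (nat_lit 532) (nat_lit 146976467488) (nat_lit 51) (nat_lit 5) (nat_lit 50) (nat_lit 5) (nat_lit 57) (nat_lit 5) (nat_lit 297) (nat_lit 295) (nat_lit 188)) (XT.lf (nat_lit 76) (nat_lit 308113074113) (nat_lit 0) (nat_lit 272374497557) (nat_lit 532) (nat_lit 95825852457) (nat_lit 52) (nat_lit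 5) (nat_lit 51) (nat_lit 5) (nat_lit 58) (nat_lit 5) (nat_lit 298) (nat_lit 295) (nat_lit 187)))))) (XT.nd (nat_lit 468) (nat_lit 1140) (nat_lit 0) (XT.nd (nat_lit 234) (nat_lit 456) (nat_lit 0) (XT.nd (nat_lit 78) (nat_lit 608) (nat_lit 0) (XT.lf (nat_lit 0) (nat_lit 259625218621) (nat_lit 456) (nat_lit 459968592628) (nat_lit 532) (nat_lit 10997932231) (nat_lit 46) (nat_lit 5) (nat_lit 52) (nat_lit 5) (nat_lit 53) (nat_lit 5) (nat_lit 299) (nat_lit 295) (nat_lit 186)) (XT.nd (nat_lit 78) (nat_lit 228) (nat_lit 0) (XT.lf (nat_lit 0) (nat_lit 108431122463) (nat_lit 380) (nat_lit 581014052089) (nat_lit 76) (nat_lit 101303566933) (nat_lit 41) (nat_lit 5) (nat_lit 46) (nat_lit 5) (nat_lit 42) (nat_lit 5) (nat_lit 300) (nat_lit 295) (nat_lit 185)) (XT.lf (nat_lit 0) (nat_lit 156685095056) (nat_lit 228) (nat_lit 119014419355) (nat_lit 304) (nat_lit 581760827670) (nat_lit 38) (nat_lit 5) (nat_lit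 41) (nat_lit 5) (nat_lit 42) (nat_lit 5) (nat_lit 301) (nat_lit 295) (nat_lit 184)))) (XT.nd (nat_lit 78) (nat_lit 228) (nat_lit 0) (XT.lf (nat_lit 0) (nat_lit 98996517990) (nat_lit 228) (nat_lit 401711848768) (nat_lit 304) (nat_lit 430858299956) (nat_lit 35) (nat_lit 5) (nat_lit 38) (nat_lit 5) (nat_lit 39) (nat_lit 5) (nat_lit 302) (nat_lit 295) (nat_lit 183)) (XT.nd (nat_lit 78) (nat_lit 76) (nat_lit 0) (XT.lf (nat_lit 0) (nat_lit 38107259616) (nat_lit 152) (nat_lit 752493142838) (nat_lit 228) (nat_lit 223697989212) (nat_lit 33) (nat_lit 5) (nat_lit 35) (nat_lit 5) (nat_lit 36) (nat_lit 5) (nat_lit 303) (nat_lit 295) (nat_lit 182)) (XT.lf (nat_lit 0) (nat_lit 49788504504) (nat_lit 228) (nat_lit 29786117669) (nat_lit 76) (nat_lit 1026958940890) (nat_lit 32) (nat_lit 5) (nat_lit 35) (nat_lit 5) (nat_lit 33) (nat_lit 5) (nat_lit 304) (nat_lit 295) (nat_lit 181))))) (XT.nd (nat_lit 234)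 (nat_lit 608) (nat_lit 0) (XT.nd (nat_lit 78) (nat_lit 304) (nat_lit 0) (XT.lf (nat_lit 0) (nat_lit 395622189508) (nat_lit 304) (nat_lit 119718027820) (nat_lit 76) (nat_lit 693233395139) (nat_lit 29) (nat_lit 5) (nat_lit 33) (nat_lit 5) (nat_lit 30) (nat_lit 5) (nat_lit 305) (nat_lit 295) (nat_lit 180)) (XT.nd (nat_lit 78) (nat_lit 152) (nat_lit 0) (XT.lf (nat_lit 0) (nat_lit 829743909991) (nat_lit 228) (nat_lit 226049383035) (nat_lit 76) (nat_lit 267213337677) (nat_lit 27) (nat_lit 5) (nat_lit 30) (nat_lit 5) (nat_lit 28) (nat_lit 5) (nat_lit 306) (nat_lit 295) (nat_lit 179)) (XT.lf (nat_lit 0) (nat_lit 1089200426191) (nat_lit 152) (nat_lit 283807766191) (nat_lit 228) (nat_lit 78074465020) (nat_lit 25) (nat_lit 5) (nat_lit 27) (nat_lit 5) (nat_lit 28) (nat_lit 5) (nat_lit 307) (nat_lit 295) (nat_lit 178)))) (XT.nd (nat_lit 156) (nat_lit 304) (nat_lit 0) (XT.nd (nat_lit 78) (nat_lit 152)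 (nat_lit 0) (XT.lf (nat_lit 0) (nat_lit 427292219211) (nat_lit 152) (nat_lit 549757633400) (nat_lit 76) (nat_lit 616721452728) (nat_lit 23) (nat_lit 5) (nat_lit 25) (nat_lit 5) (nat_lit 24) (nat_lit 5) (nat_lit 308) (nat_lit 295) (nat_lit 177)) (XT.lf (nat_lit 0) (nat_lit 963609245993) (nat_lit 152) (nat_lit 82196916313) (nat_lit 228) (nat_lit 708537644665) (nat_lit 21) (nat_lit 5) (nat_lit 23) (nat_lit 5) (nat_lit 24) (nat_lit 5) (nat_lit 309) (nat_lit 295) (nat_lit 176))) (XT.nd (nat_lit 78) (nat_lit 228) (nat_lit 0) (XT.lf (nat_lit 0) (nat_lit 817244619449) (nat_lit 76) (nat_lit 998701227021) (nat_lit 152) (nat_lit 118348445431) (nat_lit 20) (nat_lit 5) (nat_lit 21) (nat_lit 5) (nat_lit 22) (nat_lit 4) (nat_lit 310) (nat_lit 295) (nat_lit 175)) (XT.lf (nat_lit 0) (nat_lit 572745946920) (nat_lit 228) (nat_lit 1549357653829) (nat_lit 76) (nat_lit 14822897802) (nat_lit 17) (nat_lit 5)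 (nat_lit 20) (nat_lit 5) (nat_lit 18) (nat_lit 4) (nat_lit 311) (nat_lit 295) (nat_lit 174))))))) (XT.nd (nat_lit 39390) (nat_lit 0) (nat_lit 1444) (XT.nd (nat_lit 468) (nat_lit 380) (nat_lit 0) (XT.nd (nat_lit 234) (nat_lit 228) (nat_lit 0) (XT.nd (nat_lit 78) (nat_lit 152) (nat_lit 0) (XT.lf (nat_lit 0) (nat_lit 227830922373) (nat_lit 76) (nat_lit 1199332617036) (nat_lit 152) (nat_lit 937210750764) (nat_lit 16) (nat_lit 5) (nat_lit 17) (nat_lit 5) (nat_lit 18) (nat_lit 4) (nat_lit 312) (nat_lit 295) (nat_lit 173)) (XT.nd (nat_lit 78) (nat_lit 152) (nat_lit 0) (XT.lf (nat_lit 0) (nat_lit 2365422154520) (nat_lit 76) (nat_lit 89429484028) (nat_lit 152) (nat_lit 167478982578) (nat_lit 16) (nat_lit 5) (nat_lit 17) (nat_lit 5) (nat_lit 18) (nat_lit 4) (nat_lit 313) (nat_lit 295) (nat_lit 172)) (XT.lf (nat_lit 0) (nat_lit 759828036456) (nat_lit 152) (nat_lit 957214411848) (nat_lit 76) (nat_lit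 1194315603169) (nat_lit 14) (nat_lit 5) (nat_lit 16) (nat_lit 5) (nat_lit 15) (nat_lit 4) (nat_lit 314) (nat_lit 295) (nat_lit 171)))) (XT.nd (nat_lit 78) (nat_lit 152) (nat_lit 0) (XT.lf (nat_lit 0) (nat_lit 1328423295836) (nat_lit 76) (nat_lit 530269027894) (nat_lit 152) (nat_lit 1381309037167) (nat_lit 13) (nat_lit 5) (nat_lit 14) (nat_lit 5) (nat_lit 15) (nat_lit 4) (nat_lit 315) (nat_lit 295) (nat_lit 170)) (XT.nd (nat_lit 78) (nat_lit 76) (nat_lit 0) (XT.lf (nat_lit 0) (nat_lit 398290973188) (nat_lit 76) (nat_lit 2782336532851) (nat_lit 76) (nat_lit 432654360548) (nat_lit 12) (nat_lit 4) (nat_lit 13) (nat_lit 5) (nat_lit 13) (nat_lit 4) (nat_lit 316) (nat_lit 295) (nat_lit 169)) (XT.lf (nat_lit 0) (nat_lit 697132765463) (nat_lit 152) (nat_lit 899646027033) (nat_lit 76) (nat_lit 2438767887558) (nat_lit 11) (nat_lit 5) (nat_lit 13) (nat_lit 5) (nat_lit 12) (nat_lit 4) (nat_lit 317)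 (nat_lit 295) (nat_lit 168))))) (XT.nd (nat_lit 234) (nat_lit 228) (nat_lit 0) (XT.nd (nat_lit 78) (nat_lit 76) (nat_lit 0) (XT.lf (nat_lit 0) (nat_lit 1843240772732) (nat_lit 76) (nat_lit 172587572423) (nat_lit 152) (nat_lit 2500819180261) (nat_lit 10) (nat_lit 5) (nat_lit 11) (nat_lit 5) (nat_lit 12) (nat_lit 4) (nat_lit 318) (nat_lit 295) (nat_lit 167)) (XT.nd (nat_lit 78) (nat_lit 76) (nat_lit 0) (XT.lf (nat_lit 0) (nat_lit 3594439670591) (nat_lit 152) (nat_lit 51696901484) (nat_lit 0) (nat_lit 1418808012809) (nat_lit 10) (nat_lit 5) (nat_lit 12) (nat_lit 4) (nat_lit 10) (nat_lit 4) (nat_lit 319) (nat_lit 295) (nat_lit 166)) (XT.lf (nat_lit 0) (nat_lit 3114285229425) (nat_lit 76) (nat_lit 2375229438974) (nat_lit 76) (nat_lit 199597776995) (nat_lit 9) (nat_lit 4) (nat_lit 10) (nat_lit 5) (nat_lit 10) (nat_lit 4) (nat_lit 320) (nat_lit 295) (nat_lit 165)))) (XT.nd (nat_lit 156) (nat_lit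 76) (nat_lit 0) (XT.nd (nat_lit 78) (nat_lit 0) (nat_lit 0) (XT.lf (nat_lit 0) (nat_lit 338030964914) (nat_lit 76) (nat_lit 870460684385) (nat_lit 152) (nat_lit 5195211943066) (nat_lit 7) (nat_lit 5) (nat_lit 8) (nat_lit 5) (nat_lit 9) (nat_lit 4) (nat_lit 321) (nat_lit 295) (nat_lit 164)) (XT.lf (nat_lit 0) (nat_lit 2913906097565) (nat_lit 152) (nat_lit 3403895833134) (nat_lit 0) (nat_lit 899432330155) (nat_lit 7) (nat_lit 5) (nat_lit 9) (nat_lit 4) (nat_lit 7) (nat_lit 4) (nat_lit 322) (nat_lit 295) (nat_lit 163))) (XT.nd (nat_lit 78) (nat_lit 76) (nat_lit 0) (XT.lf (nat_lit 0) (nat_lit 4899207498477) (nat_lit 152) (nat_lit 366927319797) (nat_lit 0) (nat_lit 2884733728512) (nat_lit 7) (nat_lit 5) (nat_lit 9) (nat_lit 4) (nat_lit 7) (nat_lit 4) (nat_lit 323) (nat_lit 295) (nat_lit 162)) (XT.lf (nat_lit 0) (nat_lit 3290174306208) (nat_lit 76) (nat_lit 3971258570122) (nat_lit 76) (nat_lit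 1956784797935) (nat_lit 6) (nat_lit 4) (nat_lit 7) (nat_lit 5) (nat_lit 7) (nat_lit 4) (nat_lit 324) (nat_lit 295) (nat_lit 161)))))) (XT.nd (nat_lit 468) (nat_lit 1216) (nat_lit 0) (XT.nd (nat_lit 234) (nat_lit 608) (nat_lit 0) (XT.nd (nat_lit 78) (nat_lit 0) (nat_lit 0) (XT.lf (nat_lit 0) (nat_lit 215724386098) (nat_lit 532) (nat_lit 48365338715) (nat_lit 532) (nat_lit 48365338715) (nat_lit 49) (nat_lit 3) (nat_lit 56) (nat_lit 3) (nat_lit 56) (nat_lit 5) (nat_lit 296) (nat_lit 296) (nat_lit 188)) (XT.nd (nat_lit 78) (nat_lit 0) (nat_lit 76) (XT.lf (nat_lit 76) (nat_lit 470721249599) (nat_lit 0) (nat_lit 4407315334) (nat_lit 532) (nat_lit 195744130175) (nat_lit 50) (nat_lit 5) (nat_lit 49) (nat_lit 3) (nat_lit 56) (nat_lit 5) (nat_lit 297) (nat_lit 296) (nat_lit 187)) (XT.lf (nat_lit 76) (nat_lit 411790322372) (nat_lit 0) (nat_lit 140743125964) (nat_lit 532) (nat_lit 169022350415) (nat_lit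 51) (nat_lit 5) (nat_lit 50) (nat_lit 5) (nat_lit 57) (nat_lit 5) (nat_lit 298) (nat_lit 296) (nat_lit 186)))) (XT.nd (nat_lit 78) (nat_lit 760) (nat_lit 0) (XT.lf (nat_lit 76) (nat_lit 354330420254) (nat_lit 0) (nat_lit 313230764572) (nat_lit 532) (nat_lit 110199213575) (nat_lit 52) (nat_lit 5) (nat_lit 51) (nat_lit 5) (nat_lit 58) (nat_lit 5) (nat_lit 299) (nat_lit 296) (nat_lit 185)) (XT.nd (nat_lit 78) (nat_lit 380) (nat_lit 0) (XT.lf (nat_lit 0) (nat_lit 298569391896) (nat_lit 456) (nat_lit 528963913634) (nat_lit 532) (nat_lit 12647164662) (nat_lit 46) (nat_lit 5) (nat_lit 52) (nat_lit 5) (nat_lit 53) (nat_lit 5) (nat_lit 300) (nat_lit 296) (nat_lit 184)) (XT.lf (nat_lit 0) (nat_lit 124696177612) (nat_lit 380) (nat_lit 668165748729) (nat_lit 76) (nat_lit 116499094618) (nat_lit 41) (nat_lit 5) (nat_lit 46) (nat_lit 5) (nat_lit 42) (nat_lit 5) (nat_lit 301) (nat_lit 296) (nat_lit 183)))))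 (XT.nd (nat_lit 234) (nat_lit 608) (nat_lit 0) (XT.nd (nat_lit 78) (nat_lit 380) (nat_lit 0) (XT.lf (nat_lit 0) (nat_lit 180188235685) (nat_lit 228) (nat_lit 136866551271) (nat_lit 304) (nat_lit 669024578106) (nat_lit 38) (nat_lit 5) (nat_lit 41) (nat_lit 5) (nat_lit 42) (nat_lit 5) (nat_lit 302) (nat_lit 296) (nat_lit 182)) (XT.nd (nat_lit 78) (nat_lit 152) (nat_lit 0) (XT.lf (nat_lit 0) (nat_lit 113846365452) (nat_lit 228) (nat_lit 461968566192) (nat_lit 304) (nat_lit 495486709676) (nat_lit 35) (nat_lit 5) (nat_lit 38) (nat_lit 5) (nat_lit 39) (nat_lit 5) (nat_lit 303) (nat_lit 296) (nat_lit 181)) (XT.lf (nat_lit 0) (nat_lit 43823708955) (nat_lit 152) (nat_lit 865367033241) (nat_lit 228) (nat_lit 257252385338) (nat_lit 33) (nat_lit 5) (nat_lit 35) (nat_lit 5) (nat_lit 36) (nat_lit 5) (nat_lit 304) (nat_lit 296) (nat_lit 180)))) (XT.nd (nat_lit 156) (nat_lit 304) (nat_lit 0) (XT.nd (nat_lit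 78) (nat_lit 228) (nat_lit 0) (XT.lf (nat_lit 0) (nat_lit 57257029863) (nat_lit 228) (nat_lit 34253708356) (nat_lit 76) (nat_lit 1181002838902) (nat_lit 32) (nat_lit 5) (nat_lit 35) (nat_lit 5) (nat_lit 33) (nat_lit 5) (nat_lit 305) (nat_lit 296) (nat_lit 179)) (XT.lf (nat_lit 0) (nat_lit 454965744051) (nat_lit 304) (nat_lit 137675416192) (nat_lit 76) (nat_lit 797218475633) (nat_lit 29) (nat_lit 5) (nat_lit 33) (nat_lit 5) (nat_lit 30) (nat_lit 5) (nat_lit 306) (nat_lit 296) (nat_lit 178))) (XT.nd (nat_lit 78) (nat_lit 152) (nat_lit 0) (XT.lf (nat_lit 0) (nat_lit 954205702121) (nat_lit 228) (nat_lit 259956486867) (nat_lit 76) (nat_lit 307295419547) (nat_lit 27) (nat_lit 5) (nat_lit 30) (nat_lit 5) (nat_lit 28) (nat_lit 5) (nat_lit 307) (nat_lit 296) (nat_lit 177)) (XT.lf (nat_lit 0) (nat_lit 1252580768043) (nat_lit 152) (nat_lit 326378838691) (nat_lit 228) (nat_lit 89785434158) (nat_lit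 25) (nat_lit 5) (nat_lit 27) (nat_lit 5) (nat_lit 28) (nat_lit 5) (nat_lit 308) (nat_lit 296) (nat_lit 176))))))))
noncomputable def xc58 : XT := (XT.nd (nat_lit 40482) (nat_lit 0) (nat_lit 0) (XT.nd (nat_lit 1014) (nat_lit 152) (nat_lit 0) (XT.nd (nat_lit 468) (nat_lit 532) (nat_lit 0) (XT.nd (nat_lit 234) (nat_lit 304) (nat_lit 0) (XT.nd (nat_lit 78) (nat_lit 228) (nat_lit 0) (XT.lf (nat_lit 0) (nat_lit 491386226365) (nat_lit 152) (nat_lit 632221002803) (nat_lit 76) (nat_lit 709229757803) (nat_lit 23) (nat_lit 5) (nat_lit 25) (nat_lit 5) (nat_lit 24) (nat_lit 5) (nat_lit 309) (nat_lit 296) (nat_lit 175)) (XT.nd (nat_lit 78) (nat_lit 76) (nat_lit 0) (XT.lf (nat_lit 0) (nat_lit 1108150885170) (nat_lit 152) (nat_lit 94526359090) (nat_lit 228) (nat_lit 814818120951) (nat_lit 21) (nat_lit 5) (nat_lit 23) (nat_lit 5) (nat_lit 24) (nat_lit 5) (nat_lit 310) (nat_lit 296) (nat_lit 174)) (XT.lf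 (nat_lit 0) (nat_lit 939831552927) (nat_lit 76) (nat_lit 1148506315330) (nat_lit 152) (nat_lit 136100555673) (nat_lit 20) (nat_lit 5) (nat_lit 21) (nat_lit 5) (nat_lit 22) (nat_lit 4) (nat_lit 311) (nat_lit 296) (nat_lit 173)))) (XT.nd (nat_lit 78) (nat_lit 76) (nat_lit 0) (XT.lf (nat_lit 0) (nat_lit 658657975998) (nat_lit 228) (nat_lit 1781761065697) (nat_lit 76) (nat_lit 17046420538) (nat_lit 17) (nat_lit 5) (nat_lit 20) (nat_lit 5) (nat_lit 18) (nat_lit 4) (nat_lit 312) (nat_lit 296) (nat_lit 172)) (XT.nd (nat_lit 78) (nat_lit 0) (nat_lit 0) (XT.lf (nat_lit 0) (nat_lit 262005776941) (nat_lit 76) (nat_lit 1379232417744) (nat_lit 152) (nat_lit 1077792228944) (nat_lit 16) (nat_lit 5) (nat_lit 17) (nat_lit 5) (nat_lit 18) (nat_lit 4) (nat_lit 313) (nat_lit 296) (nat_lit 171)) (XT.lf (nat_lit 0) (nat_lit 2720235665710) (nat_lit 76) (nat_lit 102843826765) (nat_lit 152) (nat_lit 192600713066)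 (nat_lit 16) (nat_lit 5) (nat_lit 17) (nat_lit 5) (nat_lit 18) (nat_lit 4) (nat_lit 314) (nat_lit 296) (nat_lit 170))))) (XT.nd (nat_lit 234) (nat_lit 228) (nat_lit 0) (XT.nd (nat_lit 78) (nat_lit 152) (nat_lit 0) (XT.lf (nat_lit 0) (nat_lit 873802344606) (nat_lit 152) (nat_lit 1100796389781) (nat_lit 76) (nat_lit 1373463016509) (nat_lit 14) (nat_lit 5) (nat_lit 16) (nat_lit 5) (nat_lit 15) (nat_lit 4) (nat_lit 315) (nat_lit 296) (nat_lit 169)) (XT.nd (nat_lit 78) (nat_lit 76) (nat_lit 0) (XT.lf (nat_lit 0) (nat_lit 1527686958494) (nat_lit 76) (nat_lit 609809307131) (nat_lit 152) (nat_lit 1588505291867) (nat_lit 13) (nat_lit 5) (nat_lit 14) (nat_lit 5) (nat_lit 15) (nat_lit 4) (nat_lit 316) (nat_lit 296) (nat_lit 168)) (XT.lf (nat_lit 0) (nat_lit 458034778456) (nat_lit 76) (nat_lit 3199686940048) (nat_lit 76) (nat_lit 497552421083) (nat_lit 12) (nat_lit 4) (nat_lit 13) (nat_lit 5) (nat_lit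 13) (nat_lit 4) (nat_lit 317) (nat_lit 296) (nat_lit 167)))) (XT.nd (nat_lit 156) (nat_lit 76) (nat_lit 0) (XT.nd (nat_lit 78) (nat_lit 76) (nat_lit 0) (XT.lf (nat_lit 0) (nat_lit 801702757558) (nat_lit 152) (nat_lit 1034592788455) (nat_lit 76) (nat_lit 2804583129815) (nat_lit 11) (nat_lit 5) (nat_lit 13) (nat_lit 5) (nat_lit 12) (nat_lit 4) (nat_lit 318) (nat_lit 296) (nat_lit 166)) (XT.lf (nat_lit 0) (nat_lit 2119727019202) (nat_lit 76) (nat_lit 198475648063) (nat_lit 152) (nat_lit 2875941981292) (nat_lit 10) (nat_lit 5) (nat_lit 11) (nat_lit 5) (nat_lit 12) (nat_lit 4) (nat_lit 319) (nat_lit 296) (nat_lit 165))) (XT.nd (nat_lit 78) (nat_lit 76) (nat_lit 0) (XT.lf (nat_lit 0) (nat_lit 4133605683602) (nat_lit 152) (nat_lit 59451319504) (nat_lit 0) (nat_lit 1631629264479) (nat_lit 10) (nat_lit 5) (nat_lit 12) (nat_lit 4) (nat_lit 10) (nat_lit 4) (nat_lit 320) (nat_lit 296) (nat_lit 164))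 (XT.lf (nat_lit 0) (nat_lit 3581428121121) (nat_lit 76) (nat_lit 2731513804398) (nat_lit 76) (nat_lit 229537382101) (nat_lit 9) (nat_lit 4) (nat_lit 10) (nat_lit 5) (nat_lit 10) (nat_lit 4) (nat_lit 321) (nat_lit 296) (nat_lit 163)))))) (XT.nd (nat_lit 38922) (nat_lit 0) (nat_lit 1900) (XT.nd (nat_lit 38688) (nat_lit 0) (nat_lit 3192) (XT.nd (nat_lit 78) (nat_lit 0) (nat_lit 0) (XT.lf (nat_lit 0) (nat_lit 388735710694) (nat_lit 76) (nat_lit 1001029739185) (nat_lit 152) (nat_lit 5974493677058) (nat_lit 7) (nat_lit 5) (nat_lit 8) (nat_lit 5) (nat_lit 9) (nat_lit 4) (nat_lit 322) (nat_lit 296) (nat_lit 162)) (XT.nd (nat_lit 78) (nat_lit 0) (nat_lit 0) (XT.lf (nat_lit 0) (nat_lit 3350992059448) (nat_lit 152) (nat_lit 3914480117518) (nat_lit 0) (nat_lit 1034347219211) (nat_lit 7) (nat_lit 5) (nat_lit 9) (nat_lit 4) (nat_lit 7) (nat_lit 4) (nat_lit 323) (nat_lit 296) (nat_lit 161)) (XT.lf (nat_lit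 0) (nat_lit 5634088664335) (nat_lit 152) (nat_lit 421966338996) (nat_lit 0) (nat_lit 3317443822165) (nat_lit 7) (nat_lit 5) (nat_lit 9) (nat_lit 4) (nat_lit 7) (nat_lit 4) (nat_lit 324) (nat_lit 296) (nat_lit 160)))) (XT.nd (nat_lit 78) (nat_lit 0) (nat_lit 0) (XT.lf (nat_lit 0) (nat_lit 248083309973) (nat_lit 532) (nat_lit 55619995572) (nat_lit 532) (nat_lit 55619995572) (nat_lit 49) (nat_lit 3) (nat_lit 56) (nat_lit 3) (nat_lit 56) (nat_lit 5) (nat_lit 297) (nat_lit 297) (nat_lit 186)) (XT.nd (nat_lit 78) (nat_lit 0) (nat_lit 76) (XT.lf (nat_lit 76) (nat_lit 541329700570) (nat_lit 0) (nat_lit 5068617982) (nat_lit 532) (nat_lit 225105242161) (nat_lit 50) (nat_lit 5) (nat_lit 49) (nat_lit 3) (nat_lit 56) (nat_lit 5) (nat_lit 298) (nat_lit 297) (nat_lit 185)) (XT.lf (nat_lit 76) (nat_lit 473559151863) (nat_lit 0) (nat_lit 161854723910) (nat_lit 532) (nat_lit 194375258974) (nat_lit 51) (nat_lit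 5) (nat_lit 50) (nat_lit 5) (nat_lit 57) (nat_lit 5) (nat_lit 299) (nat_lit 297) (nat_lit 184))))) (XT.nd (nat_lit 234) (nat_lit 684) (nat_lit 0) (XT.nd (nat_lit 78) (nat_lit 760) (nat_lit 0) (XT.lf (nat_lit 76) (nat_lit 407480274426) (nat_lit 0) (nat_lit 360215449111) (nat_lit 532) (nat_lit 126728704874) (nat_lit 52) (nat_lit 5) (nat_lit 51) (nat_lit 5) (nat_lit 58) (nat_lit 5) (nat_lit 300) (nat_lit 297) (nat_lit 183)) (XT.nd (nat_lit 78) (nat_lit 380) (nat_lit 0) (XT.lf (nat_lit 0) (nat_lit 343355095941) (nat_lit 456) (nat_lit 608308524961) (nat_lit 532) (nat_lit 14543893498) (nat_lit 46) (nat_lit 5) (nat_lit 52) (nat_lit 5) (nat_lit 53) (nat_lit 5) (nat_lit 301) (nat_lit 297) (nat_lit 182)) (XT.lf (nat_lit 0) (nat_lit 143400896715) (nat_lit 380) (nat_lit 768390300132) (nat_lit 76) (nat_lit 133973953249) (nat_lit 41) (nat_lit 5) (nat_lit 46) (nat_lit 5) (nat_lit 42) (nat_lit 5) (nat_lit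 302) (nat_lit 297) (nat_lit 181)))) (XT.nd (nat_lit 156) (nat_lit 228) (nat_lit 0) (XT.nd (nat_lit 78) (nat_lit 228) (nat_lit 0) (XT.lf (nat_lit 0) (nat_lit 207216755627) (nat_lit 228) (nat_lit 157396510530) (nat_lit 304) (nat_lit 769377982240) (nat_lit 38) (nat_lit 5) (nat_lit 41) (nat_lit 5) (nat_lit 42) (nat_lit 5) (nat_lit 303) (nat_lit 297) (nat_lit 180)) (XT.lf (nat_lit 0) (nat_lit 130923599865) (nat_lit 228) (nat_lit 531263805835) (nat_lit 304) (nat_lit 569809462613) (nat_lit 35) (nat_lit 5) (nat_lit 38) (nat_lit 5) (nat_lit 39) (nat_lit 5) (nat_lit 304) (nat_lit 297) (nat_lit 179))) (XT.nd (nat_lit 78) (nat_lit 76) (nat_lit 0) (XT.lf (nat_lit 0) (nat_lit 50397537810) (nat_lit 152) (nat_lit 995172026964) (nat_lit 228) (nat_lit 295840014591) (nat_lit 33) (nat_lit 5) (nat_lit 35) (nat_lit 5) (nat_lit 36) (nat_lit 5) (nat_lit 305) (nat_lit 297) (nat_lit 178)) (XT.lf (nat_lit 0) (nat_lit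 65845773139) (nat_lit 228) (nat_lit 39391517378) (nat_lit 76) (nat_lit 1358153307746) (nat_lit 32) (nat_lit 5) (nat_lit 35) (nat_lit 5) (nat_lit 33) (nat_lit 5) (nat_lit 306) (nat_lit 297) (nat_lit 177))))))) (XT.nd (nat_lit 1014) (nat_lit 304) (nat_lit 0) (XT.nd (nat_lit 468) (nat_lit 684) (nat_lit 0) (XT.nd (nat_lit 234) (nat_lit 380) (nat_lit 0) (XT.nd (nat_lit 78) (nat_lit 304) (nat_lit 0) (XT.lf (nat_lit 0) (nat_lit 523210776636) (nat_lit 304) (nat_lit 158326489830) (nat_lit 76) (nat_lit 916801300834) (nat_lit 29) (nat_lit 5) (nat_lit 33) (nat_lit 5) (nat_lit 30) (nat_lit 5) (nat_lit 307) (nat_lit 297) (nat_lit 176)) (XT.nd (nat_lit 78) (nat_lit 152) (nat_lit 0) (XT.lf (nat_lit 0) (nat_lit 1097336712927) (nat_lit 228) (nat_lit 298949730314) (nat_lit 76) (nat_lit 353389793891) (nat_lit 27) (nat_lit 5) (nat_lit 30) (nat_lit 5) (nat_lit 28) (nat_lit 5) (nat_lit 308) (nat_lit 297) (nat_lit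 175)) (XT.lf (nat_lit 0) (nat_lit 1440468093399) (nat_lit 152) (nat_lit 375335594605) (nat_lit 228) (nat_lit 103253097589) (nat_lit 25) (nat_lit 5) (nat_lit 27) (nat_lit 5) (nat_lit 28) (nat_lit 5) (nat_lit 309) (nat_lit 297) (nat_lit 174)))) (XT.nd (nat_lit 78) (nat_lit 228) (nat_lit 0) (XT.lf (nat_lit 0) (nat_lit 565094292095) (nat_lit 152) (nat_lit 727053944825) (nat_lit 76) (nat_lit 815614287384) (nat_lit 23) (nat_lit 5) (nat_lit 25) (nat_lit 5) (nat_lit 24) (nat_lit 5) (nat_lit 310) (nat_lit 297) (nat_lit 173)) (XT.nd (nat_lit 78) (nat_lit 76) (nat_lit 0) (XT.lf (nat_lit 0) (nat_lit 1274373708705) (nat_lit 152) (nat_lit 108705241370) (nat_lit 228) (nat_lit 937040710236) (nat_lit 21) (nat_lit 5) (nat_lit 23) (nat_lit 5) (nat_lit 24) (nat_lit 5) (nat_lit 311) (nat_lit 297) (nat_lit 172)) (XT.lf (nat_lit 0) (nat_lit 1080806467765) (nat_lit 76) (nat_lit 1320782190232) (nat_lit 152) (nat_lit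 156515520633) (nat_lit 20) (nat_lit 5) (nat_lit 21) (nat_lit 5) (nat_lit 22) (nat_lit 4) (nat_lit 312) (nat_lit 297) (nat_lit 171))))) (XT.nd (nat_lit 234) (nat_lit 380) (nat_lit 0) (XT.nd (nat_lit 78) (nat_lit 76) (nat_lit 0) (XT.lf (nat_lit 0) (nat_lit 757456776021) (nat_lit 228) (nat_lit 2049025046946) (nat_lit 76) (nat_lit 19603450208) (nat_lit 17) (nat_lit 5) (nat_lit 20) (nat_lit 5) (nat_lit 18) (nat_lit 4) (nat_lit 313) (nat_lit 297) (nat_lit 170)) (XT.nd (nat_lit 78) (nat_lit 0) (nat_lit 0) (XT.lf (nat_lit 0) (nat_lit 301306806970) (nat_lit 76) (nat_lit 1586117210956) (nat_lit 152) (nat_lit 1239460961634) (nat_lit 16) (nat_lit 5) (nat_lit 17) (nat_lit 5) (nat_lit 18) (nat_lit 4) (nat_lit 314) (nat_lit 297) (nat_lit 169)) (XT.lf (nat_lit 0) (nat_lit 3128271157729) (nat_lit 76) (nat_lit 118270340389) (nat_lit 152) (nat_lit 221490731633) (nat_lit 16) (nat_lit 5) (nat_lit 17) (nat_lit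 5) (nat_lit 18) (nat_lit 4) (nat_lit 315) (nat_lit 297) (nat_lit 168)))) (XT.nd (nat_lit 156) (nat_lit 152) (nat_lit 0) (XT.nd (nat_lit 78) (nat_lit 76) (nat_lit 0) (XT.lf (nat_lit 0) (nat_lit 1004872773938) (nat_lit 152) (nat_lit 1265915709236) (nat_lit 76) (nat_lit 1579482524081) (nat_lit 14) (nat_lit 5) (nat_lit 16) (nat_lit 5) (nat_lit 15) (nat_lit 4) (nat_lit 316) (nat_lit 297) (nat_lit 167)) (XT.lf (nat_lit 0) (nat_lit 1756840129514) (nat_lit 76) (nat_lit 701280646530) (nat_lit 152) (nat_lit 1826781009371) (nat_lit 13) (nat_lit 5) (nat_lit 14) (nat_lit 5) (nat_lit 15) (nat_lit 4) (nat_lit 317) (nat_lit 297) (nat_lit 166))) (XT.nd (nat_lit 78) (nat_lit 76) (nat_lit 0) (XT.lf (nat_lit 0) (nat_lit 526740115671) (nat_lit 76) (nat_lit 3679639926061) (nat_lit 76) (nat_lit 572185213510) (nat_lit 12) (nat_lit 4) (nat_lit 13) (nat_lit 5) (nat_lit 13) (nat_lit 4) (nat_lit 318) (nat_lit 297)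 (nat_lit 165)) (XT.lf (nat_lit 0) (nat_lit 921958229624) (nat_lit 152) (nat_lit 1189781598872) (nat_lit 76) (nat_lit 3225270643993) (nat_lit 11) (nat_lit 5) (nat_lit 13) (nat_lit 5) (nat_lit 12) (nat_lit 4) (nat_lit 319) (nat_lit 297) (nat_lit 164)))))) (XT.nd (nat_lit 39078) (nat_lit 0) (nat_lit 1976) (XT.nd (nat_lit 234) (nat_lit 152) (nat_lit 0) (XT.nd (nat_lit 78) (nat_lit 76) (nat_lit 0) (XT.lf (nat_lit 0) (nat_lit 2437686170805) (nat_lit 76) (nat_lit 228246949735) (nat_lit 152) (nat_lit 3307333221013) (nat_lit 10) (nat_lit 5) (nat_lit 11) (nat_lit 5) (nat_lit 12) (nat_lit 4) (nat_lit 320) (nat_lit 297) (nat_lit 163)) (XT.nd (nat_lit 78) (nat_lit 76) (nat_lit 0) (XT.lf (nat_lit 0) (nat_lit 4753646583342) (nat_lit 152) (nat_lit 68368928808) (nat_lit 0) (nat_lit 1876373691768) (nat_lit 10) (nat_lit 5) (nat_lit 12) (nat_lit 4) (nat_lit 10) (nat_lit 4) (nat_lit 321) (nat_lit 297) (nat_lit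 162)) (XT.lf (nat_lit 0) (nat_lit 4118642420410) (nat_lit 76) (nat_lit 3141240836932) (nat_lit 76) (nat_lit 263967942957) (nat_lit 9) (nat_lit 4) (nat_lit 10) (nat_lit 5) (nat_lit 10) (nat_lit 4) (nat_lit 322) (nat_lit 297) (nat_lit 161)))) (XT.nd (nat_lit 38688) (nat_lit 0) (nat_lit 3192) (XT.lf (nat_lit 0) (nat_lit 447046143701) (nat_lit 76) (nat_lit 1151184163876) (nat_lit 152) (nat_lit 6870667685163) (nat_lit 7) (nat_lit 5) (nat_lit 8) (nat_lit 5) (nat_lit 9) (nat_lit 4) (nat_lit 323) (nat_lit 297) (nat_lit 160)) (XT.nd (nat_lit 78) (nat_lit 0) (nat_lit 0) (XT.lf (nat_lit 0) (nat_lit 285296007574) (nat_lit 532) (nat_lit 63962886061) (nat_lit 532) (nat_lit 63962886061) (nat_lit 49) (nat_lit 3) (nat_lit 56) (nat_lit 3) (nat_lit 56) (nat_lit 5) (nat_lit 298) (nat_lit 298) (nat_lit 184)) (XT.lf (nat_lit 76) (nat_lit 622529354922) (nat_lit 0) (nat_lit 5829065951) (nat_lit 532) (nat_lit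 258870644711) (nat_lit 50) (nat_lit 5) (nat_lit 49) (nat_lit 3) (nat_lit 56) (nat_lit 5) (nat_lit 299) (nat_lit 298) (nat_lit 183))))) (XT.nd (nat_lit 234) (nat_lit 988) (nat_lit 0) (XT.nd (nat_lit 78) (nat_lit 304) (nat_lit 0) (XT.lf (nat_lit 76) (nat_lit 544593237221) (nat_lit 0) (nat_lit 186133030079) (nat_lit 532) (nat_lit 223531212089) (nat_lit 51) (nat_lit 5) (nat_lit 50) (nat_lit 5) (nat_lit 57) (nat_lit 5) (nat_lit 300) (nat_lit 298) (nat_lit 182)) (XT.nd (nat_lit 78) (nat_lit 380) (nat_lit 0) (XT.lf (nat_lit 76) (nat_lit 468602535729) (nat_lit 0) (nat_lit 414247819297) (nat_lit 532) (nat_lit 145737715151) (nat_lit 52) (nat_lit 5) (nat_lit 51) (nat_lit 5) (nat_lit 58) (nat_lit 5) (nat_lit 301) (nat_lit 298) (nat_lit 181)) (XT.lf (nat_lit 0) (nat_lit 394858583592) (nat_lit 456) (nat_lit 699554822066) (nat_lit 532) (nat_lit 16725216001) (nat_lit 46) (nat_lit 5) (nat_lit 52) (nat_lit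 5) (nat_lit 53) (nat_lit 5) (nat_lit 302) (nat_lit 298) (nat_lit 180)))) (XT.nd (nat_lit 156) (nat_lit 380) (nat_lit 0) (XT.nd (nat_lit 78) (nat_lit 228) (nat_lit 0) (XT.lf (nat_lit 0) (nat_lit 164911252365) (nat_lit 380) (nat_lit 883648610062) (nat_lit 76) (nat_lit 154070042031) (nat_lit 41) (nat_lit 5) (nat_lit 46) (nat_lit 5) (nat_lit 42) (nat_lit 5) (nat_lit 303) (nat_lit 298) (nat_lit 179)) (XT.lf (nat_lit 0) (nat_lit 238299484162) (nat_lit 228) (nat_lit 181005969393) (nat_lit 304) (nat_lit 884784465904) (nat_lit 38) (nat_lit 5) (nat_lit 41) (nat_lit 5) (nat_lit 42) (nat_lit 5) (nat_lit 304) (nat_lit 298) (nat_lit 178))) (XT.nd (nat_lit 78) (nat_lit 152) (nat_lit 0) (XT.lf (nat_lit 0) (nat_lit 150562351258) (nat_lit 228) (nat_lit 610953342467) (nat_lit 304) (nat_lit 655280690311) (nat_lit 35) (nat_lit 5) (nat_lit 38) (nat_lit 5) (nat_lit 39) (nat_lit 5) (nat_lit 305) (nat_lit 298)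 (nat_lit 177)) (XT.lf (nat_lit 0) (nat_lit 57957374540) (nat_lit 152) (nat_lit 1144447784684) (nat_lit 228) (nat_lit 340215843964) (nat_lit 33) (nat_lit 5) (nat_lit 35) (nat_lit 5) (nat_lit 36) (nat_lit 5) (nat_lit 306) (nat_lit 298) (nat_lit 176))))))))
noncomputable def xc59 : XT := (XT.nd (nat_lit 40716) (nat_lit 0) (nat_lit 76) (XT.nd (nat_lit 1014) (nat_lit 228) (nat_lit 0) (XT.nd (nat_lit 468) (nat_lit 684) (nat_lit 0) (XT.nd (nat_lit 234) (nat_lit 456) (nat_lit 0) (XT.nd (nat_lit 78) (nat_lit 380) (nat_lit 0) (XT.lf (nat_lit 0) (nat_lit 75722781867) (nat_lit 228) (nat_lit 45300058042) (nat_lit 76) (nat_lit 1561876336429) (nat_lit 32) (nat_lit 5) (nat_lit 35) (nat_lit 5) (nat_lit 33) (nat_lit 5) (nat_lit 307) (nat_lit 298) (nat_lit 175)) (XT.nd (nat_lit 78) (nat_lit 152) (nat_lit 0) (XT.lf (nat_lit 0) (nat_lit 601692522414) (nat_lit 304) (nat_lit 182075282744) (nat_lit 76) (nat_lit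 1054321536681) (nat_lit 29) (nat_lit 5) (nat_lit 33) (nat_lit 5) (nat_lit 30) (nat_lit 5) (nat_lit 308) (nat_lit 298) (nat_lit 174)) (XT.lf (nat_lit 0) (nat_lit 1261937337436) (nat_lit 228) (nat_lit 343792016264) (nat_lit 76) (nat_lit 406398309411) (nat_lit 27) (nat_lit 5) (nat_lit 30) (nat_lit 5) (nat_lit 28) (nat_lit 5) (nat_lit 309) (nat_lit 298) (nat_lit 173)))) (XT.nd (nat_lit 78) (nat_lit 304) (nat_lit 0) (XT.lf (nat_lit 0) (nat_lit 1656538466312) (nat_lit 152) (nat_lit 431635880949) (nat_lit 228) (nat_lit 118740947525) (nat_lit 25) (nat_lit 5) (nat_lit 27) (nat_lit 5) (nat_lit 28) (nat_lit 5) (nat_lit 310) (nat_lit 298) (nat_lit 172)) (XT.nd (nat_lit 78) (nat_lit 152) (nat_lit 0) (XT.lf (nat_lit 0) (nat_lit 649858535550) (nat_lit 152) (nat_lit 836111878970) (nat_lit 76) (nat_lit 937956480330) (nat_lit 23) (nat_lit 5) (nat_lit 25) (nat_lit 5) (nat_lit 24) (nat_lit 5) (nat_lit 311)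 (nat_lit 298) (nat_lit 171)) (XT.lf (nat_lit 0) (nat_lit 1465529909251) (nat_lit 152) (nat_lit 125010973448) (nat_lit 228) (nat_lit 1077596719337) (nat_lit 21) (nat_lit 5) (nat_lit 23) (nat_lit 5) (nat_lit 24) (nat_lit 5) (nat_lit 312) (nat_lit 298) (nat_lit 170))))) (XT.nd (nat_lit 234) (nat_lit 304) (nat_lit 0) (XT.nd (nat_lit 78) (nat_lit 304) (nat_lit 0) (XT.lf (nat_lit 0) (nat_lit 1242927575472) (nat_lit 76) (nat_lit 1518899464025) (nat_lit 152) (nat_lit 179992759207) (nat_lit 20) (nat_lit 5) (nat_lit 21) (nat_lit 5) (nat_lit 22) (nat_lit 4) (nat_lit 313) (nat_lit 298) (nat_lit 169)) (XT.nd (nat_lit 78) (nat_lit 76) (nat_lit 0) (XT.lf (nat_lit 0) (nat_lit 871075370777) (nat_lit 228) (nat_lit 2356378668936) (nat_lit 76) (nat_lit 22544018091) (nat_lit 17) (nat_lit 5) (nat_lit 20) (nat_lit 5) (nat_lit 18) (nat_lit 4) (nat_lit 314) (nat_lit 298) (nat_lit 168)) (XT.lf (nat_lit 0) (nat_lit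 346502951636) (nat_lit 76) (nat_lit 1824034740085) (nat_lit 152) (nat_lit 1425380029016) (nat_lit 16) (nat_lit 5) (nat_lit 17) (nat_lit 5) (nat_lit 18) (nat_lit 4) (nat_lit 315) (nat_lit 298) (nat_lit 167)))) (XT.nd (nat_lit 156) (nat_lit 152) (nat_lit 0) (XT.nd (nat_lit 78) (nat_lit 152) (nat_lit 0) (XT.lf (nat_lit 0) (nat_lit 3597511938885) (nat_lit 76) (nat_lit 136010845784) (nat_lit 152) (nat_lit 254714274540) (nat_lit 16) (nat_lit 5) (nat_lit 17) (nat_lit 5) (nat_lit 18) (nat_lit 4) (nat_lit 316) (nat_lit 298) (nat_lit 166)) (XT.lf (nat_lit 0) (nat_lit 1155603748738) (nat_lit 152) (nat_lit 1455802960508) (nat_lit 76) (nat_lit 1816404944354) (nat_lit 14) (nat_lit 5) (nat_lit 16) (nat_lit 5) (nat_lit 15) (nat_lit 4) (nat_lit 317) (nat_lit 298) (nat_lit 165))) (XT.nd (nat_lit 78) (nat_lit 76) (nat_lit 0) (XT.lf (nat_lit 0) (nat_lit 2020366245157) (nat_lit 76) (nat_lit 806472700658) (nat_lit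 152) (nat_lit 2100798103101) (nat_lit 13) (nat_lit 5) (nat_lit 14) (nat_lit 5) (nat_lit 15) (nat_lit 4) (nat_lit 318) (nat_lit 298) (nat_lit 164)) (XT.lf (nat_lit 0) (nat_lit 605751224096) (nat_lit 76) (nat_lit 4231585873386) (nat_lit 76) (nat_lit 658012942051) (nat_lit 12) (nat_lit 4) (nat_lit 13) (nat_lit 5) (nat_lit 13) (nat_lit 4) (nat_lit 319) (nat_lit 298) (nat_lit 163)))))) (XT.nd (nat_lit 39156) (nat_lit 0) (nat_lit 1824) (XT.nd (nat_lit 234) (nat_lit 76) (nat_lit 0) (XT.nd (nat_lit 78) (nat_lit 76) (nat_lit 0) (XT.lf (nat_lit 0) (nat_lit 1060252008251) (nat_lit 152) (nat_lit 1368248757152) (nat_lit 76) (nat_lit 3709061274396) (nat_lit 11) (nat_lit 5) (nat_lit 13) (nat_lit 5) (nat_lit 12) (nat_lit 4) (nat_lit 320) (nat_lit 298) (nat_lit 162)) (XT.nd (nat_lit 78) (nat_lit 0) (nat_lit 0) (XT.lf (nat_lit 0) (nat_lit 2803339171073) (nat_lit 76) (nat_lit 262483957763) (nat_lit 152)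 (nat_lit 3803433160707) (nat_lit 10) (nat_lit 5) (nat_lit 11) (nat_lit 5) (nat_lit 12) (nat_lit 4) (nat_lit 321) (nat_lit 298) (nat_lit 161)) (XT.lf (nat_lit 0) (nat_lit 5466693606534) (nat_lit 152) (nat_lit 78624201119) (nat_lit 0) (nat_lit 2157829773977) (nat_lit 10) (nat_lit 5) (nat_lit 12) (nat_lit 4) (nat_lit 10) (nat_lit 4) (nat_lit 322) (nat_lit 298) (nat_lit 160)))) (XT.nd (nat_lit 38766) (nat_lit 0) (nat_lit 3040) (XT.lf (nat_lit 0) (nat_lit 4736438844810) (nat_lit 76) (nat_lit 3612426933643) (nat_lit 76) (nat_lit 303563099271) (nat_lit 9) (nat_lit 4) (nat_lit 10) (nat_lit 5) (nat_lit 10) (nat_lit 4) (nat_lit 323) (nat_lit 298) (nat_lit 159)) (XT.nd (nat_lit 78) (nat_lit 0) (nat_lit 0) (XT.lf (nat_lit 0) (nat_lit 328090560774) (nat_lit 532) (nat_lit 73557236666) (nat_lit 532) (nat_lit 73557236666) (nat_lit 49) (nat_lit 3) (nat_lit 56) (nat_lit 3) (nat_lit 56) (nat_lit 5) (nat_lit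 299) (nat_lit 299) (nat_lit 182)) (XT.lf (nat_lit 76) (nat_lit 715908908835) (nat_lit 0) (nat_lit 6703543252) (nat_lit 532) (nat_lit 297700951230) (nat_lit 50) (nat_lit 5) (nat_lit 49) (nat_lit 3) (nat_lit 56) (nat_lit 5) (nat_lit 300) (nat_lit 299) (nat_lit 181))))) (XT.nd (nat_lit 234) (nat_lit 988) (nat_lit 0) (XT.nd (nat_lit 78) (nat_lit 304) (nat_lit 0) (XT.lf (nat_lit 76) (nat_lit 626282383544) (nat_lit 0) (nat_lit 214053058377) (nat_lit 532) (nat_lit 257060640042) (nat_lit 51) (nat_lit 5) (nat_lit 50) (nat_lit 5) (nat_lit 57) (nat_lit 5) (nat_lit 301) (nat_lit 299) (nat_lit 180)) (XT.nd (nat_lit 78) (nat_lit 380) (nat_lit 0) (XT.lf (nat_lit 76) (nat_lit 538893082545) (nat_lit 0) (nat_lit 476385032131) (nat_lit 532) (nat_lit 167598149019) (nat_lit 52) (nat_lit 5) (nat_lit 51) (nat_lit 5) (nat_lit 58) (nat_lit 5) (nat_lit 302) (nat_lit 299) (nat_lit 179)) (XT.lf (nat_lit 0) (nat_lit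 454087539947) (nat_lit 456) (nat_lit 804488059259) (nat_lit 532) (nat_lit 19233800653) (nat_lit 46) (nat_lit 5) (nat_lit 52) (nat_lit 5) (nat_lit 53) (nat_lit 5) (nat_lit 303) (nat_lit 299) (nat_lit 178)))) (XT.nd (nat_lit 156) (nat_lit 380) (nat_lit 0) (XT.nd (nat_lit 78) (nat_lit 228) (nat_lit 0) (XT.lf (nat_lit 0) (nat_lit 189648107436) (nat_lit 380) (nat_lit 1016195723809) (nat_lit 76) (nat_lit 177180545155) (nat_lit 41) (nat_lit 5) (nat_lit 46) (nat_lit 5) (nat_lit 42) (nat_lit 5) (nat_lit 304) (nat_lit 299) (nat_lit 177)) (XT.lf (nat_lit 0) (nat_lit 274044569502) (nat_lit 228) (nat_lit 208156851405) (nat_lit 304) (nat_lit 1017501974222) (nat_lit 38) (nat_lit 5) (nat_lit 41) (nat_lit 5) (nat_lit 42) (nat_lit 5) (nat_lit 305) (nat_lit 299) (nat_lit 176))) (XT.nd (nat_lit 78) (nat_lit 152) (nat_lit 0) (XT.lf (nat_lit 0) (nat_lit 173146863806) (nat_lit 228) (nat_lit 702596317945) (nat_lit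 304) (nat_lit 753572648910) (nat_lit 35) (nat_lit 5) (nat_lit 38) (nat_lit 5) (nat_lit 39) (nat_lit 5) (nat_lit 306) (nat_lit 299) (nat_lit 175)) (XT.lf (nat_lit 0) (nat_lit 66651136530) (nat_lit 152) (nat_lit 1316114917358) (nat_lit 228) (nat_lit 391248089885) (nat_lit 33) (nat_lit 5) (nat_lit 35) (nat_lit 5) (nat_lit 36) (nat_lit 5) (nat_lit 307) (nat_lit 299) (nat_lit 174))))))) (XT.nd (nat_lit 1014) (nat_lit 152) (nat_lit 0) (XT.nd (nat_lit 468) (nat_lit 684) (nat_lit 0) (XT.nd (nat_lit 234) (nat_lit 456) (nat_lit 0) (XT.nd (nat_lit 78) (nat_lit 380) (nat_lit 0) (XT.lf (nat_lit 0) (nat_lit 87081307092) (nat_lit 228) (nat_lit 52094925393) (nat_lit 76) (nat_lit 1796157811483) (nat_lit 32) (nat_lit 5) (nat_lit 35) (nat_lit 5) (nat_lit 33) (nat_lit 5) (nat_lit 308) (nat_lit 299) (nat_lit 173)) (XT.nd (nat_lit 78) (nat_lit 152) (nat_lit 0) (XT.lf (nat_lit 0) (nat_lit 691946498533) (nat_lit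 304) (nat_lit 209386438626) (nat_lit 76) (nat_lit 1212469797976) (nat_lit 29) (nat_lit 5) (nat_lit 33) (nat_lit 5) (nat_lit 30) (nat_lit 5) (nat_lit 309) (nat_lit 299) (nat_lit 172)) (XT.lf (nat_lit 0) (nat_lit 1451228026952) (nat_lit 228) (nat_lit 395360687439) (nat_lit 76) (nat_lit 467358090936) (nat_lit 27) (nat_lit 5) (nat_lit 30) (nat_lit 5) (nat_lit 28) (nat_lit 5) (nat_lit 310) (nat_lit 299) (nat_lit 171)))) (XT.nd (nat_lit 78) (nat_lit 304) (nat_lit 0) (XT.lf (nat_lit 0) (nat_lit 1905019356412) (nat_lit 152) (nat_lit 496381223132) (nat_lit 228) (nat_lit 136552002923) (nat_lit 25) (nat_lit 5) (nat_lit 27) (nat_lit 5) (nat_lit 28) (nat_lit 5) (nat_lit 311) (nat_lit 299) (nat_lit 170)) (XT.nd (nat_lit 78) (nat_lit 152) (nat_lit 0) (XT.lf (nat_lit 0) (nat_lit 747337391225) (nat_lit 152) (nat_lit 961528541663) (nat_lit 76) (nat_lit 1078649990064) (nat_lit 23) (nat_lit 5) (nat_lit 25)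 (nat_lit 5) (nat_lit 24) (nat_lit 5) (nat_lit 312) (nat_lit 299) (nat_lit 169)) (XT.lf (nat_lit 0) (nat_lit 1685359504706) (nat_lit 152) (nat_lit 143762578537) (nat_lit 228) (nat_lit 1239236153563) (nat_lit 21) (nat_lit 5) (nat_lit 23) (nat_lit 5) (nat_lit 24) (nat_lit 5) (nat_lit 313) (nat_lit 299) (nat_lit 168))))) (XT.nd (nat_lit 234) (nat_lit 304) (nat_lit 0) (XT.nd (nat_lit 78) (nat_lit 304) (nat_lit 0) (XT.lf (nat_lit 0) (nat_lit 1429366815794) (nat_lit 76) (nat_lit 1746734342235) (nat_lit 152) (nat_lit 206991605398) (nat_lit 20) (nat_lit 5) (nat_lit 21) (nat_lit 5) (nat_lit 22) (nat_lit 4) (nat_lit 314) (nat_lit 299) (nat_lit 167)) (XT.nd (nat_lit 78) (nat_lit 76) (nat_lit 0) (XT.lf (nat_lit 0) (nat_lit 1001736735640) (nat_lit 228) (nat_lit 2709835367158) (nat_lit 76) (nat_lit 25925658878) (nat_lit 17) (nat_lit 5) (nat_lit 20) (nat_lit 5) (nat_lit 18) (nat_lit 4) (nat_lit 315) (nat_lit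 299) (nat_lit 166)) (XT.lf (nat_lit 0) (nat_lit 398478487857) (nat_lit 76) (nat_lit 2097639911390) (nat_lit 152) (nat_lit 1639186975249) (nat_lit 16) (nat_lit 5) (nat_lit 17) (nat_lit 5) (nat_lit 18) (nat_lit 4) (nat_lit 316) (nat_lit 299) (nat_lit 165)))) (XT.nd (nat_lit 156) (nat_lit 152) (nat_lit 0) (XT.nd (nat_lit 78) (nat_lit 152) (nat_lit 0) (XT.lf (nat_lit 0) (nat_lit 4137138811000) (nat_lit 76) (nat_lit 156412438122) (nat_lit 152) (nat_lit 292921365182) (nat_lit 16) (nat_lit 5) (nat_lit 17) (nat_lit 5) (nat_lit 18) (nat_lit 4) (nat_lit 317) (nat_lit 299) (nat_lit 164)) (XT.lf (nat_lit 0) (nat_lit 1328944355440) (nat_lit 152) (nat_lit 1674173325103) (nat_lit 76) (nat_lit 2088865717508) (nat_lit 14) (nat_lit 5) (nat_lit 16) (nat_lit 5) (nat_lit 15) (nat_lit 4) (nat_lit 318) (nat_lit 299) (nat_lit 163))) (XT.nd (nat_lit 78) (nat_lit 76) (nat_lit 0) (XT.lf (nat_lit 0) (nat_lit 2323421254684)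 (nat_lit 76) (nat_lit 927443573355) (nat_lit 152) (nat_lit 2415917774956) (nat_lit 13) (nat_lit 5) (nat_lit 14) (nat_lit 5) (nat_lit 15) (nat_lit 4) (nat_lit 319) (nat_lit 299) (nat_lit 162)) (XT.lf (nat_lit 0) (nat_lit 696613976575) (nat_lit 76) (nat_lit 4866323722951) (nat_lit 76) (nat_lit 756714842915) (nat_lit 12) (nat_lit 4) (nat_lit 13) (nat_lit 5) (nat_lit 13) (nat_lit 4) (nat_lit 320) (nat_lit 299) (nat_lit 161)))))) (XT.nd (nat_lit 39312) (nat_lit 0) (nat_lit 1444) (XT.nd (nat_lit 39000) (nat_lit 0) (nat_lit 2964) (XT.nd (nat_lit 78) (nat_lit 76) (nat_lit 0) (XT.lf (nat_lit 0) (nat_lit 1219289842897) (nat_lit 152) (nat_lit 1573486009061) (nat_lit 76) (nat_lit 4265420491116) (nat_lit 11) (nat_lit 5) (nat_lit 13) (nat_lit 5) (nat_lit 12) (nat_lit 4) (nat_lit 321) (nat_lit 299) (nat_lit 160)) (XT.nd (nat_lit 78) (nat_lit 0) (nat_lit 0) (XT.lf (nat_lit 0) (nat_lit 3223840103179) (nat_lit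 76) (nat_lit 301856525391) (nat_lit 152) (nat_lit 4373948101953) (nat_lit 10) (nat_lit 5) (nat_lit 11) (nat_lit 5) (nat_lit 12) (nat_lit 4) (nat_lit 322) (nat_lit 299) (nat_lit 159)) (XT.lf (nat_lit 0) (nat_lit 6286697674501) (nat_lit 152) (nat_lit 90417780617) (nat_lit 0) (nat_lit 2481504261581) (nat_lit 10) (nat_lit 5) (nat_lit 12) (nat_lit 4) (nat_lit 10) (nat_lit 4) (nat_lit 323) (nat_lit 299) (nat_lit 158)))) (XT.nd (nat_lit 156) (nat_lit 0) (nat_lit 76) (XT.nd (nat_lit 78) (nat_lit 0) (nat_lit 0) (XT.lf (nat_lit 0) (nat_lit 377304259872) (nat_lit 532) (nat_lit 84590759933) (nat_lit 532) (nat_lit 84590759933) (nat_lit 49) (nat_lit 3) (nat_lit 56) (nat_lit 3) (nat_lit 56) (nat_lit 5) (nat_lit 300) (nat_lit 300) (nat_lit 180)) (XT.lf (nat_lit 76) (nat_lit 823295359092) (nat_lit 0) (nat_lit 7709163517) (nat_lit 532) (nat_lit 342355874491) (nat_lit 50) (nat_lit 5) (nat_lit 49) (nat_lit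 3) (nat_lit 56) (nat_lit 5) (nat_lit 301) (nat_lit 300) (nat_lit 179))) (XT.nd (nat_lit 78) (nat_lit 0) (nat_lit 76) (XT.lf (nat_lit 76) (nat_lit 720224862618) (nat_lit 0) (nat_lit 246161072926) (nat_lit 532) (nat_lit 295619544093) (nat_lit 51) (nat_lit 5) (nat_lit 50) (nat_lit 5) (nat_lit 57) (nat_lit 5) (nat_lit 302) (nat_lit 300) (nat_lit 178)) (XT.lf (nat_lit 76) (nat_lit 619727170792) (nat_lit 0) (nat_lit 547842817150) (nat_lit 532) (nat_lit 192737702445) (nat_lit 52) (nat_lit 5) (nat_lit 51) (nat_lit 5) (nat_lit 58) (nat_lit 5) (nat_lit 303) (nat_lit 300) (nat_lit 177))))) (XT.nd (nat_lit 234) (nat_lit 684) (nat_lit 0) (XT.nd (nat_lit 78) (nat_lit 608) (nat_lit 0) (XT.lf (nat_lit 0) (nat_lit 522200798589) (nat_lit 456) (nat_lit 925161278645) (nat_lit 532) (nat_lit 22118721224) (nat_lit 46) (nat_lit 5) (nat_lit 52) (nat_lit 5) (nat_lit 53) (nat_lit 5) (nat_lit 304) (nat_lit 300) (nat_lit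 176)) (XT.nd (nat_lit 78) (nat_lit 228) (nat_lit 0) (XT.lf (nat_lit 0) (nat_lit 218095449991) (nat_lit 380) (nat_lit 1168624947967) (nat_lit 76) (nat_lit 203757624524) (nat_lit 41) (nat_lit 5) (nat_lit 46) (nat_lit 5) (nat_lit 42) (nat_lit 5) (nat_lit 305) (nat_lit 300) (nat_lit 175)) (XT.lf (nat_lit 0) (nat_lit 315151377963) (nat_lit 228) (nat_lit 239380368985) (nat_lit 304) (nat_lit 1170127148188) (nat_lit 38) (nat_lit 5) (nat_lit 41) (nat_lit 5) (nat_lit 42) (nat_lit 5) (nat_lit 306) (nat_lit 300) (nat_lit 174)))) (XT.nd (nat_lit 156) (nat_lit 304) (nat_lit 0) (XT.nd (nat_lit 78) (nat_lit 152) (nat_lit 0) (XT.lf (nat_lit 0) (nat_lit 199119014254) (nat_lit 228) (nat_lit 807985746059) (nat_lit 304) (nat_lit 866608436646) (nat_lit 35) (nat_lit 5) (nat_lit 38) (nat_lit 5) (nat_lit 39) (nat_lit 5) (nat_lit 307) (nat_lit 300) (nat_lit 173)) (XT.lf (nat_lit 0) (nat_lit 76648924824) (nat_lit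 152) (nat_lit 1513532128476) (nat_lit 228) (nat_lit 449935204560) (nat_lit 33) (nat_lit 5) (nat_lit 35) (nat_lit 5) (nat_lit 36) (nat_lit 5) (nat_lit 308) (nat_lit 300) (nat_lit 172))) (XT.nd (nat_lit 78) (nat_lit 228) (nat_lit 0) (XT.lf (nat_lit 0) (nat_lit 100143584777) (nat_lit 228) (nat_lit 59909057318) (nat_lit 76) (nat_lit 2065581501800) (nat_lit 32) (nat_lit 5) (nat_lit 35) (nat_lit 5) (nat_lit 33) (nat_lit 5) (nat_lit 309) (nat_lit 300) (nat_lit 171)) (XT.lf (nat_lit 0) (nat_lit 795738547230) (nat_lit 304) (nat_lit 240794301184) (nat_lit 76) (nat_lit 1394340290955) (nat_lit 29) (nat_lit 5) (nat_lit 33) (nat_lit 5) (nat_lit 30) (nat_lit 5) (nat_lit 310) (nat_lit 300) (nat_lit 170))))))))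
noncomputable def xc60 : XT := (XT.nd (nat_lit 40872) (nat_lit 0) (nat_lit 152) (XT.nd (nat_lit 39858) (nat_lit 0) (nat_lit 1140) (XT.nd (nat_lit 468) (nat_lit 532) (nat_lit 0) (XT.nd (nat_lit 234) (nat_lit 456) (nat_lit 0) (XT.nd (nat_lit 78) (nat_lit 304) (nat_lit 0) (XT.lf (nat_lit 0) (nat_lit 1668912298216) (nat_lit 228) (nat_lit 454664691300) (nat_lit 76) (nat_lit 537461831127) (nat_lit 27) (nat_lit 5) (nat_lit 30) (nat_lit 5) (nat_lit 28) (nat_lit 5) (nat_lit 311) (nat_lit 300) (nat_lit 169)) (XT.nd (nat_lit 78) (nat_lit 152) (nat_lit 0) (XT.lf (nat_lit 0) (nat_lit 2190772350728) (nat_lit 152) (nat_lit 570838376387) (nat_lit 228) (nat_lit 157034737780) (nat_lit 25) (nat_lit 5) (nat_lit 27) (nat_lit 5) (nat_lit 28) (nat_lit 5) (nat_lit 312) (nat_lit 300) (nat_lit 168)) (XT.lf (nat_lit 0) (nat_lit 859438056879) (nat_lit 152) (nat_lit 1105757732817) (nat_lit 76) (nat_lit 1240447517068)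 (nat_lit 23) (nat_lit 5) (nat_lit 25) (nat_lit 5) (nat_lit 24) (nat_lit 5) (nat_lit 313) (nat_lit 300) (nat_lit 167)))) (XT.nd (nat_lit 78) (nat_lit 304) (nat_lit 0) (XT.lf (nat_lit 0) (nat_lit 1938163512882) (nat_lit 152) (nat_lit 165326934370) (nat_lit 228) (nat_lit 1425121520889) (nat_lit 21) (nat_lit 5) (nat_lit 23) (nat_lit 5) (nat_lit 24) (nat_lit 5) (nat_lit 314) (nat_lit 300) (nat_lit 166)) (XT.nd (nat_lit 78) (nat_lit 228) (nat_lit 0) (XT.lf (nat_lit 0) (nat_lit 1643771916803) (nat_lit 76) (nat_lit 2008744462271) (nat_lit 152) (nat_lit 238040295024) (nat_lit 20) (nat_lit 5) (nat_lit 21) (nat_lit 5) (nat_lit 22) (nat_lit 4) (nat_lit 315) (nat_lit 300) (nat_lit 165)) (XT.lf (nat_lit 0) (nat_lit 1151997290785) (nat_lit 228) (nat_lit 3116310595016) (nat_lit 76) (nat_lit 29814536498) (nat_lit 17) (nat_lit 5) (nat_lit 20) (nat_lit 5) (nat_lit 18) (nat_lit 4) (nat_lit 316) (nat_lit 300)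 (nat_lit 164))))) (XT.nd (nat_lit 234) (nat_lit 304) (nat_lit 0) (XT.nd (nat_lit 78) (nat_lit 152) (nat_lit 0) (XT.lf (nat_lit 0) (nat_lit 458250331715) (nat_lit 76) (nat_lit 2412285868074) (nat_lit 152) (nat_lit 1885064977590) (nat_lit 16) (nat_lit 5) (nat_lit 17) (nat_lit 5) (nat_lit 18) (nat_lit 4) (nat_lit 317) (nat_lit 300) (nat_lit 163)) (XT.nd (nat_lit 78) (nat_lit 152) (nat_lit 0) (XT.lf (nat_lit 0) (nat_lit 4757709694111) (nat_lit 76) (nat_lit 179874277732) (nat_lit 152) (nat_lit 336859531745) (nat_lit 16) (nat_lit 5) (nat_lit 17) (nat_lit 5) (nat_lit 18) (nat_lit 4) (nat_lit 318) (nat_lit 300) (nat_lit 162)) (XT.lf (nat_lit 0) (nat_lit 1528286042323) (nat_lit 152) (nat_lit 1925299263770) (nat_lit 76) (nat_lit 2402195598954) (nat_lit 14) (nat_lit 5) (nat_lit 16) (nat_lit 5) (nat_lit 15) (nat_lit 4) (nat_lit 319) (nat_lit 300) (nat_lit 161)))) (XT.nd (nat_lit 156) (nat_lit 152)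 (nat_lit 0) (XT.nd (nat_lit 78) (nat_lit 76) (nat_lit 0) (XT.lf (nat_lit 0) (nat_lit 2671934497898) (nat_lit 76) (nat_lit 1066560084858) (nat_lit 152) (nat_lit 2778305408223) (nat_lit 13) (nat_lit 5) (nat_lit 14) (nat_lit 5) (nat_lit 15) (nat_lit 4) (nat_lit 320) (nat_lit 300) (nat_lit 160)) (XT.lf (nat_lit 0) (nat_lit 801106125134) (nat_lit 76) (nat_lit 5596272257618) (nat_lit 76) (nat_lit 870222038772) (nat_lit 12) (nat_lit 4) (nat_lit 13) (nat_lit 5) (nat_lit 13) (nat_lit 4) (nat_lit 321) (nat_lit 300) (nat_lit 159))) (XT.nd (nat_lit 78) (nat_lit 76) (nat_lit 0) (XT.lf (nat_lit 0) (nat_lit 1402183344594) (nat_lit 152) (nat_lit 1809508863793) (nat_lit 76) (nat_lit 4905233584112) (nat_lit 11) (nat_lit 5) (nat_lit 13) (nat_lit 5) (nat_lit 12) (nat_lit 4) (nat_lit 322) (nat_lit 300) (nat_lit 158)) (XT.lf (nat_lit 0) (nat_lit 3707416161336) (nat_lit 76) (nat_lit 347134984513) (nat_lit 152)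 (nat_lit 5030040292399) (nat_lit 10) (nat_lit 5) (nat_lit 11) (nat_lit 5) (nat_lit 12) (nat_lit 4) (nat_lit 323) (nat_lit 300) (nat_lit 157)))))) (XT.nd (nat_lit 468) (nat_lit 1216) (nat_lit 0) (XT.nd (nat_lit 234) (nat_lit 608) (nat_lit 0) (XT.nd (nat_lit 78) (nat_lit 0) (nat_lit 0) (XT.lf (nat_lit 0) (nat_lit 433899985796) (nat_lit 532) (nat_lit 97279326865) (nat_lit 532) (nat_lit 97279326865) (nat_lit 49) (nat_lit 3) (nat_lit 56) (nat_lit 3) (nat_lit 56) (nat_lit 5) (nat_lit 301) (nat_lit 301) (nat_lit 178)) (XT.nd (nat_lit 78) (nat_lit 0) (nat_lit 76) (XT.lf (nat_lit 76) (nat_lit 946789749105) (nat_lit 0) (nat_lit 8865605173) (nat_lit 532) (nat_lit 393709089748) (nat_lit 50) (nat_lit 5) (nat_lit 49) (nat_lit 3) (nat_lit 56) (nat_lit 5) (nat_lit 302) (nat_lit 301) (nat_lit 177)) (XT.lf (nat_lit 76) (nat_lit 828258683914) (nat_lit 0) (nat_lit 283085276053) (nat_lit 532) (nat_lit 339962330562)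 (nat_lit 51) (nat_lit 5) (nat_lit 50) (nat_lit 5) (nat_lit 57) (nat_lit 5) (nat_lit 303) (nat_lit 301) (nat_lit 176)))) (XT.nd (nat_lit 78) (nat_lit 760) (nat_lit 0) (XT.lf (nat_lit 76) (nat_lit 712686341584) (nat_lit 0) (nat_lit 630019262558) (nat_lit 532) (nat_lit 221648230079) (nat_lit 52) (nat_lit 5) (nat_lit 51) (nat_lit 5) (nat_lit 58) (nat_lit 5) (nat_lit 304) (nat_lit 301) (nat_lit 175)) (XT.nd (nat_lit 78) (nat_lit 380) (nat_lit 0) (XT.lf (nat_lit 0) (nat_lit 600531014898) (nat_lit 456) (nat_lit 1063935478379) (nat_lit 532) (nat_lit 25436416345) (nat_lit 46) (nat_lit 5) (nat_lit 52) (nat_lit 5) (nat_lit 53) (nat_lit 5) (nat_lit 305) (nat_lit 301) (nat_lit 174)) (XT.lf (nat_lit 0) (nat_lit 250809863095) (nat_lit 380) (nat_lit 1343918588526) (nat_lit 76) (nat_lit 234321266385) (nat_lit 41) (nat_lit 5) (nat_lit 46) (nat_lit 5) (nat_lit 42) (nat_lit 5) (nat_lit 306) (nat_lit 301)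 (nat_lit 173))))) (XT.nd (nat_lit 234) (nat_lit 608) (nat_lit 0) (XT.nd (nat_lit 78) (nat_lit 380) (nat_lit 0) (XT.lf (nat_lit 0) (nat_lit 362424177691) (nat_lit 228) (nat_lit 275287416674) (nat_lit 304) (nat_lit 1345646128039) (nat_lit 38) (nat_lit 5) (nat_lit 41) (nat_lit 5) (nat_lit 42) (nat_lit 5) (nat_lit 307) (nat_lit 301) (nat_lit 172)) (XT.nd (nat_lit 78) (nat_lit 152) (nat_lit 0) (XT.lf (nat_lit 0) (nat_lit 228986957792) (nat_lit 228) (nat_lit 929183593163) (nat_lit 304) (nat_lit 996599619268) (nat_lit 35) (nat_lit 5) (nat_lit 38) (nat_lit 5) (nat_lit 39) (nat_lit 5) (nat_lit 308) (nat_lit 301) (nat_lit 171)) (XT.lf (nat_lit 0) (nat_lit 88146352633) (nat_lit 152) (nat_lit 1740561927720) (nat_lit 228) (nat_lit 517425410531) (nat_lit 33) (nat_lit 5) (nat_lit 35) (nat_lit 5) (nat_lit 36) (nat_lit 5) (nat_lit 309) (nat_lit 301) (nat_lit 170)))) (XT.nd (nat_lit 156) (nat_lit 304) (nat_lit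 0) (XT.nd (nat_lit 78) (nat_lit 228) (nat_lit 0) (XT.lf (nat_lit 0) (nat_lit 115165184212) (nat_lit 228) (nat_lit 68895335095) (nat_lit 76) (nat_lit 2375418741129) (nat_lit 32) (nat_lit 5) (nat_lit 35) (nat_lit 5) (nat_lit 33) (nat_lit 5) (nat_lit 310) (nat_lit 301) (nat_lit 169)) (XT.lf (nat_lit 0) (nat_lit 915099385208) (nat_lit 304) (nat_lit 276913368301) (nat_lit 76) (nat_lit 1603491352204) (nat_lit 29) (nat_lit 5) (nat_lit 33) (nat_lit 5) (nat_lit 30) (nat_lit 5) (nat_lit 311) (nat_lit 301) (nat_lit 168))) (XT.nd (nat_lit 78) (nat_lit 152) (nat_lit 0) (XT.lf (nat_lit 0) (nat_lit 1919249193777) (nat_lit 228) (nat_lit 522864319945) (nat_lit 76) (nat_lit 618081125872) (nat_lit 27) (nat_lit 5) (nat_lit 30) (nat_lit 5) (nat_lit 28) (nat_lit 5) (nat_lit 312) (nat_lit 301) (nat_lit 167)) (XT.lf (nat_lit 0) (nat_lit 2519388272035) (nat_lit 152) (nat_lit 656464109998) (nat_lit 228) (nat_lit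 180589898859) (nat_lit 25) (nat_lit 5) (nat_lit 27) (nat_lit 5) (nat_lit 28) (nat_lit 5) (nat_lit 313) (nat_lit 301) (nat_lit 166))))))) (XT.nd (nat_lit 40014) (nat_lit 0) (nat_lit 380) (XT.nd (nat_lit 468) (nat_lit 304) (nat_lit 0) (XT.nd (nat_lit 234) (nat_lit 304) (nat_lit 0) (XT.nd (nat_lit 78) (nat_lit 228) (nat_lit 0) (XT.lf (nat_lit 0) (nat_lit 988353808488) (nat_lit 152) (nat_lit 1271621324614) (nat_lit 76) (nat_lit 1426514666175) (nat_lit 23) (nat_lit 5) (nat_lit 25) (nat_lit 5) (nat_lit 24) (nat_lit 5) (nat_lit 314) (nat_lit 301) (nat_lit 165)) (XT.nd (nat_lit 78) (nat_lit 76) (nat_lit 0) (XT.lf (nat_lit 0) (nat_lit 2228888102173) (nat_lit 152) (nat_lit 190125951125) (nat_lit 228) (nat_lit 1638889706899) (nat_lit 21) (nat_lit 5) (nat_lit 23) (nat_lit 5) (nat_lit 24) (nat_lit 5) (nat_lit 315) (nat_lit 301) (nat_lit 164)) (XT.lf (nat_lit 0) (nat_lit 1890337763787) (nat_lit 76)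 (nat_lit 2310056107945) (nat_lit 152) (nat_lit 273746300575) (nat_lit 20) (nat_lit 5) (nat_lit 21) (nat_lit 5) (nat_lit 22) (nat_lit 4) (nat_lit 316) (nat_lit 301) (nat_lit 163)))) (XT.nd (nat_lit 78) (nat_lit 76) (nat_lit 0) (XT.lf (nat_lit 0) (nat_lit 1324796918277) (nat_lit 228) (nat_lit 3583757125882) (nat_lit 76) (nat_lit 34286738741) (nat_lit 17) (nat_lit 5) (nat_lit 20) (nat_lit 5) (nat_lit 18) (nat_lit 4) (nat_lit 317) (nat_lit 301) (nat_lit 162)) (XT.nd (nat_lit 78) (nat_lit 0) (nat_lit 0) (XT.lf (nat_lit 0) (nat_lit 526987934917) (nat_lit 76) (nat_lit 2774128725582) (nat_lit 152) (nat_lit 2167824690998) (nat_lit 16) (nat_lit 5) (nat_lit 17) (nat_lit 5) (nat_lit 18) (nat_lit 4) (nat_lit 318) (nat_lit 301) (nat_lit 161)) (XT.lf (nat_lit 0) (nat_lit 5471366194701) (nat_lit 76) (nat_lit 206855399650) (nat_lit 152) (nat_lit 387388432611) (nat_lit 16) (nat_lit 5) (nat_lit 17) (nat_lit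 5) (nat_lit 18) (nat_lit 4) (nat_lit 319) (nat_lit 301) (nat_lit 160))))) (XT.nd (nat_lit 39234) (nat_lit 0) (nat_lit 2812) (XT.nd (nat_lit 78) (nat_lit 152) (nat_lit 0) (XT.lf (nat_lit 0) (nat_lit 1757528974053) (nat_lit 152) (nat_lit 2214094107892) (nat_lit 76) (nat_lit 2762524956808) (nat_lit 14) (nat_lit 5) (nat_lit 16) (nat_lit 5) (nat_lit 15) (nat_lit 4) (nat_lit 320) (nat_lit 301) (nat_lit 159)) (XT.nd (nat_lit 78) (nat_lit 76) (nat_lit 0) (XT.lf (nat_lit 0) (nat_lit 3072724714180) (nat_lit 76) (nat_lit 1226544079061) (nat_lit 152) (nat_lit 3195051194522) (nat_lit 13) (nat_lit 5) (nat_lit 14) (nat_lit 5) (nat_lit 15) (nat_lit 4) (nat_lit 321) (nat_lit 301) (nat_lit 158)) (XT.lf (nat_lit 0) (nat_lit 921272083278) (nat_lit 76) (nat_lit 6435713078283) (nat_lit 76) (nat_lit 1000755321464) (nat_lit 12) (nat_lit 4) (nat_lit 13) (nat_lit 5) (nat_lit 13) (nat_lit 4) (nat_lit 322) (nat_lit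 301) (nat_lit 157)))) (XT.nd (nat_lit 156) (nat_lit 0) (nat_lit 76) (XT.nd (nat_lit 78) (nat_lit 0) (nat_lit 0) (XT.lf (nat_lit 0) (nat_lit 498985049406) (nat_lit 532) (nat_lit 111871190313) (nat_lit 532) (nat_lit 111871190313) (nat_lit 49) (nat_lit 3) (nat_lit 56) (nat_lit 3) (nat_lit 56) (nat_lit 5) (nat_lit 302) (nat_lit 302) (nat_lit 176)) (XT.lf (nat_lit 76) (nat_lit 1088808276611) (nat_lit 0) (nat_lit 10195496708) (nat_lit 532) (nat_lit 452765327754) (nat_lit 50) (nat_lit 5) (nat_lit 49) (nat_lit 3) (nat_lit 56) (nat_lit 5) (nat_lit 303) (nat_lit 302) (nat_lit 175))) (XT.nd (nat_lit 78) (nat_lit 0) (nat_lit 76) (XT.lf (nat_lit 76) (nat_lit 952497555993) (nat_lit 0) (nat_lit 325548099360) (nat_lit 532) (nat_lit 390956570395) (nat_lit 51) (nat_lit 5) (nat_lit 50) (nat_lit 5) (nat_lit 57) (nat_lit 5) (nat_lit 304) (nat_lit 302) (nat_lit 174)) (XT.lf (nat_lit 76) (nat_lit 819589364785)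 (nat_lit 0) (nat_lit 724522169208) (nat_lit 532) (nat_lit 254895368006) (nat_lit 52) (nat_lit 5) (nat_lit 51) (nat_lit 5) (nat_lit 58) (nat_lit 5) (nat_lit 305) (nat_lit 302) (nat_lit 173)))))) (XT.nd (nat_lit 468) (nat_lit 1140) (nat_lit 0) (XT.nd (nat_lit 234) (nat_lit 456) (nat_lit 0) (XT.nd (nat_lit 78) (nat_lit 608) (nat_lit 0) (XT.lf (nat_lit 0) (nat_lit 690610740117) (nat_lit 456) (nat_lit 1223525806138) (nat_lit 532) (nat_lit 29251793305) (nat_lit 46) (nat_lit 5) (nat_lit 52) (nat_lit 5) (nat_lit 53) (nat_lit 5) (nat_lit 306) (nat_lit 302) (nat_lit 172)) (XT.nd (nat_lit 78) (nat_lit 228) (nat_lit 0) (XT.lf (nat_lit 0) (nat_lit 288431414852) (nat_lit 380) (nat_lit 1545506299954) (nat_lit 76) (nat_lit 269469454968) (nat_lit 41) (nat_lit 5) (nat_lit 46) (nat_lit 5) (nat_lit 42) (nat_lit 5) (nat_lit 307) (nat_lit 302) (nat_lit 171)) (XT.lf (nat_lit 0) (nat_lit 416787874691) (nat_lit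 228) (nat_lit 316580523383) (nat_lit 304) (nat_lit 1547492977395) (nat_lit 38) (nat_lit 5) (nat_lit 41) (nat_lit 5) (nat_lit 42) (nat_lit 5) (nat_lit 308) (nat_lit 302) (nat_lit 170)))) (XT.nd (nat_lit 78) (nat_lit 228) (nat_lit 0) (XT.lf (nat_lit 0) (nat_lit 263335070573) (nat_lit 228) (nat_lit 1068561120944) (nat_lit 304) (nat_lit 1146089499494) (nat_lit 35) (nat_lit 5) (nat_lit 38) (nat_lit 5) (nat_lit 39) (nat_lit 5) (nat_lit 309) (nat_lit 302) (nat_lit 169)) (XT.nd (nat_lit 78) (nat_lit 76) (nat_lit 0) (XT.lf (nat_lit 0) (nat_lit 101368372888) (nat_lit 152) (nat_lit 2001646201735) (nat_lit 228) (nat_lit 595039165617) (nat_lit 33) (nat_lit 5) (nat_lit 35) (nat_lit 5) (nat_lit 36) (nat_lit 5) (nat_lit 310) (nat_lit 302) (nat_lit 168)) (XT.lf (nat_lit 0) (nat_lit 132440008511) (nat_lit 228) (nat_lit 79229574247) (nat_lit 76) (nat_lit 2731731562930) (nat_lit 32) (nat_lit 5) (nat_lit 35)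 (nat_lit 5) (nat_lit 33) (nat_lit 5) (nat_lit 311) (nat_lit 302) (nat_lit 167))))) (XT.nd (nat_lit 234) (nat_lit 608) (nat_lit 0) (XT.nd (nat_lit 78) (nat_lit 304) (nat_lit 0) (XT.lf (nat_lit 0) (nat_lit 1052364335252) (nat_lit 304) (nat_lit 318450314520) (nat_lit 76) (nat_lit 1844015068347) (nat_lit 29) (nat_lit 5) (nat_lit 33) (nat_lit 5) (nat_lit 30) (nat_lit 5) (nat_lit 312) (nat_lit 302) (nat_lit 166)) (XT.nd (nat_lit 78) (nat_lit 152) (nat_lit 0) (XT.lf (nat_lit 0) (nat_lit 2207136611278) (nat_lit 228) (nat_lit 601293911187) (nat_lit 76) (nat_lit 710793309933) (nat_lit 27) (nat_lit 5) (nat_lit 30) (nat_lit 5) (nat_lit 28) (nat_lit 5) (nat_lit 313) (nat_lit 302) (nat_lit 165)) (XT.lf (nat_lit 0) (nat_lit 2897296564786) (nat_lit 152) (nat_lit 754933709222) (nat_lit 228) (nat_lit 207678346191) (nat_lit 25) (nat_lit 5) (nat_lit 27) (nat_lit 5) (nat_lit 28) (nat_lit 5) (nat_lit 314) (nat_lit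 302) (nat_lit 164)))) (XT.nd (nat_lit 156) (nat_lit 304) (nat_lit 0) (XT.nd (nat_lit 78) (nat_lit 152) (nat_lit 0) (XT.lf (nat_lit 0) (nat_lit 1136606912334) (nat_lit 152) (nat_lit 1462364471793) (nat_lit 76) (nat_lit 1640491882393) (nat_lit 23) (nat_lit 5) (nat_lit 25) (nat_lit 5) (nat_lit 24) (nat_lit 5) (nat_lit 315) (nat_lit 302) (nat_lit 163)) (XT.lf (nat_lit 0) (nat_lit 2563221364652) (nat_lit 152) (nat_lit 218644826099) (nat_lit 228) (nat_lit 1884723131082) (nat_lit 21) (nat_lit 5) (nat_lit 23) (nat_lit 5) (nat_lit 24) (nat_lit 5) (nat_lit 316) (nat_lit 302) (nat_lit 162))) (XT.nd (nat_lit 78) (nat_lit 228) (nat_lit 0) (XT.lf (nat_lit 0) (nat_lit 2173888473317) (nat_lit 76) (nat_lit 2656564506242) (nat_lit 152) (nat_lit 314808216397) (nat_lit 20) (nat_lit 5) (nat_lit 21) (nat_lit 5) (nat_lit 22) (nat_lit 4) (nat_lit 317) (nat_lit 302) (nat_lit 161)) (XT.lf (nat_lit 0) (nat_lit 1523516481632)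 (nat_lit 228) (nat_lit 4121320650616) (nat_lit 76) (nat_lit 39429766012) (nat_lit 17) (nat_lit 5) (nat_lit 20) (nat_lit 5) (nat_lit 18) (nat_lit 4) (nat_lit 318) (nat_lit 302) (nat_lit 160))))))))
noncomputable def xc61 : XT := (XT.nd (nat_lit 80262) (nat_lit 0) (nat_lit 228) (XT.nd (nat_lit 40092) (nat_lit 0) (nat_lit 76) (XT.nd (nat_lit 39546) (nat_lit 0) (nat_lit 1520) (XT.nd (nat_lit 234) (nat_lit 76) (nat_lit 0) (XT.nd (nat_lit 78) (nat_lit 152) (nat_lit 0) (XT.lf (nat_lit 0) (nat_lit 606036165567) (nat_lit 76) (nat_lit 3190248017252) (nat_lit 152) (nat_lit 2492998369521) (nat_lit 16) (nat_lit 5) (nat_lit 17) (nat_lit 5) (nat_lit 18) (nat_lit 4) (nat_lit 319) (nat_lit 302) (nat_lit 159)) (XT.nd (nat_lit 78) (nat_lit 152) (nat_lit 0) (XT.lf (nat_lit 0) (nat_lit 6292071159047) (nat_lit 76) (nat_lit 237883694670) (nat_lit 152) (nat_lit 445496675653) (nat_lit 16) (nat_lit 5) (nat_lit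 17) (nat_lit 5) (nat_lit 18) (nat_lit 4) (nat_lit 320) (nat_lit 302) (nat_lit 158)) (XT.lf (nat_lit 0) (nat_lit 2021158339352) (nat_lit 152) (nat_lit 2546208189714) (nat_lit 76) (nat_lit 3176903713949) (nat_lit 14) (nat_lit 5) (nat_lit 16) (nat_lit 5) (nat_lit 15) (nat_lit 4) (nat_lit 321) (nat_lit 302) (nat_lit 157)))) (XT.nd (nat_lit 39156) (nat_lit 0) (nat_lit 2736) (XT.lf (nat_lit 0) (nat_lit 3533633452760) (nat_lit 76) (nat_lit 1410525676913) (nat_lit 152) (nat_lit 3674308854846) (nat_lit 13) (nat_lit 5) (nat_lit 14) (nat_lit 5) (nat_lit 15) (nat_lit 4) (nat_lit 322) (nat_lit 302) (nat_lit 156)) (XT.nd (nat_lit 78) (nat_lit 0) (nat_lit 0) (XT.lf (nat_lit 0) (nat_lit 573832856527) (nat_lit 532) (nat_lit 128651841955) (nat_lit 532) (nat_lit 128651841955) (nat_lit 49) (nat_lit 3) (nat_lit 56) (nat_lit 3) (nat_lit 56) (nat_lit 5) (nat_lit 303) (nat_lit 303) (nat_lit 174)) (XT.lf (nat_lit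 76) (nat_lit 1252129567359) (nat_lit 0) (nat_lit 11724859595) (nat_lit 532) (nat_lit 520680032055) (nat_lit 50) (nat_lit 5) (nat_lit 49) (nat_lit 3) (nat_lit 56) (nat_lit 5) (nat_lit 304) (nat_lit 303) (nat_lit 173))))) (XT.nd (nat_lit 234) (nat_lit 988) (nat_lit 0) (XT.nd (nat_lit 78) (nat_lit 304) (nat_lit 0) (XT.lf (nat_lit 76) (nat_lit 1095372241938) (nat_lit 0) (nat_lit 374380338385) (nat_lit 532) (nat_lit 449599972967) (nat_lit 51) (nat_lit 5) (nat_lit 50) (nat_lit 5) (nat_lit 57) (nat_lit 5) (nat_lit 305) (nat_lit 303) (nat_lit 172)) (XT.nd (nat_lit 78) (nat_lit 380) (nat_lit 0) (XT.lf (nat_lit 76) (nat_lit 942527823918) (nat_lit 0) (nat_lit 833200507646) (nat_lit 532) (nat_lit 293129600176) (nat_lit 52) (nat_lit 5) (nat_lit 51) (nat_lit 5) (nat_lit 58) (nat_lit 5) (nat_lit 306) (nat_lit 303) (nat_lit 171)) (XT.lf (nat_lit 0) (nat_lit 794202406321) (nat_lit 456) (nat_lit 1407054681598)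 (nat_lit 532) (nat_lit 33639497656) (nat_lit 46) (nat_lit 5) (nat_lit 52) (nat_lit 5) (nat_lit 53) (nat_lit 5) (nat_lit 307) (nat_lit 303) (nat_lit 170)))) (XT.nd (nat_lit 156) (nat_lit 380) (nat_lit 0) (XT.nd (nat_lit 78) (nat_lit 228) (nat_lit 0) (XT.lf (nat_lit 0) (nat_lit 331696181743) (nat_lit 380) (nat_lit 1777332186836) (nat_lit 76) (nat_lit 309889872173) (nat_lit 41) (nat_lit 5) (nat_lit 46) (nat_lit 5) (nat_lit 42) (nat_lit 5) (nat_lit 308) (nat_lit 303) (nat_lit 169)) (XT.lf (nat_lit 0) (nat_lit 479306109086) (nat_lit 228) (nat_lit 364067597511) (nat_lit 304) (nat_lit 1779616871188) (nat_lit 38) (nat_lit 5) (nat_lit 41) (nat_lit 5) (nat_lit 42) (nat_lit 5) (nat_lit 309) (nat_lit 303) (nat_lit 168))) (XT.nd (nat_lit 78) (nat_lit 152) (nat_lit 0) (XT.lf (nat_lit 0) (nat_lit 302835383417) (nat_lit 228) (nat_lit 1228845280621) (nat_lit 304) (nat_lit 1318002877034) (nat_lit 35) (nat_lit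 5) (nat_lit 38) (nat_lit 5) (nat_lit 39) (nat_lit 5) (nat_lit 310) (nat_lit 303) (nat_lit 167)) (XT.lf (nat_lit 0) (nat_lit 116573679756) (nat_lit 152) (nat_lit 2301893120544) (nat_lit 228) (nat_lit 684294997742) (nat_lit 33) (nat_lit 5) (nat_lit 35) (nat_lit 5) (nat_lit 36) (nat_lit 5) (nat_lit 311) (nat_lit 303) (nat_lit 166)))))) (XT.nd (nat_lit 468) (nat_lit 532) (nat_lit 0) (XT.nd (nat_lit 234) (nat_lit 456) (nat_lit 0) (XT.nd (nat_lit 78) (nat_lit 380) (nat_lit 0) (XT.lf (nat_lit 0) (nat_lit 152306045075) (nat_lit 228) (nat_lit 91113964175) (nat_lit 76) (nat_lit 3141491305408) (nat_lit 32) (nat_lit 5) (nat_lit 35) (nat_lit 5) (nat_lit 33) (nat_lit 5) (nat_lit 312) (nat_lit 303) (nat_lit 165)) (XT.nd (nat_lit 78) (nat_lit 152) (nat_lit 0) (XT.lf (nat_lit 0) (nat_lit 1210219017496) (nat_lit 304) (nat_lit 366217817067) (nat_lit 76) (nat_lit 2120617338665) (nat_lit 29) (nat_lit 5) (nat_lit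 33) (nat_lit 5) (nat_lit 30) (nat_lit 5) (nat_lit 313) (nat_lit 303) (nat_lit 164)) (XT.lf (nat_lit 0) (nat_lit 2538207132031) (nat_lit 228) (nat_lit 691487954955) (nat_lit 76) (nat_lit 817412317901) (nat_lit 27) (nat_lit 5) (nat_lit 30) (nat_lit 5) (nat_lit 28) (nat_lit 5) (nat_lit 314) (nat_lit 303) (nat_lit 163)))) (XT.nd (nat_lit 78) (nat_lit 304) (nat_lit 0) (XT.lf (nat_lit 0) (nat_lit 3331891088783) (nat_lit 152) (nat_lit 868173752543) (nat_lit 228) (nat_lit 238830069767) (nat_lit 25) (nat_lit 5) (nat_lit 27) (nat_lit 5) (nat_lit 28) (nat_lit 5) (nat_lit 315) (nat_lit 303) (nat_lit 162)) (XT.nd (nat_lit 78) (nat_lit 152) (nat_lit 0) (XT.lf (nat_lit 0) (nat_lit 1307097973814) (nat_lit 152) (nat_lit 1681719103611) (nat_lit 76) (nat_lit 1886565677071) (nat_lit 23) (nat_lit 5) (nat_lit 25) (nat_lit 5) (nat_lit 24) (nat_lit 5) (nat_lit 316) (nat_lit 303) (nat_lit 161)) (XT.lf (nat_lit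 0) (nat_lit 2947704605004) (nat_lit 152) (nat_lit 251441536634) (nat_lit 228) (nat_lit 2167431576661) (nat_lit 21) (nat_lit 5) (nat_lit 23) (nat_lit 5) (nat_lit 24) (nat_lit 5) (nat_lit 317) (nat_lit 303) (nat_lit 160))))) (XT.nd (nat_lit 234) (nat_lit 152) (nat_lit 0) (XT.nd (nat_lit 78) (nat_lit 304) (nat_lit 0) (XT.lf (nat_lit 0) (nat_lit 2499971778313) (nat_lit 76) (nat_lit 3055049168646) (nat_lit 152) (nat_lit 362029426729) (nat_lit 20) (nat_lit 5) (nat_lit 21) (nat_lit 5) (nat_lit 22) (nat_lit 4) (nat_lit 318) (nat_lit 303) (nat_lit 159)) (XT.nd (nat_lit 78) (nat_lit 76) (nat_lit 0) (XT.lf (nat_lit 0) (nat_lit 1752043973245) (nat_lit 228) (nat_lit 4739518714825) (nat_lit 76) (nat_lit 45344243361) (nat_lit 17) (nat_lit 5) (nat_lit 20) (nat_lit 5) (nat_lit 18) (nat_lit 4) (nat_lit 319) (nat_lit 303) (nat_lit 158)) (XT.lf (nat_lit 0) (nat_lit 696941620959) (nat_lit 76) (nat_lit 3668785206860)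 (nat_lit 152) (nat_lit 2866948105950) (nat_lit 16) (nat_lit 5) (nat_lit 17) (nat_lit 5) (nat_lit 18) (nat_lit 4) (nat_lit 320) (nat_lit 303) (nat_lit 157)))) (XT.nd (nat_lit 39312) (nat_lit 0) (nat_lit 2660) (XT.nd (nat_lit 78) (nat_lit 152) (nat_lit 0) (XT.lf (nat_lit 0) (nat_lit 7235881859476) (nat_lit 76) (nat_lit 273566237583) (nat_lit 152) (nat_lit 512321160480) (nat_lit 16) (nat_lit 5) (nat_lit 17) (nat_lit 5) (nat_lit 18) (nat_lit 4) (nat_lit 321) (nat_lit 303) (nat_lit 156)) (XT.lf (nat_lit 0) (nat_lit 2324332104767) (nat_lit 152) (nat_lit 2928139392189) (nat_lit 76) (nat_lit 3653439281339) (nat_lit 14) (nat_lit 5) (nat_lit 16) (nat_lit 5) (nat_lit 15) (nat_lit 4) (nat_lit 322) (nat_lit 303) (nat_lit 155))) (XT.nd (nat_lit 78) (nat_lit 0) (nat_lit 0) (XT.lf (nat_lit 0) (nat_lit 659907822595) (nat_lit 532) (nat_lit 147949597904) (nat_lit 532) (nat_lit 147949597904) (nat_lit 49)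 (nat_lit 3) (nat_lit 56) (nat_lit 3) (nat_lit 56) (nat_lit 5) (nat_lit 304) (nat_lit 304) (nat_lit 172)) (XT.lf (nat_lit 76) (nat_lit 1439949039707) (nat_lit 0) (nat_lit 13483617556) (nat_lit 532) (nat_lit 598781965133) (nat_lit 50) (nat_lit 5) (nat_lit 49) (nat_lit 3) (nat_lit 56) (nat_lit 5) (nat_lit 305) (nat_lit 304) (nat_lit 171))))))) (XT.nd (nat_lit 1014) (nat_lit 380) (nat_lit 0) (XT.nd (nat_lit 468) (nat_lit 1064) (nat_lit 0) (XT.nd (nat_lit 234) (nat_lit 836) (nat_lit 0) (XT.nd (nat_lit 78) (nat_lit 304) (nat_lit 0) (XT.lf (nat_lit 76) (nat_lit 1259678117962) (nat_lit 0) (nat_lit 430537407382) (nat_lit 532) (nat_lit 517039906161) (nat_lit 51) (nat_lit 5) (nat_lit 50) (nat_lit 5) (nat_lit 57) (nat_lit 5) (nat_lit 306) (nat_lit 304) (nat_lit 170)) (XT.nd (nat_lit 78) (nat_lit 380) (nat_lit 0) (XT.lf (nat_lit 76) (nat_lit 1083907038651) (nat_lit 0) (nat_lit 958180593665) (nat_lit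 532) (nat_lit 337098984980) (nat_lit 52) (nat_lit 5) (nat_lit 51) (nat_lit 5) (nat_lit 58) (nat_lit 5) (nat_lit 307) (nat_lit 304) (nat_lit 169)) (XT.lf (nat_lit 0) (nat_lit 913332808998) (nat_lit 456) (nat_lit 1618112887269) (nat_lit 532) (nat_lit 38685373424) (nat_lit 46) (nat_lit 5) (nat_lit 52) (nat_lit 5) (nat_lit 53) (nat_lit 5) (nat_lit 308) (nat_lit 304) (nat_lit 168)))) (XT.nd (nat_lit 78) (nat_lit 456) (nat_lit 0) (XT.lf (nat_lit 0) (nat_lit 381450650337) (nat_lit 380) (nat_lit 2043931970922) (nat_lit 76) (nat_lit 356373352214) (nat_lit 41) (nat_lit 5) (nat_lit 46) (nat_lit 5) (nat_lit 42) (nat_lit 5) (nat_lit 309) (nat_lit 304) (nat_lit 167)) (XT.nd (nat_lit 78) (nat_lit 228) (nat_lit 0) (XT.lf (nat_lit 0) (nat_lit 551202065670) (nat_lit 228) (nat_lit 418677733826) (nat_lit 304) (nat_lit 2046559361930) (nat_lit 38) (nat_lit 5) (nat_lit 41) (nat_lit 5) (nat_lit 42) (nat_lit 5)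 (nat_lit 310) (nat_lit 304) (nat_lit 166)) (XT.lf (nat_lit 0) (nat_lit 348260730444) (nat_lit 228) (nat_lit 1413172066314) (nat_lit 304) (nat_lit 1515703272760) (nat_lit 35) (nat_lit 5) (nat_lit 38) (nat_lit 5) (nat_lit 39) (nat_lit 5) (nat_lit 311) (nat_lit 304) (nat_lit 165))))) (XT.nd (nat_lit 234) (nat_lit 608) (nat_lit 0) (XT.nd (nat_lit 78) (nat_lit 304) (nat_lit 0) (XT.lf (nat_lit 0) (nat_lit 134059770233) (nat_lit 152) (nat_lit 2647177079968) (nat_lit 228) (nat_lit 786939215103) (nat_lit 33) (nat_lit 5) (nat_lit 35) (nat_lit 5) (nat_lit 36) (nat_lit 5) (nat_lit 312) (nat_lit 304) (nat_lit 164)) (XT.nd (nat_lit 78) (nat_lit 228) (nat_lit 0) (XT.lf (nat_lit 0) (nat_lit 175151978519) (nat_lit 228) (nat_lit 104781023861) (nat_lit 76) (nat_lit 3612715007297) (nat_lit 32) (nat_lit 5) (nat_lit 35) (nat_lit 5) (nat_lit 33) (nat_lit 5) (nat_lit 313) (nat_lit 304) (nat_lit 163)) (XT.lf (nat_lit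 0) (nat_lit 1391751894285) (nat_lit 304) (nat_lit 421150455879) (nat_lit 76) (nat_lit 2438709947076) (nat_lit 29) (nat_lit 5) (nat_lit 33) (nat_lit 5) (nat_lit 30) (nat_lit 5) (nat_lit 314) (nat_lit 304) (nat_lit 162)))) (XT.nd (nat_lit 156) (nat_lit 304) (nat_lit 0) (XT.nd (nat_lit 78) (nat_lit 152) (nat_lit 0) (XT.lf (nat_lit 0) (nat_lit 2918938223811) (nat_lit 228) (nat_lit 795211115751) (nat_lit 76) (nat_lit 940024174266) (nat_lit 27) (nat_lit 5) (nat_lit 30) (nat_lit 5) (nat_lit 28) (nat_lit 5) (nat_lit 315) (nat_lit 304) (nat_lit 161)) (XT.lf (nat_lit 0) (nat_lit 3831674781800) (nat_lit 152) (nat_lit 998399805547) (nat_lit 228) (nat_lit 274654558794) (nat_lit 25) (nat_lit 5) (nat_lit 27) (nat_lit 5) (nat_lit 28) (nat_lit 5) (nat_lit 316) (nat_lit 304) (nat_lit 160))) (XT.nd (nat_lit 78) (nat_lit 152) (nat_lit 0) (XT.lf (nat_lit 0) (nat_lit 1503162688510) (nat_lit 152) (nat_lit 1933976939700)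 (nat_lit 76) (nat_lit 2169550537947) (nat_lit 23) (nat_lit 5) (nat_lit 25) (nat_lit 5) (nat_lit 24) (nat_lit 5) (nat_lit 317) (nat_lit 304) (nat_lit 159)) (XT.lf (nat_lit 0) (nat_lit 3389860322714) (nat_lit 152) (nat_lit 289157757013) (nat_lit 228) (nat_lit 2492546294948) (nat_lit 21) (nat_lit 5) (nat_lit 23) (nat_lit 5) (nat_lit 24) (nat_lit 5) (nat_lit 318) (nat_lit 304) (nat_lit 158)))))) (XT.nd (nat_lit 39858) (nat_lit 0) (nat_lit 988) (XT.nd (nat_lit 39546) (nat_lit 0) (nat_lit 2508) (XT.nd (nat_lit 78) (nat_lit 304) (nat_lit 0) (XT.lf (nat_lit 0) (nat_lit 2874967570768) (nat_lit 76) (nat_lit 3513306533712) (nat_lit 152) (nat_lit 416333824006) (nat_lit 20) (nat_lit 5) (nat_lit 21) (nat_lit 5) (nat_lit 22) (nat_lit 4) (nat_lit 319) (nat_lit 304) (nat_lit 157)) (XT.nd (nat_lit 78) (nat_lit 76) (nat_lit 0) (XT.lf (nat_lit 0) (nat_lit 2014850583877) (nat_lit 228) (nat_lit 5450446496807)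 (nat_lit 76) (nat_lit 52145889276) (nat_lit 17) (nat_lit 5) (nat_lit 20) (nat_lit 5) (nat_lit 18) (nat_lit 4) (nat_lit 320) (nat_lit 304) (nat_lit 156)) (XT.lf (nat_lit 0) (nat_lit 801482887208) (nat_lit 76) (nat_lit 4219102978074) (nat_lit 152) (nat_lit 3296990307476) (nat_lit 16) (nat_lit 5) (nat_lit 17) (nat_lit 5) (nat_lit 18) (nat_lit 4) (nat_lit 321) (nat_lit 304) (nat_lit 155)))) (XT.nd (nat_lit 156) (nat_lit 0) (nat_lit 76) (XT.nd (nat_lit 78) (nat_lit 0) (nat_lit 0) (XT.lf (nat_lit 0) (nat_lit 758894024406) (nat_lit 532) (nat_lit 170142022206) (nat_lit 532) (nat_lit 170142022206) (nat_lit 49) (nat_lit 3) (nat_lit 56) (nat_lit 3) (nat_lit 56) (nat_lit 5) (nat_lit 305) (nat_lit 305) (nat_lit 170)) (XT.lf (nat_lit 76) (nat_lit 1655941423826) (nat_lit 0) (nat_lit 15506182134) (nat_lit 532) (nat_lit 688599205665) (nat_lit 50) (nat_lit 5) (nat_lit 49) (nat_lit 3) (nat_lit 56) (nat_lit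 5) (nat_lit 306) (nat_lit 305) (nat_lit 169))) (XT.nd (nat_lit 78) (nat_lit 0) (nat_lit 76) (XT.lf (nat_lit 76) (nat_lit 1448629865699) (nat_lit 0) (nat_lit 495118032280) (nat_lit 532) (nat_lit 594595844637) (nat_lit 51) (nat_lit 5) (nat_lit 50) (nat_lit 5) (nat_lit 57) (nat_lit 5) (nat_lit 307) (nat_lit 305) (nat_lit 168)) (XT.lf (nat_lit 76) (nat_lit 1246493125561) (nat_lit 0) (nat_lit 1101907690180) (nat_lit 532) (nat_lit 387663790971) (nat_lit 52) (nat_lit 5) (nat_lit 51) (nat_lit 5) (nat_lit 58) (nat_lit 5) (nat_lit 308) (nat_lit 305) (nat_lit 167))))) (XT.nd (nat_lit 234) (nat_lit 684) (nat_lit 0) (XT.nd (nat_lit 78) (nat_lit 608) (nat_lit 0) (XT.lf (nat_lit 0) (nat_lit 1050332761901) (nat_lit 456) (nat_lit 1860829822954) (nat_lit 532) (nat_lit 44488142477) (nat_lit 46) (nat_lit 5) (nat_lit 52) (nat_lit 5) (nat_lit 53) (nat_lit 5) (nat_lit 309) (nat_lit 305) (nat_lit 166)) (XT.nd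 (nat_lit 78) (nat_lit 228) (nat_lit 0) (XT.lf (nat_lit 0) (nat_lit 438668279142) (nat_lit 380) (nat_lit 2350521733335) (nat_lit 76) (nat_lit 409829354451) (nat_lit 41) (nat_lit 5) (nat_lit 46) (nat_lit 5) (nat_lit 42) (nat_lit 5) (nat_lit 310) (nat_lit 305) (nat_lit 165)) (XT.lf (nat_lit 0) (nat_lit 633882405933) (nat_lit 228) (nat_lit 481479391396) (nat_lit 304) (nat_lit 2353543236021) (nat_lit 38) (nat_lit 5) (nat_lit 41) (nat_lit 5) (nat_lit 42) (nat_lit 5) (nat_lit 311) (nat_lit 305) (nat_lit 164)))) (XT.nd (nat_lit 156) (nat_lit 304) (nat_lit 0) (XT.nd (nat_lit 78) (nat_lit 152) (nat_lit 0) (XT.lf (nat_lit 0) (nat_lit 400499869890) (nat_lit 228) (nat_lit 1625147871422) (nat_lit 304) (nat_lit 1743058736583) (nat_lit 35) (nat_lit 5) (nat_lit 38) (nat_lit 5) (nat_lit 39) (nat_lit 5) (nat_lit 312) (nat_lit 305) (nat_lit 163)) (XT.lf (nat_lit 0) (nat_lit 154168764890) (nat_lit 152) (nat_lit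 3044253635416) (nat_lit 228) (nat_lit 904980072945) (nat_lit 33) (nat_lit 5) (nat_lit 35) (nat_lit 5) (nat_lit 36) (nat_lit 5) (nat_lit 313) (nat_lit 305) (nat_lit 162))) (XT.nd (nat_lit 78) (nat_lit 228) (nat_lit 0) (XT.lf (nat_lit 0) (nat_lit 201424795472) (nat_lit 228) (nat_lit 120498151020) (nat_lit 76) (nat_lit 4154622262988) (nat_lit 32) (nat_lit 5) (nat_lit 35) (nat_lit 5) (nat_lit 33) (nat_lit 5) (nat_lit 314) (nat_lit 305) (nat_lit 161)) (XT.lf (nat_lit 0) (nat_lit 1600514696699) (nat_lit 304) (nat_lit 484322998742) (nat_lit 76) (nat_lit 2804516444893) (nat_lit 29) (nat_lit 5) (nat_lit 33) (nat_lit 5) (nat_lit 30) (nat_lit 5) (nat_lit 315) (nat_lit 305) (nat_lit 160))))))))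
noncomputable def xc62 : XT := (XT.nd (nat_lit 80964) (nat_lit 0) (nat_lit 456) (XT.nd (nat_lit 40404) (nat_lit 0) (nat_lit 304) (XT.nd (nat_lit 39858) (nat_lit 0) (nat_lit 1596) (XT.nd (nat_lit 234) (nat_lit 456) (nat_lit 0) (XT.nd (nat_lit 78) (nat_lit 304) (nat_lit 0) (XT.lf (nat_lit 0) (nat_lit 3356778973999) (nat_lit 228) (nat_lit 914492758580) (nat_lit 76) (nat_lit 1081027806968) (nat_lit 27) (nat_lit 5) (nat_lit 30) (nat_lit 5) (nat_lit 28) (nat_lit 5) (nat_lit 316) (nat_lit 305) (nat_lit 159)) (XT.nd (nat_lit 78) (nat_lit 152) (nat_lit 0) (XT.lf (nat_lit 0) (nat_lit 4406426021528) (nat_lit 152) (nat_lit 1148159768910) (nat_lit 228) (nat_lit 315852726402) (nat_lit 25) (nat_lit 5) (nat_lit 27) (nat_lit 5) (nat_lit 28) (nat_lit 5) (nat_lit 317) (nat_lit 305) (nat_lit 158)) (XT.lf (nat_lit 0) (nat_lit 1728637105869) (nat_lit 152) (nat_lit 2224073458384) (nat_lit 76) (nat_lit 2494983125683)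 (nat_lit 23) (nat_lit 5) (nat_lit 25) (nat_lit 5) (nat_lit 24) (nat_lit 5) (nat_lit 318) (nat_lit 305) (nat_lit 157)))) (XT.nd (nat_lit 78) (nat_lit 304) (nat_lit 0) (XT.lf (nat_lit 0) (nat_lit 3898339391507) (nat_lit 152) (nat_lit 332531412915) (nat_lit 228) (nat_lit 2866428225420) (nat_lit 21) (nat_lit 5) (nat_lit 23) (nat_lit 5) (nat_lit 24) (nat_lit 5) (nat_lit 319) (nat_lit 305) (nat_lit 156)) (XT.nd (nat_lit 78) (nat_lit 228) (nat_lit 0) (XT.lf (nat_lit 0) (nat_lit 3306212725821) (nat_lit 76) (nat_lit 4040302506032) (nat_lit 152) (nat_lit 478783884955) (nat_lit 20) (nat_lit 5) (nat_lit 21) (nat_lit 5) (nat_lit 22) (nat_lit 4) (nat_lit 320) (nat_lit 305) (nat_lit 155)) (XT.lf (nat_lit 0) (nat_lit 2317078182532) (nat_lit 228) (nat_lit 6268013452242) (nat_lit 76) (nat_lit 59967779783) (nat_lit 17) (nat_lit 5) (nat_lit 20) (nat_lit 5) (nat_lit 18) (nat_lit 4) (nat_lit 321) (nat_lit 305)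 (nat_lit 154))))) (XT.nd (nat_lit 234) (nat_lit 836) (nat_lit 0) (XT.nd (nat_lit 78) (nat_lit 0) (nat_lit 0) (XT.lf (nat_lit 0) (nat_lit 872728149557) (nat_lit 532) (nat_lit 195663313905) (nat_lit 532) (nat_lit 195663313905) (nat_lit 49) (nat_lit 3) (nat_lit 56) (nat_lit 3) (nat_lit 56) (nat_lit 5) (nat_lit 306) (nat_lit 306) (nat_lit 168)) (XT.nd (nat_lit 78) (nat_lit 0) (nat_lit 76) (XT.lf (nat_lit 76) (nat_lit 1904332658694) (nat_lit 0) (nat_lit 17832126047) (nat_lit 532) (nat_lit 791889045503) (nat_lit 50) (nat_lit 5) (nat_lit 49) (nat_lit 3) (nat_lit 56) (nat_lit 5) (nat_lit 307) (nat_lit 306) (nat_lit 167)) (XT.lf (nat_lit 76) (nat_lit 1665924368271) (nat_lit 0) (nat_lit 569385747550) (nat_lit 532) (nat_lit 683785185455) (nat_lit 51) (nat_lit 5) (nat_lit 50) (nat_lit 5) (nat_lit 57) (nat_lit 5) (nat_lit 308) (nat_lit 306) (nat_lit 166)))) (XT.nd (nat_lit 156) (nat_lit 608) (nat_lit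 0) (XT.nd (nat_lit 78) (nat_lit 380) (nat_lit 0) (XT.lf (nat_lit 76) (nat_lit 1433467117920) (nat_lit 0) (nat_lit 1267193849351) (nat_lit 532) (nat_lit 445813328043) (nat_lit 52) (nat_lit 5) (nat_lit 51) (nat_lit 5) (nat_lit 58) (nat_lit 5) (nat_lit 309) (nat_lit 306) (nat_lit 165)) (XT.lf (nat_lit 0) (nat_lit 1207882700045) (nat_lit 456) (nat_lit 2139954298360) (nat_lit 532) (nat_lit 51161335902) (nat_lit 46) (nat_lit 5) (nat_lit 52) (nat_lit 5) (nat_lit 53) (nat_lit 5) (nat_lit 310) (nat_lit 306) (nat_lit 164))) (XT.nd (nat_lit 78) (nat_lit 228) (nat_lit 0) (XT.lf (nat_lit 0) (nat_lit 504468544645) (nat_lit 380) (nat_lit 2703099968213) (nat_lit 76) (nat_lit 471303757170) (nat_lit 41) (nat_lit 5) (nat_lit 46) (nat_lit 5) (nat_lit 42) (nat_lit 5) (nat_lit 311) (nat_lit 306) (nat_lit 163)) (XT.lf (nat_lit 0) (nat_lit 728964789819) (nat_lit 228) (nat_lit 553701298212) (nat_lit 304) (nat_lit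 2706574698590) (nat_lit 38) (nat_lit 5) (nat_lit 41) (nat_lit 5) (nat_lit 42) (nat_lit 5) (nat_lit 312) (nat_lit 306) (nat_lit 162)))))) (XT.nd (nat_lit 468) (nat_lit 304) (nat_lit 0) (XT.nd (nat_lit 234) (nat_lit 532) (nat_lit 0) (XT.nd (nat_lit 78) (nat_lit 228) (nat_lit 0) (XT.lf (nat_lit 0) (nat_lit 460574872966) (nat_lit 228) (nat_lit 1868920048476) (nat_lit 304) (nat_lit 2004517526585) (nat_lit 35) (nat_lit 5) (nat_lit 38) (nat_lit 5) (nat_lit 39) (nat_lit 5) (nat_lit 313) (nat_lit 306) (nat_lit 161)) (XT.nd (nat_lit 78) (nat_lit 76) (nat_lit 0) (XT.lf (nat_lit 0) (nat_lit 177294101644) (nat_lit 152) (nat_lit 3500891675778) (nat_lit 228) (nat_lit 1040727065419) (nat_lit 33) (nat_lit 5) (nat_lit 35) (nat_lit 5) (nat_lit 36) (nat_lit 5) (nat_lit 314) (nat_lit 306) (nat_lit 160)) (XT.lf (nat_lit 0) (nat_lit 231638530049) (nat_lit 228) (nat_lit 138572853695) (nat_lit 76) (nat_lit 4777815605912)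 (nat_lit 32) (nat_lit 5) (nat_lit 35) (nat_lit 5) (nat_lit 33) (nat_lit 5) (nat_lit 315) (nat_lit 306) (nat_lit 159)))) (XT.nd (nat_lit 78) (nat_lit 304) (nat_lit 0) (XT.lf (nat_lit 0) (nat_lit 1840591915020) (nat_lit 304) (nat_lit 556971429258) (nat_lit 76) (nat_lit 3225193915978) (nat_lit 29) (nat_lit 5) (nat_lit 33) (nat_lit 5) (nat_lit 30) (nat_lit 5) (nat_lit 316) (nat_lit 306) (nat_lit 158)) (XT.nd (nat_lit 78) (nat_lit 152) (nat_lit 0) (XT.lf (nat_lit 0) (nat_lit 3860295832663) (nat_lit 228) (nat_lit 1051666653815) (nat_lit 76) (nat_lit 1243181982976) (nat_lit 27) (nat_lit 5) (nat_lit 30) (nat_lit 5) (nat_lit 28) (nat_lit 5) (nat_lit 317) (nat_lit 306) (nat_lit 157)) (XT.lf (nat_lit 0) (nat_lit 5067389941738) (nat_lit 152) (nat_lit 1320383728599) (nat_lit 228) (nat_lit 363230623105) (nat_lit 25) (nat_lit 5) (nat_lit 27) (nat_lit 5) (nat_lit 28) (nat_lit 5) (nat_lit 318) (nat_lit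 306) (nat_lit 156))))) (XT.nd (nat_lit 39780) (nat_lit 0) (nat_lit 1900) (XT.nd (nat_lit 78) (nat_lit 152) (nat_lit 0) (XT.lf (nat_lit 0) (nat_lit 1987932682397) (nat_lit 152) (nat_lit 2557684460302) (nat_lit 76) (nat_lit 2869230599861) (nat_lit 23) (nat_lit 5) (nat_lit 25) (nat_lit 5) (nat_lit 24) (nat_lit 5) (nat_lit 319) (nat_lit 306) (nat_lit 155)) (XT.nd (nat_lit 39624) (nat_lit 0) (nat_lit 2128) (XT.lf (nat_lit 0) (nat_lit 4483090315647) (nat_lit 152) (nat_lit 382411119068) (nat_lit 228) (nat_lit 3296392448821) (nat_lit 21) (nat_lit 5) (nat_lit 23) (nat_lit 5) (nat_lit 24) (nat_lit 5) (nat_lit 320) (nat_lit 306) (nat_lit 154)) (XT.lf (nat_lit 0) (nat_lit 1003637388241) (nat_lit 532) (nat_lit 225012802195) (nat_lit 532) (nat_lit 225012802195) (nat_lit 49) (nat_lit 3) (nat_lit 56) (nat_lit 3) (nat_lit 56) (nat_lit 5) (nat_lit 307) (nat_lit 307) (nat_lit 166)))) (XT.nd (nat_lit 156)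 (nat_lit 228) (nat_lit 0) (XT.nd (nat_lit 78) (nat_lit 0) (nat_lit 76) (XT.lf (nat_lit 76) (nat_lit 2189982573600) (nat_lit 0) (nat_lit 20506957501) (nat_lit 532) (nat_lit 910672371317) (nat_lit 50) (nat_lit 5) (nat_lit 49) (nat_lit 3) (nat_lit 56) (nat_lit 5) (nat_lit 308) (nat_lit 307) (nat_lit 165)) (XT.lf (nat_lit 76) (nat_lit 1915813040689) (nat_lit 0) (nat_lit 654793617568) (nat_lit 532) (nat_lit 786352936145) (nat_lit 51) (nat_lit 5) (nat_lit 50) (nat_lit 5) (nat_lit 57) (nat_lit 5) (nat_lit 309) (nat_lit 307) (nat_lit 164))) (XT.nd (nat_lit 78) (nat_lit 380) (nat_lit 0) (XT.lf (nat_lit 76) (nat_lit 1648487203396) (nat_lit 0) (nat_lit 1457272931022) (nat_lit 532) (nat_lit 512685303375) (nat_lit 52) (nat_lit 5) (nat_lit 51) (nat_lit 5) (nat_lit 58) (nat_lit 5) (nat_lit 310) (nat_lit 307) (nat_lit 163)) (XT.lf (nat_lit 0) (nat_lit 1389065123092) (nat_lit 456) (nat_lit 2460947444597)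 (nat_lit 532) (nat_lit 58835515155) (nat_lit 46) (nat_lit 5) (nat_lit 52) (nat_lit 5) (nat_lit 53) (nat_lit 5) (nat_lit 311) (nat_lit 307) (nat_lit 162))))))) (XT.nd (nat_lit 40716) (nat_lit 0) (nat_lit 152) (XT.nd (nat_lit 468) (nat_lit 456) (nat_lit 0) (XT.nd (nat_lit 234) (nat_lit 456) (nat_lit 0) (XT.nd (nat_lit 78) (nat_lit 456) (nat_lit 0) (XT.lf (nat_lit 0) (nat_lit 580138844212) (nat_lit 380) (nat_lit 3108564944448) (nat_lit 76) (nat_lit 541999320405) (nat_lit 41) (nat_lit 5) (nat_lit 46) (nat_lit 5) (nat_lit 42) (nat_lit 5) (nat_lit 312) (nat_lit 307) (nat_lit 161)) (XT.nd (nat_lit 78) (nat_lit 228) (nat_lit 0) (XT.lf (nat_lit 0) (nat_lit 838309525681) (nat_lit 228) (nat_lit 636756491512) (nat_lit 304) (nat_lit 3112560886113) (nat_lit 38) (nat_lit 5) (nat_lit 41) (nat_lit 5) (nat_lit 42) (nat_lit 5) (nat_lit 313) (nat_lit 307) (nat_lit 160)) (XT.lf (nat_lit 0) (nat_lit 529661120994)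 (nat_lit 228) (nat_lit 2149258052981) (nat_lit 304) (nat_lit 2305195140083) (nat_lit 35) (nat_lit 5) (nat_lit 38) (nat_lit 5) (nat_lit 39) (nat_lit 5) (nat_lit 314) (nat_lit 307) (nat_lit 159)))) (XT.nd (nat_lit 78) (nat_lit 304) (nat_lit 0) (XT.lf (nat_lit 0) (nat_lit 203888233542) (nat_lit 152) (nat_lit 4026025423402) (nat_lit 228) (nat_lit 1196836111267) (nat_lit 33) (nat_lit 5) (nat_lit 35) (nat_lit 5) (nat_lit 36) (nat_lit 5) (nat_lit 315) (nat_lit 307) (nat_lit 158)) (XT.nd (nat_lit 78) (nat_lit 228) (nat_lit 0) (XT.lf (nat_lit 0) (nat_lit 266384321092) (nat_lit 228) (nat_lit 159358766643) (nat_lit 76) (nat_lit 5494487949426) (nat_lit 32) (nat_lit 5) (nat_lit 35) (nat_lit 5) (nat_lit 33) (nat_lit 5) (nat_lit 316) (nat_lit 307) (nat_lit 157)) (XT.lf (nat_lit 0) (nat_lit 2116680712719) (nat_lit 304) (nat_lit 640517129057) (nat_lit 76) (nat_lit 3708973006666) (nat_lit 29) (nat_lit 5)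 (nat_lit 33) (nat_lit 5) (nat_lit 30) (nat_lit 5) (nat_lit 317) (nat_lit 307) (nat_lit 156))))) (XT.nd (nat_lit 39936) (nat_lit 0) (nat_lit 1748) (XT.nd (nat_lit 156) (nat_lit 304) (nat_lit 0) (XT.lf (nat_lit 0) (nat_lit 4439340217063) (nat_lit 228) (nat_lit 1209416637860) (nat_lit 76) (nat_lit 1429659284175) (nat_lit 27) (nat_lit 5) (nat_lit 30) (nat_lit 5) (nat_lit 28) (nat_lit 5) (nat_lit 318) (nat_lit 307) (nat_lit 155)) (XT.nd (nat_lit 39702) (nat_lit 0) (nat_lit 1976) (XT.lf (nat_lit 0) (nat_lit 2286122592808) (nat_lit 152) (nat_lit 2941337116615) (nat_lit 76) (nat_lit 3299615193867) (nat_lit 23) (nat_lit 5) (nat_lit 25) (nat_lit 5) (nat_lit 24) (nat_lit 5) (nat_lit 320) (nat_lit 307) (nat_lit 153)) (XT.lf (nat_lit 0) (nat_lit 1154183008765) (nat_lit 532) (nat_lit 258764715874) (nat_lit 532) (nat_lit 258764715874) (nat_lit 49) (nat_lit 3) (nat_lit 56) (nat_lit 3) (nat_lit 56) (nat_lit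 5) (nat_lit 308) (nat_lit 308) (nat_lit 164)))) (XT.nd (nat_lit 156) (nat_lit 228) (nat_lit 0) (XT.nd (nat_lit 78) (nat_lit 0) (nat_lit 76) (XT.lf (nat_lit 76) (nat_lit 2518479971816) (nat_lit 0) (nat_lit 23583010614) (nat_lit 532) (nat_lit 1047273203566) (nat_lit 50) (nat_lit 5) (nat_lit 49) (nat_lit 3) (nat_lit 56) (nat_lit 5) (nat_lit 309) (nat_lit 308) (nat_lit 163)) (XT.lf (nat_lit 76) (nat_lit 2203185009782) (nat_lit 0) (nat_lit 753012666166) (nat_lit 532) (nat_lit 904305856053) (nat_lit 51) (nat_lit 5) (nat_lit 50) (nat_lit 5) (nat_lit 57) (nat_lit 5) (nat_lit 310) (nat_lit 308) (nat_lit 162))) (XT.nd (nat_lit 78) (nat_lit 380) (nat_lit 0) (XT.lf (nat_lit 76) (nat_lit 1895760297357) (nat_lit 0) (nat_lit 1675863873903) (nat_lit 532) (nat_lit 589588080829) (nat_lit 52) (nat_lit 5) (nat_lit 51) (nat_lit 5) (nat_lit 58) (nat_lit 5) (nat_lit 311) (nat_lit 308) (nat_lit 161)) (XT.lf (nat_lit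 0) (nat_lit 1597424905197) (nat_lit 456) (nat_lit 2830089562409) (nat_lit 532) (nat_lit 67660826449) (nat_lit 46) (nat_lit 5) (nat_lit 52) (nat_lit 5) (nat_lit 53) (nat_lit 5) (nat_lit 312) (nat_lit 308) (nat_lit 160)))))) (XT.nd (nat_lit 468) (nat_lit 304) (nat_lit 0) (XT.nd (nat_lit 234) (nat_lit 456) (nat_lit 0) (XT.nd (nat_lit 78) (nat_lit 456) (nat_lit 0) (XT.lf (nat_lit 0) (nat_lit 667159684355) (nat_lit 380) (nat_lit 3574849671752) (nat_lit 76) (nat_lit 623299218209) (nat_lit 41) (nat_lit 5) (nat_lit 46) (nat_lit 5) (nat_lit 42) (nat_lit 5) (nat_lit 313) (nat_lit 308) (nat_lit 159)) (XT.nd (nat_lit 78) (nat_lit 228) (nat_lit 0) (XT.lf (nat_lit 0) (nat_lit 964055967681) (nat_lit 228) (nat_lit 732269964157) (nat_lit 304) (nat_lit 3579445005975) (nat_lit 38) (nat_lit 5) (nat_lit 41) (nat_lit 5) (nat_lit 42) (nat_lit 5) (nat_lit 314) (nat_lit 308) (nat_lit 158)) (XT.lf (nat_lit 0) (nat_lit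 609110302061) (nat_lit 228) (nat_lit 2471646758836) (nat_lit 304) (nat_lit 2650974399383) (nat_lit 35) (nat_lit 5) (nat_lit 38) (nat_lit 5) (nat_lit 39) (nat_lit 5) (nat_lit 315) (nat_lit 308) (nat_lit 157)))) (XT.nd (nat_lit 78) (nat_lit 304) (nat_lit 0) (XT.lf (nat_lit 0) (nat_lit 234471481163) (nat_lit 152) (nat_lit 4629929234081) (nat_lit 228) (nat_lit 1376361517399) (nat_lit 33) (nat_lit 5) (nat_lit 35) (nat_lit 5) (nat_lit 36) (nat_lit 5) (nat_lit 316) (nat_lit 308) (nat_lit 156)) (XT.nd (nat_lit 78) (nat_lit 228) (nat_lit 0) (XT.lf (nat_lit 0) (nat_lit 306341977978) (nat_lit 228) (nat_lit 183262570218) (nat_lit 76) (nat_lit 6318661143827) (nat_lit 32) (nat_lit 5) (nat_lit 35) (nat_lit 5) (nat_lit 33) (nat_lit 5) (nat_lit 317) (nat_lit 308) (nat_lit 155)) (XT.lf (nat_lit 0) (nat_lit 2434182827527) (nat_lit 304) (nat_lit 736594687383) (nat_lit 76) (nat_lit 4265318960154) (nat_lit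 29) (nat_lit 5) (nat_lit 33) (nat_lit 5) (nat_lit 30) (nat_lit 5) (nat_lit 318) (nat_lit 308) (nat_lit 154))))) (XT.nd (nat_lit 39936) (nat_lit 0) (nat_lit 1596) (XT.nd (nat_lit 78) (nat_lit 152) (nat_lit 0) (XT.lf (nat_lit 0) (nat_lit 5105241256806) (nat_lit 228) (nat_lit 1390829122933) (nat_lit 76) (nat_lit 1644108179639) (nat_lit 27) (nat_lit 5) (nat_lit 30) (nat_lit 5) (nat_lit 28) (nat_lit 5) (nat_lit 319) (nat_lit 308) (nat_lit 153)) (XT.nd (nat_lit 39780) (nat_lit 0) (nat_lit 1824) (XT.lf (nat_lit 0) (nat_lit 6701623222425) (nat_lit 152) (nat_lit 1746207472933) (nat_lit 228) (nat_lit 480372481390) (nat_lit 25) (nat_lit 5) (nat_lit 27) (nat_lit 5) (nat_lit 28) (nat_lit 5) (nat_lit 320) (nat_lit 308) (nat_lit 152)) (XT.lf (nat_lit 0) (nat_lit 1327310469371) (nat_lit 532) (nat_lit 297579418227) (nat_lit 532) (nat_lit 297579418227) (nat_lit 49) (nat_lit 3) (nat_lit 56) (nat_lit 3) (nat_lit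 56) (nat_lit 5) (nat_lit 309) (nat_lit 309) (nat_lit 162)))) (XT.nd (nat_lit 156) (nat_lit 228) (nat_lit 0) (XT.nd (nat_lit 78) (nat_lit 0) (nat_lit 76) (XT.lf (nat_lit 76) (nat_lit 2896251976794) (nat_lit 0) (nat_lit 27120469380) (nat_lit 532) (nat_lit 1204364166371) (nat_lit 50) (nat_lit 5) (nat_lit 49) (nat_lit 3) (nat_lit 56) (nat_lit 5) (nat_lit 310) (nat_lit 309) (nat_lit 161)) (XT.lf (nat_lit 76) (nat_lit 2533662771070) (nat_lit 0) (nat_lit 865964570599) (nat_lit 532) (nat_lit 1039951718950) (nat_lit 51) (nat_lit 5) (nat_lit 50) (nat_lit 5) (nat_lit 57) (nat_lit 5) (nat_lit 311) (nat_lit 309) (nat_lit 160))) (XT.nd (nat_lit 78) (nat_lit 380) (nat_lit 0) (XT.lf (nat_lit 76) (nat_lit 2180124352131) (nat_lit 0) (nat_lit 1927243457429) (nat_lit 532) (nat_lit 678026279304) (nat_lit 52) (nat_lit 5) (nat_lit 51) (nat_lit 5) (nat_lit 58) (nat_lit 5) (nat_lit 312) (nat_lit 309) (nat_lit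 159)) (XT.lf (nat_lit 0) (nat_lit 1837038651291) (nat_lit 456) (nat_lit 3254602997618) (nat_lit 532) (nat_lit 77809938334) (nat_lit 46) (nat_lit 5) (nat_lit 52) (nat_lit 5) (nat_lit 53) (nat_lit 5) (nat_lit 313) (nat_lit 309) (nat_lit 158))))))))
noncomputable def xc63 : XT := (XT.nd (nat_lit 121836) (nat_lit 0) (nat_lit 608) (XT.nd (nat_lit 40794) (nat_lit 0) (nat_lit 380) (XT.nd (nat_lit 468) (nat_lit 152) (nat_lit 0) (XT.nd (nat_lit 234) (nat_lit 456) (nat_lit 0) (XT.nd (nat_lit 78) (nat_lit 456) (nat_lit 0) (XT.lf (nat_lit 0) (nat_lit 767233647226) (nat_lit 380) (nat_lit 4111077111653) (nat_lit 76) (nat_lit 716794100746) (nat_lit 41) (nat_lit 5) (nat_lit 46) (nat_lit 5) (nat_lit 42) (nat_lit 5) (nat_lit 314) (nat_lit 309) (nat_lit 157)) (XT.nd (nat_lit 78) (nat_lit 228) (nat_lit 0) (XT.lf (nat_lit 0) (nat_lit 1108664372775) (nat_lit 228) (nat_lit 842110457962) (nat_lit 304) (nat_lit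 4116361746999) (nat_lit 38) (nat_lit 5) (nat_lit 41) (nat_lit 5) (nat_lit 42) (nat_lit 5) (nat_lit 315) (nat_lit 309) (nat_lit 156)) (XT.lf (nat_lit 0) (nat_lit 700476857138) (nat_lit 228) (nat_lit 2842393771079) (nat_lit 304) (nat_lit 3048620550434) (nat_lit 35) (nat_lit 5) (nat_lit 38) (nat_lit 5) (nat_lit 39) (nat_lit 5) (nat_lit 316) (nat_lit 309) (nat_lit 155)))) (XT.nd (nat_lit 78) (nat_lit 304) (nat_lit 0) (XT.lf (nat_lit 0) (nat_lit 269642212858) (nat_lit 152) (nat_lit 5324418617054) (nat_lit 228) (nat_lit 1582815737024) (nat_lit 33) (nat_lit 5) (nat_lit 35) (nat_lit 5) (nat_lit 36) (nat_lit 5) (nat_lit 317) (nat_lit 309) (nat_lit 154)) (XT.nd (nat_lit 78) (nat_lit 228) (nat_lit 0) (XT.lf (nat_lit 0) (nat_lit 352293281271) (nat_lit 228) (nat_lit 210751947114) (nat_lit 76) (nat_lit 7266460316904) (nat_lit 32) (nat_lit 5) (nat_lit 35) (nat_lit 5) (nat_lit 33) (nat_lit 5) (nat_lit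 318) (nat_lit 309) (nat_lit 153)) (XT.lf (nat_lit 0) (nat_lit 2799310257629) (nat_lit 304) (nat_lit 847083882148) (nat_lit 76) (nat_lit 4905116806059) (nat_lit 29) (nat_lit 5) (nat_lit 33) (nat_lit 5) (nat_lit 30) (nat_lit 5) (nat_lit 319) (nat_lit 309) (nat_lit 152))))) (XT.nd (nat_lit 40014) (nat_lit 0) (nat_lit 1064) (XT.nd (nat_lit 39858) (nat_lit 0) (nat_lit 1672) (XT.lf (nat_lit 0) (nat_lit 5871027450758) (nat_lit 228) (nat_lit 1599453483352) (nat_lit 76) (nat_lit 1890724408730) (nat_lit 27) (nat_lit 5) (nat_lit 30) (nat_lit 5) (nat_lit 28) (nat_lit 5) (nat_lit 320) (nat_lit 309) (nat_lit 151)) (XT.nd (nat_lit 78) (nat_lit 0) (nat_lit 0) (XT.lf (nat_lit 0) (nat_lit 1526407046802) (nat_lit 532) (nat_lit 342216327158) (nat_lit 532) (nat_lit 342216327158) (nat_lit 49) (nat_lit 3) (nat_lit 56) (nat_lit 3) (nat_lit 56) (nat_lit 5) (nat_lit 310) (nat_lit 310) (nat_lit 160)) (XT.lf (nat_lit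 76) (nat_lit 3330689780275) (nat_lit 0) (nat_lit 31188545211) (nat_lit 532) (nat_lit 1385018777919) (nat_lit 50) (nat_lit 5) (nat_lit 49) (nat_lit 3) (nat_lit 56) (nat_lit 5) (nat_lit 311) (nat_lit 310) (nat_lit 159)))) (XT.nd (nat_lit 156) (nat_lit 684) (nat_lit 0) (XT.nd (nat_lit 78) (nat_lit 0) (nat_lit 76) (XT.lf (nat_lit 76) (nat_lit 2913712194157) (nat_lit 0) (nat_lit 995859259598) (nat_lit 532) (nat_lit 1195944465065) (nat_lit 51) (nat_lit 5) (nat_lit 50) (nat_lit 5) (nat_lit 57) (nat_lit 5) (nat_lit 312) (nat_lit 310) (nat_lit 158)) (XT.lf (nat_lit 76) (nat_lit 2507143012641) (nat_lit 0) (nat_lit 2216329977888) (nat_lit 532) (nat_lit 779730210878) (nat_lit 52) (nat_lit 5) (nat_lit 51) (nat_lit 5) (nat_lit 58) (nat_lit 5) (nat_lit 313) (nat_lit 310) (nat_lit 157))) (XT.nd (nat_lit 78) (nat_lit 380) (nat_lit 0) (XT.lf (nat_lit 0) (nat_lit 2112594456785) (nat_lit 456) (nat_lit 3742793447903)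 (nat_lit 532) (nat_lit 89481419948) (nat_lit 46) (nat_lit 5) (nat_lit 52) (nat_lit 5) (nat_lit 53) (nat_lit 5) (nat_lit 314) (nat_lit 310) (nat_lit 156)) (XT.lf (nat_lit 0) (nat_lit 882318702035) (nat_lit 380) (nat_lit 4727738670189) (nat_lit 76) (nat_lit 824313215712) (nat_lit 41) (nat_lit 5) (nat_lit 46) (nat_lit 5) (nat_lit 42) (nat_lit 5) (nat_lit 315) (nat_lit 310) (nat_lit 155)))))) (XT.nd (nat_lit 40404) (nat_lit 0) (nat_lit 76) (XT.nd (nat_lit 234) (nat_lit 76) (nat_lit 0) (XT.nd (nat_lit 78) (nat_lit 380) (nat_lit 0) (XT.lf (nat_lit 0) (nat_lit 1274964036209) (nat_lit 228) (nat_lit 968427026037) (nat_lit 304) (nat_lit 4733816001585) (nat_lit 38) (nat_lit 5) (nat_lit 41) (nat_lit 5) (nat_lit 42) (nat_lit 5) (nat_lit 316) (nat_lit 310) (nat_lit 154)) (XT.nd (nat_lit 78) (nat_lit 152) (nat_lit 0) (XT.lf (nat_lit 0) (nat_lit 805548393094) (nat_lit 228) (nat_lit 3268752835545) (nat_lit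 304) (nat_lit 3505913626302) (nat_lit 35) (nat_lit 5) (nat_lit 38) (nat_lit 5) (nat_lit 39) (nat_lit 5) (nat_lit 317) (nat_lit 310) (nat_lit 153)) (XT.lf (nat_lit 0) (nat_lit 310088551985) (nat_lit 152) (nat_lit 6123081407993) (nat_lit 228) (nat_lit 1820238091541) (nat_lit 33) (nat_lit 5) (nat_lit 35) (nat_lit 5) (nat_lit 36) (nat_lit 5) (nat_lit 318) (nat_lit 310) (nat_lit 152)))) (XT.nd (nat_lit 40014) (nat_lit 0) (nat_lit 1292) (XT.lf (nat_lit 0) (nat_lit 405137278448) (nat_lit 228) (nat_lit 242364732650) (nat_lit 76) (nat_lit 8356429365576) (nat_lit 32) (nat_lit 5) (nat_lit 35) (nat_lit 5) (nat_lit 33) (nat_lit 5) (nat_lit 319) (nat_lit 310) (nat_lit 151)) (XT.nd (nat_lit 78) (nat_lit 0) (nat_lit 0) (XT.lf (nat_lit 0) (nat_lit 1755368109135) (nat_lit 532) (nat_lit 393548773357) (nat_lit 532) (nat_lit 393548773357) (nat_lit 49) (nat_lit 3) (nat_lit 56) (nat_lit 3) (nat_lit 56) (nat_lit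 5) (nat_lit 311) (nat_lit 311) (nat_lit 158)) (XT.lf (nat_lit 76) (nat_lit 3830293252580) (nat_lit 0) (nat_lit 35866831094) (nat_lit 532) (nat_lit 1592771584470) (nat_lit 50) (nat_lit 5) (nat_lit 49) (nat_lit 3) (nat_lit 56) (nat_lit 5) (nat_lit 312) (nat_lit 311) (nat_lit 157))))) (XT.nd (nat_lit 234) (nat_lit 988) (nat_lit 0) (XT.nd (nat_lit 78) (nat_lit 304) (nat_lit 0) (XT.lf (nat_lit 76) (nat_lit 3350769028896) (nat_lit 0) (nat_lit 1145238151115) (nat_lit 532) (nat_lit 1375336125956) (nat_lit 51) (nat_lit 5) (nat_lit 50) (nat_lit 5) (nat_lit 57) (nat_lit 5) (nat_lit 313) (nat_lit 311) (nat_lit 156)) (XT.nd (nat_lit 78) (nat_lit 380) (nat_lit 0) (XT.lf (nat_lit 76) (nat_lit 2883214470352) (nat_lit 0) (nat_lit 2548779475967) (nat_lit 532) (nat_lit 896689734705) (nat_lit 52) (nat_lit 5) (nat_lit 51) (nat_lit 5) (nat_lit 58) (nat_lit 5) (nat_lit 314) (nat_lit 311) (nat_lit 155)) (XT.lf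 (nat_lit 0) (nat_lit 2429483631200) (nat_lit 456) (nat_lit 4304212465573) (nat_lit 532) (nat_lit 102903626032) (nat_lit 46) (nat_lit 5) (nat_lit 52) (nat_lit 5) (nat_lit 53) (nat_lit 5) (nat_lit 315) (nat_lit 311) (nat_lit 154)))) (XT.nd (nat_lit 234) (nat_lit 380) (nat_lit 0) (XT.nd (nat_lit 78) (nat_lit 228) (nat_lit 0) (XT.lf (nat_lit 0) (nat_lit 1014666513182) (nat_lit 380) (nat_lit 5436899464507) (nat_lit 76) (nat_lit 947960197957) (nat_lit 41) (nat_lit 5) (nat_lit 46) (nat_lit 5) (nat_lit 42) (nat_lit 5) (nat_lit 316) (nat_lit 311) (nat_lit 153)) (XT.lf (nat_lit 0) (nat_lit 1466208647325) (nat_lit 228) (nat_lit 1113691079475) (nat_lit 304) (nat_lit 5443888396178) (nat_lit 38) (nat_lit 5) (nat_lit 41) (nat_lit 5) (nat_lit 42) (nat_lit 5) (nat_lit 317) (nat_lit 311) (nat_lit 152))) (XT.nd (nat_lit 40092) (nat_lit 0) (nat_lit 1216) (XT.lf (nat_lit 0) (nat_lit 356601840226) (nat_lit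 152) (nat_lit 7041543617969) (nat_lit 228) (nat_lit 2093273800707) (nat_lit 33) (nat_lit 5) (nat_lit 35) (nat_lit 5) (nat_lit 36) (nat_lit 5) (nat_lit 319) (nat_lit 311) (nat_lit 150)) (XT.lf (nat_lit 0) (nat_lit 2018673329522) (nat_lit 532) (nat_lit 452581087186) (nat_lit 532) (nat_lit 452581087186) (nat_lit 49) (nat_lit 3) (nat_lit 56) (nat_lit 3) (nat_lit 56) (nat_lit 5) (nat_lit 312) (nat_lit 312) (nat_lit 156))))))) (XT.nd (nat_lit 41106) (nat_lit 0) (nat_lit 228) (XT.nd (nat_lit 468) (nat_lit 228) (nat_lit 0) (XT.nd (nat_lit 234) (nat_lit 836) (nat_lit 0) (XT.nd (nat_lit 78) (nat_lit 0) (nat_lit 76) (XT.lf (nat_lit 76) (nat_lit 4404837244447) (nat_lit 0) (nat_lit 41246858860) (nat_lit 532) (nat_lit 1831687314475) (nat_lit 50) (nat_lit 5) (nat_lit 49) (nat_lit 3) (nat_lit 56) (nat_lit 5) (nat_lit 313) (nat_lit 312) (nat_lit 155)) (XT.nd (nat_lit 78) (nat_lit 0) (nat_lit 76) (XT.lf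 (nat_lit 76) (nat_lit 3853384387476) (nat_lit 0) (nat_lit 1317023875732) (nat_lit 532) (nat_lit 1581636538144) (nat_lit 51) (nat_lit 5) (nat_lit 50) (nat_lit 5) (nat_lit 57) (nat_lit 5) (nat_lit 314) (nat_lit 312) (nat_lit 154)) (XT.lf (nat_lit 76) (nat_lit 3315696645302) (nat_lit 0) (nat_lit 2931096398417) (nat_lit 532) (nat_lit 1031193189009) (nat_lit 52) (nat_lit 5) (nat_lit 51) (nat_lit 5) (nat_lit 58) (nat_lit 5) (nat_lit 315) (nat_lit 312) (nat_lit 153)))) (XT.nd (nat_lit 78) (nat_lit 608) (nat_lit 0) (XT.lf (nat_lit 0) (nat_lit 2793906180339) (nat_lit 456) (nat_lit 4949844335776) (nat_lit 532) (nat_lit 118339164713) (nat_lit 46) (nat_lit 5) (nat_lit 52) (nat_lit 5) (nat_lit 53) (nat_lit 5) (nat_lit 316) (nat_lit 312) (nat_lit 152)) (XT.nd (nat_lit 78) (nat_lit 228) (nat_lit 0) (XT.lf (nat_lit 0) (nat_lit 1166866494576) (nat_lit 380) (nat_lit 6252434379487) (nat_lit 76) (nat_lit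 1090154227567) (nat_lit 41) (nat_lit 5) (nat_lit 46) (nat_lit 5) (nat_lit 42) (nat_lit 5) (nat_lit 317) (nat_lit 312) (nat_lit 151)) (XT.lf (nat_lit 0) (nat_lit 1686139948722) (nat_lit 228) (nat_lit 1280744741042) (nat_lit 304) (nat_lit 6260471651337) (nat_lit 38) (nat_lit 5) (nat_lit 41) (nat_lit 5) (nat_lit 42) (nat_lit 5) (nat_lit 318) (nat_lit 312) (nat_lit 150))))) (XT.nd (nat_lit 40326) (nat_lit 0) (nat_lit 456) (XT.nd (nat_lit 40170) (nat_lit 0) (nat_lit 1064) (XT.lf (nat_lit 0) (nat_lit 1065337760512) (nat_lit 228) (nat_lit 4322925623284) (nat_lit 304) (nat_lit 4636570761133) (nat_lit 35) (nat_lit 5) (nat_lit 38) (nat_lit 5) (nat_lit 39) (nat_lit 5) (nat_lit 319) (nat_lit 312) (nat_lit 149)) (XT.nd (nat_lit 78) (nat_lit 0) (nat_lit 0) (XT.lf (nat_lit 0) (nat_lit 2321474331988) (nat_lit 532) (nat_lit 520468248621) (nat_lit 532) (nat_lit 520468248621) (nat_lit 49) (nat_lit 3) (nat_lit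 56) (nat_lit 3) (nat_lit 56) (nat_lit 5) (nat_lit 313) (nat_lit 313) (nat_lit 154)) (XT.lf (nat_lit 76) (nat_lit 5065562834124) (nat_lit 0) (nat_lit 47433890034) (nat_lit 532) (nat_lit 2106440405850) (nat_lit 50) (nat_lit 5) (nat_lit 49) (nat_lit 3) (nat_lit 56) (nat_lit 5) (nat_lit 314) (nat_lit 313) (nat_lit 153)))) (XT.nd (nat_lit 156) (nat_lit 684) (nat_lit 0) (XT.nd (nat_lit 78) (nat_lit 0) (nat_lit 76) (XT.lf (nat_lit 76) (nat_lit 4431392048808) (nat_lit 0) (nat_lit 1514577458565) (nat_lit 532) (nat_lit 1818882013795) (nat_lit 51) (nat_lit 5) (nat_lit 50) (nat_lit 5) (nat_lit 57) (nat_lit 5) (nat_lit 315) (nat_lit 313) (nat_lit 152)) (XT.lf (nat_lit 76) (nat_lit 3813051145422) (nat_lit 0) (nat_lit 3370760858977) (nat_lit 532) (nat_lit 1185872162899) (nat_lit 52) (nat_lit 5) (nat_lit 51) (nat_lit 5) (nat_lit 58) (nat_lit 5) (nat_lit 316) (nat_lit 313) (nat_lit 151))) (XT.nd (nat_lit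 78) (nat_lit 380) (nat_lit 0) (XT.lf (nat_lit 0) (nat_lit 3212992110762) (nat_lit 456) (nat_lit 5692320986419) (nat_lit 532) (nat_lit 136090035470) (nat_lit 46) (nat_lit 5) (nat_lit 52) (nat_lit 5) (nat_lit 53) (nat_lit 5) (nat_lit 317) (nat_lit 313) (nat_lit 150)) (XT.lf (nat_lit 0) (nat_lit 1341896472103) (nat_lit 380) (nat_lit 7190299532860) (nat_lit 76) (nat_lit 1253677361638) (nat_lit 41) (nat_lit 5) (nat_lit 46) (nat_lit 5) (nat_lit 42) (nat_lit 5) (nat_lit 318) (nat_lit 313) (nat_lit 149)))))) (XT.nd (nat_lit 81042) (nat_lit 0) (nat_lit 836) (XT.nd (nat_lit 40404) (nat_lit 0) (nat_lit 608) (XT.nd (nat_lit 40248) (nat_lit 0) (nat_lit 836) (XT.lf (nat_lit 0) (nat_lit 1939060944281) (nat_lit 228) (nat_lit 1472856451931) (nat_lit 304) (nat_lit 7199542395811) (nat_lit 38) (nat_lit 5) (nat_lit 41) (nat_lit 5) (nat_lit 42) (nat_lit 5) (nat_lit 319) (nat_lit 313) (nat_lit 148)) (XT.nd (nat_lit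 78) (nat_lit 0) (nat_lit 0) (XT.lf (nat_lit 0) (nat_lit 2669695484083) (nat_lit 532) (nat_lit 598538484671) (nat_lit 532) (nat_lit 598538484671) (nat_lit 49) (nat_lit 3) (nat_lit 56) (nat_lit 3) (nat_lit 56) (nat_lit 5) (nat_lit 314) (nat_lit 314) (nat_lit 152)) (XT.lf (nat_lit 76) (nat_lit 5825397261518) (nat_lit 0) (nat_lit 54548975312) (nat_lit 532) (nat_lit 2422406462345) (nat_lit 50) (nat_lit 5) (nat_lit 49) (nat_lit 3) (nat_lit 56) (nat_lit 5) (nat_lit 315) (nat_lit 314) (nat_lit 151)))) (XT.nd (nat_lit 156) (nat_lit 304) (nat_lit 0) (XT.nd (nat_lit 78) (nat_lit 0) (nat_lit 76) (XT.lf (nat_lit 76) (nat_lit 5096100858558) (nat_lit 0) (nat_lit 1741764078465) (nat_lit 532) (nat_lit 2091714312030) (nat_lit 51) (nat_lit 5) (nat_lit 50) (nat_lit 5) (nat_lit 57) (nat_lit 5) (nat_lit 316) (nat_lit 314) (nat_lit 150)) (XT.lf (nat_lit 76) (nat_lit 4385008819749) (nat_lit 0) (nat_lit 3876374988427)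 (nat_lit 532) (nat_lit 1363752983959) (nat_lit 52) (nat_lit 5) (nat_lit 51) (nat_lit 5) (nat_lit 58) (nat_lit 5) (nat_lit 317) (nat_lit 314) (nat_lit 149))) (XT.nd (nat_lit 40404) (nat_lit 0) (nat_lit 228) (XT.lf (nat_lit 0) (nat_lit 3694940929926) (nat_lit 456) (nat_lit 6546169134592) (nat_lit 532) (nat_lit 156503537804) (nat_lit 46) (nat_lit 5) (nat_lit 52) (nat_lit 5) (nat_lit 53) (nat_lit 5) (nat_lit 318) (nat_lit 314) (nat_lit 148)) (XT.lf (nat_lit 0) (nat_lit 3070149808432) (nat_lit 532) (nat_lit 688319256431) (nat_lit 532) (nat_lit 688319256431) (nat_lit 49) (nat_lit 3) (nat_lit 56) (nat_lit 3) (nat_lit 56) (nat_lit 5) (nat_lit 315) (nat_lit 315) (nat_lit 150))))) (XT.nd (nat_lit 40638) (nat_lit 0) (nat_lit 0) (XT.nd (nat_lit 78) (nat_lit 0) (nat_lit 76) (XT.lf (nat_lit 76) (nat_lit 6699206852467) (nat_lit 0) (nat_lit 62731322950) (nat_lit 532) (nat_lit 2785767428383) (nat_lit 50)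 (nat_lit 5) (nat_lit 49) (nat_lit 3) (nat_lit 56) (nat_lit 5) (nat_lit 316) (nat_lit 315) (nat_lit 149)) (XT.nd (nat_lit 78) (nat_lit 0) (nat_lit 76) (XT.lf (nat_lit 76) (nat_lit 5860515989177) (nat_lit 0) (nat_lit 2003028691077) (nat_lit 532) (nat_lit 2405471455935) (nat_lit 51) (nat_lit 5) (nat_lit 50) (nat_lit 5) (nat_lit 57) (nat_lit 5) (nat_lit 317) (nat_lit 315) (nat_lit 148)) (XT.lf (nat_lit 76) (nat_lit 5042760144613) (nat_lit 0) (nat_lit 4457831237148) (nat_lit 532) (nat_lit 1568315929002) (nat_lit 52) (nat_lit 5) (nat_lit 51) (nat_lit 5) (nat_lit 58) (nat_lit 5) (nat_lit 318) (nat_lit 315) (nat_lit 147)))) (XT.nd (nat_lit 156) (nat_lit 0) (nat_lit 0) (XT.nd (nat_lit 78) (nat_lit 0) (nat_lit 0) (XT.lf (nat_lit 0) (nat_lit 3530672281010) (nat_lit 532) (nat_lit 791567144186) (nat_lit 532) (nat_lit 791567144186) (nat_lit 49) (nat_lit 3) (nat_lit 56) (nat_lit 3) (nat_lit 56) (nat_lit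 5) (nat_lit 316) (nat_lit 316) (nat_lit 148)) (XT.lf (nat_lit 76) (nat_lit 7704087881638) (nat_lit 0) (nat_lit 72141022406) (nat_lit 532) (nat_lit 3203632540135) (nat_lit 50) (nat_lit 5) (nat_lit 49) (nat_lit 3) (nat_lit 56) (nat_lit 5) (nat_lit 317) (nat_lit 316) (nat_lit 147))) (XT.nd (nat_lit 40638) (nat_lit 76) (nat_lit 0) (XT.lf (nat_lit 76) (nat_lit 6739593388941) (nat_lit 0) (nat_lit 2303482995376) (nat_lit 532) (nat_lit 2766292172133) (nat_lit 51) (nat_lit 5) (nat_lit 50) (nat_lit 5) (nat_lit 57) (nat_lit 5) (nat_lit 318) (nat_lit 316) (nat_lit 146)) (XT.lf (nat_lit 76) (nat_lit 8859701064867) (nat_lit 0) (nat_lit 82962176534) (nat_lit 532) (nat_lit 3684177419260) (nat_lit 50) (nat_lit 5) (nat_lit 49) (nat_lit 3) (nat_lit 56) (nat_lit 5) (nat_lit 318) (nat_lit 317) (nat_lit 145))))))))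

set_option maxRecDepth 10000000 in
noncomputable def Tp : PT := (PT.nd (nat_lit 5373888) (PT.nd (nat_lit 5171244) pc0 pc1) (PT.nd (nat_lit 81978) pc2 pc3))

set_option maxRecDepth 10000000 in
noncomputable def Tx : XT := (XT.nd (nat_lit 9169290) (nat_lit 0) (nat_lit 76) XT.nil (XT.nd (nat_lit 3737838) (nat_lit 0) (nat_lit 0) (XT.nd (nat_lit 1665456) (nat_lit 0) (nat_lit 0) (XT.nd (nat_lit 1137708) (nat_lit 0) (nat_lit 0) (XT.nd (nat_lit 811044) (nat_lit 0) (nat_lit 0) (XT.nd (nat_lit 567762) (nat_lit 0) (nat_lit 0) (XT.nd (nat_lit 405132) (nat_lit 0) (nat_lit 0) (XT.nd (nat_lit 283608) (nat_lit 0) (nat_lit 0) xc0 xc1) (XT.nd (nat_lit 81588) (nat_lit 0) (nat_lit 0) xc2 xc3)) (XT.nd (nat_lit 122304) (nat_lit 0) (nat_lit 0) (XT.nd (nat_lit 80340) (nat_lit 0) (nat_lit 0) xc4 xc5) (XT.nd (nat_lit 79404) (nat_lit 0) (nat_lit 0) xc6 xc7))) (XT.nd (nat_lit 201162) (nat_lit 0) (nat_lit 0) (XT.nd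 (nat_lit 82524) (nat_lit 0) (nat_lit 0) (XT.nd (nat_lit 41340) (nat_lit 0) (nat_lit 0) xc8 xc9) (XT.nd (nat_lit 41028) (nat_lit 0) (nat_lit 0) xc10 xc11)) (XT.nd (nat_lit 81042) (nat_lit 0) (nat_lit 0) (XT.nd (nat_lit 40560) (nat_lit 0) (nat_lit 0) xc12 xc13) (XT.nd (nat_lit 40326) (nat_lit 0) (nat_lit 0) xc14 xc15)))) (XT.nd (nat_lit 282204) (nat_lit 0) (nat_lit 0) (XT.nd (nat_lit 159822) (nat_lit 0) (nat_lit 0) (XT.nd (nat_lit 80184) (nat_lit 0) (nat_lit 0) (XT.nd (nat_lit 40170) (nat_lit 0) (nat_lit 0) xc16 xc17) (XT.nd (nat_lit 39858) (nat_lit 0) (nat_lit 0) xc18 xc19)) (XT.nd (nat_lit 79014) (nat_lit 0) (nat_lit 0) (XT.nd (nat_lit 39546) (nat_lit 0) (nat_lit 0) xc20 xc21) (XT.nd (nat_lit 4056) (nat_lit 0) (nat_lit 0) xc22 xc23))) (XT.nd (nat_lit 122304) (nat_lit 0) (nat_lit 0) (XT.nd (nat_lit 78702) (nat_lit 0) (nat_lit 0) (XT.nd (nat_lit 39312) (nat_lit 0) (nat_lit 0) xc24 xc25)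 (XT.nd (nat_lit 4056) (nat_lit 0) (nat_lit 0) xc26 xc27)) (XT.nd (nat_lit 79326) (nat_lit 0) (nat_lit 0) (XT.nd (nat_lit 39546) (nat_lit 0) (nat_lit 0) xc28 xc29) (XT.nd (nat_lit 39780) (nat_lit 0) (nat_lit 0) xc30 xc31))))) (XT.nd (nat_lit 648258) (nat_lit 0) (nat_lit 0) (XT.nd (nat_lit 284856) (nat_lit 0) (nat_lit 0) (XT.nd (nat_lit 159978) (nat_lit 0) (nat_lit 0) (XT.nd (nat_lit 79794) (nat_lit 0) (nat_lit 0) (XT.nd (nat_lit 39858) (nat_lit 0) (nat_lit 0) xc32 xc33) (XT.nd (nat_lit 40014) (nat_lit 0) (nat_lit 0) xc34 xc35)) (XT.nd (nat_lit 80418) (nat_lit 0) (nat_lit 0) (XT.nd (nat_lit 40170) (nat_lit 0) (nat_lit 0) xc36 xc37) (XT.nd (nat_lit 40326) (nat_lit 0) (nat_lit 0) xc38 xc39))) (XT.nd (nat_lit 162474) (nat_lit 0) (nat_lit 0) (XT.nd (nat_lit 81042) (nat_lit 0) (nat_lit 0) (XT.nd (nat_lit 40482) (nat_lit 0) (nat_lit 0) xc40 xc41) (XT.nd (nat_lit 40638) (nat_lit 0) (nat_lit 0)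 xc42 xc43)) (XT.nd (nat_lit 118638) (nat_lit 0) (nat_lit 0) (XT.nd (nat_lit 40794) (nat_lit 0) (nat_lit 0) xc44 xc45) (XT.nd (nat_lit 41028) (nat_lit 0) (nat_lit 0) xc46 xc47)))) (XT.nd (nat_lit 446940) (nat_lit 0) (nat_lit 228) (XT.nd (nat_lit 203190) (nat_lit 0) (nat_lit 152) (XT.nd (nat_lit 82602) (nat_lit 0) (nat_lit 0) (XT.nd (nat_lit 41262) (nat_lit 0) (nat_lit 0) xc48 xc49) (XT.nd (nat_lit 41418) (nat_lit 0) (nat_lit 152) xc50 xc51)) (XT.nd (nat_lit 121446) (nat_lit 0) (nat_lit 0) (XT.nd (nat_lit 41730) (nat_lit 0) (nat_lit 0) xc52 xc53) (XT.nd (nat_lit 41964) (nat_lit 0) (nat_lit 76) xc54 xc55))) (XT.nd (nat_lit 285714) (nat_lit 0) (nat_lit 456) (XT.nd (nat_lit 123006) (nat_lit 0) (nat_lit 228) (XT.nd (nat_lit 42276) (nat_lit 0) (nat_lit 152) xc56 xc57) (XT.nd (nat_lit 81120) (nat_lit 0) (nat_lit 152) xc58 xc59)) (XT.nd (nat_lit 203580) (nat_lit 0) (nat_lit 532) (XT.nd (nat_lit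 81900) (nat_lit 0) (nat_lit 228) xc60 xc61) (XT.nd (nat_lit 162396) (nat_lit 0) (nat_lit 760) xc62 xc63)))))) XT.nil))

set_option maxRecDepth 10000000 in
noncomputable def Te : XT := XT.nil

set_option maxRecDepth 10000000 in
noncomputable def Tz : ZL := (ZL.cons (nat_lit 76) (nat_lit 3) (nat_lit 114829330779728197479) (ZL.cons (nat_lit 152) (nat_lit 6) (nat_lit 215529441887048215310) (ZL.cons (nat_lit 228) (nat_lit 6) (nat_lit 203409010830917238504) (ZL.cons (nat_lit 304) (nat_lit 3) (nat_lit 100744465516124100696) (ZL.cons (nat_lit 380) (nat_lit 6) (nat_lit 189470515116366615174) (ZL.cons (nat_lit 456) (nat_lit 6) (nat_lit 179239051219310121276) (ZL.cons (nat_lit 532) (nat_lit 3) (nat_lit 88784708305885914068) (ZL.cons (nat_lit 608) (nat_lit 6) (nat_lit 167472867737695153290) (ZL.cons (nat_lit 684) (nat_lit 6) (nat_lit 158983327320513351348) (ZL.cons (nat_lit 760) (nat_lit 3) (nat_lit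 78765735570022635179) (ZL.cons (nat_lit 836) (nat_lit 6) (nat_lit 149220355840754279116) (ZL.cons (nat_lit 912) (nat_lit 6) (nat_lit 142376913062227355818) (ZL.cons (nat_lit 988) (nat_lit 3) (nat_lit 70557214713518860088) (ZL.cons (nat_lit 1064) (nat_lit 6) (nat_lit 136867249358797669366) (ZL.cons (nat_lit 1140) (nat_lit 6) (nat_lit 134506953866921394030) (ZL.cons (nat_lit 1216) (nat_lit 6) (nat_lit 129268652464663894298) (ZL.cons (nat_lit 1292) (nat_lit 3) (nat_lit 64085420303988627302) (ZL.cons (nat_lit 1368) (nat_lit 6) (nat_lit 125297036714568878594) (ZL.cons (nat_lit 1444) (nat_lit 6) (nat_lit 123244605852067769606) (ZL.cons (nat_lit 1520) (nat_lit 3) (nat_lit 60160248104228468906) (ZL.cons (nat_lit 1596) (nat_lit 6) (nat_lit 120866302723336155254) (ZL.cons (nat_lit 1672) (nat_lit 6) (nat_lit 122514401091091009652) (ZL.cons (nat_lit 1748) (nat_lit 6) (nat_lit 119631866745272970840)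 (ZL.cons (nat_lit 1824) (nat_lit 3) (nat_lit 59338623869729250773) (ZL.cons (nat_lit 1900) (nat_lit 6) (nat_lit 116088455254600033884) (ZL.cons (nat_lit 1976) (nat_lit 6) (nat_lit 117261939261590351380) (ZL.cons (nat_lit 2052) (nat_lit 6) (nat_lit 115477216772458952262) (ZL.cons (nat_lit 2128) (nat_lit 3) (nat_lit 56477113078714884825) (ZL.cons (nat_lit 2204) (nat_lit 6) (nat_lit 113581903649540869704) (ZL.cons (nat_lit 2280) (nat_lit 3) (nat_lit 56375900083111969940) (ZL.cons (nat_lit 2356) (nat_lit 6) (nat_lit 111402293558185074764) (ZL.cons (nat_lit 2432) (nat_lit 1) (nat_lit 18446744073709551617) ZL.nil))))))))))))))))))))))))))))))))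

noncomputable def vl : XL := ⟨(nat_lit 0), (nat_lit 76), (nat_lit 167712017), (nat_lit 228), (nat_lit 189639577), (nat_lit 76), (nat_lit 167712017), (nat_lit 1), (nat_lit 5), (nat_lit 3), (nat_lit 4), (nat_lit 1), (nat_lit 4), (nat_lit 0), (nat_lit 0), (nat_lit 0)⟩

noncomputable def cp0 : Nat := (nat_lit 4976807698557588174861154783529199236040309957258059666694130532552006264756970319718825916572900605949914007895762589705720071104821332006867975014467134117010017211918300151770019277208509360428758689679129001465699178234411033105166203952252077538898146131963707480389263121014148064879107609394490958106961667537335028148877667912801573262984783881642075547837773026441028588541229472577769713887232795889812914220670271296788119245118718034790725018499502385021488272933741629827929373366821466103255516827256436542870433096608193748358352612784473073918925463977708743089805405571903182737783934356476292573703729030166758071479826983868249589718354840433438784889651260907955062386932985942789945053236023353873218423223569314765271164396765184)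

noncomputable def cp1 : Nat := (nat_lit 4787673488171066426309528312693164967849278197402339016496562616821982483373755177637479499522059545154139827442156585810601311834938007398705390002420802069630638482056169863388529394069710431329362378705383642114609617033713496975833821165099403089378264097851562643334070152090186865601617391170981399047626071328049006608656479531656780454175341108901808929101508708197466493864809489080775377431965677650303048459340290255198377490726021194341640095856703937768548833315096142268576150387549644878917447344423601428764018449536610654982632671313424873346380846605254609474301199279706444445514926465346354711005023450420574815049403536682111567219164167632943948362767266214383449578549960099381399060411593706837375945431749840882016519009534763600483876511354215242937345588919769272270986140140023528744293008321864620977900651242653290371236614058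46291874674545726197064481586306803715560042506626217140955691967875323709766928763647586086519305013529264505985201916167473134093168994686185784552138798070749505143280788715788033041292025509199081807913495200939326320266365726262184669394307743347384344759153373654662465811077759624590361481746195528103665463607732912946567989536340498999428594788516102468697954280889252590158963133215604844995766398464843577565701236693025234788079135584076311238254704819621325566347351461873571221140320493191657018274083294140790315510714861918110509177417974584439971609770431401703049305977334091246761143761247907221798068341265875296049052225536089531512481381043796130174538764960496462060646284308314258410713105377861668743766552776499868074842300545993479603912781517334745618492912083418626918563281135869572487032785096088223744)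

noncomputable def rc0 : Nat := (nat_lit 4787673488171066426309528312693164967849278197402339016496562616821982483373755177637479499522059545154139827442156585810601311834938007398705390002420802069630638482056169863388529394069710431329362378705383642114609617033713496975833821165099403089378264097851562643334070152090186865601617391170981399047626071328049006608656479531656780454175341108901808929101508708197466493864809489080775377431965677650303048459340290255198377490726021194341640095856703937768548833315096142268576150387549644878917447344423601428764018449536610654982632671313424873346380846605254609474301199279706444445514926465346354711005023450420574815049403536682111567219164167632943948362767266214383449578549960099381399060411593706837375945431749840882016519009534763600483876511354215242937345588919769272270986140140023528744293008321864620977900651242653290371236614058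46291874674545726197064481586306803715560042506626217140955691967875323709766928763647586086519305013529264505985201916167473134093168994686185784552138798070749505143280788715788033041292025509199081807913495200939326320266365726262184669394307743347384344759153373654662465811077759624590361481746195528103665463607732912946567989536340498999428594788516102468697954280889252590158963133215604844995766398464843577565701236693025234788079135584076311238254704819621325566347351461873571221140320493191657018274083294140790315510714861918110509177417974584439971609770431401703049305977334091246761143761247907221798068341265875296049052225536089531512481381043796130174538764960496462060646284308314258410713105377861668743766552776499868074842300545993479603912781517334745618492912083418626918563281135869572487032785096088223744)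

end Vale.Agent.Lib.P154.PChain.BK.S1
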