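import Vale.Agent.Lib.P154.PChain.BK.R1_0

set_option linter.all false

namespace Vale.Agent.Lib.P154.PChain.BK.S2

open Vale.Agent.Lib.P154.Chain

noncomputable def pc0 : PT := (PT.nd (nat_lit 6106620) (PT.nd (nat_lit 5872464) (PT.nd (nat_lit 5778708) (PT.nd (nat_lit 5731830) (PT.nd (nat_lit 5685108) (PT.nd (nat_lit 5685030) PT.nil (PT.lf (nat_lit 76) (nat_lit 6) (nat_lit 1) (nat_lit 3) (nat_lit 164) (nat_lit 121) (nat_lit 165))) (PT.lf (nat_lit 76) (nat_lit 6) (nat_lit 1) (nat_lit 1) (nat_lit 165) (nat_lit 121) (nat_lit 164))) (PT.nd (nat_lit 78) (PT.lf (nat_lit 152) (nat_lit 6) (nat_lit 2) (nat_lit 3) (nat_lit 163) (nat_lit 122) (nat_lit 165)) (PT.nd (nat_lit 78) (PT.lf (nat_lit 228) (nat_lit 3) (nat_lit 3) (nat_lit 1) (nat_lit 164) (nat_lit 122) (nat_lit 164)) (PT.lf (nat_lit 152) (nat_lit 6) (nat_lit 2) (nat_lit 1) (nat_lit 165) (nat_lit 122) (nat_lit 163))))) (PT.nd (nat_lit 46878)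 (PT.nd (nat_lit 78) (PT.lf (nat_lit 304) (nat_lit 6) (nat_lit 4) (nat_lit 3) (nat_lit 163) (nat_lit 123) (nat_lit 164)) (PT.nd (nat_lit 46722) (PT.lf (nat_lit 304) (nat_lit 6) (nat_lit 4) (nat_lit 1) (nat_lit 164) (nat_lit 123) (nat_lit 163)) (PT.lf (nat_lit 380) (nat_lit 6) (nat_lit 5) (nat_lit 3) (nat_lit 162) (nat_lit 124) (nat_lit 164)))) (PT.nd (nat_lit 78) (PT.lf (nat_lit 456) (nat_lit 3) (nat_lit 6) (nat_lit 1) (nat_lit 163) (nat_lit 124) (nat_lit 163)) (PT.nd (nat_lit 46722) (PT.lf (nat_lit 380) (nat_lit 6) (nat_lit 5) (nat_lit 1) (nat_lit 164) (nat_lit 124) (nat_lit 162)) (PT.lf (nat_lit 532) (nat_lit 6) (nat_lit 7) (nat_lit 3) (nat_lit 162) (nat_lit 125) (nat_lit 163)))))) (PT.nd (nat_lit 140400) (PT.nd (nat_lit 46878) (PT.nd (nat_lit 46722) (PT.lf (nat_lit 532) (nat_lit 6) (nat_lit 7) (nat_lit 1) (nat_lit 163) (nat_lit 125) (nat_lit 162)) (PT.nd (nat_lit 78) (PT.lf (nat_lit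 608) (nat_lit 6) (nat_lit 8) (nat_lit 3) (nat_lit 161) (nat_lit 126) (nat_lit 163)) (PT.lf (nat_lit 684) (nat_lit 3) (nat_lit 9) (nat_lit 1) (nat_lit 162) (nat_lit 126) (nat_lit 162)))) (PT.nd (nat_lit 46722) (PT.lf (nat_lit 608) (nat_lit 6) (nat_lit 8) (nat_lit 1) (nat_lit 163) (nat_lit 126) (nat_lit 161)) (PT.nd (nat_lit 78) (PT.lf (nat_lit 760) (nat_lit 6) (nat_lit 10) (nat_lit 3) (nat_lit 161) (nat_lit 127) (nat_lit 162)) (PT.lf (nat_lit 760) (nat_lit 6) (nat_lit 10) (nat_lit 1) (nat_lit 162) (nat_lit 127) (nat_lit 161))))) (PT.nd (nat_lit 46878) (PT.nd (nat_lit 78) (PT.lf (nat_lit 836) (nat_lit 6) (nat_lit 11) (nat_lit 3) (nat_lit 160) (nat_lit 128) (nat_lit 162)) (PT.nd (nat_lit 78) (PT.lf (nat_lit 912) (nat_lit 3) (nat_lit 12) (nat_lit 1) (nat_lit 161) (nat_lit 128) (nat_lit 161)) (PT.lf (nat_lit 836) (nat_lit 6) (nat_lit 11) (nat_lit 1) (nat_lit 162) (nat_lit 128) (nat_lit 160))))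 (PT.nd (nat_lit 78) (PT.lf (nat_lit 988) (nat_lit 6) (nat_lit 13) (nat_lit 3) (nat_lit 160) (nat_lit 129) (nat_lit 161)) (PT.nd (nat_lit 46722) (PT.lf (nat_lit 988) (nat_lit 6) (nat_lit 13) (nat_lit 1) (nat_lit 161) (nat_lit 129) (nat_lit 160)) (PT.lf (nat_lit 1064) (nat_lit 6) (nat_lit 14) (nat_lit 3) (nat_lit 159) (nat_lit 130) (nat_lit 161))))))) (PT.nd (nat_lit 187356) (PT.nd (nat_lit 93756) (PT.nd (nat_lit 46878) (PT.nd (nat_lit 78) (PT.lf (nat_lit 1140) (nat_lit 3) (nat_lit 15) (nat_lit 1) (nat_lit 160) (nat_lit 130) (nat_lit 160)) (PT.nd (nat_lit 46722) (PT.lf (nat_lit 1064) (nat_lit 6) (nat_lit 14) (nat_lit 1) (nat_lit 161) (nat_lit 130) (nat_lit 159)) (PT.lf (nat_lit 1216) (nat_lit 6) (nat_lit 16) (nat_lit 3) (nat_lit 159) (nat_lit 131) (nat_lit 160)))) (PT.nd (nat_lit 46722) (PT.lf (nat_lit 1216) (nat_lit 6) (nat_lit 16) (nat_lit 1) (nat_lit 160) (nat_lit 131) (nat_lit 159))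 (PT.nd (nat_lit 78) (PT.lf (nat_lit 1292) (nat_lit 6) (nat_lit 17) (nat_lit 3) (nat_lit 158) (nat_lit 132) (nat_lit 160)) (PT.lf (nat_lit 1368) (nat_lit 3) (nat_lit 18) (nat_lit 1) (nat_lit 159) (nat_lit 132) (nat_lit 159))))) (PT.nd (nat_lit 46800) (PT.nd (nat_lit 46644) (PT.lf (nat_lit 1292) (nat_lit 6) (nat_lit 17) (nat_lit 1) (nat_lit 160) (nat_lit 132) (nat_lit 158)) (PT.nd (nat_lit 78) (PT.lf (nat_lit 1444) (nat_lit 6) (nat_lit 19) (nat_lit 3) (nat_lit 157) (nat_lit 133) (nat_lit 160)) (PT.lf (nat_lit 1520) (nat_lit 6) (nat_lit 20) (nat_lit 3) (nat_lit 158) (nat_lit 133) (nat_lit 159)))) (PT.nd (nat_lit 78) (PT.lf (nat_lit 1520) (nat_lit 6) (nat_lit 20) (nat_lit 1) (nat_lit 159) (nat_lit 133) (nat_lit 158)) (PT.nd (nat_lit 46644) (PT.lf (nat_lit 1444) (nat_lit 6) (nat_lit 19) (nat_lit 1) (nat_lit 160) (nat_lit 133) (nat_lit 157)) (PT.lf (nat_lit 1596) (nat_lit 6) (nat_lit 21) (nat_lit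 3) (nat_lit 157) (nat_lit 134) (nat_lit 159)))))) (PT.nd (nat_lit 93600) (PT.nd (nat_lit 46800) (PT.nd (nat_lit 78) (PT.lf (nat_lit 1672) (nat_lit 3) (nat_lit 22) (nat_lit 1) (nat_lit 158) (nat_lit 134) (nat_lit 158)) (PT.nd (nat_lit 46644) (PT.lf (nat_lit 1596) (nat_lit 6) (nat_lit 21) (nat_lit 1) (nat_lit 159) (nat_lit 134) (nat_lit 157)) (PT.lf (nat_lit 1748) (nat_lit 6) (nat_lit 23) (nat_lit 3) (nat_lit 156) (nat_lit 135) (nat_lit 159)))) (PT.nd (nat_lit 78) (PT.lf (nat_lit 1824) (nat_lit 6) (nat_lit 24) (nat_lit 3) (nat_lit 157) (nat_lit 135) (nat_lit 158)) (PT.nd (nat_lit 78) (PT.lf (nat_lit 1824) (nat_lit 6) (nat_lit 24) (nat_lit 1) (nat_lit 158) (nat_lit 135) (nat_lit 157)) (PT.lf (nat_lit 1748) (nat_lit 6) (nat_lit 23) (nat_lit 1) (nat_lit 159) (nat_lit 135) (nat_lit 156))))) (PT.nd (nat_lit 46800) (PT.nd (nat_lit 78) (PT.lf (nat_lit 1900) (nat_lit 6) (nat_lit 25) (nat_lit 3)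 (nat_lit 156) (nat_lit 136) (nat_lit 158)) (PT.nd (nat_lit 78) (PT.lf (nat_lit 1976) (nat_lit 3) (nat_lit 26) (nat_lit 1) (nat_lit 157) (nat_lit 136) (nat_lit 157)) (PT.lf (nat_lit 1900) (nat_lit 6) (nat_lit 25) (nat_lit 1) (nat_lit 158) (nat_lit 136) (nat_lit 156)))) (PT.nd (nat_lit 78) (PT.lf (nat_lit 2052) (nat_lit 6) (nat_lit 27) (nat_lit 3) (nat_lit 155) (nat_lit 137) (nat_lit 158)) (PT.nd (nat_lit 78) (PT.lf (nat_lit 2128) (nat_lit 6) (nat_lit 28) (nat_lit 3) (nat_lit 156) (nat_lit 137) (nat_lit 157)) (PT.lf (nat_lit 2128) (nat_lit 6) (nat_lit 28) (nat_lit 1) (nat_lit 157) (nat_lit 137) (nat_lit 156))))))))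
noncomputable def pc1 : PT := (PT.nd (nat_lit 233922) (PT.nd (nat_lit 140244) (PT.nd (nat_lit 93366) (PT.nd (nat_lit 46722) (PT.nd (nat_lit 46566) (PT.lf (nat_lit 2052) (nat_lit 6) (nat_lit 27) (nat_lit 1) (nat_lit 158) (nat_lit 137) (nat_lit 155)) (PT.nd (nat_lit 78) (PT.lf (nat_lit 2204) (nat_lit 6) (nat_lit 29) (nat_lit 3) (nat_lit 154) (nat_lit 138) (nat_lit 158)) (PT.lf (nat_lit 2280) (nat_lit 6) (nat_lit 30) (nat_lit 3) (nat_lit 155) (nat_lit 138) (nat_lit 157)))) (PT.nd (nat_lit 78) (PT.lf (nat_lit 2356) (nat_lit 3) (nat_lit 31) (nat_lit 1) (nat_lit 156) (nat_lit 138) (nat_lit 156)) (PT.nd (nat_lit 78) (PT.lf (nat_lit 2280) (nat_lit 6) (nat_lit 30) (nat_lit 1) (nat_lit 157) (nat_lit 138) (nat_lit 155)) (PT.lf (nat_lit 2204) (nat_lit 6) (nat_lit 29) (nat_lit 1) (nat_lit 158) (nat_lit 138) (nat_lit 154))))) (PT.nd (nat_lit 234) (PT.nd (nat_lit 78) (PT.lf (nat_lit 2432) (nat_lit 6)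 (nat_lit 32) (nat_lit 3) (nat_lit 153) (nat_lit 139) (nat_lit 158)) (PT.nd (nat_lit 78) (PT.lf (nat_lit 2508) (nat_lit 6) (nat_lit 33) (nat_lit 3) (nat_lit 154) (nat_lit 139) (nat_lit 157)) (PT.lf (nat_lit 2584) (nat_lit 6) (nat_lit 34) (nat_lit 3) (nat_lit 155) (nat_lit 139) (nat_lit 156)))) (PT.nd (nat_lit 78) (PT.lf (nat_lit 2584) (nat_lit 6) (nat_lit 34) (nat_lit 1) (nat_lit 156) (nat_lit 139) (nat_lit 155)) (PT.nd (nat_lit 78) (PT.lf (nat_lit 2508) (nat_lit 6) (nat_lit 33) (nat_lit 1) (nat_lit 157) (nat_lit 139) (nat_lit 154)) (PT.lf (nat_lit 2432) (nat_lit 6) (nat_lit 32) (nat_lit 1) (nat_lit 158) (nat_lit 139) (nat_lit 153)))))) (PT.nd (nat_lit 46878) (PT.nd (nat_lit 234) (PT.nd (nat_lit 78) (PT.lf (nat_lit 2660) (nat_lit 6) (nat_lit 35) (nat_lit 3) (nat_lit 153) (nat_lit 140) (nat_lit 157)) (PT.nd (nat_lit 78) (PT.lf (nat_lit 2736) (nat_lit 6) (nat_lit 36) (nat_lit 3) (nat_lit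 154) (nat_lit 140) (nat_lit 156)) (PT.lf (nat_lit 2812) (nat_lit 3) (nat_lit 37) (nat_lit 1) (nat_lit 155) (nat_lit 140) (nat_lit 155)))) (PT.nd (nat_lit 78) (PT.lf (nat_lit 2736) (nat_lit 6) (nat_lit 36) (nat_lit 1) (nat_lit 156) (nat_lit 140) (nat_lit 154)) (PT.nd (nat_lit 46488) (PT.lf (nat_lit 2660) (nat_lit 6) (nat_lit 35) (nat_lit 1) (nat_lit 157) (nat_lit 140) (nat_lit 153)) (PT.lf (nat_lit 2888) (nat_lit 6) (nat_lit 38) (nat_lit 3) (nat_lit 152) (nat_lit 141) (nat_lit 157))))) (PT.nd (nat_lit 234) (PT.nd (nat_lit 78) (PT.lf (nat_lit 2964) (nat_lit 6) (nat_lit 39) (nat_lit 3) (nat_lit 153) (nat_lit 141) (nat_lit 156)) (PT.nd (nat_lit 78) (PT.lf (nat_lit 3040) (nat_lit 6) (nat_lit 40) (nat_lit 3) (nat_lit 154) (nat_lit 141) (nat_lit 155)) (PT.lf (nat_lit 3040) (nat_lit 6) (nat_lit 40) (nat_lit 1) (nat_lit 155) (nat_lit 141) (nat_lit 154)))) (PT.nd (nat_lit 78) (PT.lf (nat_lit 2964)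 (nat_lit 6) (nat_lit 39) (nat_lit 1) (nat_lit 156) (nat_lit 141) (nat_lit 153)) (PT.nd (nat_lit 46410) (PT.lf (nat_lit 2888) (nat_lit 6) (nat_lit 38) (nat_lit 1) (nat_lit 157) (nat_lit 141) (nat_lit 152)) (PT.lf (nat_lit 3116) (nat_lit 6) (nat_lit 41) (nat_lit 3) (nat_lit 151) (nat_lit 142) (nat_lit 157))))))) (PT.nd (nat_lit 47190) (PT.nd (nat_lit 46722) (PT.nd (nat_lit 234) (PT.nd (nat_lit 78) (PT.lf (nat_lit 3192) (nat_lit 6) (nat_lit 42) (nat_lit 3) (nat_lit 152) (nat_lit 142) (nat_lit 156)) (PT.nd (nat_lit 78) (PT.lf (nat_lit 3268) (nat_lit 6) (nat_lit 43) (nat_lit 3) (nat_lit 153) (nat_lit 142) (nat_lit 155)) (PT.lf (nat_lit 3344) (nat_lit 3) (nat_lit 44) (nat_lit 1) (nat_lit 154) (nat_lit 142) (nat_lit 154)))) (PT.nd (nat_lit 78) (PT.lf (nat_lit 3268) (nat_lit 6) (nat_lit 43) (nat_lit 1) (nat_lit 155) (nat_lit 142) (nat_lit 153)) (PT.nd (nat_lit 78) (PT.lf (nat_lit 3192) (nat_lit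 6) (nat_lit 42) (nat_lit 1) (nat_lit 156) (nat_lit 142) (nat_lit 152)) (PT.lf (nat_lit 3116) (nat_lit 6) (nat_lit 41) (nat_lit 1) (nat_lit 157) (nat_lit 142) (nat_lit 151))))) (PT.nd (nat_lit 234) (PT.nd (nat_lit 78) (PT.lf (nat_lit 3420) (nat_lit 6) (nat_lit 45) (nat_lit 3) (nat_lit 150) (nat_lit 143) (nat_lit 157)) (PT.nd (nat_lit 78) (PT.lf (nat_lit 3496) (nat_lit 6) (nat_lit 46) (nat_lit 3) (nat_lit 151) (nat_lit 143) (nat_lit 156)) (PT.lf (nat_lit 3572) (nat_lit 6) (nat_lit 47) (nat_lit 3) (nat_lit 152) (nat_lit 143) (nat_lit 155)))) (PT.nd (nat_lit 78) (PT.lf (nat_lit 3648) (nat_lit 6) (nat_lit 48) (nat_lit 3) (nat_lit 153) (nat_lit 143) (nat_lit 154)) (PT.nd (nat_lit 78) (PT.lf (nat_lit 3648) (nat_lit 6) (nat_lit 48) (nat_lit 1) (nat_lit 154) (nat_lit 143) (nat_lit 153)) (PT.lf (nat_lit 3572) (nat_lit 6) (nat_lit 47) (nat_lit 1) (nat_lit 155) (nat_lit 143) (nat_lit 152)))))) (PT.nd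 (nat_lit 46722) (PT.nd (nat_lit 46488) (PT.nd (nat_lit 78) (PT.lf (nat_lit 3496) (nat_lit 6) (nat_lit 46) (nat_lit 1) (nat_lit 156) (nat_lit 143) (nat_lit 151)) (PT.nd (nat_lit 46332) (PT.lf (nat_lit 3420) (nat_lit 6) (nat_lit 45) (nat_lit 1) (nat_lit 157) (nat_lit 143) (nat_lit 150)) (PT.lf (nat_lit 3952) (nat_lit 6) (nat_lit 52) (nat_lit 3) (nat_lit 150) (nat_lit 144) (nat_lit 156)))) (PT.nd (nat_lit 78) (PT.lf (nat_lit 4028) (nat_lit 6) (nat_lit 53) (nat_lit 3) (nat_lit 151) (nat_lit 144) (nat_lit 155)) (PT.nd (nat_lit 78) (PT.lf (nat_lit 4104) (nat_lit 6) (nat_lit 54) (nat_lit 3) (nat_lit 152) (nat_lit 144) (nat_lit 154)) (PT.lf (nat_lit 4180) (nat_lit 3) (nat_lit 55) (nat_lit 1) (nat_lit 153) (nat_lit 144) (nat_lit 153))))) (PT.nd (nat_lit 46488) (PT.nd (nat_lit 78) (PT.lf (nat_lit 4104) (nat_lit 6) (nat_lit 54) (nat_lit 1) (nat_lit 154) (nat_lit 144) (nat_lit 152)) (PT.nd (nat_lit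 78) (PT.lf (nat_lit 4028) (nat_lit 6) (nat_lit 53) (nat_lit 1) (nat_lit 155) (nat_lit 144) (nat_lit 151)) (PT.lf (nat_lit 3952) (nat_lit 6) (nat_lit 52) (nat_lit 1) (nat_lit 156) (nat_lit 144) (nat_lit 150)))) (PT.nd (nat_lit 78) (PT.lf (nat_lit 3876) (nat_lit 6) (nat_lit 51) (nat_lit 3) (nat_lit 149) (nat_lit 145) (nat_lit 156)) (PT.nd (nat_lit 78) (PT.lf (nat_lit 4408) (nat_lit 6) (nat_lit 58) (nat_lit 3) (nat_lit 150) (nat_lit 145) (nat_lit 155)) (PT.lf (nat_lit 4484) (nat_lit 6) (nat_lit 59) (nat_lit 3) (nat_lit 151) (nat_lit 145) (nat_lit 154))))))))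
noncomputable def pc2 : PT := (PT.nd (nat_lit 140166) (PT.nd (nat_lit 47112) (PT.nd (nat_lit 46644) (PT.nd (nat_lit 234) (PT.nd (nat_lit 78) (PT.lf (nat_lit 4560) (nat_lit 6) (nat_lit 60) (nat_lit 3) (nat_lit 152) (nat_lit 145) (nat_lit 153)) (PT.nd (nat_lit 78) (PT.lf (nat_lit 4560) (nat_lit 6) (nat_lit 60) (nat_lit 1) (nat_lit 153) (nat_lit 145) (nat_lit 152)) (PT.lf (nat_lit 4484) (nat_lit 6) (nat_lit 59) (nat_lit 1) (nat_lit 154) (nat_lit 145) (nat_lit 151)))) (PT.nd (nat_lit 78) (PT.lf (nat_lit 4408) (nat_lit 6) (nat_lit 58) (nat_lit 1) (nat_lit 155) (nat_lit 145) (nat_lit 150)) (PT.nd (nat_lit 46254) (PT.lf (nat_lit 3876) (nat_lit 6) (nat_lit 51) (nat_lit 1) (nat_lit 156) (nat_lit 145) (nat_lit 149)) (PT.lf (nat_lit 3800) (nat_lit 6) (nat_lit 50) (nat_lit 3) (nat_lit 148) (nat_lit 146) (nat_lit 156))))) (PT.nd (nat_lit 234) (PT.nd (nat_lit 78) (PT.lf (nat_lit 4332) (nat_lit 6) (nat_lit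 57) (nat_lit 3) (nat_lit 149) (nat_lit 146) (nat_lit 155)) (PT.nd (nat_lit 78) (PT.lf (nat_lit 4788) (nat_lit 6) (nat_lit 63) (nat_lit 3) (nat_lit 150) (nat_lit 146) (nat_lit 154)) (PT.lf (nat_lit 4864) (nat_lit 6) (nat_lit 64) (nat_lit 3) (nat_lit 151) (nat_lit 146) (nat_lit 153)))) (PT.nd (nat_lit 78) (PT.lf (nat_lit 4940) (nat_lit 3) (nat_lit 65) (nat_lit 1) (nat_lit 152) (nat_lit 146) (nat_lit 152)) (PT.nd (nat_lit 78) (PT.lf (nat_lit 4864) (nat_lit 6) (nat_lit 64) (nat_lit 1) (nat_lit 153) (nat_lit 146) (nat_lit 151)) (PT.lf (nat_lit 4788) (nat_lit 6) (nat_lit 63) (nat_lit 1) (nat_lit 154) (nat_lit 146) (nat_lit 150)))))) (PT.nd (nat_lit 46566) (PT.nd (nat_lit 46332) (PT.nd (nat_lit 78) (PT.lf (nat_lit 4332) (nat_lit 6) (nat_lit 57) (nat_lit 1) (nat_lit 155) (nat_lit 146) (nat_lit 149)) (PT.nd (nat_lit 46176) (PT.lf (nat_lit 3800) (nat_lit 6) (nat_lit 50) (nat_lit 1) (nat_lit 156)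 (nat_lit 146) (nat_lit 148)) (PT.lf (nat_lit 3724) (nat_lit 3) (nat_lit 49) (nat_lit 3) (nat_lit 147) (nat_lit 147) (nat_lit 156)))) (PT.nd (nat_lit 78) (PT.lf (nat_lit 4256) (nat_lit 6) (nat_lit 56) (nat_lit 3) (nat_lit 148) (nat_lit 147) (nat_lit 155)) (PT.nd (nat_lit 78) (PT.lf (nat_lit 4712) (nat_lit 6) (nat_lit 62) (nat_lit 3) (nat_lit 149) (nat_lit 147) (nat_lit 154)) (PT.lf (nat_lit 5092) (nat_lit 6) (nat_lit 67) (nat_lit 3) (nat_lit 150) (nat_lit 147) (nat_lit 153))))) (PT.nd (nat_lit 234) (PT.nd (nat_lit 78) (PT.lf (nat_lit 5168) (nat_lit 6) (nat_lit 68) (nat_lit 3) (nat_lit 151) (nat_lit 147) (nat_lit 152)) (PT.nd (nat_lit 78) (PT.lf (nat_lit 5168) (nat_lit 6) (nat_lit 68) (nat_lit 1) (nat_lit 152) (nat_lit 147) (nat_lit 151)) (PT.lf (nat_lit 5092) (nat_lit 6) (nat_lit 67) (nat_lit 1) (nat_lit 153) (nat_lit 147) (nat_lit 150)))) (PT.nd (nat_lit 78) (PT.lf (nat_lit 4712) (nat_lit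 6) (nat_lit 62) (nat_lit 1) (nat_lit 154) (nat_lit 147) (nat_lit 149)) (PT.nd (nat_lit 78) (PT.lf (nat_lit 4256) (nat_lit 6) (nat_lit 56) (nat_lit 1) (nat_lit 155) (nat_lit 147) (nat_lit 148)) (PT.lf (nat_lit 3724) (nat_lit 3) (nat_lit 49) (nat_lit 0) (nat_lit 156) (nat_lit 147) (nat_lit 147))))))) (PT.nd (nat_lit 46878) (PT.nd (nat_lit 468) (PT.nd (nat_lit 234) (PT.nd (nat_lit 78) (PT.lf (nat_lit 3800) (nat_lit 6) (nat_lit 50) (nat_lit 5) (nat_lit 146) (nat_lit 148) (nat_lit 156)) (PT.nd (nat_lit 78) (PT.lf (nat_lit 4256) (nat_lit 6) (nat_lit 56) (nat_lit 5) (nat_lit 147) (nat_lit 148) (nat_lit 155)) (PT.lf (nat_lit 4636) (nat_lit 3) (nat_lit 61) (nat_lit 3) (nat_lit 148) (nat_lit 148) (nat_lit 154)))) (PT.nd (nat_lit 78) (PT.lf (nat_lit 5016) (nat_lit 6) (nat_lit 66) (nat_lit 3) (nat_lit 149) (nat_lit 148) (nat_lit 153)) (PT.nd (nat_lit 78) (PT.lf (nat_lit 5320) (nat_lit 6) (nat_lit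 70) (nat_lit 3) (nat_lit 150) (nat_lit 148) (nat_lit 152)) (PT.lf (nat_lit 5396) (nat_lit 3) (nat_lit 71) (nat_lit 1) (nat_lit 151) (nat_lit 148) (nat_lit 151))))) (PT.nd (nat_lit 234) (PT.nd (nat_lit 78) (PT.lf (nat_lit 5320) (nat_lit 6) (nat_lit 70) (nat_lit 1) (nat_lit 152) (nat_lit 148) (nat_lit 150)) (PT.nd (nat_lit 78) (PT.lf (nat_lit 5016) (nat_lit 6) (nat_lit 66) (nat_lit 1) (nat_lit 153) (nat_lit 148) (nat_lit 149)) (PT.lf (nat_lit 4636) (nat_lit 3) (nat_lit 61) (nat_lit 0) (nat_lit 154) (nat_lit 148) (nat_lit 148)))) (PT.nd (nat_lit 78) (PT.lf (nat_lit 4256) (nat_lit 6) (nat_lit 56) (nat_lit 0) (nat_lit 155) (nat_lit 148) (nat_lit 147)) (PT.nd (nat_lit 46020) (PT.lf (nat_lit 3800) (nat_lit 6) (nat_lit 50) (nat_lit 0) (nat_lit 156) (nat_lit 148) (nat_lit 146)) (PT.lf (nat_lit 3876) (nat_lit 6) (nat_lit 51) (nat_lit 5) (nat_lit 145) (nat_lit 149) (nat_lit 156)))))) (PT.nd (nat_lit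 468) (PT.nd (nat_lit 234) (PT.nd (nat_lit 78) (PT.lf (nat_lit 4332) (nat_lit 6) (nat_lit 57) (nat_lit 5) (nat_lit 146) (nat_lit 149) (nat_lit 155)) (PT.nd (nat_lit 78) (PT.lf (nat_lit 4712) (nat_lit 6) (nat_lit 62) (nat_lit 5) (nat_lit 147) (nat_lit 149) (nat_lit 154)) (PT.lf (nat_lit 5016) (nat_lit 6) (nat_lit 66) (nat_lit 5) (nat_lit 148) (nat_lit 149) (nat_lit 153)))) (PT.nd (nat_lit 78) (PT.lf (nat_lit 5244) (nat_lit 3) (nat_lit 69) (nat_lit 3) (nat_lit 149) (nat_lit 149) (nat_lit 152)) (PT.nd (nat_lit 78) (PT.lf (nat_lit 5472) (nat_lit 6) (nat_lit 72) (nat_lit 3) (nat_lit 150) (nat_lit 149) (nat_lit 151)) (PT.lf (nat_lit 5472) (nat_lit 6) (nat_lit 72) (nat_lit 1) (nat_lit 151) (nat_lit 149) (nat_lit 150))))) (PT.nd (nat_lit 234) (PT.nd (nat_lit 78) (PT.lf (nat_lit 5244) (nat_lit 3) (nat_lit 69) (nat_lit 0) (nat_lit 152) (nat_lit 149) (nat_lit 149)) (PT.nd (nat_lit 78) (PT.lf (nat_lit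 5016) (nat_lit 6) (nat_lit 66) (nat_lit 0) (nat_lit 153) (nat_lit 149) (nat_lit 148)) (PT.lf (nat_lit 4712) (nat_lit 6) (nat_lit 62) (nat_lit 0) (nat_lit 154) (nat_lit 149) (nat_lit 147)))) (PT.nd (nat_lit 78) (PT.lf (nat_lit 4332) (nat_lit 6) (nat_lit 57) (nat_lit 0) (nat_lit 155) (nat_lit 149) (nat_lit 146)) (PT.nd (nat_lit 45864) (PT.lf (nat_lit 3876) (nat_lit 6) (nat_lit 51) (nat_lit 0) (nat_lit 156) (nat_lit 149) (nat_lit 145)) (PT.lf (nat_lit 3420) (nat_lit 6) (nat_lit 45) (nat_lit 5) (nat_lit 143) (nat_lit 150) (nat_lit 157))))))))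
noncomputable def pc3 : PT := (PT.nd (nat_lit 47502) (PT.nd (nat_lit 936) (PT.nd (nat_lit 468) (PT.nd (nat_lit 234) (PT.nd (nat_lit 78) (PT.lf (nat_lit 3952) (nat_lit 6) (nat_lit 52) (nat_lit 5) (nat_lit 144) (nat_lit 150) (nat_lit 156)) (PT.nd (nat_lit 78) (PT.lf (nat_lit 4408) (nat_lit 6) (nat_lit 58) (nat_lit 5) (nat_lit 145) (nat_lit 150) (nat_lit 155)) (PT.lf (nat_lit 4788) (nat_lit 6) (nat_lit 63) (nat_lit 5) (nat_lit 146) (nat_lit 150) (nat_lit 154)))) (PT.nd (nat_lit 78) (PT.lf (nat_lit 5092) (nat_lit 6) (nat_lit 67) (nat_lit 5) (nat_lit 147) (nat_lit 150) (nat_lit 153)) (PT.nd (nat_lit 78) (PT.lf (nat_lit 5320) (nat_lit 6) (nat_lit 70) (nat_lit 5) (nat_lit 148) (nat_lit 150) (nat_lit 152)) (PT.lf (nat_lit 5472) (nat_lit 6) (nat_lit 72) (nat_lit 5) (nat_lit 149) (nat_lit 150) (nat_lit 151))))) (PT.nd (nat_lit 234) (PT.nd (nat_lit 78) (PT.lf (nat_lit 5548) (nat_lit 1) (nat_lit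 73) (nat_lit 0) (nat_lit 150) (nat_lit 150) (nat_lit 150)) (PT.nd (nat_lit 78) (PT.lf (nat_lit 5472) (nat_lit 6) (nat_lit 72) (nat_lit 0) (nat_lit 151) (nat_lit 150) (nat_lit 149)) (PT.lf (nat_lit 5320) (nat_lit 6) (nat_lit 70) (nat_lit 0) (nat_lit 152) (nat_lit 150) (nat_lit 148)))) (PT.nd (nat_lit 78) (PT.lf (nat_lit 5092) (nat_lit 6) (nat_lit 67) (nat_lit 0) (nat_lit 153) (nat_lit 150) (nat_lit 147)) (PT.nd (nat_lit 78) (PT.lf (nat_lit 4788) (nat_lit 6) (nat_lit 63) (nat_lit 0) (nat_lit 154) (nat_lit 150) (nat_lit 146)) (PT.lf (nat_lit 4408) (nat_lit 6) (nat_lit 58) (nat_lit 0) (nat_lit 155) (nat_lit 150) (nat_lit 145)))))) (PT.nd (nat_lit 46098) (PT.nd (nat_lit 45864) (PT.nd (nat_lit 78) (PT.lf (nat_lit 3952) (nat_lit 6) (nat_lit 52) (nat_lit 0) (nat_lit 156) (nat_lit 150) (nat_lit 144)) (PT.nd (nat_lit 45708) (PT.lf (nat_lit 3420) (nat_lit 6) (nat_lit 45) (nat_lit 0) (nat_lit 157)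 (nat_lit 150) (nat_lit 143)) (PT.lf (nat_lit 3116) (nat_lit 6) (nat_lit 41) (nat_lit 5) (nat_lit 142) (nat_lit 151) (nat_lit 157)))) (PT.nd (nat_lit 78) (PT.lf (nat_lit 3496) (nat_lit 6) (nat_lit 46) (nat_lit 5) (nat_lit 143) (nat_lit 151) (nat_lit 156)) (PT.nd (nat_lit 78) (PT.lf (nat_lit 4028) (nat_lit 6) (nat_lit 53) (nat_lit 5) (nat_lit 144) (nat_lit 151) (nat_lit 155)) (PT.lf (nat_lit 4484) (nat_lit 6) (nat_lit 59) (nat_lit 5) (nat_lit 145) (nat_lit 151) (nat_lit 154))))) (PT.nd (nat_lit 234) (PT.nd (nat_lit 78) (PT.lf (nat_lit 4864) (nat_lit 6) (nat_lit 64) (nat_lit 5) (nat_lit 146) (nat_lit 151) (nat_lit 153)) (PT.nd (nat_lit 78) (PT.lf (nat_lit 5168) (nat_lit 6) (nat_lit 68) (nat_lit 5) (nat_lit 147) (nat_lit 151) (nat_lit 152)) (PT.lf (nat_lit 5396) (nat_lit 3) (nat_lit 71) (nat_lit 4) (nat_lit 148) (nat_lit 151) (nat_lit 151)))) (PT.nd (nat_lit 78) (PT.lf (nat_lit 5472) (nat_lit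 6) (nat_lit 72) (nat_lit 4) (nat_lit 149) (nat_lit 151) (nat_lit 150)) (PT.nd (nat_lit 78) (PT.lf (nat_lit 5472) (nat_lit 6) (nat_lit 72) (nat_lit 2) (nat_lit 150) (nat_lit 151) (nat_lit 149)) (PT.lf (nat_lit 5396) (nat_lit 3) (nat_lit 71) (nat_lit 0) (nat_lit 151) (nat_lit 151) (nat_lit 148))))))) (PT.nd (nat_lit 46488) (PT.nd (nat_lit 46020) (PT.nd (nat_lit 234) (PT.nd (nat_lit 78) (PT.lf (nat_lit 5168) (nat_lit 6) (nat_lit 68) (nat_lit 0) (nat_lit 152) (nat_lit 151) (nat_lit 147)) (PT.nd (nat_lit 78) (PT.lf (nat_lit 4864) (nat_lit 6) (nat_lit 64) (nat_lit 0) (nat_lit 153) (nat_lit 151) (nat_lit 146)) (PT.lf (nat_lit 4484) (nat_lit 6) (nat_lit 59) (nat_lit 0) (nat_lit 154) (nat_lit 151) (nat_lit 145)))) (PT.nd (nat_lit 78) (PT.lf (nat_lit 4028) (nat_lit 6) (nat_lit 53) (nat_lit 0) (nat_lit 155) (nat_lit 151) (nat_lit 144)) (PT.nd (nat_lit 78) (PT.lf (nat_lit 3496) (nat_lit 6) (nat_lit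 46) (nat_lit 0) (nat_lit 156) (nat_lit 151) (nat_lit 143)) (PT.lf (nat_lit 3116) (nat_lit 6) (nat_lit 41) (nat_lit 0) (nat_lit 157) (nat_lit 151) (nat_lit 142))))) (PT.nd (nat_lit 234) (PT.nd (nat_lit 78) (PT.lf (nat_lit 2888) (nat_lit 6) (nat_lit 38) (nat_lit 5) (nat_lit 141) (nat_lit 152) (nat_lit 157)) (PT.nd (nat_lit 78) (PT.lf (nat_lit 3192) (nat_lit 6) (nat_lit 42) (nat_lit 5) (nat_lit 142) (nat_lit 152) (nat_lit 156)) (PT.lf (nat_lit 3572) (nat_lit 6) (nat_lit 47) (nat_lit 5) (nat_lit 143) (nat_lit 152) (nat_lit 155)))) (PT.nd (nat_lit 78) (PT.lf (nat_lit 4104) (nat_lit 6) (nat_lit 54) (nat_lit 5) (nat_lit 144) (nat_lit 152) (nat_lit 154)) (PT.nd (nat_lit 78) (PT.lf (nat_lit 4560) (nat_lit 6) (nat_lit 60) (nat_lit 5) (nat_lit 145) (nat_lit 152) (nat_lit 153)) (PT.lf (nat_lit 4940) (nat_lit 3) (nat_lit 65) (nat_lit 4) (nat_lit 146) (nat_lit 152) (nat_lit 152)))))) (PT.nd (nat_lit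 468) (PT.nd (nat_lit 234) (PT.nd (nat_lit 78) (PT.lf (nat_lit 5168) (nat_lit 6) (nat_lit 68) (nat_lit 4) (nat_lit 147) (nat_lit 152) (nat_lit 151)) (PT.nd (nat_lit 78) (PT.lf (nat_lit 5320) (nat_lit 6) (nat_lit 70) (nat_lit 4) (nat_lit 148) (nat_lit 152) (nat_lit 150)) (PT.lf (nat_lit 5244) (nat_lit 3) (nat_lit 69) (nat_lit 2) (nat_lit 149) (nat_lit 152) (nat_lit 149)))) (PT.nd (nat_lit 78) (PT.lf (nat_lit 5320) (nat_lit 6) (nat_lit 70) (nat_lit 2) (nat_lit 150) (nat_lit 152) (nat_lit 148)) (PT.nd (nat_lit 78) (PT.lf (nat_lit 5168) (nat_lit 6) (nat_lit 68) (nat_lit 2) (nat_lit 151) (nat_lit 152) (nat_lit 147)) (PT.lf (nat_lit 4940) (nat_lit 3) (nat_lit 65) (nat_lit 0) (nat_lit 152) (nat_lit 152) (nat_lit 146))))) (PT.nd (nat_lit 234) (PT.nd (nat_lit 78) (PT.lf (nat_lit 4560) (nat_lit 6) (nat_lit 60) (nat_lit 0) (nat_lit 153) (nat_lit 152) (nat_lit 145)) (PT.nd (nat_lit 78) (PT.lf (nat_lit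 4104) (nat_lit 6) (nat_lit 54) (nat_lit 0) (nat_lit 154) (nat_lit 152) (nat_lit 144)) (PT.lf (nat_lit 3572) (nat_lit 6) (nat_lit 47) (nat_lit 0) (nat_lit 155) (nat_lit 152) (nat_lit 143)))) (PT.nd (nat_lit 78) (PT.lf (nat_lit 3192) (nat_lit 6) (nat_lit 42) (nat_lit 0) (nat_lit 156) (nat_lit 152) (nat_lit 142)) (PT.nd (nat_lit 45474) (PT.lf (nat_lit 2888) (nat_lit 6) (nat_lit 38) (nat_lit 0) (nat_lit 157) (nat_lit 152) (nat_lit 141)) (PT.lf (nat_lit 2432) (nat_lit 6) (nat_lit 32) (nat_lit 5) (nat_lit 139) (nat_lit 153) (nat_lit 158))))))))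
noncomputable def pc4 : PT := (PT.nd (nat_lit 47034) (PT.nd (nat_lit 858) (PT.nd (nat_lit 390) (PT.nd (nat_lit 156) (PT.nd (nat_lit 78) (PT.lf (nat_lit 2660) (nat_lit 6) (nat_lit 35) (nat_lit 5) (nat_lit 140) (nat_lit 153) (nat_lit 157)) (PT.lf (nat_lit 2964) (nat_lit 6) (nat_lit 39) (nat_lit 5) (nat_lit 141) (nat_lit 153) (nat_lit 156))) (PT.nd (nat_lit 78) (PT.lf (nat_lit 3268) (nat_lit 6) (nat_lit 43) (nat_lit 5) (nat_lit 142) (nat_lit 153) (nat_lit 155)) (PT.nd (nat_lit 78) (PT.lf (nat_lit 3648) (nat_lit 6) (nat_lit 48) (nat_lit 5) (nat_lit 143) (nat_lit 153) (nat_lit 154)) (PT.lf (nat_lit 4180) (nat_lit 3) (nat_lit 55) (nat_lit 4) (nat_lit 144) (nat_lit 153) (nat_lit 153))))) (PT.nd (nat_lit 234) (PT.nd (nat_lit 78) (PT.lf (nat_lit 4560) (nat_lit 6) (nat_lit 60) (nat_lit 4) (nat_lit 145) (nat_lit 153) (nat_lit 152)) (PT.nd (nat_lit 78) (PT.lf (nat_lit 4864) (nat_lit 6) (nat_lit 64)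 (nat_lit 4) (nat_lit 146) (nat_lit 153) (nat_lit 151)) (PT.lf (nat_lit 5092) (nat_lit 6) (nat_lit 67) (nat_lit 4) (nat_lit 147) (nat_lit 153) (nat_lit 150)))) (PT.nd (nat_lit 78) (PT.lf (nat_lit 5016) (nat_lit 6) (nat_lit 66) (nat_lit 4) (nat_lit 148) (nat_lit 153) (nat_lit 149)) (PT.nd (nat_lit 78) (PT.lf (nat_lit 5016) (nat_lit 6) (nat_lit 66) (nat_lit 2) (nat_lit 149) (nat_lit 153) (nat_lit 148)) (PT.lf (nat_lit 5092) (nat_lit 6) (nat_lit 67) (nat_lit 2) (nat_lit 150) (nat_lit 153) (nat_lit 147)))))) (PT.nd (nat_lit 468) (PT.nd (nat_lit 234) (PT.nd (nat_lit 78) (PT.lf (nat_lit 4864) (nat_lit 6) (nat_lit 64) (nat_lit 2) (nat_lit 151) (nat_lit 153) (nat_lit 146)) (PT.nd (nat_lit 78) (PT.lf (nat_lit 4560) (nat_lit 6) (nat_lit 60) (nat_lit 2) (nat_lit 152) (nat_lit 153) (nat_lit 145)) (PT.lf (nat_lit 4180) (nat_lit 3) (nat_lit 55) (nat_lit 0) (nat_lit 153) (nat_lit 153) (nat_lit 144))))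 (PT.nd (nat_lit 78) (PT.lf (nat_lit 3648) (nat_lit 6) (nat_lit 48) (nat_lit 0) (nat_lit 154) (nat_lit 153) (nat_lit 143)) (PT.nd (nat_lit 78) (PT.lf (nat_lit 3268) (nat_lit 6) (nat_lit 43) (nat_lit 0) (nat_lit 155) (nat_lit 153) (nat_lit 142)) (PT.lf (nat_lit 2964) (nat_lit 6) (nat_lit 39) (nat_lit 0) (nat_lit 156) (nat_lit 153) (nat_lit 141))))) (PT.nd (nat_lit 45474) (PT.nd (nat_lit 78) (PT.lf (nat_lit 2660) (nat_lit 6) (nat_lit 35) (nat_lit 0) (nat_lit 157) (nat_lit 153) (nat_lit 140)) (PT.nd (nat_lit 45318) (PT.lf (nat_lit 2432) (nat_lit 6) (nat_lit 32) (nat_lit 0) (nat_lit 158) (nat_lit 153) (nat_lit 139)) (PT.lf (nat_lit 2204) (nat_lit 6) (nat_lit 29) (nat_lit 5) (nat_lit 138) (nat_lit 154) (nat_lit 158)))) (PT.nd (nat_lit 78) (PT.lf (nat_lit 2508) (nat_lit 6) (nat_lit 33) (nat_lit 5) (nat_lit 139) (nat_lit 154) (nat_lit 157)) (PT.nd (nat_lit 78) (PT.lf (nat_lit 2736) (nat_lit 6)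 (nat_lit 36) (nat_lit 5) (nat_lit 140) (nat_lit 154) (nat_lit 156)) (PT.lf (nat_lit 3040) (nat_lit 6) (nat_lit 40) (nat_lit 5) (nat_lit 141) (nat_lit 154) (nat_lit 155))))))) (PT.nd (nat_lit 936) (PT.nd (nat_lit 468) (PT.nd (nat_lit 234) (PT.nd (nat_lit 78) (PT.lf (nat_lit 3344) (nat_lit 3) (nat_lit 44) (nat_lit 4) (nat_lit 142) (nat_lit 154) (nat_lit 154)) (PT.nd (nat_lit 78) (PT.lf (nat_lit 3648) (nat_lit 6) (nat_lit 48) (nat_lit 4) (nat_lit 143) (nat_lit 154) (nat_lit 153)) (PT.lf (nat_lit 4104) (nat_lit 6) (nat_lit 54) (nat_lit 4) (nat_lit 144) (nat_lit 154) (nat_lit 152)))) (PT.nd (nat_lit 78) (PT.lf (nat_lit 4484) (nat_lit 6) (nat_lit 59) (nat_lit 4) (nat_lit 145) (nat_lit 154) (nat_lit 151)) (PT.nd (nat_lit 78) (PT.lf (nat_lit 4788) (nat_lit 6) (nat_lit 63) (nat_lit 4) (nat_lit 146) (nat_lit 154) (nat_lit 150)) (PT.lf (nat_lit 4712) (nat_lit 6) (nat_lit 62) (nat_lit 4) (nat_lit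 147) (nat_lit 154) (nat_lit 149))))) (PT.nd (nat_lit 234) (PT.nd (nat_lit 78) (PT.lf (nat_lit 4636) (nat_lit 3) (nat_lit 61) (nat_lit 2) (nat_lit 148) (nat_lit 154) (nat_lit 148)) (PT.nd (nat_lit 78) (PT.lf (nat_lit 4712) (nat_lit 6) (nat_lit 62) (nat_lit 2) (nat_lit 149) (nat_lit 154) (nat_lit 147)) (PT.lf (nat_lit 4788) (nat_lit 6) (nat_lit 63) (nat_lit 2) (nat_lit 150) (nat_lit 154) (nat_lit 146)))) (PT.nd (nat_lit 78) (PT.lf (nat_lit 4484) (nat_lit 6) (nat_lit 59) (nat_lit 2) (nat_lit 151) (nat_lit 154) (nat_lit 145)) (PT.nd (nat_lit 78) (PT.lf (nat_lit 4104) (nat_lit 6) (nat_lit 54) (nat_lit 2) (nat_lit 152) (nat_lit 154) (nat_lit 144)) (PT.lf (nat_lit 3648) (nat_lit 6) (nat_lit 48) (nat_lit 2) (nat_lit 153) (nat_lit 154) (nat_lit 143)))))) (PT.nd (nat_lit 45630) (PT.nd (nat_lit 234) (PT.nd (nat_lit 78) (PT.lf (nat_lit 3344) (nat_lit 3) (nat_lit 44) (nat_lit 0) (nat_lit 154) (nat_lit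 154) (nat_lit 142)) (PT.nd (nat_lit 78) (PT.lf (nat_lit 3040) (nat_lit 6) (nat_lit 40) (nat_lit 0) (nat_lit 155) (nat_lit 154) (nat_lit 141)) (PT.lf (nat_lit 2736) (nat_lit 6) (nat_lit 36) (nat_lit 0) (nat_lit 156) (nat_lit 154) (nat_lit 140)))) (PT.nd (nat_lit 78) (PT.lf (nat_lit 2508) (nat_lit 6) (nat_lit 33) (nat_lit 0) (nat_lit 157) (nat_lit 154) (nat_lit 139)) (PT.nd (nat_lit 45240) (PT.lf (nat_lit 2204) (nat_lit 6) (nat_lit 29) (nat_lit 0) (nat_lit 158) (nat_lit 154) (nat_lit 138)) (PT.lf (nat_lit 2052) (nat_lit 6) (nat_lit 27) (nat_lit 5) (nat_lit 137) (nat_lit 155) (nat_lit 158))))) (PT.nd (nat_lit 234) (PT.nd (nat_lit 78) (PT.lf (nat_lit 2280) (nat_lit 6) (nat_lit 30) (nat_lit 5) (nat_lit 138) (nat_lit 155) (nat_lit 157)) (PT.nd (nat_lit 78) (PT.lf (nat_lit 2584) (nat_lit 6) (nat_lit 34) (nat_lit 5) (nat_lit 139) (nat_lit 155) (nat_lit 156)) (PT.lf (nat_lit 2812) (nat_lit 3)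 (nat_lit 37) (nat_lit 4) (nat_lit 140) (nat_lit 155) (nat_lit 155)))) (PT.nd (nat_lit 78) (PT.lf (nat_lit 3040) (nat_lit 6) (nat_lit 40) (nat_lit 4) (nat_lit 141) (nat_lit 155) (nat_lit 154)) (PT.nd (nat_lit 78) (PT.lf (nat_lit 3268) (nat_lit 6) (nat_lit 43) (nat_lit 4) (nat_lit 142) (nat_lit 155) (nat_lit 153)) (PT.lf (nat_lit 3572) (nat_lit 6) (nat_lit 47) (nat_lit 4) (nat_lit 143) (nat_lit 155) (nat_lit 152))))))))
noncomputable def pc5 : PT := (PT.nd (nat_lit 46878) (PT.nd (nat_lit 936) (PT.nd (nat_lit 468) (PT.nd (nat_lit 234) (PT.nd (nat_lit 78) (PT.lf (nat_lit 4028) (nat_lit 6) (nat_lit 53) (nat_lit 4) (nat_lit 144) (nat_lit 155) (nat_lit 151)) (PT.nd (nat_lit 78) (PT.lf (nat_lit 4408) (nat_lit 6) (nat_lit 58) (nat_lit 4) (nat_lit 145) (nat_lit 155) (nat_lit 150)) (PT.lf (nat_lit 4332) (nat_lit 6) (nat_lit 57) (nat_lit 4) (nat_lit 146) (nat_lit 155) (nat_lit 149)))) (PT.nd (nat_lit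 78) (PT.lf (nat_lit 4256) (nat_lit 6) (nat_lit 56) (nat_lit 4) (nat_lit 147) (nat_lit 155) (nat_lit 148)) (PT.nd (nat_lit 78) (PT.lf (nat_lit 4256) (nat_lit 6) (nat_lit 56) (nat_lit 2) (nat_lit 148) (nat_lit 155) (nat_lit 147)) (PT.lf (nat_lit 4332) (nat_lit 6) (nat_lit 57) (nat_lit 2) (nat_lit 149) (nat_lit 155) (nat_lit 146))))) (PT.nd (nat_lit 234) (PT.nd (nat_lit 78) (PT.lf (nat_lit 4408) (nat_lit 6) (nat_lit 58) (nat_lit 2) (nat_lit 150) (nat_lit 155) (nat_lit 145)) (PT.nd (nat_lit 78) (PT.lf (nat_lit 4028) (nat_lit 6) (nat_lit 53) (nat_lit 2) (nat_lit 151) (nat_lit 155) (nat_lit 144)) (PT.lf (nat_lit 3572) (nat_lit 6) (nat_lit 47) (nat_lit 2) (nat_lit 152) (nat_lit 155) (nat_lit 143)))) (PT.nd (nat_lit 78) (PT.lf (nat_lit 3268) (nat_lit 6) (nat_lit 43) (nat_lit 2) (nat_lit 153) (nat_lit 155) (nat_lit 142)) (PT.nd (nat_lit 78) (PT.lf (nat_lit 3040) (nat_lit 6) (nat_lit 40) (nat_lit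 2) (nat_lit 154) (nat_lit 155) (nat_lit 141)) (PT.lf (nat_lit 2812) (nat_lit 3) (nat_lit 37) (nat_lit 0) (nat_lit 155) (nat_lit 155) (nat_lit 140)))))) (PT.nd (nat_lit 45474) (PT.nd (nat_lit 45240) (PT.nd (nat_lit 78) (PT.lf (nat_lit 2584) (nat_lit 6) (nat_lit 34) (nat_lit 0) (nat_lit 156) (nat_lit 155) (nat_lit 139)) (PT.nd (nat_lit 78) (PT.lf (nat_lit 2280) (nat_lit 6) (nat_lit 30) (nat_lit 0) (nat_lit 157) (nat_lit 155) (nat_lit 138)) (PT.lf (nat_lit 2052) (nat_lit 6) (nat_lit 27) (nat_lit 0) (nat_lit 158) (nat_lit 155) (nat_lit 137)))) (PT.nd (nat_lit 78) (PT.lf (nat_lit 1748) (nat_lit 6) (nat_lit 23) (nat_lit 5) (nat_lit 135) (nat_lit 156) (nat_lit 159)) (PT.nd (nat_lit 78) (PT.lf (nat_lit 1900) (nat_lit 6) (nat_lit 25) (nat_lit 5) (nat_lit 136) (nat_lit 156) (nat_lit 158)) (PT.lf (nat_lit 2128) (nat_lit 6) (nat_lit 28) (nat_lit 5) (nat_lit 137) (nat_lit 156) (nat_lit 157))))) (PT.nd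 (nat_lit 234) (PT.nd (nat_lit 78) (PT.lf (nat_lit 2356) (nat_lit 3) (nat_lit 31) (nat_lit 4) (nat_lit 138) (nat_lit 156) (nat_lit 156)) (PT.nd (nat_lit 78) (PT.lf (nat_lit 2584) (nat_lit 6) (nat_lit 34) (nat_lit 4) (nat_lit 139) (nat_lit 156) (nat_lit 155)) (PT.lf (nat_lit 2736) (nat_lit 6) (nat_lit 36) (nat_lit 4) (nat_lit 140) (nat_lit 156) (nat_lit 154)))) (PT.nd (nat_lit 78) (PT.lf (nat_lit 2964) (nat_lit 6) (nat_lit 39) (nat_lit 4) (nat_lit 141) (nat_lit 156) (nat_lit 153)) (PT.nd (nat_lit 78) (PT.lf (nat_lit 3192) (nat_lit 6) (nat_lit 42) (nat_lit 4) (nat_lit 142) (nat_lit 156) (nat_lit 152)) (PT.lf (nat_lit 3496) (nat_lit 6) (nat_lit 46) (nat_lit 4) (nat_lit 143) (nat_lit 156) (nat_lit 151))))))) (PT.nd (nat_lit 936) (PT.nd (nat_lit 468) (PT.nd (nat_lit 234) (PT.nd (nat_lit 78) (PT.lf (nat_lit 3952) (nat_lit 6) (nat_lit 52) (nat_lit 4) (nat_lit 144) (nat_lit 156) (nat_lit 150))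 (PT.nd (nat_lit 78) (PT.lf (nat_lit 3876) (nat_lit 6) (nat_lit 51) (nat_lit 4) (nat_lit 145) (nat_lit 156) (nat_lit 149)) (PT.lf (nat_lit 3800) (nat_lit 6) (nat_lit 50) (nat_lit 4) (nat_lit 146) (nat_lit 156) (nat_lit 148)))) (PT.nd (nat_lit 78) (PT.lf (nat_lit 3724) (nat_lit 3) (nat_lit 49) (nat_lit 2) (nat_lit 147) (nat_lit 156) (nat_lit 147)) (PT.nd (nat_lit 78) (PT.lf (nat_lit 3800) (nat_lit 6) (nat_lit 50) (nat_lit 2) (nat_lit 148) (nat_lit 156) (nat_lit 146)) (PT.lf (nat_lit 3876) (nat_lit 6) (nat_lit 51) (nat_lit 2) (nat_lit 149) (nat_lit 156) (nat_lit 145))))) (PT.nd (nat_lit 234) (PT.nd (nat_lit 78) (PT.lf (nat_lit 3952) (nat_lit 6) (nat_lit 52) (nat_lit 2) (nat_lit 150) (nat_lit 156) (nat_lit 144)) (PT.nd (nat_lit 78) (PT.lf (nat_lit 3496) (nat_lit 6) (nat_lit 46) (nat_lit 2) (nat_lit 151) (nat_lit 156) (nat_lit 143)) (PT.lf (nat_lit 3192) (nat_lit 6) (nat_lit 42) (nat_lit 2)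 (nat_lit 152) (nat_lit 156) (nat_lit 142)))) (PT.nd (nat_lit 78) (PT.lf (nat_lit 2964) (nat_lit 6) (nat_lit 39) (nat_lit 2) (nat_lit 153) (nat_lit 156) (nat_lit 141)) (PT.nd (nat_lit 78) (PT.lf (nat_lit 2736) (nat_lit 6) (nat_lit 36) (nat_lit 2) (nat_lit 154) (nat_lit 156) (nat_lit 140)) (PT.lf (nat_lit 2584) (nat_lit 6) (nat_lit 34) (nat_lit 2) (nat_lit 155) (nat_lit 156) (nat_lit 139)))))) (PT.nd (nat_lit 45240) (PT.nd (nat_lit 234) (PT.nd (nat_lit 78) (PT.lf (nat_lit 2356) (nat_lit 3) (nat_lit 31) (nat_lit 0) (nat_lit 156) (nat_lit 156) (nat_lit 138)) (PT.nd (nat_lit 78) (PT.lf (nat_lit 2128) (nat_lit 6) (nat_lit 28) (nat_lit 0) (nat_lit 157) (nat_lit 156) (nat_lit 137)) (PT.lf (nat_lit 1900) (nat_lit 6) (nat_lit 25) (nat_lit 0) (nat_lit 158) (nat_lit 156) (nat_lit 136)))) (PT.nd (nat_lit 44850) (PT.lf (nat_lit 1748) (nat_lit 6) (nat_lit 23) (nat_lit 0) (nat_lit 159) (nat_lit 156)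 (nat_lit 135)) (PT.nd (nat_lit 78) (PT.lf (nat_lit 1444) (nat_lit 6) (nat_lit 19) (nat_lit 5) (nat_lit 133) (nat_lit 157) (nat_lit 160)) (PT.lf (nat_lit 1596) (nat_lit 6) (nat_lit 21) (nat_lit 5) (nat_lit 134) (nat_lit 157) (nat_lit 159))))) (PT.nd (nat_lit 234) (PT.nd (nat_lit 78) (PT.lf (nat_lit 1824) (nat_lit 6) (nat_lit 24) (nat_lit 5) (nat_lit 135) (nat_lit 157) (nat_lit 158)) (PT.nd (nat_lit 78) (PT.lf (nat_lit 1976) (nat_lit 3) (nat_lit 26) (nat_lit 4) (nat_lit 136) (nat_lit 157) (nat_lit 157)) (PT.lf (nat_lit 2128) (nat_lit 6) (nat_lit 28) (nat_lit 4) (nat_lit 137) (nat_lit 157) (nat_lit 156)))) (PT.nd (nat_lit 78) (PT.lf (nat_lit 2280) (nat_lit 6) (nat_lit 30) (nat_lit 4) (nat_lit 138) (nat_lit 157) (nat_lit 155)) (PT.nd (nat_lit 78) (PT.lf (nat_lit 2508) (nat_lit 6) (nat_lit 33) (nat_lit 4) (nat_lit 139) (nat_lit 157) (nat_lit 154)) (PT.lf (nat_lit 2660) (nat_lit 6) (nat_lit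 35) (nat_lit 4) (nat_lit 140) (nat_lit 157) (nat_lit 153))))))))
noncomputable def pc6 : PT := (PT.nd (nat_lit 47970) (PT.nd (nat_lit 1404) (PT.nd (nat_lit 936) (PT.nd (nat_lit 702) (PT.nd (nat_lit 78) (PT.lf (nat_lit 2888) (nat_lit 6) (nat_lit 38) (nat_lit 4) (nat_lit 141) (nat_lit 157) (nat_lit 152)) (PT.nd (nat_lit 78) (PT.lf (nat_lit 3116) (nat_lit 6) (nat_lit 41) (nat_lit 4) (nat_lit 142) (nat_lit 157) (nat_lit 151)) (PT.lf (nat_lit 3420) (nat_lit 6) (nat_lit 45) (nat_lit 4) (nat_lit 143) (nat_lit 157) (nat_lit 150)))) (PT.nd (nat_lit 78) (PT.lf (nat_lit 3420) (nat_lit 6) (nat_lit 45) (nat_lit 2) (nat_lit 150) (nat_lit 157) (nat_lit 143)) (PT.nd (nat_lit 78) (PT.lf (nat_lit 3116) (nat_lit 6) (nat_lit 41) (nat_lit 2) (nat_lit 151) (nat_lit 157) (nat_lit 142)) (PT.lf (nat_lit 2888) (nat_lit 6) (nat_lit 38) (nat_lit 2) (nat_lit 152) (nat_lit 157) (nat_lit 141))))) (PT.nd (nat_lit 234)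 (PT.nd (nat_lit 78) (PT.lf (nat_lit 2660) (nat_lit 6) (nat_lit 35) (nat_lit 2) (nat_lit 153) (nat_lit 157) (nat_lit 140)) (PT.nd (nat_lit 78) (PT.lf (nat_lit 2508) (nat_lit 6) (nat_lit 33) (nat_lit 2) (nat_lit 154) (nat_lit 157) (nat_lit 139)) (PT.lf (nat_lit 2280) (nat_lit 6) (nat_lit 30) (nat_lit 2) (nat_lit 155) (nat_lit 157) (nat_lit 138)))) (PT.nd (nat_lit 78) (PT.lf (nat_lit 2128) (nat_lit 6) (nat_lit 28) (nat_lit 2) (nat_lit 156) (nat_lit 157) (nat_lit 137)) (PT.nd (nat_lit 78) (PT.lf (nat_lit 1976) (nat_lit 3) (nat_lit 26) (nat_lit 0) (nat_lit 157) (nat_lit 157) (nat_lit 136)) (PT.lf (nat_lit 1824) (nat_lit 6) (nat_lit 24) (nat_lit 0) (nat_lit 158) (nat_lit 157) (nat_lit 135)))))) (PT.nd (nat_lit 45084) (PT.nd (nat_lit 44850) (PT.nd (nat_lit 78) (PT.lf (nat_lit 1596) (nat_lit 6) (nat_lit 21) (nat_lit 0) (nat_lit 159) (nat_lit 157) (nat_lit 134)) (PT.nd (nat_lit 44694) (PT.lf (nat_lit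 1444) (nat_lit 6) (nat_lit 19) (nat_lit 0) (nat_lit 160) (nat_lit 157) (nat_lit 133)) (PT.lf (nat_lit 1292) (nat_lit 6) (nat_lit 17) (nat_lit 5) (nat_lit 132) (nat_lit 158) (nat_lit 160)))) (PT.nd (nat_lit 78) (PT.lf (nat_lit 1520) (nat_lit 6) (nat_lit 20) (nat_lit 5) (nat_lit 133) (nat_lit 158) (nat_lit 159)) (PT.nd (nat_lit 78) (PT.lf (nat_lit 1672) (nat_lit 3) (nat_lit 22) (nat_lit 4) (nat_lit 134) (nat_lit 158) (nat_lit 158)) (PT.lf (nat_lit 1824) (nat_lit 6) (nat_lit 24) (nat_lit 4) (nat_lit 135) (nat_lit 158) (nat_lit 157))))) (PT.nd (nat_lit 234) (PT.nd (nat_lit 78) (PT.lf (nat_lit 1900) (nat_lit 6) (nat_lit 25) (nat_lit 4) (nat_lit 136) (nat_lit 158) (nat_lit 156)) (PT.nd (nat_lit 78) (PT.lf (nat_lit 2052) (nat_lit 6) (nat_lit 27) (nat_lit 4) (nat_lit 137) (nat_lit 158) (nat_lit 155)) (PT.lf (nat_lit 2204) (nat_lit 6) (nat_lit 29) (nat_lit 4) (nat_lit 138) (nat_lit 158) (nat_lit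 154)))) (PT.nd (nat_lit 1092) (PT.lf (nat_lit 2432) (nat_lit 6) (nat_lit 32) (nat_lit 4) (nat_lit 139) (nat_lit 158) (nat_lit 153)) (PT.nd (nat_lit 78) (PT.lf (nat_lit 2432) (nat_lit 6) (nat_lit 32) (nat_lit 2) (nat_lit 153) (nat_lit 158) (nat_lit 139)) (PT.lf (nat_lit 2204) (nat_lit 6) (nat_lit 29) (nat_lit 2) (nat_lit 154) (nat_lit 158) (nat_lit 138))))))) (PT.nd (nat_lit 46956) (PT.nd (nat_lit 44928) (PT.nd (nat_lit 234) (PT.nd (nat_lit 78) (PT.lf (nat_lit 2052) (nat_lit 6) (nat_lit 27) (nat_lit 2) (nat_lit 155) (nat_lit 158) (nat_lit 137)) (PT.nd (nat_lit 78) (PT.lf (nat_lit 1900) (nat_lit 6) (nat_lit 25) (nat_lit 2) (nat_lit 156) (nat_lit 158) (nat_lit 136)) (PT.lf (nat_lit 1824) (nat_lit 6) (nat_lit 24) (nat_lit 2) (nat_lit 157) (nat_lit 158) (nat_lit 135)))) (PT.nd (nat_lit 78) (PT.lf (nat_lit 1672) (nat_lit 3) (nat_lit 22) (nat_lit 0) (nat_lit 158) (nat_lit 158) (nat_lit 134))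 (PT.nd (nat_lit 78) (PT.lf (nat_lit 1520) (nat_lit 6) (nat_lit 20) (nat_lit 0) (nat_lit 159) (nat_lit 158) (nat_lit 133)) (PT.lf (nat_lit 1292) (nat_lit 6) (nat_lit 17) (nat_lit 0) (nat_lit 160) (nat_lit 158) (nat_lit 132))))) (PT.nd (nat_lit 234) (PT.nd (nat_lit 78) (PT.lf (nat_lit 1064) (nat_lit 6) (nat_lit 14) (nat_lit 5) (nat_lit 130) (nat_lit 159) (nat_lit 161)) (PT.nd (nat_lit 78) (PT.lf (nat_lit 1216) (nat_lit 6) (nat_lit 16) (nat_lit 5) (nat_lit 131) (nat_lit 159) (nat_lit 160)) (PT.lf (nat_lit 1368) (nat_lit 3) (nat_lit 18) (nat_lit 4) (nat_lit 132) (nat_lit 159) (nat_lit 159)))) (PT.nd (nat_lit 78) (PT.lf (nat_lit 1520) (nat_lit 6) (nat_lit 20) (nat_lit 4) (nat_lit 133) (nat_lit 159) (nat_lit 158)) (PT.nd (nat_lit 78) (PT.lf (nat_lit 1596) (nat_lit 6) (nat_lit 21) (nat_lit 4) (nat_lit 134) (nat_lit 159) (nat_lit 157)) (PT.lf (nat_lit 1748) (nat_lit 6) (nat_lit 23) (nat_lit 4)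 (nat_lit 135) (nat_lit 159) (nat_lit 156)))))) (PT.nd (nat_lit 44694) (PT.nd (nat_lit 234) (PT.nd (nat_lit 78) (PT.lf (nat_lit 1748) (nat_lit 6) (nat_lit 23) (nat_lit 2) (nat_lit 156) (nat_lit 159) (nat_lit 135)) (PT.nd (nat_lit 78) (PT.lf (nat_lit 1596) (nat_lit 6) (nat_lit 21) (nat_lit 2) (nat_lit 157) (nat_lit 159) (nat_lit 134)) (PT.lf (nat_lit 1520) (nat_lit 6) (nat_lit 20) (nat_lit 2) (nat_lit 158) (nat_lit 159) (nat_lit 133)))) (PT.nd (nat_lit 78) (PT.lf (nat_lit 1368) (nat_lit 3) (nat_lit 18) (nat_lit 0) (nat_lit 159) (nat_lit 159) (nat_lit 132)) (PT.nd (nat_lit 78) (PT.lf (nat_lit 1216) (nat_lit 6) (nat_lit 16) (nat_lit 0) (nat_lit 160) (nat_lit 159) (nat_lit 131)) (PT.lf (nat_lit 1064) (nat_lit 6) (nat_lit 14) (nat_lit 0) (nat_lit 161) (nat_lit 159) (nat_lit 130))))) (PT.nd (nat_lit 234) (PT.nd (nat_lit 78) (PT.lf (nat_lit 836) (nat_lit 6) (nat_lit 11) (nat_lit 5) (nat_lit 128)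 (nat_lit 160) (nat_lit 162)) (PT.nd (nat_lit 78) (PT.lf (nat_lit 988) (nat_lit 6) (nat_lit 13) (nat_lit 5) (nat_lit 129) (nat_lit 160) (nat_lit 161)) (PT.lf (nat_lit 1140) (nat_lit 3) (nat_lit 15) (nat_lit 4) (nat_lit 130) (nat_lit 160) (nat_lit 160)))) (PT.nd (nat_lit 78) (PT.lf (nat_lit 1216) (nat_lit 6) (nat_lit 16) (nat_lit 4) (nat_lit 131) (nat_lit 160) (nat_lit 159)) (PT.nd (nat_lit 78) (PT.lf (nat_lit 1292) (nat_lit 6) (nat_lit 17) (nat_lit 4) (nat_lit 132) (nat_lit 160) (nat_lit 158)) (PT.lf (nat_lit 1444) (nat_lit 6) (nat_lit 19) (nat_lit 4) (nat_lit 133) (nat_lit 160) (nat_lit 157))))))))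
noncomputable def pc7 : PT := (PT.nd (nat_lit 94224) (PT.nd (nat_lit 47112) (PT.nd (nat_lit 44460) (PT.nd (nat_lit 234) (PT.nd (nat_lit 78) (PT.lf (nat_lit 1444) (nat_lit 6) (nat_lit 19) (nat_lit 2) (nat_lit 157) (nat_lit 160) (nat_lit 133)) (PT.nd (nat_lit 78) (PT.lf (nat_lit 1292) (nat_lit 6) (nat_lit 17) (nat_lit 2) (nat_lit 158) (nat_lit 160) (nat_lit 132)) (PT.lf (nat_lit 1216) (nat_lit 6) (nat_lit 16) (nat_lit 2) (nat_lit 159) (nat_lit 160) (nat_lit 131)))) (PT.nd (nat_lit 78) (PT.lf (nat_lit 1140) (nat_lit 3) (nat_lit 15) (nat_lit 0) (nat_lit 160) (nat_lit 160) (nat_lit 130)) (PT.nd (nat_lit 78) (PT.lf (nat_lit 988) (nat_lit 6) (nat_lit 13) (nat_lit 0) (nat_lit 161) (nat_lit 160) (nat_lit 129)) (PT.lf (nat_lit 836) (nat_lit 6) (nat_lit 11) (nat_lit 0) (nat_lit 162) (nat_lit 160) (nat_lit 128))))) (PT.nd (nat_lit 234) (PT.nd (nat_lit 78) (PT.lf (nat_lit 608) (nat_lit 6) (nat_lit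 8) (nat_lit 5) (nat_lit 126) (nat_lit 161) (nat_lit 163)) (PT.nd (nat_lit 78) (PT.lf (nat_lit 760) (nat_lit 6) (nat_lit 10) (nat_lit 5) (nat_lit 127) (nat_lit 161) (nat_lit 162)) (PT.lf (nat_lit 912) (nat_lit 3) (nat_lit 12) (nat_lit 4) (nat_lit 128) (nat_lit 161) (nat_lit 161)))) (PT.nd (nat_lit 78) (PT.lf (nat_lit 988) (nat_lit 6) (nat_lit 13) (nat_lit 4) (nat_lit 129) (nat_lit 161) (nat_lit 160)) (PT.nd (nat_lit 2262) (PT.lf (nat_lit 1064) (nat_lit 6) (nat_lit 14) (nat_lit 4) (nat_lit 130) (nat_lit 161) (nat_lit 159)) (PT.lf (nat_lit 1064) (nat_lit 6) (nat_lit 14) (nat_lit 2) (nat_lit 159) (nat_lit 161) (nat_lit 130)))))) (PT.nd (nat_lit 44226) (PT.nd (nat_lit 234) (PT.nd (nat_lit 78) (PT.lf (nat_lit 988) (nat_lit 6) (nat_lit 13) (nat_lit 2) (nat_lit 160) (nat_lit 161) (nat_lit 129)) (PT.nd (nat_lit 78) (PT.lf (nat_lit 912) (nat_lit 3) (nat_lit 12) (nat_lit 0) (nat_lit 161) (nat_lit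 161) (nat_lit 128)) (PT.lf (nat_lit 760) (nat_lit 6) (nat_lit 10) (nat_lit 0) (nat_lit 162) (nat_lit 161) (nat_lit 127)))) (PT.nd (nat_lit 43836) (PT.lf (nat_lit 608) (nat_lit 6) (nat_lit 8) (nat_lit 0) (nat_lit 163) (nat_lit 161) (nat_lit 126)) (PT.nd (nat_lit 78) (PT.lf (nat_lit 380) (nat_lit 6) (nat_lit 5) (nat_lit 5) (nat_lit 124) (nat_lit 162) (nat_lit 164)) (PT.lf (nat_lit 532) (nat_lit 6) (nat_lit 7) (nat_lit 5) (nat_lit 125) (nat_lit 162) (nat_lit 163))))) (PT.nd (nat_lit 2652) (PT.nd (nat_lit 78) (PT.lf (nat_lit 684) (nat_lit 3) (nat_lit 9) (nat_lit 4) (nat_lit 126) (nat_lit 162) (nat_lit 162)) (PT.nd (nat_lit 78) (PT.lf (nat_lit 760) (nat_lit 6) (nat_lit 10) (nat_lit 4) (nat_lit 127) (nat_lit 162) (nat_lit 161)) (PT.lf (nat_lit 836) (nat_lit 6) (nat_lit 11) (nat_lit 4) (nat_lit 128) (nat_lit 162) (nat_lit 160)))) (PT.nd (nat_lit 78) (PT.lf (nat_lit 836) (nat_lit 6) (nat_lit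 11) (nat_lit 2) (nat_lit 160) (nat_lit 162) (nat_lit 128)) (PT.nd (nat_lit 78) (PT.lf (nat_lit 760) (nat_lit 6) (nat_lit 10) (nat_lit 2) (nat_lit 161) (nat_lit 162) (nat_lit 127)) (PT.lf (nat_lit 684) (nat_lit 3) (nat_lit 9) (nat_lit 0) (nat_lit 162) (nat_lit 162) (nat_lit 126))))))) (PT.nd (nat_lit 90480) (PT.nd (nat_lit 43992) (PT.nd (nat_lit 43758) (PT.nd (nat_lit 78) (PT.lf (nat_lit 532) (nat_lit 6) (nat_lit 7) (nat_lit 0) (nat_lit 163) (nat_lit 162) (nat_lit 125)) (PT.nd (nat_lit 43602) (PT.lf (nat_lit 380) (nat_lit 6) (nat_lit 5) (nat_lit 0) (nat_lit 164) (nat_lit 162) (nat_lit 124)) (PT.lf (nat_lit 152) (nat_lit 6) (nat_lit 2) (nat_lit 5) (nat_lit 122) (nat_lit 163) (nat_lit 165)))) (PT.nd (nat_lit 78) (PT.lf (nat_lit 304) (nat_lit 6) (nat_lit 4) (nat_lit 5) (nat_lit 123) (nat_lit 163) (nat_lit 164)) (PT.nd (nat_lit 78) (PT.lf (nat_lit 456) (nat_lit 3) (nat_lit 6) (nat_lit 4) (nat_lit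 124) (nat_lit 163) (nat_lit 163)) (PT.lf (nat_lit 532) (nat_lit 6) (nat_lit 7) (nat_lit 4) (nat_lit 125) (nat_lit 163) (nat_lit 162))))) (PT.nd (nat_lit 2886) (PT.nd (nat_lit 2730) (PT.lf (nat_lit 608) (nat_lit 6) (nat_lit 8) (nat_lit 4) (nat_lit 126) (nat_lit 163) (nat_lit 161)) (PT.nd (nat_lit 78) (PT.lf (nat_lit 608) (nat_lit 6) (nat_lit 8) (nat_lit 2) (nat_lit 161) (nat_lit 163) (nat_lit 126)) (PT.lf (nat_lit 532) (nat_lit 6) (nat_lit 7) (nat_lit 2) (nat_lit 162) (nat_lit 163) (nat_lit 125)))) (PT.nd (nat_lit 78) (PT.lf (nat_lit 456) (nat_lit 3) (nat_lit 6) (nat_lit 0) (nat_lit 163) (nat_lit 163) (nat_lit 124)) (PT.nd (nat_lit 78) (PT.lf (nat_lit 304) (nat_lit 6) (nat_lit 4) (nat_lit 0) (nat_lit 164) (nat_lit 163) (nat_lit 123)) (PT.lf (nat_lit 152) (nat_lit 6) (nat_lit 2) (nat_lit 0) (nat_lit 165) (nat_lit 163) (nat_lit 122)))))) (PT.nd (nat_lit 3354) (PT.nd (nat_lit 234) (PT.nd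 (nat_lit 78) (PT.lf (nat_lit 76) (nat_lit 6) (nat_lit 1) (nat_lit 5) (nat_lit 121) (nat_lit 164) (nat_lit 165)) (PT.nd (nat_lit 78) (PT.lf (nat_lit 228) (nat_lit 3) (nat_lit 3) (nat_lit 4) (nat_lit 122) (nat_lit 164) (nat_lit 164)) (PT.lf (nat_lit 304) (nat_lit 6) (nat_lit 4) (nat_lit 4) (nat_lit 123) (nat_lit 164) (nat_lit 163)))) (PT.nd (nat_lit 2964) (PT.lf (nat_lit 380) (nat_lit 6) (nat_lit 5) (nat_lit 4) (nat_lit 124) (nat_lit 164) (nat_lit 162)) (PT.nd (nat_lit 78) (PT.lf (nat_lit 380) (nat_lit 6) (nat_lit 5) (nat_lit 2) (nat_lit 162) (nat_lit 164) (nat_lit 124)) (PT.lf (nat_lit 304) (nat_lit 6) (nat_lit 4) (nat_lit 2) (nat_lit 163) (nat_lit 164) (nat_lit 123))))) (PT.nd (nat_lit 43602) (PT.nd (nat_lit 78) (PT.lf (nat_lit 228) (nat_lit 3) (nat_lit 3) (nat_lit 0) (nat_lit 164) (nat_lit 164) (nat_lit 122)) (PT.nd (nat_lit 43446) (PT.lf (nat_lit 76) (nat_lit 6) (nat_lit 1) (nat_lit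 0) (nat_lit 165) (nat_lit 164) (nat_lit 121)) (PT.lf (nat_lit 76) (nat_lit 6) (nat_lit 1) (nat_lit 4) (nat_lit 121) (nat_lit 165) (nat_lit 164)))) (PT.nd (nat_lit 3198) (PT.lf (nat_lit 152) (nat_lit 6) (nat_lit 2) (nat_lit 4) (nat_lit 122) (nat_lit 165) (nat_lit 163)) (PT.nd (nat_lit 78) (PT.lf (nat_lit 152) (nat_lit 6) (nat_lit 2) (nat_lit 2) (nat_lit 163) (nat_lit 165) (nat_lit 122)) (PT.lf (nat_lit 76) (nat_lit 6) (nat_lit 1) (nat_lit 2) (nat_lit 164) (nat_lit 165) (nat_lit 121))))))))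
noncomputable def xc0 : XT := (XT.nd (nat_lit 140556) (nat_lit 0) (nat_lit 0) (XT.nd (nat_lit 93600) (nat_lit 0) (nat_lit 0) (XT.nd (nat_lit 46878) (nat_lit 0) (nat_lit 0) (XT.nd (nat_lit 46722) (nat_lit 0) (nat_lit 0) (XT.nd (nat_lit 78) (nat_lit 0) (nat_lit 0) (XT.lf (nat_lit 0) (nat_lit 1082150621600) (nat_lit 152) (nat_lit 1228323804417) (nat_lit 0) (nat_lit 1082150621600) (nat_lit 1) (nat_lit 5) (nat_lit 3) (nat_lit 4) (nat_lit 1) (nat_lit 4) (nat_lit 414) (nat_lit 243) (nat_lit 243)) (XT.lf (nat_lit 0) (nat_lit 2337792514393) (nat_lit 152) (nat_lit 2652468103734) (nat_lit 0) (nat_lit 2337780563458) (nat_lit 1) (nat_lit 5) (nat_lit 3) (nat_lit 4) (nat_lit 1) (nat_lit 4) (nat_lit 415) (nat_lit 243) (nat_lit 242))) (XT.nd (nat_lit 78) (nat_lit 0) (nat_lit 0) (XT.lf (nat_lit 0) (nat_lit 927445176961) (nat_lit 152) (nat_lit 1053766313267) (nat_lit 0) (nat_lit 927445176961) (nat_lit 1)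 (nat_lit 5) (nat_lit 3) (nat_lit 4) (nat_lit 1) (nat_lit 4) (nat_lit 412) (nat_lit 244) (nat_lit 244)) (XT.lf (nat_lit 0) (nat_lit 2003656527711) (nat_lit 152) (nat_lit 2275367017745) (nat_lit 0) (nat_lit 2003643620702) (nat_lit 1) (nat_lit 5) (nat_lit 3) (nat_lit 4) (nat_lit 1) (nat_lit 4) (nat_lit 413) (nat_lit 244) (nat_lit 243)))) (XT.nd (nat_lit 46566) (nat_lit 0) (nat_lit 0) (XT.nd (nat_lit 78) (nat_lit 0) (nat_lit 0) (XT.lf (nat_lit 0) (nat_lit 2164305034293) (nat_lit 152) (nat_lit 2456665616778) (nat_lit 0) (nat_lit 2164280176349) (nat_lit 1) (nat_lit 5) (nat_lit 3) (nat_lit 4) (nat_lit 1) (nat_lit 4) (nat_lit 414) (nat_lit 244) (nat_lit 242)) (XT.lf (nat_lit 0) (nat_lit 2337787864820) (nat_lit 152) (nat_lit 2652502785701) (nat_lit 0) (nat_lit 2337751941196) (nat_lit 1) (nat_lit 5) (nat_lit 3) (nat_lit 4) (nat_lit 1) (nat_lit 4) (nat_lit 415) (nat_lit 244) (nat_lit 241))) (XT.nd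 (nat_lit 78) (nat_lit 0) (nat_lit 0) (XT.lf (nat_lit 0) (nat_lit 794784228732) (nat_lit 152) (nat_lit 904165530276) (nat_lit 0) (nat_lit 794784228732) (nat_lit 1) (nat_lit 5) (nat_lit 3) (nat_lit 4) (nat_lit 1) (nat_lit 4) (nat_lit 410) (nat_lit 245) (nat_lit 245)) (XT.lf (nat_lit 0) (nat_lit 1717138875174) (nat_lit 152) (nat_lit 1952167868973) (nat_lit 0) (nat_lit 1717124935604) (nat_lit 1) (nat_lit 5) (nat_lit 3) (nat_lit 4) (nat_lit 1) (nat_lit 4) (nat_lit 411) (nat_lit 245) (nat_lit 244))))) (XT.nd (nat_lit 46566) (nat_lit 0) (nat_lit 0) (XT.nd (nat_lit 156) (nat_lit 0) (nat_lit 0) (XT.nd (nat_lit 78) (nat_lit 0) (nat_lit 0) (XT.lf (nat_lit 0) (nat_lit 1854894448302) (nat_lit 152) (nat_lit 2107552075114) (nat_lit 0) (nat_lit 1854867601723) (nat_lit 1) (nat_lit 5) (nat_lit 3) (nat_lit 4) (nat_lit 1) (nat_lit 4) (nat_lit 412) (nat_lit 245) (nat_lit 243)) (XT.lf (nat_lit 0) (nat_lit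 2003651506172) (nat_lit 152) (nat_lit 2275404474270) (nat_lit 0) (nat_lit 2003612708659) (nat_lit 1) (nat_lit 5) (nat_lit 3) (nat_lit 4) (nat_lit 1) (nat_lit 4) (nat_lit 413) (nat_lit 245) (nat_lit 242))) (XT.nd (nat_lit 78) (nat_lit 0) (nat_lit 0) (XT.lf (nat_lit 0) (nat_lit 2164291572090) (nat_lit 152) (nat_lit 2456719747325) (nat_lit 0) (nat_lit 2164241708896) (nat_lit 1) (nat_lit 5) (nat_lit 3) (nat_lit 4) (nat_lit 1) (nat_lit 4) (nat_lit 414) (nat_lit 245) (nat_lit 241)) (XT.lf (nat_lit 0) (nat_lit 2337766587187) (nat_lit 152) (nat_lit 2652572355158) (nat_lit 0) (nat_lit 2337706477993) (nat_lit 1) (nat_lit 5) (nat_lit 3) (nat_lit 4) (nat_lit 1) (nat_lit 4) (nat_lit 415) (nat_lit 245) (nat_lit 240)))) (XT.nd (nat_lit 156) (nat_lit 0) (nat_lit 0) (XT.nd (nat_lit 78) (nat_lit 0) (nat_lit 0) (XT.lf (nat_lit 0) (nat_lit 681020805863) (nat_lit 152) (nat_lit 775965432462) (nat_lit 0) (nat_lit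 681020805863) (nat_lit 1) (nat_lit 5) (nat_lit 3) (nat_lit 4) (nat_lit 1) (nat_lit 4) (nat_lit 408) (nat_lit 246) (nat_lit 246)) (XT.lf (nat_lit 0) (nat_lit 1471442277065) (nat_lit 152) (nat_lit 1675189283581) (nat_lit 0) (nat_lit 1471427222330) (nat_lit 1) (nat_lit 5) (nat_lit 3) (nat_lit 4) (nat_lit 1) (nat_lit 4) (nat_lit 409) (nat_lit 246) (nat_lit 245))) (XT.nd (nat_lit 78) (nat_lit 0) (nat_lit 0) (XT.lf (nat_lit 0) (nat_lit 1589572879394) (nat_lit 152) (nat_lit 1808352065020) (nat_lit 0) (nat_lit 1589543885089) (nat_lit 1) (nat_lit 5) (nat_lit 3) (nat_lit 4) (nat_lit 1) (nat_lit 4) (nat_lit 410) (nat_lit 246) (nat_lit 244)) (XT.nd (nat_lit 78) (nat_lit 0) (nat_lit 0) (XT.lf (nat_lit 0) (nat_lit 1717133451912) (nat_lit 152) (nat_lit 1952208322020) (nat_lit 0) (nat_lit 1717091550597) (nat_lit 1) (nat_lit 5) (nat_lit 3) (nat_lit 4) (nat_lit 1) (nat_lit 4) (nat_lit 411) (nat_lit 246)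 (nat_lit 243)) (XT.lf (nat_lit 0) (nat_lit 1854879909123) (nat_lit 152) (nat_lit 2107610536105) (nat_lit 0) (nat_lit 1854826056874) (nat_lit 1) (nat_lit 5) (nat_lit 3) (nat_lit 4) (nat_lit 1) (nat_lit 4) (nat_lit 412) (nat_lit 246) (nat_lit 242))))))) (XT.nd (nat_lit 46722) (nat_lit 0) (nat_lit 0) (XT.nd (nat_lit 46410) (nat_lit 0) (nat_lit 0) (XT.nd (nat_lit 156) (nat_lit 0) (nat_lit 0) (XT.nd (nat_lit 78) (nat_lit 0) (nat_lit 0) (XT.lf (nat_lit 0) (nat_lit 2003628526329) (nat_lit 152) (nat_lit 2275479609283) (nat_lit 0) (nat_lit 2003563608399) (nat_lit 1) (nat_lit 5) (nat_lit 3) (nat_lit 4) (nat_lit 1) (nat_lit 4) (nat_lit 413) (nat_lit 246) (nat_lit 241)) (XT.lf (nat_lit 0) (nat_lit 2164260776816) (nat_lit 152) (nat_lit 2456810321249) (nat_lit 0) (nat_lit 2164185612887) (nat_lit 1) (nat_lit 5) (nat_lit 3) (nat_lit 4) (nat_lit 1) (nat_lit 4) (nat_lit 414) (nat_lit 246) (nat_lit 240)))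 (XT.nd (nat_lit 46176) (nat_lit 0) (nat_lit 0) (XT.lf (nat_lit 0) (nat_lit 2337728555404) (nat_lit 152) (nat_lit 2652677224368) (nat_lit 0) (nat_lit 2337643904437) (nat_lit 1) (nat_lit 5) (nat_lit 3) (nat_lit 4) (nat_lit 1) (nat_lit 4) (nat_lit 415) (nat_lit 246) (nat_lit 239)) (XT.lf (nat_lit 0) (nat_lit 583456721731) (nat_lit 152) (nat_lit 666117649710) (nat_lit 0) (nat_lit 583456721731) (nat_lit 1) (nat_lit 5) (nat_lit 3) (nat_lit 4) (nat_lit 1) (nat_lit 4) (nat_lit 406) (nat_lit 247) (nat_lit 247)))) (XT.nd (nat_lit 156) (nat_lit 0) (nat_lit 0) (XT.nd (nat_lit 78) (nat_lit 0) (nat_lit 0) (XT.lf (nat_lit 0) (nat_lit 1260738842253) (nat_lit 152) (nat_lit 1437846388793) (nat_lit 0) (nat_lit 1260722583139) (nat_lit 1) (nat_lit 5) (nat_lit 3) (nat_lit 4) (nat_lit 1) (nat_lit 4) (nat_lit 407) (nat_lit 247) (nat_lit 246)) (XT.lf (nat_lit 0) (nat_lit 1362046387410) (nat_lit 152) (nat_lit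 1551953549749) (nat_lit 0) (nat_lit 1362015073560) (nat_lit 1) (nat_lit 5) (nat_lit 3) (nat_lit 4) (nat_lit 1) (nat_lit 4) (nat_lit 408) (nat_lit 247) (nat_lit 245))) (XT.nd (nat_lit 78) (nat_lit 0) (nat_lit 0) (XT.lf (nat_lit 0) (nat_lit 1471436419943) (nat_lit 152) (nat_lit 1675232972871) (nat_lit 0) (nat_lit 1471391166523) (nat_lit 1) (nat_lit 5) (nat_lit 3) (nat_lit 4) (nat_lit 1) (nat_lit 4) (nat_lit 409) (nat_lit 247) (nat_lit 244)) (XT.lf (nat_lit 0) (nat_lit 1589557177081) (nat_lit 152) (nat_lit 1808415202890) (nat_lit 0) (nat_lit 1589499016651) (nat_lit 1) (nat_lit 5) (nat_lit 3) (nat_lit 4) (nat_lit 1) (nat_lit 4) (nat_lit 410) (nat_lit 247) (nat_lit 243))))) (XT.nd (nat_lit 312) (nat_lit 0) (nat_lit 0) (XT.nd (nat_lit 156) (nat_lit 0) (nat_lit 0) (XT.nd (nat_lit 78) (nat_lit 0) (nat_lit 0) (XT.lf (nat_lit 0) (nat_lit 1717108633681) (nat_lit 152) (nat_lit 1952289467835) (nat_lit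 0) (nat_lit 1717038522317) (nat_lit 1) (nat_lit 5) (nat_lit 3) (nat_lit 4) (nat_lit 1) (nat_lit 4) (nat_lit 411) (nat_lit 247) (nat_lit 242)) (XT.lf (nat_lit 0) (nat_lit 1854846650227) (nat_lit 152) (nat_lit 2107708355942) (nat_lit 0) (nat_lit 1854765473184) (nat_lit 1) (nat_lit 5) (nat_lit 3) (nat_lit 4) (nat_lit 1) (nat_lit 4) (nat_lit 412) (nat_lit 247) (nat_lit 241))) (XT.nd (nat_lit 78) (nat_lit 0) (nat_lit 0) (XT.lf (nat_lit 0) (nat_lit 2003587452003) (nat_lit 152) (nat_lit 2275592868031) (nat_lit 0) (nat_lit 2003496028959) (nat_lit 1) (nat_lit 5) (nat_lit 3) (nat_lit 4) (nat_lit 1) (nat_lit 4) (nat_lit 413) (nat_lit 247) (nat_lit 240)) (XT.lf (nat_lit 0) (nat_lit 2164212465982) (nat_lit 152) (nat_lit 2456937875283) (nat_lit 0) (nat_lit 2164111555901) (nat_lit 1) (nat_lit 5) (nat_lit 3) (nat_lit 4) (nat_lit 1) (nat_lit 4) (nat_lit 414) (nat_lit 247) (nat_lit 239)))) (XT.nd (nat_lit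 46098) (nat_lit 0) (nat_lit 0) (XT.nd (nat_lit 46020) (nat_lit 0) (nat_lit 0) (XT.lf (nat_lit 0) (nat_lit 2337673544098) (nat_lit 152) (nat_lit 2652818014779) (nat_lit 0) (nat_lit 2337563849723) (nat_lit 1) (nat_lit 5) (nat_lit 3) (nat_lit 4) (nat_lit 1) (nat_lit 4) (nat_lit 415) (nat_lit 247) (nat_lit 238)) (XT.lf (nat_lit 0) (nat_lit 499778536733) (nat_lit 152) (nat_lit 572009070132) (nat_lit 0) (nat_lit 499778536733) (nat_lit 1) (nat_lit 5) (nat_lit 3) (nat_lit 4) (nat_lit 1) (nat_lit 4) (nat_lit 404) (nat_lit 248) (nat_lit 248))) (XT.nd (nat_lit 78) (nat_lit 0) (nat_lit 0) (XT.lf (nat_lit 0) (nat_lit 1080031748521) (nat_lit 152) (nat_lit 1234494438138) (nat_lit 0) (nat_lit 1080014188677) (nat_lit 1) (nat_lit 5) (nat_lit 3) (nat_lit 4) (nat_lit 1) (nat_lit 4) (nat_lit 405) (nat_lit 248) (nat_lit 247)) (XT.nd (nat_lit 78) (nat_lit 0) (nat_lit 0) (XT.lf (nat_lit 0) (nat_lit 1166918601202)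 (nat_lit 152) (nat_lit 1332259799030) (nat_lit 0) (nat_lit 1166884782244) (nat_lit 1) (nat_lit 5) (nat_lit 3) (nat_lit 4) (nat_lit 1) (nat_lit 4) (nat_lit 406) (nat_lit 248) (nat_lit 246)) (XT.lf (nat_lit 0) (nat_lit 1260732516561) (nat_lit 152) (nat_lit 1437893573226) (nat_lit 0) (nat_lit 1260683642867) (nat_lit 1) (nat_lit 5) (nat_lit 3) (nat_lit 4) (nat_lit 1) (nat_lit 4) (nat_lit 407) (nat_lit 248) (nat_lit 245))))))))
noncomputable def xc1 : XT := (XT.nd (nat_lit 47112) (nat_lit 0) (nat_lit 0) (XT.nd (nat_lit 46410) (nat_lit 0) (nat_lit 0) (XT.nd (nat_lit 312) (nat_lit 0) (nat_lit 0) (XT.nd (nat_lit 156) (nat_lit 0) (nat_lit 0) (XT.nd (nat_lit 78) (nat_lit 0) (nat_lit 0) (XT.lf (nat_lit 0) (nat_lit 1362029428911) (nat_lit 152) (nat_lit 1552021738648) (nat_lit 0) (nat_lit 1361966615648) (nat_lit 1) (nat_lit 5) (nat_lit 3) (nat_lit 4) (nat_lit 1) (nat_lit 4) (nat_lit 408) (nat_lit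 248) (nat_lit 244)) (XT.lf (nat_lit 0) (nat_lit 1471409616253) (nat_lit 152) (nat_lit 1675320610351) (nat_lit 0) (nat_lit 1471333895980) (nat_lit 1) (nat_lit 5) (nat_lit 3) (nat_lit 4) (nat_lit 1) (nat_lit 4) (nat_lit 409) (nat_lit 248) (nat_lit 243))) (XT.nd (nat_lit 78) (nat_lit 0) (nat_lit 0) (XT.lf (nat_lit 0) (nat_lit 1589521257473) (nat_lit 152) (nat_lit 1808520848314) (nat_lit 0) (nat_lit 1589433586266) (nat_lit 1) (nat_lit 5) (nat_lit 3) (nat_lit 4) (nat_lit 1) (nat_lit 4) (nat_lit 410) (nat_lit 248) (nat_lit 242)) (XT.lf (nat_lit 0) (nat_lit 1717064273409) (nat_lit 152) (nat_lit 1952411787282) (nat_lit 0) (nat_lit 1716965536522) (nat_lit 1) (nat_lit 5) (nat_lit 3) (nat_lit 4) (nat_lit 1) (nat_lit 4) (nat_lit 411) (nat_lit 248) (nat_lit 241)))) (XT.nd (nat_lit 156) (nat_lit 0) (nat_lit 0) (XT.nd (nat_lit 78) (nat_lit 0) (nat_lit 0) (XT.lf (nat_lit 0) (nat_lit 1854794474526) (nat_lit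 152) (nat_lit 2107846114299) (nat_lit 0) (nat_lit 1854685491638) (nat_lit 1) (nat_lit 5) (nat_lit 3) (nat_lit 4) (nat_lit 1) (nat_lit 4) (nat_lit 412) (nat_lit 248) (nat_lit 240)) (XT.lf (nat_lit 0) (nat_lit 2003528039792) (nat_lit 152) (nat_lit 2275744921674) (nat_lit 0) (nat_lit 2003409569868) (nat_lit 1) (nat_lit 5) (nat_lit 3) (nat_lit 4) (nat_lit 1) (nat_lit 4) (nat_lit 413) (nat_lit 248) (nat_lit 239))) (XT.nd (nat_lit 78) (nat_lit 0) (nat_lit 0) (XT.lf (nat_lit 0) (nat_lit 2164146353299) (nat_lit 152) (nat_lit 2457103165303) (nat_lit 0) (nat_lit 2164019099081) (nat_lit 1) (nat_lit 5) (nat_lit 3) (nat_lit 4) (nat_lit 1) (nat_lit 4) (nat_lit 414) (nat_lit 248) (nat_lit 238)) (XT.lf (nat_lit 0) (nat_lit 2337601227275) (nat_lit 152) (nat_lit 2652995560704) (nat_lit 0) (nat_lit 2337465839451) (nat_lit 1) (nat_lit 5) (nat_lit 3) (nat_lit 4) (nat_lit 1) (nat_lit 4) (nat_lit 415) (nat_lit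 248) (nat_lit 237))))) (XT.nd (nat_lit 312) (nat_lit 0) (nat_lit 0) (XT.nd (nat_lit 156) (nat_lit 0) (nat_lit 0) (XT.nd (nat_lit 78) (nat_lit 0) (nat_lit 0) (XT.lf (nat_lit 0) (nat_lit 428002655459) (nat_lit 152) (nat_lit 491399775548) (nat_lit 0) (nat_lit 428002655459) (nat_lit 1) (nat_lit 5) (nat_lit 3) (nat_lit 4) (nat_lit 1) (nat_lit 4) (nat_lit 402) (nat_lit 249) (nat_lit 249)) (XT.lf (nat_lit 0) (nat_lit 925036653704) (nat_lit 152) (nat_lit 1060294749570) (nat_lit 0) (nat_lit 925017689073) (nat_lit 1) (nat_lit 5) (nat_lit 3) (nat_lit 4) (nat_lit 1) (nat_lit 4) (nat_lit 403) (nat_lit 249) (nat_lit 248))) (XT.nd (nat_lit 78) (nat_lit 0) (nat_lit 0) (XT.lf (nat_lit 0) (nat_lit 999562643823) (nat_lit 152) (nat_lit 1144044599843) (nat_lit 0) (nat_lit 999526119349) (nat_lit 1) (nat_lit 5) (nat_lit 3) (nat_lit 4) (nat_lit 1) (nat_lit 4) (nat_lit 404) (nat_lit 249) (nat_lit 247)) (XT.lf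 (nat_lit 0) (nat_lit 1080024916773) (nat_lit 152) (nat_lit 1234545397326) (nat_lit 0) (nat_lit 1079972133184) (nat_lit 1) (nat_lit 5) (nat_lit 3) (nat_lit 4) (nat_lit 1) (nat_lit 4) (nat_lit 405) (nat_lit 249) (nat_lit 246)))) (XT.nd (nat_lit 156) (nat_lit 0) (nat_lit 0) (XT.nd (nat_lit 78) (nat_lit 0) (nat_lit 0) (XT.lf (nat_lit 0) (nat_lit 1166900286023) (nat_lit 152) (nat_lit 1332333443042) (nat_lit 0) (nat_lit 1166832447698) (nat_lit 1) (nat_lit 5) (nat_lit 3) (nat_lit 4) (nat_lit 1) (nat_lit 4) (nat_lit 406) (nat_lit 249) (nat_lit 245)) (XT.lf (nat_lit 0) (nat_lit 1260703568576) (nat_lit 152) (nat_lit 1437988221704) (nat_lit 0) (nat_lit 1260621790681) (nat_lit 1) (nat_lit 5) (nat_lit 3) (nat_lit 4) (nat_lit 1) (nat_lit 4) (nat_lit 407) (nat_lit 249) (nat_lit 244))) (XT.nd (nat_lit 78) (nat_lit 0) (nat_lit 0) (XT.lf (nat_lit 0) (nat_lit 1361990635736) (nat_lit 152) (nat_lit 1552135835707)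 (nat_lit 0) (nat_lit 1361895950832) (nat_lit 1) (nat_lit 5) (nat_lit 3) (nat_lit 4) (nat_lit 1) (nat_lit 4) (nat_lit 408) (nat_lit 249) (nat_lit 243)) (XT.nd (nat_lit 78) (nat_lit 0) (nat_lit 0) (XT.lf (nat_lit 0) (nat_lit 1471361707160) (nat_lit 152) (nat_lit 1675452715354) (nat_lit 0) (nat_lit 1471255071321) (nat_lit 1) (nat_lit 5) (nat_lit 3) (nat_lit 4) (nat_lit 1) (nat_lit 4) (nat_lit 409) (nat_lit 249) (nat_lit 242)) (XT.lf (nat_lit 0) (nat_lit 1589464907716) (nat_lit 152) (nat_lit 1808669627340) (nat_lit 0) (nat_lit 1589347206197) (nat_lit 1) (nat_lit 5) (nat_lit 3) (nat_lit 4) (nat_lit 1) (nat_lit 4) (nat_lit 410) (nat_lit 249) (nat_lit 241))))))) (XT.nd (nat_lit 46254) (nat_lit 0) (nat_lit 0) (XT.nd (nat_lit 312) (nat_lit 0) (nat_lit 0) (XT.nd (nat_lit 156) (nat_lit 0) (nat_lit 0) (XT.nd (nat_lit 78) (nat_lit 0) (nat_lit 0) (XT.lf (nat_lit 0) (nat_lit 1717000108222) (nat_lit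 152) (nat_lit 1952576005217) (nat_lit 0) (nat_lit 1716872160703) (nat_lit 1) (nat_lit 5) (nat_lit 3) (nat_lit 4) (nat_lit 1) (nat_lit 4) (nat_lit 411) (nat_lit 249) (nat_lit 240)) (XT.lf (nat_lit 0) (nat_lit 1854723072829) (nat_lit 152) (nat_lit 2108024627521) (nat_lit 0) (nat_lit 1854585638273) (nat_lit 1) (nat_lit 5) (nat_lit 3) (nat_lit 4) (nat_lit 1) (nat_lit 4) (nat_lit 412) (nat_lit 249) (nat_lit 239))) (XT.nd (nat_lit 78) (nat_lit 0) (nat_lit 0) (XT.lf (nat_lit 0) (nat_lit 2003449937624) (nat_lit 152) (nat_lit 2275936671273) (nat_lit 0) (nat_lit 2003303718774) (nat_lit 1) (nat_lit 5) (nat_lit 3) (nat_lit 4) (nat_lit 1) (nat_lit 4) (nat_lit 413) (nat_lit 249) (nat_lit 238)) (XT.lf (nat_lit 0) (nat_lit 2164062046990) (nat_lit 152) (nat_lit 2457307170807) (nat_lit 0) (nat_lit 2163907694536) (nat_lit 1) (nat_lit 5) (nat_lit 3) (nat_lit 4) (nat_lit 1) (nat_lit 4) (nat_lit 414) (nat_lit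 249) (nat_lit 237)))) (XT.nd (nat_lit 45786) (nat_lit 0) (nat_lit 0) (XT.nd (nat_lit 45708) (nat_lit 0) (nat_lit 0) (XT.lf (nat_lit 0) (nat_lit 2337511176391) (nat_lit 152) (nat_lit 2653210914267) (nat_lit 0) (nat_lit 2337349292821) (nat_lit 1) (nat_lit 5) (nat_lit 3) (nat_lit 4) (nat_lit 1) (nat_lit 4) (nat_lit 415) (nat_lit 249) (nat_lit 236)) (XT.lf (nat_lit 0) (nat_lit 366428255231) (nat_lit 152) (nat_lit 422369833557) (nat_lit 0) (nat_lit 366428255231) (nat_lit 1) (nat_lit 5) (nat_lit 3) (nat_lit 4) (nat_lit 1) (nat_lit 4) (nat_lit 400) (nat_lit 250) (nat_lit 250))) (XT.nd (nat_lit 78) (nat_lit 0) (nat_lit 0) (XT.lf (nat_lit 0) (nat_lit 792080022644) (nat_lit 152) (nat_lit 911099773620) (nat_lit 0) (nat_lit 792059540843) (nat_lit 1) (nat_lit 5) (nat_lit 3) (nat_lit 4) (nat_lit 1) (nat_lit 4) (nat_lit 401) (nat_lit 250) (nat_lit 249)) (XT.lf (nat_lit 0) (nat_lit 856011326905) (nat_lit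 152) (nat_lit 982828127442) (nat_lit 0) (nat_lit 855971880472) (nat_lit 1) (nat_lit 5) (nat_lit 3) (nat_lit 4) (nat_lit 1) (nat_lit 4) (nat_lit 402) (nat_lit 250) (nat_lit 248))))) (XT.nd (nat_lit 312) (nat_lit 0) (nat_lit 0) (XT.nd (nat_lit 156) (nat_lit 0) (nat_lit 0) (XT.nd (nat_lit 78) (nat_lit 0) (nat_lit 0) (XT.lf (nat_lit 0) (nat_lit 925029275417) (nat_lit 152) (nat_lit 1060349785493) (nat_lit 0) (nat_lit 924972269140) (nat_lit 1) (nat_lit 5) (nat_lit 3) (nat_lit 4) (nat_lit 1) (nat_lit 4) (nat_lit 403) (nat_lit 250) (nat_lit 247)) (XT.lf (nat_lit 0) (nat_lit 999542863430) (nat_lit 152) (nat_lit 1144124135376) (nat_lit 0) (nat_lit 999469598040) (nat_lit 1) (nat_lit 5) (nat_lit 3) (nat_lit 4) (nat_lit 1) (nat_lit 4) (nat_lit 404) (nat_lit 250) (nat_lit 246))) (XT.nd (nat_lit 78) (nat_lit 0) (nat_lit 0) (XT.lf (nat_lit 0) (nat_lit 1079993652950) (nat_lit 152) (nat_lit 1234647617683)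 (nat_lit 0) (nat_lit 1079905332823) (nat_lit 1) (nat_lit 5) (nat_lit 3) (nat_lit 4) (nat_lit 1) (nat_lit 4) (nat_lit 405) (nat_lit 250) (nat_lit 245)) (XT.lf (nat_lit 0) (nat_lit 1166858389393) (nat_lit 152) (nat_lit 1332456667865) (nat_lit 0) (nat_lit 1166756129697) (nat_lit 1) (nat_lit 5) (nat_lit 3) (nat_lit 4) (nat_lit 1) (nat_lit 4) (nat_lit 406) (nat_lit 250) (nat_lit 244)))) (XT.nd (nat_lit 156) (nat_lit 0) (nat_lit 0) (XT.nd (nat_lit 78) (nat_lit 0) (nat_lit 0) (XT.lf (nat_lit 0) (nat_lit 1260651826755) (nat_lit 152) (nat_lit 1438130895107) (nat_lit 0) (nat_lit 1260536660049) (nat_lit 1) (nat_lit 5) (nat_lit 3) (nat_lit 4) (nat_lit 1) (nat_lit 4) (nat_lit 407) (nat_lit 250) (nat_lit 243)) (XT.lf (nat_lit 0) (nat_lit 1361929777997) (nat_lit 152) (nat_lit 1552296517054) (nat_lit 0) (nat_lit 1361802660357) (nat_lit 1) (nat_lit 5) (nat_lit 3) (nat_lit 4) (nat_lit 1) (nat_lit 4) (nat_lit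 408) (nat_lit 250) (nat_lit 242))) (XT.nd (nat_lit 78) (nat_lit 0) (nat_lit 0) (XT.lf (nat_lit 0) (nat_lit 1471292408757) (nat_lit 152) (nat_lit 1675630070724) (nat_lit 0) (nat_lit 1471154225437) (nat_lit 1) (nat_lit 5) (nat_lit 3) (nat_lit 4) (nat_lit 1) (nat_lit 4) (nat_lit 409) (nat_lit 250) (nat_lit 241)) (XT.nd (nat_lit 78) (nat_lit 0) (nat_lit 0) (XT.lf (nat_lit 0) (nat_lit 1589387793883) (nat_lit 152) (nat_lit 1808862421619) (nat_lit 0) (nat_lit 1589239364562) (nat_lit 1) (nat_lit 5) (nat_lit 3) (nat_lit 4) (nat_lit 1) (nat_lit 4) (nat_lit 410) (nat_lit 250) (nat_lit 240)) (XT.lf (nat_lit 0) (nat_lit 1716915757879) (nat_lit 152) (nat_lit 1952783094784) (nat_lit 0) (nat_lit 1716757841522) (nat_lit 1) (nat_lit 5) (nat_lit 3) (nat_lit 4) (nat_lit 1) (nat_lit 4) (nat_lit 411) (nat_lit 250) (nat_lit 239))))))))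
noncomputable def xc2 : XT := (XT.nd (nat_lit 46800) (nat_lit 0) (nat_lit 0) (XT.nd (nat_lit 46098) (nat_lit 0) (nat_lit 0) (XT.nd (nat_lit 45786) (nat_lit 0) (nat_lit 0) (XT.nd (nat_lit 156) (nat_lit 0) (nat_lit 0) (XT.nd (nat_lit 78) (nat_lit 0) (nat_lit 0) (XT.lf (nat_lit 0) (nat_lit 1854632022015) (nat_lit 152) (nat_lit 2108244953465) (nat_lit 0) (nat_lit 1854465321364) (nat_lit 1) (nat_lit 5) (nat_lit 3) (nat_lit 4) (nat_lit 1) (nat_lit 4) (nat_lit 412) (nat_lit 250) (nat_lit 238)) (XT.lf (nat_lit 0) (nat_lit 2003352682670) (nat_lit 152) (nat_lit 2276169253121) (nat_lit 0) (nat_lit 2003177848413) (nat_lit 1) (nat_lit 5) (nat_lit 3) (nat_lit 4) (nat_lit 1) (nat_lit 4) (nat_lit 413) (nat_lit 250) (nat_lit 237))) (XT.nd (nat_lit 78) (nat_lit 0) (nat_lit 0) (XT.lf (nat_lit 0) (nat_lit 2163959047462) (nat_lit 152) (nat_lit 2457551100715) (nat_lit 0) (nat_lit 2163776682090) (nat_lit 1)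 (nat_lit 5) (nat_lit 3) (nat_lit 4) (nat_lit 1) (nat_lit 4) (nat_lit 414) (nat_lit 250) (nat_lit 236)) (XT.lf (nat_lit 0) (nat_lit 2337402857813) (nat_lit 152) (nat_lit 2653465351638) (nat_lit 0) (nat_lit 2337213519185) (nat_lit 1) (nat_lit 5) (nat_lit 3) (nat_lit 4) (nat_lit 1) (nat_lit 4) (nat_lit 415) (nat_lit 250) (nat_lit 235)))) (XT.nd (nat_lit 156) (nat_lit 0) (nat_lit 0) (XT.nd (nat_lit 78) (nat_lit 0) (nat_lit 0) (XT.lf (nat_lit 0) (nat_lit 313596928660) (nat_lit 152) (nat_lit 363273682901) (nat_lit 0) (nat_lit 313596928660) (nat_lit 1) (nat_lit 5) (nat_lit 3) (nat_lit 4) (nat_lit 1) (nat_lit 4) (nat_lit 398) (nat_lit 251) (nat_lit 251)) (XT.lf (nat_lit 0) (nat_lit 678011956558) (nat_lit 152) (nat_lit 783354562852) (nat_lit 0) (nat_lit 677989836212) (nat_lit 1) (nat_lit 5) (nat_lit 3) (nat_lit 4) (nat_lit 1) (nat_lit 4) (nat_lit 399) (nat_lit 251) (nat_lit 250))) (XT.nd (nat_lit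 78) (nat_lit 0) (nat_lit 0) (XT.lf (nat_lit 0) (nat_lit 732863007727) (nat_lit 152) (nat_lit 844770529567) (nat_lit 0) (nat_lit 732820405580) (nat_lit 1) (nat_lit 5) (nat_lit 3) (nat_lit 4) (nat_lit 1) (nat_lit 4) (nat_lit 400) (nat_lit 251) (nat_lit 249)) (XT.lf (nat_lit 0) (nat_lit 792072054094) (nat_lit 152) (nat_lit 911159212417) (nat_lit 0) (nat_lit 792010487315) (nat_lit 1) (nat_lit 5) (nat_lit 3) (nat_lit 4) (nat_lit 1) (nat_lit 4) (nat_lit 401) (nat_lit 251) (nat_lit 248))))) (XT.nd (nat_lit 312) (nat_lit 0) (nat_lit 0) (XT.nd (nat_lit 156) (nat_lit 0) (nat_lit 0) (XT.nd (nat_lit 78) (nat_lit 0) (nat_lit 0) (XT.lf (nat_lit 0) (nat_lit 855989964080) (nat_lit 152) (nat_lit 982914025817) (nat_lit 0) (nat_lit 855910837458) (nat_lit 1) (nat_lit 5) (nat_lit 3) (nat_lit 4) (nat_lit 1) (nat_lit 4) (nat_lit 402) (nat_lit 251) (nat_lit 247)) (XT.lf (nat_lit 0) (nat_lit 924995510487) (nat_lit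 152) (nat_lit 1060460183478) (nat_lit 0) (nat_lit 924900124751) (nat_lit 1) (nat_lit 5) (nat_lit 3) (nat_lit 4) (nat_lit 1) (nat_lit 4) (nat_lit 403) (nat_lit 251) (nat_lit 246))) (XT.nd (nat_lit 78) (nat_lit 0) (nat_lit 0) (XT.lf (nat_lit 0) (nat_lit 999497615070) (nat_lit 152) (nat_lit 1144257218184) (nat_lit 0) (nat_lit 999387174598) (nat_lit 1) (nat_lit 5) (nat_lit 3) (nat_lit 4) (nat_lit 1) (nat_lit 4) (nat_lit 404) (nat_lit 251) (nat_lit 245)) (XT.lf (nat_lit 0) (nat_lit 1079937771783) (nat_lit 152) (nat_lit 1234801704958) (nat_lit 0) (nat_lit 1079813391741) (nat_lit 1) (nat_lit 5) (nat_lit 3) (nat_lit 4) (nat_lit 1) (nat_lit 4) (nat_lit 405) (nat_lit 251) (nat_lit 244)))) (XT.nd (nat_lit 156) (nat_lit 0) (nat_lit 0) (XT.nd (nat_lit 78) (nat_lit 0) (nat_lit 0) (XT.lf (nat_lit 0) (nat_lit 1166792663036) (nat_lit 152) (nat_lit 1332630203720) (nat_lit 0) (nat_lit 1166655375984) (nat_lit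 1) (nat_lit 5) (nat_lit 3) (nat_lit 4) (nat_lit 1) (nat_lit 4) (nat_lit 406) (nat_lit 251) (nat_lit 243)) (XT.lf (nat_lit 0) (nat_lit 1260576984480) (nat_lit 152) (nat_lit 1438322438907) (nat_lit 0) (nat_lit 1260427746494) (nat_lit 1) (nat_lit 5) (nat_lit 3) (nat_lit 4) (nat_lit 1) (nat_lit 4) (nat_lit 407) (nat_lit 251) (nat_lit 242))) (XT.nd (nat_lit 78) (nat_lit 0) (nat_lit 0) (XT.lf (nat_lit 0) (nat_lit 1361846495058) (nat_lit 152) (nat_lit 1552504734877) (nat_lit 0) (nat_lit 1361686191392) (nat_lit 1) (nat_lit 5) (nat_lit 3) (nat_lit 4) (nat_lit 1) (nat_lit 4) (nat_lit 408) (nat_lit 251) (nat_lit 241)) (XT.nd (nat_lit 78) (nat_lit 0) (nat_lit 0) (XT.lf (nat_lit 0) (nat_lit 1471201310387) (nat_lit 152) (nat_lit 1675853727456) (nat_lit 0) (nat_lit 1471030760721) (nat_lit 1) (nat_lit 5) (nat_lit 3) (nat_lit 4) (nat_lit 1) (nat_lit 4) (nat_lit 409) (nat_lit 251) (nat_lit 240)) (XT.lf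 (nat_lit 0) (nat_lit 1589289459004) (nat_lit 152) (nat_lit 1809100373639) (nat_lit 0) (nat_lit 1589109422301) (nat_lit 1) (nat_lit 5) (nat_lit 3) (nat_lit 4) (nat_lit 1) (nat_lit 4) (nat_lit 410) (nat_lit 251) (nat_lit 239))))))) (XT.nd (nat_lit 45942) (nat_lit 0) (nat_lit 0) (XT.nd (nat_lit 312) (nat_lit 0) (nat_lit 0) (XT.nd (nat_lit 156) (nat_lit 0) (nat_lit 0) (XT.nd (nat_lit 78) (nat_lit 0) (nat_lit 0) (XT.lf (nat_lit 0) (nat_lit 1716810722529) (nat_lit 152) (nat_lit 1953034283180) (nat_lit 0) (nat_lit 1716621901532) (nat_lit 1) (nat_lit 5) (nat_lit 3) (nat_lit 4) (nat_lit 1) (nat_lit 4) (nat_lit 411) (nat_lit 251) (nat_lit 238)) (XT.lf (nat_lit 0) (nat_lit 1854520782524) (nat_lit 152) (nat_lit 2108508397765) (nat_lit 0) (nat_lit 1854323827922) (nat_lit 1) (nat_lit 5) (nat_lit 3) (nat_lit 4) (nat_lit 1) (nat_lit 4) (nat_lit 412) (nat_lit 251) (nat_lit 237))) (XT.nd (nat_lit 78) (nat_lit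 0) (nat_lit 0) (XT.lf (nat_lit 0) (nat_lit 2003235698604) (nat_lit 152) (nat_lit 2276444045481) (nat_lit 0) (nat_lit 2003031212887) (nat_lit 1) (nat_lit 5) (nat_lit 3) (nat_lit 4) (nat_lit 1) (nat_lit 4) (nat_lit 413) (nat_lit 251) (nat_lit 236)) (XT.lf (nat_lit 0) (nat_lit 2163836744346) (nat_lit 152) (nat_lit 2457836400537) (nat_lit 0) (nat_lit 2163625285373) (nat_lit 1) (nat_lit 5) (nat_lit 3) (nat_lit 4) (nat_lit 1) (nat_lit 4) (nat_lit 414) (nat_lit 251) (nat_lit 235)))) (XT.nd (nat_lit 45474) (nat_lit 0) (nat_lit 0) (XT.nd (nat_lit 45396) (nat_lit 0) (nat_lit 0) (XT.lf (nat_lit 0) (nat_lit 2337275629651) (nat_lit 152) (nat_lit 2653760380592) (nat_lit 0) (nat_lit 2337057713959) (nat_lit 1) (nat_lit 5) (nat_lit 3) (nat_lit 4) (nat_lit 1) (nat_lit 4) (nat_lit 415) (nat_lit 251) (nat_lit 234)) (XT.lf (nat_lit 0) (nat_lit 268258082310) (nat_lit 152) (nat_lit 312701029058) (nat_lit 0)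 (nat_lit 268258082310) (nat_lit 1) (nat_lit 5) (nat_lit 3) (nat_lit 4) (nat_lit 1) (nat_lit 4) (nat_lit 396) (nat_lit 252) (nat_lit 252))) (XT.nd (nat_lit 78) (nat_lit 0) (nat_lit 0) (XT.lf (nat_lit 0) (nat_lit 580131455694) (nat_lit 152) (nat_lit 674012303174) (nat_lit 0) (nat_lit 580107565721) (nat_lit 1) (nat_lit 5) (nat_lit 3) (nat_lit 4) (nat_lit 1) (nat_lit 4) (nat_lit 397) (nat_lit 252) (nat_lit 251)) (XT.lf (nat_lit 0) (nat_lit 627200874366) (nat_lit 152) (nat_lit 726580697250) (nat_lit 0) (nat_lit 627154864047) (nat_lit 1) (nat_lit 5) (nat_lit 3) (nat_lit 4) (nat_lit 1) (nat_lit 4) (nat_lit 398) (nat_lit 252) (nat_lit 250))))) (XT.nd (nat_lit 312) (nat_lit 0) (nat_lit 0) (XT.nd (nat_lit 156) (nat_lit 0) (nat_lit 0) (XT.nd (nat_lit 78) (nat_lit 0) (nat_lit 0) (XT.lf (nat_lit 0) (nat_lit 678003350524) (nat_lit 152) (nat_lit 783418756753) (nat_lit 0) (nat_lit 677936858403) (nat_lit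 1) (nat_lit 5) (nat_lit 3) (nat_lit 4) (nat_lit 1) (nat_lit 4) (nat_lit 399) (nat_lit 252) (nat_lit 249)) (XT.lf (nat_lit 0) (nat_lit 732839935877) (nat_lit 152) (nat_lit 844863299813) (nat_lit 0) (nat_lit 732754479125) (nat_lit 1) (nat_lit 5) (nat_lit 3) (nat_lit 4) (nat_lit 1) (nat_lit 4) (nat_lit 400) (nat_lit 252) (nat_lit 248))) (XT.nd (nat_lit 78) (nat_lit 0) (nat_lit 0) (XT.lf (nat_lit 0) (nat_lit 792035587970) (nat_lit 152) (nat_lit 911278442241) (nat_lit 0) (nat_lit 791932571375) (nat_lit 1) (nat_lit 5) (nat_lit 3) (nat_lit 4) (nat_lit 1) (nat_lit 4) (nat_lit 401) (nat_lit 252) (nat_lit 247)) (XT.lf (nat_lit 0) (nat_lit 855941095851) (nat_lit 152) (nat_lit 983057755251) (nat_lit 0) (nat_lit 855821820142) (nat_lit 1) (nat_lit 5) (nat_lit 3) (nat_lit 4) (nat_lit 1) (nat_lit 4) (nat_lit 402) (nat_lit 252) (nat_lit 246)))) (XT.nd (nat_lit 156) (nat_lit 0) (nat_lit 0) (XT.nd (nat_lit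 78) (nat_lit 0) (nat_lit 0) (XT.lf (nat_lit 0) (nat_lit 924935158827) (nat_lit 152) (nat_lit 1060626597735) (nat_lit 0) (nat_lit 924800828382) (nat_lit 1) (nat_lit 5) (nat_lit 3) (nat_lit 4) (nat_lit 1) (nat_lit 4) (nat_lit 403) (nat_lit 252) (nat_lit 245)) (XT.lf (nat_lit 0) (nat_lit 999426630604) (nat_lit 152) (nat_lit 1144444636908) (nat_lit 0) (nat_lit 999278360589) (nat_lit 1) (nat_lit 5) (nat_lit 3) (nat_lit 4) (nat_lit 1) (nat_lit 4) (nat_lit 404) (nat_lit 252) (nat_lit 244))) (XT.nd (nat_lit 78) (nat_lit 0) (nat_lit 0) (XT.lf (nat_lit 0) (nat_lit 1079856942126) (nat_lit 152) (nat_lit 1235008572262) (nat_lit 0) (nat_lit 1079695765101) (nat_lit 1) (nat_lit 5) (nat_lit 3) (nat_lit 4) (nat_lit 1) (nat_lit 4) (nat_lit 405) (nat_lit 252) (nat_lit 243)) (XT.nd (nat_lit 78) (nat_lit 0) (nat_lit 0) (XT.lf (nat_lit 0) (nat_lit 1166702717461) (nat_lit 152) (nat_lit 1332855078968) (nat_lit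 0) (nat_lit 1166529589502) (nat_lit 1) (nat_lit 5) (nat_lit 3) (nat_lit 4) (nat_lit 1) (nat_lit 4) (nat_lit 406) (nat_lit 252) (nat_lit 242)) (XT.lf (nat_lit 0) (nat_lit 1260478598241) (nat_lit 152) (nat_lit 1438563988178) (nat_lit 0) (nat_lit 1260294404602) (nat_lit 1) (nat_lit 5) (nat_lit 3) (nat_lit 4) (nat_lit 1) (nat_lit 4) (nat_lit 407) (nat_lit 252) (nat_lit 241))))))))
noncomputable def xc3 : XT := (XT.nd (nat_lit 46488) (nat_lit 0) (nat_lit 0) (XT.nd (nat_lit 45786) (nat_lit 0) (nat_lit 0) (XT.nd (nat_lit 312) (nat_lit 0) (nat_lit 0) (XT.nd (nat_lit 156) (nat_lit 0) (nat_lit 0) (XT.nd (nat_lit 78) (nat_lit 0) (nat_lit 0) (XT.lf (nat_lit 0) (nat_lit 1361740293389) (nat_lit 152) (nat_lit 1552761723057) (nat_lit 0) (nat_lit 1361545853749) (nat_lit 1) (nat_lit 5) (nat_lit 3) (nat_lit 4) (nat_lit 1) (nat_lit 4) (nat_lit 408) (nat_lit 252) (nat_lit 240)) (XT.lf (nat_lit 0) (nat_lit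 1471087872209) (nat_lit 152) (nat_lit 1676125010924) (nat_lit 0) (nat_lit 1470883945533) (nat_lit 1) (nat_lit 5) (nat_lit 3) (nat_lit 4) (nat_lit 1) (nat_lit 4) (nat_lit 409) (nat_lit 252) (nat_lit 239))) (XT.nd (nat_lit 78) (nat_lit 0) (nat_lit 0) (XT.lf (nat_lit 0) (nat_lit 1589169320354) (nat_lit 152) (nat_lit 1809384893483) (nat_lit 0) (nat_lit 1588956609384) (nat_lit 1) (nat_lit 5) (nat_lit 3) (nat_lit 4) (nat_lit 1) (nat_lit 4) (nat_lit 410) (nat_lit 252) (nat_lit 238)) (XT.lf (nat_lit 0) (nat_lit 1716684379739) (nat_lit 152) (nat_lit 1953331058928) (nat_lit 0) (nat_lit 1716463535164) (nat_lit 1) (nat_lit 5) (nat_lit 3) (nat_lit 4) (nat_lit 1) (nat_lit 4) (nat_lit 411) (nat_lit 252) (nat_lit 237)))) (XT.nd (nat_lit 156) (nat_lit 0) (nat_lit 0) (XT.nd (nat_lit 78) (nat_lit 0) (nat_lit 0) (XT.lf (nat_lit 0) (nat_lit 1854388695160) (nat_lit 152) (nat_lit 2108816521573) (nat_lit 0)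 (nat_lit 1854160319469) (nat_lit 1) (nat_lit 5) (nat_lit 3) (nat_lit 4) (nat_lit 1) (nat_lit 4) (nat_lit 412) (nat_lit 252) (nat_lit 236)) (XT.lf (nat_lit 0) (nat_lit 2003098292190) (nat_lit 152) (nat_lit 2276762676752) (nat_lit 0) (nat_lit 2002862943243) (nat_lit 1) (nat_lit 5) (nat_lit 3) (nat_lit 4) (nat_lit 1) (nat_lit 4) (nat_lit 413) (nat_lit 252) (nat_lit 235))) (XT.nd (nat_lit 78) (nat_lit 0) (nat_lit 0) (XT.lf (nat_lit 0) (nat_lit 2163694412885) (nat_lit 152) (nat_lit 2458164760940) (nat_lit 0) (nat_lit 2163452607220) (nat_lit 1) (nat_lit 5) (nat_lit 3) (nat_lit 4) (nat_lit 1) (nat_lit 4) (nat_lit 414) (nat_lit 252) (nat_lit 234)) (XT.lf (nat_lit 0) (nat_lit 2337128737961) (nat_lit 152) (nat_lit 2654097749451) (nat_lit 0) (nat_lit 2336880953853) (nat_lit 1) (nat_lit 5) (nat_lit 3) (nat_lit 4) (nat_lit 1) (nat_lit 4) (nat_lit 415) (nat_lit 252) (nat_lit 233))))) (XT.nd (nat_lit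 312) (nat_lit 0) (nat_lit 0) (XT.nd (nat_lit 156) (nat_lit 0) (nat_lit 0) (XT.nd (nat_lit 78) (nat_lit 0) (nat_lit 0) (XT.lf (nat_lit 0) (nat_lit 229339270182) (nat_lit 152) (nat_lit 269443321537) (nat_lit 0) (nat_lit 229339270182) (nat_lit 1) (nat_lit 5) (nat_lit 3) (nat_lit 4) (nat_lit 1) (nat_lit 4) (nat_lit 394) (nat_lit 253) (nat_lit 253)) (XT.lf (nat_lit 0) (nat_lit 496122341330) (nat_lit 152) (nat_lit 580461901363) (nat_lit 0) (nat_lit 496096540159) (nat_lit 1) (nat_lit 5) (nat_lit 3) (nat_lit 4) (nat_lit 1) (nat_lit 4) (nat_lit 395) (nat_lit 253) (nat_lit 252))) (XT.nd (nat_lit 78) (nat_lit 0) (nat_lit 0) (XT.lf (nat_lit 0) (nat_lit 536523743030) (nat_lit 152) (nat_lit 625438056080) (nat_lit 0) (nat_lit 536474051885) (nat_lit 1) (nat_lit 5) (nat_lit 3) (nat_lit 4) (nat_lit 1) (nat_lit 4) (nat_lit 396) (nat_lit 253) (nat_lit 251)) (XT.lf (nat_lit 0) (nat_lit 580122161177) (nat_lit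 152) (nat_lit 674081632587) (nat_lit 0) (nat_lit 580050349687) (nat_lit 1) (nat_lit 5) (nat_lit 3) (nat_lit 4) (nat_lit 1) (nat_lit 4) (nat_lit 397) (nat_lit 253) (nat_lit 250)))) (XT.nd (nat_lit 156) (nat_lit 0) (nat_lit 0) (XT.nd (nat_lit 78) (nat_lit 0) (nat_lit 0) (XT.lf (nat_lit 0) (nat_lit 627175956768) (nat_lit 152) (nat_lit 726680889115) (nat_lit 0) (nat_lit 627083663476) (nat_lit 1) (nat_lit 5) (nat_lit 3) (nat_lit 4) (nat_lit 1) (nat_lit 4) (nat_lit 398) (nat_lit 253) (nat_lit 249)) (XT.lf (nat_lit 0) (nat_lit 677963967110) (nat_lit 152) (nat_lit 783547524963) (nat_lit 0) (nat_lit 677852709187) (nat_lit 1) (nat_lit 5) (nat_lit 3) (nat_lit 4) (nat_lit 1) (nat_lit 4) (nat_lit 399) (nat_lit 253) (nat_lit 248))) (XT.nd (nat_lit 78) (nat_lit 0) (nat_lit 0) (XT.lf (nat_lit 0) (nat_lit 732787158190) (nat_lit 152) (nat_lit 845018527601) (nat_lit 0) (nat_lit 732658340423) (nat_lit 1)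 (nat_lit 5) (nat_lit 3) (nat_lit 4) (nat_lit 1) (nat_lit 4) (nat_lit 400) (nat_lit 253) (nat_lit 247)) (XT.nd (nat_lit 78) (nat_lit 0) (nat_lit 0) (XT.lf (nat_lit 0) (nat_lit 791970408177) (nat_lit 152) (nat_lit 911458169638) (nat_lit 0) (nat_lit 791825331296) (nat_lit 1) (nat_lit 5) (nat_lit 3) (nat_lit 4) (nat_lit 1) (nat_lit 4) (nat_lit 401) (nat_lit 253) (nat_lit 246)) (XT.lf (nat_lit 0) (nat_lit 855864432628) (nat_lit 152) (nat_lit 983260167472) (nat_lit 0) (nat_lit 855704301011) (nat_lit 1) (nat_lit 5) (nat_lit 3) (nat_lit 4) (nat_lit 1) (nat_lit 4) (nat_lit 402) (nat_lit 253) (nat_lit 245))))))) (XT.nd (nat_lit 702) (nat_lit 0) (nat_lit 0) (XT.nd (nat_lit 312) (nat_lit 0) (nat_lit 0) (XT.nd (nat_lit 156) (nat_lit 0) (nat_lit 0) (XT.nd (nat_lit 78) (nat_lit 0) (nat_lit 0) (XT.lf (nat_lit 0) (nat_lit 924847862798) (nat_lit 152) (nat_lit 1060850014423) (nat_lit 0) (nat_lit 924673791611)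 (nat_lit 1) (nat_lit 5) (nat_lit 3) (nat_lit 4) (nat_lit 1) (nat_lit 4) (nat_lit 403) (nat_lit 253) (nat_lit 244)) (XT.lf (nat_lit 0) (nat_lit 999329489384) (nat_lit 152) (nat_lit 1144687502176) (nat_lit 0) (nat_lit 999142511188) (nat_lit 1) (nat_lit 5) (nat_lit 3) (nat_lit 4) (nat_lit 1) (nat_lit 4) (nat_lit 404) (nat_lit 253) (nat_lit 243))) (XT.nd (nat_lit 78) (nat_lit 0) (nat_lit 0) (XT.lf (nat_lit 0) (nat_lit 1079750684988) (nat_lit 152) (nat_lit 1235269445474) (nat_lit 0) (nat_lit 1079551755857) (nat_lit 1) (nat_lit 5) (nat_lit 3) (nat_lit 4) (nat_lit 1) (nat_lit 4) (nat_lit 405) (nat_lit 253) (nat_lit 242)) (XT.lf (nat_lit 0) (nat_lit 1166588019658) (nat_lit 152) (nat_lit 1333132626203) (nat_lit 0) (nat_lit 1166378024848) (nat_lit 1) (nat_lit 5) (nat_lit 3) (nat_lit 4) (nat_lit 1) (nat_lit 4) (nat_lit 406) (nat_lit 253) (nat_lit 241)))) (XT.nd (nat_lit 156) (nat_lit 0) (nat_lit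 0) (XT.nd (nat_lit 78) (nat_lit 0) (nat_lit 0) (XT.lf (nat_lit 0) (nat_lit 1260356085008) (nat_lit 152) (nat_lit 1438856974323) (nat_lit 0) (nat_lit 1260135844198) (nat_lit 1) (nat_lit 5) (nat_lit 3) (nat_lit 4) (nat_lit 1) (nat_lit 4) (nat_lit 407) (nat_lit 253) (nat_lit 240)) (XT.lf (nat_lit 0) (nat_lit 1361610543647) (nat_lit 152) (nat_lit 1553069004489) (nat_lit 0) (nat_lit 1361380815799) (nat_lit 1) (nat_lit 5) (nat_lit 3) (nat_lit 4) (nat_lit 1) (nat_lit 4) (nat_lit 408) (nat_lit 253) (nat_lit 239))) (XT.nd (nat_lit 78) (nat_lit 0) (nat_lit 0) (XT.lf (nat_lit 0) (nat_lit 1470951421995) (nat_lit 152) (nat_lit 1676445528732) (nat_lit 0) (nat_lit 1470712909854) (nat_lit 1) (nat_lit 5) (nat_lit 3) (nat_lit 4) (nat_lit 1) (nat_lit 4) (nat_lit 409) (nat_lit 253) (nat_lit 238)) (XT.nd (nat_lit 78) (nat_lit 0) (nat_lit 0) (XT.lf (nat_lit 0) (nat_lit 1589026666000) (nat_lit 152) (nat_lit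 1809717667196) (nat_lit 0) (nat_lit 1588780020254) (nat_lit 1) (nat_lit 5) (nat_lit 3) (nat_lit 4) (nat_lit 1) (nat_lit 4) (nat_lit 410) (nat_lit 253) (nat_lit 237)) (XT.lf (nat_lit 0) (nat_lit 1716535980811) (nat_lit 152) (nat_lit 1953675180701) (nat_lit 0) (nat_lit 1716281803948) (nat_lit 1) (nat_lit 5) (nat_lit 3) (nat_lit 4) (nat_lit 1) (nat_lit 4) (nat_lit 411) (nat_lit 253) (nat_lit 236)))))) (XT.nd (nat_lit 45318) (nat_lit 0) (nat_lit 0) (XT.nd (nat_lit 156) (nat_lit 0) (nat_lit 0) (XT.nd (nat_lit 78) (nat_lit 0) (nat_lit 0) (XT.lf (nat_lit 0) (nat_lit 1854234977181) (nat_lit 152) (nat_lit 2109171150809) (nat_lit 0) (nat_lit 1853973827063) (nat_lit 1) (nat_lit 5) (nat_lit 3) (nat_lit 4) (nat_lit 1) (nat_lit 4) (nat_lit 412) (nat_lit 253) (nat_lit 235)) (XT.lf (nat_lit 0) (nat_lit 2002939649164) (nat_lit 152) (nat_lit 2277127035120) (nat_lit 0) (nat_lit 2002672042328) (nat_lit 1)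 (nat_lit 5) (nat_lit 3) (nat_lit 4) (nat_lit 1) (nat_lit 4) (nat_lit 413) (nat_lit 253) (nat_lit 234))) (XT.nd (nat_lit 78) (nat_lit 0) (nat_lit 0) (XT.lf (nat_lit 0) (nat_lit 2163531209631) (nat_lit 152) (nat_lit 2458538127763) (nat_lit 0) (nat_lit 2163257624353) (nat_lit 1) (nat_lit 5) (nat_lit 3) (nat_lit 4) (nat_lit 1) (nat_lit 4) (nat_lit 414) (nat_lit 253) (nat_lit 233)) (XT.lf (nat_lit 0) (nat_lit 2336961312273) (nat_lit 152) (nat_lit 2654479457437) (nat_lit 0) (nat_lit 2336682191400) (nat_lit 1) (nat_lit 5) (nat_lit 3) (nat_lit 4) (nat_lit 1) (nat_lit 4) (nat_lit 415) (nat_lit 253) (nat_lit 232)))) (XT.nd (nat_lit 156) (nat_lit 0) (nat_lit 0) (XT.nd (nat_lit 78) (nat_lit 0) (nat_lit 0) (XT.lf (nat_lit 0) (nat_lit 195920757893) (nat_lit 152) (nat_lit 232465016817) (nat_lit 0) (nat_lit 195920757893) (nat_lit 1) (nat_lit 5) (nat_lit 3) (nat_lit 4) (nat_lit 1) (nat_lit 4) (nat_lit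 392) (nat_lit 254) (nat_lit 254)) (XT.lf (nat_lit 0) (nat_lit 423998316205) (nat_lit 152) (nat_lit 500465909315) (nat_lit 0) (nat_lit 423970450940) (nat_lit 1) (nat_lit 5) (nat_lit 3) (nat_lit 4) (nat_lit 1) (nat_lit 4) (nat_lit 393) (nat_lit 254) (nat_lit 253))) (XT.nd (nat_lit 78) (nat_lit 0) (nat_lit 0) (XT.lf (nat_lit 0) (nat_lit 458686725046) (nat_lit 152) (nat_lit 538925520877) (nat_lit 0) (nat_lit 458633058610) (nat_lit 1) (nat_lit 5) (nat_lit 3) (nat_lit 4) (nat_lit 1) (nat_lit 4) (nat_lit 394) (nat_lit 254) (nat_lit 252)) (XT.nd (nat_lit 78) (nat_lit 0) (nat_lit 0) (XT.lf (nat_lit 0) (nat_lit 496112303251) (nat_lit 152) (nat_lit 580536777129) (nat_lit 0) (nat_lit 496034746842) (nat_lit 1) (nat_lit 5) (nat_lit 3) (nat_lit 4) (nat_lit 1) (nat_lit 4) (nat_lit 395) (nat_lit 254) (nat_lit 251)) (XT.lf (nat_lit 0) (nat_lit 536496832024) (nat_lit 152) (nat_lit 625546263294) (nat_lit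 0) (nat_lit 536397155269) (nat_lit 1) (nat_lit 5) (nat_lit 3) (nat_lit 4) (nat_lit 1) (nat_lit 4) (nat_lit 396) (nat_lit 254) (nat_lit 250))))))))
noncomputable def xc4 : XT := (XT.nd (nat_lit 1326) (nat_lit 0) (nat_lit 0) (XT.nd (nat_lit 624) (nat_lit 0) (nat_lit 0) (XT.nd (nat_lit 312) (nat_lit 0) (nat_lit 0) (XT.nd (nat_lit 156) (nat_lit 0) (nat_lit 0) (XT.nd (nat_lit 78) (nat_lit 0) (nat_lit 0) (XT.lf (nat_lit 0) (nat_lit 580079627090) (nat_lit 152) (nat_lit 674220702253) (nat_lit 0) (nat_lit 579959468533) (nat_lit 1) (nat_lit 5) (nat_lit 3) (nat_lit 4) (nat_lit 1) (nat_lit 4) (nat_lit 397) (nat_lit 254) (nat_lit 249)) (XT.lf (nat_lit 0) (nat_lit 627118956866) (nat_lit 152) (nat_lit 726848535126) (nat_lit 0) (nat_lit 626979833678) (nat_lit 1) (nat_lit 5) (nat_lit 3) (nat_lit 4) (nat_lit 1) (nat_lit 4) (nat_lit 398) (nat_lit 254) (nat_lit 248))) (XT.nd (nat_lit 78) (nat_lit 0) (nat_lit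 0) (XT.lf (nat_lit 0) (nat_lit 677893572934) (nat_lit 152) (nat_lit 783741630552) (nat_lit 0) (nat_lit 677736889902) (nat_lit 1) (nat_lit 5) (nat_lit 3) (nat_lit 4) (nat_lit 1) (nat_lit 4) (nat_lit 399) (nat_lit 254) (nat_lit 247)) (XT.lf (nat_lit 0) (nat_lit 732704361909) (nat_lit 152) (nat_lit 845237132800) (nat_lit 0) (nat_lit 732531419763) (nat_lit 1) (nat_lit 5) (nat_lit 3) (nat_lit 4) (nat_lit 1) (nat_lit 4) (nat_lit 400) (nat_lit 254) (nat_lit 246)))) (XT.nd (nat_lit 156) (nat_lit 0) (nat_lit 0) (XT.nd (nat_lit 78) (nat_lit 0) (nat_lit 0) (XT.lf (nat_lit 0) (nat_lit 791876128465) (nat_lit 152) (nat_lit 911699459661) (nat_lit 0) (nat_lit 791688131584) (nat_lit 1) (nat_lit 5) (nat_lit 3) (nat_lit 4) (nat_lit 1) (nat_lit 4) (nat_lit 401) (nat_lit 254) (nat_lit 245)) (XT.lf (nat_lit 0) (nat_lit 855759520110) (nat_lit 152) (nat_lit 983522461962) (nat_lit 0) (nat_lit 855557583658) (nat_lit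 1) (nat_lit 5) (nat_lit 3) (nat_lit 4) (nat_lit 1) (nat_lit 4) (nat_lit 402) (nat_lit 254) (nat_lit 244))) (XT.nd (nat_lit 78) (nat_lit 0) (nat_lit 0) (XT.lf (nat_lit 0) (nat_lit 924733105088) (nat_lit 152) (nat_lit 1061131757492) (nat_lit 0) (nat_lit 924518261628) (nat_lit 1) (nat_lit 5) (nat_lit 3) (nat_lit 4) (nat_lit 1) (nat_lit 4) (nat_lit 403) (nat_lit 254) (nat_lit 243)) (XT.lf (nat_lit 0) (nat_lit 999205615757) (nat_lit 152) (nat_lit 1144987253190) (nat_lit 0) (nat_lit 998978821361) (nat_lit 1) (nat_lit 5) (nat_lit 3) (nat_lit 4) (nat_lit 1) (nat_lit 4) (nat_lit 404) (nat_lit 254) (nat_lit 242))))) (XT.nd (nat_lit 312) (nat_lit 0) (nat_lit 0) (XT.nd (nat_lit 156) (nat_lit 0) (nat_lit 0) (XT.nd (nat_lit 78) (nat_lit 0) (nat_lit 0) (XT.lf (nat_lit 0) (nat_lit 1079618370697) (nat_lit 152) (nat_lit 1235585870511) (nat_lit 0) (nat_lit 1079380510621) (nat_lit 1) (nat_lit 5) (nat_lit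 3) (nat_lit 4) (nat_lit 1) (nat_lit 4) (nat_lit 405) (nat_lit 254) (nat_lit 241)) (XT.lf (nat_lit 0) (nat_lit 1166447889937) (nat_lit 152) (nat_lit 1333464490150) (nat_lit 0) (nat_lit 1166199783862) (nat_lit 1) (nat_lit 5) (nat_lit 3) (nat_lit 4) (nat_lit 1) (nat_lit 4) (nat_lit 406) (nat_lit 254) (nat_lit 240))) (XT.nd (nat_lit 78) (nat_lit 0) (nat_lit 0) (XT.lf (nat_lit 0) (nat_lit 1260208718778) (nat_lit 152) (nat_lit 1439203133556) (nat_lit 0) (nat_lit 1259951125665) (nat_lit 1) (nat_lit 5) (nat_lit 3) (nat_lit 4) (nat_lit 1) (nat_lit 4) (nat_lit 407) (nat_lit 254) (nat_lit 239)) (XT.lf (nat_lit 0) (nat_lit 1361456476945) (nat_lit 152) (nat_lit 1553428400099) (nat_lit 0) (nat_lit 1361190099538) (nat_lit 1) (nat_lit 5) (nat_lit 3) (nat_lit 4) (nat_lit 1) (nat_lit 4) (nat_lit 408) (nat_lit 254) (nat_lit 238)))) (XT.nd (nat_lit 156) (nat_lit 0) (nat_lit 0) (XT.nd (nat_lit 78) (nat_lit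 0) (nat_lit 0) (XT.lf (nat_lit 0) (nat_lit 1470791151153) (nat_lit 152) (nat_lit 1676817180247) (nat_lit 0) (nat_lit 1470516640142) (nat_lit 1) (nat_lit 5) (nat_lit 3) (nat_lit 4) (nat_lit 1) (nat_lit 4) (nat_lit 409) (nat_lit 254) (nat_lit 237)) (XT.lf (nat_lit 0) (nat_lit 1588860650583) (nat_lit 152) (nat_lit 1810100666770) (nat_lit 0) (nat_lit 1588578608456) (nat_lit 1) (nat_lit 5) (nat_lit 3) (nat_lit 4) (nat_lit 1) (nat_lit 4) (nat_lit 410) (nat_lit 254) (nat_lit 236))) (XT.nd (nat_lit 78) (nat_lit 0) (nat_lit 0) (XT.lf (nat_lit 0) (nat_lit 1716364646343) (nat_lit 152) (nat_lit 1954068687738) (nat_lit 0) (nat_lit 1716075630961) (nat_lit 1) (nat_lit 5) (nat_lit 3) (nat_lit 4) (nat_lit 1) (nat_lit 4) (nat_lit 411) (nat_lit 254) (nat_lit 235)) (XT.nd (nat_lit 78) (nat_lit 0) (nat_lit 0) (XT.lf (nat_lit 0) (nat_lit 1854058717667) (nat_lit 152) (nat_lit 2109574386978) (nat_lit 0) (nat_lit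 1853763245567) (nat_lit 1) (nat_lit 5) (nat_lit 3) (nat_lit 4) (nat_lit 1) (nat_lit 4) (nat_lit 412) (nat_lit 254) (nat_lit 234)) (XT.lf (nat_lit 0) (nat_lit 2002758829422) (nat_lit 152) (nat_lit 2277539279744) (nat_lit 0) (nat_lit 2002457378879) (nat_lit 1) (nat_lit 5) (nat_lit 3) (nat_lit 4) (nat_lit 1) (nat_lit 4) (nat_lit 413) (nat_lit 254) (nat_lit 233))))))) (XT.nd (nat_lit 45474) (nat_lit 0) (nat_lit 0) (XT.nd (nat_lit 45162) (nat_lit 0) (nat_lit 0) (XT.nd (nat_lit 45006) (nat_lit 0) (nat_lit 0) (XT.nd (nat_lit 78) (nat_lit 0) (nat_lit 0) (XT.lf (nat_lit 0) (nat_lit 2163346167455) (nat_lit 152) (nat_lit 2458958713551) (nat_lit 0) (nat_lit 2163039181317) (nat_lit 1) (nat_lit 5) (nat_lit 3) (nat_lit 4) (nat_lit 1) (nat_lit 4) (nat_lit 414) (nat_lit 254) (nat_lit 232)) (XT.lf (nat_lit 0) (nat_lit 2336772360437) (nat_lit 152) (nat_lit 2654907766523) (nat_lit 0) (nat_lit 2336460248747)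 (nat_lit 1) (nat_lit 5) (nat_lit 3) (nat_lit 4) (nat_lit 1) (nat_lit 4) (nat_lit 415) (nat_lit 254) (nat_lit 231))) (XT.nd (nat_lit 78) (nat_lit 0) (nat_lit 0) (XT.lf (nat_lit 0) (nat_lit 167213713875) (nat_lit 152) (nat_lit 200878944463) (nat_lit 0) (nat_lit 167213713875) (nat_lit 1) (nat_lit 5) (nat_lit 3) (nat_lit 4) (nat_lit 1) (nat_lit 4) (nat_lit 390) (nat_lit 255) (nat_lit 255)) (XT.lf (nat_lit 0) (nat_lit 362055859458) (nat_lit 152) (nat_lit 432107310869) (nat_lit 0) (nat_lit 362025764972) (nat_lit 1) (nat_lit 5) (nat_lit 3) (nat_lit 4) (nat_lit 1) (nat_lit 4) (nat_lit 391) (nat_lit 255) (nat_lit 254)))) (XT.nd (nat_lit 156) (nat_lit 0) (nat_lit 0) (XT.nd (nat_lit 78) (nat_lit 0) (nat_lit 0) (XT.lf (nat_lit 0) (nat_lit 391850355243) (nat_lit 152) (nat_lit 464972021661) (nat_lit 0) (nat_lit 391792395492) (nat_lit 1) (nat_lit 5) (nat_lit 3) (nat_lit 4) (nat_lit 1) (nat_lit 4) (nat_lit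 392) (nat_lit 255) (nat_lit 253)) (XT.lf (nat_lit 0) (nat_lit 423987475080) (nat_lit 152) (nat_lit 500546775142) (nat_lit 0) (nat_lit 423903714158) (nat_lit 1) (nat_lit 5) (nat_lit 3) (nat_lit 4) (nat_lit 1) (nat_lit 4) (nat_lit 393) (nat_lit 255) (nat_lit 252))) (XT.nd (nat_lit 78) (nat_lit 0) (nat_lit 0) (XT.lf (nat_lit 0) (nat_lit 458657661160) (nat_lit 152) (nat_lit 539042384668) (nat_lit 0) (nat_lit 458550010264) (nat_lit 1) (nat_lit 5) (nat_lit 3) (nat_lit 4) (nat_lit 1) (nat_lit 4) (nat_lit 394) (nat_lit 255) (nat_lit 251)) (XT.lf (nat_lit 0) (nat_lit 496066366437) (nat_lit 152) (nat_lit 580686972369) (nat_lit 0) (nat_lit 495936595196) (nat_lit 1) (nat_lit 5) (nat_lit 3) (nat_lit 4) (nat_lit 1) (nat_lit 4) (nat_lit 395) (nat_lit 255) (nat_lit 250))))) (XT.nd (nat_lit 312) (nat_lit 0) (nat_lit 0) (XT.nd (nat_lit 156) (nat_lit 0) (nat_lit 0) (XT.nd (nat_lit 78) (nat_lit 0) (nat_lit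 0) (XT.lf (nat_lit 0) (nat_lit 536435272129) (nat_lit 152) (nat_lit 625727320986) (nat_lit 0) (nat_lit 536285019086) (nat_lit 1) (nat_lit 5) (nat_lit 3) (nat_lit 4) (nat_lit 1) (nat_lit 4) (nat_lit 396) (nat_lit 255) (nat_lit 249)) (XT.lf (nat_lit 0) (nat_lit 580003601380) (nat_lit 152) (nat_lit 674430336290) (nat_lit 0) (nat_lit 579834383706) (nat_lit 1) (nat_lit 5) (nat_lit 3) (nat_lit 4) (nat_lit 1) (nat_lit 4) (nat_lit 397) (nat_lit 255) (nat_lit 248))) (XT.nd (nat_lit 78) (nat_lit 0) (nat_lit 0) (XT.lf (nat_lit 0) (nat_lit 627029536882) (nat_lit 152) (nat_lit 727084628742) (nat_lit 0) (nat_lit 626842759364) (nat_lit 1) (nat_lit 5) (nat_lit 3) (nat_lit 4) (nat_lit 1) (nat_lit 4) (nat_lit 398) (nat_lit 255) (nat_lit 247)) (XT.lf (nat_lit 0) (nat_lit 677791750845) (nat_lit 152) (nat_lit 784002223777) (nat_lit 0) (nat_lit 677588714213) (nat_lit 1) (nat_lit 5) (nat_lit 3) (nat_lit 4)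 (nat_lit 1) (nat_lit 4) (nat_lit 399) (nat_lit 255) (nat_lit 246)))) (XT.nd (nat_lit 156) (nat_lit 0) (nat_lit 0) (XT.nd (nat_lit 78) (nat_lit 0) (nat_lit 0) (XT.lf (nat_lit 0) (nat_lit 732591056389) (nat_lit 152) (nat_lit 845520410849) (nat_lit 0) (nat_lit 732372965021) (nat_lit 1) (nat_lit 5) (nat_lit 3) (nat_lit 4) (nat_lit 1) (nat_lit 4) (nat_lit 400) (nat_lit 255) (nat_lit 245)) (XT.lf (nat_lit 0) (nat_lit 791752190139) (nat_lit 152) (nat_lit 912003742176) (nat_lit 0) (nat_lit 791520159202) (nat_lit 1) (nat_lit 5) (nat_lit 3) (nat_lit 4) (nat_lit 1) (nat_lit 4) (nat_lit 401) (nat_lit 255) (nat_lit 244))) (XT.nd (nat_lit 78) (nat_lit 0) (nat_lit 0) (XT.lf (nat_lit 0) (nat_lit 855625736593) (nat_lit 152) (nat_lit 983846193057) (nat_lit 0) (nat_lit 855380798646) (nat_lit 1) (nat_lit 5) (nat_lit 3) (nat_lit 4) (nat_lit 1) (nat_lit 4) (nat_lit 402) (nat_lit 255) (nat_lit 243)) (XT.nd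 (nat_lit 78) (nat_lit 0) (nat_lit 0) (XT.lf (nat_lit 0) (nat_lit 924590205654) (nat_lit 152) (nat_lit 1061473496532) (nat_lit 0) (nat_lit 924333316772) (nat_lit 1) (nat_lit 5) (nat_lit 3) (nat_lit 4) (nat_lit 1) (nat_lit 4) (nat_lit 403) (nat_lit 255) (nat_lit 242)) (XT.lf (nat_lit 0) (nat_lit 999054275658) (nat_lit 152) (nat_lit 1145345666252) (nat_lit 0) (nat_lit 998786321096) (nat_lit 1) (nat_lit 5) (nat_lit 3) (nat_lit 4) (nat_lit 1) (nat_lit 4) (nat_lit 404) (nat_lit 255) (nat_lit 241))))))))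
noncomputable def xc5 : XT := (XT.nd (nat_lit 46020) (nat_lit 0) (nat_lit 0) (XT.nd (nat_lit 624) (nat_lit 0) (nat_lit 0) (XT.nd (nat_lit 312) (nat_lit 0) (nat_lit 0) (XT.nd (nat_lit 156) (nat_lit 0) (nat_lit 0) (XT.nd (nat_lit 78) (nat_lit 0) (nat_lit 0) (XT.lf (nat_lit 0) (nat_lit 1079459215168) (nat_lit 152) (nat_lit 1235959722483) (nat_lit 0) (nat_lit 1079181014606) (nat_lit 1) (nat_lit 5) (nat_lit 3) (nat_lit 4) (nat_lit 1) (nat_lit 4) (nat_lit 405) (nat_lit 255) (nat_lit 240)) (XT.lf (nat_lit 0) (nat_lit 1166281497899) (nat_lit 152) (nat_lit 1333852637409) (nat_lit 0) (nat_lit 1165993810300) (nat_lit 1) (nat_lit 5) (nat_lit 3) (nat_lit 4) (nat_lit 1) (nat_lit 4) (nat_lit 406) (nat_lit 255) (nat_lit 239))) (XT.nd (nat_lit 78) (nat_lit 0) (nat_lit 0) (XT.lf (nat_lit 0) (nat_lit 1260035626268) (nat_lit 152) (nat_lit 1439604517192) (nat_lit 0) (nat_lit 1259739154376) (nat_lit 1) (nat_lit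 5) (nat_lit 3) (nat_lit 4) (nat_lit 1) (nat_lit 4) (nat_lit 407) (nat_lit 255) (nat_lit 238)) (XT.lf (nat_lit 0) (nat_lit 1361277180294) (nat_lit 152) (nat_lit 1553842039639) (nat_lit 0) (nat_lit 1360972574797) (nat_lit 1) (nat_lit 5) (nat_lit 3) (nat_lit 4) (nat_lit 1) (nat_lit 4) (nat_lit 408) (nat_lit 255) (nat_lit 237)))) (XT.nd (nat_lit 156) (nat_lit 0) (nat_lit 0) (XT.nd (nat_lit 78) (nat_lit 0) (nat_lit 0) (XT.lf (nat_lit 0) (nat_lit 1470606109928) (nat_lit 152) (nat_lit 1677242167847) (nat_lit 0) (nat_lit 1470293973315) (nat_lit 1) (nat_lit 5) (nat_lit 3) (nat_lit 4) (nat_lit 1) (nat_lit 4) (nat_lit 409) (nat_lit 255) (nat_lit 236)) (XT.lf (nat_lit 0) (nat_lit 1588670290308) (nat_lit 152) (nat_lit 1810536161833) (nat_lit 0) (nat_lit 1588351180440) (nat_lit 1) (nat_lit 5) (nat_lit 3) (nat_lit 4) (nat_lit 1) (nat_lit 4) (nat_lit 410) (nat_lit 255) (nat_lit 235))) (XT.nd (nat_lit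 78) (nat_lit 0) (nat_lit 0) (XT.lf (nat_lit 0) (nat_lit 1716169361022) (nat_lit 152) (nat_lit 1954513911933) (nat_lit 0) (nat_lit 1715843794435) (nat_lit 1) (nat_lit 5) (nat_lit 3) (nat_lit 4) (nat_lit 1) (nat_lit 4) (nat_lit 411) (nat_lit 255) (nat_lit 234)) (XT.lf (nat_lit 0) (nat_lit 1853858872118) (nat_lit 152) (nat_lit 2110028619628) (nat_lit 0) (nat_lit 1853527327088) (nat_lit 1) (nat_lit 5) (nat_lit 3) (nat_lit 4) (nat_lit 1) (nat_lit 4) (nat_lit 412) (nat_lit 255) (nat_lit 233))))) (XT.nd (nat_lit 45006) (nat_lit 0) (nat_lit 0) (XT.nd (nat_lit 156) (nat_lit 0) (nat_lit 0) (XT.nd (nat_lit 78) (nat_lit 0) (nat_lit 0) (XT.lf (nat_lit 0) (nat_lit 2002554761439) (nat_lit 152) (nat_lit 2278001853557) (nat_lit 0) (nat_lit 2002217680814) (nat_lit 1) (nat_lit 5) (nat_lit 3) (nat_lit 4) (nat_lit 1) (nat_lit 4) (nat_lit 413) (nat_lit 255) (nat_lit 232)) (XT.lf (nat_lit 0) (nat_lit 2163138189811)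 (nat_lit 152) (nat_lit 2459429010662) (nat_lit 0) (nat_lit 2162795983636) (nat_lit 1) (nat_lit 5) (nat_lit 3) (nat_lit 4) (nat_lit 1) (nat_lit 4) (nat_lit 414) (nat_lit 255) (nat_lit 231))) (XT.nd (nat_lit 44772) (nat_lit 0) (nat_lit 0) (XT.lf (nat_lit 0) (nat_lit 2336560762736) (nat_lit 152) (nat_lit 2655385214837) (nat_lit 0) (nat_lit 2336213810680) (nat_lit 1) (nat_lit 5) (nat_lit 3) (nat_lit 4) (nat_lit 1) (nat_lit 4) (nat_lit 415) (nat_lit 255) (nat_lit 230)) (XT.lf (nat_lit 0) (nat_lit 142541510016) (nat_lit 152) (nat_lit 173925191348) (nat_lit 0) (nat_lit 142541510016) (nat_lit 1) (nat_lit 5) (nat_lit 3) (nat_lit 4) (nat_lit 1) (nat_lit 4) (nat_lit 388) (nat_lit 256) (nat_lit 256)))) (XT.nd (nat_lit 156) (nat_lit 0) (nat_lit 0) (XT.nd (nat_lit 78) (nat_lit 0) (nat_lit 0) (XT.lf (nat_lit 0) (nat_lit 308833838123) (nat_lit 152) (nat_lit 373743907406) (nat_lit 0) (nat_lit 308801336078)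 (nat_lit 1) (nat_lit 5) (nat_lit 3) (nat_lit 4) (nat_lit 1) (nat_lit 4) (nat_lit 389) (nat_lit 256) (nat_lit 255)) (XT.lf (nat_lit 0) (nat_lit 334436974363) (nat_lit 152) (nat_lit 401803235994) (nat_lit 0) (nat_lit 334374377832) (nat_lit 1) (nat_lit 5) (nat_lit 3) (nat_lit 4) (nat_lit 1) (nat_lit 4) (nat_lit 390) (nat_lit 256) (nat_lit 254))) (XT.nd (nat_lit 78) (nat_lit 0) (nat_lit 0) (XT.lf (nat_lit 0) (nat_lit 362044151043) (nat_lit 152) (nat_lit 432194645963) (nat_lit 0) (nat_lit 361953689247) (nat_lit 1) (nat_lit 5) (nat_lit 3) (nat_lit 4) (nat_lit 1) (nat_lit 4) (nat_lit 391) (nat_lit 256) (nat_lit 253)) (XT.nd (nat_lit 78) (nat_lit 0) (nat_lit 0) (XT.lf (nat_lit 0) (nat_lit 391818966246) (nat_lit 152) (nat_lit 465098234555) (nat_lit 0) (nat_lit 391702703279) (nat_lit 1) (nat_lit 5) (nat_lit 3) (nat_lit 4) (nat_lit 1) (nat_lit 4) (nat_lit 392) (nat_lit 256) (nat_lit 252)) (XT.lf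 (nat_lit 0) (nat_lit 423937863321) (nat_lit 152) (nat_lit 500708986001) (nat_lit 0) (nat_lit 423797710380) (nat_lit 1) (nat_lit 5) (nat_lit 3) (nat_lit 4) (nat_lit 1) (nat_lit 4) (nat_lit 393) (nat_lit 256) (nat_lit 251))))))) (XT.nd (nat_lit 624) (nat_lit 0) (nat_lit 0) (XT.nd (nat_lit 312) (nat_lit 0) (nat_lit 0) (XT.nd (nat_lit 156) (nat_lit 0) (nat_lit 0) (XT.nd (nat_lit 78) (nat_lit 0) (nat_lit 0) (XT.lf (nat_lit 0) (nat_lit 458591176474) (nat_lit 152) (nat_lit 539237926976) (nat_lit 0) (nat_lit 458428903187) (nat_lit 1) (nat_lit 5) (nat_lit 3) (nat_lit 4) (nat_lit 1) (nat_lit 4) (nat_lit 394) (nat_lit 256) (nat_lit 250)) (XT.lf (nat_lit 0) (nat_lit 495984258671) (nat_lit 152) (nat_lit 580913377129) (nat_lit 0) (nat_lit 495801503583) (nat_lit 1) (nat_lit 5) (nat_lit 3) (nat_lit 4) (nat_lit 1) (nat_lit 4) (nat_lit 395) (nat_lit 256) (nat_lit 249))) (XT.nd (nat_lit 78) (nat_lit 0)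 (nat_lit 0) (XT.lf (nat_lit 0) (nat_lit 536338698547) (nat_lit 152) (nat_lit 625982302091) (nat_lit 0) (nat_lit 536136978828) (nat_lit 1) (nat_lit 5) (nat_lit 3) (nat_lit 4) (nat_lit 1) (nat_lit 4) (nat_lit 396) (nat_lit 256) (nat_lit 248)) (XT.lf (nat_lit 0) (nat_lit 579893633524) (nat_lit 152) (nat_lit 674711776973) (nat_lit 0) (nat_lit 579674353961) (nat_lit 1) (nat_lit 5) (nat_lit 3) (nat_lit 4) (nat_lit 1) (nat_lit 4) (nat_lit 397) (nat_lit 256) (nat_lit 247)))) (XT.nd (nat_lit 156) (nat_lit 0) (nat_lit 0) (XT.nd (nat_lit 78) (nat_lit 0) (nat_lit 0) (XT.lf (nat_lit 0) (nat_lit 626907166920) (nat_lit 152) (nat_lit 727390569034) (nat_lit 0) (nat_lit 626671628243) (nat_lit 1) (nat_lit 5) (nat_lit 3) (nat_lit 4) (nat_lit 1) (nat_lit 4) (nat_lit 398) (nat_lit 256) (nat_lit 246)) (XT.lf (nat_lit 0) (nat_lit 677657897453) (nat_lit 152) (nat_lit 784330848893) (nat_lit 0) (nat_lit 677407304040)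 (nat_lit 1) (nat_lit 5) (nat_lit 3) (nat_lit 4) (nat_lit 1) (nat_lit 4) (nat_lit 399) (nat_lit 256) (nat_lit 245))) (XT.nd (nat_lit 78) (nat_lit 0) (nat_lit 0) (XT.lf (nat_lit 0) (nat_lit 732446570191) (nat_lit 152) (nat_lit 845870040431) (nat_lit 0) (nat_lit 732182037208) (nat_lit 1) (nat_lit 5) (nat_lit 3) (nat_lit 4) (nat_lit 1) (nat_lit 4) (nat_lit 400) (nat_lit 256) (nat_lit 244)) (XT.lf (nat_lit 0) (nat_lit 791597858750) (nat_lit 152) (nat_lit 912372820339) (nat_lit 0) (nat_lit 791320418758) (nat_lit 1) (nat_lit 5) (nat_lit 3) (nat_lit 4) (nat_lit 1) (nat_lit 4) (nat_lit 401) (nat_lit 256) (nat_lit 243))))) (XT.nd (nat_lit 312) (nat_lit 0) (nat_lit 0) (XT.nd (nat_lit 156) (nat_lit 0) (nat_lit 0) (XT.nd (nat_lit 78) (nat_lit 0) (nat_lit 0) (XT.lf (nat_lit 0) (nat_lit 855462289286) (nat_lit 152) (nat_lit 984233279164) (nat_lit 0) (nat_lit 855172898360) (nat_lit 1) (nat_lit 5) (nat_lit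 3) (nat_lit 4) (nat_lit 1) (nat_lit 4) (nat_lit 402) (nat_lit 256) (nat_lit 242)) (XT.lf (nat_lit 0) (nat_lit 924418317682) (nat_lit 152) (nat_lit 1061877256662) (nat_lit 0) (nat_lit 924117861076) (nat_lit 1) (nat_lit 5) (nat_lit 3) (nat_lit 4) (nat_lit 1) (nat_lit 4) (nat_lit 403) (nat_lit 256) (nat_lit 241))) (XT.nd (nat_lit 78) (nat_lit 0) (nat_lit 0) (XT.lf (nat_lit 0) (nat_lit 998874572256) (nat_lit 152) (nat_lit 1145764865292) (nat_lit 0) (nat_lit 998563869650) (nat_lit 1) (nat_lit 5) (nat_lit 3) (nat_lit 4) (nat_lit 1) (nat_lit 4) (nat_lit 404) (nat_lit 256) (nat_lit 240)) (XT.lf (nat_lit 0) (nat_lit 1079272275257) (nat_lit 152) (nat_lit 1236393216809) (nat_lit 0) (nat_lit 1078952085613) (nat_lit 1) (nat_lit 5) (nat_lit 3) (nat_lit 4) (nat_lit 1) (nat_lit 4) (nat_lit 405) (nat_lit 256) (nat_lit 239)))) (XT.nd (nat_lit 156) (nat_lit 0) (nat_lit 0) (XT.nd (nat_lit 78) (nat_lit 0)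 (nat_lit 0) (XT.lf (nat_lit 0) (nat_lit 1166087857517) (nat_lit 152) (nat_lit 1334299368112) (nat_lit 0) (nat_lit 1165758883579) (nat_lit 1) (nat_lit 5) (nat_lit 3) (nat_lit 4) (nat_lit 1) (nat_lit 4) (nat_lit 406) (nat_lit 256) (nat_lit 238)) (XT.lf (nat_lit 0) (nat_lit 1259835781745) (nat_lit 152) (nat_lit 1440063503800) (nat_lit 0) (nat_lit 1259498674203) (nat_lit 1) (nat_lit 5) (nat_lit 3) (nat_lit 4) (nat_lit 1) (nat_lit 4) (nat_lit 407) (nat_lit 256) (nat_lit 237))) (XT.nd (nat_lit 78) (nat_lit 0) (nat_lit 0) (XT.lf (nat_lit 0) (nat_lit 1361071591198) (nat_lit 152) (nat_lit 1554312374307) (nat_lit 0) (nat_lit 1360726952539) (nat_lit 1) (nat_lit 5) (nat_lit 3) (nat_lit 4) (nat_lit 1) (nat_lit 4) (nat_lit 408) (nat_lit 256) (nat_lit 236)) (XT.nd (nat_lit 78) (nat_lit 0) (nat_lit 0) (XT.lf (nat_lit 0) (nat_lit 1470395201781) (nat_lit 152) (nat_lit 1677723009977) (nat_lit 0) (nat_lit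 1470043589867) (nat_lit 1) (nat_lit 5) (nat_lit 3) (nat_lit 4) (nat_lit 1) (nat_lit 4) (nat_lit 409) (nat_lit 256) (nat_lit 235)) (XT.lf (nat_lit 0) (nat_lit 1588454457115) (nat_lit 152) (nat_lit 1811026733095) (nat_lit 0) (nat_lit 1588096388483) (nat_lit 1) (nat_lit 5) (nat_lit 3) (nat_lit 4) (nat_lit 1) (nat_lit 4) (nat_lit 410) (nat_lit 256) (nat_lit 234))))))))
noncomputable def xc6 : XT := (XT.nd (nat_lit 45864) (nat_lit 0) (nat_lit 0) (XT.nd (nat_lit 45162) (nat_lit 0) (nat_lit 0) (XT.nd (nat_lit 312) (nat_lit 0) (nat_lit 0) (XT.nd (nat_lit 156) (nat_lit 0) (nat_lit 0) (XT.nd (nat_lit 78) (nat_lit 0) (nat_lit 0) (XT.lf (nat_lit 0) (nat_lit 1715948967600) (nat_lit 152) (nat_lit 1955013491650) (nat_lit 0) (nat_lit 1715584920525) (nat_lit 1) (nat_lit 5) (nat_lit 3) (nat_lit 4) (nat_lit 1) (nat_lit 4) (nat_lit 411) (nat_lit 256) (nat_lit 233)) (XT.lf (nat_lit 0) (nat_lit 1853634256262)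 (nat_lit 152) (nat_lit 2110536540508) (nat_lit 0) (nat_lit 1853264673592) (nat_lit 1) (nat_lit 5) (nat_lit 3) (nat_lit 4) (nat_lit 1) (nat_lit 4) (nat_lit 412) (nat_lit 256) (nat_lit 232))) (XT.nd (nat_lit 78) (nat_lit 0) (nat_lit 0) (XT.lf (nat_lit 0) (nat_lit 2002326235922) (nat_lit 152) (nat_lit 2278517497736) (nat_lit 0) (nat_lit 2001951527701) (nat_lit 1) (nat_lit 5) (nat_lit 3) (nat_lit 4) (nat_lit 1) (nat_lit 4) (nat_lit 413) (nat_lit 256) (nat_lit 231)) (XT.lf (nat_lit 0) (nat_lit 2162906044238) (nat_lit 152) (nat_lit 2459951806044) (nat_lit 0) (nat_lit 2162526590137) (nat_lit 1) (nat_lit 5) (nat_lit 3) (nat_lit 4) (nat_lit 1) (nat_lit 4) (nat_lit 414) (nat_lit 256) (nat_lit 230)))) (XT.nd (nat_lit 44694) (nat_lit 0) (nat_lit 0) (XT.nd (nat_lit 44616) (nat_lit 0) (nat_lit 0) (XT.lf (nat_lit 0) (nat_lit 2336325265259) (nat_lit 152) (nat_lit 2655914631702) (nat_lit 0) (nat_lit 2335941416824)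 (nat_lit 1) (nat_lit 5) (nat_lit 3) (nat_lit 4) (nat_lit 1) (nat_lit 4) (nat_lit 415) (nat_lit 256) (nat_lit 229)) (XT.lf (nat_lit 0) (nat_lit 121323688012) (nat_lit 152) (nat_lit 150953002375) (nat_lit 0) (nat_lit 121323688012) (nat_lit 1) (nat_lit 5) (nat_lit 3) (nat_lit 4) (nat_lit 1) (nat_lit 4) (nat_lit 386) (nat_lit 257) (nat_lit 257))) (XT.nd (nat_lit 78) (nat_lit 0) (nat_lit 0) (XT.lf (nat_lit 0) (nat_lit 263078876712) (nat_lit 152) (nat_lit 323969218754) (nat_lit 0) (nat_lit 263043774504) (nat_lit 1) (nat_lit 5) (nat_lit 3) (nat_lit 4) (nat_lit 1) (nat_lit 4) (nat_lit 387) (nat_lit 257) (nat_lit 256)) (XT.lf (nat_lit 0) (nat_lit 285093330375) (nat_lit 152) (nat_lit 347899357529) (nat_lit 0) (nat_lit 285025726122) (nat_lit 1) (nat_lit 5) (nat_lit 3) (nat_lit 4) (nat_lit 1) (nat_lit 4) (nat_lit 388) (nat_lit 257) (nat_lit 255))))) (XT.nd (nat_lit 312) (nat_lit 0) (nat_lit 0) (XT.nd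 (nat_lit 156) (nat_lit 0) (nat_lit 0) (XT.nd (nat_lit 78) (nat_lit 0) (nat_lit 0) (XT.lf (nat_lit 0) (nat_lit 308821193034) (nat_lit 152) (nat_lit 373838229307) (nat_lit 0) (nat_lit 308723494295) (nat_lit 1) (nat_lit 5) (nat_lit 3) (nat_lit 4) (nat_lit 1) (nat_lit 4) (nat_lit 389) (nat_lit 257) (nat_lit 254)) (XT.lf (nat_lit 0) (nat_lit 334403074246) (nat_lit 152) (nat_lit 401939545921) (nat_lit 0) (nat_lit 334277510241) (nat_lit 1) (nat_lit 5) (nat_lit 3) (nat_lit 4) (nat_lit 1) (nat_lit 4) (nat_lit 390) (nat_lit 257) (nat_lit 253))) (XT.nd (nat_lit 78) (nat_lit 0) (nat_lit 0) (XT.lf (nat_lit 0) (nat_lit 361990570343) (nat_lit 152) (nat_lit 432369833690) (nat_lit 0) (nat_lit 361839205168) (nat_lit 1) (nat_lit 5) (nat_lit 3) (nat_lit 4) (nat_lit 1) (nat_lit 4) (nat_lit 391) (nat_lit 257) (nat_lit 252)) (XT.lf (nat_lit 0) (nat_lit 391747162785) (nat_lit 152) (nat_lit 465309420247) (nat_lit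 0) (nat_lit 391571907636) (nat_lit 1) (nat_lit 5) (nat_lit 3) (nat_lit 4) (nat_lit 1) (nat_lit 4) (nat_lit 392) (nat_lit 257) (nat_lit 251)))) (XT.nd (nat_lit 156) (nat_lit 0) (nat_lit 0) (XT.nd (nat_lit 78) (nat_lit 0) (nat_lit 0) (XT.lf (nat_lit 0) (nat_lit 423849186933) (nat_lit 152) (nat_lit 500953503142) (nat_lit 0) (nat_lit 423651811438) (nat_lit 1) (nat_lit 5) (nat_lit 3) (nat_lit 4) (nat_lit 1) (nat_lit 4) (nat_lit 393) (nat_lit 257) (nat_lit 250)) (XT.lf (nat_lit 0) (nat_lit 458486877005) (nat_lit 152) (nat_lit 539513306568) (nat_lit 0) (nat_lit 458269019708) (nat_lit 1) (nat_lit 5) (nat_lit 3) (nat_lit 4) (nat_lit 1) (nat_lit 4) (nat_lit 394) (nat_lit 257) (nat_lit 249))) (XT.nd (nat_lit 78) (nat_lit 0) (nat_lit 0) (XT.lf (nat_lit 0) (nat_lit 495865493386) (nat_lit 152) (nat_lit 581217333066) (nat_lit 0) (nat_lit 495628671458) (nat_lit 1) (nat_lit 5) (nat_lit 3) (nat_lit 4)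 (nat_lit 1) (nat_lit 4) (nat_lit 395) (nat_lit 257) (nat_lit 248)) (XT.nd (nat_lit 78) (nat_lit 0) (nat_lit 0) (XT.lf (nat_lit 0) (nat_lit 536206538989) (nat_lit 152) (nat_lit 626312717607) (nat_lit 0) (nat_lit 535952157217) (nat_lit 1) (nat_lit 5) (nat_lit 3) (nat_lit 4) (nat_lit 1) (nat_lit 4) (nat_lit 396) (nat_lit 257) (nat_lit 247)) (XT.lf (nat_lit 0) (nat_lit 579749071861) (nat_lit 152) (nat_lit 675066692099) (nat_lit 0) (nat_lit 579478430975) (nat_lit 1) (nat_lit 5) (nat_lit 3) (nat_lit 4) (nat_lit 1) (nat_lit 4) (nat_lit 397) (nat_lit 257) (nat_lit 246))))))) (XT.nd (nat_lit 624) (nat_lit 0) (nat_lit 0) (XT.nd (nat_lit 312) (nat_lit 0) (nat_lit 0) (XT.nd (nat_lit 156) (nat_lit 0) (nat_lit 0) (XT.nd (nat_lit 78) (nat_lit 0) (nat_lit 0) (XT.lf (nat_lit 0) (nat_lit 626751121826) (nat_lit 152) (nat_lit 727768168983) (nat_lit 0) (nat_lit 626465426205) (nat_lit 1) (nat_lit 5) (nat_lit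 3) (nat_lit 4) (nat_lit 1) (nat_lit 4) (nat_lit 398) (nat_lit 257) (nat_lit 245)) (XT.lf (nat_lit 0) (nat_lit 677491219552) (nat_lit 152) (nat_lit 784729453309) (nat_lit 0) (nat_lit 677191584361) (nat_lit 1) (nat_lit 5) (nat_lit 3) (nat_lit 4) (nat_lit 1) (nat_lit 4) (nat_lit 399) (nat_lit 257) (nat_lit 244))) (XT.nd (nat_lit 78) (nat_lit 0) (nat_lit 0) (XT.lf (nat_lit 0) (nat_lit 732270047099) (nat_lit 152) (nat_lit 846288093427) (nat_lit 0) (nat_lit 731957504899) (nat_lit 1) (nat_lit 5) (nat_lit 3) (nat_lit 4) (nat_lit 1) (nat_lit 4) (nat_lit 400) (nat_lit 257) (nat_lit 243)) (XT.lf (nat_lit 0) (nat_lit 791412219741) (nat_lit 152) (nat_lit 912808881279) (nat_lit 0) (nat_lit 791087726606) (nat_lit 1) (nat_lit 5) (nat_lit 3) (nat_lit 4) (nat_lit 1) (nat_lit 4) (nat_lit 401) (nat_lit 257) (nat_lit 242)))) (XT.nd (nat_lit 156) (nat_lit 0) (nat_lit 0) (XT.nd (nat_lit 78) (nat_lit 0) (nat_lit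 0) (XT.lf (nat_lit 0) (nat_lit 855268209612) (nat_lit 152) (nat_lit 984686014127) (nat_lit 0) (nat_lit 854932650797) (nat_lit 1) (nat_lit 5) (nat_lit 3) (nat_lit 4) (nat_lit 1) (nat_lit 4) (nat_lit 402) (nat_lit 257) (nat_lit 241)) (XT.lf (nat_lit 0) (nat_lit 924216422579) (nat_lit 152) (nat_lit 1062345430534) (nat_lit 0) (nat_lit 923870617764) (nat_lit 1) (nat_lit 5) (nat_lit 3) (nat_lit 4) (nat_lit 1) (nat_lit 4) (nat_lit 403) (nat_lit 257) (nat_lit 240))) (XT.nd (nat_lit 78) (nat_lit 0) (nat_lit 0) (XT.lf (nat_lit 0) (nat_lit 998665440644) (nat_lit 152) (nat_lit 1146247334452) (nat_lit 0) (nat_lit 998310148791) (nat_lit 1) (nat_lit 5) (nat_lit 3) (nat_lit 4) (nat_lit 1) (nat_lit 4) (nat_lit 404) (nat_lit 257) (nat_lit 239)) (XT.lf (nat_lit 0) (nat_lit 1079056443173) (nat_lit 152) (nat_lit 1236888922346) (nat_lit 0) (nat_lit 1078692367027) (nat_lit 1) (nat_lit 5) (nat_lit 3) (nat_lit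 4) (nat_lit 1) (nat_lit 4) (nat_lit 405) (nat_lit 257) (nat_lit 238))))) (XT.nd (nat_lit 312) (nat_lit 0) (nat_lit 0) (XT.nd (nat_lit 156) (nat_lit 0) (nat_lit 0) (XT.nd (nat_lit 78) (nat_lit 0) (nat_lit 0) (XT.lf (nat_lit 0) (nat_lit 1165865821292) (nat_lit 152) (nat_lit 1334807329553) (nat_lit 0) (nat_lit 1165493611541) (nat_lit 1) (nat_lit 5) (nat_lit 3) (nat_lit 4) (nat_lit 1) (nat_lit 4) (nat_lit 406) (nat_lit 257) (nat_lit 237)) (XT.lf (nat_lit 0) (nat_lit 1259608000946) (nat_lit 152) (nat_lit 1440582813300) (nat_lit 0) (nat_lit 1259228260079) (nat_lit 1) (nat_lit 5) (nat_lit 3) (nat_lit 4) (nat_lit 1) (nat_lit 4) (nat_lit 407) (nat_lit 257) (nat_lit 236))) (XT.nd (nat_lit 78) (nat_lit 0) (nat_lit 0) (XT.lf (nat_lit 0) (nat_lit 1360838491348) (nat_lit 152) (nat_lit 1554842191270) (nat_lit 0) (nat_lit 1360451777226) (nat_lit 1) (nat_lit 5) (nat_lit 3) (nat_lit 4) (nat_lit 1) (nat_lit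 4) (nat_lit 408) (nat_lit 257) (nat_lit 235)) (XT.lf (nat_lit 0) (nat_lit 1470157176885) (nat_lit 152) (nat_lit 1678262556072) (nat_lit 0) (nat_lit 1469764006045) (nat_lit 1) (nat_lit 5) (nat_lit 3) (nat_lit 4) (nat_lit 1) (nat_lit 4) (nat_lit 409) (nat_lit 257) (nat_lit 234)))) (XT.nd (nat_lit 156) (nat_lit 0) (nat_lit 0) (XT.nd (nat_lit 78) (nat_lit 0) (nat_lit 0) (XT.lf (nat_lit 0) (nat_lit 1588211871990) (nat_lit 152) (nat_lit 1811575287646) (nat_lit 0) (nat_lit 1587812722707) (nat_lit 1) (nat_lit 5) (nat_lit 3) (nat_lit 4) (nat_lit 1) (nat_lit 4) (nat_lit 410) (nat_lit 257) (nat_lit 233)) (XT.lf (nat_lit 0) (nat_lit 1715702160042) (nat_lit 152) (nat_lit 1955570387364) (nat_lit 0) (nat_lit 1715297475164) (nat_lit 1) (nat_lit 5) (nat_lit 3) (nat_lit 4) (nat_lit 1) (nat_lit 4) (nat_lit 411) (nat_lit 257) (nat_lit 232))) (XT.nd (nat_lit 78) (nat_lit 0) (nat_lit 0) (XT.lf (nat_lit 0)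 (nat_lit 1853383539043) (nat_lit 152) (nat_lit 2111101159521) (nat_lit 0) (nat_lit 1852973728614) (nat_lit 1) (nat_lit 5) (nat_lit 3) (nat_lit 4) (nat_lit 1) (nat_lit 4) (nat_lit 412) (nat_lit 257) (nat_lit 231)) (XT.nd (nat_lit 78) (nat_lit 0) (nat_lit 0) (XT.lf (nat_lit 0) (nat_lit 2002071898647) (nat_lit 152) (nat_lit 2279089267951) (nat_lit 0) (nat_lit 2001657342337) (nat_lit 1) (nat_lit 5) (nat_lit 3) (nat_lit 4) (nat_lit 1) (nat_lit 4) (nat_lit 413) (nat_lit 257) (nat_lit 230)) (XT.lf (nat_lit 0) (nat_lit 2162648355059) (nat_lit 152) (nat_lit 2460530197742) (nat_lit 0) (nat_lit 2162229404416) (nat_lit 1) (nat_lit 5) (nat_lit 3) (nat_lit 4) (nat_lit 1) (nat_lit 4) (nat_lit 414) (nat_lit 257) (nat_lit 229))))))))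
noncomputable def xc7 : XT := (XT.nd (nat_lit 45708) (nat_lit 0) (nat_lit 0) (XT.nd (nat_lit 45006) (nat_lit 0) (nat_lit 0) (XT.nd (nat_lit 44694) (nat_lit 0) (nat_lit 0) (XT.nd (nat_lit 44538) (nat_lit 0) (nat_lit 0) (XT.nd (nat_lit 44460) (nat_lit 0) (nat_lit 0) (XT.lf (nat_lit 0) (nat_lit 2336064472466) (nat_lit 152) (nat_lit 2656499154404) (nat_lit 0) (nat_lit 2335641452994) (nat_lit 1) (nat_lit 5) (nat_lit 3) (nat_lit 4) (nat_lit 1) (nat_lit 4) (nat_lit 415) (nat_lit 257) (nat_lit 228)) (XT.lf (nat_lit 0) (nat_lit 103062210963) (nat_lit 152) (nat_lit 131405267702) (nat_lit 0) (nat_lit 103062210963) (nat_lit 1) (nat_lit 5) (nat_lit 3) (nat_lit 4) (nat_lit 1) (nat_lit 4) (nat_lit 384) (nat_lit 258) (nat_lit 258))) (XT.nd (nat_lit 78) (nat_lit 0) (nat_lit 0) (XT.lf (nat_lit 0) (nat_lit 223715663135) (nat_lit 152) (nat_lit 281578970550) (nat_lit 0) (nat_lit 223677752750) (nat_lit 1)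 (nat_lit 5) (nat_lit 3) (nat_lit 4) (nat_lit 1) (nat_lit 4) (nat_lit 385) (nat_lit 258) (nat_lit 257)) (XT.lf (nat_lit 0) (nat_lit 242658511194) (nat_lit 152) (nat_lit 301958897571) (nat_lit 0) (nat_lit 242585498600) (nat_lit 1) (nat_lit 5) (nat_lit 3) (nat_lit 4) (nat_lit 1) (nat_lit 4) (nat_lit 386) (nat_lit 258) (nat_lit 256)))) (XT.nd (nat_lit 156) (nat_lit 0) (nat_lit 0) (XT.nd (nat_lit 78) (nat_lit 0) (nat_lit 0) (XT.lf (nat_lit 0) (nat_lit 263065220017) (nat_lit 152) (nat_lit 324071086407) (nat_lit 0) (nat_lit 262959705378) (nat_lit 1) (nat_lit 5) (nat_lit 3) (nat_lit 4) (nat_lit 1) (nat_lit 4) (nat_lit 387) (nat_lit 258) (nat_lit 255)) (XT.lf (nat_lit 0) (nat_lit 285056718249) (nat_lit 152) (nat_lit 348046572249) (nat_lit 0) (nat_lit 284921109124) (nat_lit 1) (nat_lit 5) (nat_lit 3) (nat_lit 4) (nat_lit 1) (nat_lit 4) (nat_lit 388) (nat_lit 258) (nat_lit 254))) (XT.nd (nat_lit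 78) (nat_lit 0) (nat_lit 0) (XT.lf (nat_lit 0) (nat_lit 308763325879) (nat_lit 152) (nat_lit 374027432053) (nat_lit 0) (nat_lit 308599851489) (nat_lit 1) (nat_lit 5) (nat_lit 3) (nat_lit 4) (nat_lit 1) (nat_lit 4) (nat_lit 389) (nat_lit 258) (nat_lit 253)) (XT.lf (nat_lit 0) (nat_lit 334325526508) (nat_lit 152) (nat_lit 402167626468) (nat_lit 0) (nat_lit 334136250947) (nat_lit 1) (nat_lit 5) (nat_lit 3) (nat_lit 4) (nat_lit 1) (nat_lit 4) (nat_lit 390) (nat_lit 258) (nat_lit 252))))) (XT.nd (nat_lit 312) (nat_lit 0) (nat_lit 0) (XT.nd (nat_lit 156) (nat_lit 0) (nat_lit 0) (XT.nd (nat_lit 78) (nat_lit 0) (nat_lit 0) (XT.lf (nat_lit 0) (nat_lit 361894799844) (nat_lit 152) (nat_lit 432633912202) (nat_lit 0) (nat_lit 361681634310) (nat_lit 1) (nat_lit 5) (nat_lit 3) (nat_lit 4) (nat_lit 1) (nat_lit 4) (nat_lit 391) (nat_lit 258) (nat_lit 251)) (XT.lf (nat_lit 0) (nat_lit 391634519358) (nat_lit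 152) (nat_lit 465606830208) (nat_lit 0) (nat_lit 391399233478) (nat_lit 1) (nat_lit 5) (nat_lit 3) (nat_lit 4) (nat_lit 1) (nat_lit 4) (nat_lit 392) (nat_lit 258) (nat_lit 250))) (XT.nd (nat_lit 78) (nat_lit 0) (nat_lit 0) (XT.lf (nat_lit 0) (nat_lit 423720920425) (nat_lit 152) (nat_lit 501281775554) (nat_lit 0) (nat_lit 423465152744) (nat_lit 1) (nat_lit 5) (nat_lit 3) (nat_lit 4) (nat_lit 1) (nat_lit 4) (nat_lit 393) (nat_lit 258) (nat_lit 249)) (XT.lf (nat_lit 0) (nat_lit 458344144682) (nat_lit 152) (nat_lit 539870155325) (nat_lit 0) (nat_lit 458069412369) (nat_lit 1) (nat_lit 5) (nat_lit 3) (nat_lit 4) (nat_lit 1) (nat_lit 4) (nat_lit 394) (nat_lit 258) (nat_lit 248)))) (XT.nd (nat_lit 156) (nat_lit 0) (nat_lit 0) (XT.nd (nat_lit 78) (nat_lit 0) (nat_lit 0) (XT.lf (nat_lit 0) (nat_lit 495709366789) (nat_lit 152) (nat_lit 581600641402) (nat_lit 0) (nat_lit 495417074633) (nat_lit 1)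 (nat_lit 5) (nat_lit 3) (nat_lit 4) (nat_lit 1) (nat_lit 4) (nat_lit 395) (nat_lit 258) (nat_lit 247)) (XT.lf (nat_lit 0) (nat_lit 536038010287) (nat_lit 152) (nat_lit 626720525552) (nat_lit 0) (nat_lit 535729459016) (nat_lit 1) (nat_lit 5) (nat_lit 3) (nat_lit 4) (nat_lit 1) (nat_lit 4) (nat_lit 396) (nat_lit 258) (nat_lit 246))) (XT.nd (nat_lit 78) (nat_lit 0) (nat_lit 0) (XT.lf (nat_lit 0) (nat_lit 579569059728) (nat_lit 152) (nat_lit 675497184868) (nat_lit 0) (nat_lit 579245453722) (nat_lit 1) (nat_lit 5) (nat_lit 3) (nat_lit 4) (nat_lit 1) (nat_lit 4) (nat_lit 397) (nat_lit 258) (nat_lit 245)) (XT.nd (nat_lit 78) (nat_lit 0) (nat_lit 0) (XT.lf (nat_lit 0) (nat_lit 626560476888) (nat_lit 152) (nat_lit 728219666219) (nat_lit 0) (nat_lit 626222931311) (nat_lit 1) (nat_lit 5) (nat_lit 3) (nat_lit 4) (nat_lit 1) (nat_lit 4) (nat_lit 398) (nat_lit 258) (nat_lit 244)) (XT.lf (nat_lit 0)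 (nat_lit 677290729423) (nat_lit 152) (nat_lit 785200399124) (nat_lit 0) (nat_lit 676940276837) (nat_lit 1) (nat_lit 5) (nat_lit 3) (nat_lit 4) (nat_lit 1) (nat_lit 4) (nat_lit 399) (nat_lit 258) (nat_lit 243))))))) (XT.nd (nat_lit 702) (nat_lit 0) (nat_lit 0) (XT.nd (nat_lit 312) (nat_lit 0) (nat_lit 0) (XT.nd (nat_lit 156) (nat_lit 0) (nat_lit 0) (XT.nd (nat_lit 78) (nat_lit 0) (nat_lit 0) (XT.lf (nat_lit 0) (nat_lit 732060441052) (nat_lit 152) (nat_lit 846777047187) (nat_lit 0) (nat_lit 731698037532) (nat_lit 1) (nat_lit 5) (nat_lit 3) (nat_lit 4) (nat_lit 1) (nat_lit 4) (nat_lit 400) (nat_lit 258) (nat_lit 242)) (XT.lf (nat_lit 0) (nat_lit 791194173029) (nat_lit 152) (nat_lit 913314509062) (nat_lit 0) (nat_lit 790820703829) (nat_lit 1) (nat_lit 5) (nat_lit 3) (nat_lit 4) (nat_lit 1) (nat_lit 4) (nat_lit 401) (nat_lit 258) (nat_lit 241))) (XT.nd (nat_lit 78) (nat_lit 0) (nat_lit 0)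 (XT.lf (nat_lit 0) (nat_lit 855042347471) (nat_lit 152) (nat_lit 985207080819) (nat_lit 0) (nat_lit 854658632270) (nat_lit 1) (nat_lit 5) (nat_lit 3) (nat_lit 4) (nat_lit 1) (nat_lit 4) (nat_lit 402) (nat_lit 258) (nat_lit 240)) (XT.lf (nat_lit 0) (nat_lit 923983323928) (nat_lit 152) (nat_lit 1062880792514) (nat_lit 0) (nat_lit 923590121690) (nat_lit 1) (nat_lit 5) (nat_lit 3) (nat_lit 4) (nat_lit 1) (nat_lit 4) (nat_lit 403) (nat_lit 258) (nat_lit 239)))) (XT.nd (nat_lit 156) (nat_lit 0) (nat_lit 0) (XT.nd (nat_lit 78) (nat_lit 0) (nat_lit 0) (XT.lf (nat_lit 0) (nat_lit 998425641521) (nat_lit 152) (nat_lit 1146795932808) (nat_lit 0) (nat_lit 998023654990) (nat_lit 1) (nat_lit 5) (nat_lit 3) (nat_lit 4) (nat_lit 1) (nat_lit 4) (nat_lit 404) (nat_lit 258) (nat_lit 238)) (XT.lf (nat_lit 0) (nat_lit 1078810439910) (nat_lit 152) (nat_lit 1237449776606) (nat_lit 0) (nat_lit 1078400319773)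 (nat_lit 1) (nat_lit 5) (nat_lit 3) (nat_lit 4) (nat_lit 1) (nat_lit 4) (nat_lit 405) (nat_lit 258) (nat_lit 237))) (XT.nd (nat_lit 78) (nat_lit 0) (nat_lit 0) (XT.lf (nat_lit 0) (nat_lit 1165614073455) (nat_lit 152) (nat_lit 1335379531873) (nat_lit 0) (nat_lit 1165196422203) (nat_lit 1) (nat_lit 5) (nat_lit 3) (nat_lit 4) (nat_lit 1) (nat_lit 4) (nat_lit 406) (nat_lit 258) (nat_lit 236)) (XT.nd (nat_lit 78) (nat_lit 0) (nat_lit 0) (XT.lf (nat_lit 0) (nat_lit 1259350934059) (nat_lit 152) (nat_lit 1441165523083) (nat_lit 0) (nat_lit 1258926309551) (nat_lit 1) (nat_lit 5) (nat_lit 3) (nat_lit 4) (nat_lit 1) (nat_lit 4) (nat_lit 407) (nat_lit 258) (nat_lit 235)) (XT.lf (nat_lit 0) (nat_lit 1360576499414) (nat_lit 152) (nat_lit 1555434630185) (nat_lit 0) (nat_lit 1360145418188) (nat_lit 1) (nat_lit 5) (nat_lit 3) (nat_lit 4) (nat_lit 1) (nat_lit 4) (nat_lit 408) (nat_lit 258) (nat_lit 234))))))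 (XT.nd (nat_lit 312) (nat_lit 0) (nat_lit 0) (XT.nd (nat_lit 156) (nat_lit 0) (nat_lit 0) (XT.nd (nat_lit 78) (nat_lit 0) (nat_lit 0) (XT.lf (nat_lit 0) (nat_lit 1469890624723) (nat_lit 152) (nat_lit 1678864003443) (nat_lit 0) (nat_lit 1469453565054) (nat_lit 1) (nat_lit 5) (nat_lit 3) (nat_lit 4) (nat_lit 1) (nat_lit 4) (nat_lit 409) (nat_lit 258) (nat_lit 233)) (XT.lf (nat_lit 0) (nat_lit 1587941097394) (nat_lit 152) (nat_lit 1812185076179) (nat_lit 0) (nat_lit 1587498502131) (nat_lit 1) (nat_lit 5) (nat_lit 3) (nat_lit 4) (nat_lit 1) (nat_lit 4) (nat_lit 410) (nat_lit 258) (nat_lit 232))) (XT.nd (nat_lit 78) (nat_lit 0) (nat_lit 0) (XT.lf (nat_lit 0) (nat_lit 1715427475785) (nat_lit 152) (nat_lit 1956187899196) (nat_lit 0) (nat_lit 1714979754970) (nat_lit 1) (nat_lit 5) (nat_lit 3) (nat_lit 4) (nat_lit 1) (nat_lit 4) (nat_lit 411) (nat_lit 258) (nat_lit 231)) (XT.lf (nat_lit 0) (nat_lit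 1853105234730) (nat_lit 152) (nat_lit 2111725822555) (nat_lit 0) (nat_lit 1852652768035) (nat_lit 1) (nat_lit 5) (nat_lit 3) (nat_lit 4) (nat_lit 1) (nat_lit 4) (nat_lit 412) (nat_lit 258) (nat_lit 230)))) (XT.nd (nat_lit 156) (nat_lit 0) (nat_lit 0) (XT.nd (nat_lit 78) (nat_lit 0) (nat_lit 0) (XT.lf (nat_lit 0) (nat_lit 2001790242430) (nat_lit 152) (nat_lit 2279720552469) (nat_lit 0) (nat_lit 2001333381401) (nat_lit 1) (nat_lit 5) (nat_lit 3) (nat_lit 4) (nat_lit 1) (nat_lit 4) (nat_lit 413) (nat_lit 258) (nat_lit 229)) (XT.lf (nat_lit 0) (nat_lit 2162363595227) (nat_lit 152) (nat_lit 2461167613264) (nat_lit 0) (nat_lit 2161902665371) (nat_lit 1) (nat_lit 5) (nat_lit 3) (nat_lit 4) (nat_lit 1) (nat_lit 4) (nat_lit 414) (nat_lit 258) (nat_lit 228))) (XT.nd (nat_lit 44304) (nat_lit 0) (nat_lit 0) (XT.lf (nat_lit 0) (nat_lit 2335776838916) (nat_lit 152) (nat_lit 2657142246781) (nat_lit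 0) (nat_lit 2335312141627) (nat_lit 1) (nat_lit 5) (nat_lit 3) (nat_lit 4) (nat_lit 1) (nat_lit 4) (nat_lit 415) (nat_lit 258) (nat_lit 227)) (XT.nd (nat_lit 78) (nat_lit 0) (nat_lit 0) (XT.lf (nat_lit 0) (nat_lit 87329674045) (nat_lit 152) (nat_lit 114805227816) (nat_lit 0) (nat_lit 87329674045) (nat_lit 1) (nat_lit 5) (nat_lit 3) (nat_lit 4) (nat_lit 1) (nat_lit 4) (nat_lit 382) (nat_lit 259) (nat_lit 259)) (XT.lf (nat_lit 0) (nat_lit 189821486390) (nat_lit 152) (nat_lit 245542371781) (nat_lit 0) (nat_lit 189780543174) (nat_lit 1) (nat_lit 5) (nat_lit 3) (nat_lit 4) (nat_lit 1) (nat_lit 4) (nat_lit 383) (nat_lit 259) (nat_lit 258))))))))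
noncomputable def xc8 : XT := (XT.nd (nat_lit 1326) (nat_lit 0) (nat_lit 0) (XT.nd (nat_lit 624) (nat_lit 0) (nat_lit 0) (XT.nd (nat_lit 312) (nat_lit 0) (nat_lit 0) (XT.nd (nat_lit 156) (nat_lit 0) (nat_lit 0) (XT.nd (nat_lit 78) (nat_lit 0) (nat_lit 0) (XT.lf (nat_lit 0) (nat_lit 206136447910) (nat_lit 152) (nat_lit 262867659651) (nat_lit 0) (nat_lit 206057594308) (nat_lit 1) (nat_lit 5) (nat_lit 3) (nat_lit 4) (nat_lit 1) (nat_lit 4) (nat_lit 384) (nat_lit 259) (nat_lit 257)) (XT.lf (nat_lit 0) (nat_lit 223700913904) (nat_lit 152) (nat_lit 281688987615) (nat_lit 0) (nat_lit 223586958094) (nat_lit 1) (nat_lit 5) (nat_lit 3) (nat_lit 4) (nat_lit 1) (nat_lit 4) (nat_lit 385) (nat_lit 259) (nat_lit 256))) (XT.nd (nat_lit 78) (nat_lit 0) (nat_lit 0) (XT.lf (nat_lit 0) (nat_lit 242618970097) (nat_lit 152) (nat_lit 302117889469) (nat_lit 0) (nat_lit 242472512242) (nat_lit 1) (nat_lit 5) (nat_lit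 3) (nat_lit 4) (nat_lit 1) (nat_lit 4) (nat_lit 386) (nat_lit 259) (nat_lit 255)) (XT.lf (nat_lit 0) (nat_lit 263002723489) (nat_lit 152) (nat_lit 324275425372) (nat_lit 0) (nat_lit 262826171148) (nat_lit 1) (nat_lit 5) (nat_lit 3) (nat_lit 4) (nat_lit 1) (nat_lit 4) (nat_lit 387) (nat_lit 259) (nat_lit 254)))) (XT.nd (nat_lit 156) (nat_lit 0) (nat_lit 0) (XT.nd (nat_lit 78) (nat_lit 0) (nat_lit 0) (XT.lf (nat_lit 0) (nat_lit 284972966692) (nat_lit 152) (nat_lit 348292899241) (nat_lit 0) (nat_lit 284768549086) (nat_lit 1) (nat_lit 5) (nat_lit 3) (nat_lit 4) (nat_lit 1) (nat_lit 4) (nat_lit 388) (nat_lit 259) (nat_lit 253)) (XT.lf (nat_lit 0) (nat_lit 308659893740) (nat_lit 152) (nat_lit 374312636846) (nat_lit 0) (nat_lit 308429674962) (nat_lit 1) (nat_lit 5) (nat_lit 3) (nat_lit 4) (nat_lit 1) (nat_lit 4) (nat_lit 389) (nat_lit 259) (nat_lit 252))) (XT.nd (nat_lit 78) (nat_lit 0) (nat_lit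 0) (XT.lf (nat_lit 0) (nat_lit 334203871607) (nat_lit 152) (nat_lit 402488829225) (nat_lit 0) (nat_lit 333949762857) (nat_lit 1) (nat_lit 5) (nat_lit 3) (nat_lit 4) (nat_lit 1) (nat_lit 4) (nat_lit 390) (nat_lit 259) (nat_lit 251)) (XT.lf (nat_lit 0) (nat_lit 361756272016) (nat_lit 152) (nat_lit 432988446408) (nat_lit 0) (nat_lit 361480042920) (nat_lit 1) (nat_lit 5) (nat_lit 3) (nat_lit 4) (nat_lit 1) (nat_lit 4) (nat_lit 391) (nat_lit 259) (nat_lit 250))))) (XT.nd (nat_lit 312) (nat_lit 0) (nat_lit 0) (XT.nd (nat_lit 156) (nat_lit 0) (nat_lit 0) (XT.nd (nat_lit 78) (nat_lit 0) (nat_lit 0) (XT.lf (nat_lit 0) (nat_lit 391480368450) (nat_lit 152) (nat_lit 465992226865) (nat_lit 0) (nat_lit 391183657552) (nat_lit 1) (nat_lit 5) (nat_lit 3) (nat_lit 4) (nat_lit 1) (nat_lit 4) (nat_lit 392) (nat_lit 259) (nat_lit 249)) (XT.lf (nat_lit 0) (nat_lit 423552303701) (nat_lit 152) (nat_lit 501695748557)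 (nat_lit 0) (nat_lit 423236628172) (nat_lit 1) (nat_lit 5) (nat_lit 3) (nat_lit 4) (nat_lit 1) (nat_lit 4) (nat_lit 393) (nat_lit 259) (nat_lit 248))) (XT.nd (nat_lit 78) (nat_lit 0) (nat_lit 0) (XT.lf (nat_lit 0) (nat_lit 458162133684) (nat_lit 152) (nat_lit 540310587906) (nat_lit 0) (nat_lit 457828898311) (nat_lit 1) (nat_lit 5) (nat_lit 3) (nat_lit 4) (nat_lit 1) (nat_lit 4) (nat_lit 394) (nat_lit 259) (nat_lit 247)) (XT.lf (nat_lit 0) (nat_lit 495514953686) (nat_lit 152) (nat_lit 582065573592) (nat_lit 0) (nat_lit 495165459199) (nat_lit 1) (nat_lit 5) (nat_lit 3) (nat_lit 4) (nat_lit 1) (nat_lit 4) (nat_lit 395) (nat_lit 259) (nat_lit 246)))) (XT.nd (nat_lit 156) (nat_lit 0) (nat_lit 0) (XT.nd (nat_lit 78) (nat_lit 0) (nat_lit 0) (XT.lf (nat_lit 0) (nat_lit 535832113753) (nat_lit 152) (nat_lit 627208142566) (nat_lit 0) (nat_lit 535467564530) (nat_lit 1) (nat_lit 5) (nat_lit 3) (nat_lit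 4) (nat_lit 1) (nat_lit 4) (nat_lit 396) (nat_lit 259) (nat_lit 245)) (XT.lf (nat_lit 0) (nat_lit 579352530388) (nat_lit 152) (nat_lit 676005806348) (nat_lit 0) (nat_lit 578974041595) (nat_lit 1) (nat_lit 5) (nat_lit 3) (nat_lit 4) (nat_lit 1) (nat_lit 4) (nat_lit 397) (nat_lit 259) (nat_lit 244))) (XT.nd (nat_lit 78) (nat_lit 0) (nat_lit 0) (XT.lf (nat_lit 0) (nat_lit 626334102356) (nat_lit 152) (nat_lit 728747736279) (nat_lit 0) (nat_lit 625942706555) (nat_lit 1) (nat_lit 5) (nat_lit 3) (nat_lit 4) (nat_lit 1) (nat_lit 4) (nat_lit 398) (nat_lit 259) (nat_lit 243)) (XT.nd (nat_lit 78) (nat_lit 0) (nat_lit 0) (XT.lf (nat_lit 0) (nat_lit 677055238974) (nat_lit 152) (nat_lit 785746477130) (nat_lit 0) (nat_lit 676651892237) (nat_lit 1) (nat_lit 5) (nat_lit 3) (nat_lit 4) (nat_lit 1) (nat_lit 4) (nat_lit 399) (nat_lit 259) (nat_lit 242)) (XT.lf (nat_lit 0) (nat_lit 731816509939) (nat_lit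 152) (nat_lit 847339799215) (nat_lit 0) (nat_lit 731402097522) (nat_lit 1) (nat_lit 5) (nat_lit 3) (nat_lit 4) (nat_lit 1) (nat_lit 4) (nat_lit 400) (nat_lit 259) (nat_lit 241))))))) (XT.nd (nat_lit 624) (nat_lit 0) (nat_lit 0) (XT.nd (nat_lit 312) (nat_lit 0) (nat_lit 0) (XT.nd (nat_lit 156) (nat_lit 0) (nat_lit 0) (XT.nd (nat_lit 78) (nat_lit 0) (nat_lit 0) (XT.lf (nat_lit 0) (nat_lit 790942426486) (nat_lit 152) (nat_lit 913892700000) (nat_lit 0) (nat_lit 790517768070) (nat_lit 1) (nat_lit 5) (nat_lit 3) (nat_lit 4) (nat_lit 1) (nat_lit 4) (nat_lit 401) (nat_lit 259) (nat_lit 240)) (XT.lf (nat_lit 0) (nat_lit 854783364418) (nat_lit 152) (nat_lit 985799567044) (nat_lit 0) (nat_lit 854349218965) (nat_lit 1) (nat_lit 5) (nat_lit 3) (nat_lit 4) (nat_lit 1) (nat_lit 4) (nat_lit 402) (nat_lit 259) (nat_lit 239))) (XT.nd (nat_lit 78) (nat_lit 0) (nat_lit 0) (XT.lf (nat_lit 0) (nat_lit 923717640404)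 (nat_lit 152) (nat_lit 1063486515115) (nat_lit 0) (nat_lit 923274710657) (nat_lit 1) (nat_lit 5) (nat_lit 3) (nat_lit 4) (nat_lit 1) (nat_lit 4) (nat_lit 403) (nat_lit 259) (nat_lit 238)) (XT.lf (nat_lit 0) (nat_lit 998153753857) (nat_lit 152) (nat_lit 1147413911314) (nat_lit 0) (nat_lit 997702690504) (nat_lit 1) (nat_lit 5) (nat_lit 3) (nat_lit 4) (nat_lit 1) (nat_lit 4) (nat_lit 404) (nat_lit 259) (nat_lit 237)))) (XT.nd (nat_lit 156) (nat_lit 0) (nat_lit 0) (XT.nd (nat_lit 78) (nat_lit 0) (nat_lit 0) (XT.lf (nat_lit 0) (nat_lit 1078532807671) (nat_lit 152) (nat_lit 1238079103172) (nat_lit 0) (nat_lit 1078074213203) (nat_lit 1) (nat_lit 5) (nat_lit 3) (nat_lit 4) (nat_lit 1) (nat_lit 4) (nat_lit 405) (nat_lit 259) (nat_lit 236)) (XT.lf (nat_lit 0) (nat_lit 1165331122166) (nat_lit 152) (nat_lit 1336019365901) (nat_lit 0) (nat_lit 1164865554442) (nat_lit 1) (nat_lit 5) (nat_lit 3) (nat_lit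 4) (nat_lit 1) (nat_lit 4) (nat_lit 406) (nat_lit 259) (nat_lit 235))) (XT.nd (nat_lit 78) (nat_lit 0) (nat_lit 0) (XT.lf (nat_lit 0) (nat_lit 1259063057723) (nat_lit 152) (nat_lit 1441815086243) (nat_lit 0) (nat_lit 1258591033281) (nat_lit 1) (nat_lit 5) (nat_lit 3) (nat_lit 4) (nat_lit 1) (nat_lit 4) (nat_lit 407) (nat_lit 259) (nat_lit 234)) (XT.lf (nat_lit 0) (nat_lit 1360284062850) (nat_lit 152) (nat_lit 1556093201801) (nat_lit 0) (nat_lit 1359806059965) (nat_lit 1) (nat_lit 5) (nat_lit 3) (nat_lit 4) (nat_lit 1) (nat_lit 4) (nat_lit 408) (nat_lit 259) (nat_lit 233))))) (XT.nd (nat_lit 312) (nat_lit 0) (nat_lit 0) (XT.nd (nat_lit 156) (nat_lit 0) (nat_lit 0) (XT.nd (nat_lit 78) (nat_lit 0) (nat_lit 0) (XT.lf (nat_lit 0) (nat_lit 1469593965725) (nat_lit 152) (nat_lit 1679530916221) (nat_lit 0) (nat_lit 1469110427245) (nat_lit 1) (nat_lit 5) (nat_lit 3) (nat_lit 4) (nat_lit 1) (nat_lit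 4) (nat_lit 409) (nat_lit 259) (nat_lit 232)) (XT.lf (nat_lit 0) (nat_lit 1587640528736) (nat_lit 152) (nat_lit 1812859712256) (nat_lit 0) (nat_lit 1587151864705) (nat_lit 1) (nat_lit 5) (nat_lit 3) (nat_lit 4) (nat_lit 1) (nat_lit 4) (nat_lit 410) (nat_lit 259) (nat_lit 231))) (XT.nd (nat_lit 78) (nat_lit 0) (nat_lit 0) (XT.lf (nat_lit 0) (nat_lit 1715123287070) (nat_lit 152) (nat_lit 1956869686475) (nat_lit 0) (nat_lit 1714629877159) (nat_lit 1) (nat_lit 5) (nat_lit 3) (nat_lit 4) (nat_lit 1) (nat_lit 4) (nat_lit 411) (nat_lit 259) (nat_lit 230)) (XT.lf (nat_lit 0) (nat_lit 1852797694111) (nat_lit 152) (nat_lit 2112414231318) (nat_lit 0) (nat_lit 1852299889866) (nat_lit 1) (nat_lit 5) (nat_lit 3) (nat_lit 4) (nat_lit 1) (nat_lit 4) (nat_lit 412) (nat_lit 259) (nat_lit 229)))) (XT.nd (nat_lit 156) (nat_lit 0) (nat_lit 0) (XT.nd (nat_lit 78) (nat_lit 0) (nat_lit 0) (XT.lf (nat_lit 0)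 (nat_lit 2001479598196) (nat_lit 152) (nat_lit 2280415092236) (nat_lit 0) (nat_lit 2000977725124) (nat_lit 1) (nat_lit 5) (nat_lit 3) (nat_lit 4) (nat_lit 1) (nat_lit 4) (nat_lit 413) (nat_lit 259) (nat_lit 228)) (XT.lf (nat_lit 0) (nat_lit 2162050077276) (nat_lit 152) (nat_lit 2461867829886) (nat_lit 0) (nat_lit 2161544436771) (nat_lit 1) (nat_lit 5) (nat_lit 3) (nat_lit 4) (nat_lit 1) (nat_lit 4) (nat_lit 414) (nat_lit 259) (nat_lit 227))) (XT.nd (nat_lit 44148) (nat_lit 0) (nat_lit 0) (XT.lf (nat_lit 0) (nat_lit 2335460660116) (nat_lit 152) (nat_lit 2657847719750) (nat_lit 0) (nat_lit 2334951531246) (nat_lit 1) (nat_lit 5) (nat_lit 3) (nat_lit 4) (nat_lit 1) (nat_lit 4) (nat_lit 415) (nat_lit 259) (nat_lit 226)) (XT.nd (nat_lit 78) (nat_lit 0) (nat_lit 0) (XT.lf (nat_lit 0) (nat_lit 73759194579) (nat_lit 152) (nat_lit 100745080453) (nat_lit 0) (nat_lit 73759194579) (nat_lit 1) (nat_lit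 5) (nat_lit 3) (nat_lit 4) (nat_lit 1) (nat_lit 4) (nat_lit 380) (nat_lit 260) (nat_lit 260)) (XT.lf (nat_lit 0) (nat_lit 160604401978) (nat_lit 152) (nat_lit 214977499853) (nat_lit 0) (nat_lit 160560183305) (nat_lit 1) (nat_lit 5) (nat_lit 3) (nat_lit 4) (nat_lit 1) (nat_lit 4) (nat_lit 381) (nat_lit 260) (nat_lit 259))))))))
noncomputable def xc9 : XT := (XT.nd (nat_lit 1326) (nat_lit 0) (nat_lit 0) (XT.nd (nat_lit 624) (nat_lit 0) (nat_lit 0) (XT.nd (nat_lit 312) (nat_lit 0) (nat_lit 0) (XT.nd (nat_lit 156) (nat_lit 0) (nat_lit 0) (XT.nd (nat_lit 78) (nat_lit 0) (nat_lit 0) (XT.lf (nat_lit 0) (nat_lit 174672336154) (nat_lit 152) (nat_lit 229672149818) (nat_lit 0) (nat_lit 174587174264) (nat_lit 1) (nat_lit 5) (nat_lit 3) (nat_lit 4) (nat_lit 1) (nat_lit 4) (nat_lit 382) (nat_lit 260) (nat_lit 258)) (XT.lf (nat_lit 0) (nat_lit 189805557220) (nat_lit 152) (nat_lit 245661190211) (nat_lit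 0) (nat_lit 189682484946) (nat_lit 1) (nat_lit 5) (nat_lit 3) (nat_lit 4) (nat_lit 1) (nat_lit 4) (nat_lit 383) (nat_lit 260) (nat_lit 257))) (XT.nd (nat_lit 78) (nat_lit 0) (nat_lit 0) (XT.lf (nat_lit 0) (nat_lit 206093743525) (nat_lit 152) (nat_lit 263039370901) (nat_lit 0) (nat_lit 205935569042) (nat_lit 1) (nat_lit 5) (nat_lit 3) (nat_lit 4) (nat_lit 1) (nat_lit 4) (nat_lit 384) (nat_lit 260) (nat_lit 256)) (XT.lf (nat_lit 0) (nat_lit 223633417654) (nat_lit 152) (nat_lit 281909673698) (nat_lit 0) (nat_lit 223442741125) (nat_lit 1) (nat_lit 5) (nat_lit 3) (nat_lit 4) (nat_lit 1) (nat_lit 4) (nat_lit 385) (nat_lit 260) (nat_lit 255)))) (XT.nd (nat_lit 156) (nat_lit 0) (nat_lit 0) (XT.nd (nat_lit 78) (nat_lit 0) (nat_lit 0) (XT.lf (nat_lit 0) (nat_lit 242528518416) (nat_lit 152) (nat_lit 302383922620) (nat_lit 0) (nat_lit 242307747401) (nat_lit 1) (nat_lit 5) (nat_lit 3) (nat_lit 4)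 (nat_lit 1) (nat_lit 4) (nat_lit 386) (nat_lit 260) (nat_lit 254)) (XT.lf (nat_lit 0) (nat_lit 262891016779) (nat_lit 152) (nat_lit 324583446548) (nat_lit 0) (nat_lit 262642380499) (nat_lit 1) (nat_lit 5) (nat_lit 3) (nat_lit 4) (nat_lit 1) (nat_lit 4) (nat_lit 387) (nat_lit 260) (nat_lit 253))) (XT.nd (nat_lit 78) (nat_lit 0) (nat_lit 0) (XT.lf (nat_lit 0) (nat_lit 284841579399) (nat_lit 152) (nat_lit 348639798218) (nat_lit 0) (nat_lit 284567141948) (nat_lit 1) (nat_lit 5) (nat_lit 3) (nat_lit 4) (nat_lit 1) (nat_lit 4) (nat_lit 388) (nat_lit 260) (nat_lit 252)) (XT.lf (nat_lit 0) (nat_lit 308510283685) (nat_lit 152) (nat_lit 374695533788) (nat_lit 0) (nat_lit 308211956261) (nat_lit 1) (nat_lit 5) (nat_lit 3) (nat_lit 4) (nat_lit 1) (nat_lit 4) (nat_lit 389) (nat_lit 260) (nat_lit 251))))) (XT.nd (nat_lit 312) (nat_lit 0) (nat_lit 0) (XT.nd (nat_lit 156) (nat_lit 0) (nat_lit 0) (XT.nd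 (nat_lit 78) (nat_lit 0) (nat_lit 0) (XT.lf (nat_lit 0) (nat_lit 334037388626) (nat_lit 152) (nat_lit 402905057615) (nat_lit 0) (nat_lit 333716940856) (nat_lit 1) (nat_lit 5) (nat_lit 3) (nat_lit 4) (nat_lit 1) (nat_lit 4) (nat_lit 390) (nat_lit 260) (nat_lit 250)) (XT.lf (nat_lit 0) (nat_lit 361574165954) (nat_lit 152) (nat_lit 433435537250) (nat_lit 0) (nat_lit 361233236383) (nat_lit 1) (nat_lit 5) (nat_lit 3) (nat_lit 4) (nat_lit 1) (nat_lit 4) (nat_lit 391) (nat_lit 260) (nat_lit 249))) (XT.nd (nat_lit 78) (nat_lit 0) (nat_lit 0) (XT.lf (nat_lit 0) (nat_lit 391283796572) (nat_lit 152) (nat_lit 466467894053) (nat_lit 0) (nat_lit 390923902369) (nat_lit 1) (nat_lit 5) (nat_lit 3) (nat_lit 4) (nat_lit 1) (nat_lit 4) (nat_lit 392) (nat_lit 260) (nat_lit 248)) (XT.lf (nat_lit 0) (nat_lit 423342337550) (nat_lit 152) (nat_lit 502197875322) (nat_lit 0) (nat_lit 422964883504) (nat_lit 1) (nat_lit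 5) (nat_lit 3) (nat_lit 4) (nat_lit 1) (nat_lit 4) (nat_lit 393) (nat_lit 260) (nat_lit 247)))) (XT.nd (nat_lit 156) (nat_lit 0) (nat_lit 0) (XT.nd (nat_lit 78) (nat_lit 0) (nat_lit 0) (XT.lf (nat_lit 0) (nat_lit 457939765427) (nat_lit 152) (nat_lit 540837214282) (nat_lit 0) (nat_lit 457546052267) (nat_lit 1) (nat_lit 5) (nat_lit 3) (nat_lit 4) (nat_lit 1) (nat_lit 4) (nat_lit 394) (nat_lit 260) (nat_lit 246)) (XT.lf (nat_lit 0) (nat_lit 495281101999) (nat_lit 152) (nat_lit 582614884791) (nat_lit 0) (nat_lit 494872334103) (nat_lit 1) (nat_lit 5) (nat_lit 3) (nat_lit 4) (nat_lit 1) (nat_lit 4) (nat_lit 395) (nat_lit 260) (nat_lit 245))) (XT.nd (nat_lit 78) (nat_lit 0) (nat_lit 0) (XT.lf (nat_lit 0) (nat_lit 535587629259) (nat_lit 152) (nat_lit 627778458232) (nat_lit 0) (nat_lit 535164921793) (nat_lit 1) (nat_lit 5) (nat_lit 3) (nat_lit 4) (nat_lit 1) (nat_lit 4) (nat_lit 396) (nat_lit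 260) (nat_lit 244)) (XT.nd (nat_lit 78) (nat_lit 0) (nat_lit 0) (XT.lf (nat_lit 0) (nat_lit 579098200703) (nat_lit 152) (nat_lit 676595570594) (nat_lit 0) (nat_lit 578662586228) (nat_lit 1) (nat_lit 5) (nat_lit 3) (nat_lit 4) (nat_lit 1) (nat_lit 4) (nat_lit 397) (nat_lit 260) (nat_lit 243)) (XT.lf (nat_lit 0) (nat_lit 626070656754) (nat_lit 152) (nat_lit 729355508469) (nat_lit 0) (nat_lit 625623091345) (nat_lit 1) (nat_lit 5) (nat_lit 3) (nat_lit 4) (nat_lit 1) (nat_lit 4) (nat_lit 398) (nat_lit 260) (nat_lit 242))))))) (XT.nd (nat_lit 624) (nat_lit 0) (nat_lit 0) (XT.nd (nat_lit 312) (nat_lit 0) (nat_lit 0) (XT.nd (nat_lit 156) (nat_lit 0) (nat_lit 0) (XT.nd (nat_lit 78) (nat_lit 0) (nat_lit 0) (XT.lf (nat_lit 0) (nat_lit 676783352707) (nat_lit 152) (nat_lit 786370923342) (nat_lit 0) (nat_lit 676324721617) (nat_lit 1) (nat_lit 5) (nat_lit 3) (nat_lit 4) (nat_lit 1) (nat_lit 4) (nat_lit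 399) (nat_lit 260) (nat_lit 241)) (XT.lf (nat_lit 0) (nat_lit 731536808242) (nat_lit 152) (nat_lit 847979684337) (nat_lit 0) (nat_lit 731067931152) (nat_lit 1) (nat_lit 5) (nat_lit 3) (nat_lit 4) (nat_lit 1) (nat_lit 4) (nat_lit 400) (nat_lit 260) (nat_lit 240))) (XT.nd (nat_lit 78) (nat_lit 0) (nat_lit 0) (XT.lf (nat_lit 0) (nat_lit 790655488280) (nat_lit 152) (nat_lit 914546880409) (nat_lit 0) (nat_lit 790177124153) (nat_lit 1) (nat_lit 5) (nat_lit 3) (nat_lit 4) (nat_lit 1) (nat_lit 4) (nat_lit 401) (nat_lit 260) (nat_lit 239)) (XT.lf (nat_lit 0) (nat_lit 854489725741) (nat_lit 152) (nat_lit 986466983830) (nat_lit 0) (nat_lit 854002577320) (nat_lit 1) (nat_lit 5) (nat_lit 3) (nat_lit 4) (nat_lit 1) (nat_lit 4) (nat_lit 402) (nat_lit 260) (nat_lit 238)))) (XT.nd (nat_lit 156) (nat_lit 0) (nat_lit 0) (XT.nd (nat_lit 78) (nat_lit 0) (nat_lit 0) (XT.lf (nat_lit 0) (nat_lit 923417797586)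 (nat_lit 152) (nat_lit 1064166187806) (nat_lit 0) (nat_lit 922922515560) (nat_lit 1) (nat_lit 5) (nat_lit 3) (nat_lit 4) (nat_lit 1) (nat_lit 4) (nat_lit 403) (nat_lit 260) (nat_lit 237)) (XT.lf (nat_lit 0) (nat_lit 997848166465) (nat_lit 152) (nat_lit 1148104932064) (nat_lit 0) (nat_lit 997345353323) (nat_lit 1) (nat_lit 5) (nat_lit 3) (nat_lit 4) (nat_lit 1) (nat_lit 4) (nat_lit 404) (nat_lit 260) (nat_lit 236))) (XT.nd (nat_lit 78) (nat_lit 0) (nat_lit 0) (XT.lf (nat_lit 0) (nat_lit 1078221901229) (nat_lit 152) (nat_lit 1238780631385) (nat_lit 0) (nat_lit 1077712114831) (nat_lit 1) (nat_lit 5) (nat_lit 3) (nat_lit 4) (nat_lit 1) (nat_lit 4) (nat_lit 405) (nat_lit 260) (nat_lit 235)) (XT.lf (nat_lit 0) (nat_lit 1165015290677) (nat_lit 152) (nat_lit 1336730623246) (nat_lit 0) (nat_lit 1164499047561) (nat_lit 1) (nat_lit 5) (nat_lit 3) (nat_lit 4) (nat_lit 1) (nat_lit 4) (nat_lit 406)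 (nat_lit 260) (nat_lit 234))))) (XT.nd (nat_lit 312) (nat_lit 0) (nat_lit 0) (XT.nd (nat_lit 156) (nat_lit 0) (nat_lit 0) (XT.nd (nat_lit 78) (nat_lit 0) (nat_lit 0) (XT.lf (nat_lit 0) (nat_lit 1258742666006) (nat_lit 152) (nat_lit 1442535352044) (nat_lit 0) (nat_lit 1258220444448) (nat_lit 1) (nat_lit 5) (nat_lit 3) (nat_lit 4) (nat_lit 1) (nat_lit 4) (nat_lit 407) (nat_lit 260) (nat_lit 233)) (XT.lf (nat_lit 0) (nat_lit 1359959448699) (nat_lit 152) (nat_lit 1556821808764) (nat_lit 0) (nat_lit 1359431691546) (nat_lit 1) (nat_lit 5) (nat_lit 3) (nat_lit 4) (nat_lit 1) (nat_lit 4) (nat_lit 408) (nat_lit 260) (nat_lit 232))) (XT.nd (nat_lit 78) (nat_lit 0) (nat_lit 0) (XT.lf (nat_lit 0) (nat_lit 1469265441913) (nat_lit 152) (nat_lit 1680267246483) (nat_lit 0) (nat_lit 1468732559209) (nat_lit 1) (nat_lit 5) (nat_lit 3) (nat_lit 4) (nat_lit 1) (nat_lit 4) (nat_lit 409) (nat_lit 260) (nat_lit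 231)) (XT.lf (nat_lit 0) (nat_lit 1587308384867) (nat_lit 152) (nat_lit 1813603193721) (nat_lit 0) (nat_lit 1586770756283) (nat_lit 1) (nat_lit 5) (nat_lit 3) (nat_lit 4) (nat_lit 1) (nat_lit 4) (nat_lit 410) (nat_lit 260) (nat_lit 230)))) (XT.nd (nat_lit 156) (nat_lit 0) (nat_lit 0) (XT.nd (nat_lit 78) (nat_lit 0) (nat_lit 0) (XT.lf (nat_lit 0) (nat_lit 1714787791298) (nat_lit 152) (nat_lit 1957619789424) (nat_lit 0) (nat_lit 1714245768379) (nat_lit 1) (nat_lit 5) (nat_lit 3) (nat_lit 4) (nat_lit 1) (nat_lit 4) (nat_lit 411) (nat_lit 260) (nat_lit 229)) (XT.lf (nat_lit 0) (nat_lit 1852459094724) (nat_lit 152) (nat_lit 2113170465270) (nat_lit 0) (nat_lit 1851913002978) (nat_lit 1) (nat_lit 5) (nat_lit 3) (nat_lit 4) (nat_lit 1) (nat_lit 4) (nat_lit 412) (nat_lit 260) (nat_lit 228))) (XT.nd (nat_lit 78) (nat_lit 0) (nat_lit 0) (XT.lf (nat_lit 0) (nat_lit 2001138125092) (nat_lit 152) (nat_lit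 2281177003043) (nat_lit 0) (nat_lit 2000588265913) (nat_lit 1) (nat_lit 5) (nat_lit 3) (nat_lit 4) (nat_lit 1) (nat_lit 4) (nat_lit 413) (nat_lit 260) (nat_lit 227)) (XT.nd (nat_lit 78) (nat_lit 0) (nat_lit 0) (XT.lf (nat_lit 0) (nat_lit 2161705943322) (nat_lit 152) (nat_lit 2462634997040) (nat_lit 0) (nat_lit 2161152595780) (nat_lit 1) (nat_lit 5) (nat_lit 3) (nat_lit 4) (nat_lit 1) (nat_lit 4) (nat_lit 414) (nat_lit 260) (nat_lit 226)) (XT.lf (nat_lit 0) (nat_lit 2335114062412) (nat_lit 152) (nat_lit 2658619753893) (nat_lit 0) (nat_lit 2334557484903) (nat_lit 1) (nat_lit 5) (nat_lit 3) (nat_lit 4) (nat_lit 1) (nat_lit 4) (nat_lit 415) (nat_lit 260) (nat_lit 225))))))))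
noncomputable def xc10 : XT := (XT.nd (nat_lit 1326) (nat_lit 0) (nat_lit 0) (XT.nd (nat_lit 624) (nat_lit 0) (nat_lit 0) (XT.nd (nat_lit 312) (nat_lit 0) (nat_lit 0) (XT.nd (nat_lit 156) (nat_lit 0) (nat_lit 0) (XT.nd (nat_lit 78) (nat_lit 0) (nat_lit 0) (XT.lf (nat_lit 0) (nat_lit 62035741710) (nat_lit 152) (nat_lit 88876218450) (nat_lit 0) (nat_lit 62035741710) (nat_lit 1) (nat_lit 5) (nat_lit 3) (nat_lit 4) (nat_lit 1) (nat_lit 4) (nat_lit 378) (nat_lit 261) (nat_lit 261)) (XT.lf (nat_lit 0) (nat_lit 135384507117) (nat_lit 152) (nat_lit 189130208011) (nat_lit 0) (nat_lit 135336750950) (nat_lit 1) (nat_lit 5) (nat_lit 3) (nat_lit 4) (nat_lit 1) (nat_lit 4) (nat_lit 379) (nat_lit 261) (nat_lit 260))) (XT.nd (nat_lit 78) (nat_lit 0) (nat_lit 0) (XT.lf (nat_lit 0) (nat_lit 147532416265) (nat_lit 152) (nat_lit 201556790627) (nat_lit 0) (nat_lit 147440441425) (nat_lit 1) (nat_lit 5) (nat_lit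 3) (nat_lit 4) (nat_lit 1) (nat_lit 4) (nat_lit 380) (nat_lit 261) (nat_lit 259)) (XT.lf (nat_lit 0) (nat_lit 160587198475) (nat_lit 152) (nat_lit 215105823757) (nat_lit 0) (nat_lit 160454280418) (nat_lit 1) (nat_lit 5) (nat_lit 3) (nat_lit 4) (nat_lit 1) (nat_lit 4) (nat_lit 381) (nat_lit 261) (nat_lit 258)))) (XT.nd (nat_lit 156) (nat_lit 0) (nat_lit 0) (XT.nd (nat_lit 78) (nat_lit 0) (nat_lit 0) (XT.lf (nat_lit 0) (nat_lit 174626215418) (nat_lit 152) (nat_lit 229857597968) (nat_lit 0) (nat_lit 174455386976) (nat_lit 1) (nat_lit 5) (nat_lit 3) (nat_lit 4) (nat_lit 1) (nat_lit 4) (nat_lit 382) (nat_lit 261) (nat_lit 257)) (XT.lf (nat_lit 0) (nat_lit 189732661270) (nat_lit 152) (nat_lit 245899531181) (nat_lit 0) (nat_lit 189526730619) (nat_lit 1) (nat_lit 5) (nat_lit 3) (nat_lit 4) (nat_lit 1) (nat_lit 4) (nat_lit 383) (nat_lit 261) (nat_lit 256))) (XT.nd (nat_lit 78) (nat_lit 0) (nat_lit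 0) (XT.lf (nat_lit 0) (nat_lit 205996055709) (nat_lit 152) (nat_lit 263326686703) (nat_lit 0) (nat_lit 205757623014) (nat_lit 1) (nat_lit 5) (nat_lit 3) (nat_lit 4) (nat_lit 1) (nat_lit 4) (nat_lit 384) (nat_lit 261) (nat_lit 255)) (XT.lf (nat_lit 0) (nat_lit 223512774407) (nat_lit 152) (nat_lit 282242336568) (nat_lit 0) (nat_lit 223244247225) (nat_lit 1) (nat_lit 5) (nat_lit 3) (nat_lit 4) (nat_lit 1) (nat_lit 4) (nat_lit 385) (nat_lit 261) (nat_lit 254))))) (XT.nd (nat_lit 312) (nat_lit 0) (nat_lit 0) (XT.nd (nat_lit 156) (nat_lit 0) (nat_lit 0) (XT.nd (nat_lit 78) (nat_lit 0) (nat_lit 0) (XT.lf (nat_lit 0) (nat_lit 242386620140) (nat_lit 152) (nat_lit 302758573515) (nat_lit 0) (nat_lit 242090227693) (nat_lit 1) (nat_lit 5) (nat_lit 3) (nat_lit 4) (nat_lit 1) (nat_lit 4) (nat_lit 386) (nat_lit 261) (nat_lit 253)) (XT.lf (nat_lit 0) (nat_lit 262729437920) (nat_lit 152) (nat_lit 324996975246)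 (nat_lit 0) (nat_lit 262407244302) (nat_lit 1) (nat_lit 5) (nat_lit 3) (nat_lit 4) (nat_lit 1) (nat_lit 4) (nat_lit 387) (nat_lit 261) (nat_lit 252))) (XT.nd (nat_lit 78) (nat_lit 0) (nat_lit 0) (XT.lf (nat_lit 0) (nat_lit 284661777779) (nat_lit 152) (nat_lit 349089324880) (nat_lit 0) (nat_lit 284315694188) (nat_lit 1) (nat_lit 5) (nat_lit 3) (nat_lit 4) (nat_lit 1) (nat_lit 4) (nat_lit 388) (nat_lit 261) (nat_lit 251)) (XT.lf (nat_lit 0) (nat_lit 308313609138) (nat_lit 152) (nat_lit 375178391898) (nat_lit 0) (nat_lit 307945405201) (nat_lit 1) (nat_lit 5) (nat_lit 3) (nat_lit 4) (nat_lit 1) (nat_lit 4) (nat_lit 389) (nat_lit 261) (nat_lit 250)))) (XT.nd (nat_lit 156) (nat_lit 0) (nat_lit 0) (XT.nd (nat_lit 78) (nat_lit 0) (nat_lit 0) (XT.lf (nat_lit 0) (nat_lit 333825090998) (nat_lit 152) (nat_lit 403418778178) (nat_lit 0) (nat_lit 333436405260) (nat_lit 1) (nat_lit 5) (nat_lit 3) (nat_lit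 4) (nat_lit 1) (nat_lit 4) (nat_lit 390) (nat_lit 261) (nat_lit 249)) (XT.lf (nat_lit 0) (nat_lit 361347402511) (nat_lit 152) (nat_lit 433977834157) (nat_lit 0) (nat_lit 360939752141) (nat_lit 1) (nat_lit 5) (nat_lit 3) (nat_lit 4) (nat_lit 1) (nat_lit 4) (nat_lit 391) (nat_lit 261) (nat_lit 248))) (XT.nd (nat_lit 78) (nat_lit 0) (nat_lit 0) (XT.lf (nat_lit 0) (nat_lit 391043638855) (nat_lit 152) (nat_lit 467036650538) (nat_lit 0) (nat_lit 390618428641) (nat_lit 1) (nat_lit 5) (nat_lit 3) (nat_lit 4) (nat_lit 1) (nat_lit 4) (nat_lit 392) (nat_lit 261) (nat_lit 247)) (XT.nd (nat_lit 78) (nat_lit 0) (nat_lit 0) (XT.lf (nat_lit 0) (nat_lit 423089777728) (nat_lit 152) (nat_lit 502791131417) (nat_lit 0) (nat_lit 422648308400) (nat_lit 1) (nat_lit 5) (nat_lit 3) (nat_lit 4) (nat_lit 1) (nat_lit 4) (nat_lit 393) (nat_lit 261) (nat_lit 246)) (XT.lf (nat_lit 0) (nat_lit 457675722174) (nat_lit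 152) (nat_lit 541453155201) (nat_lit 0) (nat_lit 457219198111) (nat_lit 1) (nat_lit 5) (nat_lit 3) (nat_lit 4) (nat_lit 1) (nat_lit 4) (nat_lit 394) (nat_lit 261) (nat_lit 245))))))) (XT.nd (nat_lit 624) (nat_lit 0) (nat_lit 0) (XT.nd (nat_lit 312) (nat_lit 0) (nat_lit 0) (XT.nd (nat_lit 156) (nat_lit 0) (nat_lit 0) (XT.nd (nat_lit 78) (nat_lit 0) (nat_lit 0) (XT.lf (nat_lit 0) (nat_lit 495006425940) (nat_lit 152) (nat_lit 583251830176) (nat_lit 0) (nat_lit 494535962306) (nat_lit 1) (nat_lit 5) (nat_lit 3) (nat_lit 4) (nat_lit 1) (nat_lit 4) (nat_lit 395) (nat_lit 261) (nat_lit 244)) (XT.lf (nat_lit 0) (nat_lit 535303108009) (nat_lit 152) (nat_lit 628434852197) (nat_lit 0) (nat_lit 534819737367) (nat_lit 1) (nat_lit 5) (nat_lit 3) (nat_lit 4) (nat_lit 1) (nat_lit 4) (nat_lit 396) (nat_lit 261) (nat_lit 243))) (XT.nd (nat_lit 78) (nat_lit 0) (nat_lit 0) (XT.lf (nat_lit 0) (nat_lit 578804563535)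 (nat_lit 152) (nat_lit 677269972504) (nat_lit 0) (nat_lit 578309241958) (nat_lit 1) (nat_lit 5) (nat_lit 3) (nat_lit 4) (nat_lit 1) (nat_lit 4) (nat_lit 397) (nat_lit 261) (nat_lit 242)) (XT.lf (nat_lit 0) (nat_lit 625768578922) (nat_lit 152) (nat_lit 730046584402) (nat_lit 0) (nat_lit 625262191665) (nat_lit 1) (nat_lit 5) (nat_lit 3) (nat_lit 4) (nat_lit 1) (nat_lit 4) (nat_lit 398) (nat_lit 261) (nat_lit 241)))) (XT.nd (nat_lit 156) (nat_lit 0) (nat_lit 0) (XT.nd (nat_lit 78) (nat_lit 0) (nat_lit 0) (XT.lf (nat_lit 0) (nat_lit 676473459445) (nat_lit 152) (nat_lit 787077438185) (nat_lit 0) (nat_lit 675956826188) (nat_lit 1) (nat_lit 5) (nat_lit 3) (nat_lit 4) (nat_lit 1) (nat_lit 4) (nat_lit 399) (nat_lit 261) (nat_lit 240)) (XT.lf (nat_lit 0) (nat_lit 731219678470) (nat_lit 152) (nat_lit 848700494467) (nat_lit 0) (nat_lit 730693558176) (nat_lit 1) (nat_lit 5) (nat_lit 3) (nat_lit 4)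 (nat_lit 1) (nat_lit 4) (nat_lit 400) (nat_lit 261) (nat_lit 239))) (XT.nd (nat_lit 78) (nat_lit 0) (nat_lit 0) (XT.lf (nat_lit 0) (nat_lit 790331658037) (nat_lit 152) (nat_lit 915280926915) (nat_lit 0) (nat_lit 789796753449) (nat_lit 1) (nat_lit 5) (nat_lit 3) (nat_lit 4) (nat_lit 1) (nat_lit 4) (nat_lit 401) (nat_lit 261) (nat_lit 238)) (XT.lf (nat_lit 0) (nat_lit 854159691357) (nat_lit 152) (nat_lit 987213286240) (nat_lit 0) (nat_lit 853616653164) (nat_lit 1) (nat_lit 5) (nat_lit 3) (nat_lit 4) (nat_lit 1) (nat_lit 4) (nat_lit 402) (nat_lit 261) (nat_lit 237))))) (XT.nd (nat_lit 312) (nat_lit 0) (nat_lit 0) (XT.nd (nat_lit 156) (nat_lit 0) (nat_lit 0) (XT.nd (nat_lit 78) (nat_lit 0) (nat_lit 0) (XT.lf (nat_lit 0) (nat_lit 923082018628) (nat_lit 152) (nat_lit 1064923838276) (nat_lit 0) (nat_lit 922531449319) (nat_lit 1) (nat_lit 5) (nat_lit 3) (nat_lit 4) (nat_lit 1) (nat_lit 4) (nat_lit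 403) (nat_lit 261) (nat_lit 236)) (XT.lf (nat_lit 0) (nat_lit 997507068456) (nat_lit 152) (nat_lit 1148873089997) (nat_lit 0) (nat_lit 996949525892) (nat_lit 1) (nat_lit 5) (nat_lit 3) (nat_lit 4) (nat_lit 1) (nat_lit 4) (nat_lit 404) (nat_lit 261) (nat_lit 235))) (XT.nd (nat_lit 78) (nat_lit 0) (nat_lit 0) (XT.lf (nat_lit 0) (nat_lit 1077875878174) (nat_lit 152) (nat_lit 1239558518450) (nat_lit 0) (nat_lit 1077311878891) (nat_lit 1) (nat_lit 5) (nat_lit 3) (nat_lit 4) (nat_lit 1) (nat_lit 4) (nat_lit 405) (nat_lit 261) (nat_lit 234)) (XT.lf (nat_lit 0) (nat_lit 1164664707393) (nat_lit 152) (nat_lit 1337517518767) (nat_lit 0) (nat_lit 1164094729668) (nat_lit 1) (nat_lit 5) (nat_lit 3) (nat_lit 4) (nat_lit 1) (nat_lit 4) (nat_lit 406) (nat_lit 261) (nat_lit 233)))) (XT.nd (nat_lit 156) (nat_lit 0) (nat_lit 0) (XT.nd (nat_lit 78) (nat_lit 0) (nat_lit 0) (XT.lf (nat_lit 0) (nat_lit 1258387860289)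 (nat_lit 152) (nat_lit 1443330588727) (nat_lit 0) (nat_lit 1257812346968) (nat_lit 1) (nat_lit 5) (nat_lit 3) (nat_lit 4) (nat_lit 1) (nat_lit 4) (nat_lit 407) (nat_lit 261) (nat_lit 232)) (XT.lf (nat_lit 0) (nat_lit 1359600733321) (nat_lit 152) (nat_lit 1557624768746) (nat_lit 0) (nat_lit 1359020094450) (nat_lit 1) (nat_lit 5) (nat_lit 3) (nat_lit 4) (nat_lit 1) (nat_lit 4) (nat_lit 408) (nat_lit 261) (nat_lit 231))) (XT.nd (nat_lit 78) (nat_lit 0) (nat_lit 0) (XT.lf (nat_lit 0) (nat_lit 1468903106479) (nat_lit 152) (nat_lit 1681077357667) (nat_lit 0) (nat_lit 1468317721727) (nat_lit 1) (nat_lit 5) (nat_lit 3) (nat_lit 4) (nat_lit 1) (nat_lit 4) (nat_lit 409) (nat_lit 261) (nat_lit 230)) (XT.nd (nat_lit 78) (nat_lit 0) (nat_lit 0) (XT.lf (nat_lit 0) (nat_lit 1586942697529) (nat_lit 152) (nat_lit 1814419926389) (nat_lit 0) (nat_lit 1586352918444) (nat_lit 1) (nat_lit 5) (nat_lit 3) (nat_lit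 4) (nat_lit 1) (nat_lit 4) (nat_lit 410) (nat_lit 261) (nat_lit 229)) (XT.lf (nat_lit 0) (nat_lit 1714419000345) (nat_lit 152) (nat_lit 1958442653095) (nat_lit 0) (nat_lit 1713825152432) (nat_lit 1) (nat_lit 5) (nat_lit 3) (nat_lit 4) (nat_lit 1) (nat_lit 4) (nat_lit 411) (nat_lit 261) (nat_lit 228))))))))
noncomputable def xc11 : XT := (XT.nd (nat_lit 45084) (nat_lit 0) (nat_lit 0) (XT.nd (nat_lit 44382) (nat_lit 0) (nat_lit 0) (XT.nd (nat_lit 44070) (nat_lit 0) (nat_lit 0) (XT.nd (nat_lit 156) (nat_lit 0) (nat_lit 0) (XT.nd (nat_lit 78) (nat_lit 0) (nat_lit 0) (XT.lf (nat_lit 0) (nat_lit 1852087430054) (nat_lit 152) (nat_lit 2113999005797) (nat_lit 0) (nat_lit 1851489814708) (nat_lit 1) (nat_lit 5) (nat_lit 3) (nat_lit 4) (nat_lit 1) (nat_lit 4) (nat_lit 412) (nat_lit 261) (nat_lit 227)) (XT.lf (nat_lit 0) (nat_lit 2000763799572) (nat_lit 152) (nat_lit 2282010799917) (nat_lit 0) (nat_lit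 2000162695862) (nat_lit 1) (nat_lit 5) (nat_lit 3) (nat_lit 4) (nat_lit 1) (nat_lit 4) (nat_lit 413) (nat_lit 261) (nat_lit 226))) (XT.nd (nat_lit 78) (nat_lit 0) (nat_lit 0) (XT.lf (nat_lit 0) (nat_lit 2161329154053) (nat_lit 152) (nat_lit 2463473660903) (nat_lit 0) (nat_lit 2160724820377) (nat_lit 1) (nat_lit 5) (nat_lit 3) (nat_lit 4) (nat_lit 1) (nat_lit 4) (nat_lit 414) (nat_lit 261) (nat_lit 225)) (XT.lf (nat_lit 0) (nat_lit 2334734991894) (nat_lit 152) (nat_lit 2659462924226) (nat_lit 0) (nat_lit 2334127667507) (nat_lit 1) (nat_lit 5) (nat_lit 3) (nat_lit 4) (nat_lit 1) (nat_lit 4) (nat_lit 415) (nat_lit 261) (nat_lit 224)))) (XT.nd (nat_lit 156) (nat_lit 0) (nat_lit 0) (XT.nd (nat_lit 78) (nat_lit 0) (nat_lit 0) (XT.lf (nat_lit 0) (nat_lit 51888700125) (nat_lit 152) (nat_lit 78900866303) (nat_lit 0) (nat_lit 51888700125) (nat_lit 1) (nat_lit 5) (nat_lit 3) (nat_lit 4) (nat_lit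 1) (nat_lit 4) (nat_lit 376) (nat_lit 262) (nat_lit 262)) (XT.lf (nat_lit 0) (nat_lit 113577881696) (nat_lit 152) (nat_lit 167356053466) (nat_lit 0) (nat_lit 113526305035) (nat_lit 1) (nat_lit 5) (nat_lit 3) (nat_lit 4) (nat_lit 1) (nat_lit 4) (nat_lit 377) (nat_lit 262) (nat_lit 261))) (XT.nd (nat_lit 78) (nat_lit 0) (nat_lit 0) (XT.lf (nat_lit 0) (nat_lit 124086632697) (nat_lit 152) (nat_lit 177824396997) (nat_lit 0) (nat_lit 123987299869) (nat_lit 1) (nat_lit 5) (nat_lit 3) (nat_lit 4) (nat_lit 1) (nat_lit 4) (nat_lit 378) (nat_lit 262) (nat_lit 260)) (XT.lf (nat_lit 0) (nat_lit 135365927334) (nat_lit 152) (nat_lit 189268797827) (nat_lit 0) (nat_lit 135222375832) (nat_lit 1) (nat_lit 5) (nat_lit 3) (nat_lit 4) (nat_lit 1) (nat_lit 4) (nat_lit 379) (nat_lit 262) (nat_lit 259))))) (XT.nd (nat_lit 312) (nat_lit 0) (nat_lit 0) (XT.nd (nat_lit 156) (nat_lit 0) (nat_lit 0) (XT.nd (nat_lit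 78) (nat_lit 0) (nat_lit 0) (XT.lf (nat_lit 0) (nat_lit 147482605871) (nat_lit 152) (nat_lit 201757074629) (nat_lit 0) (nat_lit 147298111154) (nat_lit 1) (nat_lit 5) (nat_lit 3) (nat_lit 4) (nat_lit 1) (nat_lit 4) (nat_lit 380) (nat_lit 262) (nat_lit 258)) (XT.lf (nat_lit 0) (nat_lit 160508470849) (nat_lit 152) (nat_lit 215363232004) (nat_lit 0) (nat_lit 160286065746) (nat_lit 1) (nat_lit 5) (nat_lit 3) (nat_lit 4) (nat_lit 1) (nat_lit 4) (nat_lit 381) (nat_lit 262) (nat_lit 257))) (XT.nd (nat_lit 78) (nat_lit 0) (nat_lit 0) (XT.lf (nat_lit 0) (nat_lit 174520712577) (nat_lit 152) (nat_lit 230167899035) (nat_lit 0) (nat_lit 174263205266) (nat_lit 1) (nat_lit 5) (nat_lit 3) (nat_lit 4) (nat_lit 1) (nat_lit 4) (nat_lit 382) (nat_lit 262) (nat_lit 256)) (XT.lf (nat_lit 0) (nat_lit 189602366563) (nat_lit 152) (nat_lit 246258807081) (nat_lit 0) (nat_lit 189312357207) (nat_lit 1) (nat_lit 5)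 (nat_lit 3) (nat_lit 4) (nat_lit 1) (nat_lit 4) (nat_lit 383) (nat_lit 262) (nat_lit 255)))) (XT.nd (nat_lit 156) (nat_lit 0) (nat_lit 0) (XT.nd (nat_lit 78) (nat_lit 0) (nat_lit 0) (XT.lf (nat_lit 0) (nat_lit 205842805571) (nat_lit 152) (nat_lit 263731309671) (nat_lit 0) (nat_lit 205522701729) (nat_lit 1) (nat_lit 5) (nat_lit 3) (nat_lit 4) (nat_lit 1) (nat_lit 4) (nat_lit 384) (nat_lit 262) (nat_lit 254)) (XT.lf (nat_lit 0) (nat_lit 223338269239) (nat_lit 152) (nat_lit 282688947561) (nat_lit 0) (nat_lit 222990300132) (nat_lit 1) (nat_lit 5) (nat_lit 3) (nat_lit 4) (nat_lit 1) (nat_lit 4) (nat_lit 385) (nat_lit 262) (nat_lit 253))) (XT.nd (nat_lit 78) (nat_lit 0) (nat_lit 0) (XT.lf (nat_lit 0) (nat_lit 242192434390) (nat_lit 152) (nat_lit 303244062310) (nat_lit 0) (nat_lit 241818664112) (nat_lit 1) (nat_lit 5) (nat_lit 3) (nat_lit 4) (nat_lit 1) (nat_lit 4) (nat_lit 386) (nat_lit 262)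 (nat_lit 252)) (XT.nd (nat_lit 78) (nat_lit 0) (nat_lit 0) (XT.lf (nat_lit 0) (nat_lit 262517029409) (nat_lit 152) (nat_lit 325518462004) (nat_lit 0) (nat_lit 262119369157) (nat_lit 1) (nat_lit 5) (nat_lit 3) (nat_lit 4) (nat_lit 1) (nat_lit 4) (nat_lit 387) (nat_lit 262) (nat_lit 251)) (XT.lf (nat_lit 0) (nat_lit 284432496341) (nat_lit 152) (nat_lit 349644143087) (nat_lit 0) (nat_lit 284012715743) (nat_lit 1) (nat_lit 5) (nat_lit 3) (nat_lit 4) (nat_lit 1) (nat_lit 4) (nat_lit 388) (nat_lit 262) (nat_lit 250))))))) (XT.nd (nat_lit 702) (nat_lit 0) (nat_lit 0) (XT.nd (nat_lit 312) (nat_lit 0) (nat_lit 0) (XT.nd (nat_lit 156) (nat_lit 0) (nat_lit 0) (XT.nd (nat_lit 78) (nat_lit 0) (nat_lit 0) (XT.lf (nat_lit 0) (nat_lit 308068704619) (nat_lit 152) (nat_lit 375764072557) (nat_lit 0) (nat_lit 307628442220) (nat_lit 1) (nat_lit 5) (nat_lit 3) (nat_lit 4) (nat_lit 1) (nat_lit 4) (nat_lit 389)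 (nat_lit 262) (nat_lit 249)) (XT.lf (nat_lit 0) (nat_lit 333565720664) (nat_lit 152) (nat_lit 404033035182) (nat_lit 0) (nat_lit 333106493633) (nat_lit 1) (nat_lit 5) (nat_lit 3) (nat_lit 4) (nat_lit 1) (nat_lit 4) (nat_lit 390) (nat_lit 262) (nat_lit 248))) (XT.nd (nat_lit 78) (nat_lit 0) (nat_lit 0) (XT.lf (nat_lit 0) (nat_lit 361074637902) (nat_lit 152) (nat_lit 434618550740) (nat_lit 0) (nat_lit 360597851029) (nat_lit 1) (nat_lit 5) (nat_lit 3) (nat_lit 4) (nat_lit 1) (nat_lit 4) (nat_lit 391) (nat_lit 262) (nat_lit 247)) (XT.lf (nat_lit 0) (nat_lit 390758472141) (nat_lit 152) (nat_lit 467701866730) (nat_lit 0) (nat_lit 390265426153) (nat_lit 1) (nat_lit 5) (nat_lit 3) (nat_lit 4) (nat_lit 1) (nat_lit 4) (nat_lit 392) (nat_lit 262) (nat_lit 246)))) (XT.nd (nat_lit 156) (nat_lit 0) (nat_lit 0) (XT.nd (nat_lit 78) (nat_lit 0) (nat_lit 0) (XT.lf (nat_lit 0) (nat_lit 422793127584) (nat_lit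 152) (nat_lit 503479032433) (nat_lit 0) (nat_lit 422285026860) (nat_lit 1) (nat_lit 5) (nat_lit 3) (nat_lit 4) (nat_lit 1) (nat_lit 4) (nat_lit 393) (nat_lit 262) (nat_lit 245)) (XT.lf (nat_lit 0) (nat_lit 457368439224) (nat_lit 152) (nat_lit 542162060683) (nat_lit 0) (nat_lit 456846398930) (nat_lit 1) (nat_lit 5) (nat_lit 3) (nat_lit 4) (nat_lit 1) (nat_lit 4) (nat_lit 394) (nat_lit 262) (nat_lit 244))) (XT.nd (nat_lit 78) (nat_lit 0) (nat_lit 0) (XT.lf (nat_lit 0) (nat_lit 494689297798) (nat_lit 152) (nat_lit 583980184239) (nat_lit 0) (nat_lit 494154350495) (nat_lit 1) (nat_lit 5) (nat_lit 3) (nat_lit 4) (nat_lit 1) (nat_lit 4) (nat_lit 395) (nat_lit 262) (nat_lit 243)) (XT.nd (nat_lit 78) (nat_lit 0) (nat_lit 0) (XT.lf (nat_lit 0) (nat_lit 534976863950) (nat_lit 152) (nat_lit 629181214204) (nat_lit 0) (nat_lit 534429965712) (nat_lit 1) (nat_lit 5) (nat_lit 3) (nat_lit 4) (nat_lit 1)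 (nat_lit 4) (nat_lit 396) (nat_lit 262) (nat_lit 242)) (XT.lf (nat_lit 0) (nat_lit 578469878812) (nat_lit 152) (nat_lit 678033008533) (nat_lit 0) (nat_lit 577911914894) (nat_lit 1) (nat_lit 5) (nat_lit 3) (nat_lit 4) (nat_lit 1) (nat_lit 4) (nat_lit 397) (nat_lit 262) (nat_lit 241)))))) (XT.nd (nat_lit 312) (nat_lit 0) (nat_lit 0) (XT.nd (nat_lit 156) (nat_lit 0) (nat_lit 0) (XT.nd (nat_lit 78) (nat_lit 0) (nat_lit 0) (XT.lf (nat_lit 0) (nat_lit 625426078769) (nat_lit 152) (nat_lit 730825059341) (nat_lit 0) (nat_lit 624857868851) (nat_lit 1) (nat_lit 5) (nat_lit 3) (nat_lit 4) (nat_lit 1) (nat_lit 4) (nat_lit 398) (nat_lit 262) (nat_lit 240)) (XT.lf (nat_lit 0) (nat_lit 676123722782) (nat_lit 152) (nat_lit 787870208411) (nat_lit 0) (nat_lit 675546025827) (nat_lit 1) (nat_lit 5) (nat_lit 3) (nat_lit 4) (nat_lit 1) (nat_lit 4) (nat_lit 399) (nat_lit 262) (nat_lit 239))) (XT.nd (nat_lit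 78) (nat_lit 0) (nat_lit 0) (XT.lf (nat_lit 0) (nat_lit 730863241336) (nat_lit 152) (nat_lit 849506501070) (nat_lit 0) (nat_lit 730276760088) (nat_lit 1) (nat_lit 5) (nat_lit 3) (nat_lit 4) (nat_lit 1) (nat_lit 4) (nat_lit 400) (nat_lit 262) (nat_lit 238)) (XT.lf (nat_lit 0) (nat_lit 789969016763) (nat_lit 152) (nat_lit 916099189423) (nat_lit 0) (nat_lit 789374401909) (nat_lit 1) (nat_lit 5) (nat_lit 3) (nat_lit 4) (nat_lit 1) (nat_lit 4) (nat_lit 401) (nat_lit 262) (nat_lit 237)))) (XT.nd (nat_lit 156) (nat_lit 0) (nat_lit 0) (XT.nd (nat_lit 78) (nat_lit 0) (nat_lit 0) (XT.lf (nat_lit 0) (nat_lit 853791305508) (nat_lit 152) (nat_lit 988042896808) (nat_lit 0) (nat_lit 853189159539) (nat_lit 1) (nat_lit 5) (nat_lit 3) (nat_lit 4) (nat_lit 1) (nat_lit 4) (nat_lit 402) (nat_lit 262) (nat_lit 236)) (XT.lf (nat_lit 0) (nat_lit 922708313729) (nat_lit 152) (nat_lit 1065763956306) (nat_lit 0)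 (nat_lit 922099194504) (nat_lit 1) (nat_lit 5) (nat_lit 3) (nat_lit 4) (nat_lit 1) (nat_lit 4) (nat_lit 403) (nat_lit 262) (nat_lit 235))) (XT.nd (nat_lit 78) (nat_lit 0) (nat_lit 0) (XT.lf (nat_lit 0) (nat_lit 997128438511) (nat_lit 152) (nat_lit 1149722937159) (nat_lit 0) (nat_lit 996512862567) (nat_lit 1) (nat_lit 5) (nat_lit 3) (nat_lit 4) (nat_lit 1) (nat_lit 4) (nat_lit 404) (nat_lit 262) (nat_lit 234)) (XT.nd (nat_lit 78) (nat_lit 0) (nat_lit 0) (XT.lf (nat_lit 0) (nat_lit 1077492688000) (nat_lit 152) (nat_lit 1240417374067) (nat_lit 0) (nat_lit 1076871133614) (nat_lit 1) (nat_lit 5) (nat_lit 3) (nat_lit 4) (nat_lit 1) (nat_lit 4) (nat_lit 405) (nat_lit 262) (nat_lit 233)) (XT.lf (nat_lit 0) (nat_lit 1164277294786) (nat_lit 152) (nat_lit 1338384715547) (nat_lit 0) (nat_lit 1163650204805) (nat_lit 1) (nat_lit 5) (nat_lit 3) (nat_lit 4) (nat_lit 1) (nat_lit 4) (nat_lit 406) (nat_lit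 262) (nat_lit 232))))))))
noncomputable def xc12 : XT := (XT.nd (nat_lit 44928) (nat_lit 0) (nat_lit 0) (XT.nd (nat_lit 624) (nat_lit 0) (nat_lit 0) (XT.nd (nat_lit 312) (nat_lit 0) (nat_lit 0) (XT.nd (nat_lit 156) (nat_lit 0) (nat_lit 0) (XT.nd (nat_lit 78) (nat_lit 0) (nat_lit 0) (XT.lf (nat_lit 0) (nat_lit 1257996538020) (nat_lit 152) (nat_lit 1444205508806) (nat_lit 0) (nat_lit 1257364322488) (nat_lit 1) (nat_lit 5) (nat_lit 3) (nat_lit 4) (nat_lit 1) (nat_lit 4) (nat_lit 407) (nat_lit 262) (nat_lit 231)) (XT.lf (nat_lit 0) (nat_lit 1359205790996) (nat_lit 152) (nat_lit 1558506840027) (nat_lit 0) (nat_lit 1358568829584) (nat_lit 1) (nat_lit 5) (nat_lit 3) (nat_lit 4) (nat_lit 1) (nat_lit 4) (nat_lit 408) (nat_lit 262) (nat_lit 230))) (XT.nd (nat_lit 78) (nat_lit 0) (nat_lit 0) (XT.lf (nat_lit 0) (nat_lit 1468504812250) (nat_lit 152) (nat_lit 1681966050432) (nat_lit 0) (nat_lit 1467863456504)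 (nat_lit 1) (nat_lit 5) (nat_lit 3) (nat_lit 4) (nat_lit 1) (nat_lit 4) (nat_lit 409) (nat_lit 262) (nat_lit 229)) (XT.lf (nat_lit 0) (nat_lit 1586541299686) (nat_lit 152) (nat_lit 1815314750157) (nat_lit 0) (nat_lit 1585895875112) (nat_lit 1) (nat_lit 5) (nat_lit 3) (nat_lit 4) (nat_lit 1) (nat_lit 4) (nat_lit 410) (nat_lit 262) (nat_lit 228)))) (XT.nd (nat_lit 156) (nat_lit 0) (nat_lit 0) (XT.nd (nat_lit 78) (nat_lit 0) (nat_lit 0) (XT.lf (nat_lit 0) (nat_lit 1714014728784) (nat_lit 152) (nat_lit 1959343153719) (nat_lit 0) (nat_lit 1713365536777) (nat_lit 1) (nat_lit 5) (nat_lit 3) (nat_lit 4) (nat_lit 1) (nat_lit 4) (nat_lit 411) (nat_lit 262) (nat_lit 227)) (XT.lf (nat_lit 0) (nat_lit 1851680497643) (nat_lit 152) (nat_lit 2114904762768) (nat_lit 0) (nat_lit 1851027817272) (nat_lit 1) (nat_lit 5) (nat_lit 3) (nat_lit 4) (nat_lit 1) (nat_lit 4) (nat_lit 412) (nat_lit 262) (nat_lit 226)))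 (XT.nd (nat_lit 78) (nat_lit 0) (nat_lit 0) (XT.lf (nat_lit 0) (nat_lit 2000354403412) (nat_lit 152) (nat_lit 2282921423877) (nat_lit 0) (nat_lit 1999698493075) (nat_lit 1) (nat_lit 5) (nat_lit 3) (nat_lit 4) (nat_lit 1) (nat_lit 4) (nat_lit 413) (nat_lit 262) (nat_lit 225)) (XT.lf (nat_lit 0) (nat_lit 2160917476644) (nat_lit 152) (nat_lit 2464388791333) (nat_lit 0) (nat_lit 2160258575597) (nat_lit 1) (nat_lit 5) (nat_lit 3) (nat_lit 4) (nat_lit 1) (nat_lit 4) (nat_lit 414) (nat_lit 262) (nat_lit 224))))) (XT.nd (nat_lit 43914) (nat_lit 0) (nat_lit 0) (XT.nd (nat_lit 43758) (nat_lit 0) (nat_lit 0) (XT.nd (nat_lit 43680) (nat_lit 0) (nat_lit 0) (XT.lf (nat_lit 0) (nat_lit 2334321202216) (nat_lit 152) (nat_lit 2660382227314) (nat_lit 0) (nat_lit 2333659531993) (nat_lit 1) (nat_lit 5) (nat_lit 3) (nat_lit 4) (nat_lit 1) (nat_lit 4) (nat_lit 415) (nat_lit 262) (nat_lit 223)) (XT.lf (nat_lit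 0) (nat_lit 43085491505) (nat_lit 152) (nat_lit 70564916383) (nat_lit 0) (nat_lit 43085491505) (nat_lit 1) (nat_lit 5) (nat_lit 3) (nat_lit 4) (nat_lit 1) (nat_lit 4) (nat_lit 374) (nat_lit 263) (nat_lit 263))) (XT.nd (nat_lit 78) (nat_lit 0) (nat_lit 0) (XT.lf (nat_lit 0) (nat_lit 94682814229) (nat_lit 152) (nat_lit 149104816220) (nat_lit 0) (nat_lit 94627111436) (nat_lit 1) (nat_lit 5) (nat_lit 3) (nat_lit 4) (nat_lit 1) (nat_lit 4) (nat_lit 375) (nat_lit 263) (nat_lit 262)) (XT.lf (nat_lit 0) (nat_lit 103793761470) (nat_lit 152) (nat_lit 157879449511) (nat_lit 0) (nat_lit 103686482016) (nat_lit 1) (nat_lit 5) (nat_lit 3) (nat_lit 4) (nat_lit 1) (nat_lit 4) (nat_lit 376) (nat_lit 263) (nat_lit 261)))) (XT.nd (nat_lit 156) (nat_lit 0) (nat_lit 0) (XT.nd (nat_lit 78) (nat_lit 0) (nat_lit 0) (XT.lf (nat_lit 0) (nat_lit 113557815530) (nat_lit 152) (nat_lit 167505730469) (nat_lit 0) (nat_lit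 113402779909) (nat_lit 1) (nat_lit 5) (nat_lit 3) (nat_lit 4) (nat_lit 1) (nat_lit 4) (nat_lit 377) (nat_lit 263) (nat_lit 260)) (XT.lf (nat_lit 0) (nat_lit 124032837471) (nat_lit 152) (nat_lit 178040703719) (nat_lit 0) (nat_lit 123833583176) (nat_lit 1) (nat_lit 5) (nat_lit 3) (nat_lit 4) (nat_lit 1) (nat_lit 4) (nat_lit 378) (nat_lit 263) (nat_lit 259))) (XT.nd (nat_lit 78) (nat_lit 0) (nat_lit 0) (XT.lf (nat_lit 0) (nat_lit 135280901497) (nat_lit 152) (nat_lit 189546798734) (nat_lit 0) (nat_lit 135040703986) (nat_lit 1) (nat_lit 5) (nat_lit 3) (nat_lit 4) (nat_lit 1) (nat_lit 4) (nat_lit 379) (nat_lit 263) (nat_lit 258)) (XT.nd (nat_lit 78) (nat_lit 0) (nat_lit 0) (XT.lf (nat_lit 0) (nat_lit 147368662802) (nat_lit 152) (nat_lit 202092199781) (nat_lit 0) (nat_lit 147090554906) (nat_lit 1) (nat_lit 5) (nat_lit 3) (nat_lit 4) (nat_lit 1) (nat_lit 4) (nat_lit 380) (nat_lit 263) (nat_lit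 257)) (XT.lf (nat_lit 0) (nat_lit 160367752565) (nat_lit 152) (nat_lit 215751249976) (nat_lit 0) (nat_lit 160054542460) (nat_lit 1) (nat_lit 5) (nat_lit 3) (nat_lit 4) (nat_lit 1) (nat_lit 4) (nat_lit 381) (nat_lit 263) (nat_lit 256))))))) (XT.nd (nat_lit 624) (nat_lit 0) (nat_lit 0) (XT.nd (nat_lit 312) (nat_lit 0) (nat_lit 0) (XT.nd (nat_lit 156) (nat_lit 0) (nat_lit 0) (XT.nd (nat_lit 78) (nat_lit 0) (nat_lit 0) (XT.lf (nat_lit 0) (nat_lit 174355202428) (nat_lit 152) (nat_lit 230604891840) (nat_lit 0) (nat_lit 174009490278) (nat_lit 1) (nat_lit 5) (nat_lit 3) (nat_lit 4) (nat_lit 1) (nat_lit 4) (nat_lit 382) (nat_lit 263) (nat_lit 255)) (XT.lf (nat_lit 0) (nat_lit 189413900983) (nat_lit 152) (nat_lit 246741146953) (nat_lit 0) (nat_lit 189038094347) (nat_lit 1) (nat_lit 5) (nat_lit 3) (nat_lit 4) (nat_lit 1) (nat_lit 4) (nat_lit 383) (nat_lit 263) (nat_lit 254))) (XT.nd (nat_lit 78)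 (nat_lit 0) (nat_lit 0) (XT.lf (nat_lit 0) (nat_lit 205633084962) (nat_lit 152) (nat_lit 264255637569) (nat_lit 0) (nat_lit 205229413061) (nat_lit 1) (nat_lit 5) (nat_lit 3) (nat_lit 4) (nat_lit 1) (nat_lit 4) (nat_lit 384) (nat_lit 263) (nat_lit 253)) (XT.lf (nat_lit 0) (nat_lit 223108868048) (nat_lit 152) (nat_lit 283252153261) (nat_lit 0) (nat_lit 222679394976) (nat_lit 1) (nat_lit 5) (nat_lit 3) (nat_lit 4) (nat_lit 1) (nat_lit 4) (nat_lit 385) (nat_lit 263) (nat_lit 252)))) (XT.nd (nat_lit 156) (nat_lit 0) (nat_lit 0) (XT.nd (nat_lit 78) (nat_lit 0) (nat_lit 0) (XT.lf (nat_lit 0) (nat_lit 241944810437) (nat_lit 152) (nat_lit 303843265974) (nat_lit 0) (nat_lit 241491447391) (nat_lit 1) (nat_lit 5) (nat_lit 3) (nat_lit 4) (nat_lit 1) (nat_lit 4) (nat_lit 386) (nat_lit 263) (nat_lit 251)) (XT.lf (nat_lit 0) (nat_lit 262252532529) (nat_lit 152) (nat_lit 326150997117) (nat_lit 0) (nat_lit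 261777049138) (nat_lit 1) (nat_lit 5) (nat_lit 3) (nat_lit 4) (nat_lit 1) (nat_lit 4) (nat_lit 387) (nat_lit 263) (nat_lit 250))) (XT.nd (nat_lit 78) (nat_lit 0) (nat_lit 0) (XT.lf (nat_lit 0) (nat_lit 284152376380) (nat_lit 152) (nat_lit 350307540652) (nat_lit 0) (nat_lit 283656411187) (nat_lit 1) (nat_lit 5) (nat_lit 3) (nat_lit 4) (nat_lit 1) (nat_lit 4) (nat_lit 388) (nat_lit 263) (nat_lit 249)) (XT.lf (nat_lit 0) (nat_lit 307774118843) (nat_lit 152) (nat_lit 376456046467) (nat_lit 0) (nat_lit 307259189019) (nat_lit 1) (nat_lit 5) (nat_lit 3) (nat_lit 4) (nat_lit 1) (nat_lit 4) (nat_lit 389) (nat_lit 263) (nat_lit 248))))) (XT.nd (nat_lit 312) (nat_lit 0) (nat_lit 0) (XT.nd (nat_lit 156) (nat_lit 0) (nat_lit 0) (XT.nd (nat_lit 78) (nat_lit 0) (nat_lit 0) (XT.lf (nat_lit 0) (nat_lit 333257740613) (nat_lit 152) (nat_lit 404751468670) (nat_lit 0) (nat_lit 332725250946) (nat_lit 1) (nat_lit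 5) (nat_lit 3) (nat_lit 4) (nat_lit 1) (nat_lit 4) (nat_lit 390) (nat_lit 263) (nat_lit 247)) (XT.lf (nat_lit 0) (nat_lit 360754255747) (nat_lit 152) (nat_lit 435361483837) (nat_lit 0) (nat_lit 360205506965) (nat_lit 1) (nat_lit 5) (nat_lit 3) (nat_lit 4) (nat_lit 1) (nat_lit 4) (nat_lit 391) (nat_lit 263) (nat_lit 246))) (XT.nd (nat_lit 78) (nat_lit 0) (nat_lit 0) (XT.lf (nat_lit 0) (nat_lit 390426606555) (nat_lit 152) (nat_lit 468467484651) (nat_lit 0) (nat_lit 389862803038) (nat_lit 1) (nat_lit 5) (nat_lit 3) (nat_lit 4) (nat_lit 1) (nat_lit 4) (nat_lit 392) (nat_lit 263) (nat_lit 245)) (XT.lf (nat_lit 0) (nat_lit 422450629191) (nat_lit 152) (nat_lit 504265654821) (nat_lit 0) (nat_lit 421872886103) (nat_lit 1) (nat_lit 5) (nat_lit 3) (nat_lit 4) (nat_lit 1) (nat_lit 4) (nat_lit 393) (nat_lit 263) (nat_lit 244)))) (XT.nd (nat_lit 156) (nat_lit 0) (nat_lit 0) (XT.nd (nat_lit 78) (nat_lit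 0) (nat_lit 0) (XT.lf (nat_lit 0) (nat_lit 457016095640) (nat_lit 152) (nat_lit 542968131651) (nat_lit 0) (nat_lit 456425445544) (nat_lit 1) (nat_lit 5) (nat_lit 3) (nat_lit 4) (nat_lit 1) (nat_lit 4) (nat_lit 394) (nat_lit 263) (nat_lit 243)) (XT.lf (nat_lit 0) (nat_lit 494327838297) (nat_lit 152) (nat_lit 584804263151) (nat_lit 0) (nat_lit 493725237266) (nat_lit 1) (nat_lit 5) (nat_lit 3) (nat_lit 4) (nat_lit 1) (nat_lit 4) (nat_lit 395) (nat_lit 263) (nat_lit 242))) (XT.nd (nat_lit 78) (nat_lit 0) (nat_lit 0) (XT.lf (nat_lit 0) (nat_lit 534606963785) (nat_lit 152) (nat_lit 630021967139) (nat_lit 0) (nat_lit 533993297073) (nat_lit 1) (nat_lit 5) (nat_lit 3) (nat_lit 4) (nat_lit 1) (nat_lit 4) (nat_lit 396) (nat_lit 263) (nat_lit 241)) (XT.nd (nat_lit 78) (nat_lit 0) (nat_lit 0) (XT.lf (nat_lit 0) (nat_lit 578092163217) (nat_lit 152) (nat_lit 678889200378) (nat_lit 0) (nat_lit 577468250505)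 (nat_lit 1) (nat_lit 5) (nat_lit 3) (nat_lit 4) (nat_lit 1) (nat_lit 4) (nat_lit 397) (nat_lit 263) (nat_lit 240)) (XT.lf (nat_lit 0) (nat_lit 625041126664) (nat_lit 152) (nat_lit 731695546473) (nat_lit 0) (nat_lit 624407726915) (nat_lit 1) (nat_lit 5) (nat_lit 3) (nat_lit 4) (nat_lit 1) (nat_lit 4) (nat_lit 398) (nat_lit 263) (nat_lit 239))))))))
noncomputable def xc13 : XT := (XT.nd (nat_lit 44772) (nat_lit 0) (nat_lit 0) (XT.nd (nat_lit 624) (nat_lit 0) (nat_lit 0) (XT.nd (nat_lit 312) (nat_lit 0) (nat_lit 0) (XT.nd (nat_lit 156) (nat_lit 0) (nat_lit 0) (XT.nd (nat_lit 78) (nat_lit 0) (nat_lit 0) (XT.lf (nat_lit 0) (nat_lit 675732070206) (nat_lit 152) (nat_lit 788753931919) (nat_lit 0) (nat_lit 675089886164) (nat_lit 1) (nat_lit 5) (nat_lit 3) (nat_lit 4) (nat_lit 1) (nat_lit 4) (nat_lit 399) (nat_lit 263) (nat_lit 238)) (XT.lf (nat_lit 0) (nat_lit 730465384619) (nat_lit 152) (nat_lit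 850402480483) (nat_lit 0) (nat_lit 729815066972) (nat_lit 1) (nat_lit 5) (nat_lit 3) (nat_lit 4) (nat_lit 1) (nat_lit 4) (nat_lit 400) (nat_lit 263) (nat_lit 237))) (XT.nd (nat_lit 78) (nat_lit 0) (nat_lit 0) (XT.lf (nat_lit 0) (nat_lit 789565415471) (nat_lit 152) (nat_lit 917006516895) (nat_lit 0) (nat_lit 788907566708) (nat_lit 1) (nat_lit 5) (nat_lit 3) (nat_lit 4) (nat_lit 1) (nat_lit 4) (nat_lit 401) (nat_lit 263) (nat_lit 236)) (XT.lf (nat_lit 0) (nat_lit 853382385167) (nat_lit 152) (nat_lit 988960731743) (nat_lit 0) (nat_lit 852717563148) (nat_lit 1) (nat_lit 5) (nat_lit 3) (nat_lit 4) (nat_lit 1) (nat_lit 4) (nat_lit 402) (nat_lit 263) (nat_lit 235)))) (XT.nd (nat_lit 156) (nat_lit 0) (nat_lit 0) (XT.nd (nat_lit 78) (nat_lit 0) (nat_lit 0) (XT.lf (nat_lit 0) (nat_lit 922294468341) (nat_lit 152) (nat_lit 1066691520373) (nat_lit 0) (nat_lit 921623189604) (nat_lit 1) (nat_lit 5)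 (nat_lit 3) (nat_lit 4) (nat_lit 1) (nat_lit 4) (nat_lit 403) (nat_lit 263) (nat_lit 234)) (XT.lf (nat_lit 0) (nat_lit 996710032894) (nat_lit 152) (nat_lit 1150659509681) (nat_lit 0) (nat_lit 996032775715) (nat_lit 1) (nat_lit 5) (nat_lit 3) (nat_lit 4) (nat_lit 1) (nat_lit 4) (nat_lit 404) (nat_lit 263) (nat_lit 233))) (XT.nd (nat_lit 78) (nat_lit 0) (nat_lit 0) (XT.lf (nat_lit 0) (nat_lit 1077070059949) (nat_lit 152) (nat_lit 1241362287752) (nat_lit 0) (nat_lit 1076387267175) (nat_lit 1) (nat_lit 5) (nat_lit 3) (nat_lit 4) (nat_lit 1) (nat_lit 4) (nat_lit 405) (nat_lit 263) (nat_lit 232)) (XT.lf (nat_lit 0) (nat_lit 1163850757075) (nat_lit 152) (nat_lit 1339337352531) (nat_lit 0) (nat_lit 1163162838749) (nat_lit 1) (nat_lit 5) (nat_lit 3) (nat_lit 4) (nat_lit 1) (nat_lit 4) (nat_lit 406) (nat_lit 263) (nat_lit 231))))) (XT.nd (nat_lit 312) (nat_lit 0) (nat_lit 0) (XT.nd (nat_lit 156)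 (nat_lit 0) (nat_lit 0) (XT.nd (nat_lit 78) (nat_lit 0) (nat_lit 0) (XT.lf (nat_lit 0) (nat_lit 1257566380253) (nat_lit 152) (nat_lit 1445165296992) (nat_lit 0) (nat_lit 1256873716047) (nat_lit 1) (nat_lit 5) (nat_lit 3) (nat_lit 4) (nat_lit 1) (nat_lit 4) (nat_lit 407) (nat_lit 263) (nat_lit 230)) (XT.lf (nat_lit 0) (nat_lit 1358772281325) (nat_lit 152) (nat_lit 1559473249698) (nat_lit 0) (nat_lit 1358075222785) (nat_lit 1) (nat_lit 5) (nat_lit 3) (nat_lit 4) (nat_lit 1) (nat_lit 4) (nat_lit 408) (nat_lit 263) (nat_lit 229))) (XT.nd (nat_lit 78) (nat_lit 0) (nat_lit 0) (XT.lf (nat_lit 0) (nat_lit 1468068198964) (nat_lit 152) (nat_lit 1682938591106) (nat_lit 0) (nat_lit 1467367071597) (nat_lit 1) (nat_lit 5) (nat_lit 3) (nat_lit 4) (nat_lit 1) (nat_lit 4) (nat_lit 409) (nat_lit 263) (nat_lit 228)) (XT.lf (nat_lit 0) (nat_lit 1586101812682) (nat_lit 152) (nat_lit 1816292967686) (nat_lit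 0) (nat_lit 1585396917882) (nat_lit 1) (nat_lit 5) (nat_lit 3) (nat_lit 4) (nat_lit 1) (nat_lit 4) (nat_lit 410) (nat_lit 263) (nat_lit 227)))) (XT.nd (nat_lit 156) (nat_lit 0) (nat_lit 0) (XT.nd (nat_lit 78) (nat_lit 0) (nat_lit 0) (XT.lf (nat_lit 0) (nat_lit 1713572580931) (nat_lit 152) (nat_lit 1960326627595) (nat_lit 0) (nat_lit 1712864197767) (nat_lit 1) (nat_lit 5) (nat_lit 3) (nat_lit 4) (nat_lit 1) (nat_lit 4) (nat_lit 411) (nat_lit 263) (nat_lit 226)) (XT.lf (nat_lit 0) (nat_lit 1851235886041) (nat_lit 152) (nat_lit 2115893103633) (nat_lit 0) (nat_lit 1850524272910) (nat_lit 1) (nat_lit 5) (nat_lit 3) (nat_lit 4) (nat_lit 1) (nat_lit 4) (nat_lit 412) (nat_lit 263) (nat_lit 225))) (XT.nd (nat_lit 78) (nat_lit 0) (nat_lit 0) (XT.lf (nat_lit 0) (nat_lit 1999907510560) (nat_lit 152) (nat_lit 2283914271212) (nat_lit 0) (nat_lit 1999192906720) (nat_lit 1) (nat_lit 5) (nat_lit 3) (nat_lit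 4) (nat_lit 1) (nat_lit 4) (nat_lit 413) (nat_lit 263) (nat_lit 224)) (XT.nd (nat_lit 78) (nat_lit 0) (nat_lit 0) (XT.lf (nat_lit 0) (nat_lit 2160468471524) (nat_lit 152) (nat_lit 2465385811326) (nat_lit 0) (nat_lit 2159751098508) (nat_lit 1) (nat_lit 5) (nat_lit 3) (nat_lit 4) (nat_lit 1) (nat_lit 4) (nat_lit 414) (nat_lit 263) (nat_lit 223)) (XT.lf (nat_lit 0) (nat_lit 2333870241292) (nat_lit 152) (nat_lit 2661383110879) (nat_lit 0) (nat_lit 2333150304225) (nat_lit 1) (nat_lit 5) (nat_lit 3) (nat_lit 4) (nat_lit 1) (nat_lit 4) (nat_lit 415) (nat_lit 263) (nat_lit 222))))))) (XT.nd (nat_lit 702) (nat_lit 0) (nat_lit 0) (XT.nd (nat_lit 312) (nat_lit 0) (nat_lit 0) (XT.nd (nat_lit 156) (nat_lit 0) (nat_lit 0) (XT.nd (nat_lit 78) (nat_lit 0) (nat_lit 0) (XT.lf (nat_lit 0) (nat_lit 35426102575) (nat_lit 152) (nat_lit 63651794173) (nat_lit 0) (nat_lit 35426102575) (nat_lit 1) (nat_lit 5)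 (nat_lit 3) (nat_lit 4) (nat_lit 1) (nat_lit 4) (nat_lit 372) (nat_lit 264) (nat_lit 264)) (XT.lf (nat_lit 0) (nat_lit 78267986347) (nat_lit 152) (nat_lit 133907239992) (nat_lit 0) (nat_lit 78207827330) (nat_lit 1) (nat_lit 5) (nat_lit 3) (nat_lit 4) (nat_lit 1) (nat_lit 4) (nat_lit 373) (nat_lit 264) (nat_lit 263))) (XT.nd (nat_lit 78) (nat_lit 0) (nat_lit 0) (XT.lf (nat_lit 0) (nat_lit 86188653126) (nat_lit 152) (nat_lit 141213767025) (nat_lit 0) (nat_lit 86072791315) (nat_lit 1) (nat_lit 5) (nat_lit 3) (nat_lit 4) (nat_lit 1) (nat_lit 4) (nat_lit 374) (nat_lit 264) (nat_lit 262)) (XT.lf (nat_lit 0) (nat_lit 94661142770) (nat_lit 152) (nat_lit 149266467382) (nat_lit 0) (nat_lit 94493704299) (nat_lit 1) (nat_lit 5) (nat_lit 3) (nat_lit 4) (nat_lit 1) (nat_lit 4) (nat_lit 375) (nat_lit 264) (nat_lit 261)))) (XT.nd (nat_lit 156) (nat_lit 0) (nat_lit 0) (XT.nd (nat_lit 78) (nat_lit 0) (nat_lit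 0) (XT.lf (nat_lit 0) (nat_lit 103735662626) (nat_lit 152) (nat_lit 158113060771) (nat_lit 0) (nat_lit 103520467988) (nat_lit 1) (nat_lit 5) (nat_lit 3) (nat_lit 4) (nat_lit 1) (nat_lit 4) (nat_lit 376) (nat_lit 264) (nat_lit 260)) (XT.lf (nat_lit 0) (nat_lit 113465987627) (nat_lit 152) (nat_lit 167805971448) (nat_lit 0) (nat_lit 113206574315) (nat_lit 1) (nat_lit 5) (nat_lit 3) (nat_lit 4) (nat_lit 1) (nat_lit 4) (nat_lit 377) (nat_lit 264) (nat_lit 259))) (XT.nd (nat_lit 78) (nat_lit 0) (nat_lit 0) (XT.lf (nat_lit 0) (nat_lit 123909778957) (nat_lit 152) (nat_lit 178402638883) (nat_lit 0) (nat_lit 123609422429) (nat_lit 1) (nat_lit 5) (nat_lit 3) (nat_lit 4) (nat_lit 1) (nat_lit 4) (nat_lit 378) (nat_lit 264) (nat_lit 258)) (XT.nd (nat_lit 78) (nat_lit 0) (nat_lit 0) (XT.lf (nat_lit 0) (nat_lit 135128925751) (nat_lit 152) (nat_lit 189965858144) (nat_lit 0) (nat_lit 134790658838) (nat_lit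 1) (nat_lit 5) (nat_lit 3) (nat_lit 4) (nat_lit 1) (nat_lit 4) (nat_lit 379) (nat_lit 264) (nat_lit 257)) (XT.lf (nat_lit 0) (nat_lit 147189911841) (nat_lit 152) (nat_lit 202564152010) (nat_lit 0) (nat_lit 146816542719) (nat_lit 1) (nat_lit 5) (nat_lit 3) (nat_lit 4) (nat_lit 1) (nat_lit 4) (nat_lit 380) (nat_lit 264) (nat_lit 256)))))) (XT.nd (nat_lit 312) (nat_lit 0) (nat_lit 0) (XT.nd (nat_lit 156) (nat_lit 0) (nat_lit 0) (XT.nd (nat_lit 78) (nat_lit 0) (nat_lit 0) (XT.lf (nat_lit 0) (nat_lit 160164209738) (nat_lit 152) (nat_lit 216272177038) (nat_lit 0) (nat_lit 159758338571) (nat_lit 1) (nat_lit 5) (nat_lit 3) (nat_lit 4) (nat_lit 1) (nat_lit 4) (nat_lit 381) (nat_lit 264) (nat_lit 255)) (XT.lf (nat_lit 0) (nat_lit 174128704169) (nat_lit 152) (nat_lit 231171165970) (nat_lit 0) (nat_lit 173692738517) (nat_lit 1) (nat_lit 5) (nat_lit 3) (nat_lit 4) (nat_lit 1) (nat_lit 4) (nat_lit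 382) (nat_lit 264) (nat_lit 254))) (XT.nd (nat_lit 78) (nat_lit 0) (nat_lit 0) (XT.lf (nat_lit 0) (nat_lit 189166147695) (nat_lit 152) (nat_lit 247349409109) (nat_lit 0) (nat_lit 188702316777) (nat_lit 1) (nat_lit 5) (nat_lit 3) (nat_lit 4) (nat_lit 1) (nat_lit 4) (nat_lit 383) (nat_lit 264) (nat_lit 253)) (XT.lf (nat_lit 0) (nat_lit 205365651092) (nat_lit 152) (nat_lit 264902777526) (nat_lit 0) (nat_lit 204876019003) (nat_lit 1) (nat_lit 5) (nat_lit 3) (nat_lit 4) (nat_lit 1) (nat_lit 4) (nat_lit 384) (nat_lit 264) (nat_lit 252)))) (XT.nd (nat_lit 156) (nat_lit 0) (nat_lit 0) (XT.nd (nat_lit 78) (nat_lit 0) (nat_lit 0) (XT.lf (nat_lit 0) (nat_lit 222823211417) (nat_lit 152) (nat_lit 283935291182) (nat_lit 0) (nat_lit 222309689354) (nat_lit 1) (nat_lit 5) (nat_lit 3) (nat_lit 4) (nat_lit 1) (nat_lit 4) (nat_lit 385) (nat_lit 264) (nat_lit 251)) (XT.lf (nat_lit 0) (nat_lit 241642280879)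 (nat_lit 152) (nat_lit 304559735343) (nat_lit 0) (nat_lit 241106638471) (nat_lit 1) (nat_lit 5) (nat_lit 3) (nat_lit 4) (nat_lit 1) (nat_lit 4) (nat_lit 386) (nat_lit 264) (nat_lit 250))) (XT.nd (nat_lit 78) (nat_lit 0) (nat_lit 0) (XT.lf (nat_lit 0) (nat_lit 261934379890) (nat_lit 152) (nat_lit 326898328939) (nat_lit 0) (nat_lit 261378255680) (nat_lit 1) (nat_lit 5) (nat_lit 3) (nat_lit 4) (nat_lit 1) (nat_lit 4) (nat_lit 387) (nat_lit 264) (nat_lit 249)) (XT.nd (nat_lit 78) (nat_lit 0) (nat_lit 0) (XT.lf (nat_lit 0) (nat_lit 283819757925) (nat_lit 152) (nat_lit 351083448818) (nat_lit 0) (nat_lit 283244669085) (nat_lit 1) (nat_lit 5) (nat_lit 3) (nat_lit 4) (nat_lit 1) (nat_lit 4) (nat_lit 388) (nat_lit 264) (nat_lit 248)) (XT.lf (nat_lit 0) (nat_lit 307428106115) (nat_lit 152) (nat_lit 377258414212) (nat_lit 0) (nat_lit 306835457430) (nat_lit 1) (nat_lit 5) (nat_lit 3) (nat_lit 4) (nat_lit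 1) (nat_lit 4) (nat_lit 389) (nat_lit 264) (nat_lit 247))))))))
noncomputable def xc14 : XT := (XT.nd (nat_lit 1326) (nat_lit 0) (nat_lit 0) (XT.nd (nat_lit 624) (nat_lit 0) (nat_lit 0) (XT.nd (nat_lit 312) (nat_lit 0) (nat_lit 0) (XT.nd (nat_lit 156) (nat_lit 0) (nat_lit 0) (XT.nd (nat_lit 78) (nat_lit 0) (nat_lit 0) (XT.lf (nat_lit 0) (nat_lit 332899325780) (nat_lit 152) (nat_lit 405578336024) (nat_lit 0) (nat_lit 332290417981) (nat_lit 1) (nat_lit 5) (nat_lit 3) (nat_lit 4) (nat_lit 1) (nat_lit 4) (nat_lit 390) (nat_lit 264) (nat_lit 246)) (XT.lf (nat_lit 0) (nat_lit 360384357483) (nat_lit 152) (nat_lit 436211036016) (nat_lit 0) (nat_lit 359760394948) (nat_lit 1) (nat_lit 5) (nat_lit 3) (nat_lit 4) (nat_lit 1) (nat_lit 4) (nat_lit 391) (nat_lit 264) (nat_lit 245))) (XT.nd (nat_lit 78) (nat_lit 0) (nat_lit 0) (XT.lf (nat_lit 0) (nat_lit 390046075485) (nat_lit 152) (nat_lit 469338041296)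 (nat_lit 0) (nat_lit 389408173380) (nat_lit 1) (nat_lit 5) (nat_lit 3) (nat_lit 4) (nat_lit 1) (nat_lit 4) (nat_lit 392) (nat_lit 264) (nat_lit 244)) (XT.lf (nat_lit 0) (nat_lit 422060252930) (nat_lit 152) (nat_lit 505155660046) (nat_lit 0) (nat_lit 421409443816) (nat_lit 1) (nat_lit 5) (nat_lit 3) (nat_lit 4) (nat_lit 1) (nat_lit 4) (nat_lit 393) (nat_lit 264) (nat_lit 243)))) (XT.nd (nat_lit 156) (nat_lit 0) (nat_lit 0) (XT.nd (nat_lit 78) (nat_lit 0) (nat_lit 0) (XT.lf (nat_lit 0) (nat_lit 456616603461) (nat_lit 152) (nat_lit 543876144820) (nat_lit 0) (nat_lit 455953843413) (nat_lit 1) (nat_lit 5) (nat_lit 3) (nat_lit 4) (nat_lit 1) (nat_lit 4) (nat_lit 394) (nat_lit 264) (nat_lit 242)) (XT.lf (nat_lit 0) (nat_lit 493919905454) (nat_lit 152) (nat_lit 585728950343) (nat_lit 0) (nat_lit 493246079726) (nat_lit 1) (nat_lit 5) (nat_lit 3) (nat_lit 4) (nat_lit 1) (nat_lit 4) (nat_lit 395)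 (nat_lit 264) (nat_lit 241))) (XT.nd (nat_lit 78) (nat_lit 0) (nat_lit 0) (XT.lf (nat_lit 0) (nat_lit 534191215511) (nat_lit 152) (nat_lit 630962093241) (nat_lit 0) (nat_lit 533507143783) (nat_lit 1) (nat_lit 5) (nat_lit 3) (nat_lit 4) (nat_lit 1) (nat_lit 4) (nat_lit 396) (nat_lit 264) (nat_lit 240)) (XT.lf (nat_lit 0) (nat_lit 577669178434) (nat_lit 152) (nat_lit 679843621767) (nat_lit 0) (nat_lit 576975619668) (nat_lit 1) (nat_lit 5) (nat_lit 3) (nat_lit 4) (nat_lit 1) (nat_lit 4) (nat_lit 397) (nat_lit 264) (nat_lit 239))))) (XT.nd (nat_lit 312) (nat_lit 0) (nat_lit 0) (XT.nd (nat_lit 156) (nat_lit 0) (nat_lit 0) (XT.nd (nat_lit 78) (nat_lit 0) (nat_lit 0) (XT.lf (nat_lit 0) (nat_lit 624611441410) (nat_lit 152) (nat_lit 732663204239) (nat_lit 0) (nat_lit 623909098350) (nat_lit 1) (nat_lit 5) (nat_lit 3) (nat_lit 4) (nat_lit 1) (nat_lit 4) (nat_lit 398) (nat_lit 264) (nat_lit 238))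 (XT.lf (nat_lit 0) (nat_lit 675296180811) (nat_lit 152) (nat_lit 789733845589) (nat_lit 0) (nat_lit 674585704147) (nat_lit 1) (nat_lit 5) (nat_lit 3) (nat_lit 4) (nat_lit 1) (nat_lit 4) (nat_lit 399) (nat_lit 264) (nat_lit 237))) (XT.nd (nat_lit 78) (nat_lit 0) (nat_lit 0) (XT.lf (nat_lit 0) (nat_lit 730023750651) (nat_lit 152) (nat_lit 851393742212) (nat_lit 0) (nat_lit 729305742870) (nat_lit 1) (nat_lit 5) (nat_lit 3) (nat_lit 4) (nat_lit 1) (nat_lit 4) (nat_lit 400) (nat_lit 264) (nat_lit 236)) (XT.lf (nat_lit 0) (nat_lit 789118462452) (nat_lit 152) (nat_lit 918008286087) (nat_lit 0) (nat_lit 788393481417) (nat_lit 1) (nat_lit 5) (nat_lit 3) (nat_lit 4) (nat_lit 1) (nat_lit 4) (nat_lit 401) (nat_lit 264) (nat_lit 235)))) (XT.nd (nat_lit 156) (nat_lit 0) (nat_lit 0) (XT.nd (nat_lit 78) (nat_lit 0) (nat_lit 0) (XT.lf (nat_lit 0) (nat_lit 852930507101) (nat_lit 152) (nat_lit 989972230067)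 (nat_lit 0) (nat_lit 852199069347) (nat_lit 1) (nat_lit 5) (nat_lit 3) (nat_lit 4) (nat_lit 1) (nat_lit 4) (nat_lit 402) (nat_lit 264) (nat_lit 234)) (XT.lf (nat_lit 0) (nat_lit 921838030047) (nat_lit 152) (nat_lit 1067712027153) (nat_lit 0) (nat_lit 921100613850) (nat_lit 1) (nat_lit 5) (nat_lit 3) (nat_lit 4) (nat_lit 1) (nat_lit 4) (nat_lit 403) (nat_lit 264) (nat_lit 233))) (XT.nd (nat_lit 78) (nat_lit 0) (nat_lit 0) (XT.lf (nat_lit 0) (nat_lit 996249372166) (nat_lit 152) (nat_lit 1151688357624) (nat_lit 0) (nat_lit 995506420375) (nat_lit 1) (nat_lit 5) (nat_lit 3) (nat_lit 4) (nat_lit 1) (nat_lit 4) (nat_lit 404) (nat_lit 264) (nat_lit 232)) (XT.nd (nat_lit 78) (nat_lit 0) (nat_lit 0) (XT.lf (nat_lit 0) (nat_lit 1076605489561) (nat_lit 152) (nat_lit 1242398858994) (nat_lit 0) (nat_lit 1075857412218) (nat_lit 1) (nat_lit 5) (nat_lit 3) (nat_lit 4) (nat_lit 1) (nat_lit 4) (nat_lit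 405) (nat_lit 264) (nat_lit 231)) (XT.lf (nat_lit 0) (nat_lit 1163382566630) (nat_lit 152) (nat_lit 1340381074975) (nat_lit 0) (nat_lit 1162629743407) (nat_lit 1) (nat_lit 5) (nat_lit 3) (nat_lit 4) (nat_lit 1) (nat_lit 4) (nat_lit 406) (nat_lit 264) (nat_lit 230))))))) (XT.nd (nat_lit 624) (nat_lit 0) (nat_lit 0) (XT.nd (nat_lit 312) (nat_lit 0) (nat_lit 0) (XT.nd (nat_lit 156) (nat_lit 0) (nat_lit 0) (XT.nd (nat_lit 78) (nat_lit 0) (nat_lit 0) (XT.lf (nat_lit 0) (nat_lit 1257094837904) (nat_lit 152) (nat_lit 1446215640920) (nat_lit 0) (nat_lit 1256337620347) (nat_lit 1) (nat_lit 5) (nat_lit 3) (nat_lit 4) (nat_lit 1) (nat_lit 4) (nat_lit 407) (nat_lit 264) (nat_lit 229)) (XT.lf (nat_lit 0) (nat_lit 1358297635361) (nat_lit 152) (nat_lit 1560529724629) (nat_lit 0) (nat_lit 1357536348977) (nat_lit 1) (nat_lit 5) (nat_lit 3) (nat_lit 4) (nat_lit 1) (nat_lit 4) (nat_lit 408) (nat_lit 264)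 (nat_lit 228))) (XT.nd (nat_lit 78) (nat_lit 0) (nat_lit 0) (XT.lf (nat_lit 0) (nat_lit 1467590679283) (nat_lit 152) (nat_lit 1684000742893) (nat_lit 0) (nat_lit 1466825625466) (nat_lit 1) (nat_lit 5) (nat_lit 3) (nat_lit 4) (nat_lit 1) (nat_lit 4) (nat_lit 409) (nat_lit 264) (nat_lit 227)) (XT.lf (nat_lit 0) (nat_lit 1585621632152) (nat_lit 152) (nat_lit 1817360375820) (nat_lit 0) (nat_lit 1584853089971) (nat_lit 1) (nat_lit 5) (nat_lit 3) (nat_lit 4) (nat_lit 1) (nat_lit 4) (nat_lit 410) (nat_lit 264) (nat_lit 226)))) (XT.nd (nat_lit 156) (nat_lit 0) (nat_lit 0) (XT.nd (nat_lit 78) (nat_lit 0) (nat_lit 0) (XT.lf (nat_lit 0) (nat_lit 1713089936651) (nat_lit 152) (nat_lit 1961398902717) (nat_lit 0) (nat_lit 1712318164503) (nat_lit 1) (nat_lit 5) (nat_lit 3) (nat_lit 4) (nat_lit 1) (nat_lit 4) (nat_lit 411) (nat_lit 264) (nat_lit 225)) (XT.lf (nat_lit 0) (nat_lit 1850750960511) (nat_lit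 152) (nat_lit 2116969885225) (nat_lit 0) (nat_lit 1849976197654) (nat_lit 1) (nat_lit 5) (nat_lit 3) (nat_lit 4) (nat_lit 1) (nat_lit 4) (nat_lit 412) (nat_lit 264) (nat_lit 224))) (XT.nd (nat_lit 78) (nat_lit 0) (nat_lit 0) (XT.lf (nat_lit 0) (nat_lit 1999420472763) (nat_lit 152) (nat_lit 2284995225462) (nat_lit 0) (nat_lit 1998642940730) (nat_lit 1) (nat_lit 5) (nat_lit 3) (nat_lit 4) (nat_lit 1) (nat_lit 4) (nat_lit 413) (nat_lit 264) (nat_lit 223)) (XT.lf (nat_lit 0) (nat_lit 2159979477922) (nat_lit 152) (nat_lit 2466470629149) (nat_lit 0) (nat_lit 2159199381838) (nat_lit 1) (nat_lit 5) (nat_lit 3) (nat_lit 4) (nat_lit 1) (nat_lit 4) (nat_lit 414) (nat_lit 264) (nat_lit 222))))) (XT.nd (nat_lit 43602) (nat_lit 0) (nat_lit 0) (XT.nd (nat_lit 43446) (nat_lit 0) (nat_lit 0) (XT.nd (nat_lit 43368) (nat_lit 0) (nat_lit 0) (XT.lf (nat_lit 0) (nat_lit 2333379436762) (nat_lit 152) (nat_lit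 2662471506084) (nat_lit 0) (nat_lit 2332596966555) (nat_lit 1) (nat_lit 5) (nat_lit 3) (nat_lit 4) (nat_lit 1) (nat_lit 4) (nat_lit 415) (nat_lit 264) (nat_lit 221)) (XT.lf (nat_lit 0) (nat_lit 28738390155) (nat_lit 152) (nat_lit 57977206293) (nat_lit 0) (nat_lit 28738390155) (nat_lit 1) (nat_lit 5) (nat_lit 3) (nat_lit 4) (nat_lit 1) (nat_lit 4) (nat_lit 370) (nat_lit 265) (nat_lit 265))) (XT.nd (nat_lit 78) (nat_lit 0) (nat_lit 0) (XT.lf (nat_lit 0) (nat_lit 63962335903) (nat_lit 152) (nat_lit 121363679337) (nat_lit 0) (nat_lit 63897364165) (nat_lit 1) (nat_lit 5) (nat_lit 3) (nat_lit 4) (nat_lit 1) (nat_lit 4) (nat_lit 371) (nat_lit 265) (nat_lit 264)) (XT.lf (nat_lit 0) (nat_lit 70871288875) (nat_lit 152) (nat_lit 127394237344) (nat_lit 0) (nat_lit 70746158120) (nat_lit 1) (nat_lit 5) (nat_lit 3) (nat_lit 4) (nat_lit 1) (nat_lit 4) (nat_lit 372) (nat_lit 265) (nat_lit 263)))) (XT.nd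 (nat_lit 156) (nat_lit 0) (nat_lit 0) (XT.nd (nat_lit 78) (nat_lit 0) (nat_lit 0) (XT.lf (nat_lit 0) (nat_lit 78244581171) (nat_lit 152) (nat_lit 134081823247) (nat_lit 0) (nat_lit 78063747622) (nat_lit 1) (nat_lit 5) (nat_lit 3) (nat_lit 4) (nat_lit 1) (nat_lit 4) (nat_lit 373) (nat_lit 265) (nat_lit 262)) (XT.lf (nat_lit 0) (nat_lit 86125906374) (nat_lit 152) (nat_lit 141466067185) (nat_lit 0) (nat_lit 85893496165) (nat_lit 1) (nat_lit 5) (nat_lit 3) (nat_lit 4) (nat_lit 1) (nat_lit 4) (nat_lit 374) (nat_lit 265) (nat_lit 261))) (XT.nd (nat_lit 78) (nat_lit 0) (nat_lit 0) (XT.lf (nat_lit 0) (nat_lit 94561968634) (nat_lit 152) (nat_lit 149590727640) (nat_lit 0) (nat_lit 94281802257) (nat_lit 1) (nat_lit 5) (nat_lit 3) (nat_lit 4) (nat_lit 1) (nat_lit 4) (nat_lit 375) (nat_lit 265) (nat_lit 260)) (XT.nd (nat_lit 78) (nat_lit 0) (nat_lit 0) (XT.lf (nat_lit 0) (nat_lit 103602759431) (nat_lit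 152) (nat_lit 158503950749) (nat_lit 0) (nat_lit 103278374381) (nat_lit 1) (nat_lit 5) (nat_lit 3) (nat_lit 4) (nat_lit 1) (nat_lit 4) (nat_lit 376) (nat_lit 265) (nat_lit 259)) (XT.lf (nat_lit 0) (nat_lit 113301853821) (nat_lit 152) (nat_lit 168258555610) (nat_lit 0) (nat_lit 112936525554) (nat_lit 1) (nat_lit 5) (nat_lit 3) (nat_lit 4) (nat_lit 1) (nat_lit 4) (nat_lit 377) (nat_lit 265) (nat_lit 258))))))))
noncomputable def xc15 : XT := (XT.nd (nat_lit 1326) (nat_lit 0) (nat_lit 0) (XT.nd (nat_lit 624) (nat_lit 0) (nat_lit 0) (XT.nd (nat_lit 312) (nat_lit 0) (nat_lit 0) (XT.nd (nat_lit 156) (nat_lit 0) (nat_lit 0) (XT.nd (nat_lit 78) (nat_lit 0) (nat_lit 0) (XT.lf (nat_lit 0) (nat_lit 123716727919) (nat_lit 152) (nat_lit 178912347291) (nat_lit 0) (nat_lit 123313489267) (nat_lit 1) (nat_lit 5) (nat_lit 3) (nat_lit 4) (nat_lit 1) (nat_lit 4) (nat_lit 378) (nat_lit 265) (nat_lit 257))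 (XT.lf (nat_lit 0) (nat_lit 134909099498) (nat_lit 152) (nat_lit 190528459371) (nat_lit 0) (nat_lit 134470758638) (nat_lit 1) (nat_lit 5) (nat_lit 3) (nat_lit 4) (nat_lit 1) (nat_lit 4) (nat_lit 379) (nat_lit 265) (nat_lit 256))) (XT.nd (nat_lit 78) (nat_lit 0) (nat_lit 0) (XT.lf (nat_lit 0) (nat_lit 146945293722) (nat_lit 152) (nat_lit 203175728070) (nat_lit 0) (nat_lit 146474450817) (nat_lit 1) (nat_lit 5) (nat_lit 3) (nat_lit 4) (nat_lit 1) (nat_lit 4) (nat_lit 380) (nat_lit 265) (nat_lit 255)) (XT.lf (nat_lit 0) (nat_lit 159896636188) (nat_lit 152) (nat_lit 216929100166) (nat_lit 0) (nat_lit 159395698797) (nat_lit 1) (nat_lit 5) (nat_lit 3) (nat_lit 4) (nat_lit 1) (nat_lit 4) (nat_lit 381) (nat_lit 265) (nat_lit 254)))) (XT.nd (nat_lit 156) (nat_lit 0) (nat_lit 0) (XT.nd (nat_lit 78) (nat_lit 0) (nat_lit 0) (XT.lf (nat_lit 0) (nat_lit 173839875590) (nat_lit 152) (nat_lit 231870077123)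 (nat_lit 0) (nat_lit 173311072934) (nat_lit 1) (nat_lit 5) (nat_lit 3) (nat_lit 4) (nat_lit 1) (nat_lit 4) (nat_lit 382) (nat_lit 265) (nat_lit 253)) (XT.lf (nat_lit 0) (nat_lit 188857638534) (nat_lit 152) (nat_lit 248087198064) (nat_lit 0) (nat_lit 188303034707) (nat_lit 1) (nat_lit 5) (nat_lit 3) (nat_lit 4) (nat_lit 1) (nat_lit 4) (nat_lit 383) (nat_lit 265) (nat_lit 252))) (XT.nd (nat_lit 78) (nat_lit 0) (nat_lit 0) (XT.lf (nat_lit 0) (nat_lit 205038919169) (nat_lit 152) (nat_lit 265676564445) (nat_lit 0) (nat_lit 204460425369) (nat_lit 1) (nat_lit 5) (nat_lit 3) (nat_lit 4) (nat_lit 1) (nat_lit 4) (nat_lit 384) (nat_lit 265) (nat_lit 251)) (XT.lf (nat_lit 0) (nat_lit 222479606567) (nat_lit 152) (nat_lit 284742409550) (nat_lit 0) (nat_lit 221878992420) (nat_lit 1) (nat_lit 5) (nat_lit 3) (nat_lit 4) (nat_lit 1) (nat_lit 4) (nat_lit 385) (nat_lit 265) (nat_lit 250))))) (XT.nd (nat_lit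 312) (nat_lit 0) (nat_lit 0) (XT.nd (nat_lit 156) (nat_lit 0) (nat_lit 0) (XT.nd (nat_lit 78) (nat_lit 0) (nat_lit 0) (XT.lf (nat_lit 0) (nat_lit 241283052948) (nat_lit 152) (nat_lit 305397716164) (nat_lit 0) (nat_lit 240661957000) (nat_lit 1) (nat_lit 5) (nat_lit 3) (nat_lit 4) (nat_lit 1) (nat_lit 4) (nat_lit 386) (nat_lit 265) (nat_lit 249)) (XT.lf (nat_lit 0) (nat_lit 261560686144) (nat_lit 152) (nat_lit 327764886103) (nat_lit 0) (nat_lit 260920625564) (nat_lit 1) (nat_lit 5) (nat_lit 3) (nat_lit 4) (nat_lit 1) (nat_lit 4) (nat_lit 387) (nat_lit 265) (nat_lit 248))) (XT.nd (nat_lit 78) (nat_lit 0) (nat_lit 0) (XT.lf (nat_lit 0) (nat_lit 283432669905) (nat_lit 152) (nat_lit 351976465562) (nat_lit 0) (nat_lit 282775049483) (nat_lit 1) (nat_lit 5) (nat_lit 3) (nat_lit 4) (nat_lit 1) (nat_lit 4) (nat_lit 388) (nat_lit 265) (nat_lit 247)) (XT.lf (nat_lit 0) (nat_lit 307028615989) (nat_lit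 152) (nat_lit 378175930564) (nat_lit 0) (nat_lit 306354736452) (nat_lit 1) (nat_lit 5) (nat_lit 3) (nat_lit 4) (nat_lit 1) (nat_lit 4) (nat_lit 389) (nat_lit 265) (nat_lit 246)))) (XT.nd (nat_lit 156) (nat_lit 0) (nat_lit 0) (XT.nd (nat_lit 78) (nat_lit 0) (nat_lit 0) (XT.lf (nat_lit 0) (nat_lit 332488352224) (nat_lit 152) (nat_lit 406518537201) (nat_lit 0) (nat_lit 331799417951) (nat_lit 1) (nat_lit 5) (nat_lit 3) (nat_lit 4) (nat_lit 1) (nat_lit 4) (nat_lit 390) (nat_lit 265) (nat_lit 245)) (XT.lf (nat_lit 0) (nat_lit 359962751121) (nat_lit 152) (nat_lit 437172241659) (nat_lit 0) (nat_lit 359259877278) (nat_lit 1) (nat_lit 5) (nat_lit 3) (nat_lit 4) (nat_lit 1) (nat_lit 4) (nat_lit 391) (nat_lit 265) (nat_lit 244))) (XT.nd (nat_lit 78) (nat_lit 0) (nat_lit 0) (XT.lf (nat_lit 0) (nat_lit 389614623932) (nat_lit 152) (nat_lit 470318695519) (nat_lit 0) (nat_lit 388898843080) (nat_lit 1)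 (nat_lit 5) (nat_lit 3) (nat_lit 4) (nat_lit 1) (nat_lit 4) (nat_lit 392) (nat_lit 265) (nat_lit 243)) (XT.nd (nat_lit 78) (nat_lit 0) (nat_lit 0) (XT.lf (nat_lit 0) (nat_lit 421619685459) (nat_lit 152) (nat_lit 506154322213) (nat_lit 0) (nat_lit 420891953672) (nat_lit 1) (nat_lit 5) (nat_lit 3) (nat_lit 4) (nat_lit 1) (nat_lit 4) (nat_lit 393) (nat_lit 265) (nat_lit 242)) (XT.lf (nat_lit 0) (nat_lit 456167595326) (nat_lit 152) (nat_lit 544891481010) (nat_lit 0) (nat_lit 455428797860) (nat_lit 1) (nat_lit 5) (nat_lit 3) (nat_lit 4) (nat_lit 1) (nat_lit 4) (nat_lit 394) (nat_lit 265) (nat_lit 241))))))) (XT.nd (nat_lit 702) (nat_lit 0) (nat_lit 0) (XT.nd (nat_lit 312) (nat_lit 0) (nat_lit 0) (XT.nd (nat_lit 156) (nat_lit 0) (nat_lit 0) (XT.nd (nat_lit 78) (nat_lit 0) (nat_lit 0) (XT.lf (nat_lit 0) (nat_lit 493463081889) (nat_lit 152) (nat_lit 586759725443) (nat_lit 0) (nat_lit 492714038422)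 (nat_lit 1) (nat_lit 5) (nat_lit 3) (nat_lit 4) (nat_lit 1) (nat_lit 4) (nat_lit 395) (nat_lit 265) (nat_lit 240)) (XT.lf (nat_lit 0) (nat_lit 533727155437) (nat_lit 152) (nat_lit 632007163628) (nat_lit 0) (nat_lit 532968624933) (nat_lit 1) (nat_lit 5) (nat_lit 3) (nat_lit 4) (nat_lit 1) (nat_lit 4) (nat_lit 396) (nat_lit 265) (nat_lit 239))) (XT.nd (nat_lit 78) (nat_lit 0) (nat_lit 0) (XT.lf (nat_lit 0) (nat_lit 577198417888) (nat_lit 152) (nat_lit 680901928530) (nat_lit 0) (nat_lit 576431103090) (nat_lit 1) (nat_lit 5) (nat_lit 3) (nat_lit 4) (nat_lit 1) (nat_lit 4) (nat_lit 397) (nat_lit 265) (nat_lit 238)) (XT.lf (nat_lit 0) (nat_lit 624134476723) (nat_lit 152) (nat_lit 733733766907) (nat_lit 0) (nat_lit 623359028321) (nat_lit 1) (nat_lit 5) (nat_lit 3) (nat_lit 4) (nat_lit 1) (nat_lit 4) (nat_lit 398) (nat_lit 265) (nat_lit 237)))) (XT.nd (nat_lit 156) (nat_lit 0) (nat_lit 0) (XT.nd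 (nat_lit 78) (nat_lit 0) (nat_lit 0) (XT.lf (nat_lit 0) (nat_lit 674813471551) (nat_lit 152) (nat_lit 790815756317) (nat_lit 0) (nat_lit 674030492032) (nat_lit 1) (nat_lit 5) (nat_lit 3) (nat_lit 4) (nat_lit 1) (nat_lit 4) (nat_lit 399) (nat_lit 265) (nat_lit 236)) (XT.lf (nat_lit 0) (nat_lit 729535722340) (nat_lit 152) (nat_lit 852486160403) (nat_lit 0) (nat_lit 728745769565) (nat_lit 1) (nat_lit 5) (nat_lit 3) (nat_lit 4) (nat_lit 1) (nat_lit 4) (nat_lit 400) (nat_lit 265) (nat_lit 235))) (XT.nd (nat_lit 78) (nat_lit 0) (nat_lit 0) (XT.lf (nat_lit 0) (nat_lit 788625509095) (nat_lit 152) (nat_lit 919110433410) (nat_lit 0) (nat_lit 787829099602) (nat_lit 1) (nat_lit 5) (nat_lit 3) (nat_lit 4) (nat_lit 1) (nat_lit 4) (nat_lit 401) (nat_lit 265) (nat_lit 234)) (XT.nd (nat_lit 78) (nat_lit 0) (nat_lit 0) (XT.lf (nat_lit 0) (nat_lit 852432993515) (nat_lit 152) (nat_lit 991083385845) (nat_lit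 0) (nat_lit 851630605580) (nat_lit 1) (nat_lit 5) (nat_lit 3) (nat_lit 4) (nat_lit 1) (nat_lit 4) (nat_lit 402) (nat_lit 265) (nat_lit 233)) (XT.lf (nat_lit 0) (nat_lit 921336294027) (nat_lit 152) (nat_lit 1068831524094) (nat_lit 0) (nat_lit 920528370497) (nat_lit 1) (nat_lit 5) (nat_lit 3) (nat_lit 4) (nat_lit 1) (nat_lit 4) (nat_lit 403) (nat_lit 265) (nat_lit 232)))))) (XT.nd (nat_lit 312) (nat_lit 0) (nat_lit 0) (XT.nd (nat_lit 156) (nat_lit 0) (nat_lit 0) (XT.nd (nat_lit 78) (nat_lit 0) (nat_lit 0) (XT.lf (nat_lit 0) (nat_lit 995743726486) (nat_lit 152) (nat_lit 1152815577863) (nat_lit 0) (nat_lit 994930677405) (nat_lit 1) (nat_lit 5) (nat_lit 3) (nat_lit 4) (nat_lit 1) (nat_lit 4) (nat_lit 404) (nat_lit 265) (nat_lit 231)) (XT.lf (nat_lit 0) (nat_lit 1076096223824) (nat_lit 152) (nat_lit 1243533230436) (nat_lit 0) (nat_lit 1075278428863) (nat_lit 1) (nat_lit 5) (nat_lit 3) (nat_lit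 4) (nat_lit 1) (nat_lit 4) (nat_lit 405) (nat_lit 265) (nat_lit 230))) (XT.nd (nat_lit 78) (nat_lit 0) (nat_lit 0) (XT.lf (nat_lit 0) (nat_lit 1162869948989) (nat_lit 152) (nat_lit 1341522067900) (nat_lit 0) (nat_lit 1162047759694) (nat_lit 1) (nat_lit 5) (nat_lit 3) (nat_lit 4) (nat_lit 1) (nat_lit 4) (nat_lit 406) (nat_lit 265) (nat_lit 229)) (XT.lf (nat_lit 0) (nat_lit 1256579116648) (nat_lit 152) (nat_lit 1447362764849) (nat_lit 0) (nat_lit 1255752858526) (nat_lit 1) (nat_lit 5) (nat_lit 3) (nat_lit 4) (nat_lit 1) (nat_lit 4) (nat_lit 407) (nat_lit 265) (nat_lit 228)))) (XT.nd (nat_lit 156) (nat_lit 0) (nat_lit 0) (XT.nd (nat_lit 78) (nat_lit 0) (nat_lit 0) (XT.lf (nat_lit 0) (nat_lit 1357779040388) (nat_lit 152) (nat_lit 1561682525413) (nat_lit 0) (nat_lit 1356949014833) (nat_lit 1) (nat_lit 5) (nat_lit 3) (nat_lit 4) (nat_lit 1) (nat_lit 4) (nat_lit 408) (nat_lit 265) (nat_lit 227))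 (XT.lf (nat_lit 0) (nat_lit 1467069423461) (nat_lit 152) (nat_lit 1685158800024) (nat_lit 0) (nat_lit 1466235909541) (nat_lit 1) (nat_lit 5) (nat_lit 3) (nat_lit 4) (nat_lit 1) (nat_lit 4) (nat_lit 409) (nat_lit 265) (nat_lit 226))) (XT.nd (nat_lit 78) (nat_lit 0) (nat_lit 0) (XT.lf (nat_lit 0) (nat_lit 1585097912580) (nat_lit 152) (nat_lit 1818523299940) (nat_lit 0) (nat_lit 1584261168694) (nat_lit 1) (nat_lit 5) (nat_lit 3) (nat_lit 4) (nat_lit 1) (nat_lit 4) (nat_lit 410) (nat_lit 265) (nat_lit 225)) (XT.nd (nat_lit 78) (nat_lit 0) (nat_lit 0) (XT.lf (nat_lit 0) (nat_lit 1712563935830) (nat_lit 152) (nat_lit 1962566333308) (nat_lit 0) (nat_lit 1711724201234) (nat_lit 1) (nat_lit 5) (nat_lit 3) (nat_lit 4) (nat_lit 1) (nat_lit 4) (nat_lit 411) (nat_lit 265) (nat_lit 224)) (XT.lf (nat_lit 0) (nat_lit 1850222847422) (nat_lit 152) (nat_lit 2118141488474) (nat_lit 0) (nat_lit 1849380343650)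 (nat_lit 1) (nat_lit 5) (nat_lit 3) (nat_lit 4) (nat_lit 1) (nat_lit 4) (nat_lit 412) (nat_lit 265) (nat_lit 223))))))))
noncomputable def xc16 : XT := (XT.nd (nat_lit 44460) (nat_lit 0) (nat_lit 0) (XT.nd (nat_lit 43758) (nat_lit 0) (nat_lit 0) (XT.nd (nat_lit 43446) (nat_lit 0) (nat_lit 0) (XT.nd (nat_lit 156) (nat_lit 0) (nat_lit 0) (XT.nd (nat_lit 78) (nat_lit 0) (nat_lit 0) (XT.lf (nat_lit 0) (nat_lit 1998890403869) (nat_lit 152) (nat_lit 2286170692283) (nat_lit 0) (nat_lit 1998045336046) (nat_lit 1) (nat_lit 5) (nat_lit 3) (nat_lit 4) (nat_lit 1) (nat_lit 4) (nat_lit 413) (nat_lit 265) (nat_lit 222)) (XT.lf (nat_lit 0) (nat_lit 2159447598100) (nat_lit 152) (nat_lit 2467649673351) (nat_lit 0) (nat_lit 2158600156155) (nat_lit 1) (nat_lit 5) (nat_lit 3) (nat_lit 4) (nat_lit 1) (nat_lit 4) (nat_lit 414) (nat_lit 265) (nat_lit 221))) (XT.nd (nat_lit 43212) (nat_lit 0) (nat_lit 0) (XT.lf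 (nat_lit 0) (nat_lit 2332845880152) (nat_lit 152) (nat_lit 2663653862677) (nat_lit 0) (nat_lit 2331996239947) (nat_lit 1) (nat_lit 5) (nat_lit 3) (nat_lit 4) (nat_lit 1) (nat_lit 4) (nat_lit 415) (nat_lit 265) (nat_lit 220)) (XT.lf (nat_lit 0) (nat_lit 22874052052) (nat_lit 152) (nat_lit 53384645987) (nat_lit 0) (nat_lit 22874052052) (nat_lit 1) (nat_lit 5) (nat_lit 3) (nat_lit 4) (nat_lit 1) (nat_lit 4) (nat_lit 368) (nat_lit 266) (nat_lit 266)))) (XT.nd (nat_lit 156) (nat_lit 0) (nat_lit 0) (XT.nd (nat_lit 78) (nat_lit 0) (nat_lit 0) (XT.lf (nat_lit 0) (nat_lit 51446358653) (nat_lit 152) (nat_lit 111134382177) (nat_lit 0) (nat_lit 51376189176) (nat_lit 1) (nat_lit 5) (nat_lit 3) (nat_lit 4) (nat_lit 1) (nat_lit 4) (nat_lit 369) (nat_lit 266) (nat_lit 265)) (XT.lf (nat_lit 0) (nat_lit 57497390734) (nat_lit 152) (nat_lit 116052313504) (nat_lit 0) (nat_lit 57362249518) (nat_lit 1) (nat_lit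 5) (nat_lit 3) (nat_lit 4) (nat_lit 1) (nat_lit 4) (nat_lit 370) (nat_lit 266) (nat_lit 264))) (XT.nd (nat_lit 78) (nat_lit 0) (nat_lit 0) (XT.lf (nat_lit 0) (nat_lit 63937058313) (nat_lit 152) (nat_lit 121552229253) (nat_lit 0) (nat_lit 63741758080) (nat_lit 1) (nat_lit 5) (nat_lit 3) (nat_lit 4) (nat_lit 1) (nat_lit 4) (nat_lit 371) (nat_lit 266) (nat_lit 263)) (XT.lf (nat_lit 0) (nat_lit 70803522384) (nat_lit 152) (nat_lit 127666721518) (nat_lit 0) (nat_lit 70552519358) (nat_lit 1) (nat_lit 5) (nat_lit 3) (nat_lit 4) (nat_lit 1) (nat_lit 4) (nat_lit 372) (nat_lit 266) (nat_lit 262))))) (XT.nd (nat_lit 312) (nat_lit 0) (nat_lit 0) (XT.nd (nat_lit 156) (nat_lit 0) (nat_lit 0) (XT.nd (nat_lit 78) (nat_lit 0) (nat_lit 0) (XT.lf (nat_lit 0) (nat_lit 78137473105) (nat_lit 152) (nat_lit 134432024326) (nat_lit 0) (nat_lit 77834893418) (nat_lit 1) (nat_lit 5) (nat_lit 3) (nat_lit 4) (nat_lit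 1) (nat_lit 4) (nat_lit 373) (nat_lit 266) (nat_lit 261)) (XT.lf (nat_lit 0) (nat_lit 85982370924) (nat_lit 152) (nat_lit 141888228361) (nat_lit 0) (nat_lit 85632035069) (nat_lit 1) (nat_lit 5) (nat_lit 3) (nat_lit 4) (nat_lit 1) (nat_lit 4) (nat_lit 374) (nat_lit 266) (nat_lit 260))) (XT.nd (nat_lit 78) (nat_lit 0) (nat_lit 0) (XT.lf (nat_lit 0) (nat_lit 94384704124) (nat_lit 152) (nat_lit 150079518535) (nat_lit 0) (nat_lit 93990149596) (nat_lit 1) (nat_lit 5) (nat_lit 3) (nat_lit 4) (nat_lit 1) (nat_lit 4) (nat_lit 375) (nat_lit 266) (nat_lit 259)) (XT.lf (nat_lit 0) (nat_lit 103394264310) (nat_lit 152) (nat_lit 159054435829) (nat_lit 0) (nat_lit 102958766566) (nat_lit 1) (nat_lit 5) (nat_lit 3) (nat_lit 4) (nat_lit 1) (nat_lit 4) (nat_lit 376) (nat_lit 266) (nat_lit 258)))) (XT.nd (nat_lit 156) (nat_lit 0) (nat_lit 0) (XT.nd (nat_lit 78) (nat_lit 0) (nat_lit 0) (XT.lf (nat_lit 0) (nat_lit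 113064441467) (nat_lit 152) (nat_lit 168866164936) (nat_lit 0) (nat_lit 112591033338) (nat_lit 1) (nat_lit 5) (nat_lit 3) (nat_lit 4) (nat_lit 1) (nat_lit 4) (nat_lit 377) (nat_lit 266) (nat_lit 257)) (XT.lf (nat_lit 0) (nat_lit 123452540351) (nat_lit 152) (nat_lit 179572849436) (nat_lit 0) (nat_lit 122944030013) (nat_lit 1) (nat_lit 5) (nat_lit 3) (nat_lit 4) (nat_lit 1) (nat_lit 4) (nat_lit 378) (nat_lit 266) (nat_lit 256))) (XT.nd (nat_lit 78) (nat_lit 0) (nat_lit 0) (XT.lf (nat_lit 0) (nat_lit 134620120064) (nat_lit 152) (nat_lit 191237936349) (nat_lit 0) (nat_lit 134079107681) (nat_lit 1) (nat_lit 5) (nat_lit 3) (nat_lit 4) (nat_lit 1) (nat_lit 4) (nat_lit 379) (nat_lit 266) (nat_lit 255)) (XT.nd (nat_lit 78) (nat_lit 0) (nat_lit 0) (XT.lf (nat_lit 0) (nat_lit 146633358857) (nat_lit 152) (nat_lit 203930552116) (nat_lit 0) (nat_lit 146062251988) (nat_lit 1) (nat_lit 5) (nat_lit 3)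 (nat_lit 4) (nat_lit 1) (nat_lit 4) (nat_lit 380) (nat_lit 266) (nat_lit 254)) (XT.lf (nat_lit 0) (nat_lit 159563446294) (nat_lit 152) (nat_lit 217725912238) (nat_lit 0) (nat_lit 158964474160) (nat_lit 1) (nat_lit 5) (nat_lit 3) (nat_lit 4) (nat_lit 1) (nat_lit 4) (nat_lit 381) (nat_lit 266) (nat_lit 253))))))) (XT.nd (nat_lit 624) (nat_lit 0) (nat_lit 0) (XT.nd (nat_lit 312) (nat_lit 0) (nat_lit 0) (XT.nd (nat_lit 156) (nat_lit 0) (nat_lit 0) (XT.nd (nat_lit 78) (nat_lit 0) (nat_lit 0) (XT.lf (nat_lit 0) (nat_lit 173487005114) (nat_lit 152) (nat_lit 232705766996) (nat_lit 0) (nat_lit 172862231809) (nat_lit 1) (nat_lit 5) (nat_lit 3) (nat_lit 4) (nat_lit 1) (nat_lit 4) (nat_lit 382) (nat_lit 266) (nat_lit 252)) (XT.lf (nat_lit 0) (nat_lit 188486545296) (nat_lit 152) (nat_lit 248958885901) (nat_lit 0) (nat_lit 187837882018) (nat_lit 1) (nat_lit 5) (nat_lit 3) (nat_lit 4) (nat_lit 1) (nat_lit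 4) (nat_lit 383) (nat_lit 266) (nat_lit 251))) (XT.nd (nat_lit 78) (nat_lit 0) (nat_lit 0) (XT.lf (nat_lit 0) (nat_lit 204650953004) (nat_lit 152) (nat_lit 266581583731) (nat_lit 0) (nat_lit 203980169380) (nat_lit 1) (nat_lit 5) (nat_lit 3) (nat_lit 4) (nat_lit 1) (nat_lit 4) (nat_lit 384) (nat_lit 266) (nat_lit 250)) (XT.lf (nat_lit 0) (nat_lit 222076017321) (nat_lit 152) (nat_lit 285678291288) (nat_lit 0) (nat_lit 221384751895) (nat_lit 1) (nat_lit 5) (nat_lit 3) (nat_lit 4) (nat_lit 1) (nat_lit 4) (nat_lit 385) (nat_lit 266) (nat_lit 249)))) (XT.nd (nat_lit 156) (nat_lit 0) (nat_lit 0) (XT.nd (nat_lit 78) (nat_lit 0) (nat_lit 0) (XT.lf (nat_lit 0) (nat_lit 240864997887) (nat_lit 152) (nat_lit 306362174246) (nat_lit 0) (nat_lit 240154767830) (nat_lit 1) (nat_lit 5) (nat_lit 3) (nat_lit 4) (nat_lit 1) (nat_lit 4) (nat_lit 386) (nat_lit 266) (nat_lit 248)) (XT.lf (nat_lit 0) (nat_lit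 261129236808) (nat_lit 152) (nat_lit 328755803764) (nat_lit 0) (nat_lit 260401446908) (nat_lit 1) (nat_lit 5) (nat_lit 3) (nat_lit 4) (nat_lit 1) (nat_lit 4) (nat_lit 387) (nat_lit 266) (nat_lit 247))) (XT.nd (nat_lit 78) (nat_lit 0) (nat_lit 0) (XT.lf (nat_lit 0) (nat_lit 282988818465) (nat_lit 152) (nat_lit 352991882832) (nat_lit 0) (nat_lit 282244769450) (nat_lit 1) (nat_lit 5) (nat_lit 3) (nat_lit 4) (nat_lit 1) (nat_lit 4) (nat_lit 388) (nat_lit 266) (nat_lit 246)) (XT.lf (nat_lit 0) (nat_lit 306573281118) (nat_lit 152) (nat_lit 379214032659) (nat_lit 0) (nat_lit 305814177368) (nat_lit 1) (nat_lit 5) (nat_lit 3) (nat_lit 4) (nat_lit 1) (nat_lit 4) (nat_lit 389) (nat_lit 266) (nat_lit 245))))) (XT.nd (nat_lit 312) (nat_lit 0) (nat_lit 0) (XT.nd (nat_lit 156) (nat_lit 0) (nat_lit 0) (XT.nd (nat_lit 78) (nat_lit 0) (nat_lit 0) (XT.lf (nat_lit 0) (nat_lit 332022384547) (nat_lit 152)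 (nat_lit 407577643762) (nat_lit 0) (nat_lit 331249341226) (nat_lit 1) (nat_lit 5) (nat_lit 3) (nat_lit 4) (nat_lit 1) (nat_lit 4) (nat_lit 390) (nat_lit 266) (nat_lit 244)) (XT.lf (nat_lit 0) (nat_lit 359486938252) (nat_lit 152) (nat_lit 438250796800) (nat_lit 0) (nat_lit 358700987923) (nat_lit 1) (nat_lit 5) (nat_lit 3) (nat_lit 4) (nat_lit 1) (nat_lit 4) (nat_lit 391) (nat_lit 266) (nat_lit 243))) (XT.nd (nat_lit 78) (nat_lit 0) (nat_lit 0) (XT.lf (nat_lit 0) (nat_lit 389129695146) (nat_lit 152) (nat_lit 471415258605) (nat_lit 0) (nat_lit 388331793882) (nat_lit 1) (nat_lit 5) (nat_lit 3) (nat_lit 4) (nat_lit 1) (nat_lit 4) (nat_lit 392) (nat_lit 266) (nat_lit 242)) (XT.lf (nat_lit 0) (nat_lit 421126316008) (nat_lit 152) (nat_lit 507267559321) (nat_lit 0) (nat_lit 420317349064) (nat_lit 1) (nat_lit 5) (nat_lit 3) (nat_lit 4) (nat_lit 1) (nat_lit 4) (nat_lit 393) (nat_lit 266) (nat_lit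 241)))) (XT.nd (nat_lit 156) (nat_lit 0) (nat_lit 0) (XT.nd (nat_lit 78) (nat_lit 0) (nat_lit 0) (XT.lf (nat_lit 0) (nat_lit 455666410446) (nat_lit 152) (nat_lit 546020157028) (nat_lit 0) (nat_lit 454847197502) (nat_lit 1) (nat_lit 5) (nat_lit 3) (nat_lit 4) (nat_lit 1) (nat_lit 4) (nat_lit 394) (nat_lit 266) (nat_lit 240)) (XT.lf (nat_lit 0) (nat_lit 492954660499) (nat_lit 152) (nat_lit 587902696748) (nat_lit 0) (nat_lit 492125960518) (nat_lit 1) (nat_lit 5) (nat_lit 3) (nat_lit 4) (nat_lit 1) (nat_lit 4) (nat_lit 395) (nat_lit 266) (nat_lit 239))) (XT.nd (nat_lit 78) (nat_lit 0) (nat_lit 0) (XT.lf (nat_lit 0) (nat_lit 533212033576) (nat_lit 152) (nat_lit 633163371309) (nat_lit 0) (nat_lit 532374549301) (nat_lit 1) (nat_lit 5) (nat_lit 3) (nat_lit 4) (nat_lit 1) (nat_lit 4) (nat_lit 396) (nat_lit 266) (nat_lit 238)) (XT.nd (nat_lit 78) (nat_lit 0) (nat_lit 0) (XT.lf (nat_lit 0) (nat_lit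 576677091886) (nat_lit 152) (nat_lit 682070392116) (nat_lit 0) (nat_lit 575831474006) (nat_lit 1) (nat_lit 5) (nat_lit 3) (nat_lit 4) (nat_lit 1) (nat_lit 4) (nat_lit 397) (nat_lit 266) (nat_lit 237)) (XT.lf (nat_lit 0) (nat_lit 623607406147) (nat_lit 152) (nat_lit 734913578552) (nat_lit 0) (nat_lit 622754257151) (nat_lit 1) (nat_lit 5) (nat_lit 3) (nat_lit 4) (nat_lit 1) (nat_lit 4) (nat_lit 398) (nat_lit 266) (nat_lit 236))))))))
noncomputable def xc17 : XT := (XT.nd (nat_lit 44304) (nat_lit 0) (nat_lit 0) (XT.nd (nat_lit 624) (nat_lit 0) (nat_lit 0) (XT.nd (nat_lit 312) (nat_lit 0) (nat_lit 0) (XT.nd (nat_lit 156) (nat_lit 0) (nat_lit 0) (XT.nd (nat_lit 78) (nat_lit 0) (nat_lit 0) (XT.lf (nat_lit 0) (nat_lit 674281081924) (nat_lit 152) (nat_lit 792006075425) (nat_lit 0) (nat_lit 673420959673) (nat_lit 1) (nat_lit 5) (nat_lit 3) (nat_lit 4) (nat_lit 1) (nat_lit 4) (nat_lit 399) (nat_lit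 266) (nat_lit 235)) (XT.lf (nat_lit 0) (nat_lit 728998407667) (nat_lit 152) (nat_lit 853686208643) (nat_lit 0) (nat_lit 728131828697) (nat_lit 1) (nat_lit 5) (nat_lit 3) (nat_lit 4) (nat_lit 1) (nat_lit 4) (nat_lit 400) (nat_lit 266) (nat_lit 234))) (XT.nd (nat_lit 78) (nat_lit 0) (nat_lit 0) (XT.lf (nat_lit 0) (nat_lit 788083634193) (nat_lit 152) (nat_lit 920319490106) (nat_lit 0) (nat_lit 787211076781) (nat_lit 1) (nat_lit 5) (nat_lit 3) (nat_lit 4) (nat_lit 1) (nat_lit 4) (nat_lit 401) (nat_lit 266) (nat_lit 233)) (XT.lf (nat_lit 0) (nat_lit 851886896180) (nat_lit 152) (nat_lit 992300783704) (nat_lit 0) (nat_lit 851008803173) (nat_lit 1) (nat_lit 5) (nat_lit 3) (nat_lit 4) (nat_lit 1) (nat_lit 4) (nat_lit 402) (nat_lit 266) (nat_lit 232)))) (XT.nd (nat_lit 156) (nat_lit 0) (nat_lit 0) (XT.nd (nat_lit 78) (nat_lit 0) (nat_lit 0) (XT.lf (nat_lit 0) (nat_lit 920786287031) (nat_lit 152)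 (nat_lit 1070056645251) (nat_lit 0) (nat_lit 919903068473) (nat_lit 1) (nat_lit 5) (nat_lit 3) (nat_lit 4) (nat_lit 1) (nat_lit 4) (nat_lit 403) (nat_lit 266) (nat_lit 231)) (XT.lf (nat_lit 0) (nat_lit 995190099434) (nat_lit 152) (nat_lit 1154047850223) (nat_lit 0) (nat_lit 994302134995) (nat_lit 1) (nat_lit 5) (nat_lit 3) (nat_lit 4) (nat_lit 1) (nat_lit 4) (nat_lit 404) (nat_lit 266) (nat_lit 230))) (XT.nd (nat_lit 78) (nat_lit 0) (nat_lit 0) (XT.lf (nat_lit 0) (nat_lit 1075539244868) (nat_lit 152) (nat_lit 1244772124279) (nat_lit 0) (nat_lit 1074646886095) (nat_lit 1) (nat_lit 5) (nat_lit 3) (nat_lit 4) (nat_lit 1) (nat_lit 4) (nat_lit 405) (nat_lit 266) (nat_lit 229)) (XT.lf (nat_lit 0) (nat_lit 1162309866418) (nat_lit 152) (nat_lit 1342767092748) (nat_lit 0) (nat_lit 1161413438818) (nat_lit 1) (nat_lit 5) (nat_lit 3) (nat_lit 4) (nat_lit 1) (nat_lit 4) (nat_lit 406) (nat_lit 266)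 (nat_lit 228))))) (XT.nd (nat_lit 312) (nat_lit 0) (nat_lit 0) (XT.nd (nat_lit 156) (nat_lit 0) (nat_lit 0) (XT.nd (nat_lit 78) (nat_lit 0) (nat_lit 0) (XT.lf (nat_lit 0) (nat_lit 1256016160360) (nat_lit 152) (nat_lit 1448613466552) (nat_lit 0) (nat_lit 1255115965327) (nat_lit 1) (nat_lit 5) (nat_lit 3) (nat_lit 4) (nat_lit 1) (nat_lit 4) (nat_lit 407) (nat_lit 266) (nat_lit 227)) (XT.lf (nat_lit 0) (nat_lit 1357213423251) (nat_lit 152) (nat_lit 1562938483463) (nat_lit 0) (nat_lit 1356309739854) (nat_lit 1) (nat_lit 5) (nat_lit 3) (nat_lit 4) (nat_lit 1) (nat_lit 4) (nat_lit 408) (nat_lit 266) (nat_lit 226))) (XT.nd (nat_lit 78) (nat_lit 0) (nat_lit 0) (XT.lf (nat_lit 0) (nat_lit 1466501342574) (nat_lit 152) (nat_lit 1686419625062) (nat_lit 0) (nat_lit 1465594429210) (nat_lit 1) (nat_lit 5) (nat_lit 3) (nat_lit 4) (nat_lit 1) (nat_lit 4) (nat_lit 409) (nat_lit 266) (nat_lit 225)) (XT.lf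 (nat_lit 0) (nat_lit 1584527550443) (nat_lit 152) (nat_lit 1819788631449) (nat_lit 0) (nat_lit 1583617646370) (nat_lit 1) (nat_lit 5) (nat_lit 3) (nat_lit 4) (nat_lit 1) (nat_lit 4) (nat_lit 410) (nat_lit 266) (nat_lit 224)))) (XT.nd (nat_lit 156) (nat_lit 0) (nat_lit 0) (XT.nd (nat_lit 78) (nat_lit 0) (nat_lit 0) (XT.lf (nat_lit 0) (nat_lit 1711991461425) (nat_lit 152) (nat_lit 1963835837474) (nat_lit 0) (nat_lit 1711078788176) (nat_lit 1) (nat_lit 5) (nat_lit 3) (nat_lit 4) (nat_lit 1) (nat_lit 4) (nat_lit 411) (nat_lit 266) (nat_lit 223)) (XT.lf (nat_lit 0) (nat_lit 1849648417213) (nat_lit 152) (nat_lit 2119414856213) (nat_lit 0) (nat_lit 1848733179913) (nat_lit 1) (nat_lit 5) (nat_lit 3) (nat_lit 4) (nat_lit 1) (nat_lit 4) (nat_lit 412) (nat_lit 266) (nat_lit 222))) (XT.nd (nat_lit 78) (nat_lit 0) (nat_lit 0) (XT.lf (nat_lit 0) (nat_lit 1998314162731) (nat_lit 152) (nat_lit 2287447637404)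 (nat_lit 0) (nat_lit 1997396551309) (nat_lit 1) (nat_lit 5) (nat_lit 3) (nat_lit 4) (nat_lit 1) (nat_lit 4) (nat_lit 413) (nat_lit 266) (nat_lit 221)) (XT.nd (nat_lit 78) (nat_lit 0) (nat_lit 0) (XT.lf (nat_lit 0) (nat_lit 2158869680175) (nat_lit 152) (nat_lit 2468929930862) (nat_lit 0) (nat_lit 2157949870492) (nat_lit 1) (nat_lit 5) (nat_lit 3) (nat_lit 4) (nat_lit 1) (nat_lit 4) (nat_lit 414) (nat_lit 266) (nat_lit 220)) (XT.lf (nat_lit 0) (nat_lit 2332266409648) (nat_lit 152) (nat_lit 2664937187216) (nat_lit 0) (nat_lit 2331344564538) (nat_lit 1) (nat_lit 5) (nat_lit 3) (nat_lit 4) (nat_lit 1) (nat_lit 4) (nat_lit 415) (nat_lit 266) (nat_lit 219))))))) (XT.nd (nat_lit 624) (nat_lit 0) (nat_lit 0) (XT.nd (nat_lit 312) (nat_lit 0) (nat_lit 0) (XT.nd (nat_lit 156) (nat_lit 0) (nat_lit 0) (XT.nd (nat_lit 78) (nat_lit 0) (nat_lit 0) (XT.lf (nat_lit 0) (nat_lit 17705168503) (nat_lit 152)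 (nat_lit 49741548660) (nat_lit 0) (nat_lit 17705168503) (nat_lit 1) (nat_lit 5) (nat_lit 3) (nat_lit 4) (nat_lit 1) (nat_lit 4) (nat_lit 366) (nat_lit 267) (nat_lit 267)) (XT.lf (nat_lit 0) (nat_lit 40444642687) (nat_lit 152) (nat_lit 102931175698) (nat_lit 0) (nat_lit 40368859651) (nat_lit 1) (nat_lit 5) (nat_lit 3) (nat_lit 4) (nat_lit 1) (nat_lit 4) (nat_lit 367) (nat_lit 267) (nat_lit 266))) (XT.nd (nat_lit 78) (nat_lit 0) (nat_lit 0) (XT.lf (nat_lit 0) (nat_lit 45770363361) (nat_lit 152) (nat_lit 106875024967) (nat_lit 0) (nat_lit 45624410848) (nat_lit 1) (nat_lit 5) (nat_lit 3) (nat_lit 4) (nat_lit 1) (nat_lit 4) (nat_lit 368) (nat_lit 267) (nat_lit 265)) (XT.lf (nat_lit 0) (nat_lit 51419058856) (nat_lit 152) (nat_lit 111338016086) (nat_lit 0) (nat_lit 51208134605) (nat_lit 1) (nat_lit 5) (nat_lit 3) (nat_lit 4) (nat_lit 1) (nat_lit 4) (nat_lit 369) (nat_lit 267) (nat_lit 264))))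 (XT.nd (nat_lit 156) (nat_lit 0) (nat_lit 0) (XT.nd (nat_lit 78) (nat_lit 0) (nat_lit 0) (XT.lf (nat_lit 0) (nat_lit 57424202923) (nat_lit 152) (nat_lit 116346596411) (nat_lit 0) (nat_lit 57153119655) (nat_lit 1) (nat_lit 5) (nat_lit 3) (nat_lit 4) (nat_lit 1) (nat_lit 4) (nat_lit 370) (nat_lit 267) (nat_lit 263)) (XT.lf (nat_lit 0) (nat_lit 63821381601) (nat_lit 152) (nat_lit 121930446418) (nat_lit 0) (nat_lit 63494595539) (nat_lit 1) (nat_lit 5) (nat_lit 3) (nat_lit 4) (nat_lit 1) (nat_lit 4) (nat_lit 371) (nat_lit 267) (nat_lit 262))) (XT.nd (nat_lit 78) (nat_lit 0) (nat_lit 0) (XT.lf (nat_lit 0) (nat_lit 70648504097) (nat_lit 152) (nat_lit 128122655587) (nat_lit 0) (nat_lit 70270141375) (nat_lit 1) (nat_lit 5) (nat_lit 3) (nat_lit 4) (nat_lit 1) (nat_lit 4) (nat_lit 372) (nat_lit 267) (nat_lit 261)) (XT.lf (nat_lit 0) (nat_lit 77946027433) (nat_lit 152) (nat_lit 134959918493) (nat_lit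 0) (nat_lit 77519908544) (nat_lit 1) (nat_lit 5) (nat_lit 3) (nat_lit 4) (nat_lit 1) (nat_lit 4) (nat_lit 373) (nat_lit 267) (nat_lit 260))))) (XT.nd (nat_lit 312) (nat_lit 0) (nat_lit 0) (XT.nd (nat_lit 156) (nat_lit 0) (nat_lit 0) (XT.nd (nat_lit 78) (nat_lit 0) (nat_lit 0) (XT.lf (nat_lit 0) (nat_lit 85757196193) (nat_lit 152) (nat_lit 142482752247) (nat_lit 0) (nat_lit 85286858629) (nat_lit 1) (nat_lit 5) (nat_lit 3) (nat_lit 4) (nat_lit 1) (nat_lit 4) (nat_lit 374) (nat_lit 267) (nat_lit 259)) (XT.lf (nat_lit 0) (nat_lit 94128298782) (nat_lit 152) (nat_lit 150735736607) (nat_lit 0) (nat_lit 93617018003) (nat_lit 1) (nat_lit 5) (nat_lit 3) (nat_lit 4) (nat_lit 1) (nat_lit 4) (nat_lit 375) (nat_lit 267) (nat_lit 258))) (XT.nd (nat_lit 78) (nat_lit 0) (nat_lit 0) (XT.lf (nat_lit 0) (nat_lit 103108941736) (nat_lit 152) (nat_lit 159767778146) (nat_lit 0) (nat_lit 102559750571) (nat_lit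 1) (nat_lit 5) (nat_lit 3) (nat_lit 4) (nat_lit 1) (nat_lit 4) (nat_lit 376) (nat_lit 267) (nat_lit 257)) (XT.lf (nat_lit 0) (nat_lit 112752343679) (nat_lit 152) (nat_lit 169632400072) (nat_lit 0) (nat_lit 112168050305) (nat_lit 1) (nat_lit 5) (nat_lit 3) (nat_lit 4) (nat_lit 1) (nat_lit 4) (nat_lit 377) (nat_lit 267) (nat_lit 256)))) (XT.nd (nat_lit 156) (nat_lit 0) (nat_lit 0) (XT.nd (nat_lit 78) (nat_lit 0) (nat_lit 0) (XT.lf (nat_lit 0) (nat_lit 123115650696) (nat_lit 152) (nat_lit 180388059406) (nat_lit 0) (nat_lit 122498855278) (nat_lit 1) (nat_lit 5) (nat_lit 3) (nat_lit 4) (nat_lit 1) (nat_lit 4) (nat_lit 378) (nat_lit 267) (nat_lit 255)) (XT.lf (nat_lit 0) (nat_lit 134260274978) (nat_lit 152) (nat_lit 192098493386) (nat_lit 0) (nat_lit 133613385074) (nat_lit 1) (nat_lit 5) (nat_lit 3) (nat_lit 4) (nat_lit 1) (nat_lit 4) (nat_lit 379) (nat_lit 267) (nat_lit 254))) (XT.nd (nat_lit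 78) (nat_lit 0) (nat_lit 0) (XT.lf (nat_lit 0) (nat_lit 146252258742) (nat_lit 152) (nat_lit 204833097179) (nat_lit 0) (nat_lit 145577503573) (nat_lit 1) (nat_lit 5) (nat_lit 3) (nat_lit 4) (nat_lit 1) (nat_lit 4) (nat_lit 380) (nat_lit 267) (nat_lit 253)) (XT.nd (nat_lit 78) (nat_lit 0) (nat_lit 0) (XT.lf (nat_lit 0) (nat_lit 159162665597) (nat_lit 152) (nat_lit 218667335102) (nat_lit 0) (nat_lit 158462109256) (nat_lit 1) (nat_lit 5) (nat_lit 3) (nat_lit 4) (nat_lit 1) (nat_lit 4) (nat_lit 381) (nat_lit 267) (nat_lit 252)) (XT.lf (nat_lit 0) (nat_lit 173068001655) (nat_lit 152) (nat_lit 233683187824) (nat_lit 0) (nat_lit 172343555342) (nat_lit 1) (nat_lit 5) (nat_lit 3) (nat_lit 4) (nat_lit 1) (nat_lit 4) (nat_lit 382) (nat_lit 267) (nat_lit 251))))))))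
noncomputable def xc18 : XT := (XT.nd (nat_lit 1326) (nat_lit 0) (nat_lit 0) (XT.nd (nat_lit 624) (nat_lit 0) (nat_lit 0) (XT.nd (nat_lit 312) (nat_lit 0) (nat_lit 0) (XT.nd (nat_lit 156) (nat_lit 0) (nat_lit 0) (XT.nd (nat_lit 78) (nat_lit 0) (nat_lit 0) (XT.lf (nat_lit 0) (nat_lit 188050668910) (nat_lit 152) (nat_lit 249969638178) (nat_lit 0) (nat_lit 187304102251) (nat_lit 1) (nat_lit 5) (nat_lit 3) (nat_lit 4) (nat_lit 1) (nat_lit 4) (nat_lit 383) (nat_lit 267) (nat_lit 250)) (XT.lf (nat_lit 0) (nat_lit 204199453538) (nat_lit 152) (nat_lit 267623198460) (nat_lit 0) (nat_lit 203432405077) (nat_lit 1) (nat_lit 5) (nat_lit 3) (nat_lit 4) (nat_lit 1) (nat_lit 4) (nat_lit 384) (nat_lit 267) (nat_lit 249))) (XT.nd (nat_lit 78) (nat_lit 0) (nat_lit 0) (XT.lf (nat_lit 0) (nat_lit 221610052039) (nat_lit 152) (nat_lit 286748482362) (nat_lit 0) (nat_lit 220824038947) (nat_lit 1) (nat_lit 5)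 (nat_lit 3) (nat_lit 4) (nat_lit 1) (nat_lit 4) (nat_lit 385) (nat_lit 267) (nat_lit 248)) (XT.lf (nat_lit 0) (nat_lit 240385638331) (nat_lit 152) (nat_lit 307458824898) (nat_lit 0) (nat_lit 239582065395) (nat_lit 1) (nat_lit 5) (nat_lit 3) (nat_lit 4) (nat_lit 1) (nat_lit 4) (nat_lit 386) (nat_lit 267) (nat_lit 247)))) (XT.nd (nat_lit 156) (nat_lit 0) (nat_lit 0) (XT.nd (nat_lit 78) (nat_lit 0) (nat_lit 0) (XT.lf (nat_lit 0) (nat_lit 260637475147) (nat_lit 152) (nat_lit 329876954026) (nat_lit 0) (nat_lit 259817643097) (nat_lit 1) (nat_lit 5) (nat_lit 3) (nat_lit 4) (nat_lit 1) (nat_lit 4) (nat_lit 387) (nat_lit 267) (nat_lit 246)) (XT.lf (nat_lit 0) (nat_lit 282485573373) (nat_lit 152) (nat_lit 354135717918) (nat_lit 0) (nat_lit 281650686588) (nat_lit 1) (nat_lit 5) (nat_lit 3) (nat_lit 4) (nat_lit 1) (nat_lit 4) (nat_lit 388) (nat_lit 267) (nat_lit 245))) (XT.nd (nat_lit 78) (nat_lit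 0) (nat_lit 0) (XT.lf (nat_lit 0) (nat_lit 306059403220) (nat_lit 152) (nat_lit 380378872211) (nat_lit 0) (nat_lit 305210576865) (nat_lit 1) (nat_lit 5) (nat_lit 3) (nat_lit 4) (nat_lit 1) (nat_lit 4) (nat_lit 389) (nat_lit 267) (nat_lit 244)) (XT.lf (nat_lit 0) (nat_lit 331498661458) (nat_lit 152) (nat_lit 408761931894) (nat_lit 0) (nat_lit 330636928093) (nat_lit 1) (nat_lit 5) (nat_lit 3) (nat_lit 4) (nat_lit 1) (nat_lit 4) (nat_lit 390) (nat_lit 267) (nat_lit 243))))) (XT.nd (nat_lit 312) (nat_lit 0) (nat_lit 0) (XT.nd (nat_lit 156) (nat_lit 0) (nat_lit 0) (XT.nd (nat_lit 78) (nat_lit 0) (nat_lit 0) (XT.lf (nat_lit 0) (nat_lit 358954099246) (nat_lit 152) (nat_lit 439453092876) (nat_lit 0) (nat_lit 358080414946) (nat_lit 1) (nat_lit 5) (nat_lit 3) (nat_lit 4) (nat_lit 1) (nat_lit 4) (nat_lit 391) (nat_lit 267) (nat_lit 242)) (XT.lf (nat_lit 0) (nat_lit 388588415475) (nat_lit 152) (nat_lit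 472634228704) (nat_lit 0) (nat_lit 387703665495) (nat_lit 1) (nat_lit 5) (nat_lit 3) (nat_lit 4) (nat_lit 1) (nat_lit 4) (nat_lit 392) (nat_lit 267) (nat_lit 241))) (XT.nd (nat_lit 78) (nat_lit 0) (nat_lit 0) (XT.lf (nat_lit 0) (nat_lit 420577220908) (nat_lit 152) (nat_lit 508501968331) (nat_lit 0) (nat_lit 419682224928) (nat_lit 1) (nat_lit 5) (nat_lit 3) (nat_lit 4) (nat_lit 1) (nat_lit 4) (nat_lit 393) (nat_lit 267) (nat_lit 240)) (XT.lf (nat_lit 0) (nat_lit 455110078836) (nat_lit 152) (nat_lit 547268861324) (nat_lit 0) (nat_lit 454205595819) (nat_lit 1) (nat_lit 5) (nat_lit 3) (nat_lit 4) (nat_lit 1) (nat_lit 4) (nat_lit 394) (nat_lit 267) (nat_lit 239)))) (XT.nd (nat_lit 156) (nat_lit 0) (nat_lit 0) (XT.nd (nat_lit 78) (nat_lit 0) (nat_lit 0) (XT.lf (nat_lit 0) (nat_lit 492391628417) (nat_lit 152) (nat_lit 589164637421) (nat_lit 0) (nat_lit 491478361107) (nat_lit 1) (nat_lit 5) (nat_lit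 3) (nat_lit 4) (nat_lit 1) (nat_lit 4) (nat_lit 395) (nat_lit 267) (nat_lit 238)) (XT.lf (nat_lit 0) (nat_lit 532642797353) (nat_lit 152) (nat_lit 634437567886) (nat_lit 0) (nat_lit 531721396438) (nat_lit 1) (nat_lit 5) (nat_lit 3) (nat_lit 4) (nat_lit 1) (nat_lit 4) (nat_lit 396) (nat_lit 267) (nat_lit 237))) (XT.nd (nat_lit 78) (nat_lit 0) (nat_lit 0) (XT.lf (nat_lit 0) (nat_lit 576102111090) (nat_lit 152) (nat_lit 683355936753) (nat_lit 0) (nat_lit 575173179058) (nat_lit 1) (nat_lit 5) (nat_lit 3) (nat_lit 4) (nat_lit 1) (nat_lit 4) (nat_lit 397) (nat_lit 267) (nat_lit 236)) (XT.nd (nat_lit 78) (nat_lit 0) (nat_lit 0) (XT.lf (nat_lit 0) (nat_lit 623027106300) (nat_lit 152) (nat_lit 736209630652) (nat_lit 0) (nat_lit 622091201013) (nat_lit 1) (nat_lit 5) (nat_lit 3) (nat_lit 4) (nat_lit 1) (nat_lit 4) (nat_lit 398) (nat_lit 267) (nat_lit 235)) (XT.lf (nat_lit 0) (nat_lit 673695857031)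 (nat_lit 152) (nat_lit 793311856657) (nat_lit 0) (nat_lit 672753495026) (nat_lit 1) (nat_lit 5) (nat_lit 3) (nat_lit 4) (nat_lit 1) (nat_lit 4) (nat_lit 399) (nat_lit 267) (nat_lit 234))))))) (XT.nd (nat_lit 624) (nat_lit 0) (nat_lit 0) (XT.nd (nat_lit 312) (nat_lit 0) (nat_lit 0) (XT.nd (nat_lit 156) (nat_lit 0) (nat_lit 0) (XT.nd (nat_lit 78) (nat_lit 0) (nat_lit 0) (XT.lf (nat_lit 0) (nat_lit 728408622545) (nat_lit 152) (nat_lit 855000998330) (nat_lit 0) (nat_lit 727460282097) (nat_lit 1) (nat_lit 5) (nat_lit 3) (nat_lit 4) (nat_lit 1) (nat_lit 4) (nat_lit 400) (nat_lit 267) (nat_lit 233)) (XT.lf (nat_lit 0) (nat_lit 787489626638) (nat_lit 152) (nat_lit 921642620956) (nat_lit 0) (nat_lit 786535750595) (nat_lit 1) (nat_lit 5) (nat_lit 3) (nat_lit 4) (nat_lit 1) (nat_lit 4) (nat_lit 401) (nat_lit 267) (nat_lit 232))) (XT.nd (nat_lit 78) (nat_lit 0) (nat_lit 0) (XT.lf (nat_lit 0) (nat_lit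 851288978964) (nat_lit 152) (nat_lit 993631637852) (nat_lit 0) (nat_lit 850329977370) (nat_lit 1) (nat_lit 5) (nat_lit 3) (nat_lit 4) (nat_lit 1) (nat_lit 4) (nat_lit 402) (nat_lit 267) (nat_lit 231)) (XT.lf (nat_lit 0) (nat_lit 920184749759) (nat_lit 152) (nat_lit 1071394650602) (nat_lit 0) (nat_lit 919221002285) (nat_lit 1) (nat_lit 5) (nat_lit 3) (nat_lit 4) (nat_lit 1) (nat_lit 4) (nat_lit 403) (nat_lit 267) (nat_lit 230)))) (XT.nd (nat_lit 156) (nat_lit 0) (nat_lit 0) (XT.nd (nat_lit 78) (nat_lit 0) (nat_lit 0) (XT.lf (nat_lit 0) (nat_lit 994585210257) (nat_lit 152) (nat_lit 1155392477058) (nat_lit 0) (nat_lit 993617068449) (nat_lit 1) (nat_lit 5) (nat_lit 3) (nat_lit 4) (nat_lit 1) (nat_lit 4) (nat_lit 404) (nat_lit 267) (nat_lit 229)) (XT.lf (nat_lit 0) (nat_lit 1074931252077) (nat_lit 152) (nat_lit 1246122882118) (nat_lit 0) (nat_lit 1073959041441) (nat_lit 1) (nat_lit 5) (nat_lit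 3) (nat_lit 4) (nat_lit 1) (nat_lit 4) (nat_lit 405) (nat_lit 267) (nat_lit 228))) (XT.nd (nat_lit 78) (nat_lit 0) (nat_lit 0) (XT.lf (nat_lit 0) (nat_lit 1161698999909) (nat_lit 152) (nat_lit 1344123527441) (nat_lit 0) (nat_lit 1160723021841) (nat_lit 1) (nat_lit 5) (nat_lit 3) (nat_lit 4) (nat_lit 1) (nat_lit 4) (nat_lit 406) (nat_lit 267) (nat_lit 227)) (XT.lf (nat_lit 0) (nat_lit 1255402633002) (nat_lit 152) (nat_lit 1449975157593) (nat_lit 0) (nat_lit 1254423166569) (nat_lit 1) (nat_lit 5) (nat_lit 3) (nat_lit 4) (nat_lit 1) (nat_lit 4) (nat_lit 407) (nat_lit 267) (nat_lit 226))))) (XT.nd (nat_lit 312) (nat_lit 0) (nat_lit 0) (XT.nd (nat_lit 156) (nat_lit 0) (nat_lit 0) (XT.nd (nat_lit 78) (nat_lit 0) (nat_lit 0) (XT.lf (nat_lit 0) (nat_lit 1356597432143) (nat_lit 152) (nat_lit 1564305041492) (nat_lit 0) (nat_lit 1355614735744) (nat_lit 1) (nat_lit 5) (nat_lit 3) (nat_lit 4) (nat_lit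 1) (nat_lit 4) (nat_lit 408) (nat_lit 267) (nat_lit 225)) (XT.lf (nat_lit 0) (nat_lit 1465883070216) (nat_lit 152) (nat_lit 1687790689562) (nat_lit 0) (nat_lit 1464897383108) (nat_lit 1) (nat_lit 5) (nat_lit 3) (nat_lit 4) (nat_lit 1) (nat_lit 4) (nat_lit 409) (nat_lit 267) (nat_lit 224))) (XT.nd (nat_lit 78) (nat_lit 0) (nat_lit 0) (XT.lf (nat_lit 0) (nat_lit 1583907165818) (nat_lit 152) (nat_lit 1821163868606) (nat_lit 0) (nat_lit 1582918709534) (nat_lit 1) (nat_lit 5) (nat_lit 3) (nat_lit 4) (nat_lit 1) (nat_lit 4) (nat_lit 410) (nat_lit 267) (nat_lit 223)) (XT.lf (nat_lit 0) (nat_lit 1711369120996) (nat_lit 152) (nat_lit 1965214938204) (nat_lit 0) (nat_lit 1710378100660) (nat_lit 1) (nat_lit 5) (nat_lit 3) (nat_lit 4) (nat_lit 1) (nat_lit 4) (nat_lit 411) (nat_lit 267) (nat_lit 222)))) (XT.nd (nat_lit 156) (nat_lit 0) (nat_lit 0) (XT.nd (nat_lit 78) (nat_lit 0) (nat_lit 0) (XT.lf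 (nat_lit 0) (nat_lit 1849024265855) (nat_lit 152) (nat_lit 2120797534324) (nat_lit 0) (nat_lit 1848030871397) (nat_lit 1) (nat_lit 5) (nat_lit 3) (nat_lit 4) (nat_lit 1) (nat_lit 4) (nat_lit 412) (nat_lit 267) (nat_lit 221)) (XT.lf (nat_lit 0) (nat_lit 1997688334587) (nat_lit 152) (nat_lit 2288833627906) (nat_lit 0) (nat_lit 1996692741868) (nat_lit 1) (nat_lit 5) (nat_lit 3) (nat_lit 4) (nat_lit 1) (nat_lit 4) (nat_lit 413) (nat_lit 267) (nat_lit 220))) (XT.nd (nat_lit 78) (nat_lit 0) (nat_lit 0) (XT.lf (nat_lit 0) (nat_lit 2158242299450) (nat_lit 152) (nat_lit 2470318988392) (nat_lit 0) (nat_lit 2157244671305) (nat_lit 1) (nat_lit 5) (nat_lit 3) (nat_lit 4) (nat_lit 1) (nat_lit 4) (nat_lit 414) (nat_lit 267) (nat_lit 219)) (XT.nd (nat_lit 42900) (nat_lit 0) (nat_lit 0) (XT.lf (nat_lit 0) (nat_lit 2331637591349) (nat_lit 152) (nat_lit 2666329084587) (nat_lit 0) (nat_lit 2330638078549)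 (nat_lit 1) (nat_lit 5) (nat_lit 3) (nat_lit 4) (nat_lit 1) (nat_lit 4) (nat_lit 415) (nat_lit 267) (nat_lit 218)) (XT.lf (nat_lit 0) (nat_lit 13121232436) (nat_lit 152) (nat_lit 46936005435) (nat_lit 0) (nat_lit 13121232436) (nat_lit 1) (nat_lit 5) (nat_lit 3) (nat_lit 4) (nat_lit 1) (nat_lit 4) (nat_lit 364) (nat_lit 268) (nat_lit 268))))))))
noncomputable def xc19 : XT := (XT.nd (nat_lit 1326) (nat_lit 0) (nat_lit 0) (XT.nd (nat_lit 624) (nat_lit 0) (nat_lit 0) (XT.nd (nat_lit 312) (nat_lit 0) (nat_lit 0) (XT.nd (nat_lit 156) (nat_lit 0) (nat_lit 0) (XT.nd (nat_lit 78) (nat_lit 0) (nat_lit 0) (XT.lf (nat_lit 0) (nat_lit 30719459079) (nat_lit 152) (nat_lit 96510356779) (nat_lit 0) (nat_lit 30637613400) (nat_lit 1) (nat_lit 5) (nat_lit 3) (nat_lit 4) (nat_lit 1) (nat_lit 4) (nat_lit 365) (nat_lit 268) (nat_lit 267)) (XT.lf (nat_lit 0) (nat_lit 35434377005) (nat_lit 152) (nat_lit 99597288951)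 (nat_lit 0) (nat_lit 35276748291) (nat_lit 1) (nat_lit 5) (nat_lit 3) (nat_lit 4) (nat_lit 1) (nat_lit 4) (nat_lit 366) (nat_lit 268) (nat_lit 266))) (XT.nd (nat_lit 78) (nat_lit 0) (nat_lit 0) (XT.lf (nat_lit 0) (nat_lit 40415158906) (nat_lit 152) (nat_lit 103151100320) (nat_lit 0) (nat_lit 40187360714) (nat_lit 1) (nat_lit 5) (nat_lit 3) (nat_lit 4) (nat_lit 1) (nat_lit 4) (nat_lit 367) (nat_lit 268) (nat_lit 265)) (XT.lf (nat_lit 0) (nat_lit 45691320525) (nat_lit 152) (nat_lit 107192850506) (nat_lit 0) (nat_lit 45398550596) (nat_lit 1) (nat_lit 5) (nat_lit 3) (nat_lit 4) (nat_lit 1) (nat_lit 4) (nat_lit 368) (nat_lit 268) (nat_lit 264)))) (XT.nd (nat_lit 156) (nat_lit 0) (nat_lit 0) (XT.nd (nat_lit 78) (nat_lit 0) (nat_lit 0) (XT.lf (nat_lit 0) (nat_lit 51294128007) (nat_lit 152) (nat_lit 111746490624) (nat_lit 0) (nat_lit 50941199060) (nat_lit 1) (nat_lit 5) (nat_lit 3) (nat_lit 4)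 (nat_lit 1) (nat_lit 4) (nat_lit 369) (nat_lit 268) (nat_lit 263)) (XT.lf (nat_lit 0) (nat_lit 57256783173) (nat_lit 152) (nat_lit 116839005206) (nat_lit 0) (nat_lit 56848151433) (nat_lit 1) (nat_lit 5) (nat_lit 3) (nat_lit 4) (nat_lit 1) (nat_lit 4) (nat_lit 370) (nat_lit 268) (nat_lit 262))) (XT.nd (nat_lit 78) (nat_lit 0) (nat_lit 0) (XT.lf (nat_lit 0) (nat_lit 63614620276) (nat_lit 152) (nat_lit 122500572118) (nat_lit 0) (nat_lit 63154411875) (nat_lit 1) (nat_lit 5) (nat_lit 3) (nat_lit 4) (nat_lit 1) (nat_lit 4) (nat_lit 371) (nat_lit 268) (nat_lit 261)) (XT.lf (nat_lit 0) (nat_lit 70405315388) (nat_lit 152) (nat_lit 128764741385) (nat_lit 0) (nat_lit 69897350820) (nat_lit 1) (nat_lit 5) (nat_lit 3) (nat_lit 4) (nat_lit 1) (nat_lit 4) (nat_lit 372) (nat_lit 268) (nat_lit 260))))) (XT.nd (nat_lit 312) (nat_lit 0) (nat_lit 0) (XT.nd (nat_lit 156) (nat_lit 0) (nat_lit 0) (XT.nd (nat_lit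 78) (nat_lit 0) (nat_lit 0) (XT.lf (nat_lit 0) (nat_lit 77669109665) (nat_lit 152) (nat_lit 135668634010) (nat_lit 0) (nat_lit 77116926423) (nat_lit 1) (nat_lit 5) (nat_lit 3) (nat_lit 4) (nat_lit 1) (nat_lit 4) (nat_lit 373) (nat_lit 268) (nat_lit 259)) (XT.lf (nat_lit 0) (nat_lit 85449047813) (nat_lit 152) (nat_lit 143253161949) (nat_lit 0) (nat_lit 84855921355) (nat_lit 1) (nat_lit 5) (nat_lit 3) (nat_lit 4) (nat_lit 1) (nat_lit 4) (nat_lit 374) (nat_lit 268) (nat_lit 258))) (XT.nd (nat_lit 78) (nat_lit 0) (nat_lit 0) (XT.lf (nat_lit 0) (nat_lit 93791233170) (nat_lit 152) (nat_lit 151563270554) (nat_lit 0) (nat_lit 93160196327) (nat_lit 1) (nat_lit 5) (nat_lit 3) (nat_lit 4) (nat_lit 1) (nat_lit 4) (nat_lit 375) (nat_lit 268) (nat_lit 257)) (XT.lf (nat_lit 0) (nat_lit 102745100909) (nat_lit 152) (nat_lit 160648204913) (nat_lit 0) (nat_lit 102078961857) (nat_lit 1) (nat_lit 5) (nat_lit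 3) (nat_lit 4) (nat_lit 1) (nat_lit 4) (nat_lit 376) (nat_lit 268) (nat_lit 256)))) (XT.nd (nat_lit 156) (nat_lit 0) (nat_lit 0) (XT.nd (nat_lit 78) (nat_lit 0) (nat_lit 0) (XT.lf (nat_lit 0) (nat_lit 112363710986) (nat_lit 152) (nat_lit 170561801672) (nat_lit 0) (nat_lit 111665069889) (nat_lit 1) (nat_lit 5) (nat_lit 3) (nat_lit 4) (nat_lit 1) (nat_lit 4) (nat_lit 377) (nat_lit 268) (nat_lit 255)) (XT.lf (nat_lit 0) (nat_lit 122704062572) (nat_lit 152) (nat_lit 181362808073) (nat_lit 0) (nat_lit 121975326989) (nat_lit 1) (nat_lit 5) (nat_lit 3) (nat_lit 4) (nat_lit 1) (nat_lit 4) (nat_lit 378) (nat_lit 268) (nat_lit 254))) (XT.nd (nat_lit 78) (nat_lit 0) (nat_lit 0) (XT.lf (nat_lit 0) (nat_lit 133827431825) (nat_lit 152) (nat_lit 193115230080) (nat_lit 0) (nat_lit 133070830977) (nat_lit 1) (nat_lit 5) (nat_lit 3) (nat_lit 4) (nat_lit 1) (nat_lit 4) (nat_lit 379) (nat_lit 268) (nat_lit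 253)) (XT.nd (nat_lit 78) (nat_lit 0) (nat_lit 0) (XT.lf (nat_lit 0) (nat_lit 145799735007) (nat_lit 152) (nat_lit 205888711674) (nat_lit 0) (nat_lit 145017332988) (nat_lit 1) (nat_lit 5) (nat_lit 3) (nat_lit 4) (nat_lit 1) (nat_lit 4) (nat_lit 380) (nat_lit 268) (nat_lit 252)) (XT.lf (nat_lit 0) (nat_lit 158691919100) (nat_lit 152) (nat_lit 219758947561) (nat_lit 0) (nat_lit 157885627108) (nat_lit 1) (nat_lit 5) (nat_lit 3) (nat_lit 4) (nat_lit 1) (nat_lit 4) (nat_lit 381) (nat_lit 268) (nat_lit 251))))))) (XT.nd (nat_lit 702) (nat_lit 0) (nat_lit 0) (XT.nd (nat_lit 312) (nat_lit 0) (nat_lit 0) (XT.nd (nat_lit 156) (nat_lit 0) (nat_lit 0) (XT.nd (nat_lit 78) (nat_lit 0) (nat_lit 0) (XT.lf (nat_lit 0) (nat_lit 172580382232) (nat_lit 152) (nat_lit 234808131732) (nat_lit 0) (nat_lit 171751969894) (nat_lit 1) (nat_lit 5) (nat_lit 3) (nat_lit 4) (nat_lit 1) (nat_lit 4) (nat_lit 382) (nat_lit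 268) (nat_lit 250)) (XT.lf (nat_lit 0) (nat_lit 187547426406) (nat_lit 152) (nat_lit 251125444537) (nat_lit 0) (nat_lit 186698532266) (nat_lit 1) (nat_lit 5) (nat_lit 3) (nat_lit 4) (nat_lit 1) (nat_lit 4) (nat_lit 383) (nat_lit 268) (nat_lit 249))) (XT.nd (nat_lit 78) (nat_lit 0) (nat_lit 0) (XT.lf (nat_lit 0) (nat_lit 203681745218) (nat_lit 152) (nat_lit 268807581164) (nat_lit 0) (nat_lit 202813886447) (nat_lit 1) (nat_lit 5) (nat_lit 3) (nat_lit 4) (nat_lit 1) (nat_lit 4) (nat_lit 384) (nat_lit 268) (nat_lit 248)) (XT.lf (nat_lit 0) (nat_lit 221078949445) (nat_lit 152) (nat_lit 287959324644) (nat_lit 0) (nat_lit 220193530831) (nat_lit 1) (nat_lit 5) (nat_lit 3) (nat_lit 4) (nat_lit 1) (nat_lit 4) (nat_lit 385) (nat_lit 268) (nat_lit 247)))) (XT.nd (nat_lit 156) (nat_lit 0) (nat_lit 0) (XT.nd (nat_lit 78) (nat_lit 0) (nat_lit 0) (XT.lf (nat_lit 0) (nat_lit 239842133632) (nat_lit 152)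 (nat_lit 308694166791) (nat_lit 0) (nat_lit 238940455903) (nat_lit 1) (nat_lit 5) (nat_lit 3) (nat_lit 4) (nat_lit 1) (nat_lit 4) (nat_lit 386) (nat_lit 268) (nat_lit 246)) (XT.lf (nat_lit 0) (nat_lit 260082487018) (nat_lit 152) (nat_lit 331134980743) (nat_lit 0) (nat_lit 259165754553) (nat_lit 1) (nat_lit 5) (nat_lit 3) (nat_lit 4) (nat_lit 1) (nat_lit 4) (nat_lit 387) (nat_lit 268) (nat_lit 245))) (XT.nd (nat_lit 78) (nat_lit 0) (nat_lit 0) (XT.lf (nat_lit 0) (nat_lit 281919952437) (nat_lit 152) (nat_lit 355414749101) (nat_lit 0) (nat_lit 280989280403) (nat_lit 1) (nat_lit 5) (nat_lit 3) (nat_lit 4) (nat_lit 1) (nat_lit 4) (nat_lit 388) (nat_lit 268) (nat_lit 244)) (XT.nd (nat_lit 78) (nat_lit 0) (nat_lit 0) (XT.lf (nat_lit 0) (nat_lit 305483937093) (nat_lit 152) (nat_lit 381677351974) (nat_lit 0) (nat_lit 304540358050) (nat_lit 1) (nat_lit 5) (nat_lit 3) (nat_lit 4) (nat_lit 1) (nat_lit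 4) (nat_lit 389) (nat_lit 268) (nat_lit 243)) (XT.lf (nat_lit 0) (nat_lit 330914079413) (nat_lit 152) (nat_lit 410078419601) (nat_lit 0) (nat_lit 329958549435) (nat_lit 1) (nat_lit 5) (nat_lit 3) (nat_lit 4) (nat_lit 1) (nat_lit 4) (nat_lit 390) (nat_lit 268) (nat_lit 242)))))) (XT.nd (nat_lit 312) (nat_lit 0) (nat_lit 0) (XT.nd (nat_lit 156) (nat_lit 0) (nat_lit 0) (XT.nd (nat_lit 78) (nat_lit 0) (nat_lit 0) (XT.lf (nat_lit 0) (nat_lit 358361076537) (nat_lit 152) (nat_lit 440786254606) (nat_lit 0) (nat_lit 357394480879) (nat_lit 1) (nat_lit 5) (nat_lit 3) (nat_lit 4) (nat_lit 1) (nat_lit 4) (nat_lit 391) (nat_lit 268) (nat_lit 241)) (XT.lf (nat_lit 0) (nat_lit 387987577336) (nat_lit 152) (nat_lit 473982829344) (nat_lit 0) (nat_lit 387010735678) (nat_lit 1) (nat_lit 5) (nat_lit 3) (nat_lit 4) (nat_lit 1) (nat_lit 4) (nat_lit 392) (nat_lit 268) (nat_lit 240))) (XT.nd (nat_lit 78) (nat_lit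 0) (nat_lit 0) (XT.lf (nat_lit 0) (nat_lit 419969146259) (nat_lit 152) (nat_lit 509864864257) (nat_lit 0) (nat_lit 418982817564) (nat_lit 1) (nat_lit 5) (nat_lit 3) (nat_lit 4) (nat_lit 1) (nat_lit 4) (nat_lit 393) (nat_lit 268) (nat_lit 239)) (XT.lf (nat_lit 0) (nat_lit 454495303716) (nat_lit 152) (nat_lit 548644993628) (nat_lit 0) (nat_lit 453500190727) (nat_lit 1) (nat_lit 5) (nat_lit 3) (nat_lit 4) (nat_lit 1) (nat_lit 4) (nat_lit 394) (nat_lit 268) (nat_lit 238)))) (XT.nd (nat_lit 156) (nat_lit 0) (nat_lit 0) (XT.nd (nat_lit 78) (nat_lit 0) (nat_lit 0) (XT.lf (nat_lit 0) (nat_lit 491770649157) (nat_lit 152) (nat_lit 590553025629) (nat_lit 0) (nat_lit 490767402563) (nat_lit 1) (nat_lit 5) (nat_lit 3) (nat_lit 4) (nat_lit 1) (nat_lit 4) (nat_lit 395) (nat_lit 268) (nat_lit 237)) (XT.lf (nat_lit 0) (nat_lit 532016073519) (nat_lit 152) (nat_lit 635837304154) (nat_lit 0) (nat_lit 531005295809)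 (nat_lit 1) (nat_lit 5) (nat_lit 3) (nat_lit 4) (nat_lit 1) (nat_lit 4) (nat_lit 396) (nat_lit 268) (nat_lit 236))) (XT.nd (nat_lit 78) (nat_lit 0) (nat_lit 0) (XT.lf (nat_lit 0) (nat_lit 575470068205) (nat_lit 152) (nat_lit 684766180483) (nat_lit 0) (nat_lit 574452317239) (nat_lit 1) (nat_lit 5) (nat_lit 3) (nat_lit 4) (nat_lit 1) (nat_lit 4) (nat_lit 397) (nat_lit 268) (nat_lit 235)) (XT.nd (nat_lit 78) (nat_lit 0) (nat_lit 0) (XT.lf (nat_lit 0) (nat_lit 622390138369) (nat_lit 152) (nat_lit 737629603514) (nat_lit 0) (nat_lit 621365930685) (nat_lit 1) (nat_lit 5) (nat_lit 3) (nat_lit 4) (nat_lit 1) (nat_lit 4) (nat_lit 398) (nat_lit 268) (nat_lit 234)) (XT.lf (nat_lit 0) (nat_lit 673054328871) (nat_lit 152) (nat_lit 794740837975) (nat_lit 0) (nat_lit 672024142745) (nat_lit 1) (nat_lit 5) (nat_lit 3) (nat_lit 4) (nat_lit 1) (nat_lit 4) (nat_lit 399) (nat_lit 268) (nat_lit 233))))))))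
noncomputable def xc20 : XT := (XT.nd (nat_lit 43992) (nat_lit 0) (nat_lit 0) (XT.nd (nat_lit 624) (nat_lit 0) (nat_lit 0) (XT.nd (nat_lit 312) (nat_lit 0) (nat_lit 0) (XT.nd (nat_lit 156) (nat_lit 0) (nat_lit 0) (XT.nd (nat_lit 78) (nat_lit 0) (nat_lit 0) (XT.lf (nat_lit 0) (nat_lit 727762871951) (nat_lit 152) (nat_lit 856438320811) (nat_lit 0) (nat_lit 726727150230) (nat_lit 1) (nat_lit 5) (nat_lit 3) (nat_lit 4) (nat_lit 1) (nat_lit 4) (nat_lit 400) (nat_lit 268) (nat_lit 232)) (XT.lf (nat_lit 0) (nat_lit 786839966384) (nat_lit 152) (nat_lit 923087666735) (nat_lit 0) (nat_lit 785799119111) (nat_lit 1) (nat_lit 5) (nat_lit 3) (nat_lit 4) (nat_lit 1) (nat_lit 4) (nat_lit 401) (nat_lit 268) (nat_lit 231))) (XT.nd (nat_lit 78) (nat_lit 0) (nat_lit 0) (XT.lf (nat_lit 0) (nat_lit 850635698653) (nat_lit 152) (nat_lit 995083834834) (nat_lit 0) (nat_lit 849590105501) (nat_lit 1) (nat_lit 5)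 (nat_lit 3) (nat_lit 4) (nat_lit 1) (nat_lit 4) (nat_lit 402) (nat_lit 268) (nat_lit 230)) (XT.lf (nat_lit 0) (nat_lit 919528117544) (nat_lit 152) (nat_lit 1072853469068) (nat_lit 0) (nat_lit 918478130058) (nat_lit 1) (nat_lit 5) (nat_lit 3) (nat_lit 4) (nat_lit 1) (nat_lit 4) (nat_lit 403) (nat_lit 268) (nat_lit 229)))) (XT.nd (nat_lit 156) (nat_lit 0) (nat_lit 0) (XT.nd (nat_lit 78) (nat_lit 0) (nat_lit 0) (XT.lf (nat_lit 0) (nat_lit 993925474428) (nat_lit 152) (nat_lit 1156857426527) (nat_lit 0) (nat_lit 992871418114) (nat_lit 1) (nat_lit 5) (nat_lit 3) (nat_lit 4) (nat_lit 1) (nat_lit 4) (nat_lit 404) (nat_lit 268) (nat_lit 228)) (XT.lf (nat_lit 0) (nat_lit 1074268642530) (nat_lit 152) (nat_lit 1247593508442) (nat_lit 0) (nat_lit 1073210818783) (nat_lit 1) (nat_lit 5) (nat_lit 3) (nat_lit 4) (nat_lit 1) (nat_lit 4) (nat_lit 405) (nat_lit 268) (nat_lit 227))) (XT.nd (nat_lit 78) (nat_lit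 0) (nat_lit 0) (XT.lf (nat_lit 0) (nat_lit 1161033729513) (nat_lit 152) (nat_lit 1345599410113) (nat_lit 0) (nat_lit 1159972417402) (nat_lit 1) (nat_lit 5) (nat_lit 3) (nat_lit 4) (nat_lit 1) (nat_lit 4) (nat_lit 406) (nat_lit 268) (nat_lit 226)) (XT.lf (nat_lit 0) (nat_lit 1254734898856) (nat_lit 152) (nat_lit 1451455907252) (nat_lit 0) (nat_lit 1253670356779) (nat_lit 1) (nat_lit 5) (nat_lit 3) (nat_lit 4) (nat_lit 1) (nat_lit 4) (nat_lit 407) (nat_lit 268) (nat_lit 225))))) (XT.nd (nat_lit 312) (nat_lit 0) (nat_lit 0) (XT.nd (nat_lit 156) (nat_lit 0) (nat_lit 0) (XT.nd (nat_lit 78) (nat_lit 0) (nat_lit 0) (XT.lf (nat_lit 0) (nat_lit 1355927416748) (nat_lit 152) (nat_lit 1565790297622) (nat_lit 0) (nat_lit 1354859883961) (nat_lit 1) (nat_lit 5) (nat_lit 3) (nat_lit 4) (nat_lit 1) (nat_lit 4) (nat_lit 408) (nat_lit 268) (nat_lit 224)) (XT.lf (nat_lit 0) (nat_lit 1465210942553) (nat_lit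 152) (nat_lit 1689280118350) (nat_lit 0) (nat_lit 1464140640590) (nat_lit 1) (nat_lit 5) (nat_lit 3) (nat_lit 4) (nat_lit 1) (nat_lit 4) (nat_lit 409) (nat_lit 268) (nat_lit 223))) (XT.nd (nat_lit 78) (nat_lit 0) (nat_lit 0) (XT.lf (nat_lit 0) (nat_lit 1583233082351) (nat_lit 152) (nat_lit 1822657160967) (nat_lit 0) (nat_lit 1582160216336) (nat_lit 1) (nat_lit 5) (nat_lit 3) (nat_lit 4) (nat_lit 1) (nat_lit 4) (nat_lit 410) (nat_lit 268) (nat_lit 222)) (XT.lf (nat_lit 0) (nat_lit 1710693226599) (nat_lit 152) (nat_lit 1966711807947) (nat_lit 0) (nat_lit 1709617986463) (nat_lit 1) (nat_lit 5) (nat_lit 3) (nat_lit 4) (nat_lit 1) (nat_lit 4) (nat_lit 411) (nat_lit 268) (nat_lit 221)))) (XT.nd (nat_lit 156) (nat_lit 0) (nat_lit 0) (XT.nd (nat_lit 78) (nat_lit 0) (nat_lit 0) (XT.lf (nat_lit 0) (nat_lit 1848346694672) (nat_lit 152) (nat_lit 2122297716457) (nat_lit 0) (nat_lit 1847269256275)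 (nat_lit 1) (nat_lit 5) (nat_lit 3) (nat_lit 4) (nat_lit 1) (nat_lit 4) (nat_lit 412) (nat_lit 268) (nat_lit 220)) (XT.lf (nat_lit 0) (nat_lit 1997009210824) (nat_lit 152) (nat_lit 2290336877067) (nat_lit 0) (nat_lit 1995929736999) (nat_lit 1) (nat_lit 5) (nat_lit 3) (nat_lit 4) (nat_lit 1) (nat_lit 4) (nat_lit 413) (nat_lit 268) (nat_lit 219))) (XT.nd (nat_lit 78) (nat_lit 0) (nat_lit 0) (XT.lf (nat_lit 0) (nat_lit 2157561738113) (nat_lit 152) (nat_lit 2471825077394) (nat_lit 0) (nat_lit 2156480379634) (nat_lit 1) (nat_lit 5) (nat_lit 3) (nat_lit 4) (nat_lit 1) (nat_lit 4) (nat_lit 414) (nat_lit 268) (nat_lit 218)) (XT.nd (nat_lit 42744) (nat_lit 0) (nat_lit 0) (XT.lf (nat_lit 0) (nat_lit 2330955698924) (nat_lit 152) (nat_lit 2667837803071) (nat_lit 0) (nat_lit 2329872595395) (nat_lit 1) (nat_lit 5) (nat_lit 3) (nat_lit 4) (nat_lit 1) (nat_lit 4) (nat_lit 415) (nat_lit 268) (nat_lit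 217)) (XT.lf (nat_lit 0) (nat_lit 9026598428) (nat_lit 152) (nat_lit 44873955899) (nat_lit 0) (nat_lit 9026598428) (nat_lit 1) (nat_lit 5) (nat_lit 3) (nat_lit 4) (nat_lit 1) (nat_lit 4) (nat_lit 362) (nat_lit 269) (nat_lit 269))))))) (XT.nd (nat_lit 624) (nat_lit 0) (nat_lit 0) (XT.nd (nat_lit 312) (nat_lit 0) (nat_lit 0) (XT.nd (nat_lit 156) (nat_lit 0) (nat_lit 0) (XT.nd (nat_lit 78) (nat_lit 0) (nat_lit 0) (XT.lf (nat_lit 0) (nat_lit 22065257383) (nat_lit 152) (nat_lit 91666616585) (nat_lit 0) (nat_lit 21976864051) (nat_lit 1) (nat_lit 5) (nat_lit 3) (nat_lit 4) (nat_lit 1) (nat_lit 4) (nat_lit 363) (nat_lit 269) (nat_lit 268)) (XT.lf (nat_lit 0) (nat_lit 26268428070) (nat_lit 152) (nat_lit 93995337832) (nat_lit 0) (nat_lit 26098189059) (nat_lit 1) (nat_lit 5) (nat_lit 3) (nat_lit 4) (nat_lit 1) (nat_lit 4) (nat_lit 364) (nat_lit 269) (nat_lit 267))) (XT.nd (nat_lit 78) (nat_lit 0)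 (nat_lit 0) (XT.lf (nat_lit 0) (nat_lit 30687616595) (nat_lit 152) (nat_lit 96747875371) (nat_lit 0) (nat_lit 30441594548) (nat_lit 1) (nat_lit 5) (nat_lit 3) (nat_lit 4) (nat_lit 1) (nat_lit 4) (nat_lit 365) (nat_lit 269) (nat_lit 266)) (XT.lf (nat_lit 0) (nat_lit 35349010743) (nat_lit 152) (nat_lit 99940540534) (nat_lit 0) (nat_lit 35032819218) (nat_lit 1) (nat_lit 5) (nat_lit 3) (nat_lit 4) (nat_lit 1) (nat_lit 4) (nat_lit 366) (nat_lit 269) (nat_lit 265)))) (XT.nd (nat_lit 156) (nat_lit 0) (nat_lit 0) (XT.nd (nat_lit 78) (nat_lit 0) (nat_lit 0) (XT.lf (nat_lit 0) (nat_lit 40280233589) (nat_lit 152) (nat_lit 103592252820) (nat_lit 0) (nat_lit 39899070326) (nat_lit 1) (nat_lit 5) (nat_lit 3) (nat_lit 4) (nat_lit 1) (nat_lit 4) (nat_lit 367) (nat_lit 269) (nat_lit 264)) (XT.lf (nat_lit 0) (nat_lit 45510507196) (nat_lit 152) (nat_lit 107724652005) (nat_lit 0) (nat_lit 45069184916) (nat_lit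 1) (nat_lit 5) (nat_lit 3) (nat_lit 4) (nat_lit 1) (nat_lit 4) (nat_lit 368) (nat_lit 269) (nat_lit 263))) (XT.nd (nat_lit 78) (nat_lit 0) (nat_lit 0) (XT.lf (nat_lit 0) (nat_lit 51070825776) (nat_lit 152) (nat_lit 112362226380) (nat_lit 0) (nat_lit 50573800703) (nat_lit 1) (nat_lit 5) (nat_lit 3) (nat_lit 4) (nat_lit 1) (nat_lit 4) (nat_lit 369) (nat_lit 269) (nat_lit 262)) (XT.lf (nat_lit 0) (nat_lit 56994139367) (nat_lit 152) (nat_lit 117532457868) (nat_lit 0) (nat_lit 56445537633) (nat_lit 1) (nat_lit 5) (nat_lit 3) (nat_lit 4) (nat_lit 1) (nat_lit 4) (nat_lit 370) (nat_lit 269) (nat_lit 261))))) (XT.nd (nat_lit 312) (nat_lit 0) (nat_lit 0) (XT.nd (nat_lit 156) (nat_lit 0) (nat_lit 0) (XT.nd (nat_lit 78) (nat_lit 0) (nat_lit 0) (XT.lf (nat_lit 0) (nat_lit 63315549086) (nat_lit 152) (nat_lit 123265984877) (nat_lit 0) (nat_lit 62719191185) (nat_lit 1) (nat_lit 5) (nat_lit 3) (nat_lit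 4) (nat_lit 1) (nat_lit 4) (nat_lit 371) (nat_lit 269) (nat_lit 260)) (XT.lf (nat_lit 0) (nat_lit 70072515138) (nat_lit 152) (nat_lit 129596783863) (nat_lit 0) (nat_lit 69431938563) (nat_lit 1) (nat_lit 5) (nat_lit 3) (nat_lit 4) (nat_lit 1) (nat_lit 4) (nat_lit 372) (nat_lit 269) (nat_lit 259))) (XT.nd (nat_lit 78) (nat_lit 0) (nat_lit 0) (XT.lf (nat_lit 0) (nat_lit 77305078804) (nat_lit 152) (nat_lit 136562370673) (nat_lit 0) (nat_lit 76623559013) (nat_lit 1) (nat_lit 5) (nat_lit 3) (nat_lit 4) (nat_lit 1) (nat_lit 4) (nat_lit 373) (nat_lit 269) (nat_lit 258)) (XT.lf (nat_lit 0) (nat_lit 85056099720) (nat_lit 152) (nat_lit 144204022858) (nat_lit 0) (nat_lit 84336669544) (nat_lit 1) (nat_lit 5) (nat_lit 3) (nat_lit 4) (nat_lit 1) (nat_lit 4) (nat_lit 374) (nat_lit 269) (nat_lit 257)))) (XT.nd (nat_lit 156) (nat_lit 0) (nat_lit 0) (XT.nd (nat_lit 78) (nat_lit 0) (nat_lit 0) (XT.lf (nat_lit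 0) (nat_lit 93371509862) (nat_lit 152) (nat_lit 152567024282) (nat_lit 0) (nat_lit 92616977478) (nat_lit 1) (nat_lit 5) (nat_lit 3) (nat_lit 4) (nat_lit 1) (nat_lit 4) (nat_lit 375) (nat_lit 269) (nat_lit 256)) (XT.lf (nat_lit 0) (nat_lit 102300585735) (nat_lit 152) (nat_lit 161700933474) (nat_lit 0) (nat_lit 101513551306) (nat_lit 1) (nat_lit 5) (nat_lit 3) (nat_lit 4) (nat_lit 1) (nat_lit 4) (nat_lit 376) (nat_lit 269) (nat_lit 255))) (XT.nd (nat_lit 78) (nat_lit 0) (nat_lit 0) (XT.lf (nat_lit 0) (nat_lit 111896240381) (nat_lit 152) (nat_lit 171659877301) (nat_lit 0) (nat_lit 111079111465) (nat_lit 1) (nat_lit 5) (nat_lit 3) (nat_lit 4) (nat_lit 1) (nat_lit 4) (nat_lit 377) (nat_lit 269) (nat_lit 254)) (XT.nd (nat_lit 78) (nat_lit 0) (nat_lit 0) (XT.lf (nat_lit 0) (nat_lit 122215336938) (nat_lit 152) (nat_lit 182502871728) (nat_lit 0) (nat_lit 121370342758) (nat_lit 1) (nat_lit 5) (nat_lit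 3) (nat_lit 4) (nat_lit 1) (nat_lit 4) (nat_lit 378) (nat_lit 269) (nat_lit 253)) (XT.lf (nat_lit 0) (nat_lit 133319025609) (nat_lit 152) (nat_lit 194294171536) (nat_lit 0) (nat_lit 132448230257) (nat_lit 1) (nat_lit 5) (nat_lit 3) (nat_lit 4) (nat_lit 1) (nat_lit 4) (nat_lit 379) (nat_lit 269) (nat_lit 252))))))))
noncomputable def xc21 : XT := (XT.nd (nat_lit 1326) (nat_lit 0) (nat_lit 0) (XT.nd (nat_lit 624) (nat_lit 0) (nat_lit 0) (XT.nd (nat_lit 312) (nat_lit 0) (nat_lit 0) (XT.nd (nat_lit 156) (nat_lit 0) (nat_lit 0) (XT.nd (nat_lit 78) (nat_lit 0) (nat_lit 0) (XT.lf (nat_lit 0) (nat_lit 145273106030) (nat_lit 152) (nat_lit 207103651094) (nat_lit 0) (nat_lit 144378420704) (nat_lit 1) (nat_lit 5) (nat_lit 3) (nat_lit 4) (nat_lit 1) (nat_lit 4) (nat_lit 380) (nat_lit 269) (nat_lit 251)) (XT.lf (nat_lit 0) (nat_lit 158148417195) (nat_lit 152) (nat_lit 221007218430) (nat_lit 0) (nat_lit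 157231611524) (nat_lit 1) (nat_lit 5) (nat_lit 3) (nat_lit 4) (nat_lit 1) (nat_lit 4) (nat_lit 381) (nat_lit 269) (nat_lit 250))) (XT.nd (nat_lit 78) (nat_lit 0) (nat_lit 0) (XT.lf (nat_lit 0) (nat_lit 172021257246) (nat_lit 152) (nat_lit 236087265053) (nat_lit 0) (nat_lit 171083969774) (nat_lit 1) (nat_lit 5) (nat_lit 3) (nat_lit 4) (nat_lit 1) (nat_lit 4) (nat_lit 382) (nat_lit 269) (nat_lit 249)) (XT.lf (nat_lit 0) (nat_lit 186973835605) (nat_lit 152) (nat_lit 252433154203) (nat_lit 0) (nat_lit 186017583501) (nat_lit 1) (nat_lit 5) (nat_lit 3) (nat_lit 4) (nat_lit 1) (nat_lit 4) (nat_lit 383) (nat_lit 269) (nat_lit 248)))) (XT.nd (nat_lit 156) (nat_lit 0) (nat_lit 0) (XT.nd (nat_lit 78) (nat_lit 0) (nat_lit 0) (XT.lf (nat_lit 0) (nat_lit 203094760143) (nat_lit 152) (nat_lit 270141750408) (nat_lit 0) (nat_lit 202120948196) (nat_lit 1) (nat_lit 5) (nat_lit 3) (nat_lit 4) (nat_lit 1)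 (nat_lit 4) (nat_lit 384) (nat_lit 269) (nat_lit 247)) (XT.lf (nat_lit 0) (nat_lit 220479562265) (nat_lit 152) (nat_lit 289317993498) (nat_lit 0) (nat_lit 219489491204) (nat_lit 1) (nat_lit 5) (nat_lit 3) (nat_lit 4) (nat_lit 1) (nat_lit 4) (nat_lit 385) (nat_lit 269) (nat_lit 246))) (XT.nd (nat_lit 78) (nat_lit 0) (nat_lit 0) (XT.lf (nat_lit 0) (nat_lit 239231263021) (nat_lit 152) (nat_lit 310075520468) (nat_lit 0) (nat_lit 238226137224) (nat_lit 1) (nat_lit 5) (nat_lit 3) (nat_lit 4) (nat_lit 1) (nat_lit 4) (nat_lit 386) (nat_lit 269) (nat_lit 245)) (XT.lf (nat_lit 0) (nat_lit 259460983601) (nat_lit 152) (nat_lit 332537338886) (nat_lit 0) (nat_lit 258441918234) (nat_lit 1) (nat_lit 5) (nat_lit 3) (nat_lit 4) (nat_lit 1) (nat_lit 4) (nat_lit 387) (nat_lit 269) (nat_lit 244))))) (XT.nd (nat_lit 312) (nat_lit 0) (nat_lit 0) (XT.nd (nat_lit 156) (nat_lit 0) (nat_lit 0) (XT.nd (nat_lit 78)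 (nat_lit 0) (nat_lit 0) (XT.lf (nat_lit 0) (nat_lit 281288603829) (nat_lit 152) (nat_lit 356836555825) (nat_lit 0) (nat_lit 280256631453) (nat_lit 1) (nat_lit 5) (nat_lit 3) (nat_lit 4) (nat_lit 1) (nat_lit 4) (nat_lit 388) (nat_lit 269) (nat_lit 243)) (XT.lf (nat_lit 0) (nat_lit 304843472568) (nat_lit 152) (nat_lit 383117166642) (nat_lit 0) (nat_lit 303799549257) (nat_lit 1) (nat_lit 5) (nat_lit 3) (nat_lit 4) (nat_lit 1) (nat_lit 4) (nat_lit 389) (nat_lit 269) (nat_lit 242))) (XT.nd (nat_lit 78) (nat_lit 0) (nat_lit 0) (XT.lf (nat_lit 0) (nat_lit 330265174223) (nat_lit 152) (nat_lit 411534908292) (nat_lit 0) (nat_lit 329210185232) (nat_lit 1) (nat_lit 5) (nat_lit 3) (nat_lit 4) (nat_lit 1) (nat_lit 4) (nat_lit 390) (nat_lit 269) (nat_lit 241)) (XT.lf (nat_lit 0) (nat_lit 357704355917) (nat_lit 152) (nat_lit 442258182207) (nat_lit 0) (nat_lit 356639120926) (nat_lit 1) (nat_lit 5) (nat_lit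 3) (nat_lit 4) (nat_lit 1) (nat_lit 4) (nat_lit 391) (nat_lit 269) (nat_lit 240)))) (XT.nd (nat_lit 156) (nat_lit 0) (nat_lit 0) (XT.nd (nat_lit 78) (nat_lit 0) (nat_lit 0) (XT.lf (nat_lit 0) (nat_lit 387323620206) (nat_lit 152) (nat_lit 475469052232) (nat_lit 0) (nat_lit 386248898178) (nat_lit 1) (nat_lit 5) (nat_lit 3) (nat_lit 4) (nat_lit 1) (nat_lit 4) (nat_lit 392) (nat_lit 269) (nat_lit 239)) (XT.lf (nat_lit 0) (nat_lit 419298488658) (nat_lit 152) (nat_lit 511364323522) (nat_lit 0) (nat_lit 418214982337) (nat_lit 1) (nat_lit 5) (nat_lit 3) (nat_lit 4) (nat_lit 1) (nat_lit 4) (nat_lit 393) (nat_lit 269) (nat_lit 238))) (XT.nd (nat_lit 78) (nat_lit 0) (nat_lit 0) (XT.lf (nat_lit 0) (nat_lit 453818441975) (nat_lit 152) (nat_lit 550156708797) (nat_lit 0) (nat_lit 452726802048) (nat_lit 1) (nat_lit 5) (nat_lit 3) (nat_lit 4) (nat_lit 1) (nat_lit 4) (nat_lit 394) (nat_lit 269) (nat_lit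 237)) (XT.nd (nat_lit 78) (nat_lit 0) (nat_lit 0) (XT.lf (nat_lit 0) (nat_lit 491088042841) (nat_lit 152) (nat_lit 592076088857) (nat_lit 0) (nat_lit 489988871799) (nat_lit 1) (nat_lit 5) (nat_lit 3) (nat_lit 4) (nat_lit 1) (nat_lit 4) (nat_lit 395) (nat_lit 269) (nat_lit 236)) (XT.lf (nat_lit 0) (nat_lit 531328148153) (nat_lit 152) (nat_lit 637370874845) (nat_lit 0) (nat_lit 530222003855) (nat_lit 1) (nat_lit 5) (nat_lit 3) (nat_lit 4) (nat_lit 1) (nat_lit 4) (nat_lit 396) (nat_lit 269) (nat_lit 235))))))) (XT.nd (nat_lit 624) (nat_lit 0) (nat_lit 0) (XT.nd (nat_lit 312) (nat_lit 0) (nat_lit 0) (XT.nd (nat_lit 156) (nat_lit 0) (nat_lit 0) (XT.nd (nat_lit 78) (nat_lit 0) (nat_lit 0) (XT.lf (nat_lit 0) (nat_lit 574777217792) (nat_lit 152) (nat_lit 686309480307) (nat_lit 0) (nat_lit 573664616776) (nat_lit 1) (nat_lit 5) (nat_lit 3) (nat_lit 4) (nat_lit 1) (nat_lit 4) (nat_lit 397) (nat_lit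 269) (nat_lit 234)) (XT.lf (nat_lit 0) (nat_lit 621692727728) (nat_lit 152) (nat_lit 739181911793) (nat_lit 0) (nat_lit 620574148269) (nat_lit 1) (nat_lit 5) (nat_lit 3) (nat_lit 4) (nat_lit 1) (nat_lit 4) (nat_lit 398) (nat_lit 269) (nat_lit 233))) (XT.nd (nat_lit 78) (nat_lit 0) (nat_lit 0) (XT.lf (nat_lit 0) (nat_lit 672352695796) (nat_lit 152) (nat_lit 796301487416) (nat_lit 0) (nat_lit 671228580742) (nat_lit 1) (nat_lit 5) (nat_lit 3) (nat_lit 4) (nat_lit 1) (nat_lit 4) (nat_lit 399) (nat_lit 269) (nat_lit 232)) (XT.lf (nat_lit 0) (nat_lit 727057329216) (nat_lit 152) (nat_lit 858006693551) (nat_lit 0) (nat_lit 725928088611) (nat_lit 1) (nat_lit 5) (nat_lit 3) (nat_lit 4) (nat_lit 1) (nat_lit 4) (nat_lit 400) (nat_lit 269) (nat_lit 231)))) (XT.nd (nat_lit 156) (nat_lit 0) (nat_lit 0) (XT.nd (nat_lit 78) (nat_lit 0) (nat_lit 0) (XT.lf (nat_lit 0) (nat_lit 786130803592) (nat_lit 152)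 (nat_lit 924663190678) (nat_lit 0) (nat_lit 784996817106) (nat_lit 1) (nat_lit 5) (nat_lit 3) (nat_lit 4) (nat_lit 1) (nat_lit 4) (nat_lit 401) (nat_lit 269) (nat_lit 230)) (XT.lf (nat_lit 0) (nat_lit 849923183958) (nat_lit 152) (nat_lit 996665980261) (nat_lit 0) (nat_lit 848784803138) (nat_lit 1) (nat_lit 5) (nat_lit 3) (nat_lit 4) (nat_lit 1) (nat_lit 4) (nat_lit 402) (nat_lit 269) (nat_lit 229))) (XT.nd (nat_lit 78) (nat_lit 0) (nat_lit 0) (XT.lf (nat_lit 0) (nat_lit 918812499234) (nat_lit 152) (nat_lit 1074441745498) (nat_lit 0) (nat_lit 917670049587) (nat_lit 1) (nat_lit 5) (nat_lit 3) (nat_lit 4) (nat_lit 1) (nat_lit 4) (nat_lit 403) (nat_lit 269) (nat_lit 228)) (XT.lf (nat_lit 0) (nat_lit 993206982400) (nat_lit 152) (nat_lit 1158451379812) (nat_lit 0) (nat_lit 992060765320) (nat_lit 1) (nat_lit 5) (nat_lit 3) (nat_lit 4) (nat_lit 1) (nat_lit 4) (nat_lit 404) (nat_lit 269) (nat_lit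 227))))) (XT.nd (nat_lit 312) (nat_lit 0) (nat_lit 0) (XT.nd (nat_lit 156) (nat_lit 0) (nat_lit 0) (XT.nd (nat_lit 78) (nat_lit 0) (nat_lit 0) (XT.lf (nat_lit 0) (nat_lit 1073547489653) (nat_lit 152) (nat_lit 1249192718075) (nat_lit 0) (nat_lit 1072397784209) (nat_lit 1) (nat_lit 5) (nat_lit 3) (nat_lit 4) (nat_lit 1) (nat_lit 4) (nat_lit 405) (nat_lit 269) (nat_lit 226)) (XT.lf (nat_lit 0) (nat_lit 1160310112886) (nat_lit 152) (nat_lit 1347203486733) (nat_lit 0) (nat_lit 1159157177476) (nat_lit 1) (nat_lit 5) (nat_lit 3) (nat_lit 4) (nat_lit 1) (nat_lit 4) (nat_lit 406) (nat_lit 269) (nat_lit 225))) (XT.nd (nat_lit 78) (nat_lit 0) (nat_lit 0) (XT.lf (nat_lit 0) (nat_lit 1254009000980) (nat_lit 152) (nat_lit 1453064490344) (nat_lit 0) (nat_lit 1252853074860) (nat_lit 1) (nat_lit 5) (nat_lit 3) (nat_lit 4) (nat_lit 1) (nat_lit 4) (nat_lit 407) (nat_lit 269) (nat_lit 224)) (XT.lf (nat_lit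 0) (nat_lit 1355199406603) (nat_lit 152) (nat_lit 1567403053372) (nat_lit 0) (nat_lit 1354040711308) (nat_lit 1) (nat_lit 5) (nat_lit 3) (nat_lit 4) (nat_lit 1) (nat_lit 4) (nat_lit 408) (nat_lit 269) (nat_lit 223)))) (XT.nd (nat_lit 156) (nat_lit 0) (nat_lit 0) (XT.nd (nat_lit 78) (nat_lit 0) (nat_lit 0) (XT.lf (nat_lit 0) (nat_lit 1464480976605) (nat_lit 152) (nat_lit 1690896737672) (nat_lit 0) (nat_lit 1463319717258) (nat_lit 1) (nat_lit 5) (nat_lit 3) (nat_lit 4) (nat_lit 1) (nat_lit 4) (nat_lit 409) (nat_lit 269) (nat_lit 222)) (XT.lf (nat_lit 0) (nat_lit 1582501305473) (nat_lit 152) (nat_lit 1824277357670) (nat_lit 0) (nat_lit 1581337672004) (nat_lit 1) (nat_lit 5) (nat_lit 3) (nat_lit 4) (nat_lit 1) (nat_lit 4) (nat_lit 410) (nat_lit 269) (nat_lit 221))) (XT.nd (nat_lit 78) (nat_lit 0) (nat_lit 0) (XT.lf (nat_lit 0) (nat_lit 1709959772935) (nat_lit 152) (nat_lit 1968335317040)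 (nat_lit 0) (nat_lit 1708793941205) (nat_lit 1) (nat_lit 5) (nat_lit 3) (nat_lit 4) (nat_lit 1) (nat_lit 4) (nat_lit 411) (nat_lit 269) (nat_lit 220)) (XT.nd (nat_lit 78) (nat_lit 0) (nat_lit 0) (XT.lf (nat_lit 0) (nat_lit 1847611688428) (nat_lit 152) (nat_lit 2123924292579) (nat_lit 0) (nat_lit 1846443821271) (nat_lit 1) (nat_lit 5) (nat_lit 3) (nat_lit 4) (nat_lit 1) (nat_lit 4) (nat_lit 412) (nat_lit 269) (nat_lit 219)) (XT.lf (nat_lit 0) (nat_lit 1996272767005) (nat_lit 152) (nat_lit 2291966293029) (nat_lit 0) (nat_lit 1995103015194) (nat_lit 1) (nat_lit 5) (nat_lit 3) (nat_lit 4) (nat_lit 1) (nat_lit 4) (nat_lit 413) (nat_lit 269) (nat_lit 218))))))))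
noncomputable def xc22 : XT := (XT.nd (nat_lit 43836) (nat_lit 0) (nat_lit 0) (XT.nd (nat_lit 43134) (nat_lit 0) (nat_lit 0) (XT.nd (nat_lit 42822) (nat_lit 0) (nat_lit 0) (XT.nd (nat_lit 42666) (nat_lit 0) (nat_lit 0) (XT.nd (nat_lit 78) (nat_lit 0) (nat_lit 0) (XT.lf (nat_lit 0) (nat_lit 2156823963207) (nat_lit 152) (nat_lit 2473457122839) (nat_lit 0) (nat_lit 2155652466346) (nat_lit 1) (nat_lit 5) (nat_lit 3) (nat_lit 4) (nat_lit 1) (nat_lit 4) (nat_lit 414) (nat_lit 269) (nat_lit 217)) (XT.lf (nat_lit 0) (nat_lit 2330216691531) (nat_lit 152) (nat_lit 2669472283222) (nat_lit 0) (nat_lit 2329043578881) (nat_lit 1) (nat_lit 5) (nat_lit 3) (nat_lit 4) (nat_lit 1) (nat_lit 4) (nat_lit 415) (nat_lit 269) (nat_lit 216))) (XT.nd (nat_lit 78) (nat_lit 0) (nat_lit 0) (XT.lf (nat_lit 0) (nat_lit 5338290258) (nat_lit 152) (nat_lit 43476792492) (nat_lit 0) (nat_lit 5338290258) (nat_lit 1) (nat_lit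 5) (nat_lit 3) (nat_lit 4) (nat_lit 1) (nat_lit 4) (nat_lit 360) (nat_lit 270) (nat_lit 270)) (XT.lf (nat_lit 0) (nat_lit 14303936117) (nat_lit 152) (nat_lit 88227853373) (nat_lit 0) (nat_lit 14208471318) (nat_lit 1) (nat_lit 5) (nat_lit 3) (nat_lit 4) (nat_lit 1) (nat_lit 4) (nat_lit 361) (nat_lit 270) (nat_lit 269)))) (XT.nd (nat_lit 156) (nat_lit 0) (nat_lit 0) (XT.nd (nat_lit 78) (nat_lit 0) (nat_lit 0) (XT.lf (nat_lit 0) (nat_lit 18081237110) (nat_lit 152) (nat_lit 89881104917) (nat_lit 0) (nat_lit 17897378978) (nat_lit 1) (nat_lit 5) (nat_lit 3) (nat_lit 4) (nat_lit 1) (nat_lit 4) (nat_lit 362) (nat_lit 270) (nat_lit 268)) (XT.lf (nat_lit 0) (nat_lit 22030867501) (nat_lit 152) (nat_lit 91923136664) (nat_lit 0) (nat_lit 21765163690) (nat_lit 1) (nat_lit 5) (nat_lit 3) (nat_lit 4) (nat_lit 1) (nat_lit 4) (nat_lit 363) (nat_lit 270) (nat_lit 267))) (XT.nd (nat_lit 78) (nat_lit 0) (nat_lit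 0) (XT.lf (nat_lit 0) (nat_lit 26176232507) (nat_lit 152) (nat_lit 94366049542) (nat_lit 0) (nat_lit 25834745660) (nat_lit 1) (nat_lit 5) (nat_lit 3) (nat_lit 4) (nat_lit 1) (nat_lit 4) (nat_lit 364) (nat_lit 270) (nat_lit 266)) (XT.lf (nat_lit 0) (nat_lit 30541897253) (nat_lit 152) (nat_lit 97224320072) (nat_lit 0) (nat_lit 30130240930) (nat_lit 1) (nat_lit 5) (nat_lit 3) (nat_lit 4) (nat_lit 1) (nat_lit 4) (nat_lit 365) (nat_lit 270) (nat_lit 265))))) (XT.nd (nat_lit 312) (nat_lit 0) (nat_lit 0) (XT.nd (nat_lit 156) (nat_lit 0) (nat_lit 0) (XT.nd (nat_lit 78) (nat_lit 0) (nat_lit 0) (XT.lf (nat_lit 0) (nat_lit 35153732346) (nat_lit 152) (nat_lit 100514886153) (nat_lit 0) (nat_lit 34677104284) (nat_lit 1) (nat_lit 5) (nat_lit 3) (nat_lit 4) (nat_lit 1) (nat_lit 4) (nat_lit 366) (nat_lit 270) (nat_lit 264)) (XT.lf (nat_lit 0) (nat_lit 40039067180) (nat_lit 152) (nat_lit 104257247437)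 (nat_lit 0) (nat_lit 39502280101) (nat_lit 1) (nat_lit 5) (nat_lit 3) (nat_lit 4) (nat_lit 1) (nat_lit 4) (nat_lit 367) (nat_lit 270) (nat_lit 263))) (XT.nd (nat_lit 78) (nat_lit 0) (nat_lit 0) (XT.lf (nat_lit 0) (nat_lit 45226851885) (nat_lit 152) (nat_lit 108473580879) (nat_lit 0) (nat_lit 44634362013) (nat_lit 1) (nat_lit 5) (nat_lit 3) (nat_lit 4) (nat_lit 1) (nat_lit 4) (nat_lit 368) (nat_lit 270) (nat_lit 262)) (XT.lf (nat_lit 0) (nat_lit 50747828891) (nat_lit 152) (nat_lit 113188872160) (nat_lit 0) (nat_lit 50103762357) (nat_lit 1) (nat_lit 5) (nat_lit 3) (nat_lit 4) (nat_lit 1) (nat_lit 4) (nat_lit 369) (nat_lit 270) (nat_lit 261)))) (XT.nd (nat_lit 156) (nat_lit 0) (nat_lit 0) (XT.nd (nat_lit 78) (nat_lit 0) (nat_lit 0) (XT.lf (nat_lit 0) (nat_lit 56634715097) (nat_lit 152) (nat_lit 118431063744) (nat_lit 0) (nat_lit 55942892397) (nat_lit 1) (nat_lit 5) (nat_lit 3) (nat_lit 4)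 (nat_lit 1) (nat_lit 4) (nat_lit 370) (nat_lit 270) (nat_lit 260)) (XT.lf (nat_lit 0) (nat_lit 62922395756) (nat_lit 152) (nat_lit 124231220473) (nat_lit 0) (nat_lit 62186354382) (nat_lit 1) (nat_lit 5) (nat_lit 3) (nat_lit 4) (nat_lit 1) (nat_lit 4) (nat_lit 371) (nat_lit 270) (nat_lit 259))) (XT.nd (nat_lit 78) (nat_lit 0) (nat_lit 0) (XT.lf (nat_lit 0) (nat_lit 69648131197) (nat_lit 152) (nat_lit 130623713644) (nat_lit 0) (nat_lit 68871146607) (nat_lit 1) (nat_lit 5) (nat_lit 3) (nat_lit 4) (nat_lit 1) (nat_lit 4) (nat_lit 372) (nat_lit 270) (nat_lit 258)) (XT.nd (nat_lit 78) (nat_lit 0) (nat_lit 0) (XT.lf (nat_lit 0) (nat_lit 76851777631) (nat_lit 152) (nat_lit 137646424699) (nat_lit 0) (nat_lit 76036882656) (nat_lit 1) (nat_lit 5) (nat_lit 3) (nat_lit 4) (nat_lit 1) (nat_lit 4) (nat_lit 373) (nat_lit 270) (nat_lit 257)) (XT.lf (nat_lit 0) (nat_lit 84576023332) (nat_lit 152) (nat_lit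 145340969704) (nat_lit 0) (nat_lit 83726026148) (nat_lit 1) (nat_lit 5) (nat_lit 3) (nat_lit 4) (nat_lit 1) (nat_lit 4) (nat_lit 374) (nat_lit 270) (nat_lit 256))))))) (XT.nd (nat_lit 624) (nat_lit 0) (nat_lit 0) (XT.nd (nat_lit 312) (nat_lit 0) (nat_lit 0) (XT.nd (nat_lit 156) (nat_lit 0) (nat_lit 0) (XT.nd (nat_lit 78) (nat_lit 0) (nat_lit 0) (XT.lf (nat_lit 0) (nat_lit 92866641609) (nat_lit 152) (nat_lit 153752945961) (nat_lit 0) (nat_lit 91984142380) (nat_lit 1) (nat_lit 5) (nat_lit 3) (nat_lit 4) (nat_lit 1) (nat_lit 4) (nat_lit 375) (nat_lit 270) (nat_lit 255)) (XT.lf (nat_lit 0) (nat_lit 101772762050) (nat_lit 152) (nat_lit 162932202220) (nat_lit 0) (nat_lit 100860168335) (nat_lit 1) (nat_lit 5) (nat_lit 3) (nat_lit 4) (nat_lit 1) (nat_lit 4) (nat_lit 376) (nat_lit 270) (nat_lit 254))) (XT.nd (nat_lit 78) (nat_lit 0) (nat_lit 0) (XT.lf (nat_lit 0) (nat_lit 111347161667) (nat_lit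 152) (nat_lit 172933134073) (nat_lit 0) (nat_lit 110406702687) (nat_lit 1) (nat_lit 5) (nat_lit 3) (nat_lit 4) (nat_lit 1) (nat_lit 4) (nat_lit 377) (nat_lit 270) (nat_lit 253)) (XT.lf (nat_lit 0) (nat_lit 121646577642) (nat_lit 152) (nat_lit 183815006301) (nat_lit 0) (nat_lit 120680317491) (nat_lit 1) (nat_lit 5) (nat_lit 3) (nat_lit 4) (nat_lit 1) (nat_lit 4) (nat_lit 378) (nat_lit 270) (nat_lit 252)))) (XT.nd (nat_lit 156) (nat_lit 0) (nat_lit 0) (XT.nd (nat_lit 78) (nat_lit 0) (nat_lit 0) (XT.lf (nat_lit 0) (nat_lit 132732043552) (nat_lit 152) (nat_lit 195642304074) (nat_lit 0) (nat_lit 131741893427) (nat_lit 1) (nat_lit 5) (nat_lit 3) (nat_lit 4) (nat_lit 1) (nat_lit 4) (nat_lit 379) (nat_lit 270) (nat_lit 251)) (XT.lf (nat_lit 0) (nat_lit 144669251045) (nat_lit 152) (nat_lit 208485115080) (nat_lit 0) (nat_lit 143656980575) (nat_lit 1) (nat_lit 5) (nat_lit 3) (nat_lit 4) (nat_lit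 1) (nat_lit 4) (nat_lit 380) (nat_lit 270) (nat_lit 250))) (XT.nd (nat_lit 78) (nat_lit 0) (nat_lit 0) (XT.lf (nat_lit 0) (nat_lit 157528939130) (nat_lit 152) (nat_lit 222419544868) (nat_lit 0) (nat_lit 156496186858) (nat_lit 1) (nat_lit 5) (nat_lit 3) (nat_lit 4) (nat_lit 1) (nat_lit 4) (nat_lit 381) (nat_lit 270) (nat_lit 249)) (XT.lf (nat_lit 0) (nat_lit 171387313365) (nat_lit 152) (nat_lit 237528167836) (nat_lit 0) (nat_lit 170335596462) (nat_lit 1) (nat_lit 5) (nat_lit 3) (nat_lit 4) (nat_lit 1) (nat_lit 4) (nat_lit 382) (nat_lit 270) (nat_lit 248))))) (XT.nd (nat_lit 312) (nat_lit 0) (nat_lit 0) (XT.nd (nat_lit 156) (nat_lit 0) (nat_lit 0) (XT.nd (nat_lit 78) (nat_lit 0) (nat_lit 0) (XT.lf (nat_lit 0) (nat_lit 186326497450) (nat_lit 152) (nat_lit 253900516565) (nat_lit 0) (nat_lit 185257220704) (nat_lit 1) (nat_lit 5) (nat_lit 3) (nat_lit 4) (nat_lit 1) (nat_lit 4) (nat_lit 383)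 (nat_lit 270) (nat_lit 247)) (XT.lf (nat_lit 0) (nat_lit 202435019883) (nat_lit 152) (nat_lit 271633612380) (nat_lit 0) (nat_lit 201349484022) (nat_lit 1) (nat_lit 5) (nat_lit 3) (nat_lit 4) (nat_lit 1) (nat_lit 4) (nat_lit 384) (nat_lit 270) (nat_lit 246))) (XT.nd (nat_lit 78) (nat_lit 0) (nat_lit 0) (XT.lf (nat_lit 0) (nat_lit 219808338575) (nat_lit 152) (nat_lit 290832540293) (nat_lit 0) (nat_lit 218707747978) (nat_lit 1) (nat_lit 5) (nat_lit 3) (nat_lit 4) (nat_lit 1) (nat_lit 4) (nat_lit 385) (nat_lit 270) (nat_lit 245)) (XT.lf (nat_lit 0) (nat_lit 238549406524) (nat_lit 152) (nat_lit 311611071730) (nat_lit 0) (nat_lit 237434876358) (nat_lit 1) (nat_lit 5) (nat_lit 3) (nat_lit 4) (nat_lit 1) (nat_lit 4) (nat_lit 386) (nat_lit 270) (nat_lit 244)))) (XT.nd (nat_lit 156) (nat_lit 0) (nat_lit 0) (XT.nd (nat_lit 78) (nat_lit 0) (nat_lit 0) (XT.lf (nat_lit 0) (nat_lit 258769281913) (nat_lit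 152) (nat_lit 334092338728) (nat_lit 0) (nat_lit 257641844737) (nat_lit 1) (nat_lit 5) (nat_lit 3) (nat_lit 4) (nat_lit 1) (nat_lit 4) (nat_lit 387) (nat_lit 270) (nat_lit 243)) (XT.lf (nat_lit 0) (nat_lit 280587786224) (nat_lit 152) (nat_lit 358409563611) (nat_lit 0) (nat_lit 279448398114) (nat_lit 1) (nat_lit 5) (nat_lit 3) (nat_lit 4) (nat_lit 1) (nat_lit 4) (nat_lit 388) (nat_lit 270) (nat_lit 242))) (XT.nd (nat_lit 78) (nat_lit 0) (nat_lit 0) (XT.lf (nat_lit 0) (nat_lit 304134214298) (nat_lit 152) (nat_lit 384706848451) (nat_lit 0) (nat_lit 302983760508) (nat_lit 1) (nat_lit 5) (nat_lit 3) (nat_lit 4) (nat_lit 1) (nat_lit 4) (nat_lit 389) (nat_lit 270) (nat_lit 241)) (XT.nd (nat_lit 78) (nat_lit 0) (nat_lit 0) (XT.lf (nat_lit 0) (nat_lit 329548100523) (nat_lit 152) (nat_lit 413140029011) (nat_lit 0) (nat_lit 328387400733) (nat_lit 1) (nat_lit 5) (nat_lit 3) (nat_lit 4) (nat_lit 1)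 (nat_lit 4) (nat_lit 390) (nat_lit 270) (nat_lit 240)) (XT.lf (nat_lit 0) (nat_lit 356980045708) (nat_lit 152) (nat_lit 443877598213) (nat_lit 0) (nat_lit 355809858880) (nat_lit 1) (nat_lit 5) (nat_lit 3) (nat_lit 4) (nat_lit 1) (nat_lit 4) (nat_lit 391) (nat_lit 270) (nat_lit 239))))))))
noncomputable def xc23 : XT := (XT.nd (nat_lit 1326) (nat_lit 0) (nat_lit 0) (XT.nd (nat_lit 624) (nat_lit 0) (nat_lit 0) (XT.nd (nat_lit 312) (nat_lit 0) (nat_lit 0) (XT.nd (nat_lit 156) (nat_lit 0) (nat_lit 0) (XT.nd (nat_lit 78) (nat_lit 0) (nat_lit 0) (XT.lf (nat_lit 0) (nat_lit 386592609526) (nat_lit 152) (nat_lit 477101704614) (nat_lit 0) (nat_lit 385413638405) (nat_lit 1) (nat_lit 5) (nat_lit 3) (nat_lit 4) (nat_lit 1) (nat_lit 4) (nat_lit 392) (nat_lit 270) (nat_lit 238)) (XT.lf (nat_lit 0) (nat_lit 418561273837) (nat_lit 152) (nat_lit 513009231809) (nat_lit 0) (nat_lit 417374169111) (nat_lit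 1) (nat_lit 5) (nat_lit 3) (nat_lit 4) (nat_lit 1) (nat_lit 4) (nat_lit 393) (nat_lit 270) (nat_lit 237))) (XT.nd (nat_lit 78) (nat_lit 0) (nat_lit 0) (XT.lf (nat_lit 0) (nat_lit 453075482579) (nat_lit 152) (nat_lit 551812965143) (nat_lit 0) (nat_lit 451880846737) (nat_lit 1) (nat_lit 5) (nat_lit 3) (nat_lit 4) (nat_lit 1) (nat_lit 4) (nat_lit 394) (nat_lit 270) (nat_lit 236)) (XT.lf (nat_lit 0) (nat_lit 490339764396) (nat_lit 152) (nat_lit 593742852666) (nat_lit 0) (nat_lit 489138155298) (nat_lit 1) (nat_lit 5) (nat_lit 3) (nat_lit 4) (nat_lit 1) (nat_lit 4) (nat_lit 395) (nat_lit 270) (nat_lit 235)))) (XT.nd (nat_lit 156) (nat_lit 0) (nat_lit 0) (XT.nd (nat_lit 78) (nat_lit 0) (nat_lit 0) (XT.lf (nat_lit 0) (nat_lit 530574944661) (nat_lit 152) (nat_lit 639047367786) (nat_lit 0) (nat_lit 529366878845) (nat_lit 1) (nat_lit 5) (nat_lit 3) (nat_lit 4) (nat_lit 1) (nat_lit 4) (nat_lit 396)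 (nat_lit 270) (nat_lit 234)) (XT.lf (nat_lit 0) (nat_lit 574019454072) (nat_lit 152) (nat_lit 687994981704) (nat_lit 0) (nat_lit 572805409813) (nat_lit 1) (nat_lit 5) (nat_lit 3) (nat_lit 4) (nat_lit 1) (nat_lit 4) (nat_lit 397) (nat_lit 270) (nat_lit 233))) (XT.nd (nat_lit 78) (nat_lit 0) (nat_lit 0) (XT.lf (nat_lit 0) (nat_lit 620930741574) (nat_lit 152) (nat_lit 740875754353) (nat_lit 0) (nat_lit 619711161720) (nat_lit 1) (nat_lit 5) (nat_lit 3) (nat_lit 4) (nat_lit 1) (nat_lit 4) (nat_lit 398) (nat_lit 270) (nat_lit 232)) (XT.lf (nat_lit 0) (nat_lit 671586799981) (nat_lit 152) (nat_lit 798003053275) (nat_lit 0) (nat_lit 670362094577) (nat_lit 1) (nat_lit 5) (nat_lit 3) (nat_lit 4) (nat_lit 1) (nat_lit 4) (nat_lit 399) (nat_lit 270) (nat_lit 231))))) (XT.nd (nat_lit 312) (nat_lit 0) (nat_lit 0) (XT.nd (nat_lit 156) (nat_lit 0) (nat_lit 0) (XT.nd (nat_lit 78) (nat_lit 0) (nat_lit 0)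 (XT.lf (nat_lit 0) (nat_lit 726287813345) (nat_lit 152) (nat_lit 859715410612) (nat_lit 0) (nat_lit 725058362060) (nat_lit 1) (nat_lit 5) (nat_lit 3) (nat_lit 4) (nat_lit 1) (nat_lit 4) (nat_lit 400) (nat_lit 270) (nat_lit 230)) (XT.lf (nat_lit 0) (nat_lit 785357935817) (nat_lit 152) (nat_lit 926378529222) (nat_lit 0) (nat_lit 784124090198) (nat_lit 1) (nat_lit 5) (nat_lit 3) (nat_lit 4) (nat_lit 1) (nat_lit 4) (nat_lit 401) (nat_lit 270) (nat_lit 229))) (XT.nd (nat_lit 78) (nat_lit 0) (nat_lit 0) (XT.lf (nat_lit 0) (nat_lit 849147212567) (nat_lit 152) (nat_lit 998387449809) (nat_lit 0) (nat_lit 847909298121) (nat_lit 1) (nat_lit 5) (nat_lit 3) (nat_lit 4) (nat_lit 1) (nat_lit 4) (nat_lit 402) (nat_lit 270) (nat_lit 228)) (XT.lf (nat_lit 0) (nat_lit 918033654126) (nat_lit 152) (nat_lit 1076168891901) (nat_lit 0) (nat_lit 916791972247) (nat_lit 1) (nat_lit 5) (nat_lit 3) (nat_lit 4) (nat_lit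 1) (nat_lit 4) (nat_lit 403) (nat_lit 270) (nat_lit 227)))) (XT.nd (nat_lit 156) (nat_lit 0) (nat_lit 0) (XT.nd (nat_lit 78) (nat_lit 0) (nat_lit 0) (XT.lf (nat_lit 0) (nat_lit 992425476443) (nat_lit 152) (nat_lit 1160183782563) (nat_lit 0) (nat_lit 991180306200) (nat_lit 1) (nat_lit 5) (nat_lit 3) (nat_lit 4) (nat_lit 1) (nat_lit 4) (nat_lit 404) (nat_lit 270) (nat_lit 226)) (XT.lf (nat_lit 0) (nat_lit 1072763519946) (nat_lit 152) (nat_lit 1250929987813) (nat_lit 0) (nat_lit 1071515119736) (nat_lit 1) (nat_lit 5) (nat_lit 3) (nat_lit 4) (nat_lit 1) (nat_lit 4) (nat_lit 405) (nat_lit 270) (nat_lit 225))) (XT.nd (nat_lit 78) (nat_lit 0) (nat_lit 0) (XT.lf (nat_lit 0) (nat_lit 1159523861930) (nat_lit 152) (nat_lit 1348945262943) (nat_lit 0) (nat_lit 1158272471011) (nat_lit 1) (nat_lit 5) (nat_lit 3) (nat_lit 4) (nat_lit 1) (nat_lit 4) (nat_lit 406) (nat_lit 270) (nat_lit 224)) (XT.nd (nat_lit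 78) (nat_lit 0) (nat_lit 0) (XT.lf (nat_lit 0) (nat_lit 1253220637756) (nat_lit 152) (nat_lit 1454810439211) (nat_lit 0) (nat_lit 1251966477661) (nat_lit 1) (nat_lit 5) (nat_lit 3) (nat_lit 4) (nat_lit 1) (nat_lit 4) (nat_lit 407) (nat_lit 270) (nat_lit 223)) (XT.lf (nat_lit 0) (nat_lit 1354409087576) (nat_lit 152) (nat_lit 1569152865811) (nat_lit 0) (nat_lit 1353152363429) (nat_lit 1) (nat_lit 5) (nat_lit 3) (nat_lit 4) (nat_lit 1) (nat_lit 4) (nat_lit 408) (nat_lit 270) (nat_lit 222))))))) (XT.nd (nat_lit 43056) (nat_lit 0) (nat_lit 0) (XT.nd (nat_lit 312) (nat_lit 0) (nat_lit 0) (XT.nd (nat_lit 156) (nat_lit 0) (nat_lit 0) (XT.nd (nat_lit 78) (nat_lit 0) (nat_lit 0) (XT.lf (nat_lit 0) (nat_lit 1463688846648) (nat_lit 152) (nat_lit 1692650127493) (nat_lit 0) (nat_lit 1462429748379) (nat_lit 1) (nat_lit 5) (nat_lit 3) (nat_lit 4) (nat_lit 1) (nat_lit 4) (nat_lit 409) (nat_lit 270) (nat_lit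 221)) (XT.lf (nat_lit 0) (nat_lit 1581707498730) (nat_lit 152) (nat_lit 1826034059882) (nat_lit 0) (nat_lit 1580446202200) (nat_lit 1) (nat_lit 5) (nat_lit 3) (nat_lit 4) (nat_lit 1) (nat_lit 4) (nat_lit 410) (nat_lit 270) (nat_lit 220))) (XT.nd (nat_lit 78) (nat_lit 0) (nat_lit 0) (XT.lf (nat_lit 0) (nat_lit 1709164413612) (nat_lit 152) (nat_lit 1970095086280) (nat_lit 0) (nat_lit 1707901081655) (nat_lit 1) (nat_lit 5) (nat_lit 3) (nat_lit 4) (nat_lit 1) (nat_lit 4) (nat_lit 411) (nat_lit 270) (nat_lit 219)) (XT.lf (nat_lit 0) (nat_lit 1846814891530) (nat_lit 152) (nat_lit 2125686901660) (nat_lit 0) (nat_lit 1845549674919) (nat_lit 1) (nat_lit 5) (nat_lit 3) (nat_lit 4) (nat_lit 1) (nat_lit 4) (nat_lit 412) (nat_lit 270) (nat_lit 218)))) (XT.nd (nat_lit 156) (nat_lit 0) (nat_lit 0) (XT.nd (nat_lit 78) (nat_lit 0) (nat_lit 0) (XT.lf (nat_lit 0) (nat_lit 1995474639020) (nat_lit 152) (nat_lit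 2293731531592) (nat_lit 0) (nat_lit 1994207677359) (nat_lit 1) (nat_lit 5) (nat_lit 3) (nat_lit 4) (nat_lit 1) (nat_lit 4) (nat_lit 413) (nat_lit 270) (nat_lit 217)) (XT.lf (nat_lit 0) (nat_lit 2156024602734) (nat_lit 152) (nat_lit 2475224796108) (nat_lit 0) (nat_lit 2154756025286) (nat_lit 1) (nat_lit 5) (nat_lit 3) (nat_lit 4) (nat_lit 1) (nat_lit 4) (nat_lit 414) (nat_lit 270) (nat_lit 216))) (XT.nd (nat_lit 42432) (nat_lit 0) (nat_lit 0) (XT.lf (nat_lit 0) (nat_lit 2329416189865) (nat_lit 152) (nat_lit 2671242210848) (nat_lit 0) (nat_lit 2328146116317) (nat_lit 1) (nat_lit 5) (nat_lit 3) (nat_lit 4) (nat_lit 1) (nat_lit 4) (nat_lit 415) (nat_lit 270) (nat_lit 215)) (XT.nd (nat_lit 78) (nat_lit 0) (nat_lit 0) (XT.lf (nat_lit 0) (nat_lit 1984115443) (nat_lit 152) (nat_lit 42679318712) (nat_lit 0) (nat_lit 1984115443) (nat_lit 1) (nat_lit 5) (nat_lit 3) (nat_lit 4) (nat_lit 1) (nat_lit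 4) (nat_lit 358) (nat_lit 271) (nat_lit 271)) (XT.lf (nat_lit 0) (nat_lit 7280776850) (nat_lit 152) (nat_lit 86050748534) (nat_lit 0) (nat_lit 7177674866) (nat_lit 1) (nat_lit 5) (nat_lit 3) (nat_lit 4) (nat_lit 1) (nat_lit 4) (nat_lit 359) (nat_lit 271) (nat_lit 270)))))) (XT.nd (nat_lit 312) (nat_lit 0) (nat_lit 0) (XT.nd (nat_lit 156) (nat_lit 0) (nat_lit 0) (XT.nd (nat_lit 78) (nat_lit 0) (nat_lit 0) (XT.lf (nat_lit 0) (nat_lit 10706863990) (nat_lit 152) (nat_lit 87097433553) (nat_lit 0) (nat_lit 10508297207) (nat_lit 1) (nat_lit 5) (nat_lit 3) (nat_lit 4) (nat_lit 1) (nat_lit 4) (nat_lit 360) (nat_lit 271) (nat_lit 269)) (XT.lf (nat_lit 0) (nat_lit 14266795044) (nat_lit 152) (nat_lit 88504895058) (nat_lit 0) (nat_lit 13979834929) (nat_lit 1) (nat_lit 5) (nat_lit 3) (nat_lit 4) (nat_lit 1) (nat_lit 4) (nat_lit 361) (nat_lit 271) (nat_lit 268))) (XT.nd (nat_lit 78) (nat_lit 0) (nat_lit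 0) (XT.lf (nat_lit 0) (nat_lit 17981665902) (nat_lit 152) (nat_lit 90281473563) (nat_lit 0) (nat_lit 17612860108) (nat_lit 1) (nat_lit 5) (nat_lit 3) (nat_lit 4) (nat_lit 1) (nat_lit 4) (nat_lit 362) (nat_lit 271) (nat_lit 267)) (XT.lf (nat_lit 0) (nat_lit 21873490612) (nat_lit 152) (nat_lit 92437696941) (nat_lit 0) (nat_lit 21428901782) (nat_lit 1) (nat_lit 5) (nat_lit 3) (nat_lit 4) (nat_lit 1) (nat_lit 4) (nat_lit 363) (nat_lit 271) (nat_lit 266)))) (XT.nd (nat_lit 156) (nat_lit 0) (nat_lit 0) (XT.nd (nat_lit 78) (nat_lit 0) (nat_lit 0) (XT.lf (nat_lit 0) (nat_lit 25965331839) (nat_lit 152) (nat_lit 94986342810) (nat_lit 0) (nat_lit 25450573532) (nat_lit 1) (nat_lit 5) (nat_lit 3) (nat_lit 4) (nat_lit 1) (nat_lit 4) (nat_lit 364) (nat_lit 271) (nat_lit 265)) (XT.lf (nat_lit 0) (nat_lit 30281437531) (nat_lit 152) (nat_lit 97942514258) (nat_lit 0) (nat_lit 29701707486) (nat_lit 1) (nat_lit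 5) (nat_lit 3) (nat_lit 4) (nat_lit 1) (nat_lit 4) (nat_lit 365) (nat_lit 271) (nat_lit 264))) (XT.nd (nat_lit 78) (nat_lit 0) (nat_lit 0) (XT.lf (nat_lit 0) (nat_lit 34847384611) (nat_lit 152) (nat_lit 101323729337) (nat_lit 0) (nat_lit 34207495549) (nat_lit 1) (nat_lit 5) (nat_lit 3) (nat_lit 4) (nat_lit 1) (nat_lit 4) (nat_lit 366) (nat_lit 271) (nat_lit 263)) (XT.nd (nat_lit 78) (nat_lit 0) (nat_lit 0) (XT.lf (nat_lit 0) (nat_lit 39690230543) (nat_lit 152) (nat_lit 105150024879) (nat_lit 0) (nat_lit 38994638687) (nat_lit 1) (nat_lit 5) (nat_lit 3) (nat_lit 4) (nat_lit 1) (nat_lit 4) (nat_lit 367) (nat_lit 271) (nat_lit 262)) (XT.lf (nat_lit 0) (nat_lit 44838673673) (nat_lit 152) (nat_lit 109444075226) (nat_lit 0) (nat_lit 44091505157) (nat_lit 1) (nat_lit 5) (nat_lit 3) (nat_lit 4) (nat_lit 1) (nat_lit 4) (nat_lit 368) (nat_lit 271) (nat_lit 261))))))))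
noncomputable def xc24 : XT := (XT.nd (nat_lit 1326) (nat_lit 0) (nat_lit 0) (XT.nd (nat_lit 624) (nat_lit 0) (nat_lit 0) (XT.nd (nat_lit 312) (nat_lit 0) (nat_lit 0) (XT.nd (nat_lit 156) (nat_lit 0) (nat_lit 0) (XT.nd (nat_lit 78) (nat_lit 0) (nat_lit 0) (XT.lf (nat_lit 0) (nat_lit 50323223294) (nat_lit 152) (nat_lit 114231326603) (nat_lit 0) (nat_lit 49528298611) (nat_lit 1) (nat_lit 5) (nat_lit 3) (nat_lit 4) (nat_lit 1) (nat_lit 4) (nat_lit 369) (nat_lit 271) (nat_lit 260)) (XT.lf (nat_lit 0) (nat_lit 56176380441) (nat_lit 152) (nat_lit 119540147908) (nat_lit 0) (nat_lit 55337237084) (nat_lit 1) (nat_lit 5) (nat_lit 3) (nat_lit 4) (nat_lit 1) (nat_lit 4) (nat_lit 370) (nat_lit 271) (nat_lit 259))) (XT.nd (nat_lit 78) (nat_lit 0) (nat_lit 0) (XT.lf (nat_lit 0) (nat_lit 62432830489) (nat_lit 152) (nat_lit 125401998821) (nat_lit 0) (nat_lit 61552743916) (nat_lit 1) (nat_lit 5) (nat_lit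 3) (nat_lit 4) (nat_lit 1) (nat_lit 4) (nat_lit 371) (nat_lit 271) (nat_lit 258)) (XT.lf (nat_lit 0) (nat_lit 69129648699) (nat_lit 152) (nat_lit 131851616238) (nat_lit 0) (nat_lit 68211651740) (nat_lit 1) (nat_lit 5) (nat_lit 3) (nat_lit 4) (nat_lit 1) (nat_lit 4) (nat_lit 372) (nat_lit 271) (nat_lit 257)))) (XT.nd (nat_lit 156) (nat_lit 0) (nat_lit 0) (XT.nd (nat_lit 78) (nat_lit 0) (nat_lit 0) (XT.lf (nat_lit 0) (nat_lit 76306519917) (nat_lit 152) (nat_lit 138927220113) (nat_lit 0) (nat_lit 75353420750) (nat_lit 1) (nat_lit 5) (nat_lit 3) (nat_lit 4) (nat_lit 1) (nat_lit 4) (nat_lit 373) (nat_lit 271) (nat_lit 256)) (XT.lf (nat_lit 0) (nat_lit 84005973753) (nat_lit 152) (nat_lit 146670739950) (nat_lit 0) (nat_lit 83020372541) (nat_lit 1) (nat_lit 5) (nat_lit 3) (nat_lit 4) (nat_lit 1) (nat_lit 4) (nat_lit 374) (nat_lit 271) (nat_lit 255))) (XT.nd (nat_lit 78) (nat_lit 0) (nat_lit 0)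 (XT.lf (nat_lit 0) (nat_lit 92273636598) (nat_lit 152) (nat_lit 155128063276) (nat_lit 0) (nat_lit 91257940900) (nat_lit 1) (nat_lit 5) (nat_lit 3) (nat_lit 4) (nat_lit 1) (nat_lit 4) (nat_lit 375) (nat_lit 271) (nat_lit 254)) (XT.lf (nat_lit 0) (nat_lit 101158502011) (nat_lit 152) (nat_lit 164349307560) (nat_lit 0) (nat_lit 100114941048) (nat_lit 1) (nat_lit 5) (nat_lit 3) (nat_lit 4) (nat_lit 1) (nat_lit 4) (nat_lit 376) (nat_lit 271) (nat_lit 253))))) (XT.nd (nat_lit 312) (nat_lit 0) (nat_lit 0) (XT.nd (nat_lit 156) (nat_lit 0) (nat_lit 0) (XT.nd (nat_lit 78) (nat_lit 0) (nat_lit 0) (XT.lf (nat_lit 0) (nat_lit 110713221045) (nat_lit 152) (nat_lit 174389117214) (nat_lit 0) (nat_lit 109643858911) (nat_lit 1) (nat_lit 5) (nat_lit 3) (nat_lit 4) (nat_lit 1) (nat_lit 4) (nat_lit 377) (nat_lit 271) (nat_lit 252)) (XT.lf (nat_lit 0) (nat_lit 120994414259) (nat_lit 152) (nat_lit 185306987407)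 (nat_lit 0) (nat_lit 119901162151) (nat_lit 1) (nat_lit 5) (nat_lit 3) (nat_lit 4) (nat_lit 1) (nat_lit 4) (nat_lit 378) (nat_lit 271) (nat_lit 251))) (XT.nd (nat_lit 78) (nat_lit 0) (nat_lit 0) (XT.lf (nat_lit 0) (nat_lit 132063007241) (nat_lit 152) (nat_lit 197167616628) (nat_lit 0) (nat_lit 130947634788) (nat_lit 1) (nat_lit 5) (nat_lit 3) (nat_lit 4) (nat_lit 1) (nat_lit 4) (nat_lit 379) (nat_lit 271) (nat_lit 250)) (XT.lf (nat_lit 0) (nat_lit 143984591654) (nat_lit 152) (nat_lit 210041290087) (nat_lit 0) (nat_lit 142848737399) (nat_lit 1) (nat_lit 5) (nat_lit 3) (nat_lit 4) (nat_lit 1) (nat_lit 4) (nat_lit 380) (nat_lit 271) (nat_lit 249)))) (XT.nd (nat_lit 156) (nat_lit 0) (nat_lit 0) (XT.nd (nat_lit 78) (nat_lit 0) (nat_lit 0) (XT.lf (nat_lit 0) (nat_lit 156829813923) (nat_lit 152) (nat_lit 224004296219) (nat_lit 0) (nat_lit 155674995037) (nat_lit 1) (nat_lit 5) (nat_lit 3) (nat_lit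 4) (nat_lit 1) (nat_lit 4) (nat_lit 381) (nat_lit 271) (nat_lit 248)) (XT.lf (nat_lit 0) (nat_lit 170674793885) (nat_lit 152) (nat_lit 239139378766) (nat_lit 0) (nat_lit 169502415155) (nat_lit 1) (nat_lit 5) (nat_lit 3) (nat_lit 4) (nat_lit 1) (nat_lit 4) (nat_lit 382) (nat_lit 271) (nat_lit 247))) (XT.nd (nat_lit 78) (nat_lit 0) (nat_lit 0) (XT.lf (nat_lit 0) (nat_lit 185601575864) (nat_lit 152) (nat_lit 255536227104) (nat_lit 0) (nat_lit 184412938020) (nat_lit 1) (nat_lit 5) (nat_lit 3) (nat_lit 4) (nat_lit 1) (nat_lit 4) (nat_lit 383) (nat_lit 271) (nat_lit 246)) (XT.nd (nat_lit 78) (nat_lit 0) (nat_lit 0) (XT.lf (nat_lit 0) (nat_lit 201698614866) (nat_lit 152) (nat_lit 273292007743) (nat_lit 0) (nat_lit 200494922287) (nat_lit 1) (nat_lit 5) (nat_lit 3) (nat_lit 4) (nat_lit 1) (nat_lit 4) (nat_lit 384) (nat_lit 271) (nat_lit 245)) (XT.lf (nat_lit 0) (nat_lit 219061300752) (nat_lit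 152) (nat_lit 292511940122) (nat_lit 0) (nat_lit 217843668602) (nat_lit 1) (nat_lit 5) (nat_lit 3) (nat_lit 4) (nat_lit 1) (nat_lit 4) (nat_lit 385) (nat_lit 271) (nat_lit 244))))))) (XT.nd (nat_lit 624) (nat_lit 0) (nat_lit 0) (XT.nd (nat_lit 312) (nat_lit 0) (nat_lit 0) (XT.nd (nat_lit 156) (nat_lit 0) (nat_lit 0) (XT.nd (nat_lit 78) (nat_lit 0) (nat_lit 0) (XT.lf (nat_lit 0) (nat_lit 237792523511) (nat_lit 152) (nat_lit 313309920139) (nat_lit 0) (nat_lit 236561984352) (nat_lit 1) (nat_lit 5) (nat_lit 3) (nat_lit 4) (nat_lit 1) (nat_lit 4) (nat_lit 386) (nat_lit 271) (nat_lit 243)) (XT.lf (nat_lit 0) (nat_lit 258003282982) (nat_lit 152) (nat_lit 335809195082) (nat_lit 0) (nat_lit 256760792888) (nat_lit 1) (nat_lit 5) (nat_lit 3) (nat_lit 4) (nat_lit 1) (nat_lit 4) (nat_lit 387) (nat_lit 271) (nat_lit 242))) (XT.nd (nat_lit 78) (nat_lit 0) (nat_lit 0) (XT.lf (nat_lit 0) (nat_lit 279813346628)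 (nat_lit 152) (nat_lit 360143093987) (nat_lit 0) (nat_lit 278559790855) (nat_lit 1) (nat_lit 5) (nat_lit 3) (nat_lit 4) (nat_lit 1) (nat_lit 4) (nat_lit 388) (nat_lit 271) (nat_lit 241)) (XT.lf (nat_lit 0) (nat_lit 303351959272) (nat_lit 152) (nat_lit 386455817737) (nat_lit 0) (nat_lit 302088157499) (nat_lit 1) (nat_lit 5) (nat_lit 3) (nat_lit 4) (nat_lit 1) (nat_lit 4) (nat_lit 389) (nat_lit 271) (nat_lit 240)))) (XT.nd (nat_lit 156) (nat_lit 0) (nat_lit 0) (XT.nd (nat_lit 78) (nat_lit 0) (nat_lit 0) (XT.lf (nat_lit 0) (nat_lit 328758608988) (nat_lit 152) (nat_lit 414903293584) (nat_lit 0) (nat_lit 327485320178) (nat_lit 1) (nat_lit 5) (nat_lit 3) (nat_lit 4) (nat_lit 1) (nat_lit 4) (nat_lit 390) (nat_lit 271) (nat_lit 239)) (XT.lf (nat_lit 0) (nat_lit 356183853701) (nat_lit 152) (nat_lit 445654099162) (nat_lit 0) (nat_lit 354901780597) (nat_lit 1) (nat_lit 5) (nat_lit 3) (nat_lit 4)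 (nat_lit 1) (nat_lit 4) (nat_lit 391) (nat_lit 271) (nat_lit 238))) (XT.nd (nat_lit 78) (nat_lit 0) (nat_lit 0) (XT.lf (nat_lit 0) (nat_lit 385790213379) (nat_lit 152) (nat_lit 478890461468) (nat_lit 0) (nat_lit 384500006669) (nat_lit 1) (nat_lit 5) (nat_lit 3) (nat_lit 4) (nat_lit 1) (nat_lit 4) (nat_lit 392) (nat_lit 271) (nat_lit 237)) (XT.lf (nat_lit 0) (nat_lit 417753133116) (nat_lit 152) (nat_lit 514809336723) (nat_lit 0) (nat_lit 416455395291) (nat_lit 1) (nat_lit 5) (nat_lit 3) (nat_lit 4) (nat_lit 1) (nat_lit 4) (nat_lit 393) (nat_lit 271) (nat_lit 236))))) (XT.nd (nat_lit 312) (nat_lit 0) (nat_lit 0) (XT.nd (nat_lit 156) (nat_lit 0) (nat_lit 0) (XT.nd (nat_lit 78) (nat_lit 0) (nat_lit 0) (XT.lf (nat_lit 0) (nat_lit 452262022808) (nat_lit 152) (nat_lit 553623577520) (nat_lit 0) (nat_lit 450957311727) (nat_lit 1) (nat_lit 5) (nat_lit 3) (nat_lit 4) (nat_lit 1) (nat_lit 4) (nat_lit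 394) (nat_lit 271) (nat_lit 235)) (XT.lf (nat_lit 0) (nat_lit 489521379578) (nat_lit 152) (nat_lit 595563194175) (nat_lit 0) (nat_lit 488210211779) (nat_lit 1) (nat_lit 5) (nat_lit 3) (nat_lit 4) (nat_lit 1) (nat_lit 4) (nat_lit 395) (nat_lit 271) (nat_lit 234))) (XT.nd (nat_lit 78) (nat_lit 0) (nat_lit 0) (XT.lf (nat_lit 0) (nat_lit 529751999614) (nat_lit 152) (nat_lit 640876717751) (nat_lit 0) (nat_lit 528434853372) (nat_lit 1) (nat_lit 5) (nat_lit 3) (nat_lit 4) (nat_lit 1) (nat_lit 4) (nat_lit 396) (nat_lit 271) (nat_lit 233)) (XT.lf (nat_lit 0) (nat_lit 573192286591) (nat_lit 152) (nat_lit 689832672830) (nat_lit 0) (nat_lit 571869604755) (nat_lit 1) (nat_lit 5) (nat_lit 3) (nat_lit 4) (nat_lit 1) (nat_lit 4) (nat_lit 397) (nat_lit 271) (nat_lit 232)))) (XT.nd (nat_lit 156) (nat_lit 0) (nat_lit 0) (XT.nd (nat_lit 78) (nat_lit 0) (nat_lit 0) (XT.lf (nat_lit 0) (nat_lit 620099664433)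 (nat_lit 152) (nat_lit 742721168778) (nat_lit 0) (nat_lit 618771857045) (nat_lit 1) (nat_lit 5) (nat_lit 3) (nat_lit 4) (nat_lit 1) (nat_lit 4) (nat_lit 398) (nat_lit 271) (nat_lit 231)) (XT.lf (nat_lit 0) (nat_lit 670752102784) (nat_lit 152) (nat_lit 799855618903) (nat_lit 0) (nat_lit 669419549516) (nat_lit 1) (nat_lit 5) (nat_lit 3) (nat_lit 4) (nat_lit 1) (nat_lit 4) (nat_lit 399) (nat_lit 271) (nat_lit 230))) (XT.nd (nat_lit 78) (nat_lit 0) (nat_lit 0) (XT.lf (nat_lit 0) (nat_lit 725449764243) (nat_lit 152) (nat_lit 861574597724) (nat_lit 0) (nat_lit 724112816641) (nat_lit 1) (nat_lit 5) (nat_lit 3) (nat_lit 4) (nat_lit 1) (nat_lit 4) (nat_lit 400) (nat_lit 271) (nat_lit 229)) (XT.nd (nat_lit 78) (nat_lit 0) (nat_lit 0) (XT.lf (nat_lit 0) (nat_lit 784516783100) (nat_lit 152) (nat_lit 928243847338) (nat_lit 0) (nat_lit 783175766671) (nat_lit 1) (nat_lit 5) (nat_lit 3) (nat_lit 4) (nat_lit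 1) (nat_lit 4) (nat_lit 401) (nat_lit 271) (nat_lit 228)) (XT.lf (nat_lit 0) (nat_lit 848303186134) (nat_lit 152) (nat_lit 1000258444779) (nat_lit 0) (nat_lit 846958402271) (nat_lit 1) (nat_lit 5) (nat_lit 3) (nat_lit 4) (nat_lit 1) (nat_lit 4) (nat_lit 402) (nat_lit 271) (nat_lit 227))))))))
noncomputable def xc25 : XT := (XT.nd (nat_lit 43524) (nat_lit 0) (nat_lit 0) (XT.nd (nat_lit 624) (nat_lit 0) (nat_lit 0) (XT.nd (nat_lit 312) (nat_lit 0) (nat_lit 0) (XT.nd (nat_lit 156) (nat_lit 0) (nat_lit 0) (XT.nd (nat_lit 78) (nat_lit 0) (nat_lit 0) (XT.lf (nat_lit 0) (nat_lit 917186966843) (nat_lit 152) (nat_lit 1078045143219) (nat_lit 0) (nat_lit 915838694617) (nat_lit 1) (nat_lit 5) (nat_lit 3) (nat_lit 4) (nat_lit 1) (nat_lit 4) (nat_lit 403) (nat_lit 271) (nat_lit 226)) (XT.lf (nat_lit 0) (nat_lit 991576325411) (nat_lit 152) (nat_lit 1162064900869) (nat_lit 0) (nat_lit 990224823218) (nat_lit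 1) (nat_lit 5) (nat_lit 3) (nat_lit 4) (nat_lit 1) (nat_lit 4) (nat_lit 404) (nat_lit 271) (nat_lit 225))) (XT.nd (nat_lit 78) (nat_lit 0) (nat_lit 0) (XT.lf (nat_lit 0) (nat_lit 1071912087664) (nat_lit 152) (nat_lit 1252815612590) (nat_lit 0) (nat_lit 1070557594761) (nat_lit 1) (nat_lit 5) (nat_lit 3) (nat_lit 4) (nat_lit 1) (nat_lit 4) (nat_lit 405) (nat_lit 271) (nat_lit 224)) (XT.lf (nat_lit 0) (nat_lit 1158670317380) (nat_lit 152) (nat_lit 1350835060378) (nat_lit 0) (nat_lit 1157313055302) (nat_lit 1) (nat_lit 5) (nat_lit 3) (nat_lit 4) (nat_lit 1) (nat_lit 4) (nat_lit 406) (nat_lit 271) (nat_lit 223)))) (XT.nd (nat_lit 156) (nat_lit 0) (nat_lit 0) (XT.nd (nat_lit 78) (nat_lit 0) (nat_lit 0) (XT.lf (nat_lit 0) (nat_lit 1252365137402) (nat_lit 152) (nat_lit 1456704100218) (nat_lit 0) (nat_lit 1251005311272) (nat_lit 1) (nat_lit 5) (nat_lit 3) (nat_lit 4) (nat_lit 1) (nat_lit 4) (nat_lit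 407) (nat_lit 271) (nat_lit 222)) (XT.lf (nat_lit 0) (nat_lit 1353551776292) (nat_lit 152) (nat_lit 1571050104200) (nat_lit 0) (nat_lit 1352189576041) (nat_lit 1) (nat_lit 5) (nat_lit 3) (nat_lit 4) (nat_lit 1) (nat_lit 4) (nat_lit 408) (nat_lit 271) (nat_lit 221))) (XT.nd (nat_lit 78) (nat_lit 0) (nat_lit 0) (XT.lf (nat_lit 0) (nat_lit 1462829858578) (nat_lit 152) (nat_lit 1694550678272) (nat_lit 0) (nat_lit 1461465460065) (nat_lit 1) (nat_lit 5) (nat_lit 3) (nat_lit 4) (nat_lit 1) (nat_lit 4) (nat_lit 409) (nat_lit 271) (nat_lit 220)) (XT.lf (nat_lit 0) (nat_lit 1580846958080) (nat_lit 152) (nat_lit 1827937677689) (nat_lit 0) (nat_lit 1579480524140) (nat_lit 1) (nat_lit 5) (nat_lit 3) (nat_lit 4) (nat_lit 1) (nat_lit 4) (nat_lit 410) (nat_lit 271) (nat_lit 219))))) (XT.nd (nat_lit 312) (nat_lit 0) (nat_lit 0) (XT.nd (nat_lit 156) (nat_lit 0) (nat_lit 0) (XT.nd (nat_lit 78) (nat_lit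 0) (nat_lit 0) (XT.lf (nat_lit 0) (nat_lit 1708302435387) (nat_lit 152) (nat_lit 1972001543928) (nat_lit 0) (nat_lit 1706934116793) (nat_lit 1) (nat_lit 5) (nat_lit 3) (nat_lit 4) (nat_lit 1) (nat_lit 4) (nat_lit 411) (nat_lit 271) (nat_lit 218)) (XT.lf (nat_lit 0) (nat_lit 1845951582218) (nat_lit 152) (nat_lit 2127595988790) (nat_lit 0) (nat_lit 1844581518574) (nat_lit 1) (nat_lit 5) (nat_lit 3) (nat_lit 4) (nat_lit 1) (nat_lit 4) (nat_lit 412) (nat_lit 271) (nat_lit 217))) (XT.nd (nat_lit 78) (nat_lit 0) (nat_lit 0) (XT.lf (nat_lit 0) (nat_lit 1994610097221) (nat_lit 152) (nat_lit 2295643053429) (nat_lit 0) (nat_lit 1993238417789) (nat_lit 1) (nat_lit 5) (nat_lit 3) (nat_lit 4) (nat_lit 1) (nat_lit 4) (nat_lit 413) (nat_lit 271) (nat_lit 216)) (XT.lf (nat_lit 0) (nat_lit 2155158919742) (nat_lit 152) (nat_lit 2477138572302) (nat_lit 0) (nat_lit 2153785744211) (nat_lit 1) (nat_lit 5)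 (nat_lit 3) (nat_lit 4) (nat_lit 1) (nat_lit 4) (nat_lit 414) (nat_lit 271) (nat_lit 215)))) (XT.nd (nat_lit 42354) (nat_lit 0) (nat_lit 0) (XT.nd (nat_lit 42276) (nat_lit 0) (nat_lit 152) (XT.lf (nat_lit 0) (nat_lit 2328549450213) (nat_lit 152) (nat_lit 2673158074410) (nat_lit 0) (nat_lit 2327174889404) (nat_lit 1) (nat_lit 5) (nat_lit 3) (nat_lit 4) (nat_lit 1) (nat_lit 4) (nat_lit 415) (nat_lit 271) (nat_lit 214)) (XT.lf (nat_lit 0) (nat_lit 38079251917) (nat_lit 76) (nat_lit 1071135769) (nat_lit 76) (nat_lit 1071135769) (nat_lit 3) (nat_lit 4) (nat_lit 4) (nat_lit 5) (nat_lit 4) (nat_lit 4) (nat_lit 356) (nat_lit 272) (nat_lit 272))) (XT.nd (nat_lit 78) (nat_lit 0) (nat_lit 0) (XT.lf (nat_lit 0) (nat_lit 860946339) (nat_lit 152) (nat_lit 85016998824) (nat_lit 0) (nat_lit 749596197) (nat_lit 1) (nat_lit 5) (nat_lit 3) (nat_lit 4) (nat_lit 1) (nat_lit 4) (nat_lit 357) (nat_lit 272)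 (nat_lit 271)) (XT.nd (nat_lit 78) (nat_lit 0) (nat_lit 0) (XT.lf (nat_lit 0) (nat_lit 4000937038) (nat_lit 152) (nat_lit 85513993877) (nat_lit 0) (nat_lit 3786484912) (nat_lit 1) (nat_lit 5) (nat_lit 3) (nat_lit 4) (nat_lit 1) (nat_lit 4) (nat_lit 358) (nat_lit 272) (nat_lit 270)) (XT.lf (nat_lit 0) (nat_lit 7240664491) (nat_lit 152) (nat_lit 86349953554) (nat_lit 0) (nat_lit 6930747566) (nat_lit 1) (nat_lit 5) (nat_lit 3) (nat_lit 4) (nat_lit 1) (nat_lit 4) (nat_lit 359) (nat_lit 272) (nat_lit 269))))))) (XT.nd (nat_lit 624) (nat_lit 0) (nat_lit 0) (XT.nd (nat_lit 312) (nat_lit 0) (nat_lit 0) (XT.nd (nat_lit 156) (nat_lit 0) (nat_lit 0) (XT.nd (nat_lit 78) (nat_lit 0) (nat_lit 0) (XT.lf (nat_lit 0) (nat_lit 10599327085) (nat_lit 152) (nat_lit 87529831691) (nat_lit 0) (nat_lit 10201016827) (nat_lit 1) (nat_lit 5) (nat_lit 3) (nat_lit 4) (nat_lit 1) (nat_lit 4) (nat_lit 360) (nat_lit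 272) (nat_lit 268)) (XT.lf (nat_lit 0) (nat_lit 14096828004) (nat_lit 152) (nat_lit 89060620157) (nat_lit 0) (nat_lit 13616672068) (nat_lit 1) (nat_lit 5) (nat_lit 3) (nat_lit 4) (nat_lit 1) (nat_lit 4) (nat_lit 361) (nat_lit 272) (nat_lit 267))) (XT.nd (nat_lit 78) (nat_lit 0) (nat_lit 0) (XT.lf (nat_lit 0) (nat_lit 17753893181) (nat_lit 152) (nat_lit 90951390293) (nat_lit 0) (nat_lit 17197954209) (nat_lit 1) (nat_lit 5) (nat_lit 3) (nat_lit 4) (nat_lit 1) (nat_lit 4) (nat_lit 362) (nat_lit 272) (nat_lit 266)) (XT.lf (nat_lit 0) (nat_lit 21592194112) (nat_lit 152) (nat_lit 93213346662) (nat_lit 0) (nat_lit 20966085663) (nat_lit 1) (nat_lit 5) (nat_lit 3) (nat_lit 4) (nat_lit 1) (nat_lit 4) (nat_lit 363) (nat_lit 272) (nat_lit 265)))) (XT.nd (nat_lit 156) (nat_lit 0) (nat_lit 0) (XT.nd (nat_lit 78) (nat_lit 0) (nat_lit 0) (XT.lf (nat_lit 0) (nat_lit 25634476284) (nat_lit 152) (nat_lit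 95859893449) (nat_lit 0) (nat_lit 24943396097) (nat_lit 1) (nat_lit 5) (nat_lit 3) (nat_lit 4) (nat_lit 1) (nat_lit 4) (nat_lit 364) (nat_lit 272) (nat_lit 264)) (XT.lf (nat_lit 0) (nat_lit 29904693963) (nat_lit 152) (nat_lit 98906713895) (nat_lit 0) (nat_lit 29153454759) (nat_lit 1) (nat_lit 5) (nat_lit 3) (nat_lit 4) (nat_lit 1) (nat_lit 4) (nat_lit 365) (nat_lit 272) (nat_lit 263))) (XT.nd (nat_lit 78) (nat_lit 0) (nat_lit 0) (XT.lf (nat_lit 0) (nat_lit 34428152142) (nat_lit 152) (nat_lit 102371863232) (nat_lit 0) (nat_lit 33621210145) (nat_lit 1) (nat_lit 5) (nat_lit 3) (nat_lit 4) (nat_lit 1) (nat_lit 4) (nat_lit 366) (nat_lit 272) (nat_lit 262)) (XT.lf (nat_lit 0) (nat_lit 39231656499) (nat_lit 152) (nat_lit 106275875678) (nat_lit 0) (nat_lit 38373137841) (nat_lit 1) (nat_lit 5) (nat_lit 3) (nat_lit 4) (nat_lit 1) (nat_lit 4) (nat_lit 367) (nat_lit 272) (nat_lit 261))))) (XT.nd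 (nat_lit 312) (nat_lit 0) (nat_lit 0) (XT.nd (nat_lit 156) (nat_lit 0) (nat_lit 0) (XT.nd (nat_lit 78) (nat_lit 0) (nat_lit 0) (XT.lf (nat_lit 0) (nat_lit 44343672245) (nat_lit 152) (nat_lit 110641886123) (nat_lit 0) (nat_lit 43437397419) (nat_lit 1) (nat_lit 5) (nat_lit 3) (nat_lit 4) (nat_lit 1) (nat_lit 4) (nat_lit 368) (nat_lit 272) (nat_lit 260)) (XT.lf (nat_lit 0) (nat_lit 49794492807) (nat_lit 152) (nat_lit 115495767220) (nat_lit 0) (nat_lit 48843999307) (nat_lit 1) (nat_lit 5) (nat_lit 3) (nat_lit 4) (nat_lit 1) (nat_lit 4) (nat_lit 369) (nat_lit 272) (nat_lit 259))) (XT.nd (nat_lit 78) (nat_lit 0) (nat_lit 0) (XT.lf (nat_lit 0) (nat_lit 55616419343) (nat_lit 152) (nat_lit 120866282709) (nat_lit 0) (nat_lit 54624982627) (nat_lit 1) (nat_lit 5) (nat_lit 3) (nat_lit 4) (nat_lit 1) (nat_lit 4) (nat_lit 370) (nat_lit 272) (nat_lit 258)) (XT.lf (nat_lit 0) (nat_lit 61843952159) (nat_lit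 152) (nat_lit 126785257868) (nat_lit 0) (nat_lit 60814605058) (nat_lit 1) (nat_lit 5) (nat_lit 3) (nat_lit 4) (nat_lit 1) (nat_lit 4) (nat_lit 371) (nat_lit 272) (nat_lit 257)))) (XT.nd (nat_lit 156) (nat_lit 0) (nat_lit 0) (XT.nd (nat_lit 78) (nat_lit 0) (nat_lit 0) (XT.lf (nat_lit 0) (nat_lit 68513995153) (nat_lit 152) (nat_lit 133287768104) (nat_lit 0) (nat_lit 67449545844) (nat_lit 1) (nat_lit 5) (nat_lit 3) (nat_lit 4) (nat_lit 1) (nat_lit 4) (nat_lit 372) (nat_lit 272) (nat_lit 256)) (XT.lf (nat_lit 0) (nat_lit 75666074506) (nat_lit 152) (nat_lit 140412346812) (nat_lit 0) (nat_lit 74569123152) (nat_lit 1) (nat_lit 5) (nat_lit 3) (nat_lit 4) (nat_lit 1) (nat_lit 4) (nat_lit 373) (nat_lit 272) (nat_lit 255))) (XT.nd (nat_lit 78) (nat_lit 0) (nat_lit 0) (XT.lf (nat_lit 0) (nat_lit 83342572910) (nat_lit 152) (nat_lit 148201213717) (nat_lit 0) (nat_lit 82215527070) (nat_lit 1) (nat_lit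 5) (nat_lit 3) (nat_lit 4) (nat_lit 1) (nat_lit 4) (nat_lit 374) (nat_lit 272) (nat_lit 254)) (XT.nd (nat_lit 78) (nat_lit 0) (nat_lit 0) (XT.lf (nat_lit 0) (nat_lit 91588980726) (nat_lit 152) (nat_lit 156700525068) (nat_lit 0) (nat_lit 90434069621) (nat_lit 1) (nat_lit 5) (nat_lit 3) (nat_lit 4) (nat_lit 1) (nat_lit 4) (nat_lit 375) (nat_lit 272) (nat_lit 253)) (XT.lf (nat_lit 0) (nat_lit 100454165557) (nat_lit 152) (nat_lit 165960647154) (nat_lit 0) (nat_lit 99273453281) (nat_lit 1) (nat_lit 5) (nat_lit 3) (nat_lit 4) (nat_lit 1) (nat_lit 4) (nat_lit 376) (nat_lit 272) (nat_lit 252))))))))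
noncomputable def xc26 : XT := (XT.nd (nat_lit 1326) (nat_lit 0) (nat_lit 0) (XT.nd (nat_lit 624) (nat_lit 0) (nat_lit 0) (XT.nd (nat_lit 312) (nat_lit 0) (nat_lit 0) (XT.nd (nat_lit 156) (nat_lit 0) (nat_lit 0) (XT.nd (nat_lit 78) (nat_lit 0) (nat_lit 0) (XT.lf (nat_lit 0) (nat_lit 109990661830) (nat_lit 152) (nat_lit 176036454773) (nat_lit 0) (nat_lit 108786059580) (nat_lit 1) (nat_lit 5) (nat_lit 3) (nat_lit 4) (nat_lit 1) (nat_lit 4) (nat_lit 377) (nat_lit 272) (nat_lit 251)) (XT.lf (nat_lit 0) (nat_lit 120254982116) (nat_lit 152) (nat_lit 186987656414) (nat_lit 0) (nat_lit 119028259521) (nat_lit 1) (nat_lit 5) (nat_lit 3) (nat_lit 4) (nat_lit 1) (nat_lit 4) (nat_lit 378) (nat_lit 272) (nat_lit 250))) (XT.nd (nat_lit 78) (nat_lit 0) (nat_lit 0) (XT.lf (nat_lit 0) (nat_lit 131307952018) (nat_lit 152) (nat_lit 198879148086) (nat_lit 0) (nat_lit 130060747621) (nat_lit 1) (nat_lit 5)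 (nat_lit 3) (nat_lit 4) (nat_lit 1) (nat_lit 4) (nat_lit 379) (nat_lit 272) (nat_lit 249)) (XT.lf (nat_lit 0) (nat_lit 143215070615) (nat_lit 152) (nat_lit 211781397890) (nat_lit 0) (nat_lit 141948901587) (nat_lit 1) (nat_lit 5) (nat_lit 3) (nat_lit 4) (nat_lit 1) (nat_lit 4) (nat_lit 380) (nat_lit 272) (nat_lit 248)))) (XT.nd (nat_lit 156) (nat_lit 0) (nat_lit 0) (XT.nd (nat_lit 78) (nat_lit 0) (nat_lit 0) (XT.lf (nat_lit 0) (nat_lit 156046898610) (nat_lit 152) (nat_lit 225770863601) (nat_lit 0) (nat_lit 154763169739) (nat_lit 1) (nat_lit 5) (nat_lit 3) (nat_lit 4) (nat_lit 1) (nat_lit 4) (nat_lit 381) (nat_lit 272) (nat_lit 247)) (XT.lf (nat_lit 0) (nat_lit 169879476467) (nat_lit 152) (nat_lit 240930445757) (nat_lit 0) (nat_lit 168579488481) (nat_lit 1) (nat_lit 5) (nat_lit 3) (nat_lit 4) (nat_lit 1) (nat_lit 4) (nat_lit 382) (nat_lit 272) (nat_lit 246))) (XT.nd (nat_lit 78) (nat_lit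 0) (nat_lit 0) (XT.lf (nat_lit 0) (nat_lit 184794775016) (nat_lit 152) (nat_lit 257349978919) (nat_lit 0) (nat_lit 183479732294) (nat_lit 1) (nat_lit 5) (nat_lit 3) (nat_lit 4) (nat_lit 1) (nat_lit 4) (nat_lit 383) (nat_lit 272) (nat_lit 245)) (XT.lf (nat_lit 0) (nat_lit 200881181212) (nat_lit 152) (nat_lit 275126764024) (nat_lit 0) (nat_lit 199552198920) (nat_lit 1) (nat_lit 5) (nat_lit 3) (nat_lit 4) (nat_lit 1) (nat_lit 4) (nat_lit 384) (nat_lit 272) (nat_lit 244))))) (XT.nd (nat_lit 312) (nat_lit 0) (nat_lit 0) (XT.nd (nat_lit 156) (nat_lit 0) (nat_lit 0) (XT.nd (nat_lit 78) (nat_lit 0) (nat_lit 0) (XT.lf (nat_lit 0) (nat_lit 218234021906) (nat_lit 152) (nat_lit 294366144984) (nat_lit 0) (nat_lit 216892132605) (nat_lit 1) (nat_lit 5) (nat_lit 3) (nat_lit 4) (nat_lit 1) (nat_lit 4) (nat_lit 385) (nat_lit 272) (nat_lit 243)) (XT.lf (nat_lit 0) (nat_lit 236956128747) (nat_lit 152) (nat_lit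 315182132946) (nat_lit 0) (nat_lit 235602288512) (nat_lit 1) (nat_lit 5) (nat_lit 3) (nat_lit 4) (nat_lit 1) (nat_lit 4) (nat_lit 386) (nat_lit 272) (nat_lit 242))) (XT.nd (nat_lit 78) (nat_lit 0) (nat_lit 0) (XT.lf (nat_lit 0) (nat_lit 257158447554) (nat_lit 152) (nat_lit 337698081911) (nat_lit 0) (nat_lit 255793541638) (nat_lit 1) (nat_lit 5) (nat_lit 3) (nat_lit 4) (nat_lit 1) (nat_lit 4) (nat_lit 387) (nat_lit 272) (nat_lit 241)) (XT.lf (nat_lit 0) (nat_lit 278960695770) (nat_lit 152) (nat_lit 362047419726) (nat_lit 0) (nat_lit 277585543855) (nat_lit 1) (nat_lit 5) (nat_lit 3) (nat_lit 4) (nat_lit 1) (nat_lit 4) (nat_lit 388) (nat_lit 272) (nat_lit 240)))) (XT.nd (nat_lit 156) (nat_lit 0) (nat_lit 0) (XT.nd (nat_lit 78) (nat_lit 0) (nat_lit 0) (XT.lf (nat_lit 0) (nat_lit 302492071905) (nat_lit 152) (nat_lit 388374438763) (nat_lit 0) (nat_lit 301107432952) (nat_lit 1) (nat_lit 5) (nat_lit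 3) (nat_lit 4) (nat_lit 1) (nat_lit 4) (nat_lit 389) (nat_lit 272) (nat_lit 239)) (XT.lf (nat_lit 0) (nat_lit 327892021150) (nat_lit 152) (nat_lit 416835150987) (nat_lit 0) (nat_lit 326498597903) (nat_lit 1) (nat_lit 5) (nat_lit 3) (nat_lit 4) (nat_lit 1) (nat_lit 4) (nat_lit 390) (nat_lit 272) (nat_lit 238))) (XT.nd (nat_lit 78) (nat_lit 0) (nat_lit 0) (XT.lf (nat_lit 0) (nat_lit 355311061722) (nat_lit 152) (nat_lit 447598212469) (nat_lit 0) (nat_lit 353909504871) (nat_lit 1) (nat_lit 5) (nat_lit 3) (nat_lit 4) (nat_lit 1) (nat_lit 4) (nat_lit 391) (nat_lit 272) (nat_lit 237)) (XT.nd (nat_lit 78) (nat_lit 0) (nat_lit 0) (XT.lf (nat_lit 0) (nat_lit 384911676825) (nat_lit 152) (nat_lit 480845922835) (nat_lit 0) (nat_lit 383502588858) (nat_lit 1) (nat_lit 5) (nat_lit 3) (nat_lit 4) (nat_lit 1) (nat_lit 4) (nat_lit 392) (nat_lit 272) (nat_lit 236)) (XT.lf (nat_lit 0) (nat_lit 416869277512)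 (nat_lit 152) (nat_lit 516775305552) (nat_lit 0) (nat_lit 415453216289) (nat_lit 1) (nat_lit 5) (nat_lit 3) (nat_lit 4) (nat_lit 1) (nat_lit 4) (nat_lit 393) (nat_lit 272) (nat_lit 235))))))) (XT.nd (nat_lit 624) (nat_lit 0) (nat_lit 0) (XT.nd (nat_lit 312) (nat_lit 0) (nat_lit 0) (XT.nd (nat_lit 156) (nat_lit 0) (nat_lit 0) (XT.nd (nat_lit 78) (nat_lit 0) (nat_lit 0) (XT.lf (nat_lit 0) (nat_lit 451373242157) (nat_lit 152) (nat_lit 555599275481) (nat_lit 0) (nat_lit 449950724216) (nat_lit 1) (nat_lit 5) (nat_lit 3) (nat_lit 4) (nat_lit 1) (nat_lit 4) (nat_lit 394) (nat_lit 272) (nat_lit 234)) (XT.lf (nat_lit 0) (nat_lit 488628038699) (nat_lit 152) (nat_lit 597547900592) (nat_lit 0) (nat_lit 487199542315) (nat_lit 1) (nat_lit 5) (nat_lit 3) (nat_lit 4) (nat_lit 1) (nat_lit 4) (nat_lit 395) (nat_lit 272) (nat_lit 233))) (XT.nd (nat_lit 78) (nat_lit 0) (nat_lit 0) (XT.lf (nat_lit 0) (nat_lit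 528854436302) (nat_lit 152) (nat_lit 642869765330) (nat_lit 0) (nat_lit 527420404323) (nat_lit 1) (nat_lit 5) (nat_lit 3) (nat_lit 4) (nat_lit 1) (nat_lit 4) (nat_lit 396) (nat_lit 272) (nat_lit 232)) (XT.lf (nat_lit 0) (nat_lit 572290813618) (nat_lit 152) (nat_lit 691833443709) (nat_lit 0) (nat_lit 570851656089) (nat_lit 1) (nat_lit 5) (nat_lit 3) (nat_lit 4) (nat_lit 1) (nat_lit 4) (nat_lit 397) (nat_lit 272) (nat_lit 231)))) (XT.nd (nat_lit 156) (nat_lit 0) (nat_lit 0) (XT.nd (nat_lit 78) (nat_lit 0) (nat_lit 0) (XT.lf (nat_lit 0) (nat_lit 619194571403) (nat_lit 152) (nat_lit 744729090859) (nat_lit 0) (nat_lit 617750667993) (nat_lit 1) (nat_lit 5) (nat_lit 3) (nat_lit 4) (nat_lit 1) (nat_lit 4) (nat_lit 398) (nat_lit 272) (nat_lit 230)) (XT.lf (nat_lit 0) (nat_lit 669843657851) (nat_lit 152) (nat_lit 801870162467) (nat_lit 0) (nat_lit 668395360107) (nat_lit 1) (nat_lit 5) (nat_lit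 3) (nat_lit 4) (nat_lit 1) (nat_lit 4) (nat_lit 399) (nat_lit 272) (nat_lit 229))) (XT.nd (nat_lit 78) (nat_lit 0) (nat_lit 0) (XT.lf (nat_lit 0) (nat_lit 724538215695) (nat_lit 152) (nat_lit 863595272292) (nat_lit 0) (nat_lit 723085849123) (nat_lit 1) (nat_lit 5) (nat_lit 3) (nat_lit 4) (nat_lit 1) (nat_lit 4) (nat_lit 400) (nat_lit 272) (nat_lit 228)) (XT.lf (nat_lit 0) (nat_lit 783602360835) (nat_lit 152) (nat_lit 930270198761) (nat_lit 0) (nat_lit 782146226830) (nat_lit 1) (nat_lit 5) (nat_lit 3) (nat_lit 4) (nat_lit 1) (nat_lit 4) (nat_lit 401) (nat_lit 272) (nat_lit 227))))) (XT.nd (nat_lit 312) (nat_lit 0) (nat_lit 0) (XT.nd (nat_lit 156) (nat_lit 0) (nat_lit 0) (XT.nd (nat_lit 78) (nat_lit 0) (nat_lit 0) (XT.lf (nat_lit 0) (nat_lit 847386103019) (nat_lit 152) (nat_lit 1002290052550) (nat_lit 0) (nat_lit 845926480650) (nat_lit 1) (nat_lit 5) (nat_lit 3) (nat_lit 4) (nat_lit 1)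 (nat_lit 4) (nat_lit 402) (nat_lit 272) (nat_lit 226)) (XT.lf (nat_lit 0) (nat_lit 916267419979) (nat_lit 152) (nat_lit 1080081617978) (nat_lit 0) (nat_lit 914804567644) (nat_lit 1) (nat_lit 5) (nat_lit 3) (nat_lit 4) (nat_lit 1) (nat_lit 4) (nat_lit 403) (nat_lit 272) (nat_lit 225))) (XT.nd (nat_lit 78) (nat_lit 0) (nat_lit 0) (XT.lf (nat_lit 0) (nat_lit 990654497296) (nat_lit 152) (nat_lit 1164105882099) (nat_lit 0) (nat_lit 989188654252) (nat_lit 1) (nat_lit 5) (nat_lit 3) (nat_lit 4) (nat_lit 1) (nat_lit 4) (nat_lit 404) (nat_lit 272) (nat_lit 224)) (XT.lf (nat_lit 0) (nat_lit 1070988147282) (nat_lit 152) (nat_lit 1254860766478) (nat_lit 0) (nat_lit 1069519535062) (nat_lit 1) (nat_lit 5) (nat_lit 3) (nat_lit 4) (nat_lit 1) (nat_lit 4) (nat_lit 405) (nat_lit 272) (nat_lit 223)))) (XT.nd (nat_lit 156) (nat_lit 0) (nat_lit 0) (XT.nd (nat_lit 78) (nat_lit 0) (nat_lit 0) (XT.lf (nat_lit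 0) (nat_lit 1157744421194) (nat_lit 152) (nat_lit 1352884077837) (nat_lit 0) (nat_lit 1156273244923) (nat_lit 1) (nat_lit 5) (nat_lit 3) (nat_lit 4) (nat_lit 1) (nat_lit 4) (nat_lit 406) (nat_lit 272) (nat_lit 222)) (XT.lf (nat_lit 0) (nat_lit 1251437430287) (nat_lit 152) (nat_lit 1458756695060) (nat_lit 0) (nat_lit 1249963879893) (nat_lit 1) (nat_lit 5) (nat_lit 3) (nat_lit 4) (nat_lit 1) (nat_lit 4) (nat_lit 407) (nat_lit 272) (nat_lit 221))) (XT.nd (nat_lit 78) (nat_lit 0) (nat_lit 0) (XT.lf (nat_lit 0) (nat_lit 1352622392391) (nat_lit 152) (nat_lit 1573106011432) (nat_lit 0) (nat_lit 1351146643736) (nat_lit 1) (nat_lit 5) (nat_lit 3) (nat_lit 4) (nat_lit 1) (nat_lit 4) (nat_lit 408) (nat_lit 272) (nat_lit 220)) (XT.nd (nat_lit 78) (nat_lit 0) (nat_lit 0) (XT.lf (nat_lit 0) (nat_lit 1461898922096) (nat_lit 152) (nat_lit 1696609652532) (nat_lit 0) (nat_lit 1460421138014) (nat_lit 1)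 (nat_lit 5) (nat_lit 3) (nat_lit 4) (nat_lit 1) (nat_lit 4) (nat_lit 409) (nat_lit 272) (nat_lit 219)) (XT.lf (nat_lit 0) (nat_lit 1579914584024) (nat_lit 152) (nat_lit 1829999491790) (nat_lit 0) (nat_lit 1578434915288) (nat_lit 1) (nat_lit 5) (nat_lit 3) (nat_lit 4) (nat_lit 1) (nat_lit 4) (nat_lit 410) (nat_lit 272) (nat_lit 218))))))))
noncomputable def xc27 : XT := (XT.nd (nat_lit 43368) (nat_lit 0) (nat_lit 0) (XT.nd (nat_lit 42666) (nat_lit 0) (nat_lit 0) (XT.nd (nat_lit 312) (nat_lit 0) (nat_lit 0) (XT.nd (nat_lit 156) (nat_lit 0) (nat_lit 0) (XT.nd (nat_lit 78) (nat_lit 0) (nat_lit 0) (XT.lf (nat_lit 0) (nat_lit 1707368730244) (nat_lit 152) (nat_lit 1974065987512) (nat_lit 0) (nat_lit 1705887316458) (nat_lit 1) (nat_lit 5) (nat_lit 3) (nat_lit 4) (nat_lit 1) (nat_lit 4) (nat_lit 411) (nat_lit 272) (nat_lit 217)) (XT.lf (nat_lit 0) (nat_lit 1845016644587) (nat_lit 152) (nat_lit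 2129662867079) (nat_lit 0) (nat_lit 1843533615013) (nat_lit 1) (nat_lit 5) (nat_lit 3) (nat_lit 4) (nat_lit 1) (nat_lit 4) (nat_lit 412) (nat_lit 272) (nat_lit 216))) (XT.nd (nat_lit 78) (nat_lit 0) (nat_lit 0) (XT.lf (nat_lit 0) (nat_lit 1993674018396) (nat_lit 152) (nat_lit 2297712186075) (nat_lit 0) (nat_lit 1992189492723) (nat_lit 1) (nat_lit 5) (nat_lit 3) (nat_lit 4) (nat_lit 1) (nat_lit 4) (nat_lit 413) (nat_lit 272) (nat_lit 215)) (XT.lf (nat_lit 0) (nat_lit 2154221784258) (nat_lit 152) (nat_lit 2479209792316) (nat_lit 0) (nat_lit 2152735873307) (nat_lit 1) (nat_lit 5) (nat_lit 3) (nat_lit 4) (nat_lit 1) (nat_lit 4) (nat_lit 414) (nat_lit 272) (nat_lit 214)))) (XT.nd (nat_lit 42198) (nat_lit 0) (nat_lit 152) (XT.nd (nat_lit 42120) (nat_lit 0) (nat_lit 152) (XT.lf (nat_lit 0) (nat_lit 2327611336340) (nat_lit 152) (nat_lit 2675231227172) (nat_lit 0) (nat_lit 2326124142725) (nat_lit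 1) (nat_lit 5) (nat_lit 3) (nat_lit 4) (nat_lit 1) (nat_lit 4) (nat_lit 415) (nat_lit 272) (nat_lit 213)) (XT.lf (nat_lit 0) (nat_lit 26984637558) (nat_lit 76) (nat_lit 3865786864) (nat_lit 76) (nat_lit 3865786864) (nat_lit 3) (nat_lit 4) (nat_lit 4) (nat_lit 5) (nat_lit 4) (nat_lit 4) (nat_lit 354) (nat_lit 273) (nat_lit 273))) (XT.nd (nat_lit 78) (nat_lit 0) (nat_lit 0) (XT.lf (nat_lit 0) (nat_lit 64715418442) (nat_lit 76) (nat_lit 5068618079) (nat_lit 76) (nat_lit 4938739274) (nat_lit 3) (nat_lit 4) (nat_lit 4) (nat_lit 5) (nat_lit 4) (nat_lit 4) (nat_lit 355) (nat_lit 273) (nat_lit 272)) (XT.lf (nat_lit 0) (nat_lit 76007809945) (nat_lit 76) (nat_lit 2345784016) (nat_lit 76) (nat_lit 2095647057) (nat_lit 3) (nat_lit 4) (nat_lit 4) (nat_lit 5) (nat_lit 4) (nat_lit 4) (nat_lit 356) (nat_lit 273) (nat_lit 271))))) (XT.nd (nat_lit 312) (nat_lit 0) (nat_lit 0) (XT.nd (nat_lit 156) (nat_lit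 0) (nat_lit 0) (XT.nd (nat_lit 78) (nat_lit 0) (nat_lit 0) (XT.lf (nat_lit 0) (nat_lit 817624992) (nat_lit 152) (nat_lit 85340140246) (nat_lit 0) (nat_lit 482914713) (nat_lit 1) (nat_lit 5) (nat_lit 3) (nat_lit 4) (nat_lit 1) (nat_lit 4) (nat_lit 357) (nat_lit 273) (nat_lit 270)) (XT.lf (nat_lit 0) (nat_lit 3884797180) (nat_lit 152) (nat_lit 85980983866) (nat_lit 0) (nat_lit 3454622102) (nat_lit 1) (nat_lit 5) (nat_lit 3) (nat_lit 4) (nat_lit 1) (nat_lit 4) (nat_lit 358) (nat_lit 273) (nat_lit 269))) (XT.nd (nat_lit 78) (nat_lit 0) (nat_lit 0) (XT.lf (nat_lit 0) (nat_lit 7057100087) (nat_lit 152) (nat_lit 86950136661) (nat_lit 0) (nat_lit 6538531677) (nat_lit 1) (nat_lit 5) (nat_lit 3) (nat_lit 4) (nat_lit 1) (nat_lit 4) (nat_lit 359) (nat_lit 273) (nat_lit 268)) (XT.lf (nat_lit 0) (nat_lit 10353332546) (nat_lit 152) (nat_lit 88253341759) (nat_lit 0) (nat_lit 9752918456) (nat_lit 1) (nat_lit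 5) (nat_lit 3) (nat_lit 4) (nat_lit 1) (nat_lit 4) (nat_lit 360) (nat_lit 273) (nat_lit 267)))) (XT.nd (nat_lit 156) (nat_lit 0) (nat_lit 0) (XT.nd (nat_lit 78) (nat_lit 0) (nat_lit 0) (XT.lf (nat_lit 0) (nat_lit 13793027784) (nat_lit 152) (nat_lit 89898321856) (nat_lit 0) (nat_lit 13116830659) (nat_lit 1) (nat_lit 5) (nat_lit 3) (nat_lit 4) (nat_lit 1) (nat_lit 4) (nat_lit 361) (nat_lit 273) (nat_lit 266)) (XT.lf (nat_lit 0) (nat_lit 17396569182) (nat_lit 152) (nat_lit 91894824983) (nat_lit 0) (nat_lit 16650202580) (nat_lit 1) (nat_lit 5) (nat_lit 3) (nat_lit 4) (nat_lit 1) (nat_lit 4) (nat_lit 362) (nat_lit 273) (nat_lit 265))) (XT.nd (nat_lit 78) (nat_lit 0) (nat_lit 0) (XT.lf (nat_lit 0) (nat_lit 21185311059) (nat_lit 152) (nat_lit 94254682269) (nat_lit 0) (nat_lit 20373972718) (nat_lit 1) (nat_lit 5) (nat_lit 3) (nat_lit 4) (nat_lit 1) (nat_lit 4) (nat_lit 363) (nat_lit 273) (nat_lit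 264)) (XT.nd (nat_lit 78) (nat_lit 0) (nat_lit 0) (XT.lf (nat_lit 0) (nat_lit 25181705218) (nat_lit 152) (nat_lit 96991878055) (nat_lit 0) (nat_lit 24310207861) (nat_lit 1) (nat_lit 5) (nat_lit 3) (nat_lit 4) (nat_lit 1) (nat_lit 4) (nat_lit 364) (nat_lit 273) (nat_lit 263)) (XT.lf (nat_lit 0) (nat_lit 29409433996) (nat_lit 152) (nat_lit 100122632758) (nat_lit 0) (nat_lit 28482233845) (nat_lit 1) (nat_lit 5) (nat_lit 3) (nat_lit 4) (nat_lit 1) (nat_lit 4) (nat_lit 365) (nat_lit 273) (nat_lit 262))))))) (XT.nd (nat_lit 702) (nat_lit 0) (nat_lit 0) (XT.nd (nat_lit 312) (nat_lit 0) (nat_lit 0) (XT.nd (nat_lit 156) (nat_lit 0) (nat_lit 0) (XT.nd (nat_lit 78) (nat_lit 0) (nat_lit 0) (XT.lf (nat_lit 0) (nat_lit 33893550600) (nat_lit 152) (nat_lit 103665499000) (nat_lit 0) (nat_lit 32914773788) (nat_lit 1) (nat_lit 5) (nat_lit 3) (nat_lit 4) (nat_lit 1) (nat_lit 4) (nat_lit 366) (nat_lit 273)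 (nat_lit 261)) (XT.lf (nat_lit 0) (nat_lit 38660627572) (nat_lit 152) (nat_lit 107641471544) (nat_lit 0) (nat_lit 37634094593) (nat_lit 1) (nat_lit 5) (nat_lit 3) (nat_lit 4) (nat_lit 1) (nat_lit 4) (nat_lit 367) (nat_lit 273) (nat_lit 260))) (XT.nd (nat_lit 78) (nat_lit 0) (nat_lit 0) (XT.lf (nat_lit 0) (nat_lit 43738914259) (nat_lit 152) (nat_lit 112074111708) (nat_lit 0) (nat_lit 42668162606) (nat_lit 1) (nat_lit 5) (nat_lit 3) (nat_lit 4) (nat_lit 1) (nat_lit 4) (nat_lit 368) (nat_lit 273) (nat_lit 259)) (XT.lf (nat_lit 0) (nat_lit 49158504209) (nat_lit 152) (nat_lit 116989686990) (nat_lit 0) (nat_lit 48046809341) (nat_lit 1) (nat_lit 5) (nat_lit 3) (nat_lit 4) (nat_lit 1) (nat_lit 4) (nat_lit 369) (nat_lit 273) (nat_lit 258)))) (XT.nd (nat_lit 156) (nat_lit 0) (nat_lit 0) (XT.nd (nat_lit 78) (nat_lit 0) (nat_lit 0) (XT.lf (nat_lit 0) (nat_lit 54951513513) (nat_lit 152) (nat_lit 122417326725)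 (nat_lit 0) (nat_lit 53801908259) (nat_lit 1) (nat_lit 5) (nat_lit 3) (nat_lit 4) (nat_lit 1) (nat_lit 4) (nat_lit 370) (nat_lit 273) (nat_lit 257)) (XT.lf (nat_lit 0) (nat_lit 61152271114) (nat_lit 152) (nat_lit 128389194703) (nat_lit 0) (nat_lit 59967563652) (nat_lit 1) (nat_lit 5) (nat_lit 3) (nat_lit 4) (nat_lit 1) (nat_lit 4) (nat_lit 371) (nat_lit 273) (nat_lit 256))) (XT.nd (nat_lit 78) (nat_lit 0) (nat_lit 0) (XT.lf (nat_lit 0) (nat_lit 67797522243) (nat_lit 152) (nat_lit 134940679772) (nat_lit 0) (nat_lit 66580312735) (nat_lit 1) (nat_lit 5) (nat_lit 3) (nat_lit 4) (nat_lit 1) (nat_lit 4) (nat_lit 372) (nat_lit 273) (nat_lit 255)) (XT.nd (nat_lit 78) (nat_lit 0) (nat_lit 0) (XT.lf (nat_lit 0) (nat_lit 74926646164) (nat_lit 152) (nat_lit 142110605548) (nat_lit 0) (nat_lit 73679342171) (nat_lit 1) (nat_lit 5) (nat_lit 3) (nat_lit 4) (nat_lit 1) (nat_lit 4) (nat_lit 373) (nat_lit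 273) (nat_lit 254)) (XT.lf (nat_lit 0) (nat_lit 82581889540) (nat_lit 152) (nat_lit 149941460479) (nat_lit 0) (nat_lit 81306720281) (nat_lit 1) (nat_lit 5) (nat_lit 3) (nat_lit 4) (nat_lit 1) (nat_lit 4) (nat_lit 374) (nat_lit 273) (nat_lit 253)))))) (XT.nd (nat_lit 312) (nat_lit 0) (nat_lit 0) (XT.nd (nat_lit 156) (nat_lit 0) (nat_lit 0) (XT.nd (nat_lit 78) (nat_lit 0) (nat_lit 0) (XT.lf (nat_lit 0) (nat_lit 90808616774) (nat_lit 152) (nat_lit 158479649631) (nat_lit 0) (nat_lit 89507646344) (nat_lit 1) (nat_lit 5) (nat_lit 3) (nat_lit 4) (nat_lit 1) (nat_lit 4) (nat_lit 375) (nat_lit 273) (nat_lit 252)) (XT.lf (nat_lit 0) (nat_lit 99655578843) (nat_lit 152) (nat_lit 167775769681) (nat_lit 0) (nat_lit 98330718440) (nat_lit 1) (nat_lit 5) (nat_lit 3) (nat_lit 4) (nat_lit 1) (nat_lit 4) (nat_lit 376) (nat_lit 273) (nat_lit 251))) (XT.nd (nat_lit 78) (nat_lit 0) (nat_lit 0) (XT.lf (nat_lit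 0) (nat_lit 109175202189) (nat_lit 152) (nat_lit 177884908748) (nat_lit 0) (nat_lit 107828221440) (nat_lit 1) (nat_lit 5) (nat_lit 3) (nat_lit 4) (nat_lit 1) (nat_lit 4) (nat_lit 377) (nat_lit 273) (nat_lit 250)) (XT.lf (nat_lit 0) (nat_lit 119423899394) (nat_lit 152) (nat_lit 188866972841) (nat_lit 0) (nat_lit 118056436844) (nat_lit 1) (nat_lit 5) (nat_lit 3) (nat_lit 4) (nat_lit 1) (nat_lit 4) (nat_lit 378) (nat_lit 273) (nat_lit 249)))) (XT.nd (nat_lit 156) (nat_lit 0) (nat_lit 0) (XT.nd (nat_lit 78) (nat_lit 0) (nat_lit 0) (XT.lf (nat_lit 0) (nat_lit 130462403480) (nat_lit 152) (nat_lit 200787040859) (nat_lit 0) (nat_lit 129075976299) (nat_lit 1) (nat_lit 5) (nat_lit 3) (nat_lit 4) (nat_lit 1) (nat_lit 4) (nat_lit 379) (nat_lit 273) (nat_lit 248)) (XT.lf (nat_lit 0) (nat_lit 142356127804) (nat_lit 152) (nat_lit 213715750241) (nat_lit 0) (nat_lit 140952140779) (nat_lit 1) (nat_lit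 5) (nat_lit 3) (nat_lit 4) (nat_lit 1) (nat_lit 4) (nat_lit 380) (nat_lit 273) (nat_lit 247))) (XT.nd (nat_lit 78) (nat_lit 0) (nat_lit 0) (XT.lf (nat_lit 0) (nat_lit 155175553694) (nat_lit 152) (nat_lit 227729715562) (nat_lit 0) (nat_lit 153755307555) (nat_lit 1) (nat_lit 5) (nat_lit 3) (nat_lit 4) (nat_lit 1) (nat_lit 4) (nat_lit 381) (nat_lit 273) (nat_lit 246)) (XT.nd (nat_lit 78) (nat_lit 0) (nat_lit 0) (XT.lf (nat_lit 0) (nat_lit 168996648120) (nat_lit 152) (nat_lit 242911982542) (nat_lit 0) (nat_lit 167561347245) (nat_lit 1) (nat_lit 5) (nat_lit 3) (nat_lit 4) (nat_lit 1) (nat_lit 4) (nat_lit 382) (nat_lit 273) (nat_lit 245)) (XT.lf (nat_lit 0) (nat_lit 183901313862) (nat_lit 152) (nat_lit 259352520170) (nat_lit 0) (nat_lit 182452073417) (nat_lit 1) (nat_lit 5) (nat_lit 3) (nat_lit 4) (nat_lit 1) (nat_lit 4) (nat_lit 383) (nat_lit 273) (nat_lit 244))))))))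
noncomputable def xc28 : XT := (XT.nd (nat_lit 1326) (nat_lit 0) (nat_lit 0) (XT.nd (nat_lit 624) (nat_lit 0) (nat_lit 0) (XT.nd (nat_lit 312) (nat_lit 0) (nat_lit 0) (XT.nd (nat_lit 156) (nat_lit 0) (nat_lit 0) (XT.nd (nat_lit 78) (nat_lit 0) (nat_lit 0) (XT.lf (nat_lit 0) (nat_lit 199977874867) (nat_lit 152) (nat_lit 277148753855) (nat_lit 0) (nat_lit 198515727413) (nat_lit 1) (nat_lit 5) (nat_lit 3) (nat_lit 4) (nat_lit 1) (nat_lit 4) (nat_lit 384) (nat_lit 273) (nat_lit 243)) (XT.lf (nat_lit 0) (nat_lit 217321599644) (nat_lit 152) (nat_lit 296406142760) (nat_lit 0) (nat_lit 215847501255) (nat_lit 1) (nat_lit 5) (nat_lit 3) (nat_lit 4) (nat_lit 1) (nat_lit 4) (nat_lit 385) (nat_lit 273) (nat_lit 242))) (XT.nd (nat_lit 78) (nat_lit 0) (nat_lit 0) (XT.lf (nat_lit 0) (nat_lit 236035265821) (nat_lit 152) (nat_lit 317238804744) (nat_lit 0) (nat_lit 234550101752) (nat_lit 1) (nat_lit 5)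 (nat_lit 3) (nat_lit 4) (nat_lit 1) (nat_lit 4) (nat_lit 386) (nat_lit 273) (nat_lit 241)) (XT.lf (nat_lit 0) (nat_lit 256229769197) (nat_lit 152) (nat_lit 339770192619) (nat_lit 0) (nat_lit 254734359128) (nat_lit 1) (nat_lit 5) (nat_lit 3) (nat_lit 4) (nat_lit 1) (nat_lit 4) (nat_lit 387) (nat_lit 273) (nat_lit 240)))) (XT.nd (nat_lit 156) (nat_lit 0) (nat_lit 0) (XT.nd (nat_lit 78) (nat_lit 0) (nat_lit 0) (XT.lf (nat_lit 0) (nat_lit 278024780905) (nat_lit 152) (nat_lit 364133825721) (nat_lit 0) (nat_lit 276519883799) (nat_lit 1) (nat_lit 5) (nat_lit 3) (nat_lit 4) (nat_lit 1) (nat_lit 4) (nat_lit 388) (nat_lit 273) (nat_lit 239)) (XT.lf (nat_lit 0) (nat_lit 301549456568) (nat_lit 152) (nat_lit 390474081135) (nat_lit 0) (nat_lit 300035775168) (nat_lit 1) (nat_lit 5) (nat_lit 3) (nat_lit 4) (nat_lit 1) (nat_lit 4) (nat_lit 389) (nat_lit 273) (nat_lit 238))) (XT.nd (nat_lit 78) (nat_lit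 0) (nat_lit 0) (XT.lf (nat_lit 0) (nat_lit 326943201672) (nat_lit 152) (nat_lit 418947049263) (nat_lit 0) (nat_lit 325421386667) (nat_lit 1) (nat_lit 5) (nat_lit 3) (nat_lit 4) (nat_lit 1) (nat_lit 4) (nat_lit 390) (nat_lit 273) (nat_lit 237)) (XT.lf (nat_lit 0) (nat_lit 354356497670) (nat_lit 152) (nat_lit 449721458805) (nat_lit 0) (nat_lit 352827151549) (nat_lit 1) (nat_lit 5) (nat_lit 3) (nat_lit 4) (nat_lit 1) (nat_lit 4) (nat_lit 391) (nat_lit 273) (nat_lit 236))))) (XT.nd (nat_lit 312) (nat_lit 0) (nat_lit 0) (XT.nd (nat_lit 156) (nat_lit 0) (nat_lit 0) (XT.nd (nat_lit 78) (nat_lit 0) (nat_lit 0) (XT.lf (nat_lit 0) (nat_lit 383951793723) (nat_lit 152) (nat_lit 482979676633) (nat_lit 0) (nat_lit 382415474347) (nat_lit 1) (nat_lit 5) (nat_lit 3) (nat_lit 4) (nat_lit 1) (nat_lit 4) (nat_lit 392) (nat_lit 273) (nat_lit 235)) (XT.lf (nat_lit 0) (nat_lit 415904469363) (nat_lit 152) (nat_lit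 518918788482) (nat_lit 0) (nat_lit 414361693269) (nat_lit 1) (nat_lit 5) (nat_lit 3) (nat_lit 4) (nat_lit 1) (nat_lit 4) (nat_lit 393) (nat_lit 273) (nat_lit 234))) (XT.nd (nat_lit 78) (nat_lit 0) (nat_lit 0) (XT.lf (nat_lit 0) (nat_lit 450403873780) (nat_lit 152) (nat_lit 557751766867) (nat_lit 0) (nat_lit 448855119243) (nat_lit 1) (nat_lit 5) (nat_lit 3) (nat_lit 4) (nat_lit 1) (nat_lit 4) (nat_lit 394) (nat_lit 273) (nat_lit 233)) (XT.lf (nat_lit 0) (nat_lit 487654447888) (nat_lit 152) (nat_lit 599708733141) (nat_lit 0) (nat_lit 486100157756) (nat_lit 1) (nat_lit 5) (nat_lit 3) (nat_lit 4) (nat_lit 1) (nat_lit 4) (nat_lit 395) (nat_lit 273) (nat_lit 232)))) (XT.nd (nat_lit 156) (nat_lit 0) (nat_lit 0) (XT.nd (nat_lit 78) (nat_lit 0) (nat_lit 0) (XT.lf (nat_lit 0) (nat_lit 527876935830) (nat_lit 152) (nat_lit 645038321178) (nat_lit 0) (nat_lit 526317520147) (nat_lit 1) (nat_lit 5) (nat_lit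 3) (nat_lit 4) (nat_lit 1) (nat_lit 4) (nat_lit 396) (nat_lit 273) (nat_lit 231)) (XT.lf (nat_lit 0) (nat_lit 571309693090) (nat_lit 152) (nat_lit 694009150759) (nat_lit 0) (nat_lit 569745531527) (nat_lit 1) (nat_lit 5) (nat_lit 3) (nat_lit 4) (nat_lit 1) (nat_lit 4) (nat_lit 397) (nat_lit 273) (nat_lit 230))) (XT.nd (nat_lit 78) (nat_lit 0) (nat_lit 0) (XT.lf (nat_lit 0) (nat_lit 618210098971) (nat_lit 152) (nat_lit 746911419393) (nat_lit 0) (nat_lit 616641543074) (nat_lit 1) (nat_lit 5) (nat_lit 3) (nat_lit 4) (nat_lit 1) (nat_lit 4) (nat_lit 398) (nat_lit 273) (nat_lit 229)) (XT.nd (nat_lit 78) (nat_lit 0) (nat_lit 0) (XT.lf (nat_lit 0) (nat_lit 668856081804) (nat_lit 152) (nat_lit 804058622005) (nat_lit 0) (nat_lit 667283457079) (nat_lit 1) (nat_lit 5) (nat_lit 3) (nat_lit 4) (nat_lit 1) (nat_lit 4) (nat_lit 399) (nat_lit 273) (nat_lit 228)) (XT.lf (nat_lit 0) (nat_lit 723547765931)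 (nat_lit 152) (nat_lit 865789408684) (nat_lit 0) (nat_lit 721971373773) (nat_lit 1) (nat_lit 5) (nat_lit 3) (nat_lit 4) (nat_lit 1) (nat_lit 4) (nat_lit 400) (nat_lit 273) (nat_lit 227))))))) (XT.nd (nat_lit 624) (nat_lit 0) (nat_lit 0) (XT.nd (nat_lit 312) (nat_lit 0) (nat_lit 0) (XT.nd (nat_lit 156) (nat_lit 0) (nat_lit 0) (XT.nd (nat_lit 78) (nat_lit 0) (nat_lit 0) (XT.lf (nat_lit 0) (nat_lit 782609250221) (nat_lit 152) (nat_lit 932469591500) (nat_lit 0) (nat_lit 781029369699) (nat_lit 1) (nat_lit 5) (nat_lit 3) (nat_lit 4) (nat_lit 1) (nat_lit 4) (nat_lit 401) (nat_lit 273) (nat_lit 226)) (XT.lf (nat_lit 0) (nat_lit 846390528656) (nat_lit 152) (nat_lit 1004494312278) (nat_lit 0) (nat_lit 844807418167) (nat_lit 1) (nat_lit 5) (nat_lit 3) (nat_lit 4) (nat_lit 1) (nat_lit 4) (nat_lit 402) (nat_lit 273) (nat_lit 225))) (XT.nd (nat_lit 78) (nat_lit 0) (nat_lit 0) (XT.lf (nat_lit 0) (nat_lit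 915269564366) (nat_lit 152) (nat_lit 1082290384176) (nat_lit 0) (nat_lit 913683463168) (nat_lit 1) (nat_lit 5) (nat_lit 3) (nat_lit 4) (nat_lit 1) (nat_lit 4) (nat_lit 403) (nat_lit 273) (nat_lit 224)) (XT.lf (nat_lit 0) (nat_lit 989654529416) (nat_lit 152) (nat_lit 1166318820955) (nat_lit 0) (nat_lit 988065659042) (nat_lit 1) (nat_lit 5) (nat_lit 3) (nat_lit 4) (nat_lit 1) (nat_lit 4) (nat_lit 404) (nat_lit 273) (nat_lit 223)))) (XT.nd (nat_lit 156) (nat_lit 0) (nat_lit 0) (XT.nd (nat_lit 78) (nat_lit 0) (nat_lit 0) (XT.lf (nat_lit 0) (nat_lit 1069986223597) (nat_lit 152) (nat_lit 1257077568906) (nat_lit 0) (nat_lit 1068394789172) (nat_lit 1) (nat_lit 5) (nat_lit 3) (nat_lit 4) (nat_lit 1) (nat_lit 4) (nat_lit 405) (nat_lit 273) (nat_lit 222)) (XT.lf (nat_lit 0) (nat_lit 1156740686580) (nat_lit 152) (nat_lit 1355104457648) (nat_lit 0) (nat_lit 1155146878033) (nat_lit 1) (nat_lit 5) (nat_lit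 3) (nat_lit 4) (nat_lit 1) (nat_lit 4) (nat_lit 406) (nat_lit 273) (nat_lit 221))) (XT.nd (nat_lit 78) (nat_lit 0) (nat_lit 0) (XT.lf (nat_lit 0) (nat_lit 1250432018886) (nat_lit 152) (nat_lit 1460980387260) (nat_lit 0) (nat_lit 1248836012078) (nat_lit 1) (nat_lit 5) (nat_lit 3) (nat_lit 4) (nat_lit 1) (nat_lit 4) (nat_lit 407) (nat_lit 273) (nat_lit 220)) (XT.lf (nat_lit 0) (nat_lit 1351615428410) (nat_lit 152) (nat_lit 1575332770661) (nat_lit 0) (nat_lit 1350017386175) (nat_lit 1) (nat_lit 5) (nat_lit 3) (nat_lit 4) (nat_lit 1) (nat_lit 4) (nat_lit 408) (nat_lit 273) (nat_lit 219))))) (XT.nd (nat_lit 312) (nat_lit 0) (nat_lit 0) (XT.nd (nat_lit 156) (nat_lit 0) (nat_lit 0) (XT.nd (nat_lit 78) (nat_lit 0) (nat_lit 0) (XT.lf (nat_lit 0) (nat_lit 1460890520541) (nat_lit 152) (nat_lit 1698839251602) (nat_lit 0) (nat_lit 1459290593652) (nat_lit 1) (nat_lit 5) (nat_lit 3) (nat_lit 4) (nat_lit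 1) (nat_lit 4) (nat_lit 409) (nat_lit 273) (nat_lit 218)) (XT.lf (nat_lit 0) (nat_lit 1578904851382) (nat_lit 152) (nat_lit 1832231720342) (nat_lit 0) (nat_lit 1577303179442) (nat_lit 1) (nat_lit 5) (nat_lit 3) (nat_lit 4) (nat_lit 1) (nat_lit 4) (nat_lit 410) (nat_lit 273) (nat_lit 217))) (XT.nd (nat_lit 78) (nat_lit 0) (nat_lit 0) (XT.lf (nat_lit 0) (nat_lit 1706357765114) (nat_lit 152) (nat_lit 1976300650770) (nat_lit 0) (nat_lit 1704754477387) (nat_lit 1) (nat_lit 5) (nat_lit 3) (nat_lit 4) (nat_lit 1) (nat_lit 4) (nat_lit 411) (nat_lit 273) (nat_lit 216)) (XT.lf (nat_lit 0) (nat_lit 1844004538264) (nat_lit 152) (nat_lit 2131899784694) (nat_lit 0) (nat_lit 1842399754438) (nat_lit 1) (nat_lit 5) (nat_lit 3) (nat_lit 4) (nat_lit 1) (nat_lit 4) (nat_lit 412) (nat_lit 273) (nat_lit 215)))) (XT.nd (nat_lit 156) (nat_lit 0) (nat_lit 0) (XT.nd (nat_lit 78) (nat_lit 0) (nat_lit 0) (XT.lf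 (nat_lit 0) (nat_lit 1992660855414) (nat_lit 152) (nat_lit 2299951191058) (nat_lit 0) (nat_lit 1991054686310) (nat_lit 1) (nat_lit 5) (nat_lit 3) (nat_lit 4) (nat_lit 1) (nat_lit 4) (nat_lit 413) (nat_lit 273) (nat_lit 214)) (XT.lf (nat_lit 0) (nat_lit 2153207642886) (nat_lit 152) (nat_lit 2481450730047) (nat_lit 0) (nat_lit 2151600191118) (nat_lit 1) (nat_lit 5) (nat_lit 3) (nat_lit 4) (nat_lit 1) (nat_lit 4) (nat_lit 414) (nat_lit 273) (nat_lit 213))) (XT.nd (nat_lit 41964) (nat_lit 0) (nat_lit 152) (XT.lf (nat_lit 0) (nat_lit 2326596289053) (nat_lit 152) (nat_lit 2677473954485) (nat_lit 0) (nat_lit 2324987649633) (nat_lit 1) (nat_lit 5) (nat_lit 3) (nat_lit 4) (nat_lit 1) (nat_lit 4) (nat_lit 415) (nat_lit 273) (nat_lit 212)) (XT.nd (nat_lit 78) (nat_lit 0) (nat_lit 0) (XT.lf (nat_lit 0) (nat_lit 17019819303) (nat_lit 76) (nat_lit 6497546584) (nat_lit 76) (nat_lit 6497546584) (nat_lit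 3) (nat_lit 4) (nat_lit 4) (nat_lit 5) (nat_lit 4) (nat_lit 4) (nat_lit 352) (nat_lit 274) (nat_lit 274)) (XT.lf (nat_lit 0) (nat_lit 43705699117) (nat_lit 76) (nat_lit 10490700550) (nat_lit 76) (nat_lit 10350431440) (nat_lit 3) (nat_lit 4) (nat_lit 4) (nat_lit 5) (nat_lit 4) (nat_lit 4) (nat_lit 353) (nat_lit 274) (nat_lit 273))))))))
noncomputable def xc29 : XT := (XT.nd (nat_lit 1326) (nat_lit 0) (nat_lit 0) (XT.nd (nat_lit 624) (nat_lit 0) (nat_lit 0) (XT.nd (nat_lit 312) (nat_lit 0) (nat_lit 0) (XT.nd (nat_lit 156) (nat_lit 152) (nat_lit 0) (XT.nd (nat_lit 78) (nat_lit 0) (nat_lit 0) (XT.lf (nat_lit 0) (nat_lit 53806525715) (nat_lit 76) (nat_lit 7951367204) (nat_lit 76) (nat_lit 7681219288) (nat_lit 3) (nat_lit 4) (nat_lit 4) (nat_lit 5) (nat_lit 4) (nat_lit 4) (nat_lit 354) (nat_lit 274) (nat_lit 272)) (XT.lf (nat_lit 0) (nat_lit 64401975152) (nat_lit 76) (nat_lit 5362045227) (nat_lit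 76) (nat_lit 4971639158) (nat_lit 3) (nat_lit 4) (nat_lit 4) (nat_lit 5) (nat_lit 4) (nat_lit 4) (nat_lit 355) (nat_lit 274) (nat_lit 271))) (XT.nd (nat_lit 78) (nat_lit 152) (nat_lit 0) (XT.lf (nat_lit 0) (nat_lit 75554835276) (nat_lit 76) (nat_lit 2707390489) (nat_lit 76) (nat_lit 2205634278) (nat_lit 3) (nat_lit 4) (nat_lit 4) (nat_lit 5) (nat_lit 4) (nat_lit 4) (nat_lit 356) (nat_lit 274) (nat_lit 270)) (XT.lf (nat_lit 0) (nat_lit 619375436) (nat_lit 152) (nat_lit 85988338001) (nat_lit 0) (nat_lit 59321552) (nat_lit 1) (nat_lit 5) (nat_lit 3) (nat_lit 4) (nat_lit 1) (nat_lit 4) (nat_lit 357) (nat_lit 274) (nat_lit 269)))) (XT.nd (nat_lit 156) (nat_lit 0) (nat_lit 0) (XT.nd (nat_lit 78) (nat_lit 0) (nat_lit 0) (XT.lf (nat_lit 0) (nat_lit 3619123078) (nat_lit 152) (nat_lit 86762374739) (nat_lit 0) (nat_lit 2970675862) (nat_lit 1) (nat_lit 5) (nat_lit 3) (nat_lit 4) (nat_lit 1) (nat_lit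 4) (nat_lit 358) (nat_lit 274) (nat_lit 268)) (XT.lf (nat_lit 0) (nat_lit 6728995850) (nat_lit 152) (nat_lit 87854854496) (nat_lit 0) (nat_lit 5998702955) (nat_lit 1) (nat_lit 5) (nat_lit 3) (nat_lit 4) (nat_lit 1) (nat_lit 4) (nat_lit 359) (nat_lit 274) (nat_lit 267))) (XT.nd (nat_lit 78) (nat_lit 0) (nat_lit 0) (XT.lf (nat_lit 0) (nat_lit 9967422627) (nat_lit 152) (nat_lit 89272251224) (nat_lit 0) (nat_lit 9161346697) (nat_lit 1) (nat_lit 5) (nat_lit 3) (nat_lit 4) (nat_lit 1) (nat_lit 4) (nat_lit 360) (nat_lit 274) (nat_lit 266)) (XT.lf (nat_lit 0) (nat_lit 13353594087) (nat_lit 152) (nat_lit 91022964313) (nat_lit 0) (nat_lit 12477348679) (nat_lit 1) (nat_lit 5) (nat_lit 3) (nat_lit 4) (nat_lit 1) (nat_lit 4) (nat_lit 361) (nat_lit 274) (nat_lit 265))))) (XT.nd (nat_lit 312) (nat_lit 0) (nat_lit 0) (XT.nd (nat_lit 156) (nat_lit 0) (nat_lit 0) (XT.nd (nat_lit 78) (nat_lit 0) (nat_lit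 0) (XT.lf (nat_lit 0) (nat_lit 16907576431) (nat_lit 152) (nat_lit 93117368358) (nat_lit 0) (nat_lit 15966359284) (nat_lit 1) (nat_lit 5) (nat_lit 3) (nat_lit 4) (nat_lit 1) (nat_lit 4) (nat_lit 362) (nat_lit 274) (nat_lit 264)) (XT.lf (nat_lit 0) (nat_lit 20650430294) (nat_lit 152) (nat_lit 95567874642) (nat_lit 0) (nat_lit 19649054131) (nat_lit 1) (nat_lit 5) (nat_lit 3) (nat_lit 4) (nat_lit 1) (nat_lit 4) (nat_lit 363) (nat_lit 274) (nat_lit 263))) (XT.nd (nat_lit 78) (nat_lit 0) (nat_lit 0) (XT.lf (nat_lit 0) (nat_lit 24604335552) (nat_lit 152) (nat_lit 98389004684) (nat_lit 0) (nat_lit 23547256596) (nat_lit 1) (nat_lit 5) (nat_lit 3) (nat_lit 4) (nat_lit 1) (nat_lit 4) (nat_lit 364) (nat_lit 274) (nat_lit 262)) (XT.lf (nat_lit 0) (nat_lit 28792722755) (nat_lit 152) (nat_lit 101597476293) (nat_lit 0) (nat_lit 27684067138) (nat_lit 1) (nat_lit 5) (nat_lit 3) (nat_lit 4) (nat_lit 1)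 (nat_lit 4) (nat_lit 365) (nat_lit 274) (nat_lit 261)))) (XT.nd (nat_lit 156) (nat_lit 0) (nat_lit 0) (XT.nd (nat_lit 78) (nat_lit 0) (nat_lit 0) (XT.lf (nat_lit 0) (nat_lit 33240411974) (nat_lit 152) (nat_lit 105212302632) (nat_lit 0) (nat_lit 32084000190) (nat_lit 1) (nat_lit 5) (nat_lit 3) (nat_lit 4) (nat_lit 1) (nat_lit 4) (nat_lit 366) (nat_lit 274) (nat_lit 260)) (XT.lf (nat_lit 0) (nat_lit 37973759887) (nat_lit 152) (nat_lit 109254904896) (nat_lit 0) (nat_lit 36773129429) (nat_lit 1) (nat_lit 5) (nat_lit 3) (nat_lit 4) (nat_lit 1) (nat_lit 4) (nat_lit 367) (nat_lit 274) (nat_lit 259))) (XT.nd (nat_lit 78) (nat_lit 0) (nat_lit 0) (XT.lf (nat_lit 0) (nat_lit 43020815963) (nat_lit 152) (nat_lit 113749239245) (nat_lit 0) (nat_lit 41779242289) (nat_lit 1) (nat_lit 5) (nat_lit 3) (nat_lit 4) (nat_lit 1) (nat_lit 4) (nat_lit 368) (nat_lit 274) (nat_lit 258)) (XT.nd (nat_lit 78) (nat_lit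 0) (nat_lit 0) (XT.lf (nat_lit 0) (nat_lit 48411488681) (nat_lit 152) (nat_lit 118721938772) (nat_lit 0) (nat_lit 47132004622) (nat_lit 1) (nat_lit 5) (nat_lit 3) (nat_lit 4) (nat_lit 1) (nat_lit 4) (nat_lit 369) (nat_lit 274) (nat_lit 257)) (XT.lf (nat_lit 0) (nat_lit 54177722770) (nat_lit 152) (nat_lit 124202471326) (nat_lit 0) (nat_lit 52863136502) (nat_lit 1) (nat_lit 5) (nat_lit 3) (nat_lit 4) (nat_lit 1) (nat_lit 4) (nat_lit 370) (nat_lit 274) (nat_lit 256))))))) (XT.nd (nat_lit 702) (nat_lit 0) (nat_lit 0) (XT.nd (nat_lit 312) (nat_lit 0) (nat_lit 0) (XT.nd (nat_lit 156) (nat_lit 0) (nat_lit 0) (XT.nd (nat_lit 78) (nat_lit 0) (nat_lit 0) (XT.lf (nat_lit 0) (nat_lit 60353688506) (nat_lit 152) (nat_lit 130223314138) (nat_lit 0) (nat_lit 59006600193) (nat_lit 1) (nat_lit 5) (nat_lit 3) (nat_lit 4) (nat_lit 1) (nat_lit 4) (nat_lit 371) (nat_lit 274) (nat_lit 255)) (XT.lf (nat_lit 0)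 (nat_lit 66975984203) (nat_lit 152) (nat_lit 136820146274) (nat_lit 0) (nat_lit 65598801404) (nat_lit 1) (nat_lit 5) (nat_lit 3) (nat_lit 4) (nat_lit 1) (nat_lit 4) (nat_lit 372) (nat_lit 274) (nat_lit 254))) (XT.nd (nat_lit 78) (nat_lit 0) (nat_lit 0) (XT.lf (nat_lit 0) (nat_lit 74083853096) (nat_lit 152) (nat_lit 144032060076) (nat_lit 0) (nat_lit 72678805031) (nat_lit 1) (nat_lit 5) (nat_lit 3) (nat_lit 4) (nat_lit 1) (nat_lit 4) (nat_lit 373) (nat_lit 274) (nat_lit 253)) (XT.lf (nat_lit 0) (nat_lit 81719415888) (nat_lit 152) (nat_lit 151901792808) (nat_lit 0) (nat_lit 80288566653) (nat_lit 1) (nat_lit 5) (nat_lit 3) (nat_lit 4) (nat_lit 1) (nat_lit 4) (nat_lit 374) (nat_lit 274) (nat_lit 252)))) (XT.nd (nat_lit 156) (nat_lit 0) (nat_lit 0) (XT.nd (nat_lit 78) (nat_lit 0) (nat_lit 0) (XT.lf (nat_lit 0) (nat_lit 89927920361) (nat_lit 152) (nat_lit 160475979925) (nat_lit 0) (nat_lit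 88473181153) (nat_lit 1) (nat_lit 5) (nat_lit 3) (nat_lit 4) (nat_lit 1) (nat_lit 4) (nat_lit 375) (nat_lit 274) (nat_lit 251)) (XT.lf (nat_lit 0) (nat_lit 98758009503) (nat_lit 152) (nat_lit 169805431423) (nat_lit 0) (nat_lit 97281149949) (nat_lit 1) (nat_lit 5) (nat_lit 3) (nat_lit 4) (nat_lit 1) (nat_lit 4) (nat_lit 376) (nat_lit 274) (nat_lit 250))) (XT.nd (nat_lit 78) (nat_lit 0) (nat_lit 0) (XT.lf (nat_lit 0) (nat_lit 108262009768) (nat_lit 152) (nat_lit 179945432943) (nat_lit 0) (nat_lit 106764668412) (nat_lit 1) (nat_lit 5) (nat_lit 3) (nat_lit 4) (nat_lit 1) (nat_lit 4) (nat_lit 377) (nat_lit 274) (nat_lit 249)) (XT.nd (nat_lit 78) (nat_lit 0) (nat_lit 0) (XT.lf (nat_lit 0) (nat_lit 118496241158) (nat_lit 152) (nat_lit 190956073381) (nat_lit 0) (nat_lit 116979935171) (nat_lit 1) (nat_lit 5) (nat_lit 3) (nat_lit 4) (nat_lit 1) (nat_lit 4) (nat_lit 378) (nat_lit 274) (nat_lit 248))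 (XT.lf (nat_lit 0) (nat_lit 129521350970) (nat_lit 152) (nat_lit 202902600977) (nat_lit 0) (nat_lit 127987485140) (nat_lit 1) (nat_lit 5) (nat_lit 3) (nat_lit 4) (nat_lit 1) (nat_lit 4) (nat_lit 379) (nat_lit 274) (nat_lit 247)))))) (XT.nd (nat_lit 312) (nat_lit 0) (nat_lit 0) (XT.nd (nat_lit 156) (nat_lit 0) (nat_lit 0) (XT.nd (nat_lit 78) (nat_lit 0) (nat_lit 0) (XT.lf (nat_lit 0) (nat_lit 141402673189) (nat_lit 152) (nat_lit 215855809968) (nat_lit 0) (nat_lit 139852548243) (nat_lit 1) (nat_lit 5) (nat_lit 3) (nat_lit 4) (nat_lit 1) (nat_lit 4) (nat_lit 380) (nat_lit 274) (nat_lit 246)) (XT.lf (nat_lit 0) (nat_lit 154210615648) (nat_lit 152) (nat_lit 229892460113) (nat_lit 0) (nat_lit 152645435968) (nat_lit 1) (nat_lit 5) (nat_lit 3) (nat_lit 4) (nat_lit 1) (nat_lit 4) (nat_lit 381) (nat_lit 274) (nat_lit 245))) (XT.nd (nat_lit 78) (nat_lit 0) (nat_lit 0) (XT.lf (nat_lit 0) (nat_lit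 168021077268) (nat_lit 152) (nat_lit 245095731559) (nat_lit 0) (nat_lit 166441958017) (nat_lit 1) (nat_lit 5) (nat_lit 3) (nat_lit 4) (nat_lit 1) (nat_lit 4) (nat_lit 382) (nat_lit 274) (nat_lit 244)) (XT.lf (nat_lit 0) (nat_lit 182915897819) (nat_lit 152) (nat_lit 261555717768) (nat_lit 0) (nat_lit 181323871559) (nat_lit 1) (nat_lit 5) (nat_lit 3) (nat_lit 4) (nat_lit 1) (nat_lit 4) (nat_lit 383) (nat_lit 274) (nat_lit 243)))) (XT.nd (nat_lit 156) (nat_lit 0) (nat_lit 0) (XT.nd (nat_lit 78) (nat_lit 0) (nat_lit 0) (XT.lf (nat_lit 0) (nat_lit 198983342907) (nat_lit 152) (nat_lit 279369959397) (nat_lit 0) (nat_lit 197379365712) (nat_lit 1) (nat_lit 5) (nat_lit 3) (nat_lit 4) (nat_lit 1) (nat_lit 4) (nat_lit 384) (nat_lit 274) (nat_lit 242)) (XT.lf (nat_lit 0) (nat_lit 216318627019) (nat_lit 152) (nat_lit 298644022324) (nat_lit 0) (nat_lit 214703584144) (nat_lit 1) (nat_lit 5) (nat_lit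 3) (nat_lit 4) (nat_lit 1) (nat_lit 4) (nat_lit 385) (nat_lit 274) (nat_lit 241))) (XT.nd (nat_lit 78) (nat_lit 0) (nat_lit 0) (XT.lf (nat_lit 0) (nat_lit 235024477766) (nat_lit 152) (nat_lit 319492123218) (nat_lit 0) (nat_lit 233399188891) (nat_lit 1) (nat_lit 5) (nat_lit 3) (nat_lit 4) (nat_lit 1) (nat_lit 4) (nat_lit 386) (nat_lit 274) (nat_lit 240)) (XT.nd (nat_lit 78) (nat_lit 0) (nat_lit 0) (XT.lf (nat_lit 0) (nat_lit 255211744633) (nat_lit 152) (nat_lit 342037806380) (nat_lit 0) (nat_lit 253576968721) (nat_lit 1) (nat_lit 5) (nat_lit 3) (nat_lit 4) (nat_lit 1) (nat_lit 4) (nat_lit 387) (nat_lit 274) (nat_lit 239)) (XT.lf (nat_lit 0) (nat_lit 277000055869) (nat_lit 152) (nat_lit 366414675859) (nat_lit 0) (nat_lit 275356495664) (nat_lit 1) (nat_lit 5) (nat_lit 3) (nat_lit 4) (nat_lit 1) (nat_lit 4) (nat_lit 388) (nat_lit 274) (nat_lit 238))))))))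
noncomputable def xc30 : XT := (XT.nd (nat_lit 1326) (nat_lit 0) (nat_lit 0) (XT.nd (nat_lit 624) (nat_lit 0) (nat_lit 0) (XT.nd (nat_lit 312) (nat_lit 0) (nat_lit 0) (XT.nd (nat_lit 156) (nat_lit 0) (nat_lit 0) (XT.nd (nat_lit 78) (nat_lit 0) (nat_lit 0) (XT.lf (nat_lit 0) (nat_lit 300518527392) (nat_lit 152) (nat_lit 392767187177) (nat_lit 0) (nat_lit 298866833581) (nat_lit 1) (nat_lit 5) (nat_lit 3) (nat_lit 4) (nat_lit 1) (nat_lit 4) (nat_lit 389) (nat_lit 274) (nat_lit 237)) (XT.lf (nat_lit 0) (nat_lit 325906527922) (nat_lit 152) (nat_lit 421251503365) (nat_lit 0) (nat_lit 324247302995) (nat_lit 1) (nat_lit 5) (nat_lit 3) (nat_lit 4) (nat_lit 1) (nat_lit 4) (nat_lit 390) (nat_lit 274) (nat_lit 236))) (XT.nd (nat_lit 78) (nat_lit 0) (nat_lit 0) (XT.lf (nat_lit 0) (nat_lit 353314504869) (nat_lit 152) (nat_lit 452036420370) (nat_lit 0) (nat_lit 351648306687) (nat_lit 1) (nat_lit 5)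 (nat_lit 3) (nat_lit 4) (nat_lit 1) (nat_lit 4) (nat_lit 391) (nat_lit 274) (nat_lit 235)) (XT.lf (nat_lit 0) (nat_lit 382904875876) (nat_lit 152) (nat_lit 485304367330) (nat_lit 0) (nat_lit 381232220976) (nat_lit 1) (nat_lit 5) (nat_lit 3) (nat_lit 4) (nat_lit 1) (nat_lit 4) (nat_lit 392) (nat_lit 274) (nat_lit 234)))) (XT.nd (nat_lit 156) (nat_lit 0) (nat_lit 0) (XT.nd (nat_lit 78) (nat_lit 0) (nat_lit 0) (XT.lf (nat_lit 0) (nat_lit 414852991288) (nat_lit 152) (nat_lit 521252487635) (nat_lit 0) (nat_lit 413174357945) (nat_lit 1) (nat_lit 5) (nat_lit 3) (nat_lit 4) (nat_lit 1) (nat_lit 4) (nat_lit 393) (nat_lit 274) (nat_lit 233)) (XT.lf (nat_lit 0) (nat_lit 449348173270) (nat_lit 152) (nat_lit 560093807182) (nat_lit 0) (nat_lit 447664004333) (nat_lit 1) (nat_lit 5) (nat_lit 3) (nat_lit 4) (nat_lit 1) (nat_lit 4) (nat_lit 394) (nat_lit 274) (nat_lit 232))) (XT.nd (nat_lit 78) (nat_lit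 0) (nat_lit 0) (XT.lf (nat_lit 0) (nat_lit 486594837718) (nat_lit 152) (nat_lit 602058496754) (nat_lit 0) (nat_lit 484905543229) (nat_lit 1) (nat_lit 5) (nat_lit 3) (nat_lit 4) (nat_lit 1) (nat_lit 4) (nat_lit 395) (nat_lit 274) (nat_lit 231)) (XT.lf (nat_lit 0) (nat_lit 526813705603) (nat_lit 152) (nat_lit 647395235994) (nat_lit 0) (nat_lit 525119665234) (nat_lit 1) (nat_lit 5) (nat_lit 3) (nat_lit 4) (nat_lit 1) (nat_lit 4) (nat_lit 396) (nat_lit 274) (nat_lit 230))))) (XT.nd (nat_lit 312) (nat_lit 0) (nat_lit 0) (XT.nd (nat_lit 156) (nat_lit 0) (nat_lit 0) (XT.nd (nat_lit 78) (nat_lit 0) (nat_lit 0) (XT.lf (nat_lit 0) (nat_lit 570243110960) (nat_lit 152) (nat_lit 696372687059) (nat_lit 0) (nat_lit 568544676257) (nat_lit 1) (nat_lit 5) (nat_lit 3) (nat_lit 4) (nat_lit 1) (nat_lit 4) (nat_lit 397) (nat_lit 274) (nat_lit 229)) (XT.lf (nat_lit 0) (nat_lit 617140413226) (nat_lit 152) (nat_lit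 749281086696) (nat_lit 0) (nat_lit 615437909695) (nat_lit 1) (nat_lit 5) (nat_lit 3) (nat_lit 4) (nat_lit 1) (nat_lit 4) (nat_lit 398) (nat_lit 274) (nat_lit 228))) (XT.nd (nat_lit 78) (nat_lit 0) (nat_lit 0) (XT.lf (nat_lit 0) (nat_lit 667783522341) (nat_lit 152) (nat_lit 806433966163) (nat_lit 0) (nat_lit 666077251377) (nat_lit 1) (nat_lit 5) (nat_lit 3) (nat_lit 4) (nat_lit 1) (nat_lit 4) (nat_lit 399) (nat_lit 274) (nat_lit 227)) (XT.lf (nat_lit 0) (nat_lit 722472545618) (nat_lit 152) (nat_lit 868170009190) (nat_lit 0) (nat_lit 720762786291) (nat_lit 1) (nat_lit 5) (nat_lit 3) (nat_lit 4) (nat_lit 1) (nat_lit 4) (nat_lit 400) (nat_lit 274) (nat_lit 226)))) (XT.nd (nat_lit 156) (nat_lit 0) (nat_lit 0) (XT.nd (nat_lit 78) (nat_lit 0) (nat_lit 0) (XT.lf (nat_lit 0) (nat_lit 781531566159) (nat_lit 152) (nat_lit 934855058995) (nat_lit 0) (nat_lit 779818576865) (nat_lit 1) (nat_lit 5) (nat_lit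 3) (nat_lit 4) (nat_lit 1) (nat_lit 4) (nat_lit 401) (nat_lit 274) (nat_lit 225)) (XT.lf (nat_lit 0) (nat_lit 845310563344) (nat_lit 152) (nat_lit 1006884286243) (nat_lit 0) (nat_lit 843594583341) (nat_lit 1) (nat_lit 5) (nat_lit 3) (nat_lit 4) (nat_lit 1) (nat_lit 4) (nat_lit 402) (nat_lit 274) (nat_lit 224))) (XT.nd (nat_lit 78) (nat_lit 0) (nat_lit 0) (XT.lf (nat_lit 0) (nat_lit 914187486787) (nat_lit 152) (nat_lit 1084684530799) (nat_lit 0) (nat_lit 912468737607) (nat_lit 1) (nat_lit 5) (nat_lit 3) (nat_lit 4) (nat_lit 1) (nat_lit 4) (nat_lit 403) (nat_lit 274) (nat_lit 223)) (XT.nd (nat_lit 78) (nat_lit 0) (nat_lit 0) (XT.lf (nat_lit 0) (nat_lit 988570496033) (nat_lit 152) (nat_lit 1168716831150) (nat_lit 0) (nat_lit 986849182802) (nat_lit 1) (nat_lit 5) (nat_lit 3) (nat_lit 4) (nat_lit 1) (nat_lit 4) (nat_lit 404) (nat_lit 274) (nat_lit 222)) (XT.lf (nat_lit 0) (nat_lit 1068900379285)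 (nat_lit 152) (nat_lit 1259479156483) (nat_lit 0) (nat_lit 1067176691932) (nat_lit 1) (nat_lit 5) (nat_lit 3) (nat_lit 4) (nat_lit 1) (nat_lit 4) (nat_lit 405) (nat_lit 274) (nat_lit 221))))))) (XT.nd (nat_lit 624) (nat_lit 0) (nat_lit 0) (XT.nd (nat_lit 312) (nat_lit 0) (nat_lit 0) (XT.nd (nat_lit 156) (nat_lit 0) (nat_lit 0) (XT.nd (nat_lit 78) (nat_lit 0) (nat_lit 0) (XT.lf (nat_lit 0) (nat_lit 1155653165481) (nat_lit 152) (nat_lit 1357509357615) (nat_lit 0) (nat_lit 1153927279868) (nat_lit 1) (nat_lit 5) (nat_lit 3) (nat_lit 4) (nat_lit 1) (nat_lit 4) (nat_lit 406) (nat_lit 274) (nat_lit 220)) (XT.lf (nat_lit 0) (nat_lit 1249342945207) (nat_lit 152) (nat_lit 1463388354256) (nat_lit 0) (nat_lit 1247615024167) (nat_lit 1) (nat_lit 5) (nat_lit 3) (nat_lit 4) (nat_lit 1) (nat_lit 4) (nat_lit 407) (nat_lit 274) (nat_lit 219))) (XT.nd (nat_lit 78) (nat_lit 0) (nat_lit 0) (XT.lf (nat_lit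 0) (nat_lit 1350524917157) (nat_lit 152) (nat_lit 1577743577497) (nat_lit 0) (nat_lit 1348795111462) (nat_lit 1) (nat_lit 5) (nat_lit 3) (nat_lit 4) (nat_lit 1) (nat_lit 4) (nat_lit 408) (nat_lit 274) (nat_lit 218)) (XT.lf (nat_lit 0) (nat_lit 1459798678201) (nat_lit 152) (nat_lit 1701252687921) (nat_lit 0) (nat_lit 1458067127455) (nat_lit 1) (nat_lit 5) (nat_lit 3) (nat_lit 4) (nat_lit 1) (nat_lit 4) (nat_lit 409) (nat_lit 274) (nat_lit 217)))) (XT.nd (nat_lit 156) (nat_lit 0) (nat_lit 0) (XT.nd (nat_lit 78) (nat_lit 0) (nat_lit 0) (XT.lf (nat_lit 0) (nat_lit 1577811776553) (nat_lit 152) (nat_lit 1834647591367) (nat_lit 0) (nat_lit 1576078610020) (nat_lit 1) (nat_lit 5) (nat_lit 3) (nat_lit 4) (nat_lit 1) (nat_lit 4) (nat_lit 410) (nat_lit 274) (nat_lit 216)) (XT.lf (nat_lit 0) (nat_lit 1705263549093) (nat_lit 152) (nat_lit 1978718776152) (nat_lit 0) (nat_lit 1703528886461) (nat_lit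 1) (nat_lit 5) (nat_lit 3) (nat_lit 4) (nat_lit 1) (nat_lit 4) (nat_lit 411) (nat_lit 274) (nat_lit 215))) (XT.nd (nat_lit 78) (nat_lit 0) (nat_lit 0) (XT.lf (nat_lit 0) (nat_lit 1842909265583) (nat_lit 152) (nat_lit 2134319997444) (nat_lit 0) (nat_lit 1841173217674) (nat_lit 1) (nat_lit 5) (nat_lit 3) (nat_lit 4) (nat_lit 1) (nat_lit 4) (nat_lit 412) (nat_lit 274) (nat_lit 214)) (XT.lf (nat_lit 0) (nat_lit 1991564604344) (nat_lit 152) (nat_lit 2302373336556) (nat_lit 0) (nat_lit 1989827273770) (nat_lit 1) (nat_lit 5) (nat_lit 3) (nat_lit 4) (nat_lit 1) (nat_lit 4) (nat_lit 413) (nat_lit 274) (nat_lit 213))))) (XT.nd (nat_lit 42042) (nat_lit 0) (nat_lit 152) (XT.nd (nat_lit 41886) (nat_lit 0) (nat_lit 152) (XT.nd (nat_lit 78) (nat_lit 0) (nat_lit 0) (XT.lf (nat_lit 0) (nat_lit 2152110485901) (nat_lit 152) (nat_lit 2483874665126) (nat_lit 0) (nat_lit 2150371967675) (nat_lit 1) (nat_lit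 5) (nat_lit 3) (nat_lit 4) (nat_lit 1) (nat_lit 4) (nat_lit 414) (nat_lit 274) (nat_lit 212)) (XT.lf (nat_lit 0) (nat_lit 2325498293256) (nat_lit 152) (nat_lit 2679899546584) (nat_lit 0) (nat_lit 2323758675353) (nat_lit 1) (nat_lit 5) (nat_lit 3) (nat_lit 4) (nat_lit 1) (nat_lit 4) (nat_lit 415) (nat_lit 274) (nat_lit 211))) (XT.nd (nat_lit 78) (nat_lit 0) (nat_lit 0) (XT.lf (nat_lit 0) (nat_lit 7987381133) (nat_lit 76) (nat_lit 9008516952) (nat_lit 76) (nat_lit 9008516952) (nat_lit 3) (nat_lit 4) (nat_lit 4) (nat_lit 5) (nat_lit 4) (nat_lit 4) (nat_lit 350) (nat_lit 275) (nat_lit 275)) (XT.lf (nat_lit 0) (nat_lit 24751063825) (nat_lit 76) (nat_lit 15630876540) (nat_lit 76) (nat_lit 15479385901) (nat_lit 3) (nat_lit 4) (nat_lit 4) (nat_lit 5) (nat_lit 4) (nat_lit 4) (nat_lit 351) (nat_lit 275) (nat_lit 274)))) (XT.nd (nat_lit 156) (nat_lit 0) (nat_lit 0) (XT.nd (nat_lit 78) (nat_lit 0)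 (nat_lit 0) (XT.lf (nat_lit 0) (nat_lit 33863869253) (nat_lit 76) (nat_lit 13232470121) (nat_lit 76) (nat_lit 12940710373) (nat_lit 3) (nat_lit 4) (nat_lit 4) (nat_lit 5) (nat_lit 4) (nat_lit 4) (nat_lit 352) (nat_lit 275) (nat_lit 273)) (XT.lf (nat_lit 0) (nat_lit 43367180364) (nat_lit 76) (nat_lit 10807601869) (nat_lit 76) (nat_lit 10385963315) (nat_lit 3) (nat_lit 4) (nat_lit 4) (nat_lit 5) (nat_lit 4) (nat_lit 4) (nat_lit 353) (nat_lit 275) (nat_lit 272))) (XT.nd (nat_lit 78) (nat_lit 0) (nat_lit 0) (XT.lf (nat_lit 0) (nat_lit 53317313073) (nat_lit 76) (nat_lit 8341902195) (nat_lit 76) (nat_lit 7800005487) (nat_lit 3) (nat_lit 4) (nat_lit 4) (nat_lit 5) (nat_lit 4) (nat_lit 4) (nat_lit 354) (nat_lit 275) (nat_lit 271)) (XT.nd (nat_lit 78) (nat_lit 0) (nat_lit 0) (XT.lf (nat_lit 0) (nat_lit 63773231131) (nat_lit 76) (nat_lit 5820759543) (nat_lit 76) (nat_lit 5167512693) (nat_lit 3)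 (nat_lit 4) (nat_lit 4) (nat_lit 5) (nat_lit 4) (nat_lit 4) (nat_lit 355) (nat_lit 275) (nat_lit 270)) (XT.lf (nat_lit 0) (nat_lit 74796895534) (nat_lit 76) (nat_lit 3229233811) (nat_lit 76) (nat_lit 2472884978) (nat_lit 3) (nat_lit 4) (nat_lit 4) (nat_lit 5) (nat_lit 4) (nat_lit 4) (nat_lit 356) (nat_lit 275) (nat_lit 269))))))))
noncomputable def xc31 : XT := (XT.nd (nat_lit 1326) (nat_lit 0) (nat_lit 0) (XT.nd (nat_lit 624) (nat_lit 0) (nat_lit 0) (XT.nd (nat_lit 312) (nat_lit 0) (nat_lit 0) (XT.nd (nat_lit 156) (nat_lit 0) (nat_lit 0) (XT.nd (nat_lit 78) (nat_lit 76) (nat_lit 0) (XT.lf (nat_lit 0) (nat_lit 284846321) (nat_lit 152) (nat_lit 259333283) (nat_lit 76) (nat_lit 86160997174) (nat_lit 2) (nat_lit 5) (nat_lit 4) (nat_lit 5) (nat_lit 3) (nat_lit 4) (nat_lit 357) (nat_lit 275) (nat_lit 268)) (XT.lf (nat_lit 0) (nat_lit 3202340366) (nat_lit 152) (nat_lit 87862796962) (nat_lit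 0) (nat_lit 2331778361) (nat_lit 1) (nat_lit 5) (nat_lit 3) (nat_lit 4) (nat_lit 1) (nat_lit 4) (nat_lit 358) (nat_lit 275) (nat_lit 267))) (XT.nd (nat_lit 78) (nat_lit 0) (nat_lit 0) (XT.lf (nat_lit 0) (nat_lit 6254407457) (nat_lit 152) (nat_lit 89069468349) (nat_lit 0) (nat_lit 5308062417) (nat_lit 1) (nat_lit 5) (nat_lit 3) (nat_lit 4) (nat_lit 1) (nat_lit 4) (nat_lit 359) (nat_lit 275) (nat_lit 266)) (XT.lf (nat_lit 0) (nat_lit 9439310456) (nat_lit 152) (nat_lit 90592598068) (nat_lit 0) (nat_lit 8422795938) (nat_lit 1) (nat_lit 5) (nat_lit 3) (nat_lit 4) (nat_lit 1) (nat_lit 4) (nat_lit 360) (nat_lit 275) (nat_lit 265)))) (XT.nd (nat_lit 156) (nat_lit 0) (nat_lit 0) (XT.nd (nat_lit 78) (nat_lit 0) (nat_lit 0) (XT.lf (nat_lit 0) (nat_lit 12775922861) (nat_lit 152) (nat_lit 92441212075) (nat_lit 0) (nat_lit 11694436605) (nat_lit 1) (nat_lit 5) (nat_lit 3) (nat_lit 4) (nat_lit 1) (nat_lit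 4) (nat_lit 361) (nat_lit 275) (nat_lit 264)) (XT.lf (nat_lit 0) (nat_lit 16284017191) (nat_lit 152) (nat_lit 94626265118) (nat_lit 0) (nat_lit 15142371918) (nat_lit 1) (nat_lit 5) (nat_lit 3) (nat_lit 4) (nat_lit 1) (nat_lit 4) (nat_lit 362) (nat_lit 275) (nat_lit 263))) (XT.nd (nat_lit 78) (nat_lit 0) (nat_lit 0) (XT.lf (nat_lit 0) (nat_lit 19984382154) (nat_lit 152) (nat_lit 97160705660) (nat_lit 0) (nat_lit 18787034087) (nat_lit 1) (nat_lit 5) (nat_lit 3) (nat_lit 4) (nat_lit 1) (nat_lit 4) (nat_lit 363) (nat_lit 275) (nat_lit 262)) (XT.lf (nat_lit 0) (nat_lit 23898945837) (nat_lit 152) (nat_lit 100059552607) (nat_lit 0) (nat_lit 22650021110) (nat_lit 1) (nat_lit 5) (nat_lit 3) (nat_lit 4) (nat_lit 1) (nat_lit 4) (nat_lit 364) (nat_lit 275) (nat_lit 261))))) (XT.nd (nat_lit 312) (nat_lit 0) (nat_lit 0) (XT.nd (nat_lit 156) (nat_lit 0) (nat_lit 0) (XT.nd (nat_lit 78) (nat_lit 0) (nat_lit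 0) (XT.lf (nat_lit 0) (nat_lit 28050905655) (nat_lit 152) (nat_lit 103339984313) (nat_lit 0) (nat_lit 26754224761) (nat_lit 1) (nat_lit 5) (nat_lit 3) (nat_lit 4) (nat_lit 1) (nat_lit 4) (nat_lit 365) (nat_lit 275) (nat_lit 260)) (XT.lf (nat_lit 0) (nat_lit 32464865815) (nat_lit 152) (nat_lit 107021440372) (nat_lit 0) (nat_lit 31123966247) (nat_lit 1) (nat_lit 5) (nat_lit 3) (nat_lit 4) (nat_lit 1) (nat_lit 4) (nat_lit 366) (nat_lit 275) (nat_lit 259))) (XT.nd (nat_lit 78) (nat_lit 0) (nat_lit 0) (XT.lf (nat_lit 0) (nat_lit 37166983117) (nat_lit 152) (nat_lit 111125736820) (nat_lit 0) (nat_lit 35785140333) (nat_lit 1) (nat_lit 5) (nat_lit 3) (nat_lit 4) (nat_lit 1) (nat_lit 4) (nat_lit 367) (nat_lit 275) (nat_lit 258)) (XT.lf (nat_lit 0) (nat_lit 42185121960) (nat_lit 152) (nat_lit 115677195414) (nat_lit 0) (nat_lit 40765368791) (nat_lit 1) (nat_lit 5) (nat_lit 3) (nat_lit 4) (nat_lit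 1) (nat_lit 4) (nat_lit 368) (nat_lit 275) (nat_lit 257)))) (XT.nd (nat_lit 156) (nat_lit 0) (nat_lit 0) (XT.nd (nat_lit 78) (nat_lit 0) (nat_lit 0) (XT.lf (nat_lit 0) (nat_lit 47549019464) (nat_lit 152) (nat_lit 120702787761) (nat_lit 0) (nat_lit 46094164086) (nat_lit 1) (nat_lit 5) (nat_lit 3) (nat_lit 4) (nat_lit 1) (nat_lit 4) (nat_lit 369) (nat_lit 275) (nat_lit 256)) (XT.lf (nat_lit 0) (nat_lit 53290461687) (nat_lit 152) (nat_lit 126232295149) (nat_lit 0) (nat_lit 51803104264) (nat_lit 1) (nat_lit 5) (nat_lit 3) (nat_lit 4) (nat_lit 1) (nat_lit 4) (nat_lit 370) (nat_lit 275) (nat_lit 255))) (XT.nd (nat_lit 78) (nat_lit 0) (nat_lit 0) (XT.lf (nat_lit 0) (nat_lit 59443471991) (nat_lit 152) (nat_lit 132298485028) (nat_lit 0) (nat_lit 57926020082) (nat_lit 1) (nat_lit 5) (nat_lit 3) (nat_lit 4) (nat_lit 1) (nat_lit 4) (nat_lit 371) (nat_lit 275) (nat_lit 254)) (XT.nd (nat_lit 78) (nat_lit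 0) (nat_lit 0) (XT.lf (nat_lit 0) (nat_lit 66044512659) (nat_lit 152) (nat_lit 138937305190) (nat_lit 0) (nat_lit 64499195485) (nat_lit 1) (nat_lit 5) (nat_lit 3) (nat_lit 4) (nat_lit 1) (nat_lit 4) (nat_lit 372) (nat_lit 275) (nat_lit 253)) (XT.lf (nat_lit 0) (nat_lit 73132700970) (nat_lit 152) (nat_lit 146188096793) (nat_lit 0) (nat_lit 71561582625) (nat_lit 1) (nat_lit 5) (nat_lit 3) (nat_lit 4) (nat_lit 1) (nat_lit 4) (nat_lit 373) (nat_lit 275) (nat_lit 252))))))) (XT.nd (nat_lit 702) (nat_lit 0) (nat_lit 0) (XT.nd (nat_lit 312) (nat_lit 0) (nat_lit 0) (XT.nd (nat_lit 156) (nat_lit 0) (nat_lit 0) (XT.nd (nat_lit 78) (nat_lit 0) (nat_lit 0) (XT.lf (nat_lit 0) (nat_lit 80750041001) (nat_lit 152) (nat_lit 154093827489) (nat_lit 0) (nat_lit 79155032683) (nat_lit 1) (nat_lit 5) (nat_lit 3) (nat_lit 4) (nat_lit 1) (nat_lit 4) (nat_lit 374) (nat_lit 275) (nat_lit 251)) (XT.lf (nat_lit 0)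 (nat_lit 88941672547) (nat_lit 152) (nat_lit 162701346055) (nat_lit 0) (nat_lit 87324543883) (nat_lit 1) (nat_lit 5) (nat_lit 3) (nat_lit 4) (nat_lit 1) (nat_lit 4) (nat_lit 375) (nat_lit 275) (nat_lit 250))) (XT.nd (nat_lit 78) (nat_lit 0) (nat_lit 0) (XT.lf (nat_lit 0) (nat_lit 97756138608) (nat_lit 152) (nat_lit 172061660006) (nat_lit 0) (nat_lit 96118528142) (nat_lit 1) (nat_lit 5) (nat_lit 3) (nat_lit 4) (nat_lit 1) (nat_lit 4) (nat_lit 376) (nat_lit 275) (nat_lit 249)) (XT.lf (nat_lit 0) (nat_lit 107245673058) (nat_lit 152) (nat_lit 182230237870) (nat_lit 0) (nat_lit 105589097961) (nat_lit 1) (nat_lit 5) (nat_lit 3) (nat_lit 4) (nat_lit 1) (nat_lit 4) (nat_lit 377) (nat_lit 275) (nat_lit 248)))) (XT.nd (nat_lit 156) (nat_lit 0) (nat_lit 0) (XT.nd (nat_lit 78) (nat_lit 0) (nat_lit 0) (XT.lf (nat_lit 0) (nat_lit 117466510174) (nat_lit 152) (nat_lit 193267337886) (nat_lit 0) (nat_lit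 115792375233) (nat_lit 1) (nat_lit 5) (nat_lit 3) (nat_lit 4) (nat_lit 1) (nat_lit 4) (nat_lit 378) (nat_lit 275) (nat_lit 247)) (XT.lf (nat_lit 0) (nat_lit 128479217881) (nat_lit 152) (nat_lit 205238365092) (nat_lit 0) (nat_lit 126788823826) (nat_lit 1) (nat_lit 5) (nat_lit 3) (nat_lit 4) (nat_lit 1) (nat_lit 4) (nat_lit 379) (nat_lit 275) (nat_lit 246))) (XT.nd (nat_lit 78) (nat_lit 0) (nat_lit 0) (XT.lf (nat_lit 0) (nat_lit 140349056668) (nat_lit 152) (nat_lit 218214258907) (nat_lit 0) (nat_lit 138643607878) (nat_lit 1) (nat_lit 5) (nat_lit 3) (nat_lit 4) (nat_lit 1) (nat_lit 4) (nat_lit 380) (nat_lit 275) (nat_lit 245)) (XT.nd (nat_lit 78) (nat_lit 0) (nat_lit 0) (XT.lf (nat_lit 0) (nat_lit 153146366322) (nat_lit 152) (nat_lit 232271913518) (nat_lit 0) (nat_lit 151426977961) (nat_lit 1) (nat_lit 5) (nat_lit 3) (nat_lit 4) (nat_lit 1) (nat_lit 4) (nat_lit 381) (nat_lit 275) (nat_lit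 244)) (XT.lf (nat_lit 0) (nat_lit 166946982750) (nat_lit 152) (nat_lit 247494633544) (nat_lit 0) (nat_lit 165214687380) (nat_lit 1) (nat_lit 5) (nat_lit 3) (nat_lit 4) (nat_lit 1) (nat_lit 4) (nat_lit 382) (nat_lit 275) (nat_lit 243)))))) (XT.nd (nat_lit 312) (nat_lit 0) (nat_lit 0) (XT.nd (nat_lit 156) (nat_lit 0) (nat_lit 0) (XT.nd (nat_lit 78) (nat_lit 0) (nat_lit 0) (XT.lf (nat_lit 0) (nat_lit 181832687384) (nat_lit 152) (nat_lit 263972627697) (nat_lit 0) (nat_lit 180088441080) (nat_lit 1) (nat_lit 5) (nat_lit 3) (nat_lit 4) (nat_lit 1) (nat_lit 4) (nat_lit 383) (nat_lit 275) (nat_lit 242)) (XT.lf (nat_lit 0) (nat_lit 197891691807) (nat_lit 152) (nat_lit 281803543349) (nat_lit 0) (nat_lit 196136379823) (nat_lit 1) (nat_lit 5) (nat_lit 3) (nat_lit 4) (nat_lit 1) (nat_lit 4) (nat_lit 384) (nat_lit 275) (nat_lit 241))) (XT.nd (nat_lit 78) (nat_lit 0) (nat_lit 0) (XT.lf (nat_lit 0) (nat_lit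 215219160489) (nat_lit 152) (nat_lit 301093045186) (nat_lit 0) (nat_lit 213453602505) (nat_lit 1) (nat_lit 5) (nat_lit 3) (nat_lit 4) (nat_lit 1) (nat_lit 4) (nat_lit 385) (nat_lit 275) (nat_lit 240)) (XT.lf (nat_lit 0) (nat_lit 233917774727) (nat_lit 152) (nat_lit 321955441367) (nat_lit 0) (nat_lit 232142729705) (nat_lit 1) (nat_lit 5) (nat_lit 3) (nat_lit 4) (nat_lit 1) (nat_lit 4) (nat_lit 386) (nat_lit 275) (nat_lit 239)))) (XT.nd (nat_lit 156) (nat_lit 0) (nat_lit 0) (XT.nd (nat_lit 78) (nat_lit 0) (nat_lit 0) (XT.lf (nat_lit 0) (nat_lit 254098341123) (nat_lit 152) (nat_lit 344514360906) (nat_lit 0) (nat_lit 252314511807) (nat_lit 1) (nat_lit 5) (nat_lit 3) (nat_lit 4) (nat_lit 1) (nat_lit 4) (nat_lit 387) (nat_lit 275) (nat_lit 238)) (XT.lf (nat_lit 0) (nat_lit 275880448218) (nat_lit 152) (nat_lit 368903486289) (nat_lit 0) (nat_lit 274088485298) (nat_lit 1) (nat_lit 5) (nat_lit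 3) (nat_lit 4) (nat_lit 1) (nat_lit 4) (nat_lit 388) (nat_lit 275) (nat_lit 237))) (XT.nd (nat_lit 78) (nat_lit 0) (nat_lit 0) (XT.lf (nat_lit 0) (nat_lit 299393175167) (nat_lit 152) (nat_lit 395267345667) (nat_lit 0) (nat_lit 297593681130) (nat_lit 1) (nat_lit 5) (nat_lit 3) (nat_lit 4) (nat_lit 1) (nat_lit 4) (nat_lit 389) (nat_lit 275) (nat_lit 236)) (XT.nd (nat_lit 78) (nat_lit 0) (nat_lit 0) (XT.lf (nat_lit 0) (nat_lit 324775856646) (nat_lit 152) (nat_lit 423762169317) (nat_lit 0) (nat_lit 322969389354) (nat_lit 1) (nat_lit 5) (nat_lit 3) (nat_lit 4) (nat_lit 1) (nat_lit 4) (nat_lit 390) (nat_lit 275) (nat_lit 235)) (XT.lf (nat_lit 0) (nat_lit 352178908547) (nat_lit 152) (nat_lit 454556815455) (nat_lit 0) (nat_lit 350365984537) (nat_lit 1) (nat_lit 5) (nat_lit 3) (nat_lit 4) (nat_lit 1) (nat_lit 4) (nat_lit 391) (nat_lit 275) (nat_lit 234))))))))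
noncomputable def xc32 : XT := (XT.nd (nat_lit 1326) (nat_lit 0) (nat_lit 0) (XT.nd (nat_lit 624) (nat_lit 0) (nat_lit 0) (XT.nd (nat_lit 312) (nat_lit 0) (nat_lit 0) (XT.nd (nat_lit 156) (nat_lit 0) (nat_lit 0) (XT.nd (nat_lit 78) (nat_lit 0) (nat_lit 0) (XT.lf (nat_lit 0) (nat_lit 381764719325) (nat_lit 152) (nat_lit 487833770870) (nat_lit 0) (nat_lit 379945816873) (nat_lit 1) (nat_lit 5) (nat_lit 3) (nat_lit 4) (nat_lit 1) (nat_lit 4) (nat_lit 392) (nat_lit 275) (nat_lit 233)) (XT.lf (nat_lit 0) (nat_lit 413708612304) (nat_lit 152) (nat_lit 523790232338) (nat_lit 0) (nat_lit 411884174256) (nat_lit 1) (nat_lit 5) (nat_lit 3) (nat_lit 4) (nat_lit 1) (nat_lit 4) (nat_lit 393) (nat_lit 275) (nat_lit 232))) (XT.nd (nat_lit 78) (nat_lit 0) (nat_lit 0) (XT.lf (nat_lit 0) (nat_lit 448199884626) (nat_lit 152) (nat_lit 562639275184) (nat_lit 0) (nat_lit 446370321027) (nat_lit 1) (nat_lit 5)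 (nat_lit 3) (nat_lit 4) (nat_lit 1) (nat_lit 4) (nat_lit 394) (nat_lit 275) (nat_lit 231)) (XT.lf (nat_lit 0) (nat_lit 485442929016) (nat_lit 152) (nat_lit 604611115959) (nat_lit 0) (nat_lit 483608619537) (nat_lit 1) (nat_lit 5) (nat_lit 3) (nat_lit 4) (nat_lit 1) (nat_lit 4) (nat_lit 395) (nat_lit 275) (nat_lit 230)))) (XT.nd (nat_lit 156) (nat_lit 0) (nat_lit 0) (XT.nd (nat_lit 78) (nat_lit 0) (nat_lit 0) (XT.lf (nat_lit 0) (nat_lit 525658444998) (nat_lit 152) (nat_lit 649954476682) (nat_lit 0) (nat_lit 523819741185) (nat_lit 1) (nat_lit 5) (nat_lit 3) (nat_lit 4) (nat_lit 1) (nat_lit 4) (nat_lit 396) (nat_lit 275) (nat_lit 229)) (XT.lf (nat_lit 0) (nat_lit 569084746740) (nat_lit 152) (nat_lit 698938058750) (nat_lit 0) (nat_lit 567241974099) (nat_lit 1) (nat_lit 5) (nat_lit 3) (nat_lit 4) (nat_lit 1) (nat_lit 4) (nat_lit 397) (nat_lit 275) (nat_lit 228))) (XT.nd (nat_lit 78) (nat_lit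 0) (nat_lit 0) (XT.lf (nat_lit 0) (nat_lit 615979175288) (nat_lit 152) (nat_lit 751852135243) (nat_lit 0) (nat_lit 614132635215) (nat_lit 1) (nat_lit 5) (nat_lit 3) (nat_lit 4) (nat_lit 1) (nat_lit 4) (nat_lit 398) (nat_lit 275) (nat_lit 227)) (XT.lf (nat_lit 0) (nat_lit 666619623554) (nat_lit 152) (nat_lit 809010271057) (nat_lit 0) (nat_lit 664769595117) (nat_lit 1) (nat_lit 5) (nat_lit 3) (nat_lit 4) (nat_lit 1) (nat_lit 4) (nat_lit 399) (nat_lit 275) (nat_lit 226))))) (XT.nd (nat_lit 312) (nat_lit 0) (nat_lit 0) (XT.nd (nat_lit 156) (nat_lit 0) (nat_lit 0) (XT.nd (nat_lit 78) (nat_lit 0) (nat_lit 0) (XT.lf (nat_lit 0) (nat_lit 721306183082) (nat_lit 152) (nat_lit 870751181072) (nat_lit 0) (nat_lit 719452924678) (nat_lit 1) (nat_lit 5) (nat_lit 3) (nat_lit 4) (nat_lit 1) (nat_lit 4) (nat_lit 400) (nat_lit 275) (nat_lit 225)) (XT.lf (nat_lit 0) (nat_lit 780362922374) (nat_lit 152) (nat_lit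 937440737348) (nat_lit 0) (nat_lit 778506673260) (nat_lit 1) (nat_lit 5) (nat_lit 3) (nat_lit 4) (nat_lit 1) (nat_lit 4) (nat_lit 401) (nat_lit 275) (nat_lit 224))) (XT.nd (nat_lit 78) (nat_lit 0) (nat_lit 0) (XT.lf (nat_lit 0) (nat_lit 844139807291) (nat_lit 152) (nat_lit 1009474137254) (nat_lit 0) (nat_lit 842280789001) (nat_lit 1) (nat_lit 5) (nat_lit 3) (nat_lit 4) (nat_lit 1) (nat_lit 4) (nat_lit 402) (nat_lit 275) (nat_lit 223)) (XT.lf (nat_lit 0) (nat_lit 913014774929) (nat_lit 152) (nat_lit 1087278245382) (nat_lit 0) (nat_lit 911153192588) (nat_lit 1) (nat_lit 5) (nat_lit 3) (nat_lit 4) (nat_lit 1) (nat_lit 4) (nat_lit 403) (nat_lit 275) (nat_lit 222)))) (XT.nd (nat_lit 156) (nat_lit 0) (nat_lit 0) (XT.nd (nat_lit 78) (nat_lit 0) (nat_lit 0) (XT.lf (nat_lit 0) (nat_lit 987395973246) (nat_lit 152) (nat_lit 1171314123115) (nat_lit 0) (nat_lit 985532016783) (nat_lit 1) (nat_lit 5)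 (nat_lit 3) (nat_lit 4) (nat_lit 1) (nat_lit 4) (nat_lit 404) (nat_lit 275) (nat_lit 221)) (XT.lf (nat_lit 0) (nat_lit 1067724179711) (nat_lit 152) (nat_lit 1262079760838) (nat_lit 0) (nat_lit 1065858024988) (nat_lit 1) (nat_lit 5) (nat_lit 3) (nat_lit 4) (nat_lit 1) (nat_lit 4) (nat_lit 405) (nat_lit 275) (nat_lit 220))) (XT.nd (nat_lit 78) (nat_lit 0) (nat_lit 0) (XT.lf (nat_lit 0) (nat_lit 1154475413328) (nat_lit 152) (nat_lit 1360113028998) (nat_lit 0) (nat_lit 1152607223177) (nat_lit 1) (nat_lit 5) (nat_lit 3) (nat_lit 4) (nat_lit 1) (nat_lit 4) (nat_lit 406) (nat_lit 275) (nat_lit 219)) (XT.nd (nat_lit 78) (nat_lit 0) (nat_lit 0) (XT.lf (nat_lit 0) (nat_lit 1248163755479) (nat_lit 152) (nat_lit 1465994865480) (nat_lit 0) (nat_lit 1246293680675) (nat_lit 1) (nat_lit 5) (nat_lit 3) (nat_lit 4) (nat_lit 1) (nat_lit 4) (nat_lit 407) (nat_lit 275) (nat_lit 218)) (XT.lf (nat_lit 0) (nat_lit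 1349344396342) (nat_lit 152) (nat_lit 1580352718204) (nat_lit 0) (nat_lit 1347472576486) (nat_lit 1) (nat_lit 5) (nat_lit 3) (nat_lit 4) (nat_lit 1) (nat_lit 4) (nat_lit 408) (nat_lit 275) (nat_lit 217))))))) (XT.nd (nat_lit 42276) (nat_lit 0) (nat_lit 0) (XT.nd (nat_lit 312) (nat_lit 0) (nat_lit 0) (XT.nd (nat_lit 156) (nat_lit 0) (nat_lit 0) (XT.nd (nat_lit 78) (nat_lit 0) (nat_lit 0) (XT.lf (nat_lit 0) (nat_lit 1458616924898) (nat_lit 152) (nat_lit 1703864263333) (nat_lit 0) (nat_lit 1456743489255) (nat_lit 1) (nat_lit 5) (nat_lit 3) (nat_lit 4) (nat_lit 1) (nat_lit 4) (nat_lit 409) (nat_lit 275) (nat_lit 216)) (XT.lf (nat_lit 0) (nat_lit 1576628882057) (nat_lit 152) (nat_lit 1837261421137) (nat_lit 0) (nat_lit 1574753950315) (nat_lit 1) (nat_lit 5) (nat_lit 3) (nat_lit 4) (nat_lit 1) (nat_lit 4) (nat_lit 410) (nat_lit 275) (nat_lit 215))) (XT.nd (nat_lit 78) (nat_lit 0) (nat_lit 0)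 (XT.lf (nat_lit 0) (nat_lit 1704079597937) (nat_lit 152) (nat_lit 1981334693289) (nat_lit 0) (nat_lit 1702203280918) (nat_lit 1) (nat_lit 5) (nat_lit 3) (nat_lit 4) (nat_lit 1) (nat_lit 4) (nat_lit 411) (nat_lit 275) (nat_lit 214)) (XT.lf (nat_lit 0) (nat_lit 1841724336039) (nat_lit 152) (nat_lit 2136937847330) (nat_lit 0) (nat_lit 1839846736355) (nat_lit 1) (nat_lit 5) (nat_lit 3) (nat_lit 4) (nat_lit 1) (nat_lit 4) (nat_lit 412) (nat_lit 275) (nat_lit 213)))) (XT.nd (nat_lit 41808) (nat_lit 0) (nat_lit 152) (XT.nd (nat_lit 78) (nat_lit 0) (nat_lit 0) (XT.lf (nat_lit 0) (nat_lit 1990378768884) (nat_lit 152) (nat_lit 2304992976023) (nat_lit 0) (nat_lit 1988499981548) (nat_lit 1) (nat_lit 5) (nat_lit 3) (nat_lit 4) (nat_lit 1) (nat_lit 4) (nat_lit 413) (nat_lit 275) (nat_lit 212)) (XT.lf (nat_lit 0) (nat_lit 2150923811630) (nat_lit 152) (nat_lit 2486495961613) (nat_lit 0) (nat_lit 2149043924617)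 (nat_lit 1) (nat_lit 5) (nat_lit 3) (nat_lit 4) (nat_lit 1) (nat_lit 4) (nat_lit 414) (nat_lit 275) (nat_lit 211))) (XT.nd (nat_lit 78) (nat_lit 76) (nat_lit 0) (XT.lf (nat_lit 0) (nat_lit 11158324493) (nat_lit 152) (nat_lit 270580134) (nat_lit 0) (nat_lit 11158324493) (nat_lit 4) (nat_lit 5) (nat_lit 6) (nat_lit 4) (nat_lit 4) (nat_lit 4) (nat_lit 348) (nat_lit 276) (nat_lit 276)) (XT.lf (nat_lit 0) (nat_lit 7482956868) (nat_lit 76) (nat_lit 20568692296) (nat_lit 76) (nat_lit 20405082406) (nat_lit 3) (nat_lit 4) (nat_lit 4) (nat_lit 5) (nat_lit 4) (nat_lit 4) (nat_lit 349) (nat_lit 276) (nat_lit 275))))) (XT.nd (nat_lit 312) (nat_lit 152) (nat_lit 0) (XT.nd (nat_lit 156) (nat_lit 0) (nat_lit 0) (XT.nd (nat_lit 78) (nat_lit 0) (nat_lit 0) (XT.lf (nat_lit 0) (nat_lit 15784931366) (nat_lit 76) (nat_lit 18273401014) (nat_lit 76) (nat_lit 17958300485) (nat_lit 3) (nat_lit 4) (nat_lit 4) (nat_lit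 5) (nat_lit 4) (nat_lit 4) (nat_lit 350) (nat_lit 276) (nat_lit 274)) (XT.lf (nat_lit 0) (nat_lit 24385463571) (nat_lit 76) (nat_lit 15973129965) (nat_lit 76) (nat_lit 15517760326) (nat_lit 3) (nat_lit 4) (nat_lit 4) (nat_lit 5) (nat_lit 4) (nat_lit 4) (nat_lit 351) (nat_lit 276) (nat_lit 273))) (XT.nd (nat_lit 78) (nat_lit 0) (nat_lit 0) (XT.lf (nat_lit 0) (nat_lit 33335519600) (nat_lit 76) (nat_lit 13654247912) (nat_lit 76) (nat_lit 13068999467) (nat_lit 3) (nat_lit 4) (nat_lit 4) (nat_lit 5) (nat_lit 4) (nat_lit 4) (nat_lit 352) (nat_lit 276) (nat_lit 272)) (XT.lf (nat_lit 0) (nat_lit 42688136821) (nat_lit 76) (nat_lit 11303013331) (nat_lit 76) (nat_lit 10597506734) (nat_lit 3) (nat_lit 4) (nat_lit 4) (nat_lit 5) (nat_lit 4) (nat_lit 4) (nat_lit 353) (nat_lit 276) (nat_lit 271)))) (XT.nd (nat_lit 156) (nat_lit 152) (nat_lit 0) (XT.nd (nat_lit 78) (nat_lit 0) (nat_lit 0) (XT.lf (nat_lit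 0) (nat_lit 52498738151) (nat_lit 76) (nat_lit 8905492982) (nat_lit 76) (nat_lit 8088636242) (nat_lit 3) (nat_lit 4) (nat_lit 4) (nat_lit 5) (nat_lit 4) (nat_lit 4) (nat_lit 354) (nat_lit 276) (nat_lit 270)) (XT.lf (nat_lit 0) (nat_lit 62825460488) (nat_lit 76) (nat_lit 6447479336) (nat_lit 76) (nat_lit 5527520613) (nat_lit 3) (nat_lit 4) (nat_lit 4) (nat_lit 5) (nat_lit 4) (nat_lit 4) (nat_lit 355) (nat_lit 276) (nat_lit 269))) (XT.nd (nat_lit 78) (nat_lit 152) (nat_lit 0) (XT.lf (nat_lit 0) (nat_lit 73729499223) (nat_lit 76) (nat_lit 3914406386) (nat_lit 76) (nat_lit 2898982864) (nat_lit 3) (nat_lit 4) (nat_lit 4) (nat_lit 5) (nat_lit 4) (nat_lit 4) (nat_lit 356) (nat_lit 276) (nat_lit 268)) (XT.nd (nat_lit 78) (nat_lit 152) (nat_lit 0) (XT.lf (nat_lit 0) (nat_lit 85275470881) (nat_lit 76) (nat_lit 1291263330) (nat_lit 76) (nat_lit 187446475) (nat_lit 3) (nat_lit 4) (nat_lit 4) (nat_lit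 5) (nat_lit 4) (nat_lit 4) (nat_lit 357) (nat_lit 276) (nat_lit 267)) (XT.lf (nat_lit 0) (nat_lit 2631979221) (nat_lit 152) (nat_lit 89288771554) (nat_lit 0) (nat_lit 1534143541) (nat_lit 1) (nat_lit 5) (nat_lit 3) (nat_lit 4) (nat_lit 1) (nat_lit 4) (nat_lit 358) (nat_lit 276) (nat_lit 266))))))))
noncomputable def xc33 : XT := (XT.nd (nat_lit 1326) (nat_lit 0) (nat_lit 0) (XT.nd (nat_lit 624) (nat_lit 0) (nat_lit 0) (XT.nd (nat_lit 312) (nat_lit 0) (nat_lit 0) (XT.nd (nat_lit 156) (nat_lit 0) (nat_lit 0) (XT.nd (nat_lit 78) (nat_lit 0) (nat_lit 0) (XT.lf (nat_lit 0) (nat_lit 5630522533) (nat_lit 152) (nat_lit 90601175932) (nat_lit 0) (nat_lit 4462517376) (nat_lit 1) (nat_lit 5) (nat_lit 3) (nat_lit 4) (nat_lit 1) (nat_lit 4) (nat_lit 359) (nat_lit 276) (nat_lit 265)) (XT.lf (nat_lit 0) (nat_lit 8765866477) (nat_lit 152) (nat_lit 92222206569) (nat_lit 0) (nat_lit 7532889582) (nat_lit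 1) (nat_lit 5) (nat_lit 3) (nat_lit 4) (nat_lit 1) (nat_lit 4) (nat_lit 360) (nat_lit 276) (nat_lit 264))) (XT.nd (nat_lit 78) (nat_lit 0) (nat_lit 0) (XT.lf (nat_lit 0) (nat_lit 12056590869) (nat_lit 152) (nat_lit 94161469574) (nat_lit 0) (nat_lit 10763454957) (nat_lit 1) (nat_lit 5) (nat_lit 3) (nat_lit 4) (nat_lit 1) (nat_lit 4) (nat_lit 361) (nat_lit 276) (nat_lit 263)) (XT.lf (nat_lit 0) (nat_lit 15522196299) (nat_lit 152) (nat_lit 96430456874) (nat_lit 0) (nat_lit 14173357593) (nat_lit 1) (nat_lit 5) (nat_lit 3) (nat_lit 4) (nat_lit 1) (nat_lit 4) (nat_lit 362) (nat_lit 276) (nat_lit 262)))) (XT.nd (nat_lit 156) (nat_lit 0) (nat_lit 0) (XT.nd (nat_lit 78) (nat_lit 0) (nat_lit 0) (XT.lf (nat_lit 0) (nat_lit 19183219686) (nat_lit 152) (nat_lit 99042614321) (nat_lit 0) (nat_lit 17782804320) (nat_lit 1) (nat_lit 5) (nat_lit 3) (nat_lit 4) (nat_lit 1) (nat_lit 4) (nat_lit 363) (nat_lit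 276) (nat_lit 261)) (XT.lf (nat_lit 0) (nat_lit 23061355985) (nat_lit 152) (nat_lit 102013421366) (nat_lit 0) (nat_lit 21613184451) (nat_lit 1) (nat_lit 5) (nat_lit 3) (nat_lit 4) (nat_lit 1) (nat_lit 4) (nat_lit 364) (nat_lit 276) (nat_lit 260))) (XT.nd (nat_lit 78) (nat_lit 0) (nat_lit 0) (XT.lf (nat_lit 0) (nat_lit 27179586743) (nat_lit 152) (nat_lit 105360482791) (nat_lit 0) (nat_lit 25687196537) (nat_lit 1) (nat_lit 5) (nat_lit 3) (nat_lit 4) (nat_lit 1) (nat_lit 4) (nat_lit 365) (nat_lit 276) (nat_lit 259)) (XT.lf (nat_lit 0) (nat_lit 31562316292) (nat_lit 152) (nat_lit 109103633035) (nat_lit 0) (nat_lit 30028982869) (nat_lit 1) (nat_lit 5) (nat_lit 3) (nat_lit 4) (nat_lit 1) (nat_lit 4) (nat_lit 366) (nat_lit 276) (nat_lit 258))))) (XT.nd (nat_lit 312) (nat_lit 0) (nat_lit 0) (XT.nd (nat_lit 156) (nat_lit 0) (nat_lit 0) (XT.nd (nat_lit 78) (nat_lit 0) (nat_lit 0) (XT.lf (nat_lit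 0) (nat_lit 36235516362) (nat_lit 152) (nat_lit 113265053729) (nat_lit 0) (nat_lit 34664272554) (nat_lit 1) (nat_lit 5) (nat_lit 3) (nat_lit 4) (nat_lit 1) (nat_lit 4) (nat_lit 367) (nat_lit 276) (nat_lit 257)) (XT.lf (nat_lit 0) (nat_lit 41226879991) (nat_lit 152) (nat_lit 117869405143) (nat_lit 0) (nat_lit 39620533974) (nat_lit 1) (nat_lit 5) (nat_lit 3) (nat_lit 4) (nat_lit 1) (nat_lit 4) (nat_lit 368) (nat_lit 276) (nat_lit 256))) (XT.nd (nat_lit 78) (nat_lit 0) (nat_lit 0) (XT.lf (nat_lit 0) (nat_lit 46565985628) (nat_lit 152) (nat_lit 122943972323) (nat_lit 0) (nat_lit 44927137567) (nat_lit 1) (nat_lit 5) (nat_lit 3) (nat_lit 4) (nat_lit 1) (nat_lit 4) (nat_lit 369) (nat_lit 276) (nat_lit 255)) (XT.lf (nat_lit 0) (nat_lit 52284472420) (nat_lit 152) (nat_lit 128518826778) (nat_lit 0) (nat_lit 50615529872) (nat_lit 1) (nat_lit 5) (nat_lit 3) (nat_lit 4) (nat_lit 1) (nat_lit 4) (nat_lit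 370) (nat_lit 276) (nat_lit 254)))) (XT.nd (nat_lit 156) (nat_lit 0) (nat_lit 0) (XT.nd (nat_lit 78) (nat_lit 0) (nat_lit 0) (XT.lf (nat_lit 0) (nat_lit 58416227696) (nat_lit 152) (nat_lit 134627004682) (nat_lit 0) (nat_lit 56719419883) (nat_lit 1) (nat_lit 5) (nat_lit 3) (nat_lit 4) (nat_lit 1) (nat_lit 4) (nat_lit 371) (nat_lit 276) (nat_lit 253)) (XT.lf (nat_lit 0) (nat_lit 64997587781) (nat_lit 152) (nat_lit 141304702646) (nat_lit 0) (nat_lit 63274978797) (nat_lit 1) (nat_lit 5) (nat_lit 3) (nat_lit 4) (nat_lit 1) (nat_lit 4) (nat_lit 372) (nat_lit 276) (nat_lit 252))) (XT.nd (nat_lit 78) (nat_lit 0) (nat_lit 0) (XT.lf (nat_lit 0) (nat_lit 72067553331) (nat_lit 152) (nat_lit 148591492213) (nat_lit 0) (nat_lit 70321054373) (nat_lit 1) (nat_lit 5) (nat_lit 3) (nat_lit 4) (nat_lit 1) (nat_lit 4) (nat_lit 373) (nat_lit 276) (nat_lit 251)) (XT.nd (nat_lit 78) (nat_lit 0) (nat_lit 0) (XT.lf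 (nat_lit 0) (nat_lit 79668020435) (nat_lit 152) (nat_lit 156530554358) (nat_lit 0) (nat_lit 77899401132) (nat_lit 1) (nat_lit 5) (nat_lit 3) (nat_lit 4) (nat_lit 1) (nat_lit 4) (nat_lit 374) (nat_lit 276) (nat_lit 250)) (XT.lf (nat_lit 0) (nat_lit 87844028900) (nat_lit 152) (nat_lit 165168935376) (nat_lit 0) (nat_lit 86054927795) (nat_lit 1) (nat_lit 5) (nat_lit 3) (nat_lit 4) (nat_lit 1) (nat_lit 4) (nat_lit 375) (nat_lit 276) (nat_lit 249))))))) (XT.nd (nat_lit 624) (nat_lit 0) (nat_lit 0) (XT.nd (nat_lit 312) (nat_lit 0) (nat_lit 0) (XT.nd (nat_lit 156) (nat_lit 0) (nat_lit 0) (XT.nd (nat_lit 78) (nat_lit 0) (nat_lit 0) (XT.lf (nat_lit 0) (nat_lit 96644029145) (nat_lit 152) (nat_lit 174557825671) (nat_lit 0) (nat_lit 94835963409) (nat_lit 1) (nat_lit 5) (nat_lit 3) (nat_lit 4) (nat_lit 1) (nat_lit 4) (nat_lit 376) (nat_lit 276) (nat_lit 248)) (XT.lf (nat_lit 0) (nat_lit 106120169321)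 (nat_lit 152) (nat_lit 184752863114) (nat_lit 0) (nat_lit 104294543742) (nat_lit 1) (nat_lit 5) (nat_lit 3) (nat_lit 4) (nat_lit 1) (nat_lit 4) (nat_lit 377) (nat_lit 276) (nat_lit 247))) (XT.nd (nat_lit 78) (nat_lit 0) (nat_lit 0) (XT.lf (nat_lit 0) (nat_lit 116328604332) (nat_lit 152) (nat_lit 195814462740) (nat_lit 0) (nat_lit 114486719638) (nat_lit 1) (nat_lit 5) (nat_lit 3) (nat_lit 4) (nat_lit 1) (nat_lit 4) (nat_lit 378) (nat_lit 276) (nat_lit 246)) (XT.lf (nat_lit 0) (nat_lit 127329828608) (nat_lit 152) (nat_lit 207808174769) (nat_lit 0) (nat_lit 125472889179) (nat_lit 1) (nat_lit 5) (nat_lit 3) (nat_lit 4) (nat_lit 1) (nat_lit 4) (nat_lit 379) (nat_lit 276) (nat_lit 245)))) (XT.nd (nat_lit 156) (nat_lit 0) (nat_lit 0) (XT.nd (nat_lit 78) (nat_lit 0) (nat_lit 0) (XT.lf (nat_lit 0) (nat_lit 139189034590) (nat_lit 152) (nat_lit 220805073051) (nat_lit 0) (nat_lit 137318155590) (nat_lit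 1) (nat_lit 5) (nat_lit 3) (nat_lit 4) (nat_lit 1) (nat_lit 4) (nat_lit 380) (nat_lit 276) (nat_lit 244)) (XT.lf (nat_lit 0) (nat_lit 151976499052) (nat_lit 152) (nat_lit 234882176242) (nat_lit 0) (nat_lit 150092713043) (nat_lit 1) (nat_lit 5) (nat_lit 3) (nat_lit 4) (nat_lit 1) (nat_lit 4) (nat_lit 381) (nat_lit 276) (nat_lit 243))) (XT.nd (nat_lit 78) (nat_lit 0) (nat_lit 0) (XT.lf (nat_lit 0) (nat_lit 165767999563) (nat_lit 152) (nat_lit 250122904213) (nat_lit 0) (nat_lit 163872262620) (nat_lit 1) (nat_lit 5) (nat_lit 3) (nat_lit 4) (nat_lit 1) (nat_lit 4) (nat_lit 382) (nat_lit 276) (nat_lit 242)) (XT.lf (nat_lit 0) (nat_lit 180645263533) (nat_lit 152) (nat_lit 266617572388) (nat_lit 0) (nat_lit 178738460909) (nat_lit 1) (nat_lit 5) (nat_lit 3) (nat_lit 4) (nat_lit 1) (nat_lit 4) (nat_lit 383) (nat_lit 276) (nat_lit 241))))) (XT.nd (nat_lit 312) (nat_lit 0) (nat_lit 0) (XT.nd (nat_lit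 156) (nat_lit 0) (nat_lit 0) (XT.nd (nat_lit 78) (nat_lit 0) (nat_lit 0) (XT.lf (nat_lit 0) (nat_lit 196696452525) (nat_lit 152) (nat_lit 284463926951) (nat_lit 0) (nat_lit 194779403902) (nat_lit 1) (nat_lit 5) (nat_lit 3) (nat_lit 4) (nat_lit 1) (nat_lit 4) (nat_lit 384) (nat_lit 276) (nat_lit 240)) (XT.lf (nat_lit 0) (nat_lit 214016684698) (nat_lit 152) (nat_lit 303767724074) (nat_lit 0) (nat_lit 212090149038) (nat_lit 1) (nat_lit 5) (nat_lit 3) (nat_lit 4) (nat_lit 1) (nat_lit 4) (nat_lit 385) (nat_lit 276) (nat_lit 239))) (XT.nd (nat_lit 78) (nat_lit 0) (nat_lit 0) (XT.lf (nat_lit 0) (nat_lit 232708598464) (nat_lit 152) (nat_lit 324643356632) (nat_lit 0) (nat_lit 230773278510) (nat_lit 1) (nat_lit 5) (nat_lit 3) (nat_lit 4) (nat_lit 1) (nat_lit 4) (nat_lit 386) (nat_lit 276) (nat_lit 238)) (XT.lf (nat_lit 0) (nat_lit 252882960720) (nat_lit 152) (nat_lit 347214532075) (nat_lit 0) (nat_lit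 250939507160) (nat_lit 1) (nat_lit 5) (nat_lit 3) (nat_lit 4) (nat_lit 1) (nat_lit 4) (nat_lit 387) (nat_lit 276) (nat_lit 237)))) (XT.nd (nat_lit 156) (nat_lit 0) (nat_lit 0) (XT.nd (nat_lit 78) (nat_lit 0) (nat_lit 0) (XT.lf (nat_lit 0) (nat_lit 274659323241) (nat_lit 152) (nat_lit 371615005518) (nat_lit 0) (nat_lit 272708338566) (nat_lit 1) (nat_lit 5) (nat_lit 3) (nat_lit 4) (nat_lit 1) (nat_lit 4) (nat_lit 388) (nat_lit 276) (nat_lit 236)) (XT.lf (nat_lit 0) (nat_lit 298166731139) (nat_lit 152) (nat_lit 397989372358) (nat_lit 0) (nat_lit 296208773208) (nat_lit 1) (nat_lit 5) (nat_lit 3) (nat_lit 4) (nat_lit 1) (nat_lit 4) (nat_lit 389) (nat_lit 276) (nat_lit 235))) (XT.nd (nat_lit 78) (nat_lit 0) (nat_lit 0) (XT.lf (nat_lit 0) (nat_lit 323544487572) (nat_lit 152) (nat_lit 426493925141) (nat_lit 0) (nat_lit 321580072923) (nat_lit 1) (nat_lit 5) (nat_lit 3) (nat_lit 4) (nat_lit 1)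 (nat_lit 4) (nat_lit 390) (nat_lit 276) (nat_lit 234)) (XT.nd (nat_lit 78) (nat_lit 0) (nat_lit 0) (XT.lf (nat_lit 0) (nat_lit 350942979244) (nat_lit 152) (nat_lit 457297579734) (nat_lit 0) (nat_lit 348972586153) (nat_lit 1) (nat_lit 5) (nat_lit 3) (nat_lit 4) (nat_lit 1) (nat_lit 4) (nat_lit 391) (nat_lit 276) (nat_lit 233)) (XT.lf (nat_lit 0) (nat_lit 380524567589) (nat_lit 152) (nat_lit 490582876312) (nat_lit 0) (nat_lit 378548638902) (nat_lit 1) (nat_lit 5) (nat_lit 3) (nat_lit 4) (nat_lit 1) (nat_lit 4) (nat_lit 392) (nat_lit 276) (nat_lit 232))))))))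
noncomputable def xc34 : XT := (XT.nd (nat_lit 1326) (nat_lit 0) (nat_lit 0) (XT.nd (nat_lit 624) (nat_lit 0) (nat_lit 0) (XT.nd (nat_lit 312) (nat_lit 0) (nat_lit 0) (XT.nd (nat_lit 156) (nat_lit 0) (nat_lit 0) (XT.nd (nat_lit 78) (nat_lit 0) (nat_lit 0) (XT.lf (nat_lit 0) (nat_lit 412464550906) (nat_lit 152) (nat_lit 526547061078) (nat_lit 0) (nat_lit 410483496669) (nat_lit 1) (nat_lit 5) (nat_lit 3) (nat_lit 4) (nat_lit 1) (nat_lit 4) (nat_lit 393) (nat_lit 276) (nat_lit 231)) (XT.lf (nat_lit 0) (nat_lit 446952203172) (nat_lit 152) (nat_lit 565403255127) (nat_lit 0) (nat_lit 444966403054) (nat_lit 1) (nat_lit 5) (nat_lit 3) (nat_lit 4) (nat_lit 1) (nat_lit 4) (nat_lit 394) (nat_lit 276) (nat_lit 230))) (XT.nd (nat_lit 78) (nat_lit 0) (nat_lit 0) (XT.lf (nat_lit 0) (nat_lit 484191895659) (nat_lit 152) (nat_lit 607381717385) (nat_lit 0) (nat_lit 482201701207) (nat_lit 1) (nat_lit 5)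 (nat_lit 3) (nat_lit 4) (nat_lit 1) (nat_lit 4) (nat_lit 395) (nat_lit 276) (nat_lit 229)) (XT.lf (nat_lit 0) (nat_lit 524404308026) (nat_lit 152) (nat_lit 652731209112) (nat_lit 0) (nat_lit 522410044747) (nat_lit 1) (nat_lit 5) (nat_lit 3) (nat_lit 4) (nat_lit 1) (nat_lit 4) (nat_lit 396) (nat_lit 276) (nat_lit 228)))) (XT.nd (nat_lit 156) (nat_lit 0) (nat_lit 0) (XT.nd (nat_lit 78) (nat_lit 0) (nat_lit 0) (XT.lf (nat_lit 0) (nat_lit 567827736050) (nat_lit 152) (nat_lit 701720468036) (nat_lit 0) (nat_lit 565829705338) (nat_lit 1) (nat_lit 5) (nat_lit 3) (nat_lit 4) (nat_lit 1) (nat_lit 4) (nat_lit 397) (nat_lit 276) (nat_lit 227)) (XT.lf (nat_lit 0) (nat_lit 614719503749) (nat_lit 152) (nat_lit 754639800876) (nat_lit 0) (nat_lit 612717984673) (nat_lit 1) (nat_lit 5) (nat_lit 3) (nat_lit 4) (nat_lit 1) (nat_lit 4) (nat_lit 398) (nat_lit 276) (nat_lit 226))) (XT.nd (nat_lit 78) (nat_lit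 0) (nat_lit 0) (XT.lf (nat_lit 0) (nat_lit 665357488266) (nat_lit 152) (nat_lit 811802803678) (nat_lit 0) (nat_lit 663352739223) (nat_lit 1) (nat_lit 5) (nat_lit 3) (nat_lit 4) (nat_lit 1) (nat_lit 4) (nat_lit 399) (nat_lit 276) (nat_lit 225)) (XT.lf (nat_lit 0) (nat_lit 720041766544) (nat_lit 152) (nat_lit 873548220164) (nat_lit 0) (nat_lit 718034026792) (nat_lit 1) (nat_lit 5) (nat_lit 3) (nat_lit 4) (nat_lit 1) (nat_lit 4) (nat_lit 400) (nat_lit 276) (nat_lit 224))))) (XT.nd (nat_lit 312) (nat_lit 0) (nat_lit 0) (XT.nd (nat_lit 156) (nat_lit 0) (nat_lit 0) (XT.nd (nat_lit 78) (nat_lit 0) (nat_lit 0) (XT.lf (nat_lit 0) (nat_lit 779096393568) (nat_lit 152) (nat_lit 940241949097) (nat_lit 0) (nat_lit 777085884639) (nat_lit 1) (nat_lit 5) (nat_lit 3) (nat_lit 4) (nat_lit 1) (nat_lit 4) (nat_lit 401) (nat_lit 276) (nat_lit 223)) (XT.lf (nat_lit 0) (nat_lit 842871322681) (nat_lit 152) (nat_lit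 1012279212575) (nat_lit 0) (nat_lit 840858249701) (nat_lit 1) (nat_lit 5) (nat_lit 3) (nat_lit 4) (nat_lit 1) (nat_lit 4) (nat_lit 402) (nat_lit 276) (nat_lit 222))) (XT.nd (nat_lit 78) (nat_lit 0) (nat_lit 0) (XT.lf (nat_lit 0) (nat_lit 911744479390) (nat_lit 152) (nat_lit 1090086898086) (nat_lit 0) (nat_lit 909729032288) (nat_lit 1) (nat_lit 5) (nat_lit 3) (nat_lit 4) (nat_lit 1) (nat_lit 4) (nat_lit 403) (nat_lit 276) (nat_lit 221)) (XT.lf (nat_lit 0) (nat_lit 986124000920) (nat_lit 152) (nat_lit 1174126088209) (nat_lit 0) (nat_lit 984106355557) (nat_lit 1) (nat_lit 5) (nat_lit 3) (nat_lit 4) (nat_lit 1) (nat_lit 4) (nat_lit 404) (nat_lit 276) (nat_lit 220)))) (XT.nd (nat_lit 156) (nat_lit 0) (nat_lit 0) (XT.nd (nat_lit 78) (nat_lit 0) (nat_lit 0) (XT.lf (nat_lit 0) (nat_lit 1066450654806) (nat_lit 152) (nat_lit 1264894792960) (nat_lit 0) (nat_lit 1064430974016) (nat_lit 1) (nat_lit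 5) (nat_lit 3) (nat_lit 4) (nat_lit 1) (nat_lit 4) (nat_lit 405) (nat_lit 276) (nat_lit 219)) (XT.lf (nat_lit 0) (nat_lit 1153200450848) (nat_lit 152) (nat_lit 1362930900961) (nat_lit 0) (nat_lit 1151178885404) (nat_lit 1) (nat_lit 5) (nat_lit 3) (nat_lit 4) (nat_lit 1) (nat_lit 4) (nat_lit 406) (nat_lit 276) (nat_lit 218))) (XT.nd (nat_lit 78) (nat_lit 0) (nat_lit 0) (XT.lf (nat_lit 0) (nat_lit 1246887461912) (nat_lit 152) (nat_lit 1468815366925) (nat_lit 0) (nat_lit 1244864151418) (nat_lit 1) (nat_lit 5) (nat_lit 3) (nat_lit 4) (nat_lit 1) (nat_lit 4) (nat_lit 407) (nat_lit 276) (nat_lit 217)) (XT.nd (nat_lit 78) (nat_lit 0) (nat_lit 0) (XT.lf (nat_lit 0) (nat_lit 1348066870286) (nat_lit 152) (nat_lit 1583175654355) (nat_lit 0) (nat_lit 1346041944005) (nat_lit 1) (nat_lit 5) (nat_lit 3) (nat_lit 4) (nat_lit 1) (nat_lit 4) (nat_lit 408) (nat_lit 276) (nat_lit 216)) (XT.lf (nat_lit 0)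 (nat_lit 1457338257650) (nat_lit 152) (nat_lit 1706689453842) (nat_lit 0) (nat_lit 1455311835269) (nat_lit 1) (nat_lit 5) (nat_lit 3) (nat_lit 4) (nat_lit 1) (nat_lit 4) (nat_lit 409) (nat_lit 276) (nat_lit 215))))))) (XT.nd (nat_lit 42120) (nat_lit 0) (nat_lit 152) (XT.nd (nat_lit 312) (nat_lit 0) (nat_lit 0) (XT.nd (nat_lit 156) (nat_lit 0) (nat_lit 0) (XT.nd (nat_lit 78) (nat_lit 0) (nat_lit 0) (XT.lf (nat_lit 0) (nat_lit 1575349158149) (nat_lit 152) (nat_lit 1840088699013) (nat_lit 0) (nat_lit 1573321350491) (nat_lit 1) (nat_lit 5) (nat_lit 3) (nat_lit 4) (nat_lit 1) (nat_lit 4) (nat_lit 410) (nat_lit 276) (nat_lit 214)) (XT.lf (nat_lit 0) (nat_lit 1702798895640) (nat_lit 152) (nat_lit 1984163903913) (nat_lit 0) (nat_lit 1700769805318) (nat_lit 1) (nat_lit 5) (nat_lit 3) (nat_lit 4) (nat_lit 1) (nat_lit 4) (nat_lit 411) (nat_lit 276) (nat_lit 213))) (XT.nd (nat_lit 78) (nat_lit 0)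 (nat_lit 0) (XT.lf (nat_lit 0) (nat_lit 1840442727826) (nat_lit 152) (nat_lit 2139768847536) (nat_lit 0) (nat_lit 1838412449852) (nat_lit 1) (nat_lit 5) (nat_lit 3) (nat_lit 4) (nat_lit 1) (nat_lit 4) (nat_lit 412) (nat_lit 276) (nat_lit 212)) (XT.lf (nat_lit 0) (nat_lit 1989096321860) (nat_lit 152) (nat_lit 2307825633249) (nat_lit 0) (nat_lit 1987064944208) (nat_lit 1) (nat_lit 5) (nat_lit 3) (nat_lit 4) (nat_lit 1) (nat_lit 4) (nat_lit 413) (nat_lit 276) (nat_lit 211)))) (XT.nd (nat_lit 41652) (nat_lit 0) (nat_lit 228) (XT.nd (nat_lit 41574) (nat_lit 0) (nat_lit 228) (XT.lf (nat_lit 0) (nat_lit 2149640587930) (nat_lit 152) (nat_lit 2489330153117) (nat_lit 0) (nat_lit 2147608192058) (nat_lit 1) (nat_lit 5) (nat_lit 3) (nat_lit 4) (nat_lit 1) (nat_lit 4) (nat_lit 414) (nat_lit 276) (nat_lit 210)) (XT.lf (nat_lit 0) (nat_lit 6058379861) (nat_lit 152) (nat_lit 7549964638) (nat_lit 0) (nat_lit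 6058379861) (nat_lit 4) (nat_lit 5) (nat_lit 6) (nat_lit 4) (nat_lit 4) (nat_lit 4) (nat_lit 346) (nat_lit 277) (nat_lit 277))) (XT.nd (nat_lit 78) (nat_lit 0) (nat_lit 0) (XT.lf (nat_lit 0) (nat_lit 17157379703) (nat_lit 152) (nat_lit 7999394898) (nat_lit 0) (nat_lit 16980681022) (nat_lit 4) (nat_lit 5) (nat_lit 6) (nat_lit 4) (nat_lit 4) (nat_lit 4) (nat_lit 347) (nat_lit 277) (nat_lit 276)) (XT.lf (nat_lit 0) (nat_lit 22393438765) (nat_lit 152) (nat_lit 735921841) (nat_lit 0) (nat_lit 22053130194) (nat_lit 4) (nat_lit 5) (nat_lit 6) (nat_lit 4) (nat_lit 4) (nat_lit 4) (nat_lit 348) (nat_lit 277) (nat_lit 275))))) (XT.nd (nat_lit 312) (nat_lit 0) (nat_lit 0) (XT.nd (nat_lit 156) (nat_lit 0) (nat_lit 0) (XT.nd (nat_lit 78) (nat_lit 0) (nat_lit 0) (XT.lf (nat_lit 0) (nat_lit 7088108595) (nat_lit 76) (nat_lit 20938325994) (nat_lit 76) (nat_lit 20446526784) (nat_lit 3) (nat_lit 4) (nat_lit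 4) (nat_lit 5) (nat_lit 4) (nat_lit 4) (nat_lit 349) (nat_lit 277) (nat_lit 274)) (XT.lf (nat_lit 0) (nat_lit 15214313741) (nat_lit 76) (nat_lit 18728921027) (nat_lit 76) (nat_lit 18096852707) (nat_lit 3) (nat_lit 4) (nat_lit 4) (nat_lit 5) (nat_lit 4) (nat_lit 4) (nat_lit 350) (nat_lit 277) (nat_lit 273))) (XT.nd (nat_lit 78) (nat_lit 0) (nat_lit 0) (XT.lf (nat_lit 0) (nat_lit 23652096545) (nat_lit 76) (nat_lit 16508174343) (nat_lit 76) (nat_lit 15746227218) (nat_lit 3) (nat_lit 4) (nat_lit 4) (nat_lit 5) (nat_lit 4) (nat_lit 4) (nat_lit 351) (nat_lit 277) (nat_lit 272)) (XT.lf (nat_lit 0) (nat_lit 32451458684) (nat_lit 76) (nat_lit 14262925962) (nat_lit 76) (nat_lit 13380720683) (nat_lit 3) (nat_lit 4) (nat_lit 4) (nat_lit 5) (nat_lit 4) (nat_lit 4) (nat_lit 352) (nat_lit 277) (nat_lit 271)))) (XT.nd (nat_lit 156) (nat_lit 0) (nat_lit 0) (XT.nd (nat_lit 78) (nat_lit 0) (nat_lit 0) (XT.lf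 (nat_lit 0) (nat_lit 41664544526) (nat_lit 76) (nat_lit 11979870708) (nat_lit 76) (nat_lit 10986315287) (nat_lit 3) (nat_lit 4) (nat_lit 4) (nat_lit 5) (nat_lit 4) (nat_lit 4) (nat_lit 353) (nat_lit 277) (nat_lit 270)) (XT.lf (nat_lit 0) (nat_lit 51345950136) (nat_lit 76) (nat_lit 9645479364) (nat_lit 76) (nat_lit 8548821960) (nat_lit 3) (nat_lit 4) (nat_lit 4) (nat_lit 5) (nat_lit 4) (nat_lit 4) (nat_lit 354) (nat_lit 277) (nat_lit 269))) (XT.nd (nat_lit 78) (nat_lit 0) (nat_lit 0) (XT.lf (nat_lit 0) (nat_lit 61553046805) (nat_lit 76) (nat_lit 7245918500) (nat_lit 76) (nat_lit 6053796297) (nat_lit 3) (nat_lit 4) (nat_lit 4) (nat_lit 5) (nat_lit 4) (nat_lit 4) (nat_lit 355) (nat_lit 277) (nat_lit 268)) (XT.nd (nat_lit 78) (nat_lit 0) (nat_lit 0) (XT.lf (nat_lit 0) (nat_lit 72346321032) (nat_lit 76) (nat_lit 4766968497) (nat_lit 76) (nat_lit 3486452961) (nat_lit 3) (nat_lit 4) (nat_lit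 4) (nat_lit 5) (nat_lit 4) (nat_lit 4) (nat_lit 356) (nat_lit 277) (nat_lit 267)) (XT.lf (nat_lit 0) (nat_lit 83789732961) (nat_lit 76) (nat_lit 2193939281) (nat_lit 76) (nat_lit 831578066) (nat_lit 3) (nat_lit 4) (nat_lit 4) (nat_lit 5) (nat_lit 4) (nat_lit 4) (nat_lit 357) (nat_lit 277) (nat_lit 266))))))))
noncomputable def xc35 : XT := (XT.nd (nat_lit 1326) (nat_lit 0) (nat_lit 0) (XT.nd (nat_lit 624) (nat_lit 0) (nat_lit 0) (XT.nd (nat_lit 312) (nat_lit 0) (nat_lit 0) (XT.nd (nat_lit 156) (nat_lit 0) (nat_lit 0) (XT.nd (nat_lit 78) (nat_lit 0) (nat_lit 0) (XT.lf (nat_lit 0) (nat_lit 1904659724) (nat_lit 152) (nat_lit 91048748735) (nat_lit 0) (nat_lit 573044678) (nat_lit 1) (nat_lit 5) (nat_lit 3) (nat_lit 4) (nat_lit 1) (nat_lit 4) (nat_lit 358) (nat_lit 277) (nat_lit 265)) (XT.lf (nat_lit 0) (nat_lit 4853643982) (nat_lit 152) (nat_lit 92459054031) (nat_lit 0) (nat_lit 3457057197)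 (nat_lit 1) (nat_lit 5) (nat_lit 3) (nat_lit 4) (nat_lit 1) (nat_lit 4) (nat_lit 359) (nat_lit 277) (nat_lit 264))) (XT.nd (nat_lit 78) (nat_lit 0) (nat_lit 0) (XT.lf (nat_lit 0) (nat_lit 7943099913) (nat_lit 152) (nat_lit 94170733667) (nat_lit 0) (nat_lit 6486354111) (nat_lit 1) (nat_lit 5) (nat_lit 3) (nat_lit 4) (nat_lit 1) (nat_lit 4) (nat_lit 360) (nat_lit 277) (nat_lit 263)) (XT.lf (nat_lit 0) (nat_lit 11191335404) (nat_lit 152) (nat_lit 96193930928) (nat_lit 0) (nat_lit 9678886809) (nat_lit 1) (nat_lit 5) (nat_lit 3) (nat_lit 4) (nat_lit 1) (nat_lit 4) (nat_lit 361) (nat_lit 277) (nat_lit 262)))) (XT.nd (nat_lit 156) (nat_lit 0) (nat_lit 0) (XT.nd (nat_lit 78) (nat_lit 0) (nat_lit 0) (XT.lf (nat_lit 0) (nat_lit 14617599258) (nat_lit 152) (nat_lit 98540635134) (nat_lit 0) (nat_lit 13053574002) (nat_lit 1) (nat_lit 5) (nat_lit 3) (nat_lit 4) (nat_lit 1) (nat_lit 4) (nat_lit 362)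 (nat_lit 277) (nat_lit 261)) (XT.lf (nat_lit 0) (nat_lit 18242195261) (nat_lit 152) (nat_lit 101224752678) (nat_lit 0) (nat_lit 16630413838) (nat_lit 1) (nat_lit 5) (nat_lit 3) (nat_lit 4) (nat_lit 1) (nat_lit 4) (nat_lit 363) (nat_lit 277) (nat_lit 260))) (XT.nd (nat_lit 78) (nat_lit 0) (nat_lit 0) (XT.lf (nat_lit 0) (nat_lit 22086602500) (nat_lit 152) (nat_lit 104262189442) (nat_lit 0) (nat_lit 20430602404) (nat_lit 1) (nat_lit 5) (nat_lit 3) (nat_lit 4) (nat_lit 1) (nat_lit 4) (nat_lit 364) (nat_lit 277) (nat_lit 259)) (XT.lf (nat_lit 0) (nat_lit 26173602648) (nat_lit 152) (nat_lit 107670945053) (nat_lit 0) (nat_lit 24476659335) (nat_lit 1) (nat_lit 5) (nat_lit 3) (nat_lit 4) (nat_lit 1) (nat_lit 4) (nat_lit 365) (nat_lit 277) (nat_lit 258))))) (XT.nd (nat_lit 312) (nat_lit 0) (nat_lit 0) (XT.nd (nat_lit 156) (nat_lit 0) (nat_lit 0) (XT.nd (nat_lit 78) (nat_lit 0) (nat_lit 0) (XT.lf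 (nat_lit 0) (nat_lit 30527414965) (nat_lit 152) (nat_lit 111471219542) (nat_lit 0) (nat_lit 28792561267) (nat_lit 1) (nat_lit 5) (nat_lit 3) (nat_lit 4) (nat_lit 1) (nat_lit 4) (nat_lit 366) (nat_lit 277) (nat_lit 257)) (XT.lf (nat_lit 0) (nat_lit 35173839820) (nat_lit 152) (nat_lit 115685533055) (nat_lit 0) (nat_lit 33403883913) (nat_lit 1) (nat_lit 5) (nat_lit 3) (nat_lit 4) (nat_lit 1) (nat_lit 4) (nat_lit 367) (nat_lit 277) (nat_lit 256))) (XT.nd (nat_lit 78) (nat_lit 0) (nat_lit 0) (XT.lf (nat_lit 0) (nat_lit 40140411583) (nat_lit 152) (nat_lit 120338859302) (nat_lit 0) (nat_lit 38337953631) (nat_lit 1) (nat_lit 5) (nat_lit 3) (nat_lit 4) (nat_lit 1) (nat_lit 4) (nat_lit 368) (nat_lit 277) (nat_lit 255)) (XT.lf (nat_lit 0) (nat_lit 45456561789) (nat_lit 152) (nat_lit 125458773550) (nat_lit 0) (nat_lit 43624009351) (nat_lit 1) (nat_lit 5) (nat_lit 3) (nat_lit 4) (nat_lit 1) (nat_lit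 4) (nat_lit 369) (nat_lit 277) (nat_lit 254)))) (XT.nd (nat_lit 156) (nat_lit 0) (nat_lit 0) (XT.nd (nat_lit 78) (nat_lit 0) (nat_lit 0) (XT.lf (nat_lit 0) (nat_lit 51153793552) (nat_lit 152) (nat_lit 131075616030) (nat_lit 0) (nat_lit 49293375849) (nat_lit 1) (nat_lit 5) (nat_lit 3) (nat_lit 4) (nat_lit 1) (nat_lit 4) (nat_lit 370) (nat_lit 277) (nat_lit 253)) (XT.lf (nat_lit 0) (nat_lit 57265868245) (nat_lit 152) (nat_lit 137222671736) (nat_lit 0) (nat_lit 55379649371) (nat_lit 1) (nat_lit 5) (nat_lit 3) (nat_lit 4) (nat_lit 1) (nat_lit 4) (nat_lit 371) (nat_lit 277) (nat_lit 252))) (XT.nd (nat_lit 78) (nat_lit 0) (nat_lit 0) (XT.lf (nat_lit 0) (nat_lit 63829005570) (nat_lit 152) (nat_lit 143936367665) (nat_lit 0) (nat_lit 61918896722) (nat_lit 1) (nat_lit 5) (nat_lit 3) (nat_lit 4) (nat_lit 1) (nat_lit 4) (nat_lit 372) (nat_lit 277) (nat_lit 251)) (XT.nd (nat_lit 78) (nat_lit 0) (nat_lit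 0) (XT.lf (nat_lit 0) (nat_lit 70882098191) (nat_lit 152) (nat_lit 151256488680) (nat_lit 0) (nat_lit 68949868998) (nat_lit 1) (nat_lit 5) (nat_lit 3) (nat_lit 4) (nat_lit 1) (nat_lit 4) (nat_lit 373) (nat_lit 277) (nat_lit 250)) (XT.lf (nat_lit 0) (nat_lit 78466942215) (nat_lit 152) (nat_lit 159226413277) (nat_lit 0) (nat_lit 76514231220) (nat_lit 1) (nat_lit 5) (nat_lit 3) (nat_lit 4) (nat_lit 1) (nat_lit 4) (nat_lit 374) (nat_lit 277) (nat_lit 249))))))) (XT.nd (nat_lit 702) (nat_lit 0) (nat_lit 0) (XT.nd (nat_lit 312) (nat_lit 0) (nat_lit 0) (XT.nd (nat_lit 156) (nat_lit 0) (nat_lit 0) (XT.nd (nat_lit 78) (nat_lit 0) (nat_lit 0) (XT.lf (nat_lit 0) (nat_lit 86628484864) (nat_lit 152) (nat_lit 167893370639) (nat_lit 0) (nat_lit 84656809238) (nat_lit 1) (nat_lit 5) (nat_lit 3) (nat_lit 4) (nat_lit 1) (nat_lit 4) (nat_lit 375) (nat_lit 277) (nat_lit 248)) (XT.lf (nat_lit 0) (nat_lit 95415090836)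 (nat_lit 152) (nat_lit 177308720513) (nat_lit 0) (nat_lit 93425855366) (nat_lit 1) (nat_lit 5) (nat_lit 3) (nat_lit 4) (nat_lit 1) (nat_lit 4) (nat_lit 376) (nat_lit 277) (nat_lit 247))) (XT.nd (nat_lit 78) (nat_lit 0) (nat_lit 0) (XT.lf (nat_lit 0) (nat_lit 104878828907) (nat_lit 152) (nat_lit 187528257566) (nat_lit 0) (nat_lit 102873334323) (nat_lit 1) (nat_lit 5) (nat_lit 3) (nat_lit 4) (nat_lit 1) (nat_lit 4) (nat_lit 377) (nat_lit 277) (nat_lit 246)) (XT.lf (nat_lit 0) (nat_lit 115075780487) (nat_lit 152) (nat_lit 198612542015) (nat_lit 0) (nat_lit 113055231168) (nat_lit 1) (nat_lit 5) (nat_lit 3) (nat_lit 4) (nat_lit 1) (nat_lit 4) (nat_lit 378) (nat_lit 277) (nat_lit 245)))) (XT.nd (nat_lit 156) (nat_lit 0) (nat_lit 0) (XT.nd (nat_lit 78) (nat_lit 0) (nat_lit 0) (XT.lf (nat_lit 0) (nat_lit 126066371957) (nat_lit 152) (nat_lit 210627258511) (nat_lit 0) (nat_lit 124031883067) (nat_lit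 1) (nat_lit 5) (nat_lit 3) (nat_lit 4) (nat_lit 1) (nat_lit 4) (nat_lit 379) (nat_lit 277) (nat_lit 244)) (XT.lf (nat_lit 0) (nat_lit 137915732747) (nat_lit 152) (nat_lit 223643605373) (nat_lit 0) (nat_lit 135868336848) (nat_lit 1) (nat_lit 5) (nat_lit 3) (nat_lit 4) (nat_lit 1) (nat_lit 4) (nat_lit 380) (nat_lit 277) (nat_lit 243))) (XT.nd (nat_lit 78) (nat_lit 0) (nat_lit 0) (XT.lf (nat_lit 0) (nat_lit 150694081292) (nat_lit 152) (nat_lit 237738716509) (nat_lit 0) (nat_lit 148634734459) (nat_lit 1) (nat_lit 5) (nat_lit 3) (nat_lit 4) (nat_lit 1) (nat_lit 4) (nat_lit 381) (nat_lit 277) (nat_lit 242)) (XT.nd (nat_lit 78) (nat_lit 0) (nat_lit 0) (XT.lf (nat_lit 0) (nat_lit 164477141138) (nat_lit 152) (nat_lit 252996118502) (nat_lit 0) (nat_lit 162406728625) (nat_lit 1) (nat_lit 5) (nat_lit 3) (nat_lit 4) (nat_lit 1) (nat_lit 4) (nat_lit 382) (nat_lit 277) (nat_lit 241)) (XT.lf (nat_lit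 0) (nat_lit 179346589678) (nat_lit 152) (nat_lit 269506225587) (nat_lit 0) (nat_lit 177265931165) (nat_lit 1) (nat_lit 5) (nat_lit 3) (nat_lit 4) (nat_lit 1) (nat_lit 4) (nat_lit 383) (nat_lit 277) (nat_lit 240)))))) (XT.nd (nat_lit 312) (nat_lit 0) (nat_lit 0) (XT.nd (nat_lit 156) (nat_lit 0) (nat_lit 0) (XT.nd (nat_lit 78) (nat_lit 0) (nat_lit 0) (XT.lf (nat_lit 0) (nat_lit 195390542162) (nat_lit 152) (nat_lit 287366875436) (nat_lit 0) (nat_lit 193300396611) (nat_lit 1) (nat_lit 5) (nat_lit 3) (nat_lit 4) (nat_lit 1) (nat_lit 4) (nat_lit 384) (nat_lit 277) (nat_lit 239)) (XT.lf (nat_lit 0) (nat_lit 212704073863) (nat_lit 152) (nat_lit 306683908937) (nat_lit 0) (nat_lit 210605144019) (nat_lit 1) (nat_lit 5) (nat_lit 3) (nat_lit 4) (nat_lit 1) (nat_lit 4) (nat_lit 385) (nat_lit 277) (nat_lit 238))) (XT.nd (nat_lit 78) (nat_lit 0) (nat_lit 0) (XT.lf (nat_lit 0) (nat_lit 231389783489) (nat_lit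 152) (nat_lit 327571797399) (nat_lit 0) (nat_lit 229282720039) (nat_lit 1) (nat_lit 5) (nat_lit 3) (nat_lit 4) (nat_lit 1) (nat_lit 4) (nat_lit 386) (nat_lit 277) (nat_lit 237)) (XT.lf (nat_lit 0) (nat_lit 251558401170) (nat_lit 152) (nat_lit 350154320902) (nat_lit 0) (nat_lit 249443806605) (nat_lit 1) (nat_lit 5) (nat_lit 3) (nat_lit 4) (nat_lit 1) (nat_lit 4) (nat_lit 387) (nat_lit 277) (nat_lit 236)))) (XT.nd (nat_lit 156) (nat_lit 0) (nat_lit 0) (XT.nd (nat_lit 78) (nat_lit 0) (nat_lit 0) (XT.lf (nat_lit 0) (nat_lit 273329444641) (nat_lit 152) (nat_lit 374565301807) (nat_lit 0) (nat_lit 271207876820) (nat_lit 1) (nat_lit 5) (nat_lit 3) (nat_lit 4) (nat_lit 1) (nat_lit 4) (nat_lit 388) (nat_lit 277) (nat_lit 235)) (XT.lf (nat_lit 0) (nat_lit 296831927492) (nat_lit 152) (nat_lit 400949397780) (nat_lit 0) (nat_lit 294703902953) (nat_lit 1) (nat_lit 5) (nat_lit 3) (nat_lit 4) (nat_lit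 1) (nat_lit 4) (nat_lit 389) (nat_lit 277) (nat_lit 234))) (XT.nd (nat_lit 78) (nat_lit 0) (nat_lit 0) (XT.lf (nat_lit 0) (nat_lit 322205123697) (nat_lit 152) (nat_lit 429462959018) (nat_lit 0) (nat_lit 320071120715) (nat_lit 1) (nat_lit 5) (nat_lit 3) (nat_lit 4) (nat_lit 1) (nat_lit 4) (nat_lit 390) (nat_lit 277) (nat_lit 233)) (XT.nd (nat_lit 78) (nat_lit 0) (nat_lit 0) (XT.lf (nat_lit 0) (nat_lit 349599392936) (nat_lit 152) (nat_lit 460274954773) (nat_lit 0) (nat_lit 347459854359) (nat_lit 1) (nat_lit 5) (nat_lit 3) (nat_lit 4) (nat_lit 1) (nat_lit 4) (nat_lit 391) (nat_lit 277) (nat_lit 232)) (XT.lf (nat_lit 0) (nat_lit 379177071619) (nat_lit 152) (nat_lit 493567974651) (nat_lit 0) (nat_lit 377032407492) (nat_lit 1) (nat_lit 5) (nat_lit 3) (nat_lit 4) (nat_lit 1) (nat_lit 4) (nat_lit 392) (nat_lit 277) (nat_lit 231))))))))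
noncomputable def xc36 : XT := (XT.nd (nat_lit 1326) (nat_lit 0) (nat_lit 0) (XT.nd (nat_lit 624) (nat_lit 0) (nat_lit 0) (XT.nd (nat_lit 312) (nat_lit 0) (nat_lit 0) (XT.nd (nat_lit 156) (nat_lit 0) (nat_lit 0) (XT.nd (nat_lit 78) (nat_lit 0) (nat_lit 0) (XT.lf (nat_lit 0) (nat_lit 411113434880) (nat_lit 152) (nat_lit 529539310619) (nat_lit 0) (nat_lit 408964024872) (nat_lit 1) (nat_lit 5) (nat_lit 3) (nat_lit 4) (nat_lit 1) (nat_lit 4) (nat_lit 393) (nat_lit 277) (nat_lit 230)) (XT.lf (nat_lit 0) (nat_lit 445597735242) (nat_lit 152) (nat_lit 568402126151) (nat_lit 0) (nat_lit 443443930900) (nat_lit 1) (nat_lit 5) (nat_lit 3) (nat_lit 4) (nat_lit 1) (nat_lit 4) (nat_lit 394) (nat_lit 277) (nat_lit 229))) (XT.nd (nat_lit 78) (nat_lit 0) (nat_lit 0) (XT.lf (nat_lit 0) (nat_lit 482834324114) (nat_lit 152) (nat_lit 610386719414) (nat_lit 0) (nat_lit 480676450945) (nat_lit 1) (nat_lit 5)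 (nat_lit 3) (nat_lit 4) (nat_lit 1) (nat_lit 4) (nat_lit 395) (nat_lit 277) (nat_lit 228)) (XT.lf (nat_lit 0) (nat_lit 523043862764) (nat_lit 152) (nat_lit 655741887996) (nat_lit 0) (nat_lit 520882222162) (nat_lit 1) (nat_lit 5) (nat_lit 3) (nat_lit 4) (nat_lit 1) (nat_lit 4) (nat_lit 396) (nat_lit 277) (nat_lit 227)))) (XT.nd (nat_lit 156) (nat_lit 0) (nat_lit 0) (XT.nd (nat_lit 78) (nat_lit 0) (nat_lit 0) (XT.lf (nat_lit 0) (nat_lit 566464629939) (nat_lit 152) (nat_lit 704736403266) (nat_lit 0) (nat_lit 564299500972) (nat_lit 1) (nat_lit 5) (nat_lit 3) (nat_lit 4) (nat_lit 1) (nat_lit 4) (nat_lit 397) (nat_lit 277) (nat_lit 226)) (XT.lf (nat_lit 0) (nat_lit 613353933888) (nat_lit 152) (nat_lit 757660603095) (nat_lit 0) (nat_lit 611185574956) (nat_lit 1) (nat_lit 5) (nat_lit 3) (nat_lit 4) (nat_lit 1) (nat_lit 4) (nat_lit 398) (nat_lit 277) (nat_lit 225))) (XT.nd (nat_lit 78) (nat_lit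 0) (nat_lit 0) (XT.lf (nat_lit 0) (nat_lit 663989637155) (nat_lit 152) (nat_lit 814828112368) (nat_lit 0) (nat_lit 661818287513) (nat_lit 1) (nat_lit 5) (nat_lit 3) (nat_lit 4) (nat_lit 1) (nat_lit 4) (nat_lit 399) (nat_lit 277) (nat_lit 224)) (XT.lf (nat_lit 0) (nat_lit 718671803166) (nat_lit 152) (nat_lit 876577701512) (nat_lit 0) (nat_lit 716497684347) (nat_lit 1) (nat_lit 5) (nat_lit 3) (nat_lit 4) (nat_lit 1) (nat_lit 4) (nat_lit 400) (nat_lit 277) (nat_lit 223))))) (XT.nd (nat_lit 312) (nat_lit 0) (nat_lit 0) (XT.nd (nat_lit 156) (nat_lit 0) (nat_lit 0) (XT.nd (nat_lit 78) (nat_lit 0) (nat_lit 0) (XT.lf (nat_lit 0) (nat_lit 777724474385) (nat_lit 152) (nat_lit 943275294017) (nat_lit 0) (nat_lit 775547791515) (nat_lit 1) (nat_lit 5) (nat_lit 3) (nat_lit 4) (nat_lit 1) (nat_lit 4) (nat_lit 401) (nat_lit 277) (nat_lit 222)) (XT.lf (nat_lit 0) (nat_lit 841497592569) (nat_lit 152) (nat_lit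 1015316134877) (nat_lit 0) (nat_lit 839318535577) (nat_lit 1) (nat_lit 5) (nat_lit 3) (nat_lit 4) (nat_lit 1) (nat_lit 4) (nat_lit 402) (nat_lit 277) (nat_lit 221))) (XT.nd (nat_lit 78) (nat_lit 0) (nat_lit 0) (XT.lf (nat_lit 0) (nat_lit 910369072491) (nat_lit 152) (nat_lit 1093127132778) (nat_lit 0) (nat_lit 908187817239) (nat_lit 1) (nat_lit 5) (nat_lit 3) (nat_lit 4) (nat_lit 1) (nat_lit 4) (nat_lit 403) (nat_lit 277) (nat_lit 220)) (XT.lf (nat_lit 0) (nat_lit 984747041441) (nat_lit 152) (nat_lit 1177169389929) (nat_lit 0) (nat_lit 982563750762) (nat_lit 1) (nat_lit 5) (nat_lit 3) (nat_lit 4) (nat_lit 1) (nat_lit 4) (nat_lit 404) (nat_lit 277) (nat_lit 219)))) (XT.nd (nat_lit 156) (nat_lit 0) (nat_lit 0) (XT.nd (nat_lit 78) (nat_lit 0) (nat_lit 0) (XT.lf (nat_lit 0) (nat_lit 1065072257753) (nat_lit 152) (nat_lit 1267940934521) (nat_lit 0) (nat_lit 1062887082419) (nat_lit 1) (nat_lit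 5) (nat_lit 3) (nat_lit 4) (nat_lit 1) (nat_lit 4) (nat_lit 405) (nat_lit 277) (nat_lit 218)) (XT.lf (nat_lit 0) (nat_lit 1151820722708) (nat_lit 152) (nat_lit 1365979672005) (nat_lit 0) (nat_lit 1149633802324) (nat_lit 1) (nat_lit 5) (nat_lit 3) (nat_lit 4) (nat_lit 1) (nat_lit 4) (nat_lit 406) (nat_lit 277) (nat_lit 217))) (XT.nd (nat_lit 78) (nat_lit 0) (nat_lit 0) (XT.lf (nat_lit 0) (nat_lit 1245506501284) (nat_lit 152) (nat_lit 1471866572675) (nat_lit 0) (nat_lit 1243317965113) (nat_lit 1) (nat_lit 5) (nat_lit 3) (nat_lit 4) (nat_lit 1) (nat_lit 4) (nat_lit 407) (nat_lit 277) (nat_lit 216)) (XT.nd (nat_lit 78) (nat_lit 0) (nat_lit 0) (XT.lf (nat_lit 0) (nat_lit 1346684768466) (nat_lit 152) (nat_lit 1586229114461) (nat_lit 0) (nat_lit 1344494736195) (nat_lit 1) (nat_lit 5) (nat_lit 3) (nat_lit 4) (nat_lit 1) (nat_lit 4) (nat_lit 408) (nat_lit 277) (nat_lit 215)) (XT.lf (nat_lit 0)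 (nat_lit 1455955099169) (nat_lit 152) (nat_lit 1709745001316) (nat_lit 0) (nat_lit 1453763681621) (nat_lit 1) (nat_lit 5) (nat_lit 3) (nat_lit 4) (nat_lit 1) (nat_lit 4) (nat_lit 409) (nat_lit 277) (nat_lit 214))))))) (XT.nd (nat_lit 41964) (nat_lit 0) (nat_lit 152) (XT.nd (nat_lit 312) (nat_lit 0) (nat_lit 0) (XT.nd (nat_lit 156) (nat_lit 0) (nat_lit 0) (XT.nd (nat_lit 78) (nat_lit 0) (nat_lit 0) (XT.lf (nat_lit 0) (nat_lit 1573965021280) (nat_lit 152) (nat_lit 1843146179235) (nat_lit 0) (nat_lit 1571772321067) (nat_lit 1) (nat_lit 5) (nat_lit 3) (nat_lit 4) (nat_lit 1) (nat_lit 4) (nat_lit 410) (nat_lit 277) (nat_lit 213)) (XT.lf (nat_lit 0) (nat_lit 1701413852855) (nat_lit 152) (nat_lit 1987223173717) (nat_lit 0) (nat_lit 1699219964991) (nat_lit 1) (nat_lit 5) (nat_lit 3) (nat_lit 4) (nat_lit 1) (nat_lit 4) (nat_lit 411) (nat_lit 277) (nat_lit 212))) (XT.nd (nat_lit 78) (nat_lit 0)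 (nat_lit 0) (XT.lf (nat_lit 0) (nat_lit 1839056846230) (nat_lit 152) (nat_lit 2142829774359) (nat_lit 0) (nat_lit 1836861858688) (nat_lit 1) (nat_lit 5) (nat_lit 3) (nat_lit 4) (nat_lit 1) (nat_lit 4) (nat_lit 412) (nat_lit 277) (nat_lit 211)) (XT.lf (nat_lit 0) (nat_lit 1987709663588) (nat_lit 152) (nat_lit 2310888094350) (nat_lit 0) (nat_lit 1985513657826) (nat_lit 1) (nat_lit 5) (nat_lit 3) (nat_lit 4) (nat_lit 1) (nat_lit 4) (nat_lit 413) (nat_lit 277) (nat_lit 210)))) (XT.nd (nat_lit 41496) (nat_lit 0) (nat_lit 228) (XT.nd (nat_lit 41418) (nat_lit 0) (nat_lit 228) (XT.lf (nat_lit 0) (nat_lit 2148253210513) (nat_lit 152) (nat_lit 2492394034845) (nat_lit 0) (nat_lit 2146056261954) (nat_lit 1) (nat_lit 5) (nat_lit 3) (nat_lit 4) (nat_lit 1) (nat_lit 4) (nat_lit 414) (nat_lit 277) (nat_lit 209)) (XT.lf (nat_lit 0) (nat_lit 1405352554) (nat_lit 152) (nat_lit 14376302425) (nat_lit 0) (nat_lit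 1405352554) (nat_lit 4) (nat_lit 5) (nat_lit 6) (nat_lit 4) (nat_lit 4) (nat_lit 4) (nat_lit 344) (nat_lit 278) (nat_lit 278))) (XT.nd (nat_lit 78) (nat_lit 0) (nat_lit 0) (XT.lf (nat_lit 0) (nat_lit 7432543057) (nat_lit 152) (nat_lit 22079602219) (nat_lit 0) (nat_lit 7241708481) (nat_lit 4) (nat_lit 5) (nat_lit 6) (nat_lit 4) (nat_lit 4) (nat_lit 4) (nat_lit 345) (nat_lit 278) (nat_lit 277)) (XT.lf (nat_lit 0) (nat_lit 12199692683) (nat_lit 152) (nat_lit 15310271776) (nat_lit 0) (nat_lit 11832159426) (nat_lit 4) (nat_lit 5) (nat_lit 6) (nat_lit 4) (nat_lit 4) (nat_lit 4) (nat_lit 346) (nat_lit 278) (nat_lit 276))))) (XT.nd (nat_lit 312) (nat_lit 0) (nat_lit 0) (XT.nd (nat_lit 156) (nat_lit 76) (nat_lit 0) (XT.nd (nat_lit 78) (nat_lit 0) (nat_lit 0) (XT.lf (nat_lit 0) (nat_lit 17140403761) (nat_lit 152) (nat_lit 8404498970) (nat_lit 0) (nat_lit 16609260615) (nat_lit 4) (nat_lit 5) (nat_lit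 6) (nat_lit 4) (nat_lit 4) (nat_lit 4) (nat_lit 347) (nat_lit 278) (nat_lit 275)) (XT.lf (nat_lit 0) (nat_lit 22283954581) (nat_lit 152) (nat_lit 1321360704) (nat_lit 0) (nat_lit 21601320795) (nat_lit 4) (nat_lit 5) (nat_lit 6) (nat_lit 4) (nat_lit 4) (nat_lit 4) (nat_lit 348) (nat_lit 278) (nat_lit 274))) (XT.nd (nat_lit 78) (nat_lit 0) (nat_lit 0) (XT.lf (nat_lit 0) (nat_lit 6296072206) (nat_lit 76) (nat_lit 21516173923) (nat_lit 76) (nat_lit 20693271028) (nat_lit 3) (nat_lit 4) (nat_lit 4) (nat_lit 5) (nat_lit 4) (nat_lit 4) (nat_lit 349) (nat_lit 278) (nat_lit 273)) (XT.lf (nat_lit 0) (nat_lit 14259527952) (nat_lit 76) (nat_lit 19386293322) (nat_lit 76) (nat_lit 18433511621) (nat_lit 3) (nat_lit 4) (nat_lit 4) (nat_lit 5) (nat_lit 4) (nat_lit 4) (nat_lit 350) (nat_lit 278) (nat_lit 272)))) (XT.nd (nat_lit 156) (nat_lit 0) (nat_lit 0) (XT.nd (nat_lit 78) (nat_lit 0) (nat_lit 0) (XT.lf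 (nat_lit 0) (nat_lit 22546616867) (nat_lit 76) (nat_lit 17239180310) (nat_lit 76) (nat_lit 16166140455) (nat_lit 3) (nat_lit 4) (nat_lit 4) (nat_lit 5) (nat_lit 4) (nat_lit 4) (nat_lit 351) (nat_lit 278) (nat_lit 271)) (XT.lf (nat_lit 0) (nat_lit 31206447627) (nat_lit 76) (nat_lit 15062111254) (nat_lit 76) (nat_lit 13877721258) (nat_lit 3) (nat_lit 4) (nat_lit 4) (nat_lit 5) (nat_lit 4) (nat_lit 4) (nat_lit 352) (nat_lit 278) (nat_lit 270))) (XT.nd (nat_lit 78) (nat_lit 0) (nat_lit 0) (XT.lf (nat_lit 0) (nat_lit 40290337748) (nat_lit 76) (nat_lit 12842185005) (nat_lit 76) (nat_lit 11554693025) (nat_lit 3) (nat_lit 4) (nat_lit 4) (nat_lit 5) (nat_lit 4) (nat_lit 4) (nat_lit 353) (nat_lit 278) (nat_lit 269)) (XT.nd (nat_lit 78) (nat_lit 0) (nat_lit 0) (XT.lf (nat_lit 0) (nat_lit 49852117690) (nat_lit 76) (nat_lit 10566246444) (nat_lit 76) (nat_lit 9183289665) (nat_lit 3) (nat_lit 4) (nat_lit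 4) (nat_lit 5) (nat_lit 4) (nat_lit 4) (nat_lit 354) (nat_lit 278) (nat_lit 268)) (XT.lf (nat_lit 0) (nat_lit 59948449851) (nat_lit 76) (nat_lit 8220808527) (nat_lit 76) (nat_lit 6749458415) (nat_lit 3) (nat_lit 4) (nat_lit 4) (nat_lit 5) (nat_lit 4) (nat_lit 4) (nat_lit 355) (nat_lit 278) (nat_lit 267))))))))
noncomputable def xc37 : XT := (XT.nd (nat_lit 1326) (nat_lit 0) (nat_lit 0) (XT.nd (nat_lit 624) (nat_lit 0) (nat_lit 0) (XT.nd (nat_lit 312) (nat_lit 0) (nat_lit 0) (XT.nd (nat_lit 156) (nat_lit 152) (nat_lit 0) (XT.nd (nat_lit 78) (nat_lit 0) (nat_lit 0) (XT.lf (nat_lit 0) (nat_lit 70639164349) (nat_lit 76) (nat_lit 5791972364) (nat_lit 76) (nat_lit 4238776574) (nat_lit 3) (nat_lit 4) (nat_lit 4) (nat_lit 5) (nat_lit 4) (nat_lit 4) (nat_lit 356) (nat_lit 278) (nat_lit 266)) (XT.lf (nat_lit 0) (nat_lit 81987613567) (nat_lit 76) (nat_lit 3265344851) (nat_lit 76) (nat_lit 1636366025)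 (nat_lit 3) (nat_lit 4) (nat_lit 4) (nat_lit 5) (nat_lit 4) (nat_lit 4) (nat_lit 357) (nat_lit 278) (nat_lit 265))) (XT.nd (nat_lit 78) (nat_lit 0) (nat_lit 0) (XT.lf (nat_lit 0) (nat_lit 443622996) (nat_lit 76) (nat_lit 586555513) (nat_lit 152) (nat_lit 92580709161) (nat_lit 1) (nat_lit 5) (nat_lit 2) (nat_lit 5) (nat_lit 3) (nat_lit 4) (nat_lit 358) (nat_lit 278) (nat_lit 264)) (XT.lf (nat_lit 0) (nat_lit 3919168080) (nat_lit 152) (nat_lit 94654112294) (nat_lit 0) (nat_lit 2285723597) (nat_lit 1) (nat_lit 5) (nat_lit 3) (nat_lit 4) (nat_lit 1) (nat_lit 4) (nat_lit 359) (nat_lit 278) (nat_lit 263)))) (XT.nd (nat_lit 156) (nat_lit 0) (nat_lit 0) (XT.nd (nat_lit 78) (nat_lit 0) (nat_lit 0) (XT.lf (nat_lit 0) (nat_lit 6966135110) (nat_lit 152) (nat_lit 96449726187) (nat_lit 0) (nat_lit 5276987833) (nat_lit 1) (nat_lit 5) (nat_lit 3) (nat_lit 4) (nat_lit 1) (nat_lit 4) (nat_lit 360) (nat_lit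 278) (nat_lit 262)) (XT.lf (nat_lit 0) (nat_lit 10175029025) (nat_lit 152) (nat_lit 98550640354) (nat_lit 0) (nat_lit 8434305088) (nat_lit 1) (nat_lit 5) (nat_lit 3) (nat_lit 4) (nat_lit 1) (nat_lit 4) (nat_lit 361) (nat_lit 278) (nat_lit 261))) (XT.nd (nat_lit 78) (nat_lit 0) (nat_lit 0) (XT.lf (nat_lit 0) (nat_lit 13564865495) (nat_lit 152) (nat_lit 100969304656) (nat_lit 0) (nat_lit 11776385391) (nat_lit 1) (nat_lit 5) (nat_lit 3) (nat_lit 4) (nat_lit 1) (nat_lit 4) (nat_lit 362) (nat_lit 278) (nat_lit 260)) (XT.lf (nat_lit 0) (nat_lit 17155732438) (nat_lit 152) (nat_lit 103720051920) (nat_lit 0) (nat_lit 15323033660) (nat_lit 1) (nat_lit 5) (nat_lit 3) (nat_lit 4) (nat_lit 1) (nat_lit 4) (nat_lit 363) (nat_lit 278) (nat_lit 259))))) (XT.nd (nat_lit 312) (nat_lit 0) (nat_lit 0) (XT.nd (nat_lit 156) (nat_lit 0) (nat_lit 0) (XT.nd (nat_lit 78) (nat_lit 0) (nat_lit 0) (XT.lf (nat_lit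 0) (nat_lit 20968909067) (nat_lit 152) (nat_lit 106819182869) (nat_lit 0) (nat_lit 19095267073) (nat_lit 1) (nat_lit 5) (nat_lit 3) (nat_lit 4) (nat_lit 1) (nat_lit 4) (nat_lit 364) (nat_lit 278) (nat_lit 258)) (XT.lf (nat_lit 0) (nat_lit 25026991983) (nat_lit 152) (nat_lit 110285062725) (nat_lit 0) (nat_lit 23115439603) (nat_lit 1) (nat_lit 5) (nat_lit 3) (nat_lit 4) (nat_lit 1) (nat_lit 4) (nat_lit 365) (nat_lit 278) (nat_lit 257))) (XT.nd (nat_lit 78) (nat_lit 0) (nat_lit 0) (XT.lf (nat_lit 0) (nat_lit 29354029084) (nat_lit 152) (nat_lit 114138230034) (nat_lit 0) (nat_lit 27407374496) (nat_lit 1) (nat_lit 5) (nat_lit 3) (nat_lit 4) (nat_lit 1) (nat_lit 4) (nat_lit 366) (nat_lit 278) (nat_lit 256)) (XT.lf (nat_lit 0) (nat_lit 33975662073) (nat_lit 152) (nat_lit 118401518380) (nat_lit 0) (nat_lit 31996505440) (nat_lit 1) (nat_lit 5) (nat_lit 3) (nat_lit 4) (nat_lit 1) (nat_lit 4) (nat_lit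 367) (nat_lit 278) (nat_lit 255)))) (XT.nd (nat_lit 156) (nat_lit 0) (nat_lit 0) (XT.nd (nat_lit 78) (nat_lit 0) (nat_lit 0) (XT.lf (nat_lit 0) (nat_lit 38919278405) (nat_lit 152) (nat_lit 123100191695) (nat_lit 0) (nat_lit 36910027286) (nat_lit 1) (nat_lit 5) (nat_lit 3) (nat_lit 4) (nat_lit 1) (nat_lit 4) (nat_lit 368) (nat_lit 278) (nat_lit 254)) (XT.lf (nat_lit 0) (nat_lit 44214173583) (nat_lit 152) (nat_lit 128262093968) (nat_lit 0) (nat_lit 42177057199) (nat_lit 1) (nat_lit 5) (nat_lit 3) (nat_lit 4) (nat_lit 1) (nat_lit 4) (nat_lit 369) (nat_lit 278) (nat_lit 253))) (XT.nd (nat_lit 78) (nat_lit 0) (nat_lit 0) (XT.lf (nat_lit 0) (nat_lit 49891724763) (nat_lit 152) (nat_lit 133917814250) (nat_lit 0) (nat_lit 47828807208) (nat_lit 1) (nat_lit 5) (nat_lit 3) (nat_lit 4) (nat_lit 1) (nat_lit 4) (nat_lit 370) (nat_lit 278) (nat_lit 252)) (XT.nd (nat_lit 78) (nat_lit 0) (nat_lit 0) (XT.lf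 (nat_lit 0) (nat_lit 55985576695) (nat_lit 152) (nat_lit 140100867920) (nat_lit 0) (nat_lit 53898769166) (nat_lit 1) (nat_lit 5) (nat_lit 3) (nat_lit 4) (nat_lit 1) (nat_lit 4) (nat_lit 371) (nat_lit 278) (nat_lit 251)) (XT.lf (nat_lit 0) (nat_lit 62531841092) (nat_lit 152) (nat_lit 146847895297) (nat_lit 0) (nat_lit 60422913218) (nat_lit 1) (nat_lit 5) (nat_lit 3) (nat_lit 4) (nat_lit 1) (nat_lit 4) (nat_lit 372) (nat_lit 278) (nat_lit 250))))))) (XT.nd (nat_lit 624) (nat_lit 0) (nat_lit 0) (XT.nd (nat_lit 312) (nat_lit 0) (nat_lit 0) (XT.nd (nat_lit 156) (nat_lit 0) (nat_lit 0) (XT.nd (nat_lit 78) (nat_lit 0) (nat_lit 0) (XT.lf (nat_lit 0) (nat_lit 69569310633) (nat_lit 152) (nat_lit 154198878765) (nat_lit 0) (nat_lit 67439900957) (nat_lit 1) (nat_lit 5) (nat_lit 3) (nat_lit 4) (nat_lit 1) (nat_lit 4) (nat_lit 373) (nat_lit 278) (nat_lit 249)) (XT.lf (nat_lit 0) (nat_lit 77139688841)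 (nat_lit 152) (nat_lit 162197379707) (nat_lit 0) (nat_lit 74991314534) (nat_lit 1) (nat_lit 5) (nat_lit 3) (nat_lit 4) (nat_lit 1) (nat_lit 4) (nat_lit 374) (nat_lit 278) (nat_lit 248))) (XT.nd (nat_lit 78) (nat_lit 0) (nat_lit 0) (XT.lf (nat_lit 0) (nat_lit 85287837217) (nat_lit 152) (nat_lit 170890796647) (nat_lit 0) (nat_lit 83121903066) (nat_lit 1) (nat_lit 5) (nat_lit 3) (nat_lit 4) (nat_lit 1) (nat_lit 4) (nat_lit 375) (nat_lit 278) (nat_lit 247)) (XT.lf (nat_lit 0) (nat_lit 94062041083) (nat_lit 152) (nat_lit 180330646131) (nat_lit 0) (nat_lit 91879847818) (nat_lit 1) (nat_lit 5) (nat_lit 3) (nat_lit 4) (nat_lit 1) (nat_lit 4) (nat_lit 376) (nat_lit 278) (nat_lit 246)))) (XT.nd (nat_lit 156) (nat_lit 0) (nat_lit 0) (XT.nd (nat_lit 78) (nat_lit 0) (nat_lit 0) (XT.lf (nat_lit 0) (nat_lit 103514295723) (nat_lit 152) (nat_lit 190572868007) (nat_lit 0) (nat_lit 101317047723) (nat_lit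 1) (nat_lit 5) (nat_lit 3) (nat_lit 4) (nat_lit 1) (nat_lit 4) (nat_lit 377) (nat_lit 278) (nat_lit 245)) (XT.lf (nat_lit 0) (nat_lit 113700614497) (nat_lit 152) (nat_lit 201678156923) (nat_lit 0) (nat_lit 111489426927) (nat_lit 1) (nat_lit 5) (nat_lit 3) (nat_lit 4) (nat_lit 1) (nat_lit 4) (nat_lit 378) (nat_lit 278) (nat_lit 244))) (XT.nd (nat_lit 78) (nat_lit 0) (nat_lit 0) (XT.lf (nat_lit 0) (nat_lit 124681360776) (nat_lit 152) (nat_lit 213712321999) (nat_lit 0) (nat_lit 122457266196) (nat_lit 1) (nat_lit 5) (nat_lit 3) (nat_lit 4) (nat_lit 1) (nat_lit 4) (nat_lit 379) (nat_lit 278) (nat_lit 243)) (XT.lf (nat_lit 0) (nat_lit 136521605649) (nat_lit 152) (nat_lit 226746676805) (nat_lit 0) (nat_lit 134285560134) (nat_lit 1) (nat_lit 5) (nat_lit 3) (nat_lit 4) (nat_lit 1) (nat_lit 4) (nat_lit 380) (nat_lit 278) (nat_lit 242))))) (XT.nd (nat_lit 312) (nat_lit 0) (nat_lit 0) (XT.nd (nat_lit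 156) (nat_lit 0) (nat_lit 0) (XT.nd (nat_lit 78) (nat_lit 0) (nat_lit 0) (XT.lf (nat_lit 0) (nat_lit 149291513529) (nat_lit 152) (nat_lit 240858461964) (nat_lit 0) (nat_lit 147044402335) (nat_lit 1) (nat_lit 5) (nat_lit 3) (nat_lit 4) (nat_lit 1) (nat_lit 4) (nat_lit 381) (nat_lit 278) (nat_lit 241)) (XT.lf (nat_lit 0) (nat_lit 163066757946) (nat_lit 152) (nat_lit 256131302867) (nat_lit 0) (nat_lit 160809400751) (nat_lit 1) (nat_lit 5) (nat_lit 3) (nat_lit 4) (nat_lit 1) (nat_lit 4) (nat_lit 382) (nat_lit 278) (nat_lit 240))) (XT.nd (nat_lit 78) (nat_lit 0) (nat_lit 0) (XT.lf (nat_lit 0) (nat_lit 177928969976) (nat_lit 152) (nat_lit 272655705239) (nat_lit 0) (nat_lit 175662125744) (nat_lit 1) (nat_lit 5) (nat_lit 3) (nat_lit 4) (nat_lit 1) (nat_lit 4) (nat_lit 383) (nat_lit 278) (nat_lit 239)) (XT.lf (nat_lit 0) (nat_lit 193966221988) (nat_lit 152) (nat_lit 290529591465) (nat_lit 0) (nat_lit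 191690593463) (nat_lit 1) (nat_lit 5) (nat_lit 3) (nat_lit 4) (nat_lit 1) (nat_lit 4) (nat_lit 384) (nat_lit 278) (nat_lit 238)))) (XT.nd (nat_lit 156) (nat_lit 0) (nat_lit 0) (XT.nd (nat_lit 78) (nat_lit 0) (nat_lit 0) (XT.lf (nat_lit 0) (nat_lit 211273549549) (nat_lit 152) (nat_lit 309858880870) (nat_lit 0) (nat_lit 208989787419) (nat_lit 1) (nat_lit 5) (nat_lit 3) (nat_lit 4) (nat_lit 1) (nat_lit 4) (nat_lit 385) (nat_lit 278) (nat_lit 237)) (XT.lf (nat_lit 0) (nat_lit 229953514600) (nat_lit 152) (nat_lit 330758117392) (nat_lit 0) (nat_lit 227662221354) (nat_lit 1) (nat_lit 5) (nat_lit 3) (nat_lit 4) (nat_lit 1) (nat_lit 4) (nat_lit 386) (nat_lit 278) (nat_lit 236))) (XT.nd (nat_lit 78) (nat_lit 0) (nat_lit 0) (XT.lf (nat_lit 0) (nat_lit 250116813231) (nat_lit 152) (nat_lit 353351148357) (nat_lit 0) (nat_lit 247818546729) (nat_lit 1) (nat_lit 5) (nat_lit 3) (nat_lit 4) (nat_lit 1)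 (nat_lit 4) (nat_lit 387) (nat_lit 278) (nat_lit 235)) (XT.nd (nat_lit 78) (nat_lit 0) (nat_lit 0) (XT.lf (nat_lit 0) (nat_lit 271882931655) (nat_lit 152) (nat_lit 377771858395) (nat_lit 0) (nat_lit 269578208435) (nat_lit 1) (nat_lit 5) (nat_lit 3) (nat_lit 4) (nat_lit 1) (nat_lit 4) (nat_lit 388) (nat_lit 278) (nat_lit 234)) (XT.lf (nat_lit 0) (nat_lit 295380854278) (nat_lit 152) (nat_lit 404164962823) (nat_lit 0) (nat_lit 293070152616) (nat_lit 1) (nat_lit 5) (nat_lit 3) (nat_lit 4) (nat_lit 1) (nat_lit 4) (nat_lit 389) (nat_lit 278) (nat_lit 233))))))))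
noncomputable def xc38 : XT := (XT.nd (nat_lit 1326) (nat_lit 0) (nat_lit 0) (XT.nd (nat_lit 624) (nat_lit 0) (nat_lit 0) (XT.nd (nat_lit 312) (nat_lit 0) (nat_lit 0) (XT.nd (nat_lit 156) (nat_lit 0) (nat_lit 0) (XT.nd (nat_lit 78) (nat_lit 0) (nat_lit 0) (XT.lf (nat_lit 0) (nat_lit 320749828049) (nat_lit 152) (nat_lit 432686865224) (nat_lit 0) (nat_lit 318433590792) (nat_lit 1) (nat_lit 5) (nat_lit 3) (nat_lit 4) (nat_lit 1) (nat_lit 4) (nat_lit 390) (nat_lit 278) (nat_lit 232)) (XT.lf (nat_lit 0) (nat_lit 348140187627) (nat_lit 152) (nat_lit 463506584278) (nat_lit 0) (nat_lit 345818824819) (nat_lit 1) (nat_lit 5) (nat_lit 3) (nat_lit 4) (nat_lit 1) (nat_lit 4) (nat_lit 391) (nat_lit 278) (nat_lit 231))) (XT.nd (nat_lit 78) (nat_lit 0) (nat_lit 0) (XT.lf (nat_lit 0) (nat_lit 377714246255) (nat_lit 152) (nat_lit 496806755357) (nat_lit 0) (nat_lit 375388137566) (nat_lit 1) (nat_lit 5)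 (nat_lit 3) (nat_lit 4) (nat_lit 1) (nat_lit 4) (nat_lit 392) (nat_lit 278) (nat_lit 230)) (XT.lf (nat_lit 0) (nat_lit 409647257612) (nat_lit 152) (nat_lit 532784712810) (nat_lit 0) (nat_lit 407316754589) (nat_lit 1) (nat_lit 5) (nat_lit 3) (nat_lit 4) (nat_lit 1) (nat_lit 4) (nat_lit 393) (nat_lit 278) (nat_lit 229)))) (XT.nd (nat_lit 156) (nat_lit 0) (nat_lit 0) (XT.nd (nat_lit 78) (nat_lit 0) (nat_lit 0) (XT.lf (nat_lit 0) (nat_lit 444128454359) (nat_lit 152) (nat_lit 571653659345) (nat_lit 0) (nat_lit 441793882509) (nat_lit 1) (nat_lit 5) (nat_lit 3) (nat_lit 4) (nat_lit 1) (nat_lit 4) (nat_lit 394) (nat_lit 278) (nat_lit 228)) (XT.lf (nat_lit 0) (nat_lit 481362169514) (nat_lit 152) (nat_lit 613643929463) (nat_lit 0) (nat_lit 479023830230) (nat_lit 1) (nat_lit 5) (nat_lit 3) (nat_lit 4) (nat_lit 1) (nat_lit 4) (nat_lit 395) (nat_lit 278) (nat_lit 227))) (XT.nd (nat_lit 78) (nat_lit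 0) (nat_lit 0) (XT.lf (nat_lit 0) (nat_lit 521569047314) (nat_lit 152) (nat_lit 659004354392) (nat_lit 0) (nat_lit 519227219667) (nat_lit 1) (nat_lit 5) (nat_lit 3) (nat_lit 4) (nat_lit 1) (nat_lit 4) (nat_lit 396) (nat_lit 278) (nat_lit 226)) (XT.lf (nat_lit 0) (nat_lit 564987350739) (nat_lit 152) (nat_lit 708003736651) (nat_lit 0) (nat_lit 562642293125) (nat_lit 1) (nat_lit 5) (nat_lit 3) (nat_lit 4) (nat_lit 1) (nat_lit 4) (nat_lit 397) (nat_lit 278) (nat_lit 225))))) (XT.nd (nat_lit 312) (nat_lit 0) (nat_lit 0) (XT.nd (nat_lit 156) (nat_lit 0) (nat_lit 0) (XT.nd (nat_lit 78) (nat_lit 0) (nat_lit 0) (XT.lf (nat_lit 0) (nat_lit 611874373439) (nat_lit 152) (nat_lit 760932442950) (nat_lit 0) (nat_lit 609526325116) (nat_lit 1) (nat_lit 5) (nat_lit 3) (nat_lit 4) (nat_lit 1) (nat_lit 4) (nat_lit 398) (nat_lit 278) (nat_lit 224)) (XT.lf (nat_lit 0) (nat_lit 662507964438) (nat_lit 152) (nat_lit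 818104124881) (nat_lit 0) (nat_lit 660157146939) (nat_lit 1) (nat_lit 5) (nat_lit 3) (nat_lit 4) (nat_lit 1) (nat_lit 4) (nat_lit 399) (nat_lit 278) (nat_lit 223))) (XT.nd (nat_lit 78) (nat_lit 0) (nat_lit 0) (XT.lf (nat_lit 0) (nat_lit 717188174645) (nat_lit 152) (nat_lit 879857577597) (nat_lit 0) (nat_lit 714834793094) (nat_lit 1) (nat_lit 5) (nat_lit 3) (nat_lit 4) (nat_lit 1) (nat_lit 4) (nat_lit 400) (nat_lit 278) (nat_lit 222)) (XT.lf (nat_lit 0) (nat_lit 776239034935) (nat_lit 152) (nat_lit 946558747484) (nat_lit 0) (nat_lit 773883279262) (nat_lit 1) (nat_lit 5) (nat_lit 3) (nat_lit 4) (nat_lit 1) (nat_lit 4) (nat_lit 401) (nat_lit 278) (nat_lit 221)))) (XT.nd (nat_lit 156) (nat_lit 0) (nat_lit 0) (XT.nd (nat_lit 78) (nat_lit 0) (nat_lit 0) (XT.lf (nat_lit 0) (nat_lit 840010476332) (nat_lit 152) (nat_lit 1018602900735) (nat_lit 0) (nat_lit 837652522398) (nat_lit 1) (nat_lit 5)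 (nat_lit 3) (nat_lit 4) (nat_lit 1) (nat_lit 4) (nat_lit 402) (nat_lit 278) (nat_lit 220)) (XT.lf (nat_lit 0) (nat_lit 908880403675) (nat_lit 152) (nat_lit 1096416965663) (nat_lit 0) (nat_lit 906520414314) (nat_lit 1) (nat_lit 5) (nat_lit 3) (nat_lit 4) (nat_lit 1) (nat_lit 4) (nat_lit 403) (nat_lit 278) (nat_lit 219))) (XT.nd (nat_lit 78) (nat_lit 0) (nat_lit 0) (XT.lf (nat_lit 0) (nat_lit 983256935050) (nat_lit 152) (nat_lit 1180462062656) (nat_lit 0) (nat_lit 980895061035) (nat_lit 1) (nat_lit 5) (nat_lit 3) (nat_lit 4) (nat_lit 1) (nat_lit 4) (nat_lit 404) (nat_lit 278) (nat_lit 218)) (XT.nd (nat_lit 78) (nat_lit 0) (nat_lit 0) (XT.lf (nat_lit 0) (nat_lit 1063580820275) (nat_lit 152) (nat_lit 1271236236731) (nat_lit 0) (nat_lit 1061217201209) (nat_lit 1) (nat_lit 5) (nat_lit 3) (nat_lit 4) (nat_lit 1) (nat_lit 4) (nat_lit 405) (nat_lit 278) (nat_lit 217)) (XT.lf (nat_lit 0) (nat_lit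 1150328052742) (nat_lit 152) (nat_lit 1369277408920) (nat_lit 0) (nat_lit 1147962817889) (nat_lit 1) (nat_lit 5) (nat_lit 3) (nat_lit 4) (nat_lit 1) (nat_lit 4) (nat_lit 406) (nat_lit 278) (nat_lit 216))))))) (XT.nd (nat_lit 41808) (nat_lit 0) (nat_lit 152) (XT.nd (nat_lit 312) (nat_lit 0) (nat_lit 0) (XT.nd (nat_lit 156) (nat_lit 0) (nat_lit 0) (XT.nd (nat_lit 78) (nat_lit 0) (nat_lit 0) (XT.lf (nat_lit 0) (nat_lit 1244012690125) (nat_lit 152) (nat_lit 1475166563947) (nat_lit 0) (nat_lit 1241645959173) (nat_lit 1) (nat_lit 5) (nat_lit 3) (nat_lit 4) (nat_lit 1) (nat_lit 4) (nat_lit 407) (nat_lit 278) (nat_lit 215)) (XT.lf (nat_lit 0) (nat_lit 1345189900647) (nat_lit 152) (nat_lit 1589531193101) (nat_lit 0) (nat_lit 1342821784417) (nat_lit 1) (nat_lit 5) (nat_lit 3) (nat_lit 4) (nat_lit 1) (nat_lit 4) (nat_lit 408) (nat_lit 278) (nat_lit 214))) (XT.nd (nat_lit 78) (nat_lit 0) (nat_lit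 0) (XT.lf (nat_lit 0) (nat_lit 1454459252961) (nat_lit 152) (nat_lit 1713049012704) (nat_lit 0) (nat_lit 1452089854068) (nat_lit 1) (nat_lit 5) (nat_lit 3) (nat_lit 4) (nat_lit 1) (nat_lit 4) (nat_lit 409) (nat_lit 278) (nat_lit 213)) (XT.lf (nat_lit 0) (nat_lit 1572468269157) (nat_lit 152) (nat_lit 1846451980205) (nat_lit 0) (nat_lit 1570097682611) (nat_lit 1) (nat_lit 5) (nat_lit 3) (nat_lit 4) (nat_lit 1) (nat_lit 4) (nat_lit 410) (nat_lit 278) (nat_lit 212)))) (XT.nd (nat_lit 156) (nat_lit 0) (nat_lit 0) (XT.nd (nat_lit 78) (nat_lit 0) (nat_lit 0) (XT.lf (nat_lit 0) (nat_lit 1699916261921) (nat_lit 152) (nat_lit 1990530631707) (nat_lit 0) (nat_lit 1697544575698) (nat_lit 1) (nat_lit 5) (nat_lit 3) (nat_lit 4) (nat_lit 1) (nat_lit 4) (nat_lit 411) (nat_lit 278) (nat_lit 211)) (XT.lf (nat_lit 0) (nat_lit 1837558478620) (nat_lit 152) (nat_lit 2146138766626) (nat_lit 0) (nat_lit 1835185774176)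 (nat_lit 1) (nat_lit 5) (nat_lit 3) (nat_lit 4) (nat_lit 1) (nat_lit 4) (nat_lit 412) (nat_lit 278) (nat_lit 210))) (XT.nd (nat_lit 78) (nat_lit 0) (nat_lit 0) (XT.lf (nat_lit 0) (nat_lit 1986210576833) (nat_lit 152) (nat_lit 2314198507245) (nat_lit 0) (nat_lit 1983836929592) (nat_lit 1) (nat_lit 5) (nat_lit 3) (nat_lit 4) (nat_lit 1) (nat_lit 4) (nat_lit 413) (nat_lit 278) (nat_lit 209)) (XT.lf (nat_lit 0) (nat_lit 2146753457882) (nat_lit 152) (nat_lit 2495705763136) (nat_lit 0) (nat_lit 2144378937683) (nat_lit 1) (nat_lit 5) (nat_lit 3) (nat_lit 4) (nat_lit 1) (nat_lit 4) (nat_lit 414) (nat_lit 278) (nat_lit 208))))) (XT.nd (nat_lit 312) (nat_lit 76) (nat_lit 0) (XT.nd (nat_lit 156) (nat_lit 152) (nat_lit 0) (XT.nd (nat_lit 78) (nat_lit 0) (nat_lit 0) (XT.lf (nat_lit 0) (nat_lit 9436846772) (nat_lit 76) (nat_lit 2813879152) (nat_lit 76) (nat_lit 2813879152) (nat_lit 6) (nat_lit 4) (nat_lit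 7) (nat_lit 5) (nat_lit 7) (nat_lit 4) (nat_lit 342) (nat_lit 279) (nat_lit 279)) (XT.lf (nat_lit 0) (nat_lit 29076295956) (nat_lit 76) (nat_lit 1661196690) (nat_lit 76) (nat_lit 1438607241) (nat_lit 6) (nat_lit 4) (nat_lit 7) (nat_lit 5) (nat_lit 7) (nat_lit 4) (nat_lit 343) (nat_lit 279) (nat_lit 278))) (XT.nd (nat_lit 78) (nat_lit 0) (nat_lit 0) (XT.lf (nat_lit 0) (nat_lit 2900272707) (nat_lit 152) (nat_lit 28979774750) (nat_lit 0) (nat_lit 2503336789) (nat_lit 4) (nat_lit 5) (nat_lit 6) (nat_lit 4) (nat_lit 4) (nat_lit 4) (nat_lit 344) (nat_lit 279) (nat_lit 277)) (XT.lf (nat_lit 0) (nat_lit 7414209040) (nat_lit 152) (nat_lit 22517114618) (nat_lit 0) (nat_lit 6840574442) (nat_lit 4) (nat_lit 5) (nat_lit 6) (nat_lit 4) (nat_lit 4) (nat_lit 4) (nat_lit 345) (nat_lit 279) (nat_lit 276)))) (XT.nd (nat_lit 156) (nat_lit 76) (nat_lit 0) (XT.nd (nat_lit 78) (nat_lit 0) (nat_lit 0) (XT.lf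 (nat_lit 0) (nat_lit 12081449764) (nat_lit 152) (nat_lit 15942545748) (nat_lit 0) (nat_lit 11344205275) (nat_lit 4) (nat_lit 5) (nat_lit 6) (nat_lit 4) (nat_lit 4) (nat_lit 4) (nat_lit 346) (nat_lit 279) (nat_lit 275)) (XT.lf (nat_lit 0) (nat_lit 16929652599) (nat_lit 152) (nat_lit 9217107733) (nat_lit 0) (nat_lit 16040917472) (nat_lit 4) (nat_lit 5) (nat_lit 6) (nat_lit 4) (nat_lit 4) (nat_lit 4) (nat_lit 347) (nat_lit 279) (nat_lit 274))) (XT.nd (nat_lit 78) (nat_lit 76) (nat_lit 0) (XT.lf (nat_lit 0) (nat_lit 21987547638) (nat_lit 152) (nat_lit 2300946123) (nat_lit 0) (nat_lit 20958543401) (nat_lit 4) (nat_lit 5) (nat_lit 6) (nat_lit 4) (nat_lit 4) (nat_lit 4) (nat_lit 348) (nat_lit 279) (nat_lit 273)) (XT.nd (nat_lit 78) (nat_lit 0) (nat_lit 0) (XT.lf (nat_lit 0) (nat_lit 5102154154) (nat_lit 76) (nat_lit 22305660367) (nat_lit 76) (nat_lit 21146777324) (nat_lit 3) (nat_lit 4) (nat_lit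 4) (nat_lit 5) (nat_lit 4) (nat_lit 4) (nat_lit 349) (nat_lit 279) (nat_lit 272)) (XT.lf (nat_lit 0) (nat_lit 12914916010) (nat_lit 76) (nat_lit 20249413437) (nat_lit 76) (nat_lit 18970272241) (nat_lit 3) (nat_lit 4) (nat_lit 4) (nat_lit 5) (nat_lit 4) (nat_lit 4) (nat_lit 350) (nat_lit 279) (nat_lit 271))))))))
noncomputable def xc39 : XT := (XT.nd (nat_lit 1326) (nat_lit 0) (nat_lit 0) (XT.nd (nat_lit 624) (nat_lit 76) (nat_lit 0) (XT.nd (nat_lit 312) (nat_lit 76) (nat_lit 0) (XT.nd (nat_lit 156) (nat_lit 0) (nat_lit 0) (XT.nd (nat_lit 78) (nat_lit 0) (nat_lit 0) (XT.lf (nat_lit 0) (nat_lit 21062473547) (nat_lit 76) (nat_lit 18170479751) (nat_lit 76) (nat_lit 16779988413) (nat_lit 3) (nat_lit 4) (nat_lit 4) (nat_lit 5) (nat_lit 4) (nat_lit 4) (nat_lit 351) (nat_lit 279) (nat_lit 270)) (XT.lf (nat_lit 0) (nat_lit 29593108585) (nat_lit 76) (nat_lit 16056539701) (nat_lit 76) (nat_lit 14562946379)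 (nat_lit 3) (nat_lit 4) (nat_lit 4) (nat_lit 5) (nat_lit 4) (nat_lit 4) (nat_lit 352) (nat_lit 279) (nat_lit 269))) (XT.nd (nat_lit 78) (nat_lit 0) (nat_lit 0) (XT.lf (nat_lit 0) (nat_lit 38557373038) (nat_lit 76) (nat_lit 13895066234) (nat_lit 76) (nat_lit 12306008113) (nat_lit 3) (nat_lit 4) (nat_lit 4) (nat_lit 5) (nat_lit 4) (nat_lit 4) (nat_lit 353) (nat_lit 279) (nat_lit 268)) (XT.lf (nat_lit 0) (nat_lit 48008388473) (nat_lit 76) (nat_lit 11673250620) (nat_lit 76) (nat_lit 9995799166) (nat_lit 3) (nat_lit 4) (nat_lit 4) (nat_lit 5) (nat_lit 4) (nat_lit 4) (nat_lit 354) (nat_lit 279) (nat_lit 267)))) (XT.nd (nat_lit 156) (nat_lit 76) (nat_lit 0) (XT.nd (nat_lit 78) (nat_lit 0) (nat_lit 0) (XT.lf (nat_lit 0) (nat_lit 58002160905) (nat_lit 76) (nat_lit 9377926543) (nat_lit 76) (nat_lit 7618629411) (nat_lit 3) (nat_lit 4) (nat_lit 4) (nat_lit 5) (nat_lit 4) (nat_lit 4) (nat_lit 355)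 (nat_lit 279) (nat_lit 266)) (XT.lf (nat_lit 0) (nat_lit 68597912692) (nat_lit 76) (nat_lit 6995492083) (nat_lit 76) (nat_lit 5160411915) (nat_lit 3) (nat_lit 4) (nat_lit 4) (nat_lit 5) (nat_lit 4) (nat_lit 4) (nat_lit 356) (nat_lit 279) (nat_lit 265))) (XT.nd (nat_lit 78) (nat_lit 76) (nat_lit 0) (XT.lf (nat_lit 0) (nat_lit 79858433472) (nat_lit 76) (nat_lit 4511829110) (nat_lit 76) (nat_lit 2606579465) (nat_lit 3) (nat_lit 4) (nat_lit 4) (nat_lit 5) (nat_lit 4) (nat_lit 4) (nat_lit 357) (nat_lit 279) (nat_lit 264)) (XT.lf (nat_lit 0) (nat_lit 55100278) (nat_lit 152) (nat_lit 1855612804) (nat_lit 76) (nat_lit 91793845440) (nat_lit 2) (nat_lit 5) (nat_lit 4) (nat_lit 5) (nat_lit 3) (nat_lit 4) (nat_lit 358) (nat_lit 279) (nat_lit 263))))) (XT.nd (nat_lit 312) (nat_lit 0) (nat_lit 0) (XT.nd (nat_lit 156) (nat_lit 0) (nat_lit 0) (XT.nd (nat_lit 78) (nat_lit 0) (nat_lit 0) (XT.lf (nat_lit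 0) (nat_lit 2821557191) (nat_lit 152) (nat_lit 97199358473) (nat_lit 0) (nat_lit 941575338) (nat_lit 1) (nat_lit 5) (nat_lit 3) (nat_lit 4) (nat_lit 1) (nat_lit 4) (nat_lit 359) (nat_lit 279) (nat_lit 262)) (XT.lf (nat_lit 0) (nat_lit 5829182645) (nat_lit 152) (nat_lit 99072689271) (nat_lit 0) (nat_lit 3897624132) (nat_lit 1) (nat_lit 5) (nat_lit 3) (nat_lit 4) (nat_lit 1) (nat_lit 4) (nat_lit 360) (nat_lit 279) (nat_lit 261))) (XT.nd (nat_lit 78) (nat_lit 0) (nat_lit 0) (XT.lf (nat_lit 0) (nat_lit 9001649177) (nat_lit 152) (nat_lit 101245563535) (nat_lit 0) (nat_lit 7022334497) (nat_lit 1) (nat_lit 5) (nat_lit 3) (nat_lit 4) (nat_lit 1) (nat_lit 4) (nat_lit 361) (nat_lit 279) (nat_lit 260)) (XT.lf (nat_lit 0) (nat_lit 12357756587) (nat_lit 152) (nat_lit 103730857558) (nat_lit 0) (nat_lit 10334223233) (nat_lit 1) (nat_lit 5) (nat_lit 3) (nat_lit 4) (nat_lit 1) (nat_lit 4) (nat_lit 362)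 (nat_lit 279) (nat_lit 259)))) (XT.nd (nat_lit 156) (nat_lit 0) (nat_lit 0) (XT.nd (nat_lit 78) (nat_lit 0) (nat_lit 0) (XT.lf (nat_lit 0) (nat_lit 15917392920) (nat_lit 152) (nat_lit 106543299006) (nat_lit 0) (nat_lit 13852916350) (nat_lit 1) (nat_lit 5) (nat_lit 3) (nat_lit 4) (nat_lit 1) (nat_lit 4) (nat_lit 363) (nat_lit 279) (nat_lit 258)) (XT.lf (nat_lit 0) (nat_lit 19701652316) (nat_lit 152) (nat_lit 109699554201) (nat_lit 0) (nat_lit 17599265361) (nat_lit 1) (nat_lit 5) (nat_lit 3) (nat_lit 4) (nat_lit 1) (nat_lit 4) (nat_lit 364) (nat_lit 279) (nat_lit 257))) (XT.nd (nat_lit 78) (nat_lit 0) (nat_lit 0) (XT.lf (nat_lit 0) (nat_lit 23732960016) (nat_lit 152) (nat_lit 113218326876) (nat_lit 0) (nat_lit 21595470853) (nat_lit 1) (nat_lit 5) (nat_lit 3) (nat_lit 4) (nat_lit 1) (nat_lit 4) (nat_lit 365) (nat_lit 279) (nat_lit 256)) (XT.nd (nat_lit 78) (nat_lit 0) (nat_lit 0) (XT.lf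 (nat_lit 0) (nat_lit 28035205252) (nat_lit 152) (nat_lit 117120469018) (nat_lit 0) (nat_lit 25865214044) (nat_lit 1) (nat_lit 5) (nat_lit 3) (nat_lit 4) (nat_lit 1) (nat_lit 4) (nat_lit 366) (nat_lit 279) (nat_lit 255)) (XT.lf (nat_lit 0) (nat_lit 32633882810) (nat_lit 152) (nat_lit 121429104432) (nat_lit 0) (nat_lit 30433797116) (nat_lit 1) (nat_lit 5) (nat_lit 3) (nat_lit 4) (nat_lit 1) (nat_lit 4) (nat_lit 367) (nat_lit 279) (nat_lit 254))))))) (XT.nd (nat_lit 702) (nat_lit 0) (nat_lit 0) (XT.nd (nat_lit 312) (nat_lit 0) (nat_lit 0) (XT.nd (nat_lit 156) (nat_lit 0) (nat_lit 0) (XT.nd (nat_lit 78) (nat_lit 0) (nat_lit 0) (XT.lf (nat_lit 0) (nat_lit 37556244113) (nat_lit 152) (nat_lit 126169765772) (nat_lit 0) (nat_lit 35328293153) (nat_lit 1) (nat_lit 5) (nat_lit 3) (nat_lit 4) (nat_lit 1) (nat_lit 4) (nat_lit 368) (nat_lit 279) (nat_lit 253)) (XT.lf (nat_lit 0) (nat_lit 42831458708)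 (nat_lit 152) (nat_lit 131370545847) (nat_lit 0) (nat_lit 40577706577) (nat_lit 1) (nat_lit 5) (nat_lit 3) (nat_lit 4) (nat_lit 1) (nat_lit 4) (nat_lit 369) (nat_lit 279) (nat_lit 252))) (XT.nd (nat_lit 78) (nat_lit 0) (nat_lit 0) (XT.lf (nat_lit 0) (nat_lit 48490787128) (nat_lit 152) (nat_lit 137062264093) (nat_lit 0) (nat_lit 46213145023) (nat_lit 1) (nat_lit 5) (nat_lit 3) (nat_lit 4) (nat_lit 1) (nat_lit 4) (nat_lit 370) (nat_lit 279) (nat_lit 251)) (XT.lf (nat_lit 0) (nat_lit 54567766132) (nat_lit 152) (nat_lit 143278649212) (nat_lit 0) (nat_lit 52268003682) (nat_lit 1) (nat_lit 5) (nat_lit 3) (nat_lit 4) (nat_lit 1) (nat_lit 4) (nat_lit 371) (nat_lit 279) (nat_lit 250)))) (XT.nd (nat_lit 156) (nat_lit 0) (nat_lit 0) (XT.nd (nat_lit 78) (nat_lit 0) (nat_lit 0) (XT.lf (nat_lit 0) (nat_lit 61098407448) (nat_lit 152) (nat_lit 150056539041) (nat_lit 0) (nat_lit 58778163197) (nat_lit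 1) (nat_lit 5) (nat_lit 3) (nat_lit 4) (nat_lit 1) (nat_lit 4) (nat_lit 372) (nat_lit 279) (nat_lit 249)) (XT.lf (nat_lit 0) (nat_lit 68121411174) (nat_lit 152) (nat_lit 157436098853) (nat_lit 0) (nat_lit 65782202291) (nat_lit 1) (nat_lit 5) (nat_lit 3) (nat_lit 4) (nat_lit 1) (nat_lit 4) (nat_lit 373) (nat_lit 279) (nat_lit 248))) (XT.nd (nat_lit 78) (nat_lit 0) (nat_lit 0) (XT.lf (nat_lit 0) (nat_lit 75678395108) (nat_lit 152) (nat_lit 165461059374) (nat_lit 0) (nat_lit 73321626382) (nat_lit 1) (nat_lit 5) (nat_lit 3) (nat_lit 4) (nat_lit 1) (nat_lit 4) (nat_lit 374) (nat_lit 279) (nat_lit 247)) (XT.nd (nat_lit 78) (nat_lit 0) (nat_lit 0) (XT.lf (nat_lit 0) (nat_lit 83814141378) (nat_lit 152) (nat_lit 174178975924) (nat_lit 0) (nat_lit 81441113538) (nat_lit 1) (nat_lit 5) (nat_lit 3) (nat_lit 4) (nat_lit 1) (nat_lit 4) (nat_lit 375) (nat_lit 279) (nat_lit 246)) (XT.lf (nat_lit 0) (nat_lit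 92576861814) (nat_lit 152) (nat_lit 183641510231) (nat_lit 0) (nat_lit 90188779238) (nat_lit 1) (nat_lit 5) (nat_lit 3) (nat_lit 4) (nat_lit 1) (nat_lit 4) (nat_lit 376) (nat_lit 279) (nat_lit 245)))))) (XT.nd (nat_lit 312) (nat_lit 0) (nat_lit 0) (XT.nd (nat_lit 156) (nat_lit 0) (nat_lit 0) (XT.nd (nat_lit 78) (nat_lit 0) (nat_lit 0) (XT.lf (nat_lit 0) (nat_lit 102018483648) (nat_lit 152) (nat_lit 193904736574) (nat_lit 0) (nat_lit 99616461502) (nat_lit 1) (nat_lit 5) (nat_lit 3) (nat_lit 4) (nat_lit 1) (nat_lit 4) (nat_lit 377) (nat_lit 279) (nat_lit 244)) (XT.lf (nat_lit 0) (nat_lit 112194957231) (nat_lit 152) (nat_lit 205029474070) (nat_lit 0) (nat_lit 109780028076) (nat_lit 1) (nat_lit 5) (nat_lit 3) (nat_lit 4) (nat_lit 1) (nat_lit 4) (nat_lit 378) (nat_lit 279) (nat_lit 243))) (XT.nd (nat_lit 78) (nat_lit 0) (nat_lit 0) (XT.lf (nat_lit 0) (nat_lit 123166587592) (nat_lit 152) (nat_lit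 217081647090) (nat_lit 0) (nat_lit 120739707502) (nat_lit 1) (nat_lit 5) (nat_lit 3) (nat_lit 4) (nat_lit 1) (nat_lit 4) (nat_lit 379) (nat_lit 279) (nat_lit 242)) (XT.lf (nat_lit 0) (nat_lit 134998391801) (nat_lit 152) (nat_lit 230132675919) (nat_lit 0) (nat_lit 132560446031) (nat_lit 1) (nat_lit 5) (nat_lit 3) (nat_lit 4) (nat_lit 1) (nat_lit 4) (nat_lit 380) (nat_lit 279) (nat_lit 241)))) (XT.nd (nat_lit 156) (nat_lit 0) (nat_lit 0) (XT.nd (nat_lit 78) (nat_lit 0) (nat_lit 0) (XT.lf (nat_lit 0) (nat_lit 147760484251) (nat_lit 152) (nat_lit 244259899987) (nat_lit 0) (nat_lit 145312292481) (nat_lit 1) (nat_lit 5) (nat_lit 3) (nat_lit 4) (nat_lit 1) (nat_lit 4) (nat_lit 381) (nat_lit 279) (nat_lit 240)) (XT.lf (nat_lit 0) (nat_lit 161528492158) (nat_lit 152) (nat_lit 259547036178) (nat_lit 0) (nat_lit 159070813351) (nat_lit 1) (nat_lit 5) (nat_lit 3) (nat_lit 4) (nat_lit 1) (nat_lit 4)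 (nat_lit 382) (nat_lit 279) (nat_lit 239))) (XT.nd (nat_lit 78) (nat_lit 0) (nat_lit 0) (XT.lf (nat_lit 0) (nat_lit 176384003717) (nat_lit 152) (nat_lit 276084674927) (nat_lit 0) (nat_lit 173917540616) (nat_lit 1) (nat_lit 5) (nat_lit 3) (nat_lit 4) (nat_lit 1) (nat_lit 4) (nat_lit 383) (nat_lit 279) (nat_lit 238)) (XT.nd (nat_lit 78) (nat_lit 0) (nat_lit 0) (XT.lf (nat_lit 0) (nat_lit 192415051589) (nat_lit 152) (nat_lit 293970817057) (nat_lit 0) (nat_lit 189940454883) (nat_lit 1) (nat_lit 5) (nat_lit 3) (nat_lit 4) (nat_lit 1) (nat_lit 4) (nat_lit 384) (nat_lit 279) (nat_lit 237)) (XT.lf (nat_lit 0) (nat_lit 209716634575) (nat_lit 152) (nat_lit 313311454522) (nat_lit 0) (nat_lit 207234506753) (nat_lit 1) (nat_lit 5) (nat_lit 3) (nat_lit 4) (nat_lit 1) (nat_lit 4) (nat_lit 385) (nat_lit 279) (nat_lit 236))))))))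
noncomputable def xc40 : XT := (XT.nd (nat_lit 1326) (nat_lit 0) (nat_lit 0) (XT.nd (nat_lit 624) (nat_lit 0) (nat_lit 0) (XT.nd (nat_lit 312) (nat_lit 0) (nat_lit 0) (XT.nd (nat_lit 156) (nat_lit 0) (nat_lit 0) (XT.nd (nat_lit 78) (nat_lit 0) (nat_lit 0) (XT.lf (nat_lit 0) (nat_lit 228391280576) (nat_lit 152) (nat_lit 334221198506) (nat_lit 0) (nat_lit 225902179499) (nat_lit 1) (nat_lit 5) (nat_lit 3) (nat_lit 4) (nat_lit 1) (nat_lit 4) (nat_lit 386) (nat_lit 279) (nat_lit 235)) (XT.lf (nat_lit 0) (nat_lit 248549654160) (nat_lit 152) (nat_lit 356823958603) (nat_lit 0) (nat_lit 246054096365) (nat_lit 1) (nat_lit 5) (nat_lit 3) (nat_lit 4) (nat_lit 1) (nat_lit 4) (nat_lit 387) (nat_lit 279) (nat_lit 234))) (XT.nd (nat_lit 78) (nat_lit 0) (nat_lit 0) (XT.lf (nat_lit 0) (nat_lit 270311212356) (nat_lit 152) (nat_lit 381253677097) (nat_lit 0) (nat_lit 267809676118) (nat_lit 1) (nat_lit 5)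 (nat_lit 3) (nat_lit 4) (nat_lit 1) (nat_lit 4) (nat_lit 388) (nat_lit 279) (nat_lit 233)) (XT.lf (nat_lit 0) (nat_lit 293804912546) (nat_lit 152) (nat_lit 407655122687) (nat_lit 0) (nat_lit 291297840712) (nat_lit 1) (nat_lit 5) (nat_lit 3) (nat_lit 4) (nat_lit 1) (nat_lit 4) (nat_lit 389) (nat_lit 279) (nat_lit 232)))) (XT.nd (nat_lit 156) (nat_lit 0) (nat_lit 0) (XT.nd (nat_lit 78) (nat_lit 0) (nat_lit 0) (XT.lf (nat_lit 0) (nat_lit 319169976656) (nat_lit 152) (nat_lit 436184748387) (nat_lit 0) (nat_lit 316657779272) (nat_lit 1) (nat_lit 5) (nat_lit 3) (nat_lit 4) (nat_lit 1) (nat_lit 4) (nat_lit 390) (nat_lit 279) (nat_lit 231)) (XT.lf (nat_lit 0) (nat_lit 346556716178) (nat_lit 152) (nat_lit 467011618643) (nat_lit 0) (nat_lit 344039772913) (nat_lit 1) (nat_lit 5) (nat_lit 3) (nat_lit 4) (nat_lit 1) (nat_lit 4) (nat_lit 391) (nat_lit 279) (nat_lit 230))) (XT.nd (nat_lit 78) (nat_lit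 0) (nat_lit 0) (XT.lf (nat_lit 0) (nat_lit 376127422901) (nat_lit 152) (nat_lit 500318411207) (nat_lit 0) (nat_lit 373606085302) (nat_lit 1) (nat_lit 5) (nat_lit 3) (nat_lit 4) (nat_lit 1) (nat_lit 4) (nat_lit 392) (nat_lit 279) (nat_lit 229)) (XT.lf (nat_lit 0) (nat_lit 408057330643) (nat_lit 152) (nat_lit 536302499663) (nat_lit 0) (nat_lit 405531924217) (nat_lit 1) (nat_lit 5) (nat_lit 3) (nat_lit 4) (nat_lit 1) (nat_lit 4) (nat_lit 393) (nat_lit 279) (nat_lit 228))))) (XT.nd (nat_lit 312) (nat_lit 0) (nat_lit 0) (XT.nd (nat_lit 156) (nat_lit 0) (nat_lit 0) (XT.nd (nat_lit 78) (nat_lit 0) (nat_lit 0) (XT.lf (nat_lit 0) (nat_lit 442535653673) (nat_lit 152) (nat_lit 575177123054) (nat_lit 0) (nat_lit 440006479814) (nat_lit 1) (nat_lit 5) (nat_lit 3) (nat_lit 4) (nat_lit 1) (nat_lit 4) (nat_lit 394) (nat_lit 279) (nat_lit 227)) (XT.lf (nat_lit 0) (nat_lit 479766707978) (nat_lit 152) (nat_lit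 617172649518) (nat_lit 0) (nat_lit 477234045755) (nat_lit 1) (nat_lit 5) (nat_lit 3) (nat_lit 4) (nat_lit 1) (nat_lit 4) (nat_lit 395) (nat_lit 279) (nat_lit 226))) (XT.nd (nat_lit 78) (nat_lit 0) (nat_lit 0) (XT.lf (nat_lit 0) (nat_lit 519971122029) (nat_lit 152) (nat_lit 662537941436) (nat_lit 0) (nat_lit 517435229839) (nat_lit 1) (nat_lit 5) (nat_lit 3) (nat_lit 4) (nat_lit 1) (nat_lit 4) (nat_lit 396) (nat_lit 279) (nat_lit 225)) (XT.lf (nat_lit 0) (nat_lit 563387144205) (nat_lit 152) (nat_lit 711541830166) (nat_lit 0) (nat_lit 560848261305) (nat_lit 1) (nat_lit 5) (nat_lit 3) (nat_lit 4) (nat_lit 1) (nat_lit 4) (nat_lit 397) (nat_lit 279) (nat_lit 224)))) (XT.nd (nat_lit 156) (nat_lit 0) (nat_lit 0) (XT.nd (nat_lit 78) (nat_lit 0) (nat_lit 0) (XT.lf (nat_lit 0) (nat_lit 610272054637) (nat_lit 152) (nat_lit 764474709122) (nat_lit 0) (nat_lit 607730402562) (nat_lit 1) (nat_lit 5) (nat_lit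 3) (nat_lit 4) (nat_lit 1) (nat_lit 4) (nat_lit 398) (nat_lit 279) (nat_lit 223)) (XT.lf (nat_lit 0) (nat_lit 660903689832) (nat_lit 152) (nat_lit 821650254626) (nat_lit 0) (nat_lit 658359473705) (nat_lit 1) (nat_lit 5) (nat_lit 3) (nat_lit 4) (nat_lit 1) (nat_lit 4) (nat_lit 399) (nat_lit 279) (nat_lit 222))) (XT.nd (nat_lit 78) (nat_lit 0) (nat_lit 0) (XT.lf (nat_lit 0) (nat_lit 715582089109) (nat_lit 152) (nat_lit 883407284724) (nat_lit 0) (nat_lit 713035498861) (nat_lit 1) (nat_lit 5) (nat_lit 3) (nat_lit 4) (nat_lit 1) (nat_lit 4) (nat_lit 400) (nat_lit 279) (nat_lit 221)) (XT.nd (nat_lit 78) (nat_lit 0) (nat_lit 0) (XT.lf (nat_lit 0) (nat_lit 774631272613) (nat_lit 152) (nat_lit 950111767001) (nat_lit 0) (nat_lit 772082484103) (nat_lit 1) (nat_lit 5) (nat_lit 3) (nat_lit 4) (nat_lit 1) (nat_lit 4) (nat_lit 401) (nat_lit 279) (nat_lit 220)) (XT.lf (nat_lit 0) (nat_lit 838401161430)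 (nat_lit 152) (nat_lit 1022158987280) (nat_lit 0) (nat_lit 835850337494) (nat_lit 1) (nat_lit 5) (nat_lit 3) (nat_lit 4) (nat_lit 1) (nat_lit 4) (nat_lit 402) (nat_lit 279) (nat_lit 219))))))) (XT.nd (nat_lit 624) (nat_lit 0) (nat_lit 0) (XT.nd (nat_lit 312) (nat_lit 0) (nat_lit 0) (XT.nd (nat_lit 156) (nat_lit 0) (nat_lit 0) (XT.nd (nat_lit 78) (nat_lit 0) (nat_lit 0) (XT.lf (nat_lit 0) (nat_lit 907269651198) (nat_lit 152) (nat_lit 1099975892049) (nat_lit 0) (nat_lit 904716942608) (nat_lit 1) (nat_lit 5) (nat_lit 3) (nat_lit 4) (nat_lit 1) (nat_lit 4) (nat_lit 403) (nat_lit 279) (nat_lit 218)) (XT.lf (nat_lit 0) (nat_lit 981644851487) (nat_lit 152) (nat_lit 1184023618524) (nat_lit 0) (nat_lit 979090397846) (nat_lit 1) (nat_lit 5) (nat_lit 3) (nat_lit 4) (nat_lit 1) (nat_lit 4) (nat_lit 404) (nat_lit 279) (nat_lit 217))) (XT.nd (nat_lit 78) (nat_lit 0) (nat_lit 0) (XT.lf (nat_lit 0) (nat_lit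 1061967504223) (nat_lit 152) (nat_lit 1274800227305) (nat_lit 0) (nat_lit 1059411434794) (nat_lit 1) (nat_lit 5) (nat_lit 3) (nat_lit 4) (nat_lit 1) (nat_lit 4) (nat_lit 405) (nat_lit 279) (nat_lit 216)) (XT.lf (nat_lit 0) (nat_lit 1148713595497) (nat_lit 152) (nat_lit 1372843653851) (nat_lit 0) (nat_lit 1146156029969) (nat_lit 1) (nat_lit 5) (nat_lit 3) (nat_lit 4) (nat_lit 1) (nat_lit 4) (nat_lit 406) (nat_lit 279) (nat_lit 215)))) (XT.nd (nat_lit 156) (nat_lit 0) (nat_lit 0) (XT.nd (nat_lit 78) (nat_lit 0) (nat_lit 0) (XT.lf (nat_lit 0) (nat_lit 1242397176221) (nat_lit 152) (nat_lit 1478734896246) (nat_lit 0) (nat_lit 1239838225416) (nat_lit 1) (nat_lit 5) (nat_lit 3) (nat_lit 4) (nat_lit 1) (nat_lit 4) (nat_lit 407) (nat_lit 279) (nat_lit 214)) (XT.lf (nat_lit 0) (nat_lit 1343573408353) (nat_lit 152) (nat_lit 1593101458149) (nat_lit 0) (nat_lit 1341013174884) (nat_lit 1) (nat_lit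 5) (nat_lit 3) (nat_lit 4) (nat_lit 1) (nat_lit 4) (nat_lit 408) (nat_lit 279) (nat_lit 213))) (XT.nd (nat_lit 78) (nat_lit 0) (nat_lit 0) (XT.lf (nat_lit 0) (nat_lit 1452841854752) (nat_lit 152) (nat_lit 1716621067333) (nat_lit 0) (nat_lit 1450280433631) (nat_lit 1) (nat_lit 5) (nat_lit 3) (nat_lit 4) (nat_lit 1) (nat_lit 4) (nat_lit 409) (nat_lit 279) (nat_lit 212)) (XT.lf (nat_lit 0) (nat_lit 1570850032137) (nat_lit 152) (nat_lit 1850025691853) (nat_lit 0) (nat_lit 1568287511338) (nat_lit 1) (nat_lit 5) (nat_lit 3) (nat_lit 4) (nat_lit 1) (nat_lit 4) (nat_lit 410) (nat_lit 279) (nat_lit 211))))) (XT.nd (nat_lit 41340) (nat_lit 0) (nat_lit 228) (XT.nd (nat_lit 156) (nat_lit 0) (nat_lit 0) (XT.nd (nat_lit 78) (nat_lit 0) (nat_lit 0) (XT.lf (nat_lit 0) (nat_lit 1698297248225) (nat_lit 152) (nat_lit 1994105877633) (nat_lit 0) (nat_lit 1695733709206) (nat_lit 1) (nat_lit 5) (nat_lit 3)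 (nat_lit 4) (nat_lit 1) (nat_lit 4) (nat_lit 411) (nat_lit 279) (nat_lit 210)) (XT.lf (nat_lit 0) (nat_lit 1835938745779) (nat_lit 152) (nat_lit 2149715433180) (nat_lit 0) (nat_lit 1833374263963) (nat_lit 1) (nat_lit 5) (nat_lit 3) (nat_lit 4) (nat_lit 1) (nat_lit 4) (nat_lit 412) (nat_lit 279) (nat_lit 209))) (XT.nd (nat_lit 78) (nat_lit 0) (nat_lit 0) (XT.lf (nat_lit 0) (nat_lit 1984590178116) (nat_lit 152) (nat_lit 2317776489194) (nat_lit 0) (nat_lit 1982024823341) (nat_lit 1) (nat_lit 5) (nat_lit 3) (nat_lit 4) (nat_lit 1) (nat_lit 4) (nat_lit 413) (nat_lit 279) (nat_lit 208)) (XT.lf (nat_lit 0) (nat_lit 2145132442615) (nat_lit 152) (nat_lit 2499284963045) (nat_lit 0) (nat_lit 2142566279544) (nat_lit 1) (nat_lit 5) (nat_lit 3) (nat_lit 4) (nat_lit 1) (nat_lit 4) (nat_lit 414) (nat_lit 279) (nat_lit 207)))) (XT.nd (nat_lit 156) (nat_lit 152) (nat_lit 0) (XT.nd (nat_lit 78) (nat_lit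 76) (nat_lit 0) (XT.lf (nat_lit 0) (nat_lit 6545738450) (nat_lit 152) (nat_lit 169377064) (nat_lit 0) (nat_lit 6545738450) (nat_lit 7) (nat_lit 5) (nat_lit 9) (nat_lit 4) (nat_lit 7) (nat_lit 4) (nat_lit 340) (nat_lit 280) (nat_lit 280)) (XT.lf (nat_lit 0) (nat_lit 9003003773) (nat_lit 76) (nat_lit 9744527762) (nat_lit 76) (nat_lit 9504131157) (nat_lit 6) (nat_lit 4) (nat_lit 7) (nat_lit 5) (nat_lit 7) (nat_lit 4) (nat_lit 341) (nat_lit 280) (nat_lit 279))) (XT.nd (nat_lit 78) (nat_lit 152) (nat_lit 0) (XT.lf (nat_lit 0) (nat_lit 18653625015) (nat_lit 76) (nat_lit 5973886191) (nat_lit 76) (nat_lit 5510900137) (nat_lit 6) (nat_lit 4) (nat_lit 7) (nat_lit 5) (nat_lit 7) (nat_lit 4) (nat_lit 342) (nat_lit 280) (nat_lit 278)) (XT.nd (nat_lit 78) (nat_lit 152) (nat_lit 0) (XT.lf (nat_lit 0) (nat_lit 28652460269) (nat_lit 76) (nat_lit 2105223914) (nat_lit 76) (nat_lit 1436136518) (nat_lit 6)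 (nat_lit 4) (nat_lit 7) (nat_lit 5) (nat_lit 7) (nat_lit 4) (nat_lit 343) (nat_lit 280) (nat_lit 277)) (XT.lf (nat_lit 0) (nat_lit 2772570354) (nat_lit 152) (nat_lit 29662630639) (nat_lit 0) (nat_lit 1976346306) (nat_lit 4) (nat_lit 5) (nat_lit 6) (nat_lit 4) (nat_lit 4) (nat_lit 4) (nat_lit 344) (nat_lit 280) (nat_lit 276))))))))
noncomputable def xc41 : XT := (XT.nd (nat_lit 1326) (nat_lit 0) (nat_lit 0) (XT.nd (nat_lit 624) (nat_lit 152) (nat_lit 0) (XT.nd (nat_lit 312) (nat_lit 76) (nat_lit 0) (XT.nd (nat_lit 156) (nat_lit 0) (nat_lit 0) (XT.nd (nat_lit 78) (nat_lit 0) (nat_lit 0) (XT.lf (nat_lit 0) (nat_lit 7186597785) (nat_lit 152) (nat_lit 23394732081) (nat_lit 0) (nat_lit 6226763848) (nat_lit 4) (nat_lit 5) (nat_lit 6) (nat_lit 4) (nat_lit 4) (nat_lit 4) (nat_lit 345) (nat_lit 280) (nat_lit 275)) (XT.lf (nat_lit 0) (nat_lit 11761330265) (nat_lit 152) (nat_lit 17000498001) (nat_lit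 0) (nat_lit 10650005689) (nat_lit 4) (nat_lit 5) (nat_lit 6) (nat_lit 4) (nat_lit 4) (nat_lit 4) (nat_lit 346) (nat_lit 280) (nat_lit 274))) (XT.nd (nat_lit 78) (nat_lit 0) (nat_lit 0) (XT.lf (nat_lit 0) (nat_lit 16523877320) (nat_lit 152) (nat_lit 10442036643) (nat_lit 0) (nat_lit 15272283634) (nat_lit 4) (nat_lit 5) (nat_lit 6) (nat_lit 4) (nat_lit 4) (nat_lit 4) (nat_lit 347) (nat_lit 280) (nat_lit 273)) (XT.lf (nat_lit 0) (nat_lit 21502461451) (nat_lit 152) (nat_lit 3680483051) (nat_lit 0) (nat_lit 20120988959) (nat_lit 4) (nat_lit 5) (nat_lit 6) (nat_lit 4) (nat_lit 4) (nat_lit 4) (nat_lit 348) (nat_lit 280) (nat_lit 272)))) (XT.nd (nat_lit 156) (nat_lit 0) (nat_lit 0) (XT.nd (nat_lit 78) (nat_lit 0) (nat_lit 0) (XT.lf (nat_lit 0) (nat_lit 3499279368) (nat_lit 76) (nat_lit 23311463763) (nat_lit 76) (nat_lit 21809733118) (nat_lit 3) (nat_lit 4) (nat_lit 4) (nat_lit 5) (nat_lit 4)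 (nat_lit 4) (nat_lit 349) (nat_lit 280) (nat_lit 271)) (XT.lf (nat_lit 0) (nat_lit 11172509845) (nat_lit 76) (nat_lit 21323396160) (nat_lit 76) (nat_lit 19710315372) (nat_lit 3) (nat_lit 4) (nat_lit 4) (nat_lit 5) (nat_lit 4) (nat_lit 4) (nat_lit 350) (nat_lit 280) (nat_lit 270))) (XT.nd (nat_lit 78) (nat_lit 0) (nat_lit 0) (XT.lf (nat_lit 0) (nat_lit 19190871660) (nat_lit 76) (nat_lit 19307591478) (nat_lit 76) (nat_lit 17591408708) (nat_lit 3) (nat_lit 4) (nat_lit 4) (nat_lit 5) (nat_lit 4) (nat_lit 4) (nat_lit 351) (nat_lit 280) (nat_lit 269)) (XT.lf (nat_lit 0) (nat_lit 27601881031) (nat_lit 76) (nat_lit 17252104211) (nat_lit 76) (nat_lit 15440456641) (nat_lit 3) (nat_lit 4) (nat_lit 4) (nat_lit 5) (nat_lit 4) (nat_lit 4) (nat_lit 352) (nat_lit 280) (nat_lit 268))))) (XT.nd (nat_lit 312) (nat_lit 152) (nat_lit 0) (XT.nd (nat_lit 156) (nat_lit 0) (nat_lit 0) (XT.nd (nat_lit 78) (nat_lit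 0) (nat_lit 0) (XT.lf (nat_lit 0) (nat_lit 36455380977) (nat_lit 76) (nat_lit 15144753691) (nat_lit 76) (nat_lit 13244712788) (nat_lit 3) (nat_lit 4) (nat_lit 4) (nat_lit 5) (nat_lit 4) (nat_lit 4) (nat_lit 353) (nat_lit 280) (nat_lit 267)) (XT.lf (nat_lit 0) (nat_lit 45803836682) (nat_lit 76) (nat_lit 12973051916) (nat_lit 76) (nat_lit 10991165335) (nat_lit 3) (nat_lit 4) (nat_lit 4) (nat_lit 5) (nat_lit 4) (nat_lit 4) (nat_lit 354) (nat_lit 280) (nat_lit 266))) (XT.nd (nat_lit 78) (nat_lit 0) (nat_lit 0) (XT.lf (nat_lit 0) (nat_lit 55702646403) (nat_lit 76) (nat_lit 10724129543) (nat_lit 76) (nat_lit 8666459926) (nat_lit 3) (nat_lit 4) (nat_lit 4) (nat_lit 5) (nat_lit 4) (nat_lit 4) (nat_lit 355) (nat_lit 280) (nat_lit 265)) (XT.lf (nat_lit 0) (nat_lit 66210469752) (nat_lit 76) (nat_lit 8384659624) (nat_lit 76) (nat_lit 6256820529) (nat_lit 3) (nat_lit 4) (nat_lit 4) (nat_lit 5) (nat_lit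 4) (nat_lit 4) (nat_lit 356) (nat_lit 280) (nat_lit 264)))) (XT.nd (nat_lit 156) (nat_lit 152) (nat_lit 0) (XT.nd (nat_lit 78) (nat_lit 0) (nat_lit 0) (XT.lf (nat_lit 0) (nat_lit 77389575313) (nat_lit 76) (nat_lit 5940778632) (nat_lit 76) (nat_lit 3747967800) (nat_lit 3) (nat_lit 4) (nat_lit 4) (nat_lit 5) (nat_lit 4) (nat_lit 4) (nat_lit 357) (nat_lit 280) (nat_lit 263)) (XT.lf (nat_lit 0) (nat_lit 89306209637) (nat_lit 76) (nat_lit 3378004312) (nat_lit 76) (nat_lit 1125034462) (nat_lit 3) (nat_lit 4) (nat_lit 4) (nat_lit 5) (nat_lit 4) (nat_lit 4) (nat_lit 358) (nat_lit 280) (nat_lit 262))) (XT.nd (nat_lit 78) (nat_lit 0) (nat_lit 0) (XT.lf (nat_lit 0) (nat_lit 955004152) (nat_lit 76) (nat_lit 614071229) (nat_lit 152) (nat_lit 99510572707) (nat_lit 1) (nat_lit 5) (nat_lit 2) (nat_lit 5) (nat_lit 3) (nat_lit 4) (nat_lit 359) (nat_lit 280) (nat_lit 261)) (XT.nd (nat_lit 78) (nat_lit 0)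 (nat_lit 0) (XT.lf (nat_lit 0) (nat_lit 4525505024) (nat_lit 152) (nat_lit 102055166404) (nat_lit 0) (nat_lit 2340089003) (nat_lit 1) (nat_lit 5) (nat_lit 3) (nat_lit 4) (nat_lit 1) (nat_lit 4) (nat_lit 360) (nat_lit 280) (nat_lit 260)) (XT.lf (nat_lit 0) (nat_lit 7664242496) (nat_lit 152) (nat_lit 104294670388) (nat_lit 0) (nat_lit 5434607801) (nat_lit 1) (nat_lit 5) (nat_lit 3) (nat_lit 4) (nat_lit 1) (nat_lit 4) (nat_lit 361) (nat_lit 280) (nat_lit 259))))))) (XT.nd (nat_lit 624) (nat_lit 0) (nat_lit 0) (XT.nd (nat_lit 312) (nat_lit 0) (nat_lit 0) (XT.nd (nat_lit 156) (nat_lit 0) (nat_lit 0) (XT.nd (nat_lit 78) (nat_lit 0) (nat_lit 0) (XT.lf (nat_lit 0) (nat_lit 10989119296) (nat_lit 152) (nat_lit 106841658595) (nat_lit 0) (nat_lit 8718541384) (nat_lit 1) (nat_lit 5) (nat_lit 3) (nat_lit 4) (nat_lit 1) (nat_lit 4) (nat_lit 362) (nat_lit 280) (nat_lit 258)) (XT.lf (nat_lit 0) (nat_lit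 14519838396) (nat_lit 152) (nat_lit 109711224289) (nat_lit 0) (nat_lit 12211350099) (nat_lit 1) (nat_lit 5) (nat_lit 3) (nat_lit 4) (nat_lit 1) (nat_lit 4) (nat_lit 363) (nat_lit 280) (nat_lit 257))) (XT.nd (nat_lit 78) (nat_lit 0) (nat_lit 0) (XT.lf (nat_lit 0) (nat_lit 18277322577) (nat_lit 152) (nat_lit 112920372304) (nat_lit 0) (nat_lit 15933732072) (nat_lit 1) (nat_lit 5) (nat_lit 3) (nat_lit 4) (nat_lit 1) (nat_lit 4) (nat_lit 364) (nat_lit 280) (nat_lit 256)) (XT.lf (nat_lit 0) (nat_lit 22283838412) (nat_lit 152) (nat_lit 116488119812) (nat_lit 0) (nat_lit 19907745862) (nat_lit 1) (nat_lit 5) (nat_lit 3) (nat_lit 4) (nat_lit 1) (nat_lit 4) (nat_lit 365) (nat_lit 280) (nat_lit 255)))) (XT.nd (nat_lit 156) (nat_lit 0) (nat_lit 0) (XT.nd (nat_lit 78) (nat_lit 0) (nat_lit 0) (XT.lf (nat_lit 0) (nat_lit 26563128217) (nat_lit 152) (nat_lit 120435609021) (nat_lit 0) (nat_lit 24156941181)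 (nat_lit 1) (nat_lit 5) (nat_lit 3) (nat_lit 4) (nat_lit 1) (nat_lit 4) (nat_lit 366) (nat_lit 280) (nat_lit 254)) (XT.lf (nat_lit 0) (nat_lit 31140550746) (nat_lit 152) (nat_lit 124786232461) (nat_lit 0) (nat_lit 28706498445) (nat_lit 1) (nat_lit 5) (nat_lit 3) (nat_lit 4) (nat_lit 1) (nat_lit 4) (nat_lit 367) (nat_lit 280) (nat_lit 253))) (XT.nd (nat_lit 78) (nat_lit 0) (nat_lit 0) (XT.lf (nat_lit 0) (nat_lit 36043231466) (nat_lit 152) (nat_lit 129565771603) (nat_lit 0) (nat_lit 33583377994) (nat_lit 1) (nat_lit 5) (nat_lit 3) (nat_lit 4) (nat_lit 1) (nat_lit 4) (nat_lit 368) (nat_lit 280) (nat_lit 252)) (XT.lf (nat_lit 0) (nat_lit 41300223300) (nat_lit 152) (nat_lit 134802549642) (nat_lit 0) (nat_lit 38816479854) (nat_lit 1) (nat_lit 5) (nat_lit 3) (nat_lit 4) (nat_lit 1) (nat_lit 4) (nat_lit 369) (nat_lit 280) (nat_lit 251))))) (XT.nd (nat_lit 312) (nat_lit 0) (nat_lit 0) (XT.nd (nat_lit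 156) (nat_lit 0) (nat_lit 0) (XT.nd (nat_lit 78) (nat_lit 0) (nat_lit 0) (XT.lf (nat_lit 0) (nat_lit 46942678792) (nat_lit 152) (nat_lit 140527599337) (nat_lit 0) (nat_lit 44436815001) (nat_lit 1) (nat_lit 5) (nat_lit 3) (nat_lit 4) (nat_lit 1) (nat_lit 4) (nat_lit 370) (nat_lit 280) (nat_lit 250)) (XT.lf (nat_lit 0) (nat_lit 53004034716) (nat_lit 152) (nat_lit 146774846908) (nat_lit 0) (nat_lit 50477689122) (nat_lit 1) (nat_lit 5) (nat_lit 3) (nat_lit 4) (nat_lit 1) (nat_lit 4) (nat_lit 371) (nat_lit 280) (nat_lit 249))) (XT.nd (nat_lit 78) (nat_lit 0) (nat_lit 0) (XT.lf (nat_lit 0) (nat_lit 59520210217) (nat_lit 152) (nat_lit 153581313081) (nat_lit 0) (nat_lit 56974899992) (nat_lit 1) (nat_lit 5) (nat_lit 3) (nat_lit 4) (nat_lit 1) (nat_lit 4) (nat_lit 372) (nat_lit 280) (nat_lit 248)) (XT.lf (nat_lit 0) (nat_lit 66529819668) (nat_lit 152) (nat_lit 160987332472) (nat_lit 0) (nat_lit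 63966949601) (nat_lit 1) (nat_lit 5) (nat_lit 3) (nat_lit 4) (nat_lit 1) (nat_lit 4) (nat_lit 373) (nat_lit 280) (nat_lit 247)))) (XT.nd (nat_lit 156) (nat_lit 0) (nat_lit 0) (XT.nd (nat_lit 78) (nat_lit 0) (nat_lit 0) (XT.lf (nat_lit 0) (nat_lit 74074401498) (nat_lit 152) (nat_lit 169036792602) (nat_lit 0) (nat_lit 71495272315) (nat_lit 1) (nat_lit 5) (nat_lit 3) (nat_lit 4) (nat_lit 1) (nat_lit 4) (nat_lit 374) (nat_lit 280) (nat_lit 246)) (XT.lf (nat_lit 0) (nat_lit 82198664337) (nat_lit 152) (nat_lit 177777393976) (nat_lit 0) (nat_lit 79604480419) (nat_lit 1) (nat_lit 5) (nat_lit 3) (nat_lit 4) (nat_lit 1) (nat_lit 4) (nat_lit 375) (nat_lit 280) (nat_lit 245))) (XT.nd (nat_lit 78) (nat_lit 0) (nat_lit 0) (XT.lf (nat_lit 0) (nat_lit 90950751967) (nat_lit 152) (nat_lit 187260932750) (nat_lit 0) (nat_lit 88342628479) (nat_lit 1) (nat_lit 5) (nat_lit 3) (nat_lit 4) (nat_lit 1) (nat_lit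 4) (nat_lit 376) (nat_lit 280) (nat_lit 244)) (XT.nd (nat_lit 78) (nat_lit 0) (nat_lit 0) (XT.lf (nat_lit 0) (nat_lit 100382528609) (nat_lit 152) (nat_lit 197543607672) (nat_lit 0) (nat_lit 97761498112) (nat_lit 1) (nat_lit 5) (nat_lit 3) (nat_lit 4) (nat_lit 1) (nat_lit 4) (nat_lit 377) (nat_lit 280) (nat_lit 243)) (XT.lf (nat_lit 0) (nat_lit 110549886275) (nat_lit 152) (nat_lit 208686353113) (nat_lit 0) (nat_lit 107916904843) (nat_lit 1) (nat_lit 5) (nat_lit 3) (nat_lit 4) (nat_lit 1) (nat_lit 4) (nat_lit 378) (nat_lit 280) (nat_lit 242))))))))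
noncomputable def xc42 : XT := (XT.nd (nat_lit 1326) (nat_lit 0) (nat_lit 0) (XT.nd (nat_lit 624) (nat_lit 0) (nat_lit 0) (XT.nd (nat_lit 312) (nat_lit 0) (nat_lit 0) (XT.nd (nat_lit 156) (nat_lit 0) (nat_lit 0) (XT.nd (nat_lit 78) (nat_lit 0) (nat_lit 0) (XT.lf (nat_lit 0) (nat_lit 121513075972) (nat_lit 152) (nat_lit 220755200156) (nat_lit 0) (nat_lit 118869028860) (nat_lit 1) (nat_lit 5) (nat_lit 3) (nat_lit 4) (nat_lit 1) (nat_lit 4) (nat_lit 379) (nat_lit 280) (nat_lit 241)) (XT.lf (nat_lit 0) (nat_lit 133337064750) (nat_lit 152) (nat_lit 233821667895) (nat_lit 0) (nat_lit 130682771638) (nat_lit 1) (nat_lit 5) (nat_lit 3) (nat_lit 4) (nat_lit 1) (nat_lit 4) (nat_lit 380) (nat_lit 280) (nat_lit 240))) (XT.nd (nat_lit 78) (nat_lit 0) (nat_lit 0) (XT.lf (nat_lit 0) (nat_lit 146091920691) (nat_lit 152) (nat_lit 247963187250) (nat_lit 0) (nat_lit 143428140542) (nat_lit 1) (nat_lit 5)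 (nat_lit 3) (nat_lit 4) (nat_lit 1) (nat_lit 4) (nat_lit 381) (nat_lit 280) (nat_lit 239)) (XT.lf (nat_lit 0) (nat_lit 159853228127) (nat_lit 152) (nat_lit 263263559817) (nat_lit 0) (nat_lit 157180663684) (nat_lit 1) (nat_lit 5) (nat_lit 3) (nat_lit 4) (nat_lit 1) (nat_lit 4) (nat_lit 382) (nat_lit 280) (nat_lit 238)))) (XT.nd (nat_lit 156) (nat_lit 0) (nat_lit 0) (XT.nd (nat_lit 78) (nat_lit 0) (nat_lit 0) (XT.lf (nat_lit 0) (nat_lit 174702535545) (nat_lit 152) (nat_lit 279813454470) (nat_lit 0) (nat_lit 172021837498) (nat_lit 1) (nat_lit 5) (nat_lit 3) (nat_lit 4) (nat_lit 1) (nat_lit 4) (nat_lit 383) (nat_lit 280) (nat_lit 237)) (XT.lf (nat_lit 0) (nat_lit 190727838843) (nat_lit 152) (nat_lit 297710944660) (nat_lit 0) (nat_lit 188039609679) (nat_lit 1) (nat_lit 5) (nat_lit 3) (nat_lit 4) (nat_lit 1) (nat_lit 4) (nat_lit 384) (nat_lit 280) (nat_lit 236))) (XT.nd (nat_lit 78) (nat_lit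 0) (nat_lit 0) (XT.lf (nat_lit 0) (nat_lit 208024102779) (nat_lit 152) (nat_lit 317062089588) (nat_lit 0) (nat_lit 205328900360) (nat_lit 1) (nat_lit 5) (nat_lit 3) (nat_lit 4) (nat_lit 1) (nat_lit 4) (nat_lit 385) (nat_lit 280) (nat_lit 235)) (XT.lf (nat_lit 0) (nat_lit 226693823733) (nat_lit 152) (nat_lit 337981562704) (nat_lit 0) (nat_lit 223992164596) (nat_lit 1) (nat_lit 5) (nat_lit 3) (nat_lit 4) (nat_lit 1) (nat_lit 4) (nat_lit 386) (nat_lit 280) (nat_lit 234))))) (XT.nd (nat_lit 312) (nat_lit 0) (nat_lit 0) (XT.nd (nat_lit 156) (nat_lit 0) (nat_lit 0) (XT.nd (nat_lit 78) (nat_lit 0) (nat_lit 0) (XT.lf (nat_lit 0) (nat_lit 246847637089) (nat_lit 152) (nat_lit 360593331257) (nat_lit 0) (nat_lit 244139999509) (nat_lit 1) (nat_lit 5) (nat_lit 3) (nat_lit 4) (nat_lit 1) (nat_lit 4) (nat_lit 387) (nat_lit 280) (nat_lit 233)) (XT.lf (nat_lit 0) (nat_lit 268604972851) (nat_lit 152) (nat_lit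 385031390913) (nat_lit 0) (nat_lit 265891799676) (nat_lit 1) (nat_lit 5) (nat_lit 3) (nat_lit 4) (nat_lit 1) (nat_lit 4) (nat_lit 388) (nat_lit 280) (nat_lit 232))) (XT.nd (nat_lit 78) (nat_lit 0) (nat_lit 0) (XT.lf (nat_lit 0) (nat_lit 292094763380) (nat_lit 152) (nat_lit 411440559802) (nat_lit 0) (nat_lit 289376464654) (nat_lit 1) (nat_lit 5) (nat_lit 3) (nat_lit 4) (nat_lit 1) (nat_lit 4) (nat_lit 389) (nat_lit 280) (nat_lit 231)) (XT.lf (nat_lit 0) (nat_lit 317456207434) (nat_lit 152) (nat_lit 439977336704) (nat_lit 0) (nat_lit 314733162827) (nat_lit 1) (nat_lit 5) (nat_lit 3) (nat_lit 4) (nat_lit 1) (nat_lit 4) (nat_lit 390) (nat_lit 280) (nat_lit 230)))) (XT.nd (nat_lit 156) (nat_lit 0) (nat_lit 0) (XT.nd (nat_lit 78) (nat_lit 0) (nat_lit 0) (XT.lf (nat_lit 0) (nat_lit 344839595052) (nat_lit 152) (nat_lit 470810828445) (nat_lit 0) (nat_lit 342112156111) (nat_lit 1) (nat_lit 5) (nat_lit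 3) (nat_lit 4) (nat_lit 1) (nat_lit 4) (nat_lit 391) (nat_lit 280) (nat_lit 229)) (XT.lf (nat_lit 0) (nat_lit 374407198160) (nat_lit 152) (nat_lit 504123752012) (nat_lit 0) (nat_lit 371675690392) (nat_lit 1) (nat_lit 5) (nat_lit 3) (nat_lit 4) (nat_lit 1) (nat_lit 4) (nat_lit 392) (nat_lit 280) (nat_lit 228))) (XT.nd (nat_lit 78) (nat_lit 0) (nat_lit 0) (XT.lf (nat_lit 0) (nat_lit 406334232185) (nat_lit 152) (nat_lit 540113517323) (nat_lit 0) (nat_lit 403598956984) (nat_lit 1) (nat_lit 5) (nat_lit 3) (nat_lit 4) (nat_lit 1) (nat_lit 4) (nat_lit 393) (nat_lit 280) (nat_lit 227)) (XT.nd (nat_lit 78) (nat_lit 0) (nat_lit 0) (XT.lf (nat_lit 0) (nat_lit 440809894365) (nat_lit 152) (nat_lit 578993397061) (nat_lit 0) (nat_lit 438071130801) (nat_lit 1) (nat_lit 5) (nat_lit 3) (nat_lit 4) (nat_lit 1) (nat_lit 4) (nat_lit 394) (nat_lit 280) (nat_lit 226)) (XT.lf (nat_lit 0) (nat_lit 478038484921)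 (nat_lit 152) (nat_lit 620993790514) (nat_lit 0) (nat_lit 475296491390) (nat_lit 1) (nat_lit 5) (nat_lit 3) (nat_lit 4) (nat_lit 1) (nat_lit 4) (nat_lit 395) (nat_lit 280) (nat_lit 225))))))) (XT.nd (nat_lit 624) (nat_lit 0) (nat_lit 0) (XT.nd (nat_lit 312) (nat_lit 0) (nat_lit 0) (XT.nd (nat_lit 156) (nat_lit 0) (nat_lit 0) (XT.nd (nat_lit 78) (nat_lit 0) (nat_lit 0) (XT.lf (nat_lit 0) (nat_lit 518240617722) (nat_lit 152) (nat_lit 666363588902) (nat_lit 0) (nat_lit 515495633481) (nat_lit 1) (nat_lit 5) (nat_lit 3) (nat_lit 4) (nat_lit 1) (nat_lit 4) (nat_lit 396) (nat_lit 280) (nat_lit 224)) (XT.lf (nat_lit 0) (nat_lit 561654527630) (nat_lit 152) (nat_lit 715371650290) (nat_lit 0) (nat_lit 558906774213) (nat_lit 1) (nat_lit 5) (nat_lit 3) (nat_lit 4) (nat_lit 1) (nat_lit 4) (nat_lit 397) (nat_lit 280) (nat_lit 223))) (XT.nd (nat_lit 78) (nat_lit 0) (nat_lit 0) (XT.lf (nat_lit 0) (nat_lit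 608537482258) (nat_lit 152) (nat_lit 768308392819) (nat_lit 0) (nat_lit 605787164790) (nat_lit 1) (nat_lit 5) (nat_lit 3) (nat_lit 4) (nat_lit 1) (nat_lit 4) (nat_lit 398) (nat_lit 280) (nat_lit 222)) (XT.lf (nat_lit 0) (nat_lit 659167306524) (nat_lit 152) (nat_lit 825487515704) (nat_lit 0) (nat_lit 656414614934) (nat_lit 1) (nat_lit 5) (nat_lit 3) (nat_lit 4) (nat_lit 1) (nat_lit 4) (nat_lit 399) (nat_lit 280) (nat_lit 221)))) (XT.nd (nat_lit 156) (nat_lit 0) (nat_lit 0) (XT.nd (nat_lit 78) (nat_lit 0) (nat_lit 0) (XT.lf (nat_lit 0) (nat_lit 713844029015) (nat_lit 152) (nat_lit 887247858192) (nat_lit 0) (nat_lit 711089139164) (nat_lit 1) (nat_lit 5) (nat_lit 3) (nat_lit 4) (nat_lit 1) (nat_lit 4) (nat_lit 400) (nat_lit 280) (nat_lit 220)) (XT.lf (nat_lit 0) (nat_lit 772891659938) (nat_lit 152) (nat_lit 953955407498) (nat_lit 0) (nat_lit 770134734660) (nat_lit 1) (nat_lit 5) (nat_lit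 3) (nat_lit 4) (nat_lit 1) (nat_lit 4) (nat_lit 401) (nat_lit 280) (nat_lit 219))) (XT.nd (nat_lit 78) (nat_lit 0) (nat_lit 0) (XT.lf (nat_lit 0) (nat_lit 836660111181) (nat_lit 152) (nat_lit 1026005467617) (nat_lit 0) (nat_lit 833901301249) (nat_lit 1) (nat_lit 5) (nat_lit 3) (nat_lit 4) (nat_lit 1) (nat_lit 4) (nat_lit 402) (nat_lit 280) (nat_lit 218)) (XT.lf (nat_lit 0) (nat_lit 905527269862) (nat_lit 152) (nat_lit 1103825001869) (nat_lit 0) (nat_lit 902766714880) (nat_lit 1) (nat_lit 5) (nat_lit 3) (nat_lit 4) (nat_lit 1) (nat_lit 4) (nat_lit 403) (nat_lit 280) (nat_lit 217))))) (XT.nd (nat_lit 312) (nat_lit 0) (nat_lit 0) (XT.nd (nat_lit 156) (nat_lit 0) (nat_lit 0) (XT.nd (nat_lit 78) (nat_lit 0) (nat_lit 0) (XT.lf (nat_lit 0) (nat_lit 979901237663) (nat_lit 152) (nat_lit 1187875163050) (nat_lit 0) (nat_lit 977139066892) (nat_lit 1) (nat_lit 5) (nat_lit 3) (nat_lit 4) (nat_lit 1)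 (nat_lit 4) (nat_lit 404) (nat_lit 280) (nat_lit 216)) (XT.lf (nat_lit 0) (nat_lit 1060222749206) (nat_lit 152) (nat_lit 1278654026188) (nat_lit 0) (nat_lit 1057459082337) (nat_lit 1) (nat_lit 5) (nat_lit 3) (nat_lit 4) (nat_lit 1) (nat_lit 4) (nat_lit 405) (nat_lit 280) (nat_lit 215))) (XT.nd (nat_lit 78) (nat_lit 0) (nat_lit 0) (XT.lf (nat_lit 0) (nat_lit 1146967783820) (nat_lit 152) (nat_lit 1376699540102) (nat_lit 0) (nat_lit 1144202731674) (nat_lit 1) (nat_lit 5) (nat_lit 3) (nat_lit 4) (nat_lit 1) (nat_lit 4) (nat_lit 406) (nat_lit 280) (nat_lit 214)) (XT.lf (nat_lit 0) (nat_lit 1240650386155) (nat_lit 152) (nat_lit 1482592715245) (nat_lit 0) (nat_lit 1237884051344) (nat_lit 1) (nat_lit 5) (nat_lit 3) (nat_lit 4) (nat_lit 1) (nat_lit 4) (nat_lit 407) (nat_lit 280) (nat_lit 213)))) (XT.nd (nat_lit 156) (nat_lit 0) (nat_lit 0) (XT.nd (nat_lit 78) (nat_lit 0) (nat_lit 0) (XT.lf (nat_lit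 0) (nat_lit 1341825712372) (nat_lit 152) (nat_lit 1596961066729) (nat_lit 0) (nat_lit 1339058189909) (nat_lit 1) (nat_lit 5) (nat_lit 3) (nat_lit 4) (nat_lit 1) (nat_lit 4) (nat_lit 408) (nat_lit 280) (nat_lit 212)) (XT.lf (nat_lit 0) (nat_lit 1451093319961) (nat_lit 152) (nat_lit 1720482332933) (nat_lit 0) (nat_lit 1448324697820) (nat_lit 1) (nat_lit 5) (nat_lit 3) (nat_lit 4) (nat_lit 1) (nat_lit 4) (nat_lit 409) (nat_lit 280) (nat_lit 211))) (XT.nd (nat_lit 78) (nat_lit 0) (nat_lit 0) (XT.lf (nat_lit 0) (nat_lit 1569100720669) (nat_lit 152) (nat_lit 1853888491731) (nat_lit 0) (nat_lit 1566331080308) (nat_lit 1) (nat_lit 5) (nat_lit 3) (nat_lit 4) (nat_lit 1) (nat_lit 4) (nat_lit 410) (nat_lit 280) (nat_lit 210)) (XT.nd (nat_lit 78) (nat_lit 0) (nat_lit 0) (XT.lf (nat_lit 0) (nat_lit 1696547217612) (nat_lit 152) (nat_lit 1997970098138) (nat_lit 0) (nat_lit 1693776634454) (nat_lit 1)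 (nat_lit 5) (nat_lit 3) (nat_lit 4) (nat_lit 1) (nat_lit 4) (nat_lit 411) (nat_lit 280) (nat_lit 209)) (XT.lf (nat_lit 0) (nat_lit 1834188049290) (nat_lit 152) (nat_lit 2153580969081) (nat_lit 0) (nat_lit 1831416593173) (nat_lit 1) (nat_lit 5) (nat_lit 3) (nat_lit 4) (nat_lit 1) (nat_lit 4) (nat_lit 412) (nat_lit 280) (nat_lit 208))))))))
noncomputable def xc43 : XT := (XT.nd (nat_lit 42198) (nat_lit 0) (nat_lit 0) (XT.nd (nat_lit 41496) (nat_lit 0) (nat_lit 152) (XT.nd (nat_lit 41184) (nat_lit 0) (nat_lit 380) (XT.nd (nat_lit 41028) (nat_lit 0) (nat_lit 456) (XT.nd (nat_lit 78) (nat_lit 0) (nat_lit 0) (XT.lf (nat_lit 0) (nat_lit 1982838865077) (nat_lit 152) (nat_lit 2321643243055) (nat_lit 0) (nat_lit 1980066600664) (nat_lit 1) (nat_lit 5) (nat_lit 3) (nat_lit 4) (nat_lit 1) (nat_lit 4) (nat_lit 413) (nat_lit 280) (nat_lit 207)) (XT.lf (nat_lit 0) (nat_lit 2143380558696) (nat_lit 152)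 (nat_lit 2503152844645) (nat_lit 0) (nat_lit 2140607545860) (nat_lit 1) (nat_lit 5) (nat_lit 3) (nat_lit 4) (nat_lit 1) (nat_lit 4) (nat_lit 414) (nat_lit 280) (nat_lit 206))) (XT.nd (nat_lit 78) (nat_lit 0) (nat_lit 0) (XT.lf (nat_lit 0) (nat_lit 1548193269) (nat_lit 152) (nat_lit 8628860650) (nat_lit 0) (nat_lit 1548193269) (nat_lit 7) (nat_lit 5) (nat_lit 9) (nat_lit 4) (nat_lit 7) (nat_lit 4) (nat_lit 338) (nat_lit 281) (nat_lit 281)) (XT.lf (nat_lit 0) (nat_lit 8087688610) (nat_lit 152) (nat_lit 9006368159) (nat_lit 0) (nat_lit 7828060277) (nat_lit 7) (nat_lit 5) (nat_lit 9) (nat_lit 4) (nat_lit 7) (nat_lit 4) (nat_lit 339) (nat_lit 281) (nat_lit 280)))) (XT.nd (nat_lit 156) (nat_lit 0) (nat_lit 0) (XT.nd (nat_lit 78) (nat_lit 76) (nat_lit 0) (XT.lf (nat_lit 0) (nat_lit 13233337073) (nat_lit 152) (nat_lit 564538725) (nat_lit 0) (nat_lit 12733312134) (nat_lit 7) (nat_lit 5) (nat_lit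 9) (nat_lit 4) (nat_lit 7) (nat_lit 4) (nat_lit 340) (nat_lit 281) (nat_lit 279)) (XT.lf (nat_lit 0) (nat_lit 8545261231) (nat_lit 76) (nat_lit 10224077164) (nat_lit 76) (nat_lit 9501462776) (nat_lit 6) (nat_lit 4) (nat_lit 7) (nat_lit 5) (nat_lit 7) (nat_lit 4) (nat_lit 341) (nat_lit 281) (nat_lit 278))) (XT.nd (nat_lit 78) (nat_lit 0) (nat_lit 0) (XT.lf (nat_lit 0) (nat_lit 17992115316) (nat_lit 76) (nat_lit 6551334929) (nat_lit 76) (nat_lit 5622619200) (nat_lit 6) (nat_lit 4) (nat_lit 7) (nat_lit 5) (nat_lit 7) (nat_lit 4) (nat_lit 342) (nat_lit 281) (nat_lit 277)) (XT.lf (nat_lit 0) (nat_lit 27802277276) (nat_lit 76) (nat_lit 2773320185) (nat_lit 76) (nat_lit 1653769880) (nat_lit 6) (nat_lit 4) (nat_lit 7) (nat_lit 5) (nat_lit 7) (nat_lit 4) (nat_lit 343) (nat_lit 281) (nat_lit 276))))) (XT.nd (nat_lit 312) (nat_lit 76) (nat_lit 0) (XT.nd (nat_lit 156) (nat_lit 0) (nat_lit 0) (XT.nd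 (nat_lit 78) (nat_lit 0) (nat_lit 0) (XT.lf (nat_lit 0) (nat_lit 2426841296) (nat_lit 152) (nat_lit 30805219073) (nat_lit 0) (nat_lit 1226610753) (nat_lit 4) (nat_lit 5) (nat_lit 6) (nat_lit 4) (nat_lit 4) (nat_lit 4) (nat_lit 344) (nat_lit 281) (nat_lit 275)) (XT.lf (nat_lit 0) (nat_lit 6748360484) (nat_lit 152) (nat_lit 24717655305) (nat_lit 0) (nat_lit 5396639303) (nat_lit 4) (nat_lit 5) (nat_lit 6) (nat_lit 4) (nat_lit 4) (nat_lit 4) (nat_lit 345) (nat_lit 281) (nat_lit 274))) (XT.nd (nat_lit 78) (nat_lit 0) (nat_lit 0) (XT.lf (nat_lit 0) (nat_lit 11237437184) (nat_lit 152) (nat_lit 18490397883) (nat_lit 0) (nat_lit 9745446892) (nat_lit 4) (nat_lit 5) (nat_lit 6) (nat_lit 4) (nat_lit 4) (nat_lit 4) (nat_lit 346) (nat_lit 281) (nat_lit 273)) (XT.lf (nat_lit 0) (nat_lit 15920673331) (nat_lit 152) (nat_lit 12086544541) (nat_lit 0) (nat_lit 14298804234) (nat_lit 4) (nat_lit 5) (nat_lit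 6) (nat_lit 4) (nat_lit 4) (nat_lit 4) (nat_lit 347) (nat_lit 281) (nat_lit 272)))) (XT.nd (nat_lit 156) (nat_lit 0) (nat_lit 0) (XT.nd (nat_lit 78) (nat_lit 76) (nat_lit 0) (XT.lf (nat_lit 0) (nat_lit 20825821436) (nat_lit 152) (nat_lit 5468146519) (nat_lit 0) (nat_lit 19083694186) (nat_lit 4) (nat_lit 5) (nat_lit 6) (nat_lit 4) (nat_lit 4) (nat_lit 4) (nat_lit 348) (nat_lit 281) (nat_lit 271)) (XT.lf (nat_lit 0) (nat_lit 1477949331) (nat_lit 76) (nat_lit 24539544429) (nat_lit 76) (nat_lit 22686067037) (nat_lit 3) (nat_lit 4) (nat_lit 4) (nat_lit 5) (nat_lit 4) (nat_lit 4) (nat_lit 349) (nat_lit 281) (nat_lit 270))) (XT.nd (nat_lit 78) (nat_lit 0) (nat_lit 0) (XT.lf (nat_lit 0) (nat_lit 9021984086) (nat_lit 76) (nat_lit 22614605830) (nat_lit 76) (nat_lit 20658026455) (nat_lit 3) (nat_lit 4) (nat_lit 4) (nat_lit 5) (nat_lit 4) (nat_lit 4) (nat_lit 350) (nat_lit 281) (nat_lit 269)) (XT.nd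 (nat_lit 78) (nat_lit 0) (nat_lit 0) (XT.lf (nat_lit 0) (nat_lit 16920720234) (nat_lit 76) (nat_lit 20657253932) (nat_lit 76) (nat_lit 18605209757) (nat_lit 3) (nat_lit 4) (nat_lit 4) (nat_lit 5) (nat_lit 4) (nat_lit 4) (nat_lit 351) (nat_lit 281) (nat_lit 268)) (XT.lf (nat_lit 0) (nat_lit 25220965097) (nat_lit 76) (nat_lit 18655889611) (nat_lit 76) (nat_lit 16515452103) (nat_lit 3) (nat_lit 4) (nat_lit 4) (nat_lit 5) (nat_lit 4) (nat_lit 4) (nat_lit 352) (nat_lit 281) (nat_lit 267))))))) (XT.nd (nat_lit 702) (nat_lit 0) (nat_lit 0) (XT.nd (nat_lit 312) (nat_lit 152) (nat_lit 0) (XT.nd (nat_lit 156) (nat_lit 0) (nat_lit 0) (XT.nd (nat_lit 78) (nat_lit 0) (nat_lit 0) (XT.lf (nat_lit 0) (nat_lit 33971905314) (nat_lit 76) (nat_lit 16598652931) (nat_lit 76) (nat_lit 14376369745) (nat_lit 3) (nat_lit 4) (nat_lit 4) (nat_lit 5) (nat_lit 4) (nat_lit 4) (nat_lit 353) (nat_lit 281) (nat_lit 266))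 (XT.lf (nat_lit 0) (nat_lit 43225398307) (nat_lit 76) (nat_lit 14473352860) (nat_lit 76) (nat_lit 12175286638) (nat_lit 3) (nat_lit 4) (nat_lit 4) (nat_lit 5) (nat_lit 4) (nat_lit 4) (nat_lit 354) (nat_lit 281) (nat_lit 265))) (XT.nd (nat_lit 78) (nat_lit 0) (nat_lit 0) (XT.lf (nat_lit 0) (nat_lit 53036279591) (nat_lit 76) (nat_lit 12267395027) (nat_lit 76) (nat_lit 9899159328) (nat_lit 3) (nat_lit 4) (nat_lit 4) (nat_lit 5) (nat_lit 4) (nat_lit 4) (nat_lit 355) (nat_lit 281) (nat_lit 264)) (XT.lf (nat_lit 0) (nat_lit 63462687721) (nat_lit 76) (nat_lit 9967707089) (nat_lit 76) (nat_lit 7534499652) (nat_lit 3) (nat_lit 4) (nat_lit 4) (nat_lit 5) (nat_lit 4) (nat_lit 4) (nat_lit 356) (nat_lit 281) (nat_lit 263)))) (XT.nd (nat_lit 156) (nat_lit 152) (nat_lit 0) (XT.nd (nat_lit 78) (nat_lit 0) (nat_lit 0) (XT.lf (nat_lit 0) (nat_lit 74566408819) (nat_lit 76) (nat_lit 7560661266) (nat_lit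 76) (nat_lit 5067294812) (nat_lit 3) (nat_lit 4) (nat_lit 4) (nat_lit 5) (nat_lit 4) (nat_lit 4) (nat_lit 357) (nat_lit 281) (nat_lit 262)) (XT.lf (nat_lit 0) (nat_lit 86413242715) (nat_lit 76) (nat_lit 5031993583) (nat_lit 76) (nat_lit 2482924335) (nat_lit 3) (nat_lit 4) (nat_lit 4) (nat_lit 5) (nat_lit 4) (nat_lit 4) (nat_lit 358) (nat_lit 281) (nat_lit 261))) (XT.nd (nat_lit 78) (nat_lit 76) (nat_lit 0) (XT.lf (nat_lit 0) (nat_lit 222224611) (nat_lit 152) (nat_lit 2138418716) (nat_lit 76) (nat_lit 98845092241) (nat_lit 2) (nat_lit 5) (nat_lit 4) (nat_lit 5) (nat_lit 3) (nat_lit 4) (nat_lit 359) (nat_lit 281) (nat_lit 260)) (XT.nd (nat_lit 78) (nat_lit 0) (nat_lit 0) (XT.lf (nat_lit 0) (nat_lit 3047376750) (nat_lit 152) (nat_lit 105414831525) (nat_lit 0) (nat_lit 595152606) (nat_lit 1) (nat_lit 5) (nat_lit 3) (nat_lit 4) (nat_lit 1) (nat_lit 4) (nat_lit 360) (nat_lit 281) (nat_lit 259))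 (XT.lf (nat_lit 0) (nat_lit 6154883611) (nat_lit 152) (nat_lit 107716029694) (nat_lit 0) (nat_lit 3661716251) (nat_lit 1) (nat_lit 5) (nat_lit 3) (nat_lit 4) (nat_lit 1) (nat_lit 4) (nat_lit 361) (nat_lit 281) (nat_lit 258)))))) (XT.nd (nat_lit 312) (nat_lit 0) (nat_lit 0) (XT.nd (nat_lit 156) (nat_lit 0) (nat_lit 0) (XT.nd (nat_lit 78) (nat_lit 0) (nat_lit 0) (XT.lf (nat_lit 0) (nat_lit 9450843178) (nat_lit 152) (nat_lit 110320142147) (nat_lit 0) (nat_lit 6919765432) (nat_lit 1) (nat_lit 5) (nat_lit 3) (nat_lit 4) (nat_lit 1) (nat_lit 4) (nat_lit 362) (nat_lit 281) (nat_lit 257)) (XT.lf (nat_lit 0) (nat_lit 12954787064) (nat_lit 152) (nat_lit 113242600660) (nat_lit 0) (nat_lit 10388607109) (nat_lit 1) (nat_lit 5) (nat_lit 3) (nat_lit 4) (nat_lit 1) (nat_lit 4) (nat_lit 363) (nat_lit 281) (nat_lit 256))) (XT.nd (nat_lit 78) (nat_lit 0) (nat_lit 0) (XT.lf (nat_lit 0) (nat_lit 16687479379)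 (nat_lit 152) (nat_lit 116500723508) (nat_lit 0) (nat_lit 14088797380) (nat_lit 1) (nat_lit 5) (nat_lit 3) (nat_lit 4) (nat_lit 1) (nat_lit 4) (nat_lit 364) (nat_lit 281) (nat_lit 255)) (XT.lf (nat_lit 0) (nat_lit 20671039783) (nat_lit 152) (nat_lit 120113818083) (nat_lit 0) (nat_lit 18042263297) (nat_lit 1) (nat_lit 5) (nat_lit 3) (nat_lit 4) (nat_lit 1) (nat_lit 4) (nat_lit 365) (nat_lit 281) (nat_lit 254)))) (XT.nd (nat_lit 156) (nat_lit 0) (nat_lit 0) (XT.nd (nat_lit 78) (nat_lit 0) (nat_lit 0) (XT.lf (nat_lit 0) (nat_lit 24929074559) (nat_lit 152) (nat_lit 124103295319) (nat_lit 0) (nat_lit 22272432808) (nat_lit 1) (nat_lit 5) (nat_lit 3) (nat_lit 4) (nat_lit 1) (nat_lit 4) (nat_lit 366) (nat_lit 281) (nat_lit 253)) (XT.lf (nat_lit 0) (nat_lit 29486816505) (nat_lit 152) (nat_lit 128492796560) (nat_lit 0) (nat_lit 26804373584) (nat_lit 1) (nat_lit 5) (nat_lit 3) (nat_lit 4) (nat_lit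 1) (nat_lit 4) (nat_lit 367) (nat_lit 281) (nat_lit 252))) (XT.nd (nat_lit 78) (nat_lit 0) (nat_lit 0) (XT.lf (nat_lit 0) (nat_lit 34371274464) (nat_lit 152) (nat_lit 133308333666) (nat_lit 0) (nat_lit 31664941569) (nat_lit 1) (nat_lit 5) (nat_lit 3) (nat_lit 4) (nat_lit 1) (nat_lit 4) (nat_lit 368) (nat_lit 281) (nat_lit 251)) (XT.nd (nat_lit 78) (nat_lit 0) (nat_lit 0) (XT.lf (nat_lit 0) (nat_lit 39611393371) (nat_lit 152) (nat_lit 138578443153) (nat_lit 0) (nat_lit 36882940130) (nat_lit 1) (nat_lit 5) (nat_lit 3) (nat_lit 4) (nat_lit 1) (nat_lit 4) (nat_lit 369) (nat_lit 281) (nat_lit 250)) (XT.lf (nat_lit 0) (nat_lit 45238225782) (nat_lit 152) (nat_lit 144334355300) (nat_lit 0) (nat_lit 42489290740) (nat_lit 1) (nat_lit 5) (nat_lit 3) (nat_lit 4) (nat_lit 1) (nat_lit 4) (nat_lit 370) (nat_lit 281) (nat_lit 249))))))))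
noncomputable def xc44 : XT := (XT.nd (nat_lit 1326) (nat_lit 0) (nat_lit 0) (XT.nd (nat_lit 624) (nat_lit 0) (nat_lit 0) (XT.nd (nat_lit 312) (nat_lit 0) (nat_lit 0) (XT.nd (nat_lit 156) (nat_lit 0) (nat_lit 0) (XT.nd (nat_lit 78) (nat_lit 0) (nat_lit 0) (XT.lf (nat_lit 0) (nat_lit 51285115890) (nat_lit 152) (nat_lit 150610179216) (nat_lit 0) (nat_lit 48517216217) (nat_lit 1) (nat_lit 5) (nat_lit 3) (nat_lit 4) (nat_lit 1) (nat_lit 4) (nat_lit 371) (nat_lit 281) (nat_lit 248)) (XT.lf (nat_lit 0) (nat_lit 57787897117) (nat_lit 152) (nat_lit 157443104968) (nat_lit 0) (nat_lit 55002437600) (nat_lit 1) (nat_lit 5) (nat_lit 3) (nat_lit 4) (nat_lit 1) (nat_lit 4) (nat_lit 372) (nat_lit 281) (nat_lit 247))) (XT.nd (nat_lit 78) (nat_lit 0) (nat_lit 0) (XT.lf (nat_lit 0) (nat_lit 64785104464) (nat_lit 152) (nat_lit 164873623968) (nat_lit 0) (nat_lit 61983385833) (nat_lit 1) (nat_lit 5) (nat_lit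 3) (nat_lit 4) (nat_lit 1) (nat_lit 4) (nat_lit 373) (nat_lit 281) (nat_lit 246)) (XT.lf (nat_lit 0) (nat_lit 72318202862) (nat_lit 152) (nat_lit 172945768922) (nat_lit 0) (nat_lit 69501429495) (nat_lit 1) (nat_lit 5) (nat_lit 3) (nat_lit 4) (nat_lit 1) (nat_lit 4) (nat_lit 374) (nat_lit 281) (nat_lit 245)))) (XT.nd (nat_lit 156) (nat_lit 0) (nat_lit 0) (XT.nd (nat_lit 78) (nat_lit 0) (nat_lit 0) (XT.lf (nat_lit 0) (nat_lit 80431832896) (nat_lit 152) (nat_lit 181707374763) (nat_lit 0) (nat_lit 77601119959) (nat_lit 1) (nat_lit 5) (nat_lit 3) (nat_lit 4) (nat_lit 1) (nat_lit 4) (nat_lit 375) (nat_lit 281) (nat_lit 244)) (XT.lf (nat_lit 0) (nat_lit 89174075334) (nat_lit 152) (nat_lit 191210362117) (nat_lit 0) (nat_lit 86330455388) (nat_lit 1) (nat_lit 5) (nat_lit 3) (nat_lit 4) (nat_lit 1) (nat_lit 4) (nat_lit 376) (nat_lit 281) (nat_lit 243))) (XT.nd (nat_lit 78) (nat_lit 0) (nat_lit 0)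 (XT.lf (nat_lit 0) (nat_lit 98596736059) (nat_lit 152) (nat_lit 201511044983) (nat_lit 0) (nat_lit 95741165179) (nat_lit 1) (nat_lit 5) (nat_lit 3) (nat_lit 4) (nat_lit 1) (nat_lit 4) (nat_lit 377) (nat_lit 281) (nat_lit 242)) (XT.lf (nat_lit 0) (nat_lit 108755653061) (nat_lit 152) (nat_lit 212670464447) (nat_lit 0) (nat_lit 105889016500) (nat_lit 1) (nat_lit 5) (nat_lit 3) (nat_lit 4) (nat_lit 1) (nat_lit 4) (nat_lit 378) (nat_lit 281) (nat_lit 241))))) (XT.nd (nat_lit 312) (nat_lit 0) (nat_lit 0) (XT.nd (nat_lit 156) (nat_lit 0) (nat_lit 0) (XT.nd (nat_lit 78) (nat_lit 0) (nat_lit 0) (XT.lf (nat_lit 0) (nat_lit 119711027327) (nat_lit 152) (nat_lit 224754750400) (nat_lit 0) (nat_lit 116834144767) (nat_lit 1) (nat_lit 5) (nat_lit 3) (nat_lit 4) (nat_lit 1) (nat_lit 4) (nat_lit 379) (nat_lit 281) (nat_lit 240)) (XT.lf (nat_lit 0) (nat_lit 131527779596) (nat_lit 152) (nat_lit 237835513425)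 (nat_lit 0) (nat_lit 128641409998) (nat_lit 1) (nat_lit 5) (nat_lit 3) (nat_lit 4) (nat_lit 1) (nat_lit 4) (nat_lit 380) (nat_lit 281) (nat_lit 239))) (XT.nd (nat_lit 78) (nat_lit 0) (nat_lit 0) (XT.lf (nat_lit 0) (nat_lit 144275935066) (nat_lit 152) (nat_lit 251990269157) (nat_lit 0) (nat_lit 141380781174) (nat_lit 1) (nat_lit 5) (nat_lit 3) (nat_lit 4) (nat_lit 1) (nat_lit 4) (nat_lit 381) (nat_lit 281) (nat_lit 238)) (XT.lf (nat_lit 0) (nat_lit 158031038361) (nat_lit 152) (nat_lit 267302897629) (nat_lit 0) (nat_lit 155127750864) (nat_lit 1) (nat_lit 5) (nat_lit 3) (nat_lit 4) (nat_lit 1) (nat_lit 4) (nat_lit 382) (nat_lit 281) (nat_lit 237)))) (XT.nd (nat_lit 156) (nat_lit 0) (nat_lit 0) (XT.nd (nat_lit 78) (nat_lit 0) (nat_lit 0) (XT.lf (nat_lit 0) (nat_lit 172874601205) (nat_lit 152) (nat_lit 283864140342) (nat_lit 0) (nat_lit 169963782593) (nat_lit 1) (nat_lit 5) (nat_lit 3) (nat_lit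 4) (nat_lit 1) (nat_lit 4) (nat_lit 383) (nat_lit 281) (nat_lit 236)) (XT.lf (nat_lit 0) (nat_lit 188894585452) (nat_lit 152) (nat_lit 301772137994) (nat_lit 0) (nat_lit 185976793584) (nat_lit 1) (nat_lit 5) (nat_lit 3) (nat_lit 4) (nat_lit 1) (nat_lit 4) (nat_lit 384) (nat_lit 281) (nat_lit 235))) (XT.nd (nat_lit 78) (nat_lit 0) (nat_lit 0) (XT.lf (nat_lit 0) (nat_lit 206185924342) (nat_lit 152) (nat_lit 321133012054) (nat_lit 0) (nat_lit 203261675756) (nat_lit 1) (nat_lit 5) (nat_lit 3) (nat_lit 4) (nat_lit 1) (nat_lit 4) (nat_lit 385) (nat_lit 281) (nat_lit 234)) (XT.nd (nat_lit 78) (nat_lit 0) (nat_lit 0) (XT.lf (nat_lit 0) (nat_lit 224851085068) (nat_lit 152) (nat_lit 342061493626) (nat_lit 0) (nat_lit 221920858039) (nat_lit 1) (nat_lit 5) (nat_lit 3) (nat_lit 4) (nat_lit 1) (nat_lit 4) (nat_lit 386) (nat_lit 281) (nat_lit 233)) (XT.lf (nat_lit 0) (nat_lit 245000675990) (nat_lit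 152) (nat_lit 364681603341) (nat_lit 0) (nat_lit 242064913366) (nat_lit 1) (nat_lit 5) (nat_lit 3) (nat_lit 4) (nat_lit 1) (nat_lit 4) (nat_lit 387) (nat_lit 281) (nat_lit 232))))))) (XT.nd (nat_lit 624) (nat_lit 0) (nat_lit 0) (XT.nd (nat_lit 312) (nat_lit 0) (nat_lit 0) (XT.nd (nat_lit 156) (nat_lit 0) (nat_lit 0) (XT.nd (nat_lit 78) (nat_lit 0) (nat_lit 0) (XT.lf (nat_lit 0) (nat_lit 266754102091) (nat_lit 152) (nat_lit 389127386296) (nat_lit 0) (nat_lit 263813213916) (nat_lit 1) (nat_lit 5) (nat_lit 3) (nat_lit 4) (nat_lit 1) (nat_lit 4) (nat_lit 388) (nat_lit 281) (nat_lit 231)) (XT.lf (nat_lit 0) (nat_lit 290240272564) (nat_lit 152) (nat_lit 415543706388) (nat_lit 0) (nat_lit 287294638508) (nat_lit 1) (nat_lit 5) (nat_lit 3) (nat_lit 4) (nat_lit 1) (nat_lit 4) (nat_lit 389) (nat_lit 281) (nat_lit 230))) (XT.nd (nat_lit 78) (nat_lit 0) (nat_lit 0) (XT.lf (nat_lit 0) (nat_lit 315598364714)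 (nat_lit 152) (nat_lit 444087104774) (nat_lit 0) (nat_lit 312648336324) (nat_lit 1) (nat_lit 5) (nat_lit 3) (nat_lit 4) (nat_lit 1) (nat_lit 4) (nat_lit 390) (nat_lit 281) (nat_lit 229)) (XT.lf (nat_lit 0) (nat_lit 342978648717) (nat_lit 152) (nat_lit 474926727518) (nat_lit 0) (nat_lit 340024551500) (nat_lit 1) (nat_lit 5) (nat_lit 3) (nat_lit 4) (nat_lit 1) (nat_lit 4) (nat_lit 391) (nat_lit 281) (nat_lit 228)))) (XT.nd (nat_lit 156) (nat_lit 0) (nat_lit 0) (XT.nd (nat_lit 78) (nat_lit 0) (nat_lit 0) (XT.lf (nat_lit 0) (nat_lit 372543378108) (nat_lit 152) (nat_lit 508245327940) (nat_lit 0) (nat_lit 369585513458) (nat_lit 1) (nat_lit 5) (nat_lit 3) (nat_lit 4) (nat_lit 1) (nat_lit 4) (nat_lit 392) (nat_lit 281) (nat_lit 227)) (XT.lf (nat_lit 0) (nat_lit 404467751283) (nat_lit 152) (nat_lit 544240349598) (nat_lit 0) (nat_lit 401506398270) (nat_lit 1) (nat_lit 5) (nat_lit 3) (nat_lit 4)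 (nat_lit 1) (nat_lit 4) (nat_lit 393) (nat_lit 281) (nat_lit 226))) (XT.nd (nat_lit 78) (nat_lit 0) (nat_lit 0) (XT.lf (nat_lit 0) (nat_lit 438940949714) (nat_lit 152) (nat_lit 583125096325) (nat_lit 0) (nat_lit 435976366734) (nat_lit 1) (nat_lit 5) (nat_lit 3) (nat_lit 4) (nat_lit 1) (nat_lit 4) (nat_lit 394) (nat_lit 281) (nat_lit 225)) (XT.lf (nat_lit 0) (nat_lit 476167259020) (nat_lit 152) (nat_lit 625129996248) (nat_lit 0) (nat_lit 473199685330) (nat_lit 1) (nat_lit 5) (nat_lit 3) (nat_lit 4) (nat_lit 1) (nat_lit 4) (nat_lit 395) (nat_lit 281) (nat_lit 224))))) (XT.nd (nat_lit 312) (nat_lit 0) (nat_lit 0) (XT.nd (nat_lit 156) (nat_lit 0) (nat_lit 0) (XT.nd (nat_lit 78) (nat_lit 0) (nat_lit 0) (XT.lf (nat_lit 0) (nat_lit 516367279553) (nat_lit 152) (nat_lit 670503967294) (nat_lit 0) (nat_lit 513396936688) (nat_lit 1) (nat_lit 5) (nat_lit 3) (nat_lit 4) (nat_lit 1) (nat_lit 4) (nat_lit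 396) (nat_lit 281) (nat_lit 223)) (XT.lf (nat_lit 0) (nat_lit 559779233657) (nat_lit 152) (nat_lit 719515892254) (nat_lit 0) (nat_lit 556806326740) (nat_lit 1) (nat_lit 5) (nat_lit 3) (nat_lit 4) (nat_lit 1) (nat_lit 4) (nat_lit 397) (nat_lit 281) (nat_lit 222))) (XT.nd (nat_lit 78) (nat_lit 0) (nat_lit 0) (XT.lf (nat_lit 0) (nat_lit 606660377356) (nat_lit 152) (nat_lit 772456212165) (nat_lit 0) (nat_lit 603685096317) (nat_lit 1) (nat_lit 5) (nat_lit 3) (nat_lit 4) (nat_lit 1) (nat_lit 4) (nat_lit 398) (nat_lit 281) (nat_lit 221)) (XT.lf (nat_lit 0) (nat_lit 657288524835) (nat_lit 152) (nat_lit 829638647441) (nat_lit 0) (nat_lit 654311045535) (nat_lit 1) (nat_lit 5) (nat_lit 3) (nat_lit 4) (nat_lit 1) (nat_lit 4) (nat_lit 399) (nat_lit 281) (nat_lit 220)))) (XT.nd (nat_lit 156) (nat_lit 0) (nat_lit 0) (XT.nd (nat_lit 78) (nat_lit 0) (nat_lit 0) (XT.lf (nat_lit 0) (nat_lit 711963694746)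 (nat_lit 152) (nat_lit 891402056957) (nat_lit 0) (nat_lit 708984180019) (nat_lit 1) (nat_lit 5) (nat_lit 3) (nat_lit 4) (nat_lit 1) (nat_lit 4) (nat_lit 400) (nat_lit 281) (nat_lit 219)) (XT.lf (nat_lit 0) (nat_lit 771009888095) (nat_lit 152) (nat_lit 958112446103) (nat_lit 0) (nat_lit 768028488714) (nat_lit 1) (nat_lit 5) (nat_lit 3) (nat_lit 4) (nat_lit 1) (nat_lit 4) (nat_lit 401) (nat_lit 281) (nat_lit 218))) (XT.nd (nat_lit 78) (nat_lit 0) (nat_lit 0) (XT.lf (nat_lit 0) (nat_lit 834777008251) (nat_lit 152) (nat_lit 1030165135705) (nat_lit 0) (nat_lit 831793863819) (nat_lit 1) (nat_lit 5) (nat_lit 3) (nat_lit 4) (nat_lit 1) (nat_lit 4) (nat_lit 402) (nat_lit 281) (nat_lit 217)) (XT.nd (nat_lit 78) (nat_lit 0) (nat_lit 0) (XT.lf (nat_lit 0) (nat_lit 903642934444) (nat_lit 152) (nat_lit 1107987104663) (nat_lit 0) (nat_lit 900658174225) (nat_lit 1) (nat_lit 5) (nat_lit 3) (nat_lit 4)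 (nat_lit 1) (nat_lit 4) (nat_lit 403) (nat_lit 281) (nat_lit 216)) (XT.lf (nat_lit 0) (nat_lit 978015761052) (nat_lit 152) (nat_lit 1192039520201) (nat_lit 0) (nat_lit 975029504733) (nat_lit 1) (nat_lit 5) (nat_lit 3) (nat_lit 4) (nat_lit 1) (nat_lit 4) (nat_lit 404) (nat_lit 281) (nat_lit 215))))))))
noncomputable def xc45 : XT := (XT.nd (nat_lit 42042) (nat_lit 0) (nat_lit 0) (XT.nd (nat_lit 624) (nat_lit 0) (nat_lit 0) (XT.nd (nat_lit 312) (nat_lit 0) (nat_lit 0) (XT.nd (nat_lit 156) (nat_lit 0) (nat_lit 0) (XT.nd (nat_lit 78) (nat_lit 0) (nat_lit 0) (XT.lf (nat_lit 0) (nat_lit 1058336215935) (nat_lit 152) (nat_lit 1282820470707) (nat_lit 0) (nat_lit 1055348574339) (nat_lit 1) (nat_lit 5) (nat_lit 3) (nat_lit 4) (nat_lit 1) (nat_lit 4) (nat_lit 405) (nat_lit 281) (nat_lit 214)) (XT.lf (nat_lit 0) (nat_lit 1145080272161) (nat_lit 152) (nat_lit 1380867917369) (nat_lit 0) (nat_lit 1142091347901)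 (nat_lit 1) (nat_lit 5) (nat_lit 3) (nat_lit 4) (nat_lit 1) (nat_lit 4) (nat_lit 406) (nat_lit 281) (nat_lit 213))) (XT.nd (nat_lit 78) (nat_lit 0) (nat_lit 0) (XT.lf (nat_lit 0) (nat_lit 1238761968580) (nat_lit 152) (nat_lit 1486762882093) (nat_lit 0) (nat_lit 1235771856668) (nat_lit 1) (nat_lit 5) (nat_lit 3) (nat_lit 4) (nat_lit 1) (nat_lit 4) (nat_lit 407) (nat_lit 281) (nat_lit 212)) (XT.lf (nat_lit 0) (nat_lit 1339936455987) (nat_lit 152) (nat_lit 1601132890597) (nat_lit 0) (nat_lit 1336945244397) (nat_lit 1) (nat_lit 5) (nat_lit 3) (nat_lit 4) (nat_lit 1) (nat_lit 4) (nat_lit 408) (nat_lit 281) (nat_lit 211)))) (XT.nd (nat_lit 156) (nat_lit 0) (nat_lit 0) (XT.nd (nat_lit 78) (nat_lit 0) (nat_lit 0) (XT.lf (nat_lit 0) (nat_lit 1449203286898) (nat_lit 152) (nat_lit 1724655691079) (nat_lit 0) (nat_lit 1446211057088) (nat_lit 1) (nat_lit 5) (nat_lit 3) (nat_lit 4) (nat_lit 1) (nat_lit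 4) (nat_lit 409) (nat_lit 281) (nat_lit 210)) (XT.lf (nat_lit 0) (nat_lit 1567209968461) (nat_lit 152) (nat_lit 1858063270505) (nat_lit 0) (nat_lit 1564216795855) (nat_lit 1) (nat_lit 5) (nat_lit 3) (nat_lit 4) (nat_lit 1) (nat_lit 4) (nat_lit 410) (nat_lit 281) (nat_lit 209))) (XT.nd (nat_lit 78) (nat_lit 0) (nat_lit 0) (XT.lf (nat_lit 0) (nat_lit 1694655799529) (nat_lit 152) (nat_lit 2002146192308) (nat_lit 0) (nat_lit 1691661753963) (nat_lit 1) (nat_lit 5) (nat_lit 3) (nat_lit 4) (nat_lit 1) (nat_lit 4) (nat_lit 411) (nat_lit 281) (nat_lit 208)) (XT.lf (nat_lit 0) (nat_lit 1832296014657) (nat_lit 152) (nat_lit 2157758281210) (nat_lit 0) (nat_lit 1829301160795) (nat_lit 1) (nat_lit 5) (nat_lit 3) (nat_lit 4) (nat_lit 1) (nat_lit 4) (nat_lit 412) (nat_lit 281) (nat_lit 207))))) (XT.nd (nat_lit 41028) (nat_lit 0) (nat_lit 380) (XT.nd (nat_lit 40872) (nat_lit 0) (nat_lit 608) (XT.nd (nat_lit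 78) (nat_lit 0) (nat_lit 0) (XT.lf (nat_lit 0) (nat_lit 1980946259563) (nat_lit 152) (nat_lit 2325821682923) (nat_lit 0) (nat_lit 1977950657279) (nat_lit 1) (nat_lit 5) (nat_lit 3) (nat_lit 4) (nat_lit 1) (nat_lit 4) (nat_lit 413) (nat_lit 281) (nat_lit 206)) (XT.lf (nat_lit 0) (nat_lit 2141487424589) (nat_lit 152) (nat_lit 2507332328717) (nat_lit 0) (nat_lit 2138491129321) (nat_lit 1) (nat_lit 5) (nat_lit 3) (nat_lit 4) (nat_lit 1) (nat_lit 4) (nat_lit 414) (nat_lit 281) (nat_lit 205))) (XT.nd (nat_lit 78) (nat_lit 0) (nat_lit 0) (XT.lf (nat_lit 0) (nat_lit 4445349013) (nat_lit 76) (nat_lit 2983987835) (nat_lit 76) (nat_lit 2983987835) (nat_lit 9) (nat_lit 4) (nat_lit 10) (nat_lit 5) (nat_lit 10) (nat_lit 4) (nat_lit 336) (nat_lit 282) (nat_lit 282)) (XT.lf (nat_lit 0) (nat_lit 18917516771) (nat_lit 76) (nat_lit 1740098667) (nat_lit 76) (nat_lit 1437268179) (nat_lit 9) (nat_lit 4) (nat_lit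 10) (nat_lit 5) (nat_lit 10) (nat_lit 4) (nat_lit 337) (nat_lit 282) (nat_lit 281)))) (XT.nd (nat_lit 156) (nat_lit 76) (nat_lit 0) (XT.nd (nat_lit 78) (nat_lit 0) (nat_lit 0) (XT.lf (nat_lit 0) (nat_lit 3249595524) (nat_lit 152) (nat_lit 17501568663) (nat_lit 0) (nat_lit 2709568591) (nat_lit 7) (nat_lit 5) (nat_lit 9) (nat_lit 4) (nat_lit 7) (nat_lit 4) (nat_lit 338) (nat_lit 282) (nat_lit 280)) (XT.lf (nat_lit 0) (nat_lit 8123129435) (nat_lit 152) (nat_lit 9476000117) (nat_lit 0) (nat_lit 7342705897) (nat_lit 7) (nat_lit 5) (nat_lit 9) (nat_lit 4) (nat_lit 7) (nat_lit 4) (nat_lit 339) (nat_lit 282) (nat_lit 279))) (XT.nd (nat_lit 78) (nat_lit 76) (nat_lit 0) (XT.lf (nat_lit 0) (nat_lit 13159733304) (nat_lit 152) (nat_lit 1243230494) (nat_lit 0) (nat_lit 12156720317) (nat_lit 7) (nat_lit 5) (nat_lit 9) (nat_lit 4) (nat_lit 7) (nat_lit 4) (nat_lit 340) (nat_lit 282) (nat_lit 278)) (XT.nd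 (nat_lit 78) (nat_lit 0) (nat_lit 0) (XT.lf (nat_lit 0) (nat_lit 7627063599) (nat_lit 76) (nat_lit 10945621136) (nat_lit 76) (nat_lit 9736506807) (nat_lit 6) (nat_lit 4) (nat_lit 7) (nat_lit 5) (nat_lit 7) (nat_lit 4) (nat_lit 341) (nat_lit 282) (nat_lit 277)) (XT.lf (nat_lit 0) (nat_lit 16885244390) (nat_lit 76) (nat_lit 7363526435) (nat_lit 76) (nat_lit 5963577530) (nat_lit 6) (nat_lit 4) (nat_lit 7) (nat_lit 5) (nat_lit 7) (nat_lit 4) (nat_lit 342) (nat_lit 282) (nat_lit 276))))))) (XT.nd (nat_lit 702) (nat_lit 152) (nat_lit 0) (XT.nd (nat_lit 312) (nat_lit 76) (nat_lit 0) (XT.nd (nat_lit 156) (nat_lit 0) (nat_lit 0) (XT.nd (nat_lit 78) (nat_lit 152) (nat_lit 0) (XT.lf (nat_lit 0) (nat_lit 26520708856) (nat_lit 76) (nat_lit 3669444592) (nat_lit 76) (nat_lit 2092797006) (nat_lit 6) (nat_lit 4) (nat_lit 7) (nat_lit 5) (nat_lit 7) (nat_lit 4) (nat_lit 343) (nat_lit 282) (nat_lit 275))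 (XT.lf (nat_lit 0) (nat_lit 1861036767) (nat_lit 152) (nat_lit 32414310945) (nat_lit 0) (nat_lit 249687253) (nat_lit 4) (nat_lit 5) (nat_lit 6) (nat_lit 4) (nat_lit 4) (nat_lit 4) (nat_lit 344) (nat_lit 282) (nat_lit 274))) (XT.nd (nat_lit 78) (nat_lit 0) (nat_lit 0) (XT.lf (nat_lit 0) (nat_lit 6096900175) (nat_lit 152) (nat_lit 26493723834) (nat_lit 0) (nat_lit 4345281550) (nat_lit 4) (nat_lit 5) (nat_lit 6) (nat_lit 4) (nat_lit 4) (nat_lit 4) (nat_lit 345) (nat_lit 282) (nat_lit 273)) (XT.lf (nat_lit 0) (nat_lit 10506665967) (nat_lit 152) (nat_lit 20421074428) (nat_lit 0) (nat_lit 8625168537) (nat_lit 4) (nat_lit 5) (nat_lit 6) (nat_lit 4) (nat_lit 4) (nat_lit 4) (nat_lit 346) (nat_lit 282) (nat_lit 272)))) (XT.nd (nat_lit 156) (nat_lit 76) (nat_lit 0) (XT.nd (nat_lit 78) (nat_lit 0) (nat_lit 0) (XT.lf (nat_lit 0) (nat_lit 15116466088) (nat_lit 152) (nat_lit 14160376657) (nat_lit 0)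 (nat_lit 13114710504) (nat_lit 4) (nat_lit 5) (nat_lit 6) (nat_lit 4) (nat_lit 4) (nat_lit 4) (nat_lit 347) (nat_lit 282) (nat_lit 271)) (XT.lf (nat_lit 0) (nat_lit 19953617873) (nat_lit 152) (nat_lit 7674530089) (nat_lit 0) (nat_lit 17840512147) (nat_lit 4) (nat_lit 5) (nat_lit 6) (nat_lit 4) (nat_lit 4) (nat_lit 4) (nat_lit 348) (nat_lit 282) (nat_lit 270))) (XT.nd (nat_lit 78) (nat_lit 76) (nat_lit 0) (XT.lf (nat_lit 0) (nat_lit 25046785924) (nat_lit 152) (nat_lit 925100078) (nat_lit 0) (nat_lit 22830578216) (nat_lit 4) (nat_lit 5) (nat_lit 6) (nat_lit 4) (nat_lit 4) (nat_lit 4) (nat_lit 349) (nat_lit 282) (nat_lit 269)) (XT.nd (nat_lit 78) (nat_lit 0) (nat_lit 0) (XT.lf (nat_lit 0) (nat_lit 6450594878) (nat_lit 76) (nat_lit 24130694063) (nat_lit 76) (nat_lit 21819021555) (nat_lit 3) (nat_lit 4) (nat_lit 4) (nat_lit 5) (nat_lit 4) (nat_lit 4) (nat_lit 350) (nat_lit 282) (nat_lit 268))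 (XT.lf (nat_lit 0) (nat_lit 14238566518) (nat_lit 76) (nat_lit 22227465111) (nat_lit 76) (nat_lit 19827399270) (nat_lit 3) (nat_lit 4) (nat_lit 4) (nat_lit 5) (nat_lit 4) (nat_lit 4) (nat_lit 351) (nat_lit 282) (nat_lit 267)))))) (XT.nd (nat_lit 312) (nat_lit 152) (nat_lit 0) (XT.nd (nat_lit 156) (nat_lit 0) (nat_lit 0) (XT.nd (nat_lit 78) (nat_lit 0) (nat_lit 0) (XT.lf (nat_lit 0) (nat_lit 22436251653) (nat_lit 76) (nat_lit 20276214630) (nat_lit 76) (nat_lit 17794303111) (nat_lit 3) (nat_lit 4) (nat_lit 4) (nat_lit 5) (nat_lit 4) (nat_lit 4) (nat_lit 352) (nat_lit 282) (nat_lit 266)) (XT.lf (nat_lit 0) (nat_lit 31092229158) (nat_lit 76) (nat_lit 18265379654) (nat_lit 76) (nat_lit 15707685099) (nat_lit 3) (nat_lit 4) (nat_lit 4) (nat_lit 5) (nat_lit 4) (nat_lit 4) (nat_lit 353) (nat_lit 282) (nat_lit 265))) (XT.nd (nat_lit 78) (nat_lit 0) (nat_lit 0) (XT.lf (nat_lit 0) (nat_lit 40257793714)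 (nat_lit 76) (nat_lit 16183044123) (nat_lit 76) (nat_lit 13555180090) (nat_lit 3) (nat_lit 4) (nat_lit 4) (nat_lit 5) (nat_lit 4) (nat_lit 4) (nat_lit 354) (nat_lit 282) (nat_lit 264)) (XT.lf (nat_lit 0) (nat_lit 49987259778) (nat_lit 76) (nat_lit 14016868271) (nat_lit 76) (nat_lit 11324032501) (nat_lit 3) (nat_lit 4) (nat_lit 4) (nat_lit 5) (nat_lit 4) (nat_lit 4) (nat_lit 355) (nat_lit 282) (nat_lit 263)))) (XT.nd (nat_lit 156) (nat_lit 152) (nat_lit 0) (XT.nd (nat_lit 78) (nat_lit 0) (nat_lit 0) (XT.lf (nat_lit 0) (nat_lit 60338283445) (nat_lit 76) (nat_lit 11754015502) (nat_lit 76) (nat_lit 9001020714) (nat_lit 3) (nat_lit 4) (nat_lit 4) (nat_lit 5) (nat_lit 4) (nat_lit 4) (nat_lit 356) (nat_lit 282) (nat_lit 262)) (XT.lf (nat_lit 0) (nat_lit 71372204115) (nat_lit 76) (nat_lit 9381076316) (nat_lit 76) (nat_lit 6572378735) (nat_lit 3) (nat_lit 4) (nat_lit 4) (nat_lit 5) (nat_lit 4)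 (nat_lit 4) (nat_lit 357) (nat_lit 282) (nat_lit 261))) (XT.nd (nat_lit 78) (nat_lit 152) (nat_lit 0) (XT.lf (nat_lit 0) (nat_lit 83154407985) (nat_lit 76) (nat_lit 6883988853) (nat_lit 76) (nat_lit 4023714611) (nat_lit 3) (nat_lit 4) (nat_lit 4) (nat_lit 5) (nat_lit 4) (nat_lit 4) (nat_lit 358) (nat_lit 282) (nat_lit 260)) (XT.nd (nat_lit 78) (nat_lit 152) (nat_lit 0) (XT.lf (nat_lit 0) (nat_lit 95754715521) (nat_lit 76) (nat_lit 4247955556) (nat_lit 76) (nat_lit 1339925147) (nat_lit 3) (nat_lit 4) (nat_lit 4) (nat_lit 5) (nat_lit 4) (nat_lit 4) (nat_lit 359) (nat_lit 282) (nat_lit 259)) (XT.lf (nat_lit 0) (nat_lit 1669388) (nat_lit 76) (nat_lit 1418483722) (nat_lit 152) (nat_lit 107787224606) (nat_lit 1) (nat_lit 5) (nat_lit 2) (nat_lit 5) (nat_lit 3) (nat_lit 4) (nat_lit 360) (nat_lit 282) (nat_lit 258))))))))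
noncomputable def xc46 : XT := (XT.nd (nat_lit 1326) (nat_lit 0) (nat_lit 0) (XT.nd (nat_lit 624) (nat_lit 0) (nat_lit 0) (XT.nd (nat_lit 312) (nat_lit 0) (nat_lit 0) (XT.nd (nat_lit 156) (nat_lit 0) (nat_lit 0) (XT.nd (nat_lit 78) (nat_lit 0) (nat_lit 0) (XT.lf (nat_lit 0) (nat_lit 4464628172) (nat_lit 152) (nat_lit 111529916175) (nat_lit 0) (nat_lit 1693153821) (nat_lit 1) (nat_lit 5) (nat_lit 3) (nat_lit 4) (nat_lit 1) (nat_lit 4) (nat_lit 361) (nat_lit 282) (nat_lit 257)) (XT.lf (nat_lit 0) (nat_lit 7733812524) (nat_lit 152) (nat_lit 114186921447) (nat_lit 0) (nat_lit 4927235965) (nat_lit 1) (nat_lit 5) (nat_lit 3) (nat_lit 4) (nat_lit 1) (nat_lit 4) (nat_lit 362) (nat_lit 282) (nat_lit 256))) (XT.nd (nat_lit 78) (nat_lit 0) (nat_lit 0) (XT.lf (nat_lit 0) (nat_lit 11212964544) (nat_lit 152) (nat_lit 117158354793) (nat_lit 0) (nat_lit 8373885939) (nat_lit 1) (nat_lit 5) (nat_lit 3)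 (nat_lit 4) (nat_lit 1) (nat_lit 4) (nat_lit 363) (nat_lit 282) (nat_lit 255)) (XT.lf (nat_lit 0) (nat_lit 14922701428) (nat_lit 152) (nat_lit 120461824708) (nat_lit 0) (nat_lit 12053528338) (nat_lit 1) (nat_lit 5) (nat_lit 3) (nat_lit 4) (nat_lit 1) (nat_lit 4) (nat_lit 364) (nat_lit 282) (nat_lit 254)))) (XT.nd (nat_lit 156) (nat_lit 0) (nat_lit 0) (XT.nd (nat_lit 78) (nat_lit 0) (nat_lit 0) (XT.lf (nat_lit 0) (nat_lit 18885006803) (nat_lit 152) (nat_lit 124116907310) (nat_lit 0) (nat_lit 15987968447) (nat_lit 1) (nat_lit 5) (nat_lit 3) (nat_lit 4) (nat_lit 1) (nat_lit 4) (nat_lit 365) (nat_lit 282) (nat_lit 253)) (XT.lf (nat_lit 0) (nat_lit 23123360996) (nat_lit 152) (nat_lit 128145262346) (nat_lit 0) (nat_lit 20200521470) (nat_lit 1) (nat_lit 5) (nat_lit 3) (nat_lit 4) (nat_lit 1) (nat_lit 4) (nat_lit 366) (nat_lit 282) (nat_lit 252))) (XT.nd (nat_lit 78) (nat_lit 0) (nat_lit 0) (XT.lf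 (nat_lit 0) (nat_lit 27662880182) (nat_lit 152) (nat_lit 132570761552) (nat_lit 0) (nat_lit 24716150682) (nat_lit 1) (nat_lit 5) (nat_lit 3) (nat_lit 4) (nat_lit 1) (nat_lit 4) (nat_lit 367) (nat_lit 282) (nat_lit 251)) (XT.lf (nat_lit 0) (nat_lit 32530465213) (nat_lit 152) (nat_lit 137419630106) (nat_lit 0) (nat_lit 29561615368) (nat_lit 1) (nat_lit 5) (nat_lit 3) (nat_lit 4) (nat_lit 1) (nat_lit 4) (nat_lit 368) (nat_lit 282) (nat_lit 250))))) (XT.nd (nat_lit 312) (nat_lit 0) (nat_lit 0) (XT.nd (nat_lit 156) (nat_lit 0) (nat_lit 0) (XT.nd (nat_lit 78) (nat_lit 0) (nat_lit 0) (XT.lf (nat_lit 0) (nat_lit 37754961039) (nat_lit 152) (nat_lit 142720602046) (nat_lit 0) (nat_lit 34765629392) (nat_lit 1) (nat_lit 5) (nat_lit 3) (nat_lit 4) (nat_lit 1) (nat_lit 4) (nat_lit 369) (nat_lit 282) (nat_lit 249)) (XT.lf (nat_lit 0) (nat_lit 43367327635) (nat_lit 152) (nat_lit 148505090538) (nat_lit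 0) (nat_lit 40359031357) (nat_lit 1) (nat_lit 5) (nat_lit 3) (nat_lit 4) (nat_lit 1) (nat_lit 4) (nat_lit 370) (nat_lit 282) (nat_lit 248))) (XT.nd (nat_lit 78) (nat_lit 0) (nat_lit 0) (XT.lf (nat_lit 0) (nat_lit 49400823469) (nat_lit 152) (nat_lit 154807374032) (nat_lit 0) (nat_lit 46374967347) (nat_lit 1) (nat_lit 5) (nat_lit 3) (nat_lit 4) (nat_lit 1) (nat_lit 4) (nat_lit 371) (nat_lit 282) (nat_lit 247)) (XT.lf (nat_lit 0) (nat_lit 55891202591) (nat_lit 152) (nat_lit 161664799394) (nat_lit 0) (nat_lit 52849087355) (nat_lit 1) (nat_lit 5) (nat_lit 3) (nat_lit 4) (nat_lit 1) (nat_lit 4) (nat_lit 372) (nat_lit 282) (nat_lit 246)))) (XT.nd (nat_lit 156) (nat_lit 0) (nat_lit 0) (XT.nd (nat_lit 78) (nat_lit 0) (nat_lit 0) (XT.lf (nat_lit 0) (nat_lit 62876926507) (nat_lit 152) (nat_lit 169118003218) (nat_lit 0) (nat_lit 59819756535) (nat_lit 1) (nat_lit 5) (nat_lit 3) (nat_lit 4) (nat_lit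 1) (nat_lit 4) (nat_lit 373) (nat_lit 282) (nat_lit 245)) (XT.lf (nat_lit 0) (nat_lit 70399392099) (nat_lit 152) (nat_lit 177211152638) (nat_lit 0) (nat_lit 67328282557) (nat_lit 1) (nat_lit 5) (nat_lit 3) (nat_lit 4) (nat_lit 1) (nat_lit 4) (nat_lit 374) (nat_lit 282) (nat_lit 244))) (XT.nd (nat_lit 78) (nat_lit 0) (nat_lit 0) (XT.lf (nat_lit 0) (nat_lit 78503176941) (nat_lit 152) (nat_lit 185992207058) (nat_lit 0) (nat_lit 75419160390) (nat_lit 1) (nat_lit 5) (nat_lit 3) (nat_lit 4) (nat_lit 1) (nat_lit 4) (nat_lit 375) (nat_lit 282) (nat_lit 243)) (XT.nd (nat_lit 78) (nat_lit 0) (nat_lit 0) (XT.lf (nat_lit 0) (nat_lit 87236303463) (nat_lit 152) (nat_lit 195513202357) (nat_lit 0) (nat_lit 84140335977) (nat_lit 1) (nat_lit 5) (nat_lit 3) (nat_lit 4) (nat_lit 1) (nat_lit 4) (nat_lit 376) (nat_lit 282) (nat_lit 242)) (XT.lf (nat_lit 0) (nat_lit 96650523523) (nat_lit 152) (nat_lit 205830559246)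 (nat_lit 0) (nat_lit 93543490358) (nat_lit 1) (nat_lit 5) (nat_lit 3) (nat_lit 4) (nat_lit 1) (nat_lit 4) (nat_lit 377) (nat_lit 282) (nat_lit 241))))))) (XT.nd (nat_lit 624) (nat_lit 0) (nat_lit 0) (XT.nd (nat_lit 312) (nat_lit 0) (nat_lit 0) (XT.nd (nat_lit 156) (nat_lit 0) (nat_lit 0) (XT.nd (nat_lit 78) (nat_lit 0) (nat_lit 0) (XT.lf (nat_lit 0) (nat_lit 106801625094) (nat_lit 152) (nat_lit 217005417620) (nat_lit 0) (nat_lit 103684345929) (nat_lit 1) (nat_lit 5) (nat_lit 3) (nat_lit 4) (nat_lit 1) (nat_lit 4) (nat_lit 378) (nat_lit 282) (nat_lit 240)) (XT.lf (nat_lit 0) (nat_lit 117749762852) (nat_lit 152) (nat_lit 229103998859) (nat_lit 0) (nat_lit 114622996649) (nat_lit 1) (nat_lit 5) (nat_lit 3) (nat_lit 4) (nat_lit 1) (nat_lit 4) (nat_lit 379) (nat_lit 282) (nat_lit 239))) (XT.nd (nat_lit 78) (nat_lit 0) (nat_lit 0) (XT.lf (nat_lit 0) (nat_lit 129559814649) (nat_lit 152) (nat_lit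 242197998262) (nat_lit 0) (nat_lit 126424264153) (nat_lit 1) (nat_lit 5) (nat_lit 3) (nat_lit 4) (nat_lit 1) (nat_lit 4) (nat_lit 380) (nat_lit 282) (nat_lit 238)) (XT.lf (nat_lit 0) (nat_lit 142301765979) (nat_lit 152) (nat_lit 256365009898) (nat_lit 0) (nat_lit 139158081877) (nat_lit 1) (nat_lit 5) (nat_lit 3) (nat_lit 4) (nat_lit 1) (nat_lit 4) (nat_lit 381) (nat_lit 282) (nat_lit 237)))) (XT.nd (nat_lit 156) (nat_lit 0) (nat_lit 0) (XT.nd (nat_lit 78) (nat_lit 0) (nat_lit 0) (XT.lf (nat_lit 0) (nat_lit 156051124699) (nat_lit 152) (nat_lit 271688986429) (nat_lit 0) (nat_lit 152899909482) (nat_lit 1) (nat_lit 5) (nat_lit 3) (nat_lit 4) (nat_lit 1) (nat_lit 4) (nat_lit 382) (nat_lit 282) (nat_lit 236)) (XT.lf (nat_lit 0) (nat_lit 170889368493) (nat_lit 152) (nat_lit 288260736605) (nat_lit 0) (nat_lit 167731180020) (nat_lit 1) (nat_lit 5) (nat_lit 3) (nat_lit 4) (nat_lit 1) (nat_lit 4)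 (nat_lit 383) (nat_lit 282) (nat_lit 235))) (XT.nd (nat_lit 78) (nat_lit 0) (nat_lit 0) (XT.lf (nat_lit 0) (nat_lit 186904427694) (nat_lit 152) (nat_lit 306178463390) (nat_lit 0) (nat_lit 183739782502) (nat_lit 1) (nat_lit 5) (nat_lit 3) (nat_lit 4) (nat_lit 1) (nat_lit 4) (nat_lit 384) (nat_lit 282) (nat_lit 234)) (XT.lf (nat_lit 0) (nat_lit 204191206355) (nat_lit 152) (nat_lit 325548345905) (nat_lit 0) (nat_lit 201020582721) (nat_lit 1) (nat_lit 5) (nat_lit 3) (nat_lit 4) (nat_lit 1) (nat_lit 4) (nat_lit 385) (nat_lit 282) (nat_lit 233))))) (XT.nd (nat_lit 312) (nat_lit 0) (nat_lit 0) (XT.nd (nat_lit 156) (nat_lit 0) (nat_lit 0) (XT.nd (nat_lit 78) (nat_lit 0) (nat_lit 0) (XT.lf (nat_lit 0) (nat_lit 222852144647) (nat_lit 152) (nat_lit 346485168639) (nat_lit 0) (nat_lit 219675985418) (nat_lit 1) (nat_lit 5) (nat_lit 3) (nat_lit 4) (nat_lit 1) (nat_lit 4) (nat_lit 386) (nat_lit 282)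 (nat_lit 232)) (XT.lf (nat_lit 0) (nat_lit 242997825909) (nat_lit 152) (nat_lit 369113001654) (nat_lit 0) (nat_lit 239816541129) (nat_lit 1) (nat_lit 5) (nat_lit 3) (nat_lit 4) (nat_lit 1) (nat_lit 4) (nat_lit 387) (nat_lit 282) (nat_lit 231))) (XT.nd (nat_lit 78) (nat_lit 0) (nat_lit 0) (XT.lf (nat_lit 0) (nat_lit 264747631954) (nat_lit 152) (nat_lit 393565935811) (nat_lit 0) (nat_lit 261561601293) (nat_lit 1) (nat_lit 5) (nat_lit 3) (nat_lit 4) (nat_lit 1) (nat_lit 4) (nat_lit 388) (nat_lit 282) (nat_lit 230)) (XT.lf (nat_lit 0) (nat_lit 288230450522) (nat_lit 152) (nat_lit 419988877387) (nat_lit 0) (nat_lit 285040025528) (nat_lit 1) (nat_lit 5) (nat_lit 3) (nat_lit 4) (nat_lit 1) (nat_lit 4) (nat_lit 389) (nat_lit 282) (nat_lit 229)))) (XT.nd (nat_lit 156) (nat_lit 0) (nat_lit 0) (XT.nd (nat_lit 78) (nat_lit 0) (nat_lit 0) (XT.lf (nat_lit 0) (nat_lit 313585439057) (nat_lit 152) (nat_lit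 448538406776) (nat_lit 0) (nat_lit 310390945235) (nat_lit 1) (nat_lit 5) (nat_lit 3) (nat_lit 4) (nat_lit 1) (nat_lit 4) (nat_lit 390) (nat_lit 282) (nat_lit 228)) (XT.lf (nat_lit 0) (nat_lit 340962849343) (nat_lit 152) (nat_lit 479383706375) (nat_lit 0) (nat_lit 337764588088) (nat_lit 1) (nat_lit 5) (nat_lit 3) (nat_lit 4) (nat_lit 1) (nat_lit 4) (nat_lit 391) (nat_lit 282) (nat_lit 227))) (XT.nd (nat_lit 78) (nat_lit 0) (nat_lit 0) (XT.lf (nat_lit 0) (nat_lit 370524917884) (nat_lit 152) (nat_lit 512707563144) (nat_lit 0) (nat_lit 367323168266) (nat_lit 1) (nat_lit 5) (nat_lit 3) (nat_lit 4) (nat_lit 1) (nat_lit 4) (nat_lit 392) (nat_lit 282) (nat_lit 226)) (XT.nd (nat_lit 78) (nat_lit 0) (nat_lit 0) (XT.lf (nat_lit 0) (nat_lit 402446827311) (nat_lit 152) (nat_lit 548707451791) (nat_lit 0) (nat_lit 399241847725) (nat_lit 1) (nat_lit 5) (nat_lit 3) (nat_lit 4) (nat_lit 1) (nat_lit 4)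 (nat_lit 393) (nat_lit 282) (nat_lit 225)) (XT.lf (nat_lit 0) (nat_lit 436917744492) (nat_lit 152) (nat_lit 587596704988) (nat_lit 0) (nat_lit 433709774197) (nat_lit 1) (nat_lit 5) (nat_lit 3) (nat_lit 4) (nat_lit 1) (nat_lit 4) (nat_lit 394) (nat_lit 282) (nat_lit 224))))))))
noncomputable def xc47 : XT := (XT.nd (nat_lit 1326) (nat_lit 0) (nat_lit 0) (XT.nd (nat_lit 624) (nat_lit 0) (nat_lit 0) (XT.nd (nat_lit 312) (nat_lit 0) (nat_lit 0) (XT.nd (nat_lit 156) (nat_lit 0) (nat_lit 0) (XT.nd (nat_lit 78) (nat_lit 0) (nat_lit 0) (XT.lf (nat_lit 0) (nat_lit 474141941530) (nat_lit 152) (nat_lit 629605777570) (nat_lit 0) (nat_lit 470931202059) (nat_lit 1) (nat_lit 5) (nat_lit 3) (nat_lit 4) (nat_lit 1) (nat_lit 4) (nat_lit 395) (nat_lit 282) (nat_lit 223)) (XT.lf (nat_lit 0) (nat_lit 514340006259) (nat_lit 152) (nat_lit 674983612188) (nat_lit 0) (nat_lit 511126702737) (nat_lit 1) (nat_lit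 5) (nat_lit 3) (nat_lit 4) (nat_lit 1) (nat_lit 4) (nat_lit 396) (nat_lit 282) (nat_lit 222))) (XT.nd (nat_lit 78) (nat_lit 0) (nat_lit 0) (XT.lf (nat_lit 0) (nat_lit 557750149434) (nat_lit 152) (nat_lit 723999114530) (nat_lit 0) (nat_lit 554534471790) (nat_lit 1) (nat_lit 5) (nat_lit 3) (nat_lit 4) (nat_lit 1) (nat_lit 4) (nat_lit 397) (nat_lit 282) (nat_lit 221)) (XT.lf (nat_lit 0) (nat_lit 604629616346) (nat_lit 152) (nat_lit 776942746831) (nat_lit 0) (nat_lit 601411740441) (nat_lit 1) (nat_lit 5) (nat_lit 3) (nat_lit 4) (nat_lit 1) (nat_lit 4) (nat_lit 398) (nat_lit 282) (nat_lit 220)))) (XT.nd (nat_lit 156) (nat_lit 0) (nat_lit 0) (XT.nd (nat_lit 78) (nat_lit 0) (nat_lit 0) (XT.lf (nat_lit 0) (nat_lit 655256211245) (nat_lit 152) (nat_lit 834128249135) (nat_lit 0) (nat_lit 652036299913) (nat_lit 1) (nat_lit 5) (nat_lit 3) (nat_lit 4) (nat_lit 1) (nat_lit 4) (nat_lit 399) (nat_lit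 282) (nat_lit 219)) (XT.lf (nat_lit 0) (nat_lit 709929943582) (nat_lit 152) (nat_lit 895894498492) (nat_lit 0) (nat_lit 706708147595) (nat_lit 1) (nat_lit 5) (nat_lit 3) (nat_lit 4) (nat_lit 1) (nat_lit 4) (nat_lit 400) (nat_lit 282) (nat_lit 218))) (XT.nd (nat_lit 78) (nat_lit 0) (nat_lit 0) (XT.lf (nat_lit 0) (nat_lit 768974805844) (nat_lit 152) (nat_lit 962607517121) (nat_lit 0) (nat_lit 765751264807) (nat_lit 1) (nat_lit 5) (nat_lit 3) (nat_lit 4) (nat_lit 1) (nat_lit 4) (nat_lit 401) (nat_lit 282) (nat_lit 217)) (XT.lf (nat_lit 0) (nat_lit 832740693511) (nat_lit 152) (nat_lit 1034662641428) (nat_lit 0) (nat_lit 829515536687) (nat_lit 1) (nat_lit 5) (nat_lit 3) (nat_lit 4) (nat_lit 1) (nat_lit 4) (nat_lit 402) (nat_lit 282) (nat_lit 216))))) (XT.nd (nat_lit 312) (nat_lit 0) (nat_lit 0) (XT.nd (nat_lit 156) (nat_lit 0) (nat_lit 0) (XT.nd (nat_lit 78) (nat_lit 0) (nat_lit 0) (XT.lf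 (nat_lit 0) (nat_lit 901605478512) (nat_lit 152) (nat_lit 1112486864743) (nat_lit 0) (nat_lit 898378825588) (nat_lit 1) (nat_lit 5) (nat_lit 3) (nat_lit 4) (nat_lit 1) (nat_lit 4) (nat_lit 403) (nat_lit 282) (nat_lit 215)) (XT.lf (nat_lit 0) (nat_lit 975977248459) (nat_lit 152) (nat_lit 1196541367649) (nat_lit 0) (nat_lit 972749210259) (nat_lit 1) (nat_lit 5) (nat_lit 3) (nat_lit 4) (nat_lit 1) (nat_lit 4) (nat_lit 404) (nat_lit 282) (nat_lit 214))) (XT.nd (nat_lit 78) (nat_lit 0) (nat_lit 0) (XT.lf (nat_lit 0) (nat_lit 1056296724954) (nat_lit 152) (nat_lit 1287324250903) (nat_lit 0) (nat_lit 1053067404089) (nat_lit 1) (nat_lit 5) (nat_lit 3) (nat_lit 4) (nat_lit 1) (nat_lit 4) (nat_lit 405) (nat_lit 282) (nat_lit 213)) (XT.lf (nat_lit 0) (nat_lit 1143039875264) (nat_lit 152) (nat_lit 1385373487146) (nat_lit 0) (nat_lit 1139809366747) (nat_lit 1) (nat_lit 5) (nat_lit 3) (nat_lit 4) (nat_lit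 1) (nat_lit 4) (nat_lit 406) (nat_lit 282) (nat_lit 212)))) (XT.nd (nat_lit 156) (nat_lit 0) (nat_lit 0) (XT.nd (nat_lit 78) (nat_lit 0) (nat_lit 0) (XT.lf (nat_lit 0) (nat_lit 1236720732873) (nat_lit 152) (nat_lit 1491270108891) (nat_lit 0) (nat_lit 1233489124678) (nat_lit 1) (nat_lit 5) (nat_lit 3) (nat_lit 4) (nat_lit 1) (nat_lit 4) (nat_lit 407) (nat_lit 282) (nat_lit 211)) (XT.lf (nat_lit 0) (nat_lit 1337894443602) (nat_lit 152) (nat_lit 1605641651673) (nat_lit 0) (nat_lit 1334661817188) (nat_lit 1) (nat_lit 5) (nat_lit 3) (nat_lit 4) (nat_lit 1) (nat_lit 4) (nat_lit 408) (nat_lit 282) (nat_lit 210))) (XT.nd (nat_lit 78) (nat_lit 0) (nat_lit 0) (XT.lf (nat_lit 0) (nat_lit 1447160555369) (nat_lit 152) (nat_lit 1729165872782) (nat_lit 0) (nat_lit 1443926986158) (nat_lit 1) (nat_lit 5) (nat_lit 3) (nat_lit 4) (nat_lit 1) (nat_lit 4) (nat_lit 409) (nat_lit 282) (nat_lit 209)) (XT.nd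 (nat_lit 78) (nat_lit 0) (nat_lit 0) (XT.lf (nat_lit 0) (nat_lit 1565166571057) (nat_lit 152) (nat_lit 1862574767603) (nat_lit 0) (nat_lit 1561932128886) (nat_lit 1) (nat_lit 5) (nat_lit 3) (nat_lit 4) (nat_lit 1) (nat_lit 4) (nat_lit 410) (nat_lit 282) (nat_lit 208)) (XT.lf (nat_lit 0) (nat_lit 1692611785574) (nat_lit 152) (nat_lit 2006658907365) (nat_lit 0) (nat_lit 1689376535107) (nat_lit 1) (nat_lit 5) (nat_lit 3) (nat_lit 4) (nat_lit 1) (nat_lit 4) (nat_lit 411) (nat_lit 282) (nat_lit 207))))))) (XT.nd (nat_lit 41262) (nat_lit 0) (nat_lit 228) (XT.nd (nat_lit 40872) (nat_lit 0) (nat_lit 456) (XT.nd (nat_lit 156) (nat_lit 0) (nat_lit 0) (XT.nd (nat_lit 78) (nat_lit 0) (nat_lit 0) (XT.lf (nat_lit 0) (nat_lit 1830251429821) (nat_lit 152) (nat_lit 2162272124007) (nat_lit 0) (nat_lit 1827015430932) (nat_lit 1) (nat_lit 5) (nat_lit 3) (nat_lit 4) (nat_lit 1) (nat_lit 4) (nat_lit 412) (nat_lit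 282) (nat_lit 206)) (XT.lf (nat_lit 0) (nat_lit 1978901146135) (nat_lit 152) (nat_lit 2330336569924) (nat_lit 0) (nat_lit 1975664454262) (nat_lit 1) (nat_lit 5) (nat_lit 3) (nat_lit 4) (nat_lit 1) (nat_lit 4) (nat_lit 413) (nat_lit 282) (nat_lit 205))) (XT.nd (nat_lit 40638) (nat_lit 0) (nat_lit 684) (XT.lf (nat_lit 0) (nat_lit 2139441821722) (nat_lit 152) (nat_lit 2511848182573) (nat_lit 0) (nat_lit 2136204488198) (nat_lit 1) (nat_lit 5) (nat_lit 3) (nat_lit 4) (nat_lit 1) (nat_lit 4) (nat_lit 414) (nat_lit 282) (nat_lit 204)) (XT.lf (nat_lit 0) (nat_lit 2249485489) (nat_lit 152) (nat_lit 4797557106) (nat_lit 0) (nat_lit 2249485489) (nat_lit 10) (nat_lit 5) (nat_lit 12) (nat_lit 4) (nat_lit 10) (nat_lit 4) (nat_lit 334) (nat_lit 283) (nat_lit 283)))) (XT.nd (nat_lit 156) (nat_lit 152) (nat_lit 0) (XT.nd (nat_lit 78) (nat_lit 76) (nat_lit 0) (XT.lf (nat_lit 0) (nat_lit 9595993656) (nat_lit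 152) (nat_lit 805197776) (nat_lit 0) (nat_lit 9268936729) (nat_lit 10) (nat_lit 5) (nat_lit 12) (nat_lit 4) (nat_lit 10) (nat_lit 4) (nat_lit 335) (nat_lit 283) (nat_lit 282)) (XT.lf (nat_lit 0) (nat_lit 8654860991) (nat_lit 76) (nat_lit 6405874576) (nat_lit 76) (nat_lit 5775987161) (nat_lit 9) (nat_lit 4) (nat_lit 10) (nat_lit 5) (nat_lit 10) (nat_lit 4) (nat_lit 336) (nat_lit 283) (nat_lit 281))) (XT.nd (nat_lit 78) (nat_lit 152) (nat_lit 0) (XT.lf (nat_lit 0) (nat_lit 18463312110) (nat_lit 76) (nat_lit 2280629033) (nat_lit 76) (nat_lit 1370343018) (nat_lit 9) (nat_lit 4) (nat_lit 10) (nat_lit 5) (nat_lit 10) (nat_lit 4) (nat_lit 337) (nat_lit 283) (nat_lit 280)) (XT.nd (nat_lit 78) (nat_lit 0) (nat_lit 0) (XT.lf (nat_lit 0) (nat_lit 3170103455) (nat_lit 152) (nat_lit 18234555774) (nat_lit 0) (nat_lit 2086849428) (nat_lit 7) (nat_lit 5) (nat_lit 9) (nat_lit 4) (nat_lit 7) (nat_lit 4)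 (nat_lit 338) (nat_lit 283) (nat_lit 279)) (XT.lf (nat_lit 0) (nat_lit 7934592772) (nat_lit 152) (nat_lit 10418047039) (nat_lit 0) (nat_lit 6628749296) (nat_lit 7) (nat_lit 5) (nat_lit 9) (nat_lit 4) (nat_lit 7) (nat_lit 4) (nat_lit 339) (nat_lit 283) (nat_lit 278)))))) (XT.nd (nat_lit 312) (nat_lit 152) (nat_lit 0) (XT.nd (nat_lit 156) (nat_lit 0) (nat_lit 0) (XT.nd (nat_lit 78) (nat_lit 76) (nat_lit 0) (XT.lf (nat_lit 0) (nat_lit 12870229424) (nat_lit 152) (nat_lit 2378851315) (nat_lit 0) (nat_lit 11358284607) (nat_lit 7) (nat_lit 5) (nat_lit 9) (nat_lit 4) (nat_lit 7) (nat_lit 4) (nat_lit 340) (nat_lit 283) (nat_lit 277)) (XT.lf (nat_lit 0) (nat_lit 6242969705) (nat_lit 76) (nat_lit 11913435496) (nat_lit 76) (nat_lit 10210656103) (nat_lit 6) (nat_lit 4) (nat_lit 7) (nat_lit 5) (nat_lit 7) (nat_lit 4) (nat_lit 341) (nat_lit 283) (nat_lit 276))) (XT.nd (nat_lit 78) (nat_lit 0) (nat_lit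 0) (XT.lf (nat_lit 0) (nat_lit 15326453002) (nat_lit 76) (nat_lit 8415273696) (nat_lit 76) (nat_lit 6535795622) (nat_lit 6) (nat_lit 4) (nat_lit 7) (nat_lit 5) (nat_lit 7) (nat_lit 4) (nat_lit 342) (nat_lit 283) (nat_lit 275)) (XT.lf (nat_lit 0) (nat_lit 24800160529) (nat_lit 76) (nat_lit 4798907502) (nat_lit 76) (nat_lit 2755819539) (nat_lit 6) (nat_lit 4) (nat_lit 7) (nat_lit 5) (nat_lit 7) (nat_lit 4) (nat_lit 343) (nat_lit 283) (nat_lit 274)))) (XT.nd (nat_lit 156) (nat_lit 0) (nat_lit 0) (XT.nd (nat_lit 78) (nat_lit 0) (nat_lit 0) (XT.lf (nat_lit 0) (nat_lit 85336547) (nat_lit 76) (nat_lit 1010776505) (nat_lit 152) (nat_lit 33512974308) (nat_lit 4) (nat_lit 5) (nat_lit 5) (nat_lit 5) (nat_lit 6) (nat_lit 4) (nat_lit 344) (nat_lit 283) (nat_lit 273)) (XT.lf (nat_lit 0) (nat_lit 5228356353) (nat_lit 152) (nat_lit 28733462519) (nat_lit 0) (nat_lit 3066460323) (nat_lit 4) (nat_lit 5)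 (nat_lit 6) (nat_lit 4) (nat_lit 4) (nat_lit 4) (nat_lit 345) (nat_lit 283) (nat_lit 272))) (XT.nd (nat_lit 78) (nat_lit 0) (nat_lit 0) (XT.lf (nat_lit 0) (nat_lit 9564686119) (nat_lit 152) (nat_lit 22803968685) (nat_lit 0) (nat_lit 7282531935) (nat_lit 4) (nat_lit 5) (nat_lit 6) (nat_lit 4) (nat_lit 4) (nat_lit 4) (nat_lit 346) (nat_lit 283) (nat_lit 271)) (XT.nd (nat_lit 78) (nat_lit 0) (nat_lit 0) (XT.lf (nat_lit 0) (nat_lit 14106489920) (nat_lit 152) (nat_lit 16675822368) (nat_lit 0) (nat_lit 11712985594) (nat_lit 4) (nat_lit 5) (nat_lit 6) (nat_lit 4) (nat_lit 4) (nat_lit 4) (nat_lit 347) (nat_lit 283) (nat_lit 270)) (XT.lf (nat_lit 0) (nat_lit 18880682149) (nat_lit 152) (nat_lit 10312708628) (nat_lit 0) (nat_lit 16384075840) (nat_lit 4) (nat_lit 5) (nat_lit 6) (nat_lit 4) (nat_lit 4) (nat_lit 4) (nat_lit 348) (nat_lit 283) (nat_lit 269))))))))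
noncomputable def xc48 : XT := (XT.nd (nat_lit 1326) (nat_lit 0) (nat_lit 0) (XT.nd (nat_lit 624) (nat_lit 152) (nat_lit 0) (XT.nd (nat_lit 312) (nat_lit 0) (nat_lit 0) (XT.nd (nat_lit 156) (nat_lit 0) (nat_lit 0) (XT.nd (nat_lit 78) (nat_lit 76) (nat_lit 0) (XT.lf (nat_lit 0) (nat_lit 23915554316) (nat_lit 152) (nat_lit 3676920124) (nat_lit 0) (nat_lit 21323483207) (nat_lit 4) (nat_lit 5) (nat_lit 6) (nat_lit 4) (nat_lit 4) (nat_lit 4) (nat_lit 349) (nat_lit 283) (nat_lit 268)) (XT.lf (nat_lit 0) (nat_lit 3443104358) (nat_lit 76) (nat_lit 25880645084) (nat_lit 76) (nat_lit 23200180643) (nat_lit 3) (nat_lit 4) (nat_lit 4) (nat_lit 5) (nat_lit 4) (nat_lit 4) (nat_lit 350) (nat_lit 283) (nat_lit 267))) (XT.nd (nat_lit 78) (nat_lit 0) (nat_lit 0) (XT.lf (nat_lit 0) (nat_lit 11128516269) (nat_lit 76) (nat_lit 24027529972) (nat_lit 76) (nat_lit 21265219852) (nat_lit 3) (nat_lit 4) (nat_lit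 4) (nat_lit 5) (nat_lit 4) (nat_lit 4) (nat_lit 351) (nat_lit 283) (nat_lit 266)) (XT.lf (nat_lit 0) (nat_lit 19231238692) (nat_lit 76) (nat_lit 22122681194) (nat_lit 76) (nat_lit 19284588039) (nat_lit 3) (nat_lit 4) (nat_lit 4) (nat_lit 5) (nat_lit 4) (nat_lit 4) (nat_lit 352) (nat_lit 283) (nat_lit 265)))) (XT.nd (nat_lit 156) (nat_lit 0) (nat_lit 0) (XT.nd (nat_lit 78) (nat_lit 0) (nat_lit 0) (XT.lf (nat_lit 0) (nat_lit 27799287759) (nat_lit 76) (nat_lit 20154810758) (nat_lit 76) (nat_lit 17246548125) (nat_lit 3) (nat_lit 4) (nat_lit 4) (nat_lit 5) (nat_lit 4) (nat_lit 4) (nat_lit 353) (nat_lit 283) (nat_lit 264)) (XT.lf (nat_lit 0) (nat_lit 36883437096) (nat_lit 76) (nat_lit 18112257209) (nat_lit 76) (nat_lit 15139022838) (nat_lit 3) (nat_lit 4) (nat_lit 4) (nat_lit 5) (nat_lit 4) (nat_lit 4) (nat_lit 354) (nat_lit 283) (nat_lit 263))) (XT.nd (nat_lit 78) (nat_lit 0) (nat_lit 0) (XT.lf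 (nat_lit 0) (nat_lit 46537518698) (nat_lit 76) (nat_lit 15982916525) (nat_lit 76) (nat_lit 12949523138) (nat_lit 3) (nat_lit 4) (nat_lit 4) (nat_lit 5) (nat_lit 4) (nat_lit 4) (nat_lit 355) (nat_lit 283) (nat_lit 262)) (XT.lf (nat_lit 0) (nat_lit 56818741937) (nat_lit 76) (nat_lit 13754170393) (nat_lit 76) (nat_lit 10665074212) (nat_lit 3) (nat_lit 4) (nat_lit 4) (nat_lit 5) (nat_lit 4) (nat_lit 4) (nat_lit 356) (nat_lit 283) (nat_lit 261))))) (XT.nd (nat_lit 312) (nat_lit 152) (nat_lit 0) (XT.nd (nat_lit 156) (nat_lit 0) (nat_lit 0) (XT.nd (nat_lit 78) (nat_lit 0) (nat_lit 0) (XT.lf (nat_lit 0) (nat_lit 67788032581) (nat_lit 76) (nat_lit 11412811427) (nat_lit 76) (nat_lit 8272138585) (nat_lit 3) (nat_lit 4) (nat_lit 4) (nat_lit 5) (nat_lit 4) (nat_lit 4) (nat_lit 357) (nat_lit 283) (nat_lit 260)) (XT.lf (nat_lit 0) (nat_lit 79510393834) (nat_lit 76) (nat_lit 8944964908) (nat_lit 76)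 (nat_lit 5756535899) (nat_lit 3) (nat_lit 4) (nat_lit 4) (nat_lit 5) (nat_lit 4) (nat_lit 4) (nat_lit 358) (nat_lit 283) (nat_lit 259))) (XT.nd (nat_lit 78) (nat_lit 0) (nat_lit 0) (XT.lf (nat_lit 0) (nat_lit 92055291539) (nat_lit 76) (nat_lit 6336006559) (nat_lit 76) (nat_lit 3103358877) (nat_lit 3) (nat_lit 4) (nat_lit 4) (nat_lit 5) (nat_lit 4) (nat_lit 4) (nat_lit 359) (nat_lit 283) (nat_lit 258)) (XT.lf (nat_lit 0) (nat_lit 105497065833) (nat_lit 76) (nat_lit 3570475888) (nat_lit 76) (nat_lit 296884989) (nat_lit 3) (nat_lit 4) (nat_lit 4) (nat_lit 5) (nat_lit 4) (nat_lit 4) (nat_lit 360) (nat_lit 283) (nat_lit 257)))) (XT.nd (nat_lit 156) (nat_lit 0) (nat_lit 0) (XT.nd (nat_lit 78) (nat_lit 0) (nat_lit 0) (XT.lf (nat_lit 0) (nat_lit 2087515704) (nat_lit 76) (nat_lit 508165539) (nat_lit 152) (nat_lit 115262986492) (nat_lit 1) (nat_lit 5) (nat_lit 2) (nat_lit 5) (nat_lit 3) (nat_lit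 4) (nat_lit 361) (nat_lit 283) (nat_lit 256)) (XT.lf (nat_lit 0) (nat_lit 5827852337) (nat_lit 152) (nat_lit 118464910744) (nat_lit 0) (nat_lit 2729145399) (nat_lit 1) (nat_lit 5) (nat_lit 3) (nat_lit 4) (nat_lit 1) (nat_lit 4) (nat_lit 362) (nat_lit 283) (nat_lit 255))) (XT.nd (nat_lit 78) (nat_lit 0) (nat_lit 0) (XT.lf (nat_lit 0) (nat_lit 9284048925) (nat_lit 152) (nat_lit 121481691158) (nat_lit 0) (nat_lit 6155247502) (nat_lit 1) (nat_lit 5) (nat_lit 3) (nat_lit 4) (nat_lit 1) (nat_lit 4) (nat_lit 363) (nat_lit 283) (nat_lit 254)) (XT.nd (nat_lit 78) (nat_lit 0) (nat_lit 0) (XT.lf (nat_lit 0) (nat_lit 12972530781) (nat_lit 152) (nat_lit 124827149099) (nat_lit 0) (nat_lit 9815864092) (nat_lit 1) (nat_lit 5) (nat_lit 3) (nat_lit 4) (nat_lit 1) (nat_lit 4) (nat_lit 364) (nat_lit 283) (nat_lit 253)) (XT.lf (nat_lit 0) (nat_lit 16915155573) (nat_lit 152) (nat_lit 128521109501) (nat_lit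 0) (nat_lit 13732687713) (nat_lit 1) (nat_lit 5) (nat_lit 3) (nat_lit 4) (nat_lit 1) (nat_lit 4) (nat_lit 365) (nat_lit 283) (nat_lit 252))))))) (XT.nd (nat_lit 624) (nat_lit 0) (nat_lit 0) (XT.nd (nat_lit 312) (nat_lit 0) (nat_lit 0) (XT.nd (nat_lit 156) (nat_lit 0) (nat_lit 0) (XT.nd (nat_lit 78) (nat_lit 0) (nat_lit 0) (XT.lf (nat_lit 0) (nat_lit 21135287005) (nat_lit 152) (nat_lit 132585462502) (nat_lit 0) (nat_lit 17928929172) (nat_lit 1) (nat_lit 5) (nat_lit 3) (nat_lit 4) (nat_lit 1) (nat_lit 4) (nat_lit 366) (nat_lit 283) (nat_lit 251)) (XT.lf (nat_lit 0) (nat_lit 25657933263) (nat_lit 152) (nat_lit 137044293156) (nat_lit 0) (nat_lit 22429455084) (nat_lit 1) (nat_lit 5) (nat_lit 3) (nat_lit 4) (nat_lit 1) (nat_lit 4) (nat_lit 367) (nat_lit 283) (nat_lit 250))) (XT.nd (nat_lit 78) (nat_lit 0) (nat_lit 0) (XT.lf (nat_lit 0) (nat_lit 30509895214) (nat_lit 152) (nat_lit 141924024163)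 (nat_lit 0) (nat_lit 27260935234) (nat_lit 1) (nat_lit 5) (nat_lit 3) (nat_lit 4) (nat_lit 1) (nat_lit 4) (nat_lit 368) (nat_lit 283) (nat_lit 249)) (XT.lf (nat_lit 0) (nat_lit 35719925225) (nat_lit 152) (nat_lit 147253572447) (nat_lit 0) (nat_lit 32452000613) (nat_lit 1) (nat_lit 5) (nat_lit 3) (nat_lit 4) (nat_lit 1) (nat_lit 4) (nat_lit 369) (nat_lit 283) (nat_lit 248)))) (XT.nd (nat_lit 156) (nat_lit 0) (nat_lit 0) (XT.nd (nat_lit 78) (nat_lit 0) (nat_lit 0) (XT.lf (nat_lit 0) (nat_lit 41318897547) (nat_lit 152) (nat_lit 153064520517) (nat_lit 0) (nat_lit 38033413091) (nat_lit 1) (nat_lit 5) (nat_lit 3) (nat_lit 4) (nat_lit 1) (nat_lit 4) (nat_lit 370) (nat_lit 283) (nat_lit 247)) (XT.lf (nat_lit 0) (nat_lit 47339991276) (nat_lit 152) (nat_lit 159391303621) (nat_lit 0) (nat_lit 44038247706) (nat_lit 1) (nat_lit 5) (nat_lit 3) (nat_lit 4) (nat_lit 1) (nat_lit 4) (nat_lit 371) (nat_lit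 283) (nat_lit 246))) (XT.nd (nat_lit 78) (nat_lit 0) (nat_lit 0) (XT.lf (nat_lit 0) (nat_lit 53818886967) (nat_lit 152) (nat_lit 166271413807) (nat_lit 0) (nat_lit 50502088662) (nat_lit 1) (nat_lit 5) (nat_lit 3) (nat_lit 4) (nat_lit 1) (nat_lit 4) (nat_lit 372) (nat_lit 283) (nat_lit 245)) (XT.lf (nat_lit 0) (nat_lit 60793978077) (nat_lit 152) (nat_lit 173745622097) (nat_lit 0) (nat_lit 57463240201) (nat_lit 1) (nat_lit 5) (nat_lit 3) (nat_lit 4) (nat_lit 1) (nat_lit 4) (nat_lit 373) (nat_lit 283) (nat_lit 244))))) (XT.nd (nat_lit 312) (nat_lit 0) (nat_lit 0) (XT.nd (nat_lit 156) (nat_lit 0) (nat_lit 0) (XT.nd (nat_lit 78) (nat_lit 0) (nat_lit 0) (XT.lf (nat_lit 0) (nat_lit 68306598478) (nat_lit 152) (nat_lit 181858220098) (nat_lit 0) (nat_lit 64962953593) (nat_lit 1) (nat_lit 5) (nat_lit 3) (nat_lit 4) (nat_lit 1) (nat_lit 4) (nat_lit 374) (nat_lit 283) (nat_lit 243)) (XT.lf (nat_lit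 0) (nat_lit 76401267402) (nat_lit 152) (nat_lit 190657282463) (nat_lit 0) (nat_lit 73045671583) (nat_lit 1) (nat_lit 5) (nat_lit 3) (nat_lit 4) (nat_lit 1) (nat_lit 4) (nat_lit 375) (nat_lit 283) (nat_lit 242))) (XT.nd (nat_lit 78) (nat_lit 0) (nat_lit 0) (XT.lf (nat_lit 0) (nat_lit 85125953259) (nat_lit 152) (nat_lit 200194951784) (nat_lit 0) (nat_lit 81759291760) (nat_lit 1) (nat_lit 5) (nat_lit 3) (nat_lit 4) (nat_lit 1) (nat_lit 4) (nat_lit 376) (nat_lit 283) (nat_lit 241)) (XT.lf (nat_lit 0) (nat_lit 94532357890) (nat_lit 152) (nat_lit 210527747583) (nat_lit 0) (nat_lit 91155450391) (nat_lit 1) (nat_lit 5) (nat_lit 3) (nat_lit 4) (nat_lit 1) (nat_lit 4) (nat_lit 377) (nat_lit 283) (nat_lit 240)))) (XT.nd (nat_lit 156) (nat_lit 0) (nat_lit 0) (XT.nd (nat_lit 78) (nat_lit 0) (nat_lit 0) (XT.lf (nat_lit 0) (nat_lit 104676222952) (nat_lit 152) (nat_lit 221716901243) (nat_lit 0) (nat_lit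 101289828415) (nat_lit 1) (nat_lit 5) (nat_lit 3) (nat_lit 4) (nat_lit 1) (nat_lit 4) (nat_lit 378) (nat_lit 283) (nat_lit 239)) (XT.lf (nat_lit 0) (nat_lit 115617660238) (nat_lit 152) (nat_lit 233828718860) (nat_lit 0) (nat_lit 112222481408) (nat_lit 1) (nat_lit 5) (nat_lit 3) (nat_lit 4) (nat_lit 1) (nat_lit 4) (nat_lit 379) (nat_lit 283) (nat_lit 238))) (XT.nd (nat_lit 78) (nat_lit 0) (nat_lit 0) (XT.lf (nat_lit 0) (nat_lit 127421507895) (nat_lit 152) (nat_lit 246934974167) (nat_lit 0) (nat_lit 124018195460) (nat_lit 1) (nat_lit 5) (nat_lit 3) (nat_lit 4) (nat_lit 1) (nat_lit 4) (nat_lit 380) (nat_lit 283) (nat_lit 237)) (XT.nd (nat_lit 78) (nat_lit 0) (nat_lit 0) (XT.lf (nat_lit 0) (nat_lit 140157714650) (nat_lit 152) (nat_lit 261113333863) (nat_lit 0) (nat_lit 136746871099) (nat_lit 1) (nat_lit 5) (nat_lit 3) (nat_lit 4) (nat_lit 1) (nat_lit 4) (nat_lit 381) (nat_lit 283) (nat_lit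 236)) (XT.lf (nat_lit 0) (nat_lit 153901754320) (nat_lit 152) (nat_lit 276447817856) (nat_lit 0) (nat_lit 150483937514) (nat_lit 1) (nat_lit 5) (nat_lit 3) (nat_lit 4) (nat_lit 1) (nat_lit 4) (nat_lit 382) (nat_lit 283) (nat_lit 235))))))))
noncomputable def xc49 : XT := (XT.nd (nat_lit 1326) (nat_lit 0) (nat_lit 0) (XT.nd (nat_lit 624) (nat_lit 0) (nat_lit 0) (XT.nd (nat_lit 312) (nat_lit 0) (nat_lit 0) (XT.nd (nat_lit 156) (nat_lit 0) (nat_lit 0) (XT.nd (nat_lit 78) (nat_lit 0) (nat_lit 0) (XT.lf (nat_lit 0) (nat_lit 168735073067) (nat_lit 152) (nat_lit 293029297164) (nat_lit 0) (nat_lit 165310799543) (nat_lit 1) (nat_lit 5) (nat_lit 3) (nat_lit 4) (nat_lit 1) (nat_lit 4) (nat_lit 383) (nat_lit 283) (nat_lit 234)) (XT.lf (nat_lit 0) (nat_lit 184745572039) (nat_lit 152) (nat_lit 310956032404) (nat_lit 0) (nat_lit 181315320072) (nat_lit 1) (nat_lit 5) (nat_lit 3) (nat_lit 4) (nat_lit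 1) (nat_lit 4) (nat_lit 384) (nat_lit 283) (nat_lit 233))) (XT.nd (nat_lit 78) (nat_lit 0) (nat_lit 0) (XT.lf (nat_lit 0) (nat_lit 202028128267) (nat_lit 152) (nat_lit 330334256082) (nat_lit 0) (nat_lit 198592340705) (nat_lit 1) (nat_lit 5) (nat_lit 3) (nat_lit 4) (nat_lit 1) (nat_lit 4) (nat_lit 385) (nat_lit 283) (nat_lit 232)) (XT.lf (nat_lit 0) (nat_lit 220685156899) (nat_lit 152) (nat_lit 351278802115) (nat_lit 0) (nat_lit 217244243785) (nat_lit 1) (nat_lit 5) (nat_lit 3) (nat_lit 4) (nat_lit 1) (nat_lit 4) (nat_lit 386) (nat_lit 283) (nat_lit 231)))) (XT.nd (nat_lit 156) (nat_lit 0) (nat_lit 0) (XT.nd (nat_lit 78) (nat_lit 0) (nat_lit 0) (XT.lf (nat_lit 0) (nat_lit 240827218104) (nat_lit 152) (nat_lit 373913786332) (nat_lit 0) (nat_lit 237381559110) (nat_lit 1) (nat_lit 5) (nat_lit 3) (nat_lit 4) (nat_lit 1) (nat_lit 4) (nat_lit 387) (nat_lit 283) (nat_lit 230)) (XT.lf (nat_lit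 0) (nat_lit 262573672245) (nat_lit 152) (nat_lit 398373341973) (nat_lit 0) (nat_lit 259123618917) (nat_lit 1) (nat_lit 5) (nat_lit 3) (nat_lit 4) (nat_lit 1) (nat_lit 4) (nat_lit 388) (nat_lit 283) (nat_lit 229))) (XT.nd (nat_lit 78) (nat_lit 0) (nat_lit 0) (XT.lf (nat_lit 0) (nat_lit 286053387198) (nat_lit 152) (nat_lit 424802414552) (nat_lit 0) (nat_lit 282599265043) (nat_lit 1) (nat_lit 5) (nat_lit 3) (nat_lit 4) (nat_lit 1) (nat_lit 4) (nat_lit 389) (nat_lit 283) (nat_lit 228)) (XT.lf (nat_lit 0) (nat_lit 311405502016) (nat_lit 152) (nat_lit 453357620797) (nat_lit 0) (nat_lit 307947612428) (nat_lit 1) (nat_lit 5) (nat_lit 3) (nat_lit 4) (nat_lit 1) (nat_lit 4) (nat_lit 390) (nat_lit 283) (nat_lit 227))))) (XT.nd (nat_lit 312) (nat_lit 0) (nat_lit 0) (XT.nd (nat_lit 156) (nat_lit 0) (nat_lit 0) (XT.nd (nat_lit 78) (nat_lit 0) (nat_lit 0) (XT.lf (nat_lit 0) (nat_lit 338780251452) (nat_lit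 152) (nat_lit 484208176743) (nat_lit 0) (nat_lit 335318873500) (nat_lit 1) (nat_lit 5) (nat_lit 3) (nat_lit 4) (nat_lit 1) (nat_lit 4) (nat_lit 391) (nat_lit 283) (nat_lit 226)) (XT.lf (nat_lit 0) (nat_lit 368339856244) (nat_lit 152) (nat_lit 517536900501) (nat_lit 0) (nat_lit 364875248326) (nat_lit 1) (nat_lit 5) (nat_lit 3) (nat_lit 4) (nat_lit 1) (nat_lit 4) (nat_lit 392) (nat_lit 283) (nat_lit 225))) (XT.nd (nat_lit 78) (nat_lit 0) (nat_lit 0) (XT.lf (nat_lit 0) (nat_lit 400259484421) (nat_lit 152) (nat_lit 553541295618) (nat_lit 0) (nat_lit 396791885793) (nat_lit 1) (nat_lit 5) (nat_lit 3) (nat_lit 4) (nat_lit 1) (nat_lit 4) (nat_lit 393) (nat_lit 283) (nat_lit 224)) (XT.lf (nat_lit 0) (nat_lit 434728289334) (nat_lit 152) (nat_lit 592434721473) (nat_lit 0) (nat_lit 431257921530) (nat_lit 1) (nat_lit 5) (nat_lit 3) (nat_lit 4) (nat_lit 1) (nat_lit 4) (nat_lit 394) (nat_lit 283) (nat_lit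 223)))) (XT.nd (nat_lit 156) (nat_lit 0) (nat_lit 0) (XT.nd (nat_lit 78) (nat_lit 0) (nat_lit 0) (XT.lf (nat_lit 0) (nat_lit 471950530568) (nat_lit 152) (nat_lit 634447657627) (nat_lit 0) (nat_lit 468477598713) (nat_lit 1) (nat_lit 5) (nat_lit 3) (nat_lit 4) (nat_lit 1) (nat_lit 4) (nat_lit 395) (nat_lit 283) (nat_lit 222)) (XT.lf (nat_lit 0) (nat_lit 512146784368) (nat_lit 152) (nat_lit 679829069627) (nat_lit 0) (nat_lit 508671478391) (nat_lit 1) (nat_lit 5) (nat_lit 3) (nat_lit 4) (nat_lit 1) (nat_lit 4) (nat_lit 396) (nat_lit 283) (nat_lit 221))) (XT.nd (nat_lit 78) (nat_lit 0) (nat_lit 0) (XT.lf (nat_lit 0) (nat_lit 555555250756) (nat_lit 152) (nat_lit 728847884359) (nat_lit 0) (nat_lit 552077746518) (nat_lit 1) (nat_lit 5) (nat_lit 3) (nat_lit 4) (nat_lit 1) (nat_lit 4) (nat_lit 397) (nat_lit 283) (nat_lit 220)) (XT.nd (nat_lit 78) (nat_lit 0) (nat_lit 0) (XT.lf (nat_lit 0) (nat_lit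 602433165089) (nat_lit 152) (nat_lit 781794583688) (nat_lit 0) (nat_lit 598953625423) (nat_lit 1) (nat_lit 5) (nat_lit 3) (nat_lit 4) (nat_lit 1) (nat_lit 4) (nat_lit 398) (nat_lit 283) (nat_lit 219)) (XT.lf (nat_lit 0) (nat_lit 653058322413) (nat_lit 152) (nat_lit 838982925833) (nat_lit 0) (nat_lit 649576898094) (nat_lit 1) (nat_lit 5) (nat_lit 3) (nat_lit 4) (nat_lit 1) (nat_lit 4) (nat_lit 399) (nat_lit 283) (nat_lit 218))))))) (XT.nd (nat_lit 624) (nat_lit 0) (nat_lit 0) (XT.nd (nat_lit 312) (nat_lit 0) (nat_lit 0) (XT.nd (nat_lit 156) (nat_lit 0) (nat_lit 0) (XT.nd (nat_lit 78) (nat_lit 0) (nat_lit 0) (XT.lf (nat_lit 0) (nat_lit 707730723663) (nat_lit 152) (nat_lit 900751804673) (nat_lit 0) (nat_lit 704247554293) (nat_lit 1) (nat_lit 5) (nat_lit 3) (nat_lit 4) (nat_lit 1) (nat_lit 4) (nat_lit 400) (nat_lit 283) (nat_lit 217)) (XT.lf (nat_lit 0) (nat_lit 766774353437) (nat_lit 152)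 (nat_lit 967467258007) (nat_lit 0) (nat_lit 763289568279) (nat_lit 1) (nat_lit 5) (nat_lit 3) (nat_lit 4) (nat_lit 1) (nat_lit 4) (nat_lit 401) (nat_lit 283) (nat_lit 216))) (XT.nd (nat_lit 78) (nat_lit 0) (nat_lit 0) (XT.lf (nat_lit 0) (nat_lit 830539099912) (nat_lit 152) (nat_lit 1039524636672) (nat_lit 0) (nat_lit 827052818655) (nat_lit 1) (nat_lit 5) (nat_lit 3) (nat_lit 4) (nat_lit 1) (nat_lit 4) (nat_lit 402) (nat_lit 283) (nat_lit 215)) (XT.lf (nat_lit 0) (nat_lit 899402828252) (nat_lit 152) (nat_lit 1117350947355) (nat_lit 0) (nat_lit 895915161718) (nat_lit 1) (nat_lit 5) (nat_lit 3) (nat_lit 4) (nat_lit 1) (nat_lit 4) (nat_lit 403) (nat_lit 283) (nat_lit 214)))) (XT.nd (nat_lit 156) (nat_lit 0) (nat_lit 0) (XT.nd (nat_lit 78) (nat_lit 0) (nat_lit 0) (XT.lf (nat_lit 0) (nat_lit 973773619811) (nat_lit 152) (nat_lit 1201407383009) (nat_lit 0) (nat_lit 970284670613) (nat_lit 1) (nat_lit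 5) (nat_lit 3) (nat_lit 4) (nat_lit 1) (nat_lit 4) (nat_lit 404) (nat_lit 283) (nat_lit 213)) (XT.lf (nat_lit 0) (nat_lit 1054092190390) (nat_lit 152) (nat_lit 1292192055844) (nat_lit 0) (nat_lit 1050602053540) (nat_lit 1) (nat_lit 5) (nat_lit 3) (nat_lit 4) (nat_lit 1) (nat_lit 4) (nat_lit 405) (nat_lit 283) (nat_lit 212))) (XT.nd (nat_lit 78) (nat_lit 0) (nat_lit 0) (XT.lf (nat_lit 0) (nat_lit 1140834501889) (nat_lit 152) (nat_lit 1390242949108) (nat_lit 0) (nat_lit 1137343265361) (nat_lit 1) (nat_lit 5) (nat_lit 3) (nat_lit 4) (nat_lit 1) (nat_lit 4) (nat_lit 406) (nat_lit 283) (nat_lit 211)) (XT.lf (nat_lit 0) (nat_lit 1234514582821) (nat_lit 152) (nat_lit 1496141105130) (nat_lit 0) (nat_lit 1231022328073) (nat_lit 1) (nat_lit 5) (nat_lit 3) (nat_lit 4) (nat_lit 1) (nat_lit 4) (nat_lit 407) (nat_lit 283) (nat_lit 210))))) (XT.nd (nat_lit 312) (nat_lit 0) (nat_lit 0) (XT.nd (nat_lit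 156) (nat_lit 0) (nat_lit 0) (XT.nd (nat_lit 78) (nat_lit 0) (nat_lit 0) (XT.lf (nat_lit 0) (nat_lit 1335687574406) (nat_lit 152) (nat_lit 1610514068539) (nat_lit 0) (nat_lit 1332194376861) (nat_lit 1) (nat_lit 5) (nat_lit 3) (nat_lit 4) (nat_lit 1) (nat_lit 4) (nat_lit 408) (nat_lit 283) (nat_lit 209)) (XT.lf (nat_lit 0) (nat_lit 1444953020298) (nat_lit 152) (nat_lit 1734039605044) (nat_lit 0) (nat_lit 1441458949793) (nat_lit 1) (nat_lit 5) (nat_lit 3) (nat_lit 4) (nat_lit 1) (nat_lit 4) (nat_lit 409) (nat_lit 283) (nat_lit 208))) (XT.nd (nat_lit 78) (nat_lit 0) (nat_lit 0) (XT.lf (nat_lit 0) (nat_lit 1562958419435) (nat_lit 152) (nat_lit 1867449717825) (nat_lit 0) (nat_lit 1559463540635) (nat_lit 1) (nat_lit 5) (nat_lit 3) (nat_lit 4) (nat_lit 1) (nat_lit 4) (nat_lit 410) (nat_lit 283) (nat_lit 207)) (XT.lf (nat_lit 0) (nat_lit 1690403063072) (nat_lit 152) (nat_lit 2011534985327) (nat_lit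 0) (nat_lit 1686907435849) (nat_lit 1) (nat_lit 5) (nat_lit 3) (nat_lit 4) (nat_lit 1) (nat_lit 4) (nat_lit 411) (nat_lit 283) (nat_lit 206)))) (XT.nd (nat_lit 156) (nat_lit 0) (nat_lit 0) (XT.nd (nat_lit 78) (nat_lit 0) (nat_lit 0) (XT.lf (nat_lit 0) (nat_lit 1828042178726) (nat_lit 152) (nat_lit 2167149246172) (nat_lit 0) (nat_lit 1824545858520) (nat_lit 1) (nat_lit 5) (nat_lit 3) (nat_lit 4) (nat_lit 1) (nat_lit 4) (nat_lit 412) (nat_lit 283) (nat_lit 205)) (XT.lf (nat_lit 0) (nat_lit 1976691405601) (nat_lit 152) (nat_lit 2335214658944) (nat_lit 0) (nat_lit 1973194443744) (nat_lit 1) (nat_lit 5) (nat_lit 3) (nat_lit 4) (nat_lit 1) (nat_lit 4) (nat_lit 413) (nat_lit 283) (nat_lit 204))) (XT.nd (nat_lit 40482) (nat_lit 0) (nat_lit 836) (XT.lf (nat_lit 0) (nat_lit 2137231628005) (nat_lit 152) (nat_lit 2516727166829) (nat_lit 0) (nat_lit 2133734072026) (nat_lit 1) (nat_lit 5) (nat_lit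 3) (nat_lit 4) (nat_lit 1) (nat_lit 4) (nat_lit 414) (nat_lit 283) (nat_lit 203)) (XT.nd (nat_lit 78) (nat_lit 0) (nat_lit 0) (XT.lf (nat_lit 0) (nat_lit 3620359664) (nat_lit 76) (nat_lit 2360691927) (nat_lit 76) (nat_lit 2360691927) (nat_lit 12) (nat_lit 4) (nat_lit 13) (nat_lit 5) (nat_lit 13) (nat_lit 4) (nat_lit 332) (nat_lit 284) (nat_lit 284)) (XT.lf (nat_lit 0) (nat_lit 17044134345) (nat_lit 76) (nat_lit 475421191) (nat_lit 76) (nat_lit 93941991) (nat_lit 12) (nat_lit 4) (nat_lit 13) (nat_lit 5) (nat_lit 13) (nat_lit 4) (nat_lit 333) (nat_lit 284) (nat_lit 283))))))))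
noncomputable def xc50 : XT := (XT.nd (nat_lit 1326) (nat_lit 228) (nat_lit 0) (XT.nd (nat_lit 624) (nat_lit 152) (nat_lit 0) (XT.nd (nat_lit 312) (nat_lit 228) (nat_lit 0) (XT.nd (nat_lit 156) (nat_lit 76) (nat_lit 0) (XT.nd (nat_lit 78) (nat_lit 0) (nat_lit 0) (XT.lf (nat_lit 0) (nat_lit 4723323435) (nat_lit 152) (nat_lit 9837076886) (nat_lit 0) (nat_lit 4043045027) (nat_lit 10) (nat_lit 5) (nat_lit 12) (nat_lit 4) (nat_lit 10) (nat_lit 4) (nat_lit 334) (nat_lit 284) (nat_lit 282)) (XT.lf (nat_lit 0) (nat_lit 9701022942) (nat_lit 152) (nat_lit 1271199960) (nat_lit 0) (nat_lit 8717914045) (nat_lit 10) (nat_lit 5) (nat_lit 12) (nat_lit 4) (nat_lit 10) (nat_lit 4) (nat_lit 335) (nat_lit 284) (nat_lit 281))) (XT.nd (nat_lit 78) (nat_lit 0) (nat_lit 0) (XT.lf (nat_lit 0) (nat_lit 7945952332) (nat_lit 76) (nat_lit 7092278833) (nat_lit 76) (nat_lit 5828771336) (nat_lit 9) (nat_lit 4) (nat_lit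 10) (nat_lit 5) (nat_lit 10) (nat_lit 4) (nat_lit 336) (nat_lit 284) (nat_lit 280)) (XT.lf (nat_lit 0) (nat_lit 17552211205) (nat_lit 76) (nat_lit 3062062421) (nat_lit 76) (nat_lit 1538926591) (nat_lit 9) (nat_lit 4) (nat_lit 10) (nat_lit 5) (nat_lit 10) (nat_lit 4) (nat_lit 337) (nat_lit 284) (nat_lit 279)))) (XT.nd (nat_lit 156) (nat_lit 76) (nat_lit 0) (XT.nd (nat_lit 78) (nat_lit 0) (nat_lit 0) (XT.lf (nat_lit 0) (nat_lit 2857439265) (nat_lit 152) (nat_lit 19461026260) (nat_lit 0) (nat_lit 1224538862) (nat_lit 7) (nat_lit 5) (nat_lit 9) (nat_lit 4) (nat_lit 7) (nat_lit 4) (nat_lit 338) (nat_lit 284) (nat_lit 278)) (XT.lf (nat_lit 0) (nat_lit 7520961365) (nat_lit 152) (nat_lit 11838091424) (nat_lit 0) (nat_lit 5681959621) (nat_lit 7) (nat_lit 5) (nat_lit 9) (nat_lit 4) (nat_lit 7) (nat_lit 4) (nat_lit 339) (nat_lit 284) (nat_lit 277))) (XT.nd (nat_lit 78) (nat_lit 76) (nat_lit 0) (XT.lf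 (nat_lit 0) (nat_lit 12363109855) (nat_lit 152) (nat_lit 3978130791) (nat_lit 0) (nat_lit 10333273535) (nat_lit 7) (nat_lit 5) (nat_lit 9) (nat_lit 4) (nat_lit 7) (nat_lit 4) (nat_lit 340) (nat_lit 284) (nat_lit 276)) (XT.lf (nat_lit 0) (nat_lit 4384777512) (nat_lit 76) (nat_lit 13133255439) (nat_lit 76) (nat_lit 10926720438) (nat_lit 6) (nat_lit 4) (nat_lit 7) (nat_lit 5) (nat_lit 7) (nat_lit 4) (nat_lit 341) (nat_lit 284) (nat_lit 275))))) (XT.nd (nat_lit 312) (nat_lit 0) (nat_lit 0) (XT.nd (nat_lit 156) (nat_lit 152) (nat_lit 0) (XT.nd (nat_lit 78) (nat_lit 0) (nat_lit 0) (XT.lf (nat_lit 0) (nat_lit 13306503869) (nat_lit 76) (nat_lit 9712809288) (nat_lit 76) (nat_lit 7342664397) (nat_lit 6) (nat_lit 4) (nat_lit 7) (nat_lit 5) (nat_lit 7) (nat_lit 4) (nat_lit 342) (nat_lit 284) (nat_lit 274)) (XT.lf (nat_lit 0) (nat_lit 22630436453) (nat_lit 76) (nat_lit 6168402029) (nat_lit 76) (nat_lit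 3646766499) (nat_lit 6) (nat_lit 4) (nat_lit 7) (nat_lit 5) (nat_lit 7) (nat_lit 4) (nat_lit 343) (nat_lit 284) (nat_lit 273))) (XT.nd (nat_lit 78) (nat_lit 76) (nat_lit 0) (XT.lf (nat_lit 0) (nat_lit 173726730) (nat_lit 152) (nat_lit 2300553040) (nat_lit 76) (nat_lit 32233351469) (nat_lit 5) (nat_lit 5) (nat_lit 7) (nat_lit 5) (nat_lit 6) (nat_lit 4) (nat_lit 344) (nat_lit 284) (nat_lit 272)) (XT.lf (nat_lit 0) (nat_lit 4137582091) (nat_lit 152) (nat_lit 31450143887) (nat_lit 0) (nat_lit 1552597420) (nat_lit 4) (nat_lit 5) (nat_lit 6) (nat_lit 4) (nat_lit 4) (nat_lit 4) (nat_lit 345) (nat_lit 284) (nat_lit 271)))) (XT.nd (nat_lit 156) (nat_lit 0) (nat_lit 0) (XT.nd (nat_lit 78) (nat_lit 0) (nat_lit 0) (XT.lf (nat_lit 0) (nat_lit 8405915537) (nat_lit 152) (nat_lit 25653201506) (nat_lit 0) (nat_lit 5709580723) (nat_lit 4) (nat_lit 5) (nat_lit 6) (nat_lit 4) (nat_lit 4) (nat_lit 4) (nat_lit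 346) (nat_lit 284) (nat_lit 270)) (XT.lf (nat_lit 0) (nat_lit 12884759782) (nat_lit 152) (nat_lit 19647788017) (nat_lit 0) (nat_lit 10085322985) (nat_lit 4) (nat_lit 5) (nat_lit 6) (nat_lit 4) (nat_lit 4) (nat_lit 4) (nat_lit 347) (nat_lit 284) (nat_lit 269))) (XT.nd (nat_lit 78) (nat_lit 0) (nat_lit 0) (XT.lf (nat_lit 0) (nat_lit 17600656126) (nat_lit 152) (nat_lit 13398315785) (nat_lit 0) (nat_lit 14705754530) (nat_lit 4) (nat_lit 5) (nat_lit 6) (nat_lit 4) (nat_lit 4) (nat_lit 4) (nat_lit 348) (nat_lit 284) (nat_lit 268)) (XT.nd (nat_lit 78) (nat_lit 0) (nat_lit 0) (XT.lf (nat_lit 0) (nat_lit 22581550622) (nat_lit 152) (nat_lit 6867750899) (nat_lit 0) (nat_lit 19598255693) (nat_lit 4) (nat_lit 5) (nat_lit 6) (nat_lit 4) (nat_lit 4) (nat_lit 4) (nat_lit 349) (nat_lit 284) (nat_lit 267)) (XT.lf (nat_lit 0) (nat_lit 27856959680) (nat_lit 152) (nat_lit 17393717) (nat_lit 0) (nat_lit 24791819073)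 (nat_lit 4) (nat_lit 5) (nat_lit 6) (nat_lit 4) (nat_lit 4) (nat_lit 4) (nat_lit 350) (nat_lit 284) (nat_lit 266))))))) (XT.nd (nat_lit 624) (nat_lit 152) (nat_lit 0) (XT.nd (nat_lit 312) (nat_lit 0) (nat_lit 0) (XT.nd (nat_lit 156) (nat_lit 0) (nat_lit 0) (XT.nd (nat_lit 78) (nat_lit 0) (nat_lit 0) (XT.lf (nat_lit 0) (nat_lit 7572139559) (nat_lit 76) (nat_lit 26068115564) (nat_lit 76) (nat_lit 22927191921) (nat_lit 3) (nat_lit 4) (nat_lit 4) (nat_lit 5) (nat_lit 4) (nat_lit 4) (nat_lit 351) (nat_lit 284) (nat_lit 265)) (XT.lf (nat_lit 0) (nat_lit 15586933545) (nat_lit 76) (nat_lit 24206231327) (nat_lit 76) (nat_lit 20995138206) (nat_lit 3) (nat_lit 4) (nat_lit 4) (nat_lit 5) (nat_lit 4) (nat_lit 4) (nat_lit 352) (nat_lit 284) (nat_lit 264))) (XT.nd (nat_lit 78) (nat_lit 0) (nat_lit 0) (XT.lf (nat_lit 0) (nat_lit 24073567393) (nat_lit 76) (nat_lit 22278142872) (nat_lit 76) (nat_lit 19002078013)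 (nat_lit 3) (nat_lit 4) (nat_lit 4) (nat_lit 5) (nat_lit 4) (nat_lit 4) (nat_lit 353) (nat_lit 284) (nat_lit 263)) (XT.lf (nat_lit 0) (nat_lit 33082332267) (nat_lit 76) (nat_lit 20272424491) (nat_lit 76) (nat_lit 16936200615) (nat_lit 3) (nat_lit 4) (nat_lit 4) (nat_lit 5) (nat_lit 4) (nat_lit 4) (nat_lit 354) (nat_lit 284) (nat_lit 262)))) (XT.nd (nat_lit 156) (nat_lit 0) (nat_lit 0) (XT.nd (nat_lit 78) (nat_lit 0) (nat_lit 0) (XT.lf (nat_lit 0) (nat_lit 42666613441) (nat_lit 76) (nat_lit 18177190445) (nat_lit 76) (nat_lit 14785263776) (nat_lit 3) (nat_lit 4) (nat_lit 4) (nat_lit 5) (nat_lit 4) (nat_lit 4) (nat_lit 355) (nat_lit 284) (nat_lit 261)) (XT.lf (nat_lit 0) (nat_lit 52883206654) (nat_lit 76) (nat_lit 15980024533) (nat_lit 76) (nat_lit 12536521203) (nat_lit 3) (nat_lit 4) (nat_lit 4) (nat_lit 5) (nat_lit 4) (nat_lit 4) (nat_lit 356) (nat_lit 284) (nat_lit 260))) (XT.nd (nat_lit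 78) (nat_lit 0) (nat_lit 0) (XT.lf (nat_lit 0) (nat_lit 63792654681) (nat_lit 76) (nat_lit 13667906511) (nat_lit 76) (nat_lit 10176647014) (nat_lit 3) (nat_lit 4) (nat_lit 4) (nat_lit 5) (nat_lit 4) (nat_lit 4) (nat_lit 357) (nat_lit 284) (nat_lit 259)) (XT.lf (nat_lit 0) (nat_lit 75459606103) (nat_lit 76) (nat_lit 11227134940) (nat_lit 76) (nat_lit 7691656769) (nat_lit 3) (nat_lit 4) (nat_lit 4) (nat_lit 5) (nat_lit 4) (nat_lit 4) (nat_lit 358) (nat_lit 284) (nat_lit 258))))) (XT.nd (nat_lit 312) (nat_lit 0) (nat_lit 0) (XT.nd (nat_lit 156) (nat_lit 152) (nat_lit 0) (XT.nd (nat_lit 78) (nat_lit 0) (nat_lit 0) (XT.lf (nat_lit 0) (nat_lit 87953198410) (nat_lit 76) (nat_lit 8643245988) (nat_lit 76) (nat_lit 5066824601) (nat_lit 3) (nat_lit 4) (nat_lit 4) (nat_lit 5) (nat_lit 4) (nat_lit 4) (nat_lit 359) (nat_lit 284) (nat_lit 257)) (XT.lf (nat_lit 0) (nat_lit 101347467705) (nat_lit 76)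 (nat_lit 5900927721) (nat_lit 76) (nat_lit 2286595949) (nat_lit 3) (nat_lit 4) (nat_lit 4) (nat_lit 5) (nat_lit 4) (nat_lit 4) (nat_lit 360) (nat_lit 284) (nat_lit 256))) (XT.nd (nat_lit 78) (nat_lit 76) (nat_lit 0) (XT.lf (nat_lit 0) (nat_lit 632213380) (nat_lit 152) (nat_lit 2334430148) (nat_lit 76) (nat_lit 115072288220) (nat_lit 2) (nat_lit 5) (nat_lit 4) (nat_lit 5) (nat_lit 3) (nat_lit 4) (nat_lit 361) (nat_lit 284) (nat_lit 255)) (XT.lf (nat_lit 0) (nat_lit 3721668038) (nat_lit 152) (nat_lit 123179461085) (nat_lit 0) (nat_lit 312468014) (nat_lit 1) (nat_lit 5) (nat_lit 3) (nat_lit 4) (nat_lit 1) (nat_lit 4) (nat_lit 362) (nat_lit 284) (nat_lit 254)))) (XT.nd (nat_lit 156) (nat_lit 0) (nat_lit 0) (XT.nd (nat_lit 78) (nat_lit 0) (nat_lit 0) (XT.lf (nat_lit 0) (nat_lit 7156609597) (nat_lit 152) (nat_lit 126238229525) (nat_lit 0) (nat_lit 3719544309) (nat_lit 1) (nat_lit 5) (nat_lit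 3) (nat_lit 4) (nat_lit 1) (nat_lit 4) (nat_lit 363) (nat_lit 284) (nat_lit 253)) (XT.lf (nat_lit 0) (nat_lit 10825410870) (nat_lit 152) (nat_lit 129622565267) (nat_lit 0) (nat_lit 7362544411) (nat_lit 1) (nat_lit 5) (nat_lit 3) (nat_lit 4) (nat_lit 1) (nat_lit 4) (nat_lit 364) (nat_lit 284) (nat_lit 252))) (XT.nd (nat_lit 78) (nat_lit 0) (nat_lit 0) (XT.lf (nat_lit 0) (nat_lit 14749812902) (nat_lit 152) (nat_lit 133352523634) (nat_lit 0) (nat_lit 11263056468) (nat_lit 1) (nat_lit 5) (nat_lit 3) (nat_lit 4) (nat_lit 1) (nat_lit 4) (nat_lit 365) (nat_lit 284) (nat_lit 251)) (XT.nd (nat_lit 78) (nat_lit 0) (nat_lit 0) (XT.lf (nat_lit 0) (nat_lit 18953071406) (nat_lit 152) (nat_lit 137450208084) (nat_lit 0) (nat_lit 15444194627) (nat_lit 1) (nat_lit 5) (nat_lit 3) (nat_lit 4) (nat_lit 1) (nat_lit 4) (nat_lit 366) (nat_lit 284) (nat_lit 250)) (XT.lf (nat_lit 0) (nat_lit 23460094584) (nat_lit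 152) (nat_lit 141939901190) (nat_lit 0) (nat_lit 19930736003) (nat_lit 1) (nat_lit 5) (nat_lit 3) (nat_lit 4) (nat_lit 1) (nat_lit 4) (nat_lit 367) (nat_lit 284) (nat_lit 249))))))))
noncomputable def xc51 : XT := (XT.nd (nat_lit 1326) (nat_lit 0) (nat_lit 0) (XT.nd (nat_lit 624) (nat_lit 0) (nat_lit 0) (XT.nd (nat_lit 312) (nat_lit 0) (nat_lit 0) (XT.nd (nat_lit 156) (nat_lit 0) (nat_lit 0) (XT.nd (nat_lit 78) (nat_lit 0) (nat_lit 0) (XT.lf (nat_lit 0) (nat_lit 28297590719) (nat_lit 152) (nat_lit 146848208541) (nat_lit 0) (nat_lit 24749267507) (nat_lit 1) (nat_lit 5) (nat_lit 3) (nat_lit 4) (nat_lit 1) (nat_lit 4) (nat_lit 368) (nat_lit 284) (nat_lit 248)) (XT.lf (nat_lit 0) (nat_lit 33494226456) (nat_lit 152) (nat_lit 152204216404) (nat_lit 0) (nat_lit 29928343400) (nat_lit 1) (nat_lit 5) (nat_lit 3) (nat_lit 4) (nat_lit 1) (nat_lit 4) (nat_lit 369) (nat_lit 284) (nat_lit 247))) (XT.nd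 (nat_lit 78) (nat_lit 0) (nat_lit 0) (XT.lf (nat_lit 0) (nat_lit 39080796673) (nat_lit 152) (nat_lit 158039664084) (nat_lit 0) (nat_lit 35498654503) (nat_lit 1) (nat_lit 5) (nat_lit 3) (nat_lit 4) (nat_lit 1) (nat_lit 4) (nat_lit 370) (nat_lit 284) (nat_lit 246)) (XT.lf (nat_lit 0) (nat_lit 45090406971) (nat_lit 152) (nat_lit 164389132011) (nat_lit 0) (nat_lit 41493210066) (nat_lit 1) (nat_lit 5) (nat_lit 3) (nat_lit 4) (nat_lit 1) (nat_lit 4) (nat_lit 371) (nat_lit 284) (nat_lit 245)))) (XT.nd (nat_lit 156) (nat_lit 0) (nat_lit 0) (XT.nd (nat_lit 78) (nat_lit 0) (nat_lit 0) (XT.lf (nat_lit 0) (nat_lit 51558669856) (nat_lit 152) (nat_lit 171290246663) (nat_lit 0) (nat_lit 47947533381) (nat_lit 1) (nat_lit 5) (nat_lit 3) (nat_lit 4) (nat_lit 1) (nat_lit 4) (nat_lit 372) (nat_lit 284) (nat_lit 244)) (XT.lf (nat_lit 0) (nat_lit 58523915775) (nat_lit 152) (nat_lit 178783903534) (nat_lit 0)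 (nat_lit 54899872290) (nat_lit 1) (nat_lit 5) (nat_lit 3) (nat_lit 4) (nat_lit 1) (nat_lit 4) (nat_lit 373) (nat_lit 284) (nat_lit 243))) (XT.nd (nat_lit 78) (nat_lit 0) (nat_lit 0) (XT.lf (nat_lit 0) (nat_lit 66027420258) (nat_lit 152) (nat_lit 186914509479) (nat_lit 0) (nat_lit 62391425839) (nat_lit 1) (nat_lit 5) (nat_lit 3) (nat_lit 4) (nat_lit 1) (nat_lit 4) (nat_lit 374) (nat_lit 284) (nat_lit 242)) (XT.lf (nat_lit 0) (nat_lit 74113648518) (nat_lit 152) (nat_lit 195730245866) (nat_lit 0) (nat_lit 70466588419) (nat_lit 1) (nat_lit 5) (nat_lit 3) (nat_lit 4) (nat_lit 1) (nat_lit 4) (nat_lit 375) (nat_lit 284) (nat_lit 241))))) (XT.nd (nat_lit 312) (nat_lit 0) (nat_lit 0) (XT.nd (nat_lit 156) (nat_lit 0) (nat_lit 0) (XT.nd (nat_lit 78) (nat_lit 0) (nat_lit 0) (XT.lf (nat_lit 0) (nat_lit 82830518945) (nat_lit 152) (nat_lit 205283354097) (nat_lit 0) (nat_lit 79173212846) (nat_lit 1)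 (nat_lit 5) (nat_lit 3) (nat_lit 4) (nat_lit 1) (nat_lit 4) (nat_lit 376) (nat_lit 284) (nat_lit 240)) (XT.lf (nat_lit 0) (nat_lit 92229687066) (nat_lit 152) (nat_lit 215630445183) (nat_lit 0) (nat_lit 88562893930) (nat_lit 1) (nat_lit 5) (nat_lit 3) (nat_lit 4) (nat_lit 1) (nat_lit 4) (nat_lit 377) (nat_lit 284) (nat_lit 239))) (XT.nd (nat_lit 78) (nat_lit 0) (nat_lit 0) (XT.lf (nat_lit 0) (nat_lit 102366851657) (nat_lit 152) (nat_lit 226832835220) (nat_lit 0) (nat_lit 98691274227) (nat_lit 1) (nat_lit 5) (nat_lit 3) (nat_lit 4) (nat_lit 1) (nat_lit 4) (nat_lit 378) (nat_lit 284) (nat_lit 238)) (XT.lf (nat_lit 0) (nat_lit 113302084802) (nat_lit 152) (nat_lit 238956908741) (nat_lit 0) (nat_lit 109618373767) (nat_lit 1) (nat_lit 5) (nat_lit 3) (nat_lit 4) (nat_lit 1) (nat_lit 4) (nat_lit 379) (nat_lit 284) (nat_lit 237)))) (XT.nd (nat_lit 156) (nat_lit 0) (nat_lit 0) (XT.nd (nat_lit 78)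 (nat_lit 0) (nat_lit 0) (XT.lf (nat_lit 0) (nat_lit 125100187885) (nat_lit 152) (nat_lit 252074512108) (nat_lit 0) (nat_lit 121408945734) (nat_lit 1) (nat_lit 5) (nat_lit 3) (nat_lit 4) (nat_lit 1) (nat_lit 4) (nat_lit 380) (nat_lit 284) (nat_lit 236)) (XT.lf (nat_lit 0) (nat_lit 137831075590) (nat_lit 152) (nat_lit 266263379266) (nat_lit 0) (nat_lit 134132860183) (nat_lit 1) (nat_lit 5) (nat_lit 3) (nat_lit 4) (nat_lit 1) (nat_lit 4) (nat_lit 381) (nat_lit 284) (nat_lit 235))) (XT.nd (nat_lit 78) (nat_lit 0) (nat_lit 0) (XT.lf (nat_lit 0) (nat_lit 151570190213) (nat_lit 152) (nat_lit 281607592392) (nat_lit 0) (nat_lit 147865518089) (nat_lit 1) (nat_lit 5) (nat_lit 3) (nat_lit 4) (nat_lit 1) (nat_lit 4) (nat_lit 382) (nat_lit 284) (nat_lit 234)) (XT.nd (nat_lit 78) (nat_lit 0) (nat_lit 0) (XT.lf (nat_lit 0) (nat_lit 166398948732) (nat_lit 152) (nat_lit 298198080156) (nat_lit 0) (nat_lit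 162688298165) (nat_lit 1) (nat_lit 5) (nat_lit 3) (nat_lit 4) (nat_lit 1) (nat_lit 4) (nat_lit 383) (nat_lit 284) (nat_lit 233)) (XT.lf (nat_lit 0) (nat_lit 182405225271) (nat_lit 152) (nat_lit 316133156558) (nat_lit 0) (nat_lit 178689039108) (nat_lit 1) (nat_lit 5) (nat_lit 3) (nat_lit 4) (nat_lit 1) (nat_lit 4) (nat_lit 384) (nat_lit 284) (nat_lit 232))))))) (XT.nd (nat_lit 702) (nat_lit 0) (nat_lit 0) (XT.nd (nat_lit 312) (nat_lit 0) (nat_lit 0) (XT.nd (nat_lit 156) (nat_lit 0) (nat_lit 0) (XT.nd (nat_lit 78) (nat_lit 0) (nat_lit 0) (XT.lf (nat_lit 0) (nat_lit 199683871838) (nat_lit 152) (nat_lit 335519103535) (nat_lit 0) (nat_lit 195962560124) (nat_lit 1) (nat_lit 5) (nat_lit 3) (nat_lit 4) (nat_lit 1) (nat_lit 4) (nat_lit 385) (nat_lit 284) (nat_lit 231)) (XT.lf (nat_lit 0) (nat_lit 218337280413) (nat_lit 152) (nat_lit 356470800771) (nat_lit 0) (nat_lit 214611222819) (nat_lit 1)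 (nat_lit 5) (nat_lit 3) (nat_lit 4) (nat_lit 1) (nat_lit 4) (nat_lit 386) (nat_lit 284) (nat_lit 230))) (XT.nd (nat_lit 78) (nat_lit 0) (nat_lit 0) (XT.lf (nat_lit 0) (nat_lit 238475989714) (nat_lit 152) (nat_lit 379112406471) (nat_lit 0) (nat_lit 234745537786) (nat_lit 1) (nat_lit 5) (nat_lit 3) (nat_lit 4) (nat_lit 1) (nat_lit 4) (nat_lit 387) (nat_lit 284) (nat_lit 229)) (XT.lf (nat_lit 0) (nat_lit 260219340240) (nat_lit 152) (nat_lit 403578093116) (nat_lit 0) (nat_lit 256484819485) (nat_lit 1) (nat_lit 5) (nat_lit 3) (nat_lit 4) (nat_lit 1) (nat_lit 4) (nat_lit 388) (nat_lit 284) (nat_lit 228)))) (XT.nd (nat_lit 156) (nat_lit 0) (nat_lit 0) (XT.nd (nat_lit 78) (nat_lit 0) (nat_lit 0) (XT.lf (nat_lit 0) (nat_lit 283696181476) (nat_lit 152) (nat_lit 430012842550) (nat_lit 0) (nat_lit 279957893288) (nat_lit 1) (nat_lit 5) (nat_lit 3) (nat_lit 4) (nat_lit 1) (nat_lit 4) (nat_lit 389)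 (nat_lit 284) (nat_lit 227)) (XT.lf (nat_lit 0) (nat_lit 309045635444) (nat_lit 152) (nat_lit 458573305142) (nat_lit 0) (nat_lit 305303858892) (nat_lit 1) (nat_lit 5) (nat_lit 3) (nat_lit 4) (nat_lit 1) (nat_lit 4) (nat_lit 390) (nat_lit 284) (nat_lit 226))) (XT.nd (nat_lit 78) (nat_lit 0) (nat_lit 0) (XT.lf (nat_lit 0) (nat_lit 336417921131) (nat_lit 152) (nat_lit 489428728077) (nat_lit 0) (nat_lit 332672914613) (nat_lit 1) (nat_lit 5) (nat_lit 3) (nat_lit 4) (nat_lit 1) (nat_lit 4) (nat_lit 391) (nat_lit 284) (nat_lit 225)) (XT.nd (nat_lit 78) (nat_lit 0) (nat_lit 0) (XT.lf (nat_lit 0) (nat_lit 365975244674) (nat_lit 152) (nat_lit 522761958305) (nat_lit 0) (nat_lit 362227247446) (nat_lit 1) (nat_lit 5) (nat_lit 3) (nat_lit 4) (nat_lit 1) (nat_lit 4) (nat_lit 392) (nat_lit 284) (nat_lit 224)) (XT.lf (nat_lit 0) (nat_lit 397892760582) (nat_lit 152) (nat_lit 558770526080) (nat_lit 0) (nat_lit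 394141994178) (nat_lit 1) (nat_lit 5) (nat_lit 3) (nat_lit 4) (nat_lit 1) (nat_lit 4) (nat_lit 393) (nat_lit 284) (nat_lit 223)))))) (XT.nd (nat_lit 312) (nat_lit 0) (nat_lit 0) (XT.nd (nat_lit 156) (nat_lit 0) (nat_lit 0) (XT.nd (nat_lit 78) (nat_lit 0) (nat_lit 0) (XT.lf (nat_lit 0) (nat_lit 432359609692) (nat_lit 152) (nat_lit 597667815508) (nat_lit 0) (nat_lit 428606279236) (nat_lit 1) (nat_lit 5) (nat_lit 3) (nat_lit 4) (nat_lit 1) (nat_lit 4) (nat_lit 394) (nat_lit 284) (nat_lit 222)) (XT.lf (nat_lit 0) (nat_lit 469580039997) (nat_lit 152) (nat_lit 639684329043) (nat_lit 0) (nat_lit 465824335419) (nat_lit 1) (nat_lit 5) (nat_lit 3) (nat_lit 4) (nat_lit 1) (nat_lit 4) (nat_lit 395) (nat_lit 284) (nat_lit 221))) (XT.nd (nat_lit 78) (nat_lit 0) (nat_lit 0) (XT.lf (nat_lit 0) (nat_lit 509774617010) (nat_lit 152) (nat_lit 685069053433) (nat_lit 0) (nat_lit 506016714172) (nat_lit 1) (nat_lit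 5) (nat_lit 3) (nat_lit 4) (nat_lit 1) (nat_lit 4) (nat_lit 396) (nat_lit 284) (nat_lit 220)) (XT.lf (nat_lit 0) (nat_lit 553181530818) (nat_lit 152) (nat_lit 734090935194) (nat_lit 0) (nat_lit 549421592553) (nat_lit 1) (nat_lit 5) (nat_lit 3) (nat_lit 4) (nat_lit 1) (nat_lit 4) (nat_lit 397) (nat_lit 284) (nat_lit 219)))) (XT.nd (nat_lit 156) (nat_lit 0) (nat_lit 0) (XT.nd (nat_lit 78) (nat_lit 0) (nat_lit 0) (XT.lf (nat_lit 0) (nat_lit 600058007576) (nat_lit 152) (nat_lit 787040474364) (nat_lit 0) (nat_lit 596296184657) (nat_lit 1) (nat_lit 5) (nat_lit 3) (nat_lit 4) (nat_lit 1) (nat_lit 4) (nat_lit 398) (nat_lit 284) (nat_lit 218)) (XT.lf (nat_lit 0) (nat_lit 650681833814) (nat_lit 152) (nat_lit 844231445991) (nat_lit 0) (nat_lit 646918265844) (nat_lit 1) (nat_lit 5) (nat_lit 3) (nat_lit 4) (nat_lit 1) (nat_lit 4) (nat_lit 399) (nat_lit 284) (nat_lit 217))) (XT.nd (nat_lit 78) (nat_lit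 0) (nat_lit 0) (XT.lf (nat_lit 0) (nat_lit 705353002575) (nat_lit 152) (nat_lit 906002759536) (nat_lit 0) (nat_lit 701587818817) (nat_lit 1) (nat_lit 5) (nat_lit 3) (nat_lit 4) (nat_lit 1) (nat_lit 4) (nat_lit 400) (nat_lit 284) (nat_lit 216)) (XT.nd (nat_lit 78) (nat_lit 0) (nat_lit 0) (XT.lf (nat_lit 0) (nat_lit 764395491156) (nat_lit 152) (nat_lit 972720467228) (nat_lit 0) (nat_lit 760628811299) (nat_lit 1) (nat_lit 5) (nat_lit 3) (nat_lit 4) (nat_lit 1) (nat_lit 4) (nat_lit 401) (nat_lit 284) (nat_lit 215)) (XT.lf (nat_lit 0) (nat_lit 828159180971) (nat_lit 152) (nat_lit 1044779933261) (nat_lit 0) (nat_lit 824391115837) (nat_lit 1) (nat_lit 5) (nat_lit 3) (nat_lit 4) (nat_lit 1) (nat_lit 4) (nat_lit 402) (nat_lit 284) (nat_lit 214))))))))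
noncomputable def xc52 : XT := (XT.nd (nat_lit 41574) (nat_lit 0) (nat_lit 152) (XT.nd (nat_lit 624) (nat_lit 0) (nat_lit 0) (XT.nd (nat_lit 312) (nat_lit 0) (nat_lit 0) (XT.nd (nat_lit 156) (nat_lit 0) (nat_lit 0) (XT.nd (nat_lit 78) (nat_lit 0) (nat_lit 0) (XT.lf (nat_lit 0) (nat_lit 897021930923) (nat_lit 152) (nat_lit 1122608176692) (nat_lit 0) (nat_lit 893252583124) (nat_lit 1) (nat_lit 5) (nat_lit 3) (nat_lit 4) (nat_lit 1) (nat_lit 4) (nat_lit 403) (nat_lit 284) (nat_lit 213)) (XT.lf (nat_lit 0) (nat_lit 971391816566) (nat_lit 152) (nat_lit 1206666401927) (nat_lit 0) (nat_lit 967621281116) (nat_lit 1) (nat_lit 5) (nat_lit 3) (nat_lit 4) (nat_lit 1) (nat_lit 4) (nat_lit 404) (nat_lit 284) (nat_lit 212))) (XT.nd (nat_lit 78) (nat_lit 0) (nat_lit 0) (XT.lf (nat_lit 0) (nat_lit 1051709548335) (nat_lit 152) (nat_lit 1297452731782) (nat_lit 0) (nat_lit 1047937913207) (nat_lit 1) (nat_lit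 5) (nat_lit 3) (nat_lit 4) (nat_lit 1) (nat_lit 4) (nat_lit 405) (nat_lit 284) (nat_lit 211)) (XT.lf (nat_lit 0) (nat_lit 1138451083157) (nat_lit 152) (nat_lit 1395505159323) (nat_lit 0) (nat_lit 1134678429809) (nat_lit 1) (nat_lit 5) (nat_lit 3) (nat_lit 4) (nat_lit 1) (nat_lit 4) (nat_lit 406) (nat_lit 284) (nat_lit 210)))) (XT.nd (nat_lit 156) (nat_lit 0) (nat_lit 0) (XT.nd (nat_lit 78) (nat_lit 0) (nat_lit 0) (XT.lf (nat_lit 0) (nat_lit 1232130444944) (nat_lit 152) (nat_lit 1501404735973) (nat_lit 0) (nat_lit 1228356848800) (nat_lit 1) (nat_lit 5) (nat_lit 3) (nat_lit 4) (nat_lit 1) (nat_lit 4) (nat_lit 407) (nat_lit 284) (nat_lit 209)) (XT.lf (nat_lit 0) (nat_lit 1333302770654) (nat_lit 152) (nat_lit 1615779014778) (nat_lit 0) (nat_lit 1329528301550) (nat_lit 1) (nat_lit 5) (nat_lit 3) (nat_lit 4) (nat_lit 1) (nat_lit 4) (nat_lit 408) (nat_lit 284) (nat_lit 208))) (XT.nd (nat_lit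 78) (nat_lit 0) (nat_lit 0) (XT.lf (nat_lit 0) (nat_lit 1442567599995) (nat_lit 152) (nat_lit 1739305769242) (nat_lit 0) (nat_lit 1438792322594) (nat_lit 1) (nat_lit 5) (nat_lit 3) (nat_lit 4) (nat_lit 1) (nat_lit 4) (nat_lit 409) (nat_lit 284) (nat_lit 207)) (XT.lf (nat_lit 0) (nat_lit 1560572428251) (nat_lit 152) (nat_lit 1872717009763) (nat_lit 0) (nat_lit 1556796402429) (nat_lit 1) (nat_lit 5) (nat_lit 3) (nat_lit 4) (nat_lit 1) (nat_lit 4) (nat_lit 410) (nat_lit 284) (nat_lit 206))))) (XT.nd (nat_lit 40560) (nat_lit 0) (nat_lit 684) (XT.nd (nat_lit 156) (nat_lit 0) (nat_lit 0) (XT.nd (nat_lit 78) (nat_lit 0) (nat_lit 0) (XT.lf (nat_lit 0) (nat_lit 1688016543295) (nat_lit 152) (nat_lit 2016803321468) (nat_lit 0) (nat_lit 1684239824489) (nat_lit 1) (nat_lit 5) (nat_lit 3) (nat_lit 4) (nat_lit 1) (nat_lit 4) (nat_lit 411) (nat_lit 284) (nat_lit 205)) (XT.lf (nat_lit 0) (nat_lit 1825655169511)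 (nat_lit 152) (nat_lit 2172418549169) (nat_lit 0) (nat_lit 1821877809054) (nat_lit 1) (nat_lit 5) (nat_lit 3) (nat_lit 4) (nat_lit 1) (nat_lit 4) (nat_lit 412) (nat_lit 284) (nat_lit 204))) (XT.nd (nat_lit 78) (nat_lit 0) (nat_lit 0) (XT.lf (nat_lit 0) (nat_lit 1974303943203) (nat_lit 152) (nat_lit 2340484857177) (nat_lit 0) (nat_lit 1970525988624) (nat_lit 1) (nat_lit 5) (nat_lit 3) (nat_lit 4) (nat_lit 1) (nat_lit 4) (nat_lit 413) (nat_lit 284) (nat_lit 203)) (XT.lf (nat_lit 0) (nat_lit 2134843745993) (nat_lit 152) (nat_lit 2521998193985) (nat_lit 0) (nat_lit 2131065241301) (nat_lit 1) (nat_lit 5) (nat_lit 3) (nat_lit 4) (nat_lit 1) (nat_lit 4) (nat_lit 414) (nat_lit 284) (nat_lit 202)))) (XT.nd (nat_lit 156) (nat_lit 228) (nat_lit 0) (XT.nd (nat_lit 78) (nat_lit 0) (nat_lit 0) (XT.lf (nat_lit 0) (nat_lit 1069428352) (nat_lit 152) (nat_lit 5386871527) (nat_lit 0) (nat_lit 1069428352)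 (nat_lit 13) (nat_lit 5) (nat_lit 15) (nat_lit 4) (nat_lit 13) (nat_lit 4) (nat_lit 330) (nat_lit 285) (nat_lit 285)) (XT.lf (nat_lit 0) (nat_lit 7038899560) (nat_lit 152) (nat_lit 2171896523) (nat_lit 0) (nat_lit 6626902024) (nat_lit 13) (nat_lit 5) (nat_lit 15) (nat_lit 4) (nat_lit 13) (nat_lit 4) (nat_lit 331) (nat_lit 285) (nat_lit 284))) (XT.nd (nat_lit 78) (nat_lit 152) (nat_lit 0) (XT.lf (nat_lit 0) (nat_lit 7007196355) (nat_lit 76) (nat_lit 5240006095) (nat_lit 76) (nat_lit 4446529359) (nat_lit 12) (nat_lit 4) (nat_lit 13) (nat_lit 5) (nat_lit 13) (nat_lit 4) (nat_lit 332) (nat_lit 285) (nat_lit 283)) (XT.nd (nat_lit 78) (nat_lit 76) (nat_lit 0) (XT.lf (nat_lit 0) (nat_lit 51230498) (nat_lit 152) (nat_lit 1040138779) (nat_lit 76) (nat_lit 16541755164) (nat_lit 11) (nat_lit 5) (nat_lit 13) (nat_lit 5) (nat_lit 12) (nat_lit 4) (nat_lit 333) (nat_lit 285) (nat_lit 282)) (XT.lf (nat_lit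 0) (nat_lit 4717431892) (nat_lit 152) (nat_lit 10564398757) (nat_lit 0) (nat_lit 3352843796) (nat_lit 10) (nat_lit 5) (nat_lit 12) (nat_lit 4) (nat_lit 10) (nat_lit 4) (nat_lit 334) (nat_lit 285) (nat_lit 281))))))) (XT.nd (nat_lit 624) (nat_lit 228) (nat_lit 0) (XT.nd (nat_lit 312) (nat_lit 76) (nat_lit 0) (XT.nd (nat_lit 156) (nat_lit 152) (nat_lit 0) (XT.nd (nat_lit 78) (nat_lit 76) (nat_lit 0) (XT.lf (nat_lit 0) (nat_lit 9584646981) (nat_lit 152) (nat_lit 2205965824) (nat_lit 0) (nat_lit 7939660285) (nat_lit 10) (nat_lit 5) (nat_lit 12) (nat_lit 4) (nat_lit 10) (nat_lit 4) (nat_lit 335) (nat_lit 285) (nat_lit 280)) (XT.lf (nat_lit 0) (nat_lit 6759771108) (nat_lit 76) (nat_lit 8031256021) (nat_lit 76) (nat_lit 6126640992) (nat_lit 9) (nat_lit 4) (nat_lit 10) (nat_lit 5) (nat_lit 10) (nat_lit 4) (nat_lit 336) (nat_lit 285) (nat_lit 279))) (XT.nd (nat_lit 78) (nat_lit 152) (nat_lit 0)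 (XT.lf (nat_lit 0) (nat_lit 16178814939) (nat_lit 76) (nat_lit 4089029545) (nat_lit 76) (nat_lit 1944017911) (nat_lit 9) (nat_lit 4) (nat_lit 10) (nat_lit 5) (nat_lit 10) (nat_lit 4) (nat_lit 337) (nat_lit 285) (nat_lit 278)) (XT.lf (nat_lit 0) (nat_lit 2309750130) (nat_lit 152) (nat_lit 21188248094) (nat_lit 0) (nat_lit 117526904) (nat_lit 7) (nat_lit 5) (nat_lit 9) (nat_lit 4) (nat_lit 7) (nat_lit 4) (nat_lit 338) (nat_lit 285) (nat_lit 277)))) (XT.nd (nat_lit 156) (nat_lit 76) (nat_lit 0) (XT.nd (nat_lit 78) (nat_lit 0) (nat_lit 0) (XT.lf (nat_lit 0) (nat_lit 6879784067) (nat_lit 152) (nat_lit 13744548349) (nat_lit 0) (nat_lit 4496726266) (nat_lit 7) (nat_lit 5) (nat_lit 9) (nat_lit 4) (nat_lit 7) (nat_lit 4) (nat_lit 339) (nat_lit 285) (nat_lit 276)) (XT.lf (nat_lit 0) (nat_lit 11635369443) (nat_lit 152) (nat_lit 6050546135) (nat_lit 0) (nat_lit 9075612961) (nat_lit 7) (nat_lit 5)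 (nat_lit 9) (nat_lit 4) (nat_lit 7) (nat_lit 4) (nat_lit 340) (nat_lit 285) (nat_lit 275))) (XT.nd (nat_lit 78) (nat_lit 0) (nat_lit 0) (XT.lf (nat_lit 0) (nat_lit 2041475509) (nat_lit 76) (nat_lit 14612309528) (nat_lit 76) (nat_lit 11888943156) (nat_lit 6) (nat_lit 4) (nat_lit 7) (nat_lit 5) (nat_lit 7) (nat_lit 4) (nat_lit 341) (nat_lit 285) (nat_lit 274)) (XT.lf (nat_lit 0) (nat_lit 10813426923) (nat_lit 76) (nat_lit 11263822312) (nat_lit 76) (nat_lit 8388965301) (nat_lit 6) (nat_lit 4) (nat_lit 7) (nat_lit 5) (nat_lit 7) (nat_lit 4) (nat_lit 342) (nat_lit 285) (nat_lit 273))))) (XT.nd (nat_lit 312) (nat_lit 76) (nat_lit 0) (XT.nd (nat_lit 156) (nat_lit 152) (nat_lit 0) (XT.nd (nat_lit 78) (nat_lit 0) (nat_lit 0) (XT.lf (nat_lit 0) (nat_lit 19998679004) (nat_lit 76) (nat_lit 7786043696) (nat_lit 76) (nat_lit 4770917575) (nat_lit 6) (nat_lit 4) (nat_lit 7) (nat_lit 5) (nat_lit 7) (nat_lit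 4) (nat_lit 343) (nat_lit 285) (nat_lit 272)) (XT.lf (nat_lit 0) (nat_lit 29651662873) (nat_lit 76) (nat_lit 4158364622) (nat_lit 76) (nat_lit 1013359695) (nat_lit 6) (nat_lit 4) (nat_lit 7) (nat_lit 5) (nat_lit 7) (nat_lit 4) (nat_lit 344) (nat_lit 285) (nat_lit 271))) (XT.nd (nat_lit 78) (nat_lit 0) (nat_lit 0) (XT.lf (nat_lit 0) (nat_lit 2607222676) (nat_lit 76) (nat_lit 216087783) (nat_lit 152) (nat_lit 34448975921) (nat_lit 4) (nat_lit 5) (nat_lit 5) (nat_lit 5) (nat_lit 6) (nat_lit 4) (nat_lit 345) (nat_lit 285) (nat_lit 270)) (XT.lf (nat_lit 0) (nat_lit 7023487433) (nat_lit 152) (nat_lit 28985657236) (nat_lit 0) (nat_lit 3896993709) (nat_lit 4) (nat_lit 5) (nat_lit 6) (nat_lit 4) (nat_lit 4) (nat_lit 4) (nat_lit 346) (nat_lit 285) (nat_lit 269)))) (XT.nd (nat_lit 156) (nat_lit 76) (nat_lit 0) (XT.nd (nat_lit 78) (nat_lit 0) (nat_lit 0) (XT.lf (nat_lit 0) (nat_lit 11444035793) (nat_lit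 152) (nat_lit 23093885254) (nat_lit 0) (nat_lit 8222077269) (nat_lit 4) (nat_lit 5) (nat_lit 6) (nat_lit 4) (nat_lit 4) (nat_lit 4) (nat_lit 347) (nat_lit 285) (nat_lit 268)) (XT.lf (nat_lit 0) (nat_lit 16105954466) (nat_lit 152) (nat_lit 16949636640) (nat_lit 0) (nat_lit 12795602609) (nat_lit 4) (nat_lit 5) (nat_lit 6) (nat_lit 4) (nat_lit 4) (nat_lit 4) (nat_lit 348) (nat_lit 285) (nat_lit 267))) (XT.nd (nat_lit 78) (nat_lit 76) (nat_lit 0) (XT.lf (nat_lit 0) (nat_lit 21036869636) (nat_lit 152) (nat_lit 10516501030) (nat_lit 0) (nat_lit 17644672101) (nat_lit 4) (nat_lit 5) (nat_lit 6) (nat_lit 4) (nat_lit 4) (nat_lit 4) (nat_lit 349) (nat_lit 285) (nat_lit 266)) (XT.nd (nat_lit 78) (nat_lit 76) (nat_lit 0) (XT.lf (nat_lit 0) (nat_lit 26266001541) (nat_lit 152) (nat_lit 3756356141) (nat_lit 0) (nat_lit 22798020971) (nat_lit 4) (nat_lit 5) (nat_lit 6) (nat_lit 4) (nat_lit 4) (nat_lit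 4) (nat_lit 350) (nat_lit 285) (nat_lit 265)) (XT.lf (nat_lit 0) (nat_lit 3548361563) (nat_lit 76) (nat_lit 28361314248) (nat_lit 76) (nat_lit 24823164200) (nat_lit 3) (nat_lit 4) (nat_lit 4) (nat_lit 5) (nat_lit 4) (nat_lit 4) (nat_lit 351) (nat_lit 285) (nat_lit 264))))))))
noncomputable def xc53 : XT := (XT.nd (nat_lit 1326) (nat_lit 0) (nat_lit 0) (XT.nd (nat_lit 624) (nat_lit 152) (nat_lit 0) (XT.nd (nat_lit 312) (nat_lit 0) (nat_lit 0) (XT.nd (nat_lit 156) (nat_lit 0) (nat_lit 0) (XT.nd (nat_lit 78) (nat_lit 0) (nat_lit 0) (XT.lf (nat_lit 0) (nat_lit 11481740329) (nat_lit 76) (nat_lit 26539211992) (nat_lit 76) (nat_lit 22936090206) (nat_lit 3) (nat_lit 4) (nat_lit 4) (nat_lit 5) (nat_lit 4) (nat_lit 4) (nat_lit 352) (nat_lit 285) (nat_lit 263)) (XT.lf (nat_lit 0) (nat_lit 19892989715) (nat_lit 76) (nat_lit 24647958706) (nat_lit 76) (nat_lit 20984677903) (nat_lit 3) (nat_lit 4) (nat_lit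 4) (nat_lit 5) (nat_lit 4) (nat_lit 4) (nat_lit 353) (nat_lit 285) (nat_lit 262))) (XT.nd (nat_lit 78) (nat_lit 0) (nat_lit 0) (XT.lf (nat_lit 0) (nat_lit 28831954161) (nat_lit 76) (nat_lit 22676346962) (nat_lit 76) (nat_lit 18957363365) (nat_lit 3) (nat_lit 4) (nat_lit 4) (nat_lit 5) (nat_lit 4) (nat_lit 4) (nat_lit 354) (nat_lit 285) (nat_lit 261)) (XT.lf (nat_lit 0) (nat_lit 38351605309) (nat_lit 76) (nat_lit 20612693136) (nat_lit 76) (nat_lit 16842132879) (nat_lit 3) (nat_lit 4) (nat_lit 4) (nat_lit 5) (nat_lit 4) (nat_lit 4) (nat_lit 355) (nat_lit 285) (nat_lit 260)))) (XT.nd (nat_lit 156) (nat_lit 0) (nat_lit 0) (XT.nd (nat_lit 78) (nat_lit 0) (nat_lit 0) (XT.lf (nat_lit 0) (nat_lit 48508355905) (nat_lit 76) (nat_lit 18444768167) (nat_lit 76) (nat_lit 14626451743) (nat_lit 3) (nat_lit 4) (nat_lit 4) (nat_lit 5) (nat_lit 4) (nat_lit 4) (nat_lit 356) (nat_lit 285) (nat_lit 259)) (XT.lf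 (nat_lit 0) (nat_lit 59362394102) (nat_lit 76) (nat_lit 16159725094) (nat_lit 76) (nat_lit 12297189996) (nat_lit 3) (nat_lit 4) (nat_lit 4) (nat_lit 5) (nat_lit 4) (nat_lit 4) (nat_lit 357) (nat_lit 285) (nat_lit 258))) (XT.nd (nat_lit 78) (nat_lit 0) (nat_lit 0) (XT.lf (nat_lit 0) (nat_lit 70978040126) (nat_lit 76) (nat_lit 13744022919) (nat_lit 76) (nat_lit 9840544605) (nat_lit 3) (nat_lit 4) (nat_lit 4) (nat_lit 5) (nat_lit 4) (nat_lit 4) (nat_lit 358) (nat_lit 285) (nat_lit 257)) (XT.lf (nat_lit 0) (nat_lit 83424127434) (nat_lit 76) (nat_lit 11183346372) (nat_lit 76) (nat_lit 7241957672) (nat_lit 3) (nat_lit 4) (nat_lit 4) (nat_lit 5) (nat_lit 4) (nat_lit 4) (nat_lit 359) (nat_lit 285) (nat_lit 256))))) (XT.nd (nat_lit 312) (nat_lit 0) (nat_lit 0) (XT.nd (nat_lit 156) (nat_lit 152) (nat_lit 0) (XT.nd (nat_lit 78) (nat_lit 0) (nat_lit 0) (XT.lf (nat_lit 0) (nat_lit 96774410619) (nat_lit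 76) (nat_lit 8462521071) (nat_lit 76) (nat_lit 4486030163) (nat_lit 3) (nat_lit 4) (nat_lit 4) (nat_lit 5) (nat_lit 4) (nat_lit 4) (nat_lit 360) (nat_lit 285) (nat_lit 255)) (XT.lf (nat_lit 0) (nat_lit 111108002470) (nat_lit 76) (nat_lit 5565423609) (nat_lit 76) (nat_lit 1556430656) (nat_lit 3) (nat_lit 4) (nat_lit 4) (nat_lit 5) (nat_lit 4) (nat_lit 4) (nat_lit 361) (nat_lit 285) (nat_lit 254))) (XT.nd (nat_lit 78) (nat_lit 76) (nat_lit 0) (XT.lf (nat_lit 0) (nat_lit 1485953747) (nat_lit 152) (nat_lit 948303643) (nat_lit 76) (nat_lit 124983260433) (nat_lit 2) (nat_lit 5) (nat_lit 4) (nat_lit 5) (nat_lit 3) (nat_lit 4) (nat_lit 362) (nat_lit 285) (nat_lit 253)) (XT.lf (nat_lit 0) (nat_lit 4818039512) (nat_lit 152) (nat_lit 131456156788) (nat_lit 0) (nat_lit 1052342564) (nat_lit 1) (nat_lit 5) (nat_lit 3) (nat_lit 4) (nat_lit 1) (nat_lit 4) (nat_lit 363) (nat_lit 285) (nat_lit 252))))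 (XT.nd (nat_lit 156) (nat_lit 0) (nat_lit 0) (XT.nd (nat_lit 78) (nat_lit 0) (nat_lit 0) (XT.lf (nat_lit 0) (nat_lit 8468618024) (nat_lit 152) (nat_lit 134876490495) (nat_lit 0) (nat_lit 4679031102) (nat_lit 1) (nat_lit 5) (nat_lit 3) (nat_lit 4) (nat_lit 1) (nat_lit 4) (nat_lit 364) (nat_lit 285) (nat_lit 251)) (XT.lf (nat_lit 0) (nat_lit 12376147127) (nat_lit 152) (nat_lit 138639780310) (nat_lit 0) (nat_lit 8564439860) (nat_lit 1) (nat_lit 5) (nat_lit 3) (nat_lit 4) (nat_lit 1) (nat_lit 4) (nat_lit 365) (nat_lit 285) (nat_lit 250))) (XT.nd (nat_lit 78) (nat_lit 0) (nat_lit 0) (XT.lf (nat_lit 0) (nat_lit 16563782552) (nat_lit 152) (nat_lit 142768327212) (nat_lit 0) (nat_lit 12731593483) (nat_lit 1) (nat_lit 5) (nat_lit 3) (nat_lit 4) (nat_lit 1) (nat_lit 4) (nat_lit 366) (nat_lit 285) (nat_lit 249)) (XT.nd (nat_lit 78) (nat_lit 0) (nat_lit 0) (XT.lf (nat_lit 0) (nat_lit 21056339913)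 (nat_lit 152) (nat_lit 147286596663) (nat_lit 0) (nat_lit 17205186214) (nat_lit 1) (nat_lit 5) (nat_lit 3) (nat_lit 4) (nat_lit 1) (nat_lit 4) (nat_lit 367) (nat_lit 285) (nat_lit 248)) (XT.lf (nat_lit 0) (nat_lit 25880441775) (nat_lit 152) (nat_lit 152221363593) (nat_lit 0) (nat_lit 22011728232) (nat_lit 1) (nat_lit 5) (nat_lit 3) (nat_lit 4) (nat_lit 1) (nat_lit 4) (nat_lit 368) (nat_lit 285) (nat_lit 247))))))) (XT.nd (nat_lit 624) (nat_lit 0) (nat_lit 0) (XT.nd (nat_lit 312) (nat_lit 0) (nat_lit 0) (XT.nd (nat_lit 156) (nat_lit 0) (nat_lit 0) (XT.nd (nat_lit 78) (nat_lit 0) (nat_lit 0) (XT.lf (nat_lit 0) (nat_lit 31064675406) (nat_lit 152) (nat_lit 157601871065) (nat_lit 0) (nat_lit 27179702749) (nat_lit 1) (nat_lit 5) (nat_lit 3) (nat_lit 4) (nat_lit 1) (nat_lit 4) (nat_lit 369) (nat_lit 285) (nat_lit 246)) (XT.lf (nat_lit 0) (nat_lit 36639762193) (nat_lit 152) (nat_lit 163460003569)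 (nat_lit 0) (nat_lit 32739734799) (nat_lit 1) (nat_lit 5) (nat_lit 3) (nat_lit 4) (nat_lit 1) (nat_lit 4) (nat_lit 370) (nat_lit 285) (nat_lit 245))) (XT.nd (nat_lit 78) (nat_lit 0) (nat_lit 0) (XT.lf (nat_lit 0) (nat_lit 42638739685) (nat_lit 152) (nat_lit 169830475963) (nat_lit 0) (nat_lit 38724772721) (nat_lit 1) (nat_lit 5) (nat_lit 3) (nat_lit 4) (nat_lit 1) (nat_lit 4) (nat_lit 371) (nat_lit 285) (nat_lit 244)) (XT.lf (nat_lit 0) (nat_lit 49097157379) (nat_lit 152) (nat_lit 176751039195) (nat_lit 0) (nat_lit 45170283406) (nat_lit 1) (nat_lit 5) (nat_lit 3) (nat_lit 4) (nat_lit 1) (nat_lit 4) (nat_lit 372) (nat_lit 285) (nat_lit 243)))) (XT.nd (nat_lit 156) (nat_lit 0) (nat_lit 0) (XT.nd (nat_lit 78) (nat_lit 0) (nat_lit 0) (XT.lf (nat_lit 0) (nat_lit 56053287380) (nat_lit 152) (nat_lit 184262704010) (nat_lit 0) (nat_lit 52114462473) (nat_lit 1) (nat_lit 5) (nat_lit 3) (nat_lit 4)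 (nat_lit 1) (nat_lit 4) (nat_lit 373) (nat_lit 285) (nat_lit 242)) (XT.lf (nat_lit 0) (nat_lit 63548351199) (nat_lit 152) (nat_lit 192409983977) (nat_lit 0) (nat_lit 59598460612) (nat_lit 1) (nat_lit 5) (nat_lit 3) (nat_lit 4) (nat_lit 1) (nat_lit 4) (nat_lit 374) (nat_lit 285) (nat_lit 241))) (XT.nd (nat_lit 78) (nat_lit 0) (nat_lit 0) (XT.lf (nat_lit 0) (nat_lit 71626764029) (nat_lit 152) (nat_lit 201241159274) (nat_lit 0) (nat_lit 67666627442) (nat_lit 1) (nat_lit 5) (nat_lit 3) (nat_lit 4) (nat_lit 1) (nat_lit 4) (nat_lit 375) (nat_lit 285) (nat_lit 240)) (XT.lf (nat_lit 0) (nat_lit 80336397946) (nat_lit 152) (nat_lit 210808562792) (nat_lit 0) (nat_lit 76366774322) (nat_lit 1) (nat_lit 5) (nat_lit 3) (nat_lit 4) (nat_lit 1) (nat_lit 4) (nat_lit 376) (nat_lit 285) (nat_lit 239))))) (XT.nd (nat_lit 312) (nat_lit 0) (nat_lit 0) (XT.nd (nat_lit 156) (nat_lit 0) (nat_lit 0) (XT.nd (nat_lit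 78) (nat_lit 0) (nat_lit 0) (XT.lf (nat_lit 0) (nat_lit 89728865596) (nat_lit 152) (nat_lit 221168890255) (nat_lit 0) (nat_lit 85750457678) (nat_lit 1) (nat_lit 5) (nat_lit 3) (nat_lit 4) (nat_lit 1) (nat_lit 4) (nat_lit 377) (nat_lit 285) (nat_lit 238)) (XT.lf (nat_lit 0) (nat_lit 99859826046) (nat_lit 152) (nat_lit 232383536197) (nat_lit 0) (nat_lit 95873284523) (nat_lit 1) (nat_lit 5) (nat_lit 3) (nat_lit 4) (nat_lit 1) (nat_lit 4) (nat_lit 378) (nat_lit 285) (nat_lit 237))) (XT.nd (nat_lit 78) (nat_lit 0) (nat_lit 0) (XT.lf (nat_lit 0) (nat_lit 110789314618) (nat_lit 152) (nat_lit 244518957777) (nat_lit 0) (nat_lit 106795241979) (nat_lit 1) (nat_lit 5) (nat_lit 3) (nat_lit 4) (nat_lit 1) (nat_lit 4) (nat_lit 379) (nat_lit 285) (nat_lit 236)) (XT.lf (nat_lit 0) (nat_lit 122582098650) (nat_lit 152) (nat_lit 257647068607) (nat_lit 0) (nat_lit 118581052755) (nat_lit 1) (nat_lit 5) (nat_lit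 3) (nat_lit 4) (nat_lit 1) (nat_lit 4) (nat_lit 380) (nat_lit 285) (nat_lit 235)))) (XT.nd (nat_lit 156) (nat_lit 0) (nat_lit 0) (XT.nd (nat_lit 78) (nat_lit 0) (nat_lit 0) (XT.lf (nat_lit 0) (nat_lit 135308061308) (nat_lit 152) (nat_lit 271845664897) (nat_lit 0) (nat_lit 131300558695) (nat_lit 1) (nat_lit 5) (nat_lit 3) (nat_lit 4) (nat_lit 1) (nat_lit 4) (nat_lit 381) (nat_lit 285) (nat_lit 234)) (XT.lf (nat_lit 0) (nat_lit 149042615703) (nat_lit 152) (nat_lit 287198886479) (nat_lit 0) (nat_lit 145029134648) (nat_lit 1) (nat_lit 5) (nat_lit 3) (nat_lit 4) (nat_lit 1) (nat_lit 4) (nat_lit 382) (nat_lit 285) (nat_lit 233))) (XT.nd (nat_lit 78) (nat_lit 0) (nat_lit 0) (XT.lf (nat_lit 0) (nat_lit 163867151789) (nat_lit 152) (nat_lit 303797715405) (nat_lit 0) (nat_lit 159848135138) (nat_lit 1) (nat_lit 5) (nat_lit 3) (nat_lit 4) (nat_lit 1) (nat_lit 4) (nat_lit 383) (nat_lit 285) (nat_lit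 232)) (XT.nd (nat_lit 78) (nat_lit 0) (nat_lit 0) (XT.lf (nat_lit 0) (nat_lit 179869518666) (nat_lit 152) (nat_lit 321740515106) (nat_lit 0) (nat_lit 175845376465) (nat_lit 1) (nat_lit 5) (nat_lit 3) (nat_lit 4) (nat_lit 1) (nat_lit 4) (nat_lit 384) (nat_lit 285) (nat_lit 231)) (XT.lf (nat_lit 0) (nat_lit 197144545177) (nat_lit 152) (nat_lit 341133613285) (nat_lit 0) (nat_lit 193115657095) (nat_lit 1) (nat_lit 5) (nat_lit 3) (nat_lit 4) (nat_lit 1) (nat_lit 4) (nat_lit 385) (nat_lit 285) (nat_lit 230))))))))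
noncomputable def xc54 : XT := (XT.nd (nat_lit 1326) (nat_lit 0) (nat_lit 0) (XT.nd (nat_lit 624) (nat_lit 0) (nat_lit 0) (XT.nd (nat_lit 312) (nat_lit 0) (nat_lit 0) (XT.nd (nat_lit 156) (nat_lit 0) (nat_lit 0) (XT.nd (nat_lit 78) (nat_lit 0) (nat_lit 0) (XT.lf (nat_lit 0) (nat_lit 215794601848) (nat_lit 152) (nat_lit 362091932005) (nat_lit 0) (nat_lit 211761319432) (nat_lit 1) (nat_lit 5) (nat_lit 3) (nat_lit 4) (nat_lit 1) (nat_lit 4) (nat_lit 386) (nat_lit 285) (nat_lit 229)) (XT.lf (nat_lit 0) (nat_lit 235930207534) (nat_lit 152) (nat_lit 384739668709) (nat_lit 0) (nat_lit 231892856291) (nat_lit 1) (nat_lit 5) (nat_lit 3) (nat_lit 4) (nat_lit 1) (nat_lit 4) (nat_lit 387) (nat_lit 285) (nat_lit 228))) (XT.nd (nat_lit 78) (nat_lit 0) (nat_lit 0) (XT.lf (nat_lit 0) (nat_lit 257670684343) (nat_lit 152) (nat_lit 409211032208) (nat_lit 0) (nat_lit 253629565667) (nat_lit 1) (nat_lit 5)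 (nat_lit 3) (nat_lit 4) (nat_lit 1) (nat_lit 4) (nat_lit 388) (nat_lit 285) (nat_lit 227)) (XT.lf (nat_lit 0) (nat_lit 281144864730) (nat_lit 152) (nat_lit 435651037990) (nat_lit 0) (nat_lit 277100257690) (nat_lit 1) (nat_lit 5) (nat_lit 3) (nat_lit 4) (nat_lit 1) (nat_lit 4) (nat_lit 389) (nat_lit 285) (nat_lit 226)))) (XT.nd (nat_lit 156) (nat_lit 0) (nat_lit 0) (XT.nd (nat_lit 78) (nat_lit 0) (nat_lit 0) (XT.lf (nat_lit 0) (nat_lit 306491854948) (nat_lit 152) (nat_lit 464216367570) (nat_lit 0) (nat_lit 302444017942) (nat_lit 1) (nat_lit 5) (nat_lit 3) (nat_lit 4) (nat_lit 1) (nat_lit 4) (nat_lit 390) (nat_lit 285) (nat_lit 225)) (XT.lf (nat_lit 0) (nat_lit 333861859386) (nat_lit 152) (nat_lit 495076296976) (nat_lit 0) (nat_lit 329811031669) (nat_lit 1) (nat_lit 5) (nat_lit 3) (nat_lit 4) (nat_lit 1) (nat_lit 4) (nat_lit 391) (nat_lit 285) (nat_lit 224))) (XT.nd (nat_lit 78) (nat_lit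 0) (nat_lit 0) (XT.lf (nat_lit 0) (nat_lit 363417070660) (nat_lit 152) (nat_lit 528413699862) (nat_lit 0) (nat_lit 359363473768) (nat_lit 1) (nat_lit 5) (nat_lit 3) (nat_lit 4) (nat_lit 1) (nat_lit 4) (nat_lit 392) (nat_lit 285) (nat_lit 223)) (XT.lf (nat_lit 0) (nat_lit 395332630765) (nat_lit 152) (nat_lit 564426131209) (nat_lit 0) (nat_lit 391276469822) (nat_lit 1) (nat_lit 5) (nat_lit 3) (nat_lit 4) (nat_lit 1) (nat_lit 4) (nat_lit 393) (nat_lit 285) (nat_lit 222))))) (XT.nd (nat_lit 312) (nat_lit 0) (nat_lit 0) (XT.nd (nat_lit 156) (nat_lit 0) (nat_lit 0) (XT.nd (nat_lit 78) (nat_lit 0) (nat_lit 0) (XT.lf (nat_lit 0) (nat_lit 429797668945) (nat_lit 152) (nat_lit 603326998018) (nat_lit 0) (nat_lit 425739133880) (nat_lit 1) (nat_lit 5) (nat_lit 3) (nat_lit 4) (nat_lit 1) (nat_lit 4) (nat_lit 394) (nat_lit 285) (nat_lit 221)) (XT.lf (nat_lit 0) (nat_lit 467016422463) (nat_lit 152) (nat_lit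 645346823944) (nat_lit 0) (nat_lit 462955689137) (nat_lit 1) (nat_lit 5) (nat_lit 3) (nat_lit 4) (nat_lit 1) (nat_lit 4) (nat_lit 395) (nat_lit 285) (nat_lit 220))) (XT.nd (nat_lit 78) (nat_lit 0) (nat_lit 0) (XT.lf (nat_lit 0) (nat_lit 507209446897) (nat_lit 152) (nat_lit 690734615363) (nat_lit 0) (nat_lit 503146678144) (nat_lit 1) (nat_lit 5) (nat_lit 3) (nat_lit 4) (nat_lit 1) (nat_lit 4) (nat_lit 396) (nat_lit 285) (nat_lit 219)) (XT.lf (nat_lit 0) (nat_lit 550614923130) (nat_lit 152) (nat_lit 739759336964) (nat_lit 0) (nat_lit 546550269723) (nat_lit 1) (nat_lit 5) (nat_lit 3) (nat_lit 4) (nat_lit 1) (nat_lit 4) (nat_lit 397) (nat_lit 285) (nat_lit 218)))) (XT.nd (nat_lit 156) (nat_lit 0) (nat_lit 0) (XT.nd (nat_lit 78) (nat_lit 0) (nat_lit 0) (XT.lf (nat_lit 0) (nat_lit 597490068801) (nat_lit 152) (nat_lit 792711505617) (nat_lit 0) (nat_lit 593423670343) (nat_lit 1) (nat_lit 5) (nat_lit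 3) (nat_lit 4) (nat_lit 1) (nat_lit 4) (nat_lit 398) (nat_lit 285) (nat_lit 217)) (XT.lf (nat_lit 0) (nat_lit 648112662551) (nat_lit 152) (nat_lit 849904911949) (nat_lit 0) (nat_lit 644044648305) (nat_lit 1) (nat_lit 5) (nat_lit 3) (nat_lit 4) (nat_lit 1) (nat_lit 4) (nat_lit 399) (nat_lit 285) (nat_lit 216))) (XT.nd (nat_lit 78) (nat_lit 0) (nat_lit 0) (XT.lf (nat_lit 0) (nat_lit 702782690119) (nat_lit 152) (nat_lit 911678479852) (nat_lit 0) (nat_lit 698713179774) (nat_lit 1) (nat_lit 5) (nat_lit 3) (nat_lit 4) (nat_lit 1) (nat_lit 4) (nat_lit 400) (nat_lit 285) (nat_lit 215)) (XT.nd (nat_lit 78) (nat_lit 0) (nat_lit 0) (XT.lf (nat_lit 0) (nat_lit 761824122041) (nat_lit 152) (nat_lit 978398274912) (nat_lit 0) (nat_lit 757753226418) (nat_lit 1) (nat_lit 5) (nat_lit 3) (nat_lit 4) (nat_lit 1) (nat_lit 4) (nat_lit 401) (nat_lit 285) (nat_lit 214)) (XT.lf (nat_lit 0) (nat_lit 825586833467)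 (nat_lit 152) (nat_lit 1050459673693) (nat_lit 0) (nat_lit 821514655181) (nat_lit 1) (nat_lit 5) (nat_lit 3) (nat_lit 4) (nat_lit 1) (nat_lit 4) (nat_lit 402) (nat_lit 285) (nat_lit 213))))))) (XT.nd (nat_lit 624) (nat_lit 0) (nat_lit 0) (XT.nd (nat_lit 312) (nat_lit 0) (nat_lit 0) (XT.nd (nat_lit 156) (nat_lit 0) (nat_lit 0) (XT.nd (nat_lit 78) (nat_lit 0) (nat_lit 0) (XT.lf (nat_lit 0) (nat_lit 894448677503) (nat_lit 152) (nat_lit 1128289706705) (nat_lit 0) (nat_lit 890375311565) (nat_lit 1) (nat_lit 5) (nat_lit 3) (nat_lit 4) (nat_lit 1) (nat_lit 4) (nat_lit 403) (nat_lit 285) (nat_lit 212)) (XT.lf (nat_lit 0) (nat_lit 968817724336) (nat_lit 152) (nat_lit 1212349588960) (nat_lit 0) (nat_lit 964743258719) (nat_lit 1) (nat_lit 5) (nat_lit 3) (nat_lit 4) (nat_lit 1) (nat_lit 4) (nat_lit 404) (nat_lit 285) (nat_lit 211))) (XT.nd (nat_lit 78) (nat_lit 0) (nat_lit 0) (XT.lf (nat_lit 0) (nat_lit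 1049134679427) (nat_lit 152) (nat_lit 1303137453093) (nat_lit 0) (nat_lit 1045059195591) (nat_lit 1) (nat_lit 5) (nat_lit 3) (nat_lit 4) (nat_lit 1) (nat_lit 4) (nat_lit 405) (nat_lit 285) (nat_lit 210)) (XT.lf (nat_lit 0) (nat_lit 1135875495105) (nat_lit 152) (nat_lit 1401191301262) (nat_lit 0) (nat_lit 1131799068472) (nat_lit 1) (nat_lit 5) (nat_lit 3) (nat_lit 4) (nat_lit 1) (nat_lit 4) (nat_lit 406) (nat_lit 285) (nat_lit 209)))) (XT.nd (nat_lit 156) (nat_lit 0) (nat_lit 0) (XT.nd (nat_lit 78) (nat_lit 0) (nat_lit 0) (XT.lf (nat_lit 0) (nat_lit 1229554191017) (nat_lit 152) (nat_lit 1507092193307) (nat_lit 0) (nat_lit 1225476891425) (nat_lit 1) (nat_lit 5) (nat_lit 3) (nat_lit 4) (nat_lit 1) (nat_lit 4) (nat_lit 407) (nat_lit 285) (nat_lit 208)) (XT.lf (nat_lit 0) (nat_lit 1330725900176) (nat_lit 152) (nat_lit 1621467690071) (nat_lit 0) (nat_lit 1326647792288) (nat_lit 1) (nat_lit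 5) (nat_lit 3) (nat_lit 4) (nat_lit 1) (nat_lit 4) (nat_lit 408) (nat_lit 285) (nat_lit 207))) (XT.nd (nat_lit 78) (nat_lit 0) (nat_lit 0) (XT.lf (nat_lit 0) (nat_lit 1439990158636) (nat_lit 152) (nat_lit 1744995572275) (nat_lit 0) (nat_lit 1435911302326) (nat_lit 1) (nat_lit 5) (nat_lit 3) (nat_lit 4) (nat_lit 1) (nat_lit 4) (nat_lit 409) (nat_lit 285) (nat_lit 206)) (XT.lf (nat_lit 0) (nat_lit 1557994458300) (nat_lit 152) (nat_lit 1878407856999) (nat_lit 0) (nat_lit 1553914909006) (nat_lit 1) (nat_lit 5) (nat_lit 3) (nat_lit 4) (nat_lit 1) (nat_lit 4) (nat_lit 410) (nat_lit 285) (nat_lit 205))))) (XT.nd (nat_lit 40404) (nat_lit 0) (nat_lit 836) (XT.nd (nat_lit 156) (nat_lit 0) (nat_lit 0) (XT.nd (nat_lit 78) (nat_lit 0) (nat_lit 0) (XT.lf (nat_lit 0) (nat_lit 1685438083905) (nat_lit 152) (nat_lit 2022495135560) (nat_lit 0) (nat_lit 1681357892960) (nat_lit 1) (nat_lit 5) (nat_lit 3)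 (nat_lit 4) (nat_lit 1) (nat_lit 4) (nat_lit 411) (nat_lit 285) (nat_lit 204)) (XT.lf (nat_lit 0) (nat_lit 1823076256938) (nat_lit 152) (nat_lit 2178111258497) (nat_lit 0) (nat_lit 1818995471871) (nat_lit 1) (nat_lit 5) (nat_lit 3) (nat_lit 4) (nat_lit 1) (nat_lit 4) (nat_lit 412) (nat_lit 285) (nat_lit 203))) (XT.nd (nat_lit 78) (nat_lit 0) (nat_lit 0) (XT.lf (nat_lit 0) (nat_lit 1971724611016) (nat_lit 152) (nat_lit 2346178395428) (nat_lit 0) (nat_lit 1967643275836) (nat_lit 1) (nat_lit 5) (nat_lit 3) (nat_lit 4) (nat_lit 1) (nat_lit 4) (nat_lit 413) (nat_lit 285) (nat_lit 202)) (XT.lf (nat_lit 0) (nat_lit 2132264025274) (nat_lit 152) (nat_lit 2527692499756) (nat_lit 0) (nat_lit 2128182180731) (nat_lit 1) (nat_lit 5) (nat_lit 3) (nat_lit 4) (nat_lit 1) (nat_lit 4) (nat_lit 414) (nat_lit 285) (nat_lit 201)))) (XT.nd (nat_lit 156) (nat_lit 228) (nat_lit 0) (XT.nd (nat_lit 78) (nat_lit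 0) (nat_lit 0) (XT.lf (nat_lit 0) (nat_lit 223516807) (nat_lit 76) (nat_lit 3299835530) (nat_lit 76) (nat_lit 3299835530) (nat_lit 15) (nat_lit 4) (nat_lit 16) (nat_lit 5) (nat_lit 16) (nat_lit 4) (nat_lit 328) (nat_lit 286) (nat_lit 286)) (XT.lf (nat_lit 0) (nat_lit 9591809253) (nat_lit 76) (nat_lit 2606816386) (nat_lit 76) (nat_lit 2126262460) (nat_lit 15) (nat_lit 4) (nat_lit 16) (nat_lit 5) (nat_lit 16) (nat_lit 4) (nat_lit 329) (nat_lit 286) (nat_lit 285))) (XT.nd (nat_lit 78) (nat_lit 76) (nat_lit 0) (XT.lf (nat_lit 0) (nat_lit 2452829443) (nat_lit 152) (nat_lit 11013331559) (nat_lit 0) (nat_lit 1595874569) (nat_lit 13) (nat_lit 5) (nat_lit 15) (nat_lit 4) (nat_lit 13) (nat_lit 4) (nat_lit 330) (nat_lit 286) (nat_lit 284)) (XT.nd (nat_lit 78) (nat_lit 76) (nat_lit 0) (XT.lf (nat_lit 0) (nat_lit 7231590264) (nat_lit 152) (nat_lit 2633326238) (nat_lit 0) (nat_lit 5993156190) (nat_lit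 13) (nat_lit 5) (nat_lit 15) (nat_lit 4) (nat_lit 13) (nat_lit 4) (nat_lit 331) (nat_lit 286) (nat_lit 283)) (XT.lf (nat_lit 0) (nat_lit 6305243594) (nat_lit 76) (nat_lit 6005469397) (nat_lit 76) (nat_lit 4413813842) (nat_lit 12) (nat_lit 4) (nat_lit 13) (nat_lit 5) (nat_lit 13) (nat_lit 4) (nat_lit 332) (nat_lit 286) (nat_lit 282))))))))
noncomputable def xc55 : XT := (XT.nd (nat_lit 1326) (nat_lit 228) (nat_lit 0) (XT.nd (nat_lit 624) (nat_lit 228) (nat_lit 0) (XT.nd (nat_lit 312) (nat_lit 152) (nat_lit 0) (XT.nd (nat_lit 156) (nat_lit 76) (nat_lit 0) (XT.nd (nat_lit 78) (nat_lit 152) (nat_lit 0) (XT.lf (nat_lit 0) (nat_lit 15692225323) (nat_lit 76) (nat_lit 1949646811) (nat_lit 76) (nat_lit 30934329) (nat_lit 12) (nat_lit 4) (nat_lit 13) (nat_lit 5) (nat_lit 13) (nat_lit 4) (nat_lit 333) (nat_lit 286) (nat_lit 281)) (XT.lf (nat_lit 0) (nat_lit 4481261436) (nat_lit 152) (nat_lit 11781389883)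 (nat_lit 0) (nat_lit 2424277205) (nat_lit 10) (nat_lit 5) (nat_lit 12) (nat_lit 4) (nat_lit 10) (nat_lit 4) (nat_lit 334) (nat_lit 286) (nat_lit 280))) (XT.nd (nat_lit 78) (nat_lit 76) (nat_lit 0) (XT.lf (nat_lit 0) (nat_lit 9246176139) (nat_lit 152) (nat_lit 3615034720) (nat_lit 0) (nat_lit 6929563574) (nat_lit 10) (nat_lit 5) (nat_lit 12) (nat_lit 4) (nat_lit 10) (nat_lit 4) (nat_lit 335) (nat_lit 286) (nat_lit 279)) (XT.lf (nat_lit 0) (nat_lit 5089288099) (nat_lit 76) (nat_lit 9228370452) (nat_lit 76) (nat_lit 6671361282) (nat_lit 9) (nat_lit 4) (nat_lit 10) (nat_lit 5) (nat_lit 10) (nat_lit 4) (nat_lit 336) (nat_lit 286) (nat_lit 278)))) (XT.nd (nat_lit 156) (nat_lit 0) (nat_lit 0) (XT.nd (nat_lit 78) (nat_lit 152) (nat_lit 0) (XT.lf (nat_lit 0) (nat_lit 14334984668) (nat_lit 76) (nat_lit 5367616138) (nat_lit 76) (nat_lit 2588017519) (nat_lit 9) (nat_lit 4) (nat_lit 10) (nat_lit 5)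 (nat_lit 10) (nat_lit 4) (nat_lit 337) (nat_lit 286) (nat_lit 277)) (XT.lf (nat_lit 0) (nat_lit 249119760) (nat_lit 76) (nat_lit 1306082028) (nat_lit 152) (nat_lit 22151785941) (nat_lit 7) (nat_lit 5) (nat_lit 8) (nat_lit 5) (nat_lit 9) (nat_lit 4) (nat_lit 338) (nat_lit 286) (nat_lit 276))) (XT.nd (nat_lit 78) (nat_lit 0) (nat_lit 0) (XT.lf (nat_lit 0) (nat_lit 6007261308) (nat_lit 152) (nat_lit 16148715339) (nat_lit 0) (nat_lit 3066025626) (nat_lit 7) (nat_lit 5) (nat_lit 9) (nat_lit 4) (nat_lit 7) (nat_lit 4) (nat_lit 339) (nat_lit 286) (nat_lit 275)) (XT.lf (nat_lit 0) (nat_lit 10682695652) (nat_lit 152) (nat_lit 8608378326) (nat_lit 0) (nat_lit 7577850080) (nat_lit 7) (nat_lit 5) (nat_lit 9) (nat_lit 4) (nat_lit 7) (nat_lit 4) (nat_lit 340) (nat_lit 286) (nat_lit 274))))) (XT.nd (nat_lit 312) (nat_lit 152) (nat_lit 0) (XT.nd (nat_lit 156) (nat_lit 0) (nat_lit 0) (XT.nd (nat_lit 78)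 (nat_lit 76) (nat_lit 0) (XT.lf (nat_lit 0) (nat_lit 15577799794) (nat_lit 152) (nat_lit 760762148) (nat_lit 0) (nat_lit 12321463583) (nat_lit 7) (nat_lit 5) (nat_lit 9) (nat_lit 4) (nat_lit 7) (nat_lit 4) (nat_lit 341) (nat_lit 286) (nat_lit 273)) (XT.lf (nat_lit 0) (nat_lit 7832448375) (nat_lit 76) (nat_lit 13077503955) (nat_lit 76) (nat_lit 9680898634) (nat_lit 6) (nat_lit 4) (nat_lit 7) (nat_lit 5) (nat_lit 7) (nat_lit 4) (nat_lit 342) (nat_lit 286) (nat_lit 272))) (XT.nd (nat_lit 78) (nat_lit 0) (nat_lit 0) (XT.lf (nat_lit 0) (nat_lit 16889292582) (nat_lit 76) (nat_lit 9661418527) (nat_lit 76) (nat_lit 6134934400) (nat_lit 6) (nat_lit 4) (nat_lit 7) (nat_lit 5) (nat_lit 7) (nat_lit 4) (nat_lit 343) (nat_lit 286) (nat_lit 271)) (XT.lf (nat_lit 0) (nat_lit 26423380272) (nat_lit 76) (nat_lit 6090862775) (nat_lit 76) (nat_lit 2444120495) (nat_lit 6) (nat_lit 4) (nat_lit 7) (nat_lit 5)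 (nat_lit 7) (nat_lit 4) (nat_lit 344) (nat_lit 286) (nat_lit 270)))) (XT.nd (nat_lit 156) (nat_lit 0) (nat_lit 0) (XT.nd (nat_lit 78) (nat_lit 76) (nat_lit 0) (XT.lf (nat_lit 0) (nat_lit 1342709849) (nat_lit 152) (nat_lit 965255933) (nat_lit 76) (nat_lit 35111787828) (nat_lit 5) (nat_lit 5) (nat_lit 7) (nat_lit 5) (nat_lit 6) (nat_lit 4) (nat_lit 345) (nat_lit 286) (nat_lit 269)) (XT.lf (nat_lit 0) (nat_lit 5409209639) (nat_lit 152) (nat_lit 32821083759) (nat_lit 0) (nat_lit 1834029634) (nat_lit 4) (nat_lit 5) (nat_lit 6) (nat_lit 4) (nat_lit 4) (nat_lit 4) (nat_lit 346) (nat_lit 286) (nat_lit 268))) (XT.nd (nat_lit 78) (nat_lit 0) (nat_lit 0) (XT.lf (nat_lit 0) (nat_lit 9775780328) (nat_lit 152) (nat_lit 27034535396) (nat_lit 0) (nat_lit 6112206991) (nat_lit 4) (nat_lit 5) (nat_lit 6) (nat_lit 4) (nat_lit 4) (nat_lit 4) (nat_lit 347) (nat_lit 286) (nat_lit 267)) (XT.nd (nat_lit 78) (nat_lit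 0) (nat_lit 0) (XT.lf (nat_lit 0) (nat_lit 14387719675) (nat_lit 152) (nat_lit 20987716058) (nat_lit 0) (nat_lit 10642300660) (nat_lit 4) (nat_lit 5) (nat_lit 6) (nat_lit 4) (nat_lit 4) (nat_lit 4) (nat_lit 348) (nat_lit 286) (nat_lit 266)) (XT.lf (nat_lit 0) (nat_lit 19272357692) (nat_lit 152) (nat_lit 14644792740) (nat_lit 0) (nat_lit 15451155641) (nat_lit 4) (nat_lit 5) (nat_lit 6) (nat_lit 4) (nat_lit 4) (nat_lit 4) (nat_lit 349) (nat_lit 286) (nat_lit 265))))))) (XT.nd (nat_lit 702) (nat_lit 152) (nat_lit 0) (XT.nd (nat_lit 312) (nat_lit 0) (nat_lit 0) (XT.nd (nat_lit 156) (nat_lit 76) (nat_lit 0) (XT.nd (nat_lit 78) (nat_lit 0) (nat_lit 0) (XT.lf (nat_lit 0) (nat_lit 24458640382) (nat_lit 152) (nat_lit 7968177751) (nat_lit 0) (nat_lit 20567268853) (nat_lit 4) (nat_lit 5) (nat_lit 6) (nat_lit 4) (nat_lit 4) (nat_lit 4) (nat_lit 350) (nat_lit 286) (nat_lit 264)) (XT.lf (nat_lit 0)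 (nat_lit 29977301271) (nat_lit 152) (nat_lit 918305963) (nat_lit 0) (nat_lit 26020958004) (nat_lit 4) (nat_lit 5) (nat_lit 6) (nat_lit 4) (nat_lit 4) (nat_lit 4) (nat_lit 351) (nat_lit 286) (nat_lit 263))) (XT.nd (nat_lit 78) (nat_lit 0) (nat_lit 0) (XT.lf (nat_lit 0) (nat_lit 6891331975) (nat_lit 76) (nat_lit 29135448260) (nat_lit 76) (nat_lit 25118945976) (nat_lit 3) (nat_lit 4) (nat_lit 4) (nat_lit 5) (nat_lit 4) (nat_lit 4) (nat_lit 352) (nat_lit 286) (nat_lit 262)) (XT.lf (nat_lit 0) (nat_lit 15232780933) (nat_lit 76) (nat_lit 27278301611) (nat_lit 76) (nat_lit 23206096533) (nat_lit 3) (nat_lit 4) (nat_lit 4) (nat_lit 5) (nat_lit 4) (nat_lit 4) (nat_lit 353) (nat_lit 286) (nat_lit 261)))) (XT.nd (nat_lit 156) (nat_lit 0) (nat_lit 0) (XT.nd (nat_lit 78) (nat_lit 0) (nat_lit 0) (XT.lf (nat_lit 0) (nat_lit 24107115352) (nat_lit 76) (nat_lit 25338270087) (nat_lit 76) (nat_lit 21214488349)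 (nat_lit 3) (nat_lit 4) (nat_lit 4) (nat_lit 5) (nat_lit 4) (nat_lit 4) (nat_lit 354) (nat_lit 286) (nat_lit 260)) (XT.lf (nat_lit 0) (nat_lit 33566923883) (nat_lit 76) (nat_lit 23303857205) (nat_lit 76) (nat_lit 19132319300) (nat_lit 3) (nat_lit 4) (nat_lit 4) (nat_lit 5) (nat_lit 4) (nat_lit 4) (nat_lit 355) (nat_lit 286) (nat_lit 259))) (XT.nd (nat_lit 78) (nat_lit 0) (nat_lit 0) (XT.lf (nat_lit 0) (nat_lit 43668264649) (nat_lit 76) (nat_lit 21163007185) (nat_lit 76) (nat_lit 16947250606) (nat_lit 3) (nat_lit 4) (nat_lit 4) (nat_lit 5) (nat_lit 4) (nat_lit 4) (nat_lit 356) (nat_lit 286) (nat_lit 258)) (XT.nd (nat_lit 78) (nat_lit 0) (nat_lit 0) (XT.lf (nat_lit 0) (nat_lit 54470997447) (nat_lit 76) (nat_lit 18903033508) (nat_lit 76) (nat_lit 14646333713) (nat_lit 3) (nat_lit 4) (nat_lit 4) (nat_lit 5) (nat_lit 4) (nat_lit 4) (nat_lit 357) (nat_lit 286) (nat_lit 257)) (XT.lf (nat_lit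 0) (nat_lit 66039138473) (nat_lit 76) (nat_lit 16510543738) (nat_lit 76) (nat_lit 12215933557) (nat_lit 3) (nat_lit 4) (nat_lit 4) (nat_lit 5) (nat_lit 4) (nat_lit 4) (nat_lit 358) (nat_lit 286) (nat_lit 256)))))) (XT.nd (nat_lit 312) (nat_lit 152) (nat_lit 0) (XT.nd (nat_lit 156) (nat_lit 0) (nat_lit 0) (XT.nd (nat_lit 78) (nat_lit 0) (nat_lit 0) (XT.lf (nat_lit 0) (nat_lit 78441239671) (nat_lit 76) (nat_lit 13971360157) (nat_lit 76) (nat_lit 9641647768) (nat_lit 3) (nat_lit 4) (nat_lit 4) (nat_lit 5) (nat_lit 4) (nat_lit 4) (nat_lit 359) (nat_lit 286) (nat_lit 255)) (XT.lf (nat_lit 0) (nat_lit 91750794977) (nat_lit 76) (nat_lit 11270435752) (nat_lit 76) (nat_lit 6908221318) (nat_lit 3) (nat_lit 4) (nat_lit 4) (nat_lit 5) (nat_lit 4) (nat_lit 4) (nat_lit 360) (nat_lit 286) (nat_lit 254))) (XT.nd (nat_lit 78) (nat_lit 0) (nat_lit 0) (XT.lf (nat_lit 0) (nat_lit 106046675828) (nat_lit 76)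 (nat_lit 8391765044) (nat_lit 76) (nat_lit 3999456124) (nat_lit 3) (nat_lit 4) (nat_lit 4) (nat_lit 5) (nat_lit 4) (nat_lit 4) (nat_lit 361) (nat_lit 286) (nat_lit 253)) (XT.lf (nat_lit 0) (nat_lit 121413598555) (nat_lit 76) (nat_lit 5318289245) (nat_lit 76) (nat_lit 898115060) (nat_lit 3) (nat_lit 4) (nat_lit 4) (nat_lit 5) (nat_lit 4) (nat_lit 4) (nat_lit 362) (nat_lit 286) (nat_lit 252)))) (XT.nd (nat_lit 156) (nat_lit 0) (nat_lit 0) (XT.nd (nat_lit 78) (nat_lit 0) (nat_lit 0) (XT.lf (nat_lit 0) (nat_lit 341402258) (nat_lit 76) (nat_lit 1960221594) (nat_lit 152) (nat_lit 135253315780) (nat_lit 1) (nat_lit 5) (nat_lit 2) (nat_lit 5) (nat_lit 3) (nat_lit 4) (nat_lit 363) (nat_lit 286) (nat_lit 251)) (XT.lf (nat_lit 0) (nat_lit 5888186060) (nat_lit 152) (nat_lit 140620059153) (nat_lit 0) (nat_lit 1749421866) (nat_lit 1) (nat_lit 5) (nat_lit 3) (nat_lit 4) (nat_lit 1) (nat_lit 4) (nat_lit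 364) (nat_lit 286) (nat_lit 250))) (XT.nd (nat_lit 78) (nat_lit 0) (nat_lit 0) (XT.lf (nat_lit 0) (nat_lit 9780092083) (nat_lit 152) (nat_lit 144414211421) (nat_lit 0) (nat_lit 5620846088) (nat_lit 1) (nat_lit 5) (nat_lit 3) (nat_lit 4) (nat_lit 1) (nat_lit 4) (nat_lit 365) (nat_lit 286) (nat_lit 249)) (XT.nd (nat_lit 78) (nat_lit 0) (nat_lit 0) (XT.lf (nat_lit 0) (nat_lit 13953261692) (nat_lit 152) (nat_lit 148571334668) (nat_lit 0) (nat_lit 9775051065) (nat_lit 1) (nat_lit 5) (nat_lit 3) (nat_lit 4) (nat_lit 1) (nat_lit 4) (nat_lit 366) (nat_lit 286) (nat_lit 248)) (XT.lf (nat_lit 0) (nat_lit 18432424780) (nat_lit 152) (nat_lit 153116063697) (nat_lit 0) (nat_lit 14236654310) (nat_lit 1) (nat_lit 5) (nat_lit 3) (nat_lit 4) (nat_lit 1) (nat_lit 4) (nat_lit 367) (nat_lit 286) (nat_lit 247))))))))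
noncomputable def xc56 : XT := (XT.nd (nat_lit 1326) (nat_lit 0) (nat_lit 0) (XT.nd (nat_lit 624) (nat_lit 0) (nat_lit 0) (XT.nd (nat_lit 312) (nat_lit 0) (nat_lit 0) (XT.nd (nat_lit 156) (nat_lit 0) (nat_lit 0) (XT.nd (nat_lit 78) (nat_lit 0) (nat_lit 0) (XT.lf (nat_lit 0) (nat_lit 23244124536) (nat_lit 152) (nat_lit 158075330236) (nat_lit 0) (nat_lit 19032094952) (nat_lit 1) (nat_lit 5) (nat_lit 3) (nat_lit 4) (nat_lit 1) (nat_lit 4) (nat_lit 368) (nat_lit 286) (nat_lit 246)) (XT.lf (nat_lit 0) (nat_lit 28416874737) (nat_lit 152) (nat_lit 163478522532) (nat_lit 0) (nat_lit 24189790417) (nat_lit 1) (nat_lit 5) (nat_lit 3) (nat_lit 4) (nat_lit 1) (nat_lit 4) (nat_lit 369) (nat_lit 286) (nat_lit 245))) (XT.nd (nat_lit 78) (nat_lit 0) (nat_lit 0) (XT.lf (nat_lit 0) (nat_lit 33981328717) (nat_lit 152) (nat_lit 169357659502) (nat_lit 0) (nat_lit 29740304827) (nat_lit 1) (nat_lit 5) (nat_lit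 3) (nat_lit 4) (nat_lit 1) (nat_lit 4) (nat_lit 370) (nat_lit 286) (nat_lit 244)) (XT.lf (nat_lit 0) (nat_lit 39970461018) (nat_lit 152) (nat_lit 175747580476) (nat_lit 0) (nat_lit 35716530118) (nat_lit 1) (nat_lit 5) (nat_lit 3) (nat_lit 4) (nat_lit 1) (nat_lit 4) (nat_lit 371) (nat_lit 286) (nat_lit 243)))) (XT.nd (nat_lit 156) (nat_lit 0) (nat_lit 0) (XT.nd (nat_lit 78) (nat_lit 0) (nat_lit 0) (XT.lf (nat_lit 0) (nat_lit 46419762795) (nat_lit 152) (nat_lit 182686151653) (nat_lit 0) (nat_lit 42153880960) (nat_lit 1) (nat_lit 5) (nat_lit 3) (nat_lit 4) (nat_lit 1) (nat_lit 4) (nat_lit 372) (nat_lit 286) (nat_lit 242)) (XT.lf (nat_lit 0) (nat_lit 53367452131) (nat_lit 152) (nat_lit 190214490491) (nat_lit 0) (nat_lit 49090504617) (nat_lit 1) (nat_lit 5) (nat_lit 3) (nat_lit 4) (nat_lit 1) (nat_lit 4) (nat_lit 373) (nat_lit 286) (nat_lit 241))) (XT.nd (nat_lit 78) (nat_lit 0) (nat_lit 0)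 (XT.lf (nat_lit 0) (nat_lit 60854700520) (nat_lit 152) (nat_lit 198377209368) (nat_lit 0) (nat_lit 56567507006) (nat_lit 1) (nat_lit 5) (nat_lit 3) (nat_lit 4) (nat_lit 1) (nat_lit 4) (nat_lit 374) (nat_lit 286) (nat_lit 240)) (XT.lf (nat_lit 0) (nat_lit 68925876841) (nat_lit 152) (nat_lit 207222679952) (nat_lit 0) (nat_lit 64629196290) (nat_lit 1) (nat_lit 5) (nat_lit 3) (nat_lit 4) (nat_lit 1) (nat_lit 4) (nat_lit 375) (nat_lit 286) (nat_lit 239))))) (XT.nd (nat_lit 312) (nat_lit 0) (nat_lit 0) (XT.nd (nat_lit 156) (nat_lit 0) (nat_lit 0) (XT.nd (nat_lit 78) (nat_lit 0) (nat_lit 0) (XT.lf (nat_lit 0) (nat_lit 77628810287) (nat_lit 152) (nat_lit 216803319847) (nat_lit 0) (nat_lit 73323345442) (nat_lit 1) (nat_lit 5) (nat_lit 3) (nat_lit 4) (nat_lit 1) (nat_lit 4) (nat_lit 376) (nat_lit 286) (nat_lit 238)) (XT.lf (nat_lit 0) (nat_lit 87015073797) (nat_lit 152) (nat_lit 227175903214) (nat_lit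 0) (nat_lit 82701475346) (nat_lit 1) (nat_lit 5) (nat_lit 3) (nat_lit 4) (nat_lit 1) (nat_lit 4) (nat_lit 377) (nat_lit 286) (nat_lit 237))) (XT.nd (nat_lit 78) (nat_lit 0) (nat_lit 0) (XT.lf (nat_lit 0) (nat_lit 97140289672) (nat_lit 152) (nat_lit 238401897215) (nat_lit 0) (nat_lit 92819160106) (nat_lit 1) (nat_lit 5) (nat_lit 3) (nat_lit 4) (nat_lit 1) (nat_lit 4) (nat_lit 378) (nat_lit 286) (nat_lit 236)) (XT.lf (nat_lit 0) (nat_lit 108064459193) (nat_lit 152) (nat_lit 250547826259) (nat_lit 0) (nat_lit 103736356372) (nat_lit 1) (nat_lit 5) (nat_lit 3) (nat_lit 4) (nat_lit 1) (nat_lit 4) (nat_lit 379) (nat_lit 286) (nat_lit 235)))) (XT.nd (nat_lit 156) (nat_lit 0) (nat_lit 0) (XT.nd (nat_lit 78) (nat_lit 0) (nat_lit 0) (XT.lf (nat_lit 0) (nat_lit 119852318179) (nat_lit 152) (nat_lit 263685666220) (nat_lit 0) (nat_lit 115517758639) (nat_lit 1) (nat_lit 5) (nat_lit 3) (nat_lit 4) (nat_lit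 1) (nat_lit 4) (nat_lit 380) (nat_lit 286) (nat_lit 234)) (XT.lf (nat_lit 0) (nat_lit 132573720608) (nat_lit 152) (nat_lit 277893270966) (nat_lit 0) (nat_lit 128233182626) (nat_lit 1) (nat_lit 5) (nat_lit 3) (nat_lit 4) (nat_lit 1) (nat_lit 4) (nat_lit 381) (nat_lit 286) (nat_lit 233))) (XT.nd (nat_lit 78) (nat_lit 0) (nat_lit 0) (XT.lf (nat_lit 0) (nat_lit 146304052570) (nat_lit 152) (nat_lit 293254833710) (nat_lit 0) (nat_lit 141957978993) (nat_lit 1) (nat_lit 5) (nat_lit 3) (nat_lit 4) (nat_lit 1) (nat_lit 4) (nat_lit 382) (nat_lit 286) (nat_lit 232)) (XT.nd (nat_lit 78) (nat_lit 0) (nat_lit 0) (XT.lf (nat_lit 0) (nat_lit 161124678995) (nat_lit 152) (nat_lit 309861385935) (nat_lit 0) (nat_lit 156773479866) (nat_lit 1) (nat_lit 5) (nat_lit 3) (nat_lit 4) (nat_lit 1) (nat_lit 4) (nat_lit 383) (nat_lit 286) (nat_lit 231)) (XT.lf (nat_lit 0) (nat_lit 177123425816) (nat_lit 152) (nat_lit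 327811336839) (nat_lit 0) (nat_lit 172767480807) (nat_lit 1) (nat_lit 5) (nat_lit 3) (nat_lit 4) (nat_lit 1) (nat_lit 4) (nat_lit 384) (nat_lit 286) (nat_lit 230))))))) (XT.nd (nat_lit 624) (nat_lit 0) (nat_lit 0) (XT.nd (nat_lit 312) (nat_lit 0) (nat_lit 0) (XT.nd (nat_lit 156) (nat_lit 0) (nat_lit 0) (XT.nd (nat_lit 78) (nat_lit 0) (nat_lit 0) (XT.lf (nat_lit 0) (nat_lit 194395100423) (nat_lit 152) (nat_lit 347211056502) (nat_lit 0) (nat_lit 190034761080) (nat_lit 1) (nat_lit 5) (nat_lit 3) (nat_lit 4) (nat_lit 1) (nat_lit 4) (nat_lit 385) (nat_lit 286) (nat_lit 229)) (XT.lf (nat_lit 0) (nat_lit 213042053479) (nat_lit 152) (nat_lit 368175506225) (nat_lit 0) (nat_lit 208677645309) (nat_lit 1) (nat_lit 5) (nat_lit 3) (nat_lit 4) (nat_lit 1) (nat_lit 4) (nat_lit 386) (nat_lit 286) (nat_lit 228))) (XT.nd (nat_lit 78) (nat_lit 0) (nat_lit 0) (XT.lf (nat_lit 0) (nat_lit 233174785448) (nat_lit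 152) (nat_lit 390828919784) (nat_lit 0) (nat_lit 228806609845) (nat_lit 1) (nat_lit 5) (nat_lit 3) (nat_lit 4) (nat_lit 1) (nat_lit 4) (nat_lit 387) (nat_lit 286) (nat_lit 227)) (XT.lf (nat_lit 0) (nat_lit 254912601407) (nat_lit 152) (nat_lit 415305539631) (nat_lit 0) (nat_lit 250540937440) (nat_lit 1) (nat_lit 5) (nat_lit 3) (nat_lit 4) (nat_lit 1) (nat_lit 4) (nat_lit 388) (nat_lit 286) (nat_lit 226)))) (XT.nd (nat_lit 156) (nat_lit 0) (nat_lit 0) (XT.nd (nat_lit 78) (nat_lit 0) (nat_lit 0) (XT.lf (nat_lit 0) (nat_lit 278384318045) (nat_lit 152) (nat_lit 441750412401) (nat_lit 0) (nat_lit 274009424111) (nat_lit 1) (nat_lit 5) (nat_lit 3) (nat_lit 4) (nat_lit 1) (nat_lit 4) (nat_lit 389) (nat_lit 286) (nat_lit 225)) (XT.lf (nat_lit 0) (nat_lit 303729027014) (nat_lit 152) (nat_lit 470320248452) (nat_lit 0) (nat_lit 299351142370) (nat_lit 1) (nat_lit 5) (nat_lit 3) (nat_lit 4) (nat_lit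 1) (nat_lit 4) (nat_lit 390) (nat_lit 286) (nat_lit 224))) (XT.nd (nat_lit 78) (nat_lit 0) (nat_lit 0) (XT.lf (nat_lit 0) (nat_lit 331096919183) (nat_lit 152) (nat_lit 501184350515) (nat_lit 0) (nat_lit 326716265364) (nat_lit 1) (nat_lit 5) (nat_lit 3) (nat_lit 4) (nat_lit 1) (nat_lit 4) (nat_lit 391) (nat_lit 286) (nat_lit 223)) (XT.lf (nat_lit 0) (nat_lit 360650174654) (nat_lit 152) (nat_lit 534525616974) (nat_lit 0) (nat_lit 356266956783) (nat_lit 1) (nat_lit 5) (nat_lit 3) (nat_lit 4) (nat_lit 1) (nat_lit 4) (nat_lit 392) (nat_lit 286) (nat_lit 222))))) (XT.nd (nat_lit 312) (nat_lit 0) (nat_lit 0) (XT.nd (nat_lit 156) (nat_lit 0) (nat_lit 0) (XT.nd (nat_lit 78) (nat_lit 0) (nat_lit 0) (XT.lf (nat_lit 0) (nat_lit 392563923829) (nat_lit 152) (nat_lit 570541625703) (nat_lit 0) (nat_lit 388178331837) (nat_lit 1) (nat_lit 5) (nat_lit 3) (nat_lit 4) (nat_lit 1) (nat_lit 4) (nat_lit 393)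 (nat_lit 286) (nat_lit 221)) (XT.lf (nat_lit 0) (nat_lit 427027285223) (nat_lit 152) (nat_lit 609445804902) (nat_lit 0) (nat_lit 422639494969) (nat_lit 1) (nat_lit 5) (nat_lit 3) (nat_lit 4) (nat_lit 1) (nat_lit 4) (nat_lit 394) (nat_lit 286) (nat_lit 220))) (XT.nd (nat_lit 78) (nat_lit 0) (nat_lit 0) (XT.lf (nat_lit 0) (nat_lit 464244486161) (nat_lit 152) (nat_lit 651468697856) (nat_lit 0) (nat_lit 459854660481) (nat_lit 1) (nat_lit 5) (nat_lit 3) (nat_lit 4) (nat_lit 1) (nat_lit 4) (nat_lit 395) (nat_lit 286) (nat_lit 219)) (XT.lf (nat_lit 0) (nat_lit 504436073020) (nat_lit 152) (nat_lit 696859329116) (nat_lit 0) (nat_lit 500044362685) (nat_lit 1) (nat_lit 5) (nat_lit 3) (nat_lit 4) (nat_lit 1) (nat_lit 4) (nat_lit 396) (nat_lit 286) (nat_lit 218)))) (XT.nd (nat_lit 156) (nat_lit 0) (nat_lit 0) (XT.nd (nat_lit 78) (nat_lit 0) (nat_lit 0) (XT.lf (nat_lit 0) (nat_lit 547840218166) (nat_lit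 152) (nat_lit 745886680199) (nat_lit 0) (nat_lit 543446762781) (nat_lit 1) (nat_lit 5) (nat_lit 3) (nat_lit 4) (nat_lit 1) (nat_lit 4) (nat_lit 397) (nat_lit 286) (nat_lit 217)) (XT.lf (nat_lit 0) (nat_lit 594714131349) (nat_lit 152) (nat_lit 798841283558) (nat_lit 0) (nat_lit 590319060177) (nat_lit 1) (nat_lit 5) (nat_lit 3) (nat_lit 4) (nat_lit 1) (nat_lit 4) (nat_lit 398) (nat_lit 286) (nat_lit 216))) (XT.nd (nat_lit 78) (nat_lit 0) (nat_lit 0) (XT.lf (nat_lit 0) (nat_lit 645335583906) (nat_lit 152) (nat_lit 856036944248) (nat_lit 0) (nat_lit 640939016634) (nat_lit 1) (nat_lit 5) (nat_lit 3) (nat_lit 4) (nat_lit 1) (nat_lit 4) (nat_lit 399) (nat_lit 286) (nat_lit 215)) (XT.nd (nat_lit 78) (nat_lit 0) (nat_lit 0) (XT.lf (nat_lit 0) (nat_lit 700004554815) (nat_lit 152) (nat_lit 917812599518) (nat_lit 0) (nat_lit 695606602265) (nat_lit 1) (nat_lit 5) (nat_lit 3) (nat_lit 4) (nat_lit 1)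 (nat_lit 4) (nat_lit 400) (nat_lit 286) (nat_lit 214)) (XT.lf (nat_lit 0) (nat_lit 759045008347) (nat_lit 152) (nat_lit 984534327326) (nat_lit 0) (nat_lit 754645773134) (nat_lit 1) (nat_lit 5) (nat_lit 3) (nat_lit 4) (nat_lit 1) (nat_lit 4) (nat_lit 401) (nat_lit 286) (nat_lit 213))))))))
noncomputable def xc57 : XT := (XT.nd (nat_lit 41262) (nat_lit 0) (nat_lit 228) (XT.nd (nat_lit 624) (nat_lit 0) (nat_lit 0) (XT.nd (nat_lit 312) (nat_lit 0) (nat_lit 0) (XT.nd (nat_lit 156) (nat_lit 0) (nat_lit 0) (XT.nd (nat_lit 78) (nat_lit 0) (nat_lit 0) (XT.lf (nat_lit 0) (nat_lit 822806813858) (nat_lit 152) (nat_lit 1056597515688) (nat_lit 0) (nat_lit 818406390992) (nat_lit 1) (nat_lit 5) (nat_lit 3) (nat_lit 4) (nat_lit 1) (nat_lit 4) (nat_lit 402) (nat_lit 286) (nat_lit 212)) (XT.lf (nat_lit 0) (nat_lit 891667819083) (nat_lit 152) (nat_lit 1134429205721) (nat_lit 0) (nat_lit 887266296540) (nat_lit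 1) (nat_lit 5) (nat_lit 3) (nat_lit 4) (nat_lit 1) (nat_lit 4) (nat_lit 403) (nat_lit 286) (nat_lit 211))) (XT.nd (nat_lit 78) (nat_lit 0) (nat_lit 0) (XT.lf (nat_lit 0) (nat_lit 966036089239) (nat_lit 152) (nat_lit 1218490622253) (nat_lit 0) (nat_lit 961633548476) (nat_lit 1) (nat_lit 5) (nat_lit 3) (nat_lit 4) (nat_lit 1) (nat_lit 4) (nat_lit 404) (nat_lit 286) (nat_lit 210)) (XT.lf (nat_lit 0) (nat_lit 1046352325186) (nat_lit 152) (nat_lit 1309279907014) (nat_lit 0) (nat_lit 1041948841626) (nat_lit 1) (nat_lit 5) (nat_lit 3) (nat_lit 4) (nat_lit 1) (nat_lit 4) (nat_lit 405) (nat_lit 286) (nat_lit 209)))) (XT.nd (nat_lit 156) (nat_lit 0) (nat_lit 0) (XT.nd (nat_lit 78) (nat_lit 0) (nat_lit 0) (XT.lf (nat_lit 0) (nat_lit 1133092474989) (nat_lit 152) (nat_lit 1407335070578) (nat_lit 0) (nat_lit 1128688118469) (nat_lit 1) (nat_lit 5) (nat_lit 3) (nat_lit 4) (nat_lit 1) (nat_lit 4) (nat_lit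 406) (nat_lit 286) (nat_lit 208)) (XT.lf (nat_lit 0) (nat_lit 1226770554350) (nat_lit 152) (nat_lit 1513237180583) (nat_lit 0) (nat_lit 1222365389534) (nat_lit 1) (nat_lit 5) (nat_lit 3) (nat_lit 4) (nat_lit 1) (nat_lit 4) (nat_lit 407) (nat_lit 286) (nat_lit 207))) (XT.nd (nat_lit 78) (nat_lit 0) (nat_lit 0) (XT.lf (nat_lit 0) (nat_lit 1327941692628) (nat_lit 152) (nat_lit 1627613805087) (nat_lit 0) (nat_lit 1323535779391) (nat_lit 1) (nat_lit 5) (nat_lit 3) (nat_lit 4) (nat_lit 1) (nat_lit 4) (nat_lit 408) (nat_lit 286) (nat_lit 206)) (XT.lf (nat_lit 0) (nat_lit 1437205422495) (nat_lit 152) (nat_lit 1751142731494) (nat_lit 0) (nat_lit 1432798816274) (nat_lit 1) (nat_lit 5) (nat_lit 3) (nat_lit 4) (nat_lit 1) (nat_lit 4) (nat_lit 409) (nat_lit 286) (nat_lit 205))))) (XT.nd (nat_lit 312) (nat_lit 0) (nat_lit 0) (XT.nd (nat_lit 156) (nat_lit 0) (nat_lit 0) (XT.nd (nat_lit 78) (nat_lit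 0) (nat_lit 0) (XT.lf (nat_lit 0) (nat_lit 1555209232721) (nat_lit 152) (nat_lit 1884555983074) (nat_lit 0) (nat_lit 1550801984848) (nat_lit 1) (nat_lit 5) (nat_lit 3) (nat_lit 4) (nat_lit 1) (nat_lit 4) (nat_lit 410) (nat_lit 286) (nat_lit 204)) (XT.lf (nat_lit 0) (nat_lit 1682652405143) (nat_lit 152) (nat_lit 2028644156871) (nat_lit 0) (nat_lit 1678244563149) (nat_lit 1) (nat_lit 5) (nat_lit 3) (nat_lit 4) (nat_lit 1) (nat_lit 4) (nat_lit 411) (nat_lit 286) (nat_lit 203))) (XT.nd (nat_lit 78) (nat_lit 0) (nat_lit 0) (XT.lf (nat_lit 0) (nat_lit 1820290158562) (nat_lit 152) (nat_lit 2184261108730) (nat_lit 0) (nat_lit 1815881766455) (nat_lit 1) (nat_lit 5) (nat_lit 3) (nat_lit 4) (nat_lit 1) (nat_lit 4) (nat_lit 412) (nat_lit 286) (nat_lit 202)) (XT.lf (nat_lit 0) (nat_lit 1968938124108) (nat_lit 152) (nat_lit 2352329013182) (nat_lit 0) (nat_lit 1964529222638) (nat_lit 1) (nat_lit 5)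 (nat_lit 3) (nat_lit 4) (nat_lit 1) (nat_lit 4) (nat_lit 413) (nat_lit 286) (nat_lit 201)))) (XT.nd (nat_lit 40092) (nat_lit 0) (nat_lit 1064) (XT.nd (nat_lit 40014) (nat_lit 0) (nat_lit 1292) (XT.lf (nat_lit 0) (nat_lit 2129477178615) (nat_lit 152) (nat_lit 2533843828178) (nat_lit 0) (nat_lit 2125067805511) (nat_lit 1) (nat_lit 5) (nat_lit 3) (nat_lit 4) (nat_lit 1) (nat_lit 4) (nat_lit 414) (nat_lit 286) (nat_lit 200)) (XT.lf (nat_lit 0) (nat_lit 4442719519) (nat_lit 152) (nat_lit 888351351) (nat_lit 152) (nat_lit 888351351) (nat_lit 18) (nat_lit 4) (nat_lit 20) (nat_lit 5) (nat_lit 20) (nat_lit 4) (nat_lit 326) (nat_lit 287) (nat_lit 287))) (XT.nd (nat_lit 78) (nat_lit 76) (nat_lit 0) (XT.lf (nat_lit 0) (nat_lit 2749962725) (nat_lit 152) (nat_lit 8041057189) (nat_lit 0) (nat_lit 2230964486) (nat_lit 16) (nat_lit 5) (nat_lit 18) (nat_lit 4) (nat_lit 16) (nat_lit 4) (nat_lit 327) (nat_lit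 287) (nat_lit 286)) (XT.nd (nat_lit 78) (nat_lit 0) (nat_lit 0) (XT.lf (nat_lit 0) (nat_lit 216425692) (nat_lit 76) (nat_lit 7219981456) (nat_lit 76) (nat_lit 6220429290) (nat_lit 15) (nat_lit 4) (nat_lit 16) (nat_lit 5) (nat_lit 16) (nat_lit 4) (nat_lit 328) (nat_lit 287) (nat_lit 285)) (XT.lf (nat_lit 0) (nat_lit 9147675475) (nat_lit 76) (nat_lit 3320934331) (nat_lit 76) (nat_lit 1876424828) (nat_lit 15) (nat_lit 4) (nat_lit 16) (nat_lit 5) (nat_lit 16) (nat_lit 4) (nat_lit 329) (nat_lit 287) (nat_lit 284))))))) (XT.nd (nat_lit 624) (nat_lit 380) (nat_lit 0) (XT.nd (nat_lit 312) (nat_lit 228) (nat_lit 0) (XT.nd (nat_lit 156) (nat_lit 76) (nat_lit 0) (XT.nd (nat_lit 78) (nat_lit 0) (nat_lit 0) (XT.lf (nat_lit 0) (nat_lit 2539653367) (nat_lit 152) (nat_lit 11733516860) (nat_lit 0) (nat_lit 820665368) (nat_lit 13) (nat_lit 5) (nat_lit 15) (nat_lit 4) (nat_lit 13) (nat_lit 4) (nat_lit 330)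 (nat_lit 287) (nat_lit 283)) (XT.lf (nat_lit 0) (nat_lit 7206116006) (nat_lit 152) (nat_lit 3558920065) (nat_lit 0) (nat_lit 5133906525) (nat_lit 13) (nat_lit 5) (nat_lit 15) (nat_lit 4) (nat_lit 13) (nat_lit 4) (nat_lit 331) (nat_lit 287) (nat_lit 282))) (XT.nd (nat_lit 78) (nat_lit 0) (nat_lit 0) (XT.lf (nat_lit 0) (nat_lit 5130701325) (nat_lit 76) (nat_lit 7022309841) (nat_lit 76) (nat_lit 4623043434) (nat_lit 12) (nat_lit 4) (nat_lit 13) (nat_lit 5) (nat_lit 13) (nat_lit 4) (nat_lit 332) (nat_lit 287) (nat_lit 281)) (XT.lf (nat_lit 0) (nat_lit 14332304988) (nat_lit 76) (nat_lit 3051129384) (nat_lit 76) (nat_lit 349032488) (nat_lit 12) (nat_lit 4) (nat_lit 13) (nat_lit 5) (nat_lit 13) (nat_lit 4) (nat_lit 333) (nat_lit 287) (nat_lit 280)))) (XT.nd (nat_lit 156) (nat_lit 76) (nat_lit 0) (XT.nd (nat_lit 78) (nat_lit 0) (nat_lit 0) (XT.lf (nat_lit 0) (nat_lit 4013412540) (nat_lit 152)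 (nat_lit 13495262061) (nat_lit 0) (nat_lit 1251842636) (nat_lit 10) (nat_lit 5) (nat_lit 12) (nat_lit 4) (nat_lit 10) (nat_lit 4) (nat_lit 334) (nat_lit 287) (nat_lit 279)) (XT.lf (nat_lit 0) (nat_lit 8683604662) (nat_lit 152) (nat_lit 5506756686) (nat_lit 0) (nat_lit 5681638153) (nat_lit 10) (nat_lit 5) (nat_lit 12) (nat_lit 4) (nat_lit 10) (nat_lit 4) (nat_lit 335) (nat_lit 287) (nat_lit 278))) (XT.nd (nat_lit 78) (nat_lit 0) (nat_lit 0) (XT.lf (nat_lit 0) (nat_lit 2924604145) (nat_lit 76) (nat_lit 10690716135) (nat_lit 76) (nat_lit 7466160177) (nat_lit 9) (nat_lit 4) (nat_lit 10) (nat_lit 5) (nat_lit 10) (nat_lit 4) (nat_lit 336) (nat_lit 287) (nat_lit 277)) (XT.lf (nat_lit 0) (nat_lit 12009793990) (nat_lit 76) (nat_lit 6905399009) (nat_lit 76) (nat_lit 3474741710) (nat_lit 9) (nat_lit 4) (nat_lit 10) (nat_lit 5) (nat_lit 10) (nat_lit 4) (nat_lit 337) (nat_lit 287) (nat_lit 276)))))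 (XT.nd (nat_lit 312) (nat_lit 228) (nat_lit 0) (XT.nd (nat_lit 156) (nat_lit 0) (nat_lit 0) (XT.nd (nat_lit 78) (nat_lit 76) (nat_lit 0) (XT.lf (nat_lit 0) (nat_lit 625985631) (nat_lit 152) (nat_lit 2319441762) (nat_lit 76) (nat_lit 20869573776) (nat_lit 8) (nat_lit 5) (nat_lit 10) (nat_lit 5) (nat_lit 9) (nat_lit 4) (nat_lit 338) (nat_lit 287) (nat_lit 275)) (XT.lf (nat_lit 0) (nat_lit 4898222583) (nat_lit 152) (nat_lit 19064839307) (nat_lit 0) (nat_lit 1381379475) (nat_lit 7) (nat_lit 5) (nat_lit 9) (nat_lit 4) (nat_lit 7) (nat_lit 4) (nat_lit 339) (nat_lit 287) (nat_lit 274))) (XT.nd (nat_lit 78) (nat_lit 0) (nat_lit 0) (XT.lf (nat_lit 0) (nat_lit 9499443009) (nat_lit 152) (nat_lit 11666784888) (nat_lit 0) (nat_lit 5831109262) (nat_lit 7) (nat_lit 5) (nat_lit 9) (nat_lit 4) (nat_lit 7) (nat_lit 4) (nat_lit 340) (nat_lit 287) (nat_lit 273)) (XT.lf (nat_lit 0) (nat_lit 14325830560) (nat_lit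 152) (nat_lit 3950911854) (nat_lit 0) (nat_lit 10517227703) (nat_lit 7) (nat_lit 5) (nat_lit 9) (nat_lit 4) (nat_lit 7) (nat_lit 4) (nat_lit 341) (nat_lit 287) (nat_lit 272)))) (XT.nd (nat_lit 156) (nat_lit 152) (nat_lit 0) (XT.nd (nat_lit 78) (nat_lit 0) (nat_lit 0) (XT.lf (nat_lit 0) (nat_lit 4345903166) (nat_lit 76) (nat_lit 15164601960) (nat_lit 76) (nat_lit 11226120298) (nat_lit 6) (nat_lit 4) (nat_lit 7) (nat_lit 5) (nat_lit 7) (nat_lit 4) (nat_lit 342) (nat_lit 287) (nat_lit 271)) (XT.lf (nat_lit 0) (nat_lit 13283851194) (nat_lit 76) (nat_lit 11805639855) (nat_lit 76) (nat_lit 7746900039) (nat_lit 6) (nat_lit 4) (nat_lit 7) (nat_lit 5) (nat_lit 7) (nat_lit 4) (nat_lit 343) (nat_lit 287) (nat_lit 270))) (XT.nd (nat_lit 78) (nat_lit 152) (nat_lit 0) (XT.lf (nat_lit 0) (nat_lit 22707849830) (nat_lit 76) (nat_lit 8287976068) (nat_lit 76) (nat_lit 4117886110) (nat_lit 6) (nat_lit 4)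 (nat_lit 7) (nat_lit 5) (nat_lit 7) (nat_lit 4) (nat_lit 344) (nat_lit 287) (nat_lit 269)) (XT.nd (nat_lit 78) (nat_lit 152) (nat_lit 0) (XT.lf (nat_lit 0) (nat_lit 32673744992) (nat_lit 76) (nat_lit 4590765184) (nat_lit 76) (nat_lit 317573244) (nat_lit 6) (nat_lit 4) (nat_lit 7) (nat_lit 5) (nat_lit 7) (nat_lit 4) (nat_lit 345) (nat_lit 287) (nat_lit 268)) (XT.lf (nat_lit 0) (nat_lit 3048540117) (nat_lit 76) (nat_lit 517419910) (nat_lit 152) (nat_lit 36677233581) (nat_lit 4) (nat_lit 5) (nat_lit 5) (nat_lit 5) (nat_lit 6) (nat_lit 4) (nat_lit 346) (nat_lit 287) (nat_lit 267))))))))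
noncomputable def xc58 : XT := (XT.nd (nat_lit 1326) (nat_lit 152) (nat_lit 0) (XT.nd (nat_lit 624) (nat_lit 0) (nat_lit 0) (XT.nd (nat_lit 312) (nat_lit 76) (nat_lit 0) (XT.nd (nat_lit 156) (nat_lit 0) (nat_lit 0) (XT.nd (nat_lit 78) (nat_lit 0) (nat_lit 0) (XT.lf (nat_lit 0) (nat_lit 7870107429) (nat_lit 152) (nat_lit 31493090443) (nat_lit 0) (nat_lit 3743209214) (nat_lit 4) (nat_lit 5) (nat_lit 6) (nat_lit 4) (nat_lit 4) (nat_lit 4) (nat_lit 347) (nat_lit 287) (nat_lit 266)) (XT.lf (nat_lit 0) (nat_lit 12435769624) (nat_lit 152) (nat_lit 25536483397) (nat_lit 0) (nat_lit 8233088373) (nat_lit 4) (nat_lit 5) (nat_lit 6) (nat_lit 4) (nat_lit 4) (nat_lit 4) (nat_lit 348) (nat_lit 287) (nat_lit 265))) (XT.nd (nat_lit 78) (nat_lit 0) (nat_lit 0) (XT.lf (nat_lit 0) (nat_lit 17277558425) (nat_lit 152) (nat_lit 19277089980) (nat_lit 0) (nat_lit 13004707697) (nat_lit 4) (nat_lit 5) (nat_lit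 6) (nat_lit 4) (nat_lit 4) (nat_lit 4) (nat_lit 349) (nat_lit 287) (nat_lit 264)) (XT.lf (nat_lit 0) (nat_lit 22424165915) (nat_lit 152) (nat_lit 12677817491) (nat_lit 0) (nat_lit 18086343448) (nat_lit 4) (nat_lit 5) (nat_lit 6) (nat_lit 4) (nat_lit 4) (nat_lit 4) (nat_lit 350) (nat_lit 287) (nat_lit 263)))) (XT.nd (nat_lit 156) (nat_lit 0) (nat_lit 0) (XT.nd (nat_lit 78) (nat_lit 76) (nat_lit 0) (XT.lf (nat_lit 0) (nat_lit 27906090508) (nat_lit 152) (nat_lit 5699559130) (nat_lit 0) (nat_lit 23508109024) (nat_lit 4) (nat_lit 5) (nat_lit 6) (nat_lit 4) (nat_lit 4) (nat_lit 4) (nat_lit 351) (nat_lit 287) (nat_lit 262)) (XT.lf (nat_lit 0) (nat_lit 1788506061) (nat_lit 76) (nat_lit 32010325235) (nat_lit 76) (nat_lit 27556640958) (nat_lit 3) (nat_lit 4) (nat_lit 4) (nat_lit 5) (nat_lit 4) (nat_lit 4) (nat_lit 352) (nat_lit 287) (nat_lit 261))) (XT.nd (nat_lit 78) (nat_lit 0) (nat_lit 0) (XT.lf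 (nat_lit 0) (nat_lit 10065324993) (nat_lit 76) (nat_lit 30184758806) (nat_lit 76) (nat_lit 25679497868) (nat_lit 3) (nat_lit 4) (nat_lit 4) (nat_lit 5) (nat_lit 4) (nat_lit 4) (nat_lit 353) (nat_lit 287) (nat_lit 260)) (XT.lf (nat_lit 0) (nat_lit 18879816796) (nat_lit 76) (nat_lit 28273968226) (nat_lit 76) (nat_lit 23720951121) (nat_lit 3) (nat_lit 4) (nat_lit 4) (nat_lit 5) (nat_lit 4) (nat_lit 4) (nat_lit 354) (nat_lit 287) (nat_lit 259))))) (XT.nd (nat_lit 312) (nat_lit 0) (nat_lit 0) (XT.nd (nat_lit 156) (nat_lit 0) (nat_lit 0) (XT.nd (nat_lit 78) (nat_lit 0) (nat_lit 0) (XT.lf (nat_lit 0) (nat_lit 28284215496) (nat_lit 76) (nat_lit 26266630293) (nat_lit 76) (nat_lit 21669394514) (nat_lit 3) (nat_lit 4) (nat_lit 4) (nat_lit 5) (nat_lit 4) (nat_lit 4) (nat_lit 355) (nat_lit 287) (nat_lit 258)) (XT.lf (nat_lit 0) (nat_lit 38334250864) (nat_lit 76) (nat_lit 24150849669) (nat_lit 76)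 (nat_lit 19512670674) (nat_lit 3) (nat_lit 4) (nat_lit 4) (nat_lit 5) (nat_lit 4) (nat_lit 4) (nat_lit 356) (nat_lit 287) (nat_lit 257))) (XT.nd (nat_lit 78) (nat_lit 0) (nat_lit 0) (XT.lf (nat_lit 0) (nat_lit 49089478664) (nat_lit 76) (nat_lit 21914088396) (nat_lit 76) (nat_lit 17237999016) (nat_lit 3) (nat_lit 4) (nat_lit 4) (nat_lit 5) (nat_lit 4) (nat_lit 4) (nat_lit 357) (nat_lit 287) (nat_lit 256)) (XT.lf (nat_lit 0) (nat_lit 60613633579) (nat_lit 76) (nat_lit 19543091593) (nat_lit 76) (nat_lit 14831900004) (nat_lit 3) (nat_lit 4) (nat_lit 4) (nat_lit 5) (nat_lit 4) (nat_lit 4) (nat_lit 358) (nat_lit 287) (nat_lit 255)))) (XT.nd (nat_lit 156) (nat_lit 0) (nat_lit 0) (XT.nd (nat_lit 78) (nat_lit 0) (nat_lit 0) (XT.lf (nat_lit 0) (nat_lit 72975006898) (nat_lit 76) (nat_lit 17023808907) (nat_lit 76) (nat_lit 12280115274) (nat_lit 3) (nat_lit 4) (nat_lit 4) (nat_lit 5) (nat_lit 4) (nat_lit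 4) (nat_lit 359) (nat_lit 287) (nat_lit 254)) (XT.lf (nat_lit 0) (nat_lit 86246851204) (nat_lit 76) (nat_lit 14341311257) (nat_lit 76) (nat_lit 9567523137) (nat_lit 3) (nat_lit 4) (nat_lit 4) (nat_lit 5) (nat_lit 4) (nat_lit 4) (nat_lit 360) (nat_lit 287) (nat_lit 253))) (XT.nd (nat_lit 78) (nat_lit 0) (nat_lit 0) (XT.lf (nat_lit 0) (nat_lit 100507814463) (nat_lit 76) (nat_lit 11479702360) (nat_lit 76) (nat_lit 6678048975) (nat_lit 3) (nat_lit 4) (nat_lit 4) (nat_lit 5) (nat_lit 4) (nat_lit 4) (nat_lit 361) (nat_lit 287) (nat_lit 252)) (XT.nd (nat_lit 78) (nat_lit 0) (nat_lit 0) (XT.lf (nat_lit 0) (nat_lit 115842406087) (nat_lit 76) (nat_lit 8422024533) (nat_lit 76) (nat_lit 3594569977) (nat_lit 3) (nat_lit 4) (nat_lit 4) (nat_lit 5) (nat_lit 4) (nat_lit 4) (nat_lit 362) (nat_lit 287) (nat_lit 251)) (XT.lf (nat_lit 0) (nat_lit 132341497729) (nat_lit 76) (nat_lit 5150158204) (nat_lit 76)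 (nat_lit 298813675) (nat_lit 3) (nat_lit 4) (nat_lit 4) (nat_lit 5) (nat_lit 4) (nat_lit 4) (nat_lit 363) (nat_lit 287) (nat_lit 250))))))) (XT.nd (nat_lit 624) (nat_lit 0) (nat_lit 0) (XT.nd (nat_lit 312) (nat_lit 0) (nat_lit 0) (XT.nd (nat_lit 156) (nat_lit 0) (nat_lit 0) (XT.nd (nat_lit 78) (nat_lit 0) (nat_lit 0) (XT.lf (nat_lit 0) (nat_lit 1585707804) (nat_lit 76) (nat_lit 1519663676) (nat_lit 152) (nat_lit 145404191477) (nat_lit 1) (nat_lit 5) (nat_lit 2) (nat_lit 5) (nat_lit 3) (nat_lit 4) (nat_lit 364) (nat_lit 287) (nat_lit 249)) (XT.lf (nat_lit 0) (nat_lit 6946263740) (nat_lit 152) (nat_lit 150710035818) (nat_lit 0) (nat_lit 2414831632) (nat_lit 1) (nat_lit 5) (nat_lit 3) (nat_lit 4) (nat_lit 1) (nat_lit 4) (nat_lit 365) (nat_lit 287) (nat_lit 248))) (XT.nd (nat_lit 78) (nat_lit 0) (nat_lit 0) (XT.lf (nat_lit 0) (nat_lit 11106039075) (nat_lit 152) (nat_lit 154893618643) (nat_lit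 0) (nat_lit 6557047123) (nat_lit 1) (nat_lit 5) (nat_lit 3) (nat_lit 4) (nat_lit 1) (nat_lit 4) (nat_lit 366) (nat_lit 287) (nat_lit 247)) (XT.lf (nat_lit 0) (nat_lit 15572800057) (nat_lit 152) (nat_lit 159462847282) (nat_lit 0) (nat_lit 11007548991) (nat_lit 1) (nat_lit 5) (nat_lit 3) (nat_lit 4) (nat_lit 1) (nat_lit 4) (nat_lit 367) (nat_lit 287) (nat_lit 246)))) (XT.nd (nat_lit 156) (nat_lit 0) (nat_lit 0) (XT.nd (nat_lit 78) (nat_lit 0) (nat_lit 0) (XT.lf (nat_lit 0) (nat_lit 20373016383) (nat_lit 152) (nat_lit 164444798645) (nat_lit 0) (nat_lit 15792710581) (nat_lit 1) (nat_lit 5) (nat_lit 3) (nat_lit 4) (nat_lit 1) (nat_lit 4) (nat_lit 368) (nat_lit 287) (nat_lit 245)) (XT.lf (nat_lit 0) (nat_lit 25535133777) (nat_lit 152) (nat_lit 169868995407) (nat_lit 0) (nat_lit 20940888406) (nat_lit 1) (nat_lit 5) (nat_lit 3) (nat_lit 4) (nat_lit 1) (nat_lit 4) (nat_lit 369) (nat_lit 287) (nat_lit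 244))) (XT.nd (nat_lit 78) (nat_lit 0) (nat_lit 0) (XT.lf (nat_lit 0) (nat_lit 31089742566) (nat_lit 152) (nat_lit 175767580957) (nat_lit 0) (nat_lit 26482590186) (nat_lit 1) (nat_lit 5) (nat_lit 3) (nat_lit 4) (nat_lit 1) (nat_lit 4) (nat_lit 370) (nat_lit 287) (nat_lit 243)) (XT.lf (nat_lit 0) (nat_lit 37069758950) (nat_lit 152) (nat_lit 182175509876) (nat_lit 0) (nat_lit 32450655634) (nat_lit 1) (nat_lit 5) (nat_lit 3) (nat_lit 4) (nat_lit 1) (nat_lit 4) (nat_lit 371) (nat_lit 287) (nat_lit 242))))) (XT.nd (nat_lit 312) (nat_lit 0) (nat_lit 0) (XT.nd (nat_lit 156) (nat_lit 0) (nat_lit 0) (XT.nd (nat_lit 78) (nat_lit 0) (nat_lit 0) (XT.lf (nat_lit 0) (nat_lit 43510620062) (nat_lit 152) (nat_lit 189130755075) (nat_lit 0) (nat_lit 38880451066) (nat_lit 1) (nat_lit 5) (nat_lit 3) (nat_lit 4) (nat_lit 1) (nat_lit 4) (nat_lit 372) (nat_lit 287) (nat_lit 241)) (XT.lf (nat_lit 0) (nat_lit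 50450493968) (nat_lit 152) (nat_lit 196674532823) (nat_lit 0) (nat_lit 45810078973) (nat_lit 1) (nat_lit 5) (nat_lit 3) (nat_lit 4) (nat_lit 1) (nat_lit 4) (nat_lit 373) (nat_lit 287) (nat_lit 240))) (XT.nd (nat_lit 78) (nat_lit 0) (nat_lit 0) (XT.lf (nat_lit 0) (nat_lit 57930505848) (nat_lit 152) (nat_lit 204851546987) (nat_lit 0) (nat_lit 53280603816) (nat_lit 1) (nat_lit 5) (nat_lit 3) (nat_lit 4) (nat_lit 1) (nat_lit 4) (nat_lit 374) (nat_lit 287) (nat_lit 239)) (XT.lf (nat_lit 0) (nat_lit 65994981698) (nat_lit 152) (nat_lit 213710253948) (nat_lit 0) (nat_lit 61336295371) (nat_lit 1) (nat_lit 5) (nat_lit 3) (nat_lit 4) (nat_lit 1) (nat_lit 4) (nat_lit 375) (nat_lit 287) (nat_lit 238)))) (XT.nd (nat_lit 156) (nat_lit 0) (nat_lit 0) (XT.nd (nat_lit 78) (nat_lit 0) (nat_lit 0) (XT.lf (nat_lit 0) (nat_lit 74691711003) (nat_lit 152) (nat_lit 223303149747) (nat_lit 0) (nat_lit 70024891072)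 (nat_lit 1) (nat_lit 5) (nat_lit 3) (nat_lit 4) (nat_lit 1) (nat_lit 4) (nat_lit 376) (nat_lit 287) (nat_lit 237)) (XT.lf (nat_lit 0) (nat_lit 84072229938) (nat_lit 152) (nat_lit 233687081174) (nat_lit 0) (nat_lit 79397878891) (nat_lit 1) (nat_lit 5) (nat_lit 3) (nat_lit 4) (nat_lit 1) (nat_lit 4) (nat_lit 377) (nat_lit 287) (nat_lit 236))) (XT.nd (nat_lit 78) (nat_lit 0) (nat_lit 0) (XT.lf (nat_lit 0) (nat_lit 94192126764) (nat_lit 152) (nat_lit 244923582638) (nat_lit 0) (nat_lit 89510802461) (nat_lit 1) (nat_lit 5) (nat_lit 3) (nat_lit 4) (nat_lit 1) (nat_lit 4) (nat_lit 378) (nat_lit 287) (nat_lit 235)) (XT.nd (nat_lit 78) (nat_lit 0) (nat_lit 0) (XT.lf (nat_lit 0) (nat_lit 105111371238) (nat_lit 152) (nat_lit 257079240813) (nat_lit 0) (nat_lit 100423590217) (nat_lit 1) (nat_lit 5) (nat_lit 3) (nat_lit 4) (nat_lit 1) (nat_lit 4) (nat_lit 379) (nat_lit 287) (nat_lit 234)) (XT.lf (nat_lit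 0) (nat_lit 116894669995) (nat_lit 152) (nat_lit 270226089230) (nat_lit 0) (nat_lit 112200910532) (nat_lit 1) (nat_lit 5) (nat_lit 3) (nat_lit 4) (nat_lit 1) (nat_lit 4) (nat_lit 380) (nat_lit 287) (nat_lit 233))))))))
noncomputable def xc59 : XT := (XT.nd (nat_lit 1326) (nat_lit 0) (nat_lit 0) (XT.nd (nat_lit 624) (nat_lit 0) (nat_lit 0) (XT.nd (nat_lit 312) (nat_lit 0) (nat_lit 0) (XT.nd (nat_lit 156) (nat_lit 0) (nat_lit 0) (XT.nd (nat_lit 78) (nat_lit 0) (nat_lit 0) (XT.lf (nat_lit 0) (nat_lit 129611849991) (nat_lit 152) (nat_lit 284442035139) (nat_lit 0) (nat_lit 124912554933) (nat_lit 1) (nat_lit 5) (nat_lit 3) (nat_lit 4) (nat_lit 1) (nat_lit 4) (nat_lit 381) (nat_lit 287) (nat_lit 232)) (XT.lf (nat_lit 0) (nat_lit 143338272292) (nat_lit 152) (nat_lit 299811321182) (nat_lit 0) (nat_lit 138633851683) (nat_lit 1) (nat_lit 5) (nat_lit 3) (nat_lit 4) (nat_lit 1) (nat_lit 4) (nat_lit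 382) (nat_lit 287) (nat_lit 231))) (XT.nd (nat_lit 78) (nat_lit 0) (nat_lit 0) (XT.lf (nat_lit 0) (nat_lit 158155278660) (nat_lit 152) (nat_lit 316425024609) (nat_lit 0) (nat_lit 153446112170) (nat_lit 1) (nat_lit 5) (nat_lit 3) (nat_lit 4) (nat_lit 1) (nat_lit 4) (nat_lit 383) (nat_lit 287) (nat_lit 230)) (XT.lf (nat_lit 0) (nat_lit 174150673578) (nat_lit 152) (nat_lit 334381596997) (nat_lit 0) (nat_lit 169437112754) (nat_lit 1) (nat_lit 5) (nat_lit 3) (nat_lit 4) (nat_lit 1) (nat_lit 4) (nat_lit 384) (nat_lit 287) (nat_lit 229)))) (XT.nd (nat_lit 156) (nat_lit 0) (nat_lit 0) (XT.nd (nat_lit 78) (nat_lit 0) (nat_lit 0) (XT.lf (nat_lit 0) (nat_lit 191419244570) (nat_lit 152) (nat_lit 353787447663) (nat_lit 0) (nat_lit 186701614918) (nat_lit 1) (nat_lit 5) (nat_lit 3) (nat_lit 4) (nat_lit 1) (nat_lit 4) (nat_lit 385) (nat_lit 287) (nat_lit 228)) (XT.lf (nat_lit 0) (nat_lit 210063323909)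 (nat_lit 152) (nat_lit 374757574241) (nat_lit 0) (nat_lit 205341926824) (nat_lit 1) (nat_lit 5) (nat_lit 3) (nat_lit 4) (nat_lit 1) (nat_lit 4) (nat_lit 386) (nat_lit 287) (nat_lit 227))) (XT.nd (nat_lit 78) (nat_lit 0) (nat_lit 0) (XT.lf (nat_lit 0) (nat_lit 230193395028) (nat_lit 152) (nat_lit 397416244148) (nat_lit 0) (nat_lit 225468509580) (nat_lit 1) (nat_lit 5) (nat_lit 3) (nat_lit 4) (nat_lit 1) (nat_lit 4) (nat_lit 387) (nat_lit 287) (nat_lit 226)) (XT.lf (nat_lit 0) (nat_lit 251928747238) (nat_lit 152) (nat_lit 421897730983) (nat_lit 0) (nat_lit 247200631823) (nat_lit 1) (nat_lit 5) (nat_lit 3) (nat_lit 4) (nat_lit 1) (nat_lit 4) (nat_lit 388) (nat_lit 287) (nat_lit 225))))) (XT.nd (nat_lit 312) (nat_lit 0) (nat_lit 0) (XT.nd (nat_lit 156) (nat_lit 0) (nat_lit 0) (XT.nd (nat_lit 78) (nat_lit 0) (nat_lit 0) (XT.lf (nat_lit 0) (nat_lit 275398182626) (nat_lit 152) (nat_lit 448347110224)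 (nat_lit 0) (nat_lit 270667076501) (nat_lit 1) (nat_lit 5) (nat_lit 3) (nat_lit 4) (nat_lit 1) (nat_lit 4) (nat_lit 389) (nat_lit 287) (nat_lit 224)) (XT.lf (nat_lit 0) (nat_lit 300740779327) (nat_lit 152) (nat_lit 476921118932) (nat_lit 0) (nat_lit 296006904026) (nat_lit 1) (nat_lit 5) (nat_lit 3) (nat_lit 4) (nat_lit 1) (nat_lit 4) (nat_lit 390) (nat_lit 287) (nat_lit 223))) (XT.nd (nat_lit 78) (nat_lit 0) (nat_lit 0) (XT.lf (nat_lit 0) (nat_lit 328106715692) (nat_lit 152) (nat_lit 507789084568) (nat_lit 0) (nat_lit 323370276340) (nat_lit 1) (nat_lit 5) (nat_lit 3) (nat_lit 4) (nat_lit 1) (nat_lit 4) (nat_lit 391) (nat_lit 287) (nat_lit 222)) (XT.lf (nat_lit 0) (nat_lit 357658160234) (nat_lit 152) (nat_lit 541133928408) (nat_lit 0) (nat_lit 352919346760) (nat_lit 1) (nat_lit 5) (nat_lit 3) (nat_lit 4) (nat_lit 1) (nat_lit 4) (nat_lit 392) (nat_lit 287) (nat_lit 221)))) (XT.nd (nat_lit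 156) (nat_lit 0) (nat_lit 0) (XT.nd (nat_lit 78) (nat_lit 0) (nat_lit 0) (XT.lf (nat_lit 0) (nat_lit 389570232622) (nat_lit 152) (nat_lit 577153249528) (nat_lit 0) (nat_lit 384829220888) (nat_lit 1) (nat_lit 5) (nat_lit 3) (nat_lit 4) (nat_lit 1) (nat_lit 4) (nat_lit 393) (nat_lit 287) (nat_lit 220)) (XT.lf (nat_lit 0) (nat_lit 424032041436) (nat_lit 152) (nat_lit 616060495755) (nat_lit 0) (nat_lit 419288994274) (nat_lit 1) (nat_lit 5) (nat_lit 3) (nat_lit 4) (nat_lit 1) (nat_lit 4) (nat_lit 394) (nat_lit 287) (nat_lit 219))) (XT.nd (nat_lit 78) (nat_lit 0) (nat_lit 0) (XT.lf (nat_lit 0) (nat_lit 461247804800) (nat_lit 152) (nat_lit 658086228550) (nat_lit 0) (nat_lit 456502872984) (nat_lit 1) (nat_lit 5) (nat_lit 3) (nat_lit 4) (nat_lit 1) (nat_lit 4) (nat_lit 395) (nat_lit 287) (nat_lit 218)) (XT.nd (nat_lit 78) (nat_lit 0) (nat_lit 0) (XT.lf (nat_lit 0) (nat_lit 501438060572) (nat_lit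 152) (nat_lit 703479489292) (nat_lit 0) (nat_lit 496691383705) (nat_lit 1) (nat_lit 5) (nat_lit 3) (nat_lit 4) (nat_lit 1) (nat_lit 4) (nat_lit 396) (nat_lit 287) (nat_lit 217)) (XT.lf (nat_lit 0) (nat_lit 544840973230) (nat_lit 152) (nat_lit 752509275081) (nat_lit 0) (nat_lit 540092680576) (nat_lit 1) (nat_lit 5) (nat_lit 3) (nat_lit 4) (nat_lit 1) (nat_lit 4) (nat_lit 397) (nat_lit 287) (nat_lit 216))))))) (XT.nd (nat_lit 702) (nat_lit 0) (nat_lit 0) (XT.nd (nat_lit 312) (nat_lit 0) (nat_lit 0) (XT.nd (nat_lit 156) (nat_lit 0) (nat_lit 0) (XT.nd (nat_lit 78) (nat_lit 0) (nat_lit 0) (XT.lf (nat_lit 0) (nat_lit 591713745220) (nat_lit 152) (nat_lit 805466132797) (nat_lit 0) (nat_lit 586963956467) (nat_lit 1) (nat_lit 5) (nat_lit 3) (nat_lit 4) (nat_lit 1) (nat_lit 4) (nat_lit 398) (nat_lit 287) (nat_lit 215)) (XT.lf (nat_lit 0) (nat_lit 642334141117) (nat_lit 152) (nat_lit 862663880855)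 (nat_lit 0) (nat_lit 637582967087) (nat_lit 1) (nat_lit 5) (nat_lit 3) (nat_lit 4) (nat_lit 1) (nat_lit 4) (nat_lit 399) (nat_lit 287) (nat_lit 214))) (XT.nd (nat_lit 78) (nat_lit 0) (nat_lit 0) (XT.lf (nat_lit 0) (nat_lit 697002133637) (nat_lit 152) (nat_lit 924441468874) (nat_lit 0) (nat_lit 692249676942) (nat_lit 1) (nat_lit 5) (nat_lit 3) (nat_lit 4) (nat_lit 1) (nat_lit 4) (nat_lit 400) (nat_lit 287) (nat_lit 213)) (XT.lf (nat_lit 0) (nat_lit 756041681254) (nat_lit 152) (nat_lit 991164986263) (nat_lit 0) (nat_lit 751288036907) (nat_lit 1) (nat_lit 5) (nat_lit 3) (nat_lit 4) (nat_lit 1) (nat_lit 4) (nat_lit 401) (nat_lit 287) (nat_lit 212)))) (XT.nd (nat_lit 156) (nat_lit 0) (nat_lit 0) (XT.nd (nat_lit 78) (nat_lit 0) (nat_lit 0) (XT.lf (nat_lit 0) (nat_lit 819802647954) (nat_lit 152) (nat_lit 1063229831645) (nat_lit 0) (nat_lit 815047903929) (nat_lit 1) (nat_lit 5) (nat_lit 3) (nat_lit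 4) (nat_lit 1) (nat_lit 4) (nat_lit 402) (nat_lit 287) (nat_lit 211)) (XT.lf (nat_lit 0) (nat_lit 888662876502) (nat_lit 152) (nat_lit 1141063055955) (nat_lit 0) (nat_lit 883907114258) (nat_lit 1) (nat_lit 5) (nat_lit 3) (nat_lit 4) (nat_lit 1) (nat_lit 4) (nat_lit 403) (nat_lit 287) (nat_lit 210))) (XT.nd (nat_lit 78) (nat_lit 0) (nat_lit 0) (XT.lf (nat_lit 0) (nat_lit 963030427513) (nat_lit 152) (nat_lit 1225125893115) (nat_lit 0) (nat_lit 958273722472) (nat_lit 1) (nat_lit 5) (nat_lit 3) (nat_lit 4) (nat_lit 1) (nat_lit 4) (nat_lit 404) (nat_lit 287) (nat_lit 209)) (XT.nd (nat_lit 78) (nat_lit 0) (nat_lit 0) (XT.lf (nat_lit 0) (nat_lit 1043345997585) (nat_lit 152) (nat_lit 1315916493271) (nat_lit 0) (nat_lit 1038588419585) (nat_lit 1) (nat_lit 5) (nat_lit 3) (nat_lit 4) (nat_lit 1) (nat_lit 4) (nat_lit 405) (nat_lit 287) (nat_lit 208)) (XT.lf (nat_lit 0) (nat_lit 1130085530837) (nat_lit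 152) (nat_lit 1413972874795) (nat_lit 0) (nat_lit 1125327144541) (nat_lit 1) (nat_lit 5) (nat_lit 3) (nat_lit 4) (nat_lit 1) (nat_lit 4) (nat_lit 406) (nat_lit 287) (nat_lit 207)))))) (XT.nd (nat_lit 312) (nat_lit 0) (nat_lit 0) (XT.nd (nat_lit 156) (nat_lit 0) (nat_lit 0) (XT.nd (nat_lit 78) (nat_lit 0) (nat_lit 0) (XT.lf (nat_lit 0) (nat_lit 1223763039318) (nat_lit 152) (nat_lit 1519876112539) (nat_lit 0) (nat_lit 1219003904599) (nat_lit 1) (nat_lit 5) (nat_lit 3) (nat_lit 4) (nat_lit 1) (nat_lit 4) (nat_lit 407) (nat_lit 287) (nat_lit 206)) (XT.lf (nat_lit 0) (nat_lit 1324933649003) (nat_lit 152) (nat_lit 1634253781247) (nat_lit 0) (nat_lit 1320173821301) (nat_lit 1) (nat_lit 5) (nat_lit 3) (nat_lit 4) (nat_lit 1) (nat_lit 4) (nat_lit 408) (nat_lit 287) (nat_lit 205))) (XT.nd (nat_lit 78) (nat_lit 0) (nat_lit 0) (XT.lf (nat_lit 0) (nat_lit 1434196889432) (nat_lit 152) (nat_lit 1757783674510)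 (nat_lit 0) (nat_lit 1429436420079) (nat_lit 1) (nat_lit 5) (nat_lit 3) (nat_lit 4) (nat_lit 1) (nat_lit 4) (nat_lit 409) (nat_lit 287) (nat_lit 204)) (XT.lf (nat_lit 0) (nat_lit 1552200246475) (nat_lit 152) (nat_lit 1891197821325) (nat_lit 0) (nat_lit 1547439182999) (nat_lit 1) (nat_lit 5) (nat_lit 3) (nat_lit 4) (nat_lit 1) (nat_lit 4) (nat_lit 410) (nat_lit 287) (nat_lit 203)))) (XT.nd (nat_lit 156) (nat_lit 0) (nat_lit 0) (XT.nd (nat_lit 78) (nat_lit 0) (nat_lit 0) (XT.lf (nat_lit 0) (nat_lit 1679642999283) (nat_lit 152) (nat_lit 2035286824045) (nat_lit 0) (nat_lit 1674881385695) (nat_lit 1) (nat_lit 5) (nat_lit 3) (nat_lit 4) (nat_lit 1) (nat_lit 4) (nat_lit 411) (nat_lit 287) (nat_lit 202)) (XT.lf (nat_lit 0) (nat_lit 1817280364170) (nat_lit 152) (nat_lit 2190904543425) (nat_lit 0) (nat_lit 1812518241218) (nat_lit 1) (nat_lit 5) (nat_lit 3) (nat_lit 4) (nat_lit 1) (nat_lit 4) (nat_lit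 412) (nat_lit 287) (nat_lit 201))) (XT.nd (nat_lit 78) (nat_lit 0) (nat_lit 0) (XT.lf (nat_lit 0) (nat_lit 1965927969964) (nat_lit 152) (nat_lit 2358973158544) (nat_lit 0) (nat_lit 1961165375380) (nat_lit 1) (nat_lit 5) (nat_lit 3) (nat_lit 4) (nat_lit 1) (nat_lit 4) (nat_lit 413) (nat_lit 287) (nat_lit 200)) (XT.nd (nat_lit 39858) (nat_lit 0) (nat_lit 1444) (XT.lf (nat_lit 0) (nat_lit 2126466691368) (nat_lit 152) (nat_lit 2540488631566) (nat_lit 0) (nat_lit 2121703660086) (nat_lit 1) (nat_lit 5) (nat_lit 3) (nat_lit 4) (nat_lit 1) (nat_lit 4) (nat_lit 414) (nat_lit 287) (nat_lit 199)) (XT.lf (nat_lit 0) (nat_lit 907870973) (nat_lit 152) (nat_lit 3881947674) (nat_lit 0) (nat_lit 907870973) (nat_lit 20) (nat_lit 5) (nat_lit 22) (nat_lit 4) (nat_lit 20) (nat_lit 4) (nat_lit 324) (nat_lit 288) (nat_lit 288))))))))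
noncomputable def xc60 : XT := (XT.nd (nat_lit 1326) (nat_lit 304) (nat_lit 0) (XT.nd (nat_lit 624) (nat_lit 380) (nat_lit 0) (XT.nd (nat_lit 312) (nat_lit 304) (nat_lit 0) (XT.nd (nat_lit 156) (nat_lit 152) (nat_lit 0) (XT.nd (nat_lit 78) (nat_lit 0) (nat_lit 0) (XT.lf (nat_lit 0) (nat_lit 137417429) (nat_lit 152) (nat_lit 6183995964) (nat_lit 152) (nat_lit 5578636418) (nat_lit 18) (nat_lit 4) (nat_lit 20) (nat_lit 5) (nat_lit 20) (nat_lit 4) (nat_lit 325) (nat_lit 288) (nat_lit 287)) (XT.lf (nat_lit 0) (nat_lit 8675313301) (nat_lit 152) (nat_lit 2469673242) (nat_lit 152) (nat_lit 1303795596) (nat_lit 18) (nat_lit 4) (nat_lit 20) (nat_lit 5) (nat_lit 20) (nat_lit 4) (nat_lit 326) (nat_lit 288) (nat_lit 286))) (XT.nd (nat_lit 78) (nat_lit 0) (nat_lit 0) (XT.lf (nat_lit 0) (nat_lit 3053081569) (nat_lit 152) (nat_lit 8496726909) (nat_lit 0) (nat_lit 1493011305) (nat_lit 16) (nat_lit 5)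 (nat_lit 18) (nat_lit 4) (nat_lit 16) (nat_lit 4) (nat_lit 327) (nat_lit 288) (nat_lit 285)) (XT.lf (nat_lit 0) (nat_lit 7619737948) (nat_lit 152) (nat_lit 452914942) (nat_lit 0) (nat_lit 5614710345) (nat_lit 16) (nat_lit 5) (nat_lit 18) (nat_lit 4) (nat_lit 16) (nat_lit 4) (nat_lit 328) (nat_lit 288) (nat_lit 284)))) (XT.nd (nat_lit 156) (nat_lit 76) (nat_lit 0) (XT.nd (nat_lit 78) (nat_lit 152) (nat_lit 0) (XT.lf (nat_lit 0) (nat_lit 8256776017) (nat_lit 76) (nat_lit 4272848107) (nat_lit 76) (nat_lit 1855822968) (nat_lit 15) (nat_lit 4) (nat_lit 16) (nat_lit 5) (nat_lit 16) (nat_lit 4) (nat_lit 329) (nat_lit 288) (nat_lit 283)) (XT.lf (nat_lit 0) (nat_lit 2203246004) (nat_lit 76) (nat_lit 201441660) (nat_lit 152) (nat_lit 12741969737) (nat_lit 13) (nat_lit 5) (nat_lit 14) (nat_lit 5) (nat_lit 15) (nat_lit 4) (nat_lit 330) (nat_lit 288) (nat_lit 282))) (XT.nd (nat_lit 78) (nat_lit 76)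 (nat_lit 0) (XT.lf (nat_lit 0) (nat_lit 6962325828) (nat_lit 152) (nat_lit 4954163006) (nat_lit 0) (nat_lit 4044061181) (nat_lit 13) (nat_lit 5) (nat_lit 15) (nat_lit 4) (nat_lit 13) (nat_lit 4) (nat_lit 331) (nat_lit 288) (nat_lit 281)) (XT.lf (nat_lit 0) (nat_lit 3476609297) (nat_lit 76) (nat_lit 8296553148) (nat_lit 76) (nat_lit 5075458012) (nat_lit 12) (nat_lit 4) (nat_lit 13) (nat_lit 5) (nat_lit 13) (nat_lit 4) (nat_lit 332) (nat_lit 288) (nat_lit 280))))) (XT.nd (nat_lit 312) (nat_lit 152) (nat_lit 0) (XT.nd (nat_lit 156) (nat_lit 76) (nat_lit 0) (XT.nd (nat_lit 78) (nat_lit 152) (nat_lit 0) (XT.lf (nat_lit 0) (nat_lit 12506566603) (nat_lit 76) (nat_lit 4403745031) (nat_lit 76) (nat_lit 902251295) (nat_lit 12) (nat_lit 4) (nat_lit 13) (nat_lit 5) (nat_lit 13) (nat_lit 4) (nat_lit 333) (nat_lit 288) (nat_lit 279)) (XT.lf (nat_lit 0) (nat_lit 3135018507) (nat_lit 76) (nat_lit 180433692)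 (nat_lit 152) (nat_lit 15540077314) (nat_lit 10) (nat_lit 5) (nat_lit 11) (nat_lit 5) (nat_lit 12) (nat_lit 4) (nat_lit 334) (nat_lit 288) (nat_lit 278))) (XT.nd (nat_lit 78) (nat_lit 76) (nat_lit 0) (XT.lf (nat_lit 0) (nat_lit 7893598794) (nat_lit 152) (nat_lit 7892341927) (nat_lit 0) (nat_lit 4188488911) (nat_lit 10) (nat_lit 5) (nat_lit 12) (nat_lit 4) (nat_lit 10) (nat_lit 4) (nat_lit 335) (nat_lit 288) (nat_lit 277)) (XT.lf (nat_lit 0) (nat_lit 252891489) (nat_lit 76) (nat_lit 12426958823) (nat_lit 76) (nat_lit 8515747598) (nat_lit 9) (nat_lit 4) (nat_lit 10) (nat_lit 5) (nat_lit 10) (nat_lit 4) (nat_lit 336) (nat_lit 288) (nat_lit 276)))) (XT.nd (nat_lit 156) (nat_lit 152) (nat_lit 0) (XT.nd (nat_lit 78) (nat_lit 0) (nat_lit 0) (XT.lf (nat_lit 0) (nat_lit 9189463998) (nat_lit 76) (nat_lit 8711490946) (nat_lit 76) (nat_lit 4609445145) (nat_lit 9) (nat_lit 4) (nat_lit 10) (nat_lit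 5) (nat_lit 10) (nat_lit 4) (nat_lit 337) (nat_lit 288) (nat_lit 275)) (XT.lf (nat_lit 0) (nat_lit 18554736326) (nat_lit 76) (nat_lit 4833310115) (nat_lit 76) (nat_lit 554565633) (nat_lit 9) (nat_lit 4) (nat_lit 10) (nat_lit 5) (nat_lit 10) (nat_lit 4) (nat_lit 338) (nat_lit 288) (nat_lit 274))) (XT.nd (nat_lit 78) (nat_lit 0) (nat_lit 0) (XT.lf (nat_lit 0) (nat_lit 2963392411) (nat_lit 76) (nat_lit 597062772) (nat_lit 152) (nat_lit 21927497590) (nat_lit 7) (nat_lit 5) (nat_lit 8) (nat_lit 5) (nat_lit 9) (nat_lit 4) (nat_lit 339) (nat_lit 288) (nat_lit 273)) (XT.nd (nat_lit 78) (nat_lit 0) (nat_lit 0) (XT.lf (nat_lit 0) (nat_lit 8078599645) (nat_lit 152) (nat_lit 15243889713) (nat_lit 0) (nat_lit 3825039450) (nat_lit 7) (nat_lit 5) (nat_lit 9) (nat_lit 4) (nat_lit 7) (nat_lit 4) (nat_lit 340) (nat_lit 288) (nat_lit 272)) (XT.lf (nat_lit 0) (nat_lit 12841360723) (nat_lit 152) (nat_lit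 7650001070) (nat_lit 0) (nat_lit 8457921722) (nat_lit 7) (nat_lit 5) (nat_lit 9) (nat_lit 4) (nat_lit 7) (nat_lit 4) (nat_lit 341) (nat_lit 288) (nat_lit 271))))))) (XT.nd (nat_lit 624) (nat_lit 76) (nat_lit 0) (XT.nd (nat_lit 312) (nat_lit 152) (nat_lit 0) (XT.nd (nat_lit 156) (nat_lit 0) (nat_lit 0) (XT.nd (nat_lit 78) (nat_lit 0) (nat_lit 0) (XT.lf (nat_lit 0) (nat_lit 333130288) (nat_lit 76) (nat_lit 17537484316) (nat_lit 76) (nat_lit 13033787163) (nat_lit 6) (nat_lit 4) (nat_lit 7) (nat_lit 5) (nat_lit 7) (nat_lit 4) (nat_lit 342) (nat_lit 288) (nat_lit 270)) (XT.lf (nat_lit 0) (nat_lit 9160989261) (nat_lit 76) (nat_lit 14231414176) (nat_lit 76) (nat_lit 9616366880) (nat_lit 6) (nat_lit 4) (nat_lit 7) (nat_lit 5) (nat_lit 7) (nat_lit 4) (nat_lit 343) (nat_lit 288) (nat_lit 269))) (XT.nd (nat_lit 78) (nat_lit 0) (nat_lit 0) (XT.lf (nat_lit 0) (nat_lit 18483053587) (nat_lit 76) (nat_lit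 10762724431) (nat_lit 76) (nat_lit 6044575151) (nat_lit 6) (nat_lit 4) (nat_lit 7) (nat_lit 5) (nat_lit 7) (nat_lit 4) (nat_lit 344) (nat_lit 288) (nat_lit 268)) (XT.lf (nat_lit 0) (nat_lit 28354565128) (nat_lit 76) (nat_lit 7110859882) (nat_lit 76) (nat_lit 2297245804) (nat_lit 6) (nat_lit 4) (nat_lit 7) (nat_lit 5) (nat_lit 7) (nat_lit 4) (nat_lit 345) (nat_lit 288) (nat_lit 267)))) (XT.nd (nat_lit 156) (nat_lit 0) (nat_lit 0) (XT.nd (nat_lit 78) (nat_lit 76) (nat_lit 0) (XT.lf (nat_lit 0) (nat_lit 1565396550) (nat_lit 152) (nat_lit 1645982586) (nat_lit 76) (nat_lit 37225824466) (nat_lit 5) (nat_lit 5) (nat_lit 7) (nat_lit 5) (nat_lit 6) (nat_lit 4) (nat_lit 346) (nat_lit 288) (nat_lit 266)) (XT.lf (nat_lit 0) (nat_lit 5715724221) (nat_lit 152) (nat_lit 36495971462) (nat_lit 0) (nat_lit 1101045434) (nat_lit 4) (nat_lit 5) (nat_lit 6) (nat_lit 4) (nat_lit 4) (nat_lit 4) (nat_lit 347)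 (nat_lit 288) (nat_lit 265))) (XT.nd (nat_lit 78) (nat_lit 0) (nat_lit 0) (XT.lf (nat_lit 0) (nat_lit 10238537199) (nat_lit 152) (nat_lit 30622894316) (nat_lit 0) (nat_lit 5553688935) (nat_lit 4) (nat_lit 5) (nat_lit 6) (nat_lit 4) (nat_lit 4) (nat_lit 4) (nat_lit 348) (nat_lit 288) (nat_lit 264)) (XT.lf (nat_lit 0) (nat_lit 15040650801) (nat_lit 152) (nat_lit 24440843400) (nat_lit 0) (nat_lit 10290830798) (nat_lit 4) (nat_lit 5) (nat_lit 6) (nat_lit 4) (nat_lit 4) (nat_lit 4) (nat_lit 349) (nat_lit 288) (nat_lit 263))))) (XT.nd (nat_lit 312) (nat_lit 0) (nat_lit 0) (XT.nd (nat_lit 156) (nat_lit 76) (nat_lit 0) (XT.nd (nat_lit 78) (nat_lit 0) (nat_lit 0) (XT.lf (nat_lit 0) (nat_lit 20150521994) (nat_lit 152) (nat_lit 17913184338) (nat_lit 0) (nat_lit 15340542975) (nat_lit 4) (nat_lit 5) (nat_lit 6) (nat_lit 4) (nat_lit 4) (nat_lit 4) (nat_lit 350) (nat_lit 288) (nat_lit 262)) (XT.lf (nat_lit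 0) (nat_lit 25598431499) (nat_lit 152) (nat_lit 11001234704) (nat_lit 0) (nat_lit 20732749686) (nat_lit 4) (nat_lit 5) (nat_lit 6) (nat_lit 4) (nat_lit 4) (nat_lit 4) (nat_lit 351) (nat_lit 288) (nat_lit 261))) (XT.nd (nat_lit 78) (nat_lit 76) (nat_lit 0) (XT.lf (nat_lit 0) (nat_lit 31416663221) (nat_lit 152) (nat_lit 3664034799) (nat_lit 0) (nat_lit 26499404748) (nat_lit 4) (nat_lit 5) (nat_lit 6) (nat_lit 4) (nat_lit 4) (nat_lit 4) (nat_lit 352) (nat_lit 288) (nat_lit 260)) (XT.lf (nat_lit 0) (nat_lit 4359999935) (nat_lit 76) (nat_lit 33384553741) (nat_lit 76) (nat_lit 28419539100) (nat_lit 3) (nat_lit 4) (nat_lit 4) (nat_lit 5) (nat_lit 4) (nat_lit 4) (nat_lit 353) (nat_lit 288) (nat_lit 259)))) (XT.nd (nat_lit 156) (nat_lit 0) (nat_lit 0) (XT.nd (nat_lit 78) (nat_lit 0) (nat_lit 0) (XT.lf (nat_lit 0) (nat_lit 13119081908) (nat_lit 76) (nat_lit 31500838109) (nat_lit 76) (nat_lit 26491604795)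 (nat_lit 3) (nat_lit 4) (nat_lit 4) (nat_lit 5) (nat_lit 4) (nat_lit 4) (nat_lit 354) (nat_lit 288) (nat_lit 258)) (XT.lf (nat_lit 0) (nat_lit 22472175210) (nat_lit 76) (nat_lit 29518569572) (nat_lit 76) (nat_lit 24468393041) (nat_lit 3) (nat_lit 4) (nat_lit 4) (nat_lit 5) (nat_lit 4) (nat_lit 4) (nat_lit 355) (nat_lit 288) (nat_lit 257))) (XT.nd (nat_lit 78) (nat_lit 0) (nat_lit 0) (XT.lf (nat_lit 0) (nat_lit 32474705579) (nat_lit 76) (nat_lit 27426001352) (nat_lit 76) (nat_lit 22337914437) (nat_lit 3) (nat_lit 4) (nat_lit 4) (nat_lit 5) (nat_lit 4) (nat_lit 4) (nat_lit 356) (nat_lit 288) (nat_lit 256)) (XT.nd (nat_lit 78) (nat_lit 0) (nat_lit 0) (XT.lf (nat_lit 0) (nat_lit 43185947269) (nat_lit 76) (nat_lit 25210733047) (nat_lit 76) (nat_lit 20087543922) (nat_lit 3) (nat_lit 4) (nat_lit 4) (nat_lit 5) (nat_lit 4) (nat_lit 4) (nat_lit 357) (nat_lit 288) (nat_lit 255)) (XT.lf (nat_lit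 0) (nat_lit 54669374305) (nat_lit 76) (nat_lit 22859637138) (nat_lit 76) (nat_lit 17703945969) (nat_lit 3) (nat_lit 4) (nat_lit 4) (nat_lit 5) (nat_lit 4) (nat_lit 4) (nat_lit 358) (nat_lit 288) (nat_lit 254))))))))
noncomputable def xc61 : XT := (XT.nd (nat_lit 1326) (nat_lit 0) (nat_lit 0) (XT.nd (nat_lit 624) (nat_lit 0) (nat_lit 0) (XT.nd (nat_lit 312) (nat_lit 152) (nat_lit 0) (XT.nd (nat_lit 156) (nat_lit 0) (nat_lit 0) (XT.nd (nat_lit 78) (nat_lit 0) (nat_lit 0) (XT.lf (nat_lit 0) (nat_lit 66993036625) (nat_lit 76) (nat_lit 20358781208) (nat_lit 76) (nat_lit 15172995552) (nat_lit 3) (nat_lit 4) (nat_lit 4) (nat_lit 5) (nat_lit 4) (nat_lit 4) (nat_lit 359) (nat_lit 288) (nat_lit 253)) (XT.lf (nat_lit 0) (nat_lit 80229963338) (nat_lit 76) (nat_lit 17693345368) (nat_lit 76) (nat_lit 12479694447) (nat_lit 3) (nat_lit 4) (nat_lit 4) (nat_lit 5) (nat_lit 4) (nat_lit 4) (nat_lit 360)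 (nat_lit 288) (nat_lit 252))) (XT.nd (nat_lit 78) (nat_lit 0) (nat_lit 0) (XT.lf (nat_lit 0) (nat_lit 94458595493) (nat_lit 76) (nat_lit 14847534442) (nat_lit 76) (nat_lit 9608082351) (nat_lit 3) (nat_lit 4) (nat_lit 4) (nat_lit 5) (nat_lit 4) (nat_lit 4) (nat_lit 361) (nat_lit 288) (nat_lit 251)) (XT.lf (nat_lit 0) (nat_lit 109763250910) (nat_lit 76) (nat_lit 11804484368) (nat_lit 76) (nat_lit 6541142303) (nat_lit 3) (nat_lit 4) (nat_lit 4) (nat_lit 5) (nat_lit 4) (nat_lit 4) (nat_lit 362) (nat_lit 288) (nat_lit 250)))) (XT.nd (nat_lit 156) (nat_lit 76) (nat_lit 0) (XT.nd (nat_lit 78) (nat_lit 76) (nat_lit 0) (XT.lf (nat_lit 0) (nat_lit 126234623842) (nat_lit 76) (nat_lit 8546162254) (nat_lit 76) (nat_lit 3260699843) (nat_lit 3) (nat_lit 4) (nat_lit 4) (nat_lit 5) (nat_lit 4) (nat_lit 4) (nat_lit 363) (nat_lit 288) (nat_lit 249)) (XT.lf (nat_lit 0) (nat_lit 240044374) (nat_lit 152) (nat_lit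 4806651913) (nat_lit 76) (nat_lit 143723714813) (nat_lit 2) (nat_lit 5) (nat_lit 4) (nat_lit 5) (nat_lit 3) (nat_lit 4) (nat_lit 364) (nat_lit 288) (nat_lit 248))) (XT.nd (nat_lit 78) (nat_lit 0) (nat_lit 0) (XT.lf (nat_lit 0) (nat_lit 2755940085) (nat_lit 76) (nat_lit 1129083438) (nat_lit 152) (nat_lit 156462633135) (nat_lit 1) (nat_lit 5) (nat_lit 2) (nat_lit 5) (nat_lit 3) (nat_lit 4) (nat_lit 365) (nat_lit 288) (nat_lit 247)) (XT.lf (nat_lit 0) (nat_lit 8005242269) (nat_lit 152) (nat_lit 161772644524) (nat_lit 0) (nat_lit 3058512003) (nat_lit 1) (nat_lit 5) (nat_lit 3) (nat_lit 4) (nat_lit 1) (nat_lit 4) (nat_lit 366) (nat_lit 288) (nat_lit 246))))) (XT.nd (nat_lit 312) (nat_lit 0) (nat_lit 0) (XT.nd (nat_lit 156) (nat_lit 0) (nat_lit 0) (XT.nd (nat_lit 78) (nat_lit 0) (nat_lit 0) (XT.lf (nat_lit 0) (nat_lit 12460519821) (nat_lit 152) (nat_lit 166364557987) (nat_lit 0) (nat_lit 7498734820)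 (nat_lit 1) (nat_lit 5) (nat_lit 3) (nat_lit 4) (nat_lit 1) (nat_lit 4) (nat_lit 367) (nat_lit 288) (nat_lit 245)) (XT.lf (nat_lit 0) (nat_lit 17250103340) (nat_lit 152) (nat_lit 171367513816) (nat_lit 0) (nat_lit 12274378769) (nat_lit 1) (nat_lit 5) (nat_lit 3) (nat_lit 4) (nat_lit 1) (nat_lit 4) (nat_lit 368) (nat_lit 288) (nat_lit 244))) (XT.nd (nat_lit 78) (nat_lit 0) (nat_lit 0) (XT.lf (nat_lit 0) (nat_lit 22402375544) (nat_lit 152) (nat_lit 176811159159) (nat_lit 0) (nat_lit 17413743963) (nat_lit 1) (nat_lit 5) (nat_lit 3) (nat_lit 4) (nat_lit 1) (nat_lit 4) (nat_lit 369) (nat_lit 288) (nat_lit 243)) (XT.lf (nat_lit 0) (nat_lit 27947868415) (nat_lit 152) (nat_lit 182727752653) (nat_lit 0) (nat_lit 22947285900) (nat_lit 1) (nat_lit 5) (nat_lit 3) (nat_lit 4) (nat_lit 1) (nat_lit 4) (nat_lit 370) (nat_lit 288) (nat_lit 242)))) (XT.nd (nat_lit 156) (nat_lit 0) (nat_lit 0) (XT.nd (nat_lit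 78) (nat_lit 0) (nat_lit 0) (XT.lf (nat_lit 0) (nat_lit 33919444134) (nat_lit 152) (nat_lit 189152355595) (nat_lit 0) (nat_lit 28907795939) (nat_lit 1) (nat_lit 5) (nat_lit 3) (nat_lit 4) (nat_lit 1) (nat_lit 4) (nat_lit 371) (nat_lit 288) (nat_lit 241)) (XT.lf (nat_lit 0) (nat_lit 40352489816) (nat_lit 152) (nat_lit 196123039704) (nat_lit 0) (nat_lit 35330595621) (nat_lit 1) (nat_lit 5) (nat_lit 3) (nat_lit 4) (nat_lit 1) (nat_lit 4) (nat_lit 372) (nat_lit 288) (nat_lit 240))) (XT.nd (nat_lit 78) (nat_lit 0) (nat_lit 0) (XT.lf (nat_lit 0) (nat_lit 47285127213) (nat_lit 152) (nat_lit 203681112738) (nat_lit 0) (nat_lit 42253745981) (nat_lit 1) (nat_lit 5) (nat_lit 3) (nat_lit 4) (nat_lit 1) (nat_lit 4) (nat_lit 373) (nat_lit 288) (nat_lit 239)) (XT.nd (nat_lit 78) (nat_lit 0) (nat_lit 0) (XT.lf (nat_lit 0) (nat_lit 54758438622) (nat_lit 152) (nat_lit 211871363279) (nat_lit 0) (nat_lit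 49718273096) (nat_lit 1) (nat_lit 5) (nat_lit 3) (nat_lit 4) (nat_lit 1) (nat_lit 4) (nat_lit 374) (nat_lit 288) (nat_lit 238)) (XT.lf (nat_lit 0) (nat_lit 62816710331) (nat_lit 152) (nat_lit 220742326145) (nat_lit 0) (nat_lit 57768411200) (nat_lit 1) (nat_lit 5) (nat_lit 3) (nat_lit 4) (nat_lit 1) (nat_lit 4) (nat_lit 375) (nat_lit 288) (nat_lit 237))))))) (XT.nd (nat_lit 702) (nat_lit 0) (nat_lit 0) (XT.nd (nat_lit 312) (nat_lit 0) (nat_lit 0) (XT.nd (nat_lit 156) (nat_lit 0) (nat_lit 0) (XT.nd (nat_lit 78) (nat_lit 0) (nat_lit 0) (XT.lf (nat_lit 0) (nat_lit 71507695062) (nat_lit 152) (nat_lit 230346570003) (nat_lit 0) (nat_lit 66451864815) (nat_lit 1) (nat_lit 5) (nat_lit 3) (nat_lit 4) (nat_lit 1) (nat_lit 4) (nat_lit 376) (nat_lit 288) (nat_lit 236)) (XT.lf (nat_lit 0) (nat_lit 80882894947) (nat_lit 152) (nat_lit 240741008893) (nat_lit 0) (nat_lit 75820091444) (nat_lit 1) (nat_lit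 5) (nat_lit 3) (nat_lit 4) (nat_lit 1) (nat_lit 4) (nat_lit 377) (nat_lit 288) (nat_lit 235))) (XT.nd (nat_lit 78) (nat_lit 0) (nat_lit 0) (XT.lf (nat_lit 0) (nat_lit 90997866725) (nat_lit 152) (nat_lit 251987239489) (nat_lit 0) (nat_lit 85928606505) (nat_lit 1) (nat_lit 5) (nat_lit 3) (nat_lit 4) (nat_lit 1) (nat_lit 4) (nat_lit 378) (nat_lit 288) (nat_lit 234)) (XT.lf (nat_lit 0) (nat_lit 101912550971) (nat_lit 152) (nat_lit 264151906120) (nat_lit 0) (nat_lit 96837312308) (nat_lit 1) (nat_lit 5) (nat_lit 3) (nat_lit 4) (nat_lit 1) (nat_lit 4) (nat_lit 379) (nat_lit 288) (nat_lit 233)))) (XT.nd (nat_lit 156) (nat_lit 0) (nat_lit 0) (XT.nd (nat_lit 78) (nat_lit 0) (nat_lit 0) (XT.lf (nat_lit 0) (nat_lit 113691627295) (nat_lit 152) (nat_lit 277307095699) (nat_lit 0) (nat_lit 108610853037) (nat_lit 1) (nat_lit 5) (nat_lit 3) (nat_lit 4) (nat_lit 1) (nat_lit 4) (nat_lit 380) (nat_lit 288)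 (nat_lit 232)) (XT.lf (nat_lit 0) (nat_lit 126404897630) (nat_lit 152) (nat_lit 291530764907) (nat_lit 0) (nat_lit 121318997821) (nat_lit 1) (nat_lit 5) (nat_lit 3) (nat_lit 4) (nat_lit 1) (nat_lit 4) (nat_lit 381) (nat_lit 288) (nat_lit 231))) (XT.nd (nat_lit 78) (nat_lit 0) (nat_lit 0) (XT.lf (nat_lit 0) (nat_lit 140127699875) (nat_lit 152) (nat_lit 306907202152) (nat_lit 0) (nat_lit 135037054185) (nat_lit 1) (nat_lit 5) (nat_lit 3) (nat_lit 4) (nat_lit 1) (nat_lit 4) (nat_lit 382) (nat_lit 288) (nat_lit 230)) (XT.nd (nat_lit 78) (nat_lit 0) (nat_lit 0) (XT.lf (nat_lit 0) (nat_lit 154941354339) (nat_lit 152) (nat_lit 323527527063) (nat_lit 0) (nat_lit 149846314315) (nat_lit 1) (nat_lit 5) (nat_lit 3) (nat_lit 4) (nat_lit 1) (nat_lit 4) (nat_lit 383) (nat_lit 288) (nat_lit 229)) (XT.lf (nat_lit 0) (nat_lit 170933645641) (nat_lit 152) (nat_lit 341490230454) (nat_lit 0) (nat_lit 165834536790)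 (nat_lit 1) (nat_lit 5) (nat_lit 3) (nat_lit 4) (nat_lit 1) (nat_lit 4) (nat_lit 384) (nat_lit 288) (nat_lit 228)))))) (XT.nd (nat_lit 312) (nat_lit 0) (nat_lit 0) (XT.nd (nat_lit 156) (nat_lit 0) (nat_lit 0) (XT.nd (nat_lit 78) (nat_lit 0) (nat_lit 0) (XT.lf (nat_lit 0) (nat_lit 188199342916) (nat_lit 152) (nat_lit 360901757976) (nat_lit 0) (nat_lit 183096466632) (nat_lit 1) (nat_lit 5) (nat_lit 3) (nat_lit 4) (nat_lit 1) (nat_lit 4) (nat_lit 385) (nat_lit 288) (nat_lit 227)) (XT.lf (nat_lit 0) (nat_lit 206840761406) (nat_lit 152) (nat_lit 381877140901) (nat_lit 0) (nat_lit 201734396758) (nat_lit 1) (nat_lit 5) (nat_lit 3) (nat_lit 4) (nat_lit 1) (nat_lit 4) (nat_lit 386) (nat_lit 288) (nat_lit 226))) (XT.nd (nat_lit 78) (nat_lit 0) (nat_lit 0) (XT.lf (nat_lit 0) (nat_lit 226968368775) (nat_lit 152) (nat_lit 404540677797) (nat_lit 0) (nat_lit 221858774161) (nat_lit 1) (nat_lit 5) (nat_lit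 3) (nat_lit 4) (nat_lit 1) (nat_lit 4) (nat_lit 387) (nat_lit 288) (nat_lit 225)) (XT.lf (nat_lit 0) (nat_lit 248701439736) (nat_lit 152) (nat_lit 429026671102) (nat_lit 0) (nat_lit 243588854411) (nat_lit 1) (nat_lit 5) (nat_lit 3) (nat_lit 4) (nat_lit 1) (nat_lit 4) (nat_lit 388) (nat_lit 288) (nat_lit 224)))) (XT.nd (nat_lit 156) (nat_lit 0) (nat_lit 0) (XT.nd (nat_lit 78) (nat_lit 0) (nat_lit 0) (XT.lf (nat_lit 0) (nat_lit 272168762855) (nat_lit 152) (nat_lit 455480223001) (nat_lit 0) (nat_lit 267053408355) (nat_lit 1) (nat_lit 5) (nat_lit 3) (nat_lit 4) (nat_lit 1) (nat_lit 4) (nat_lit 389) (nat_lit 288) (nat_lit 223)) (XT.lf (nat_lit 0) (nat_lit 297509403753) (nat_lit 152) (nat_lit 484058095282) (nat_lit 0) (nat_lit 292391485201) (nat_lit 1) (nat_lit 5) (nat_lit 3) (nat_lit 4) (nat_lit 1) (nat_lit 4) (nat_lit 390) (nat_lit 288) (nat_lit 222))) (XT.nd (nat_lit 78) (nat_lit 0) (nat_lit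 0) (XT.lf (nat_lit 0) (nat_lit 324873529189) (nat_lit 152) (nat_lit 514929638299) (nat_lit 0) (nat_lit 319753236515) (nat_lit 1) (nat_lit 5) (nat_lit 3) (nat_lit 4) (nat_lit 1) (nat_lit 4) (nat_lit 391) (nat_lit 288) (nat_lit 221)) (XT.nd (nat_lit 78) (nat_lit 0) (nat_lit 0) (XT.lf (nat_lit 0) (nat_lit 354423296944) (nat_lit 152) (nat_lit 548277794529) (nat_lit 0) (nat_lit 349300806009) (nat_lit 1) (nat_lit 5) (nat_lit 3) (nat_lit 4) (nat_lit 1) (nat_lit 4) (nat_lit 392) (nat_lit 288) (nat_lit 220)) (XT.lf (nat_lit 0) (nat_lit 386333816752) (nat_lit 152) (nat_lit 584300182677) (nat_lit 0) (nat_lit 381209290391) (nat_lit 1) (nat_lit 5) (nat_lit 3) (nat_lit 4) (nat_lit 1) (nat_lit 4) (nat_lit 393) (nat_lit 288) (nat_lit 219))))))))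
noncomputable def xc62 : XT := (XT.nd (nat_lit 1326) (nat_lit 0) (nat_lit 0) (XT.nd (nat_lit 624) (nat_lit 0) (nat_lit 0) (XT.nd (nat_lit 312) (nat_lit 0) (nat_lit 0) (XT.nd (nat_lit 156) (nat_lit 0) (nat_lit 0) (XT.nd (nat_lit 78) (nat_lit 0) (nat_lit 0) (XT.lf (nat_lit 0) (nat_lit 420794187992) (nat_lit 152) (nat_lit 623210268746) (nat_lit 0) (nat_lit 415667776976) (nat_lit 1) (nat_lit 5) (nat_lit 3) (nat_lit 4) (nat_lit 1) (nat_lit 4) (nat_lit 394) (nat_lit 288) (nat_lit 218)) (XT.lf (nat_lit 0) (nat_lit 458008620269) (nat_lit 152) (nat_lit 665238631023) (nat_lit 0) (nat_lit 452880464203) (nat_lit 1) (nat_lit 5) (nat_lit 3) (nat_lit 4) (nat_lit 1) (nat_lit 4) (nat_lit 395) (nat_lit 288) (nat_lit 217))) (XT.nd (nat_lit 78) (nat_lit 0) (nat_lit 0) (XT.lf (nat_lit 0) (nat_lit 498197643552) (nat_lit 152) (nat_lit 710634326471) (nat_lit 0) (nat_lit 493067871699) (nat_lit 1) (nat_lit 5)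 (nat_lit 3) (nat_lit 4) (nat_lit 1) (nat_lit 4) (nat_lit 396) (nat_lit 288) (nat_lit 216)) (XT.lf (nat_lit 0) (nat_lit 541599415018) (nat_lit 152) (nat_lit 759666366617) (nat_lit 0) (nat_lit 536468147065) (nat_lit 1) (nat_lit 5) (nat_lit 3) (nat_lit 4) (nat_lit 1) (nat_lit 4) (nat_lit 397) (nat_lit 288) (nat_lit 215)))) (XT.nd (nat_lit 156) (nat_lit 0) (nat_lit 0) (XT.nd (nat_lit 78) (nat_lit 0) (nat_lit 0) (XT.lf (nat_lit 0) (nat_lit 588471130348) (nat_lit 152) (nat_lit 812625311701) (nat_lit 0) (nat_lit 583338477118) (nat_lit 1) (nat_lit 5) (nat_lit 3) (nat_lit 4) (nat_lit 1) (nat_lit 4) (nat_lit 398) (nat_lit 288) (nat_lit 214)) (XT.lf (nat_lit 0) (nat_lit 639090547856) (nat_lit 152) (nat_lit 869824992507) (nat_lit 0) (nat_lit 633956611962) (nat_lit 1) (nat_lit 5) (nat_lit 3) (nat_lit 4) (nat_lit 1) (nat_lit 4) (nat_lit 399) (nat_lit 288) (nat_lit 213))) (XT.nd (nat_lit 78) (nat_lit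 0) (nat_lit 0) (XT.lf (nat_lit 0) (nat_lit 693757634460) (nat_lit 152) (nat_lit 931604370107) (nat_lit 0) (nat_lit 688622510914) (nat_lit 1) (nat_lit 5) (nat_lit 3) (nat_lit 4) (nat_lit 1) (nat_lit 4) (nat_lit 400) (nat_lit 288) (nat_lit 212)) (XT.lf (nat_lit 0) (nat_lit 752796343267) (nat_lit 152) (nat_lit 998329544516) (nat_lit 0) (nat_lit 747660120043) (nat_lit 1) (nat_lit 5) (nat_lit 3) (nat_lit 4) (nat_lit 1) (nat_lit 4) (nat_lit 401) (nat_lit 288) (nat_lit 211))))) (XT.nd (nat_lit 312) (nat_lit 0) (nat_lit 0) (XT.nd (nat_lit 156) (nat_lit 0) (nat_lit 0) (XT.nd (nat_lit 78) (nat_lit 0) (nat_lit 0) (XT.lf (nat_lit 0) (nat_lit 816556533290) (nat_lit 152) (nat_lit 1070395924176) (nat_lit 0) (nat_lit 811419291846) (nat_lit 1) (nat_lit 5) (nat_lit 3) (nat_lit 4) (nat_lit 1) (nat_lit 4) (nat_lit 402) (nat_lit 288) (nat_lit 210)) (XT.lf (nat_lit 0) (nat_lit 885416042694) (nat_lit 152) (nat_lit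 1148230569113) (nat_lit 0) (nat_lit 880277858453) (nat_lit 1) (nat_lit 5) (nat_lit 3) (nat_lit 4) (nat_lit 1) (nat_lit 4) (nat_lit 403) (nat_lit 288) (nat_lit 209))) (XT.nd (nat_lit 78) (nat_lit 0) (nat_lit 0) (XT.lf (nat_lit 0) (nat_lit 959782927830) (nat_lit 152) (nat_lit 1232294721669) (nat_lit 0) (nat_lit 954643870629) (nat_lit 1) (nat_lit 5) (nat_lit 3) (nat_lit 4) (nat_lit 1) (nat_lit 4) (nat_lit 404) (nat_lit 288) (nat_lit 208)) (XT.lf (nat_lit 0) (nat_lit 1040097881351) (nat_lit 152) (nat_lit 1323086539785) (nat_lit 0) (nat_lit 1034958015854) (nat_lit 1) (nat_lit 5) (nat_lit 3) (nat_lit 4) (nat_lit 1) (nat_lit 4) (nat_lit 405) (nat_lit 288) (nat_lit 207)))) (XT.nd (nat_lit 156) (nat_lit 0) (nat_lit 0) (XT.nd (nat_lit 78) (nat_lit 0) (nat_lit 0) (XT.lf (nat_lit 0) (nat_lit 1126836843722) (nat_lit 152) (nat_lit 1421144049048) (nat_lit 0) (nat_lit 1121696229804) (nat_lit 1) (nat_lit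 5) (nat_lit 3) (nat_lit 4) (nat_lit 1) (nat_lit 4) (nat_lit 406) (nat_lit 288) (nat_lit 206)) (XT.lf (nat_lit 0) (nat_lit 1220513823610) (nat_lit 152) (nat_lit 1527048330996) (nat_lit 0) (nat_lit 1215372516707) (nat_lit 1) (nat_lit 5) (nat_lit 3) (nat_lit 4) (nat_lit 1) (nat_lit 4) (nat_lit 407) (nat_lit 288) (nat_lit 205))) (XT.nd (nat_lit 78) (nat_lit 0) (nat_lit 0) (XT.lf (nat_lit 0) (nat_lit 1321683943857) (nat_lit 152) (nat_lit 1641426966559) (nat_lit 0) (nat_lit 1316541995303) (nat_lit 1) (nat_lit 5) (nat_lit 3) (nat_lit 4) (nat_lit 1) (nat_lit 4) (nat_lit 408) (nat_lit 288) (nat_lit 204)) (XT.nd (nat_lit 78) (nat_lit 0) (nat_lit 0) (XT.lf (nat_lit 0) (nat_lit 1430946731103) (nat_lit 152) (nat_lit 1764957755058) (nat_lit 0) (nat_lit 1425804188428) (nat_lit 1) (nat_lit 5) (nat_lit 3) (nat_lit 4) (nat_lit 1) (nat_lit 4) (nat_lit 409) (nat_lit 288) (nat_lit 203)) (XT.lf (nat_lit 0)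 (nat_lit 1548949668531) (nat_lit 152) (nat_lit 1898372730796) (nat_lit 0) (nat_lit 1543806575743) (nat_lit 1) (nat_lit 5) (nat_lit 3) (nat_lit 4) (nat_lit 1) (nat_lit 4) (nat_lit 410) (nat_lit 288) (nat_lit 202))))))) (XT.nd (nat_lit 40248) (nat_lit 0) (nat_lit 684) (XT.nd (nat_lit 39936) (nat_lit 0) (nat_lit 1444) (XT.nd (nat_lit 156) (nat_lit 0) (nat_lit 0) (XT.nd (nat_lit 78) (nat_lit 0) (nat_lit 0) (XT.lf (nat_lit 0) (nat_lit 1676392032807) (nat_lit 152) (nat_lit 2042462501036) (nat_lit 0) (nat_lit 1671248430656) (nat_lit 1) (nat_lit 5) (nat_lit 3) (nat_lit 4) (nat_lit 1) (nat_lit 4) (nat_lit 411) (nat_lit 288) (nat_lit 201)) (XT.lf (nat_lit 0) (nat_lit 1814029037943) (nat_lit 152) (nat_lit 2198080931084) (nat_lit 0) (nat_lit 1808884964158) (nat_lit 1) (nat_lit 5) (nat_lit 3) (nat_lit 4) (nat_lit 1) (nat_lit 4) (nat_lit 412) (nat_lit 288) (nat_lit 200))) (XT.nd (nat_lit 78) (nat_lit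 0) (nat_lit 0) (XT.lf (nat_lit 0) (nat_lit 1962676310634) (nat_lit 152) (nat_lit 2366150204229) (nat_lit 0) (nat_lit 1957531800153) (nat_lit 1) (nat_lit 5) (nat_lit 3) (nat_lit 4) (nat_lit 1) (nat_lit 4) (nat_lit 413) (nat_lit 288) (nat_lit 199)) (XT.lf (nat_lit 0) (nat_lit 2123214723609) (nat_lit 152) (nat_lit 2547666286533) (nat_lit 0) (nat_lit 2118069808778) (nat_lit 1) (nat_lit 5) (nat_lit 3) (nat_lit 4) (nat_lit 1) (nat_lit 4) (nat_lit 414) (nat_lit 288) (nat_lit 198)))) (XT.nd (nat_lit 156) (nat_lit 152) (nat_lit 0) (XT.nd (nat_lit 78) (nat_lit 152) (nat_lit 0) (XT.lf (nat_lit 0) (nat_lit 2265359691) (nat_lit 152) (nat_lit 715532621) (nat_lit 0) (nat_lit 2265359691) (nat_lit 24) (nat_lit 5) (nat_lit 26) (nat_lit 4) (nat_lit 24) (nat_lit 4) (nat_lit 322) (nat_lit 289) (nat_lit 289)) (XT.lf (nat_lit 0) (nat_lit 6503845191) (nat_lit 152) (nat_lit 2566104782) (nat_lit 152) (nat_lit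 1860013407) (nat_lit 22) (nat_lit 4) (nat_lit 24) (nat_lit 5) (nat_lit 24) (nat_lit 4) (nat_lit 323) (nat_lit 289) (nat_lit 288))) (XT.nd (nat_lit 78) (nat_lit 0) (nat_lit 0) (XT.lf (nat_lit 0) (nat_lit 2342672143) (nat_lit 152) (nat_lit 7979478898) (nat_lit 0) (nat_lit 1083524286) (nat_lit 20) (nat_lit 5) (nat_lit 22) (nat_lit 4) (nat_lit 20) (nat_lit 4) (nat_lit 324) (nat_lit 289) (nat_lit 287)) (XT.lf (nat_lit 0) (nat_lit 6727577481) (nat_lit 152) (nat_lit 284654695) (nat_lit 0) (nat_lit 4907911525) (nat_lit 20) (nat_lit 5) (nat_lit 22) (nat_lit 4) (nat_lit 20) (nat_lit 4) (nat_lit 325) (nat_lit 289) (nat_lit 286))))) (XT.nd (nat_lit 312) (nat_lit 380) (nat_lit 0) (XT.nd (nat_lit 156) (nat_lit 76) (nat_lit 0) (XT.nd (nat_lit 78) (nat_lit 152) (nat_lit 0) (XT.lf (nat_lit 0) (nat_lit 8043690895) (nat_lit 152) (nat_lit 3386813707) (nat_lit 152) (nat_lit 1048149511) (nat_lit 18) (nat_lit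 4) (nat_lit 20) (nat_lit 5) (nat_lit 20) (nat_lit 4) (nat_lit 326) (nat_lit 289) (nat_lit 285)) (XT.lf (nat_lit 0) (nat_lit 3142117278) (nat_lit 152) (nat_lit 9410766613) (nat_lit 0) (nat_lit 531730128) (nat_lit 16) (nat_lit 5) (nat_lit 18) (nat_lit 4) (nat_lit 16) (nat_lit 4) (nat_lit 327) (nat_lit 289) (nat_lit 284))) (XT.nd (nat_lit 78) (nat_lit 76) (nat_lit 0) (XT.lf (nat_lit 0) (nat_lit 7602678284) (nat_lit 152) (nat_lit 1554773559) (nat_lit 0) (nat_lit 4580293599) (nat_lit 16) (nat_lit 5) (nat_lit 18) (nat_lit 4) (nat_lit 16) (nat_lit 4) (nat_lit 328) (nat_lit 289) (nat_lit 283)) (XT.lf (nat_lit 0) (nat_lit 6913831474) (nat_lit 76) (nat_lit 5468198683) (nat_lit 76) (nat_lit 2064334798) (nat_lit 15) (nat_lit 4) (nat_lit 16) (nat_lit 5) (nat_lit 16) (nat_lit 4) (nat_lit 329) (nat_lit 289) (nat_lit 282)))) (XT.nd (nat_lit 156) (nat_lit 228) (nat_lit 0) (XT.nd (nat_lit 78) (nat_lit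 0) (nat_lit 0) (XT.lf (nat_lit 0) (nat_lit 546814825) (nat_lit 76) (nat_lit 1522367959) (nat_lit 152) (nat_lit 13149867204) (nat_lit 13) (nat_lit 5) (nat_lit 14) (nat_lit 5) (nat_lit 15) (nat_lit 4) (nat_lit 330) (nat_lit 289) (nat_lit 281)) (XT.lf (nat_lit 0) (nat_lit 6498775048) (nat_lit 152) (nat_lit 6827323167) (nat_lit 0) (nat_lit 2717161814) (nat_lit 13) (nat_lit 5) (nat_lit 15) (nat_lit 4) (nat_lit 13) (nat_lit 4) (nat_lit 331) (nat_lit 289) (nat_lit 280))) (XT.nd (nat_lit 78) (nat_lit 152) (nat_lit 0) (XT.lf (nat_lit 0) (nat_lit 1333165485) (nat_lit 76) (nat_lit 9835750388) (nat_lit 76) (nat_lit 5773738553) (nat_lit 12) (nat_lit 4) (nat_lit 13) (nat_lit 5) (nat_lit 13) (nat_lit 4) (nat_lit 332) (nat_lit 289) (nat_lit 279)) (XT.nd (nat_lit 78) (nat_lit 152) (nat_lit 0) (XT.lf (nat_lit 0) (nat_lit 10204190978) (nat_lit 76) (nat_lit 6015509253) (nat_lit 76) (nat_lit 1693869086) (nat_lit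 12) (nat_lit 4) (nat_lit 13) (nat_lit 5) (nat_lit 13) (nat_lit 4) (nat_lit 333) (nat_lit 289) (nat_lit 278)) (XT.lf (nat_lit 0) (nat_lit 465603422) (nat_lit 76) (nat_lit 1951531286) (nat_lit 152) (nat_lit 16552682449) (nat_lit 10) (nat_lit 5) (nat_lit 11) (nat_lit 5) (nat_lit 12) (nat_lit 4) (nat_lit 334) (nat_lit 289) (nat_lit 277))))))))
noncomputable def xc63 : XT := (XT.nd (nat_lit 1326) (nat_lit 228) (nat_lit 0) (XT.nd (nat_lit 624) (nat_lit 228) (nat_lit 0) (XT.nd (nat_lit 312) (nat_lit 152) (nat_lit 0) (XT.nd (nat_lit 156) (nat_lit 76) (nat_lit 0) (XT.nd (nat_lit 78) (nat_lit 0) (nat_lit 0) (XT.lf (nat_lit 0) (nat_lit 6871477018) (nat_lit 152) (nat_lit 10785927243) (nat_lit 0) (nat_lit 2441267554) (nat_lit 10) (nat_lit 5) (nat_lit 12) (nat_lit 4) (nat_lit 10) (nat_lit 4) (nat_lit 335) (nat_lit 289) (nat_lit 276)) (XT.lf (nat_lit 0) (nat_lit 11576452653) (nat_lit 152) (nat_lit 2794527378)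 (nat_lit 0) (nat_lit 6955408613) (nat_lit 10) (nat_lit 5) (nat_lit 12) (nat_lit 4) (nat_lit 10) (nat_lit 4) (nat_lit 336) (nat_lit 289) (nat_lit 275))) (XT.nd (nat_lit 78) (nat_lit 0) (nat_lit 0) (XT.lf (nat_lit 0) (nat_lit 5857281625) (nat_lit 76) (nat_lit 10796594714) (nat_lit 76) (nat_lit 5998851993) (nat_lit 9) (nat_lit 4) (nat_lit 10) (nat_lit 5) (nat_lit 10) (nat_lit 4) (nat_lit 337) (nat_lit 289) (nat_lit 274)) (XT.lf (nat_lit 0) (nat_lit 15095138541) (nat_lit 76) (nat_lit 6978298356) (nat_lit 76) (nat_lit 2016945744) (nat_lit 9) (nat_lit 4) (nat_lit 10) (nat_lit 5) (nat_lit 10) (nat_lit 4) (nat_lit 338) (nat_lit 289) (nat_lit 273)))) (XT.nd (nat_lit 156) (nat_lit 0) (nat_lit 0) (XT.nd (nat_lit 78) (nat_lit 76) (nat_lit 0) (XT.lf (nat_lit 0) (nat_lit 2035771770) (nat_lit 152) (nat_lit 878437966) (nat_lit 76) (nat_lit 22735197986) (nat_lit 8) (nat_lit 5) (nat_lit 10) (nat_lit 5)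 (nat_lit 9) (nat_lit 4) (nat_lit 339) (nat_lit 289) (nat_lit 272)) (XT.lf (nat_lit 0) (nat_lit 6411745748) (nat_lit 152) (nat_lit 19360890459) (nat_lit 0) (nat_lit 1547752822) (nat_lit 7) (nat_lit 5) (nat_lit 9) (nat_lit 4) (nat_lit 7) (nat_lit 4) (nat_lit 340) (nat_lit 289) (nat_lit 271))) (XT.nd (nat_lit 78) (nat_lit 0) (nat_lit 0) (XT.lf (nat_lit 0) (nat_lit 11115593425) (nat_lit 152) (nat_lit 11879950326) (nat_lit 0) (nat_lit 6131342345) (nat_lit 7) (nat_lit 5) (nat_lit 9) (nat_lit 4) (nat_lit 7) (nat_lit 4) (nat_lit 341) (nat_lit 289) (nat_lit 270)) (XT.lf (nat_lit 0) (nat_lit 16082286070) (nat_lit 152) (nat_lit 4018065448) (nat_lit 0) (nat_lit 10986684849) (nat_lit 7) (nat_lit 5) (nat_lit 9) (nat_lit 4) (nat_lit 7) (nat_lit 4) (nat_lit 342) (nat_lit 289) (nat_lit 269))))) (XT.nd (nat_lit 312) (nat_lit 152) (nat_lit 0) (XT.nd (nat_lit 156) (nat_lit 0) (nat_lit 0) (XT.nd (nat_lit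 78) (nat_lit 0) (nat_lit 0) (XT.lf (nat_lit 0) (nat_lit 4496275008) (nat_lit 76) (nat_lit 16953116449) (nat_lit 76) (nat_lit 11754413245) (nat_lit 6) (nat_lit 4) (nat_lit 7) (nat_lit 5) (nat_lit 7) (nat_lit 4) (nat_lit 343) (nat_lit 289) (nat_lit 268)) (XT.lf (nat_lit 0) (nat_lit 13723955714) (nat_lit 76) (nat_lit 13529773039) (nat_lit 76) (nat_lit 8235605035) (nat_lit 6) (nat_lit 4) (nat_lit 7) (nat_lit 5) (nat_lit 7) (nat_lit 4) (nat_lit 344) (nat_lit 289) (nat_lit 267))) (XT.nd (nat_lit 78) (nat_lit 0) (nat_lit 0) (XT.lf (nat_lit 0) (nat_lit 23508075015) (nat_lit 76) (nat_lit 9919895838) (nat_lit 76) (nat_lit 4537334501) (nat_lit 6) (nat_lit 4) (nat_lit 7) (nat_lit 5) (nat_lit 7) (nat_lit 4) (nat_lit 345) (nat_lit 289) (nat_lit 266)) (XT.lf (nat_lit 0) (nat_lit 33906612877) (nat_lit 76) (nat_lit 6102092981) (nat_lit 76) (nat_lit 637685966) (nat_lit 6) (nat_lit 4) (nat_lit 7) (nat_lit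 5) (nat_lit 7) (nat_lit 4) (nat_lit 346) (nat_lit 289) (nat_lit 265)))) (XT.nd (nat_lit 156) (nat_lit 0) (nat_lit 0) (XT.nd (nat_lit 78) (nat_lit 0) (nat_lit 0) (XT.lf (nat_lit 0) (nat_lit 1419888524) (nat_lit 76) (nat_lit 1926303098) (nat_lit 152) (nat_lit 40192849693) (nat_lit 4) (nat_lit 5) (nat_lit 5) (nat_lit 5) (nat_lit 6) (nat_lit 4) (nat_lit 347) (nat_lit 289) (nat_lit 264)) (XT.lf (nat_lit 0) (nat_lit 7783001765) (nat_lit 152) (nat_lit 36277090510) (nat_lit 0) (nat_lit 2588224424) (nat_lit 4) (nat_lit 5) (nat_lit 6) (nat_lit 4) (nat_lit 4) (nat_lit 4) (nat_lit 348) (nat_lit 289) (nat_lit 263))) (XT.nd (nat_lit 78) (nat_lit 0) (nat_lit 0) (XT.lf (nat_lit 0) (nat_lit 12548379071) (nat_lit 152) (nat_lit 30166653021) (nat_lit 0) (nat_lit 7293442712) (nat_lit 4) (nat_lit 5) (nat_lit 6) (nat_lit 4) (nat_lit 4) (nat_lit 4) (nat_lit 349) (nat_lit 289) (nat_lit 262)) (XT.nd (nat_lit 78)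 (nat_lit 0) (nat_lit 0) (XT.lf (nat_lit 0) (nat_lit 17624235175) (nat_lit 152) (nat_lit 23705302686) (nat_lit 0) (nat_lit 12313596024) (nat_lit 4) (nat_lit 5) (nat_lit 6) (nat_lit 4) (nat_lit 4) (nat_lit 4) (nat_lit 350) (nat_lit 289) (nat_lit 261)) (XT.lf (nat_lit 0) (nat_lit 23040649227) (nat_lit 152) (nat_lit 16854750023) (nat_lit 0) (nat_lit 17678433415) (nat_lit 4) (nat_lit 5) (nat_lit 6) (nat_lit 4) (nat_lit 4) (nat_lit 4) (nat_lit 351) (nat_lit 289) (nat_lit 260))))))) (XT.nd (nat_lit 702) (nat_lit 152) (nat_lit 0) (XT.nd (nat_lit 312) (nat_lit 0) (nat_lit 0) (XT.nd (nat_lit 156) (nat_lit 76) (nat_lit 0) (XT.nd (nat_lit 78) (nat_lit 0) (nat_lit 0) (XT.lf (nat_lit 0) (nat_lit 28829718493) (nat_lit 152) (nat_lit 9574399165) (nat_lit 0) (nat_lit 23419746514) (nat_lit 4) (nat_lit 5) (nat_lit 6) (nat_lit 4) (nat_lit 4) (nat_lit 4) (nat_lit 352) (nat_lit 289) (nat_lit 259)) (XT.lf (nat_lit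 0) (nat_lit 35025748571) (nat_lit 152) (nat_lit 1821107290) (nat_lit 0) (nat_lit 29571557918) (nat_lit 4) (nat_lit 5) (nat_lit 6) (nat_lit 4) (nat_lit 4) (nat_lit 4) (nat_lit 353) (nat_lit 289) (nat_lit 258))) (XT.nd (nat_lit 78) (nat_lit 0) (nat_lit 0) (XT.lf (nat_lit 0) (nat_lit 6790773000) (nat_lit 76) (nat_lit 35038001927) (nat_lit 76) (nat_lit 29542868058) (nat_lit 3) (nat_lit 4) (nat_lit 4) (nat_lit 5) (nat_lit 4) (nat_lit 4) (nat_lit 354) (nat_lit 289) (nat_lit 257)) (XT.lf (nat_lit 0) (nat_lit 16096361303) (nat_lit 76) (nat_lit 33078945794) (nat_lit 76) (nat_lit 27545901540) (nat_lit 3) (nat_lit 4) (nat_lit 4) (nat_lit 5) (nat_lit 4) (nat_lit 4) (nat_lit 355) (nat_lit 289) (nat_lit 256)))) (XT.nd (nat_lit 156) (nat_lit 0) (nat_lit 0) (XT.nd (nat_lit 78) (nat_lit 0) (nat_lit 0) (XT.lf (nat_lit 0) (nat_lit 26054905562) (nat_lit 76) (nat_lit 31007870542) (nat_lit 76) (nat_lit 25439724079)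 (nat_lit 3) (nat_lit 4) (nat_lit 4) (nat_lit 5) (nat_lit 4) (nat_lit 4) (nat_lit 356) (nat_lit 289) (nat_lit 255)) (XT.lf (nat_lit 0) (nat_lit 36725419373) (nat_lit 76) (nat_lit 28812503131) (nat_lit 76) (nat_lit 23211854623) (nat_lit 3) (nat_lit 4) (nat_lit 4) (nat_lit 5) (nat_lit 4) (nat_lit 4) (nat_lit 357) (nat_lit 289) (nat_lit 254))) (XT.nd (nat_lit 78) (nat_lit 0) (nat_lit 0) (XT.lf (nat_lit 0) (nat_lit 48171135409) (nat_lit 76) (nat_lit 26479833978) (nat_lit 76) (nat_lit 20849090984) (nat_lit 3) (nat_lit 4) (nat_lit 4) (nat_lit 5) (nat_lit 4) (nat_lit 4) (nat_lit 358) (nat_lit 289) (nat_lit 253)) (XT.nd (nat_lit 78) (nat_lit 0) (nat_lit 0) (XT.lf (nat_lit 0) (nat_lit 60459880137) (nat_lit 76) (nat_lit 23996039857) (nat_lit 76) (nat_lit 18337431598) (nat_lit 3) (nat_lit 4) (nat_lit 4) (nat_lit 5) (nat_lit 4) (nat_lit 4) (nat_lit 359) (nat_lit 289) (nat_lit 252)) (XT.lf (nat_lit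 0) (nat_lit 73664475747) (nat_lit 76) (nat_lit 21346401989) (nat_lit 76) (nat_lit 15661992559) (nat_lit 3) (nat_lit 4) (nat_lit 4) (nat_lit 5) (nat_lit 4) (nat_lit 4) (nat_lit 360) (nat_lit 289) (nat_lit 251)))))) (XT.nd (nat_lit 312) (nat_lit 152) (nat_lit 0) (XT.nd (nat_lit 156) (nat_lit 0) (nat_lit 0) (XT.nd (nat_lit 78) (nat_lit 0) (nat_lit 0) (XT.lf (nat_lit 0) (nat_lit 87863171695) (nat_lit 76) (nat_lit 18515218816) (nat_lit 76) (nat_lit 12806919413) (nat_lit 3) (nat_lit 4) (nat_lit 4) (nat_lit 5) (nat_lit 4) (nat_lit 4) (nat_lit 361) (nat_lit 289) (nat_lit 250)) (XT.lf (nat_lit 0) (nat_lit 103140108401) (nat_lit 76) (nat_lit 15485712957) (nat_lit 76) (nat_lit 9755293207) (nat_lit 3) (nat_lit 4) (nat_lit 4) (nat_lit 5) (nat_lit 4) (nat_lit 4) (nat_lit 362) (nat_lit 289) (nat_lit 249))) (XT.nd (nat_lit 78) (nat_lit 0) (nat_lit 0) (XT.lf (nat_lit 0) (nat_lit 119585815861) (nat_lit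 76) (nat_lit 12239931783) (nat_lit 76) (nat_lit 6489030232) (nat_lit 3) (nat_lit 4) (nat_lit 4) (nat_lit 5) (nat_lit 4) (nat_lit 4) (nat_lit 363) (nat_lit 289) (nat_lit 248)) (XT.lf (nat_lit 0) (nat_lit 137297750118) (nat_lit 76) (nat_lit 8758641036) (nat_lit 76) (nat_lit 2988774854) (nat_lit 3) (nat_lit 4) (nat_lit 4) (nat_lit 5) (nat_lit 4) (nat_lit 4) (nat_lit 364) (nat_lit 289) (nat_lit 247)))) (XT.nd (nat_lit 156) (nat_lit 0) (nat_lit 0) (XT.nd (nat_lit 78) (nat_lit 76) (nat_lit 0) (XT.lf (nat_lit 0) (nat_lit 727885993) (nat_lit 152) (nat_lit 4273423158) (nat_lit 76) (nat_lit 155633083096) (nat_lit 2) (nat_lit 5) (nat_lit 4) (nat_lit 5) (nat_lit 3) (nat_lit 4) (nat_lit 365) (nat_lit 289) (nat_lit 246)) (XT.lf (nat_lit 0) (nat_lit 3870941746) (nat_lit 76) (nat_lit 780321179) (nat_lit 152) (nat_lit 168487622473) (nat_lit 1) (nat_lit 5) (nat_lit 2) (nat_lit 5) (nat_lit 3) (nat_lit 4)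 (nat_lit 366) (nat_lit 289) (nat_lit 245))) (XT.nd (nat_lit 78) (nat_lit 0) (nat_lit 0) (XT.lf (nat_lit 0) (nat_lit 9077140928) (nat_lit 152) (nat_lit 173862094838) (nat_lit 0) (nat_lit 3689418821) (nat_lit 1) (nat_lit 5) (nat_lit 3) (nat_lit 4) (nat_lit 1) (nat_lit 4) (nat_lit 367) (nat_lit 289) (nat_lit 244)) (XT.nd (nat_lit 78) (nat_lit 0) (nat_lit 0) (XT.lf (nat_lit 0) (nat_lit 13856879257) (nat_lit 152) (nat_lit 178884499248) (nat_lit 0) (nat_lit 8456250140) (nat_lit 1) (nat_lit 5) (nat_lit 3) (nat_lit 4) (nat_lit 1) (nat_lit 4) (nat_lit 368) (nat_lit 289) (nat_lit 243)) (XT.lf (nat_lit 0) (nat_lit 19000035543) (nat_lit 152) (nat_lit 184346152535) (nat_lit 0) (nat_lit 13587455492) (nat_lit 1) (nat_lit 5) (nat_lit 3) (nat_lit 4) (nat_lit 1) (nat_lit 4) (nat_lit 369) (nat_lit 289) (nat_lit 242))))))))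
noncomputable def xc64 : XT := (XT.nd (nat_lit 1326) (nat_lit 0) (nat_lit 0) (XT.nd (nat_lit 624) (nat_lit 0) (nat_lit 0) (XT.nd (nat_lit 312) (nat_lit 0) (nat_lit 0) (XT.nd (nat_lit 156) (nat_lit 0) (nat_lit 0) (XT.nd (nat_lit 78) (nat_lit 0) (nat_lit 0) (XT.lf (nat_lit 0) (nat_lit 24537087750) (nat_lit 152) (nat_lit 190279420052) (nat_lit 0) (nat_lit 19113442019) (nat_lit 1) (nat_lit 5) (nat_lit 3) (nat_lit 4) (nat_lit 1) (nat_lit 4) (nat_lit 370) (nat_lit 289) (nat_lit 241)) (XT.lf (nat_lit 0) (nat_lit 30500848039) (nat_lit 152) (nat_lit 196719461903) (nat_lit 0) (nat_lit 25066956308) (nat_lit 1) (nat_lit 5) (nat_lit 3) (nat_lit 4) (nat_lit 1) (nat_lit 4) (nat_lit 371) (nat_lit 289) (nat_lit 240))) (XT.nd (nat_lit 78) (nat_lit 0) (nat_lit 0) (XT.lf (nat_lit 0) (nat_lit 36926657211) (nat_lit 152) (nat_lit 203704441299) (nat_lit 0) (nat_lit 31483278443) (nat_lit 1) (nat_lit 5) (nat_lit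 3) (nat_lit 4) (nat_lit 1) (nat_lit 4) (nat_lit 372) (nat_lit 289) (nat_lit 239)) (XT.lf (nat_lit 0) (nat_lit 43852594137) (nat_lit 152) (nat_lit 211275750710) (nat_lit 0) (nat_lit 38400431075) (nat_lit 1) (nat_lit 5) (nat_lit 3) (nat_lit 4) (nat_lit 1) (nat_lit 4) (nat_lit 373) (nat_lit 289) (nat_lit 238)))) (XT.nd (nat_lit 156) (nat_lit 0) (nat_lit 0) (XT.nd (nat_lit 78) (nat_lit 0) (nat_lit 0) (XT.lf (nat_lit 0) (nat_lit 51319701405) (nat_lit 152) (nat_lit 219478257156) (nat_lit 0) (nat_lit 45859404738) (nat_lit 1) (nat_lit 5) (nat_lit 3) (nat_lit 4) (nat_lit 1) (nat_lit 4) (nat_lit 374) (nat_lit 289) (nat_lit 237)) (XT.lf (nat_lit 0) (nat_lit 59372228540) (nat_lit 152) (nat_lit 228360568081) (nat_lit 0) (nat_lit 53904400757) (nat_lit 1) (nat_lit 5) (nat_lit 3) (nat_lit 4) (nat_lit 1) (nat_lit 4) (nat_lit 375) (nat_lit 289) (nat_lit 236))) (XT.nd (nat_lit 78) (nat_lit 0) (nat_lit 0)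 (XT.lf (nat_lit 0) (nat_lit 68057894220) (nat_lit 152) (nat_lit 237975319402) (nat_lit 0) (nat_lit 62583093182) (nat_lit 1) (nat_lit 5) (nat_lit 3) (nat_lit 4) (nat_lit 1) (nat_lit 4) (nat_lit 376) (nat_lit 289) (nat_lit 235)) (XT.lf (nat_lit 0) (nat_lit 77428169059) (nat_lit 152) (nat_lit 248379487424) (nat_lit 0) (nat_lit 71946911302) (nat_lit 1) (nat_lit 5) (nat_lit 3) (nat_lit 4) (nat_lit 1) (nat_lit 4) (nat_lit 377) (nat_lit 289) (nat_lit 234))))) (XT.nd (nat_lit 312) (nat_lit 0) (nat_lit 0) (XT.nd (nat_lit 156) (nat_lit 0) (nat_lit 0) (XT.nd (nat_lit 78) (nat_lit 0) (nat_lit 0) (XT.lf (nat_lit 0) (nat_lit 87538580609) (nat_lit 152) (nat_lit 259634726475) (nat_lit 0) (nat_lit 82051344410) (nat_lit 1) (nat_lit 5) (nat_lit 3) (nat_lit 4) (nat_lit 1) (nat_lit 4) (nat_lit 378) (nat_lit 289) (nat_lit 233)) (XT.lf (nat_lit 0) (nat_lit 98449042421) (nat_lit 152) (nat_lit 271807734269) (nat_lit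 0) (nat_lit 92956270627) (nat_lit 1) (nat_lit 5) (nat_lit 3) (nat_lit 4) (nat_lit 1) (nat_lit 4) (nat_lit 379) (nat_lit 289) (nat_lit 232))) (XT.nd (nat_lit 78) (nat_lit 0) (nat_lit 0) (XT.lf (nat_lit 0) (nat_lit 110224209084) (nat_lit 152) (nat_lit 284970647147) (nat_lit 0) (nat_lit 104726311739) (nat_lit 1) (nat_lit 5) (nat_lit 3) (nat_lit 4) (nat_lit 1) (nat_lit 4) (nat_lit 380) (nat_lit 289) (nat_lit 231)) (XT.lf (nat_lit 0) (nat_lit 122933859363) (nat_lit 152) (nat_lit 299201467557) (nat_lit 0) (nat_lit 117431216137) (nat_lit 1) (nat_lit 5) (nat_lit 3) (nat_lit 4) (nat_lit 1) (nat_lit 4) (nat_lit 381) (nat_lit 289) (nat_lit 230)))) (XT.nd (nat_lit 156) (nat_lit 0) (nat_lit 0) (XT.nd (nat_lit 78) (nat_lit 0) (nat_lit 0) (XT.lf (nat_lit 0) (nat_lit 136653309704) (nat_lit 152) (nat_lit 314584526286) (nat_lit 0) (nat_lit 131146272144) (nat_lit 1) (nat_lit 5) (nat_lit 3) (nat_lit 4) (nat_lit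 1) (nat_lit 4) (nat_lit 382) (nat_lit 289) (nat_lit 229)) (XT.lf (nat_lit 0) (nat_lit 151463860553) (nat_lit 152) (nat_lit 331210982201) (nat_lit 0) (nat_lit 145952754166) (nat_lit 1) (nat_lit 5) (nat_lit 3) (nat_lit 4) (nat_lit 1) (nat_lit 4) (nat_lit 383) (nat_lit 289) (nat_lit 228))) (XT.nd (nat_lit 78) (nat_lit 0) (nat_lit 0) (XT.lf (nat_lit 0) (nat_lit 167453278138) (nat_lit 152) (nat_lit 349179362447) (nat_lit 0) (nat_lit 161938404318) (nat_lit 1) (nat_lit 5) (nat_lit 3) (nat_lit 4) (nat_lit 1) (nat_lit 4) (nat_lit 384) (nat_lit 289) (nat_lit 227)) (XT.nd (nat_lit 78) (nat_lit 0) (nat_lit 0) (XT.lf (nat_lit 0) (nat_lit 184716314563) (nat_lit 152) (nat_lit 368596146316) (nat_lit 0) (nat_lit 179197952380) (nat_lit 1) (nat_lit 5) (nat_lit 3) (nat_lit 4) (nat_lit 1) (nat_lit 4) (nat_lit 385) (nat_lit 289) (nat_lit 226)) (XT.lf (nat_lit 0) (nat_lit 203355269303) (nat_lit 152) (nat_lit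 389576396230) (nat_lit 0) (nat_lit 197833677153) (nat_lit 1) (nat_lit 5) (nat_lit 3) (nat_lit 4) (nat_lit 1) (nat_lit 4) (nat_lit 386) (nat_lit 289) (nat_lit 225))))))) (XT.nd (nat_lit 624) (nat_lit 0) (nat_lit 0) (XT.nd (nat_lit 312) (nat_lit 0) (nat_lit 0) (XT.nd (nat_lit 156) (nat_lit 0) (nat_lit 0) (XT.nd (nat_lit 78) (nat_lit 0) (nat_lit 0) (XT.lf (nat_lit 0) (nat_lit 223480595424) (nat_lit 152) (nat_lit 412244439596) (nat_lit 0) (nat_lit 217956012564) (nat_lit 1) (nat_lit 5) (nat_lit 3) (nat_lit 4) (nat_lit 1) (nat_lit 4) (nat_lit 387) (nat_lit 289) (nat_lit 224)) (XT.lf (nat_lit 0) (nat_lit 245211554116) (nat_lit 152) (nat_lit 436734605559) (nat_lit 0) (nat_lit 239684202080) (nat_lit 1) (nat_lit 5) (nat_lit 3) (nat_lit 4) (nat_lit 1) (nat_lit 4) (nat_lit 388) (nat_lit 289) (nat_lit 223))) (XT.nd (nat_lit 78) (nat_lit 0) (nat_lit 0) (XT.lf (nat_lit 0) (nat_lit 268676921432) (nat_lit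 152) (nat_lit 463192021030) (nat_lit 0) (nat_lit 263147005345) (nat_lit 1) (nat_lit 5) (nat_lit 3) (nat_lit 4) (nat_lit 1) (nat_lit 4) (nat_lit 389) (nat_lit 289) (nat_lit 222)) (XT.lf (nat_lit 0) (nat_lit 294015751400) (nat_lit 152) (nat_lit 491773470693) (nat_lit 0) (nat_lit 288483461191) (nat_lit 1) (nat_lit 5) (nat_lit 3) (nat_lit 4) (nat_lit 1) (nat_lit 4) (nat_lit 390) (nat_lit 289) (nat_lit 221)))) (XT.nd (nat_lit 156) (nat_lit 0) (nat_lit 0) (XT.nd (nat_lit 78) (nat_lit 0) (nat_lit 0) (XT.lf (nat_lit 0) (nat_lit 321378200049) (nat_lit 152) (nat_lit 522648326100) (nat_lit 0) (nat_lit 315843711579) (nat_lit 1) (nat_lit 5) (nat_lit 3) (nat_lit 4) (nat_lit 1) (nat_lit 4) (nat_lit 391) (nat_lit 289) (nat_lit 220)) (XT.lf (nat_lit 0) (nat_lit 350926415224) (nat_lit 152) (nat_lit 555999549359) (nat_lit 0) (nat_lit 345389891327) (nat_lit 1) (nat_lit 5) (nat_lit 3) (nat_lit 4) (nat_lit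 1) (nat_lit 4) (nat_lit 392) (nat_lit 289) (nat_lit 219))) (XT.nd (nat_lit 78) (nat_lit 0) (nat_lit 0) (XT.lf (nat_lit 0) (nat_lit 382835497459) (nat_lit 152) (nat_lit 592024777348) (nat_lit 0) (nat_lit 377297088907) (nat_lit 1) (nat_lit 5) (nat_lit 3) (nat_lit 4) (nat_lit 1) (nat_lit 4) (nat_lit 393) (nat_lit 289) (nat_lit 218)) (XT.lf (nat_lit 0) (nat_lit 417294537611) (nat_lit 152) (nat_lit 630937492899) (nat_lit 0) (nat_lit 411754384009) (nat_lit 1) (nat_lit 5) (nat_lit 3) (nat_lit 4) (nat_lit 1) (nat_lit 4) (nat_lit 394) (nat_lit 289) (nat_lit 217))))) (XT.nd (nat_lit 312) (nat_lit 0) (nat_lit 0) (XT.nd (nat_lit 156) (nat_lit 0) (nat_lit 0) (XT.nd (nat_lit 78) (nat_lit 0) (nat_lit 0) (XT.lf (nat_lit 0) (nat_lit 454507737400) (nat_lit 152) (nat_lit 672968289882) (nat_lit 0) (nat_lit 448965968010) (nat_lit 1) (nat_lit 5) (nat_lit 3) (nat_lit 4) (nat_lit 1) (nat_lit 4) (nat_lit 395)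 (nat_lit 289) (nat_lit 216)) (XT.lf (nat_lit 0) (nat_lit 494695619491) (nat_lit 152) (nat_lit 718366239687) (nat_lit 0) (nat_lit 489152354002) (nat_lit 1) (nat_lit 5) (nat_lit 3) (nat_lit 4) (nat_lit 1) (nat_lit 4) (nat_lit 396) (nat_lit 289) (nat_lit 215))) (XT.nd (nat_lit 78) (nat_lit 0) (nat_lit 0) (XT.lf (nat_lit 0) (nat_lit 538096334296) (nat_lit 152) (nat_lit 767400367201) (nat_lit 0) (nat_lit 532551683530) (nat_lit 1) (nat_lit 5) (nat_lit 3) (nat_lit 4) (nat_lit 1) (nat_lit 4) (nat_lit 397) (nat_lit 289) (nat_lit 214)) (XT.lf (nat_lit 0) (nat_lit 584967071238) (nat_lit 152) (nat_lit 820361245033) (nat_lit 0) (nat_lit 579421137808) (nat_lit 1) (nat_lit 5) (nat_lit 3) (nat_lit 4) (nat_lit 1) (nat_lit 4) (nat_lit 398) (nat_lit 289) (nat_lit 213)))) (XT.nd (nat_lit 156) (nat_lit 0) (nat_lit 0) (XT.nd (nat_lit 78) (nat_lit 0) (nat_lit 0) (XT.lf (nat_lit 0) (nat_lit 635585582830) (nat_lit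 152) (nat_lit 877562715420) (nat_lit 0) (nat_lit 630038461748) (nat_lit 1) (nat_lit 5) (nat_lit 3) (nat_lit 4) (nat_lit 1) (nat_lit 4) (nat_lit 399) (nat_lit 289) (nat_lit 212)) (XT.lf (nat_lit 0) (nat_lit 690251830624) (nat_lit 152) (nat_lit 939343750040) (nat_lit 0) (nat_lit 684703609864) (nat_lit 1) (nat_lit 5) (nat_lit 3) (nat_lit 4) (nat_lit 1) (nat_lit 4) (nat_lit 400) (nat_lit 289) (nat_lit 211))) (XT.nd (nat_lit 78) (nat_lit 0) (nat_lit 0) (XT.lf (nat_lit 0) (nat_lit 749289762753) (nat_lit 152) (nat_lit 1006070458727) (nat_lit 0) (nat_lit 743740523773) (nat_lit 1) (nat_lit 5) (nat_lit 3) (nat_lit 4) (nat_lit 1) (nat_lit 4) (nat_lit 401) (nat_lit 289) (nat_lit 210)) (XT.nd (nat_lit 78) (nat_lit 0) (nat_lit 0) (XT.lf (nat_lit 0) (nat_lit 813049233632) (nat_lit 152) (nat_lit 1078138259014) (nat_lit 0) (nat_lit 807499051855) (nat_lit 1) (nat_lit 5) (nat_lit 3) (nat_lit 4) (nat_lit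 1) (nat_lit 4) (nat_lit 402) (nat_lit 289) (nat_lit 209)) (XT.lf (nat_lit 0) (nat_lit 881908077160) (nat_lit 152) (nat_lit 1155974219348) (nat_lit 0) (nat_lit 876357022424) (nat_lit 1) (nat_lit 5) (nat_lit 3) (nat_lit 4) (nat_lit 1) (nat_lit 4) (nat_lit 403) (nat_lit 289) (nat_lit 208))))))))
noncomputable def xc65 : XT := (XT.nd (nat_lit 40794) (nat_lit 0) (nat_lit 456) (XT.nd (nat_lit 624) (nat_lit 0) (nat_lit 0) (XT.nd (nat_lit 312) (nat_lit 0) (nat_lit 0) (XT.nd (nat_lit 156) (nat_lit 0) (nat_lit 0) (XT.nd (nat_lit 78) (nat_lit 0) (nat_lit 0) (XT.lf (nat_lit 0) (nat_lit 956274345746) (nat_lit 152) (nat_lit 1240039589863) (nat_lit 0) (nat_lit 950722482713) (nat_lit 1) (nat_lit 5) (nat_lit 3) (nat_lit 4) (nat_lit 1) (nat_lit 4) (nat_lit 404) (nat_lit 289) (nat_lit 207)) (XT.lf (nat_lit 0) (nat_lit 1036588728386) (nat_lit 152) (nat_lit 1330832535718) (nat_lit 0) (nat_lit 1031036116932)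 (nat_lit 1) (nat_lit 5) (nat_lit 3) (nat_lit 4) (nat_lit 1) (nat_lit 4) (nat_lit 405) (nat_lit 289) (nat_lit 206))) (XT.nd (nat_lit 78) (nat_lit 0) (nat_lit 0) (XT.lf (nat_lit 0) (nat_lit 1123327162164) (nat_lit 152) (nat_lit 1428891089185) (nat_lit 0) (nat_lit 1117773857726) (nat_lit 1) (nat_lit 5) (nat_lit 3) (nat_lit 4) (nat_lit 1) (nat_lit 4) (nat_lit 406) (nat_lit 289) (nat_lit 205)) (XT.lf (nat_lit 0) (nat_lit 1217003652614) (nat_lit 152) (nat_lit 1534796337988) (nat_lit 0) (nat_lit 1211449706525) (nat_lit 1) (nat_lit 5) (nat_lit 3) (nat_lit 4) (nat_lit 1) (nat_lit 4) (nat_lit 407) (nat_lit 289) (nat_lit 204)))) (XT.nd (nat_lit 156) (nat_lit 0) (nat_lit 0) (XT.nd (nat_lit 78) (nat_lit 0) (nat_lit 0) (XT.lf (nat_lit 0) (nat_lit 1318173319678) (nat_lit 152) (nat_lit 1649175868787) (nat_lit 0) (nat_lit 1312618779467) (nat_lit 1) (nat_lit 5) (nat_lit 3) (nat_lit 4) (nat_lit 1) (nat_lit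 4) (nat_lit 408) (nat_lit 289) (nat_lit 203)) (XT.lf (nat_lit 0) (nat_lit 1427435687310) (nat_lit 152) (nat_lit 1772707486209) (nat_lit 0) (nat_lit 1421880596986) (nat_lit 1) (nat_lit 5) (nat_lit 3) (nat_lit 4) (nat_lit 1) (nat_lit 4) (nat_lit 409) (nat_lit 289) (nat_lit 202))) (XT.nd (nat_lit 78) (nat_lit 0) (nat_lit 0) (XT.lf (nat_lit 0) (nat_lit 1545438236206) (nat_lit 152) (nat_lit 1906123229468) (nat_lit 0) (nat_lit 1539882636519) (nat_lit 1) (nat_lit 5) (nat_lit 3) (nat_lit 4) (nat_lit 1) (nat_lit 4) (nat_lit 410) (nat_lit 289) (nat_lit 201)) (XT.lf (nat_lit 0) (nat_lit 1672880240731) (nat_lit 152) (nat_lit 2050213710375) (nat_lit 0) (nat_lit 1667324169411) (nat_lit 1) (nat_lit 5) (nat_lit 3) (nat_lit 4) (nat_lit 1) (nat_lit 4) (nat_lit 411) (nat_lit 289) (nat_lit 200))))) (XT.nd (nat_lit 39780) (nat_lit 0) (nat_lit 1444) (XT.nd (nat_lit 156) (nat_lit 0) (nat_lit 0) (XT.nd (nat_lit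 78) (nat_lit 0) (nat_lit 0) (XT.lf (nat_lit 0) (nat_lit 1810516912763) (nat_lit 152) (nat_lit 2205832798449) (nat_lit 0) (nat_lit 1804960404746) (nat_lit 1) (nat_lit 5) (nat_lit 3) (nat_lit 4) (nat_lit 1) (nat_lit 4) (nat_lit 412) (nat_lit 289) (nat_lit 199)) (XT.lf (nat_lit 0) (nat_lit 1959163877026) (nat_lit 152) (nat_lit 2373902680876) (nat_lit 0) (nat_lit 1953606964659) (nat_lit 1) (nat_lit 5) (nat_lit 3) (nat_lit 4) (nat_lit 1) (nat_lit 4) (nat_lit 413) (nat_lit 289) (nat_lit 198))) (XT.nd (nat_lit 39546) (nat_lit 0) (nat_lit 1900) (XT.lf (nat_lit 0) (nat_lit 2119702004418) (nat_lit 152) (nat_lit 2555419327331) (nat_lit 0) (nat_lit 2114144717654) (nat_lit 1) (nat_lit 5) (nat_lit 3) (nat_lit 4) (nat_lit 1) (nat_lit 4) (nat_lit 414) (nat_lit 289) (nat_lit 197)) (XT.lf (nat_lit 0) (nat_lit 1841847711) (nat_lit 152) (nat_lit 1507172295) (nat_lit 152) (nat_lit 1507172295) (nat_lit 26)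 (nat_lit 4) (nat_lit 28) (nat_lit 5) (nat_lit 28) (nat_lit 4) (nat_lit 320) (nat_lit 290) (nat_lit 290)))) (XT.nd (nat_lit 156) (nat_lit 304) (nat_lit 0) (XT.nd (nat_lit 78) (nat_lit 0) (nat_lit 0) (XT.lf (nat_lit 0) (nat_lit 1001933445) (nat_lit 152) (nat_lit 8853561893) (nat_lit 0) (nat_lit 239354759) (nat_lit 24) (nat_lit 5) (nat_lit 26) (nat_lit 4) (nat_lit 24) (nat_lit 4) (nat_lit 321) (nat_lit 290) (nat_lit 289)) (XT.lf (nat_lit 0) (nat_lit 5172211128) (nat_lit 152) (nat_lit 1626610736) (nat_lit 0) (nat_lit 3703541067) (nat_lit 24) (nat_lit 5) (nat_lit 26) (nat_lit 4) (nat_lit 24) (nat_lit 4) (nat_lit 322) (nat_lit 290) (nat_lit 288))) (XT.nd (nat_lit 78) (nat_lit 152) (nat_lit 0) (XT.lf (nat_lit 0) (nat_lit 6107407644) (nat_lit 152) (nat_lit 3482382206) (nat_lit 152) (nat_lit 1359923835) (nat_lit 22) (nat_lit 4) (nat_lit 24) (nat_lit 5) (nat_lit 24) (nat_lit 4) (nat_lit 323) (nat_lit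 290) (nat_lit 287)) (XT.nd (nat_lit 78) (nat_lit 0) (nat_lit 0) (XT.lf (nat_lit 0) (nat_lit 2667437424) (nat_lit 152) (nat_lit 8627507081) (nat_lit 0) (nat_lit 141680093) (nat_lit 20) (nat_lit 5) (nat_lit 22) (nat_lit 4) (nat_lit 20) (nat_lit 4) (nat_lit 324) (nat_lit 290) (nat_lit 286)) (XT.lf (nat_lit 0) (nat_lit 6943582376) (nat_lit 152) (nat_lit 1117511024) (nat_lit 0) (nat_lit 3898826805) (nat_lit 20) (nat_lit 5) (nat_lit 22) (nat_lit 4) (nat_lit 20) (nat_lit 4) (nat_lit 325) (nat_lit 290) (nat_lit 285))))))) (XT.nd (nat_lit 624) (nat_lit 380) (nat_lit 0) (XT.nd (nat_lit 312) (nat_lit 228) (nat_lit 0) (XT.nd (nat_lit 156) (nat_lit 76) (nat_lit 0) (XT.nd (nat_lit 78) (nat_lit 152) (nat_lit 0) (XT.lf (nat_lit 0) (nat_lit 6986828874) (nat_lit 152) (nat_lit 4533559004) (nat_lit 152) (nat_lit 1008249508) (nat_lit 18) (nat_lit 4) (nat_lit 20) (nat_lit 5) (nat_lit 20) (nat_lit 4) (nat_lit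 326) (nat_lit 290) (nat_lit 284)) (XT.lf (nat_lit 0) (nat_lit 2341015321) (nat_lit 76) (nat_lit 693254946) (nat_lit 152) (nat_lit 10112010684) (nat_lit 16) (nat_lit 5) (nat_lit 17) (nat_lit 5) (nat_lit 18) (nat_lit 4) (nat_lit 327) (nat_lit 290) (nat_lit 283))) (XT.nd (nat_lit 78) (nat_lit 76) (nat_lit 0) (XT.lf (nat_lit 0) (nat_lit 7379922020) (nat_lit 152) (nat_lit 3106506180) (nat_lit 0) (nat_lit 3322269825) (nat_lit 16) (nat_lit 5) (nat_lit 18) (nat_lit 4) (nat_lit 16) (nat_lit 4) (nat_lit 328) (nat_lit 290) (nat_lit 282)) (XT.lf (nat_lit 0) (nat_lit 5110883655) (nat_lit 76) (nat_lit 6914069618) (nat_lit 76) (nat_lit 2503195941) (nat_lit 15) (nat_lit 4) (nat_lit 16) (nat_lit 5) (nat_lit 16) (nat_lit 4) (nat_lit 329) (nat_lit 290) (nat_lit 281)))) (XT.nd (nat_lit 156) (nat_lit 76) (nat_lit 0) (XT.nd (nat_lit 78) (nat_lit 76) (nat_lit 0) (XT.lf (nat_lit 0) (nat_lit 1548766521) (nat_lit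 152) (nat_lit 1516496239) (nat_lit 76) (nat_lit 12244770311) (nat_lit 14) (nat_lit 5) (nat_lit 16) (nat_lit 5) (nat_lit 15) (nat_lit 4) (nat_lit 330) (nat_lit 290) (nat_lit 280)) (XT.lf (nat_lit 0) (nat_lit 5812716698) (nat_lit 152) (nat_lit 9189500756) (nat_lit 0) (nat_lit 1145345317) (nat_lit 13) (nat_lit 5) (nat_lit 15) (nat_lit 4) (nat_lit 13) (nat_lit 4) (nat_lit 331) (nat_lit 290) (nat_lit 279))) (XT.nd (nat_lit 78) (nat_lit 76) (nat_lit 0) (XT.lf (nat_lit 0) (nat_lit 10368252345) (nat_lit 152) (nat_lit 1246683840) (nat_lit 0) (nat_lit 5441252630) (nat_lit 13) (nat_lit 5) (nat_lit 15) (nat_lit 4) (nat_lit 13) (nat_lit 4) (nat_lit 332) (nat_lit 290) (nat_lit 278)) (XT.lf (nat_lit 0) (nat_lit 7411534406) (nat_lit 76) (nat_lit 7895973247) (nat_lit 76) (nat_lit 2728576927) (nat_lit 12) (nat_lit 4) (nat_lit 13) (nat_lit 5) (nat_lit 13) (nat_lit 4) (nat_lit 333) (nat_lit 290) (nat_lit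 277))))) (XT.nd (nat_lit 312) (nat_lit 152) (nat_lit 0) (XT.nd (nat_lit 156) (nat_lit 76) (nat_lit 0) (XT.nd (nat_lit 78) (nat_lit 76) (nat_lit 0) (XT.lf (nat_lit 0) (nat_lit 1346970731) (nat_lit 152) (nat_lit 2588286647) (nat_lit 76) (nat_lit 15166093332) (nat_lit 11) (nat_lit 5) (nat_lit 13) (nat_lit 5) (nat_lit 12) (nat_lit 4) (nat_lit 334) (nat_lit 290) (nat_lit 276)) (XT.lf (nat_lit 0) (nat_lit 5611182317) (nat_lit 152) (nat_lit 14204659808) (nat_lit 0) (nat_lit 429620178) (nat_lit 10) (nat_lit 5) (nat_lit 12) (nat_lit 4) (nat_lit 10) (nat_lit 4) (nat_lit 335) (nat_lit 290) (nat_lit 275))) (XT.nd (nat_lit 78) (nat_lit 76) (nat_lit 0) (XT.lf (nat_lit 0) (nat_lit 10246534027) (nat_lit 152) (nat_lit 6343984846) (nat_lit 0) (nat_lit 4888273207) (nat_lit 10) (nat_lit 5) (nat_lit 12) (nat_lit 4) (nat_lit 10) (nat_lit 4) (nat_lit 336) (nat_lit 290) (nat_lit 274)) (XT.lf (nat_lit 0) (nat_lit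 1993500605) (nat_lit 76) (nat_lit 13173066486) (nat_lit 76) (nat_lit 7651195776) (nat_lit 9) (nat_lit 4) (nat_lit 10) (nat_lit 5) (nat_lit 10) (nat_lit 4) (nat_lit 337) (nat_lit 290) (nat_lit 273)))) (XT.nd (nat_lit 156) (nat_lit 76) (nat_lit 0) (XT.nd (nat_lit 78) (nat_lit 76) (nat_lit 0) (XT.lf (nat_lit 0) (nat_lit 11113380287) (nat_lit 76) (nat_lit 9410218712) (nat_lit 76) (nat_lit 3736857363) (nat_lit 9) (nat_lit 4) (nat_lit 10) (nat_lit 5) (nat_lit 10) (nat_lit 4) (nat_lit 338) (nat_lit 290) (nat_lit 272)) (XT.lf (nat_lit 0) (nat_lit 342463930) (nat_lit 152) (nat_lit 5101305482) (nat_lit 76) (nat_lit 20383807430) (nat_lit 8) (nat_lit 5) (nat_lit 10) (nat_lit 5) (nat_lit 9) (nat_lit 4) (nat_lit 339) (nat_lit 290) (nat_lit 271))) (XT.nd (nat_lit 78) (nat_lit 0) (nat_lit 0) (XT.lf (nat_lit 0) (nat_lit 3447026738) (nat_lit 76) (nat_lit 1067654032) (nat_lit 152) (nat_lit 23000207239)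 (nat_lit 7) (nat_lit 5) (nat_lit 8) (nat_lit 5) (nat_lit 9) (nat_lit 4) (nat_lit 340) (nat_lit 290) (nat_lit 270)) (XT.nd (nat_lit 78) (nat_lit 0) (nat_lit 0) (XT.lf (nat_lit 0) (nat_lit 9138301897) (nat_lit 152) (nat_lit 16665825987) (nat_lit 0) (nat_lit 3523702436) (nat_lit 7) (nat_lit 5) (nat_lit 9) (nat_lit 4) (nat_lit 7) (nat_lit 4) (nat_lit 341) (nat_lit 290) (nat_lit 269)) (XT.lf (nat_lit 0) (nat_lit 14054485797) (nat_lit 152) (nat_lit 8900776252) (nat_lit 0) (nat_lit 8336784352) (nat_lit 7) (nat_lit 5) (nat_lit 9) (nat_lit 4) (nat_lit 7) (nat_lit 4) (nat_lit 342) (nat_lit 290) (nat_lit 268))))))))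
noncomputable def xc66 : XT := (XT.nd (nat_lit 1326) (nat_lit 152) (nat_lit 0) (XT.nd (nat_lit 624) (nat_lit 76) (nat_lit 0) (XT.nd (nat_lit 312) (nat_lit 152) (nat_lit 0) (XT.nd (nat_lit 156) (nat_lit 0) (nat_lit 0) (XT.nd (nat_lit 78) (nat_lit 76) (nat_lit 0) (XT.lf (nat_lit 0) (nat_lit 19266688306) (nat_lit 152) (nat_lit 701019851) (nat_lit 0) (nat_lit 13453522062) (nat_lit 7) (nat_lit 5) (nat_lit 9) (nat_lit 4) (nat_lit 7) (nat_lit 4) (nat_lit 343) (nat_lit 290) (nat_lit 267)) (XT.lf (nat_lit 0) (nat_lit 8402354150) (nat_lit 76) (nat_lit 16605519218) (nat_lit 76) (nat_lit 10703959642) (nat_lit 6) (nat_lit 4) (nat_lit 7) (nat_lit 5) (nat_lit 7) (nat_lit 4) (nat_lit 344) (nat_lit 290) (nat_lit 266))) (XT.nd (nat_lit 78) (nat_lit 0) (nat_lit 0) (XT.lf (nat_lit 0) (nat_lit 18105554709) (nat_lit 76) (nat_lit 13034519191) (nat_lit 76) (nat_lit 7051113936) (nat_lit 6) (nat_lit 4) (nat_lit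 7) (nat_lit 5) (nat_lit 7) (nat_lit 4) (nat_lit 345) (nat_lit 290) (nat_lit 265)) (XT.lf (nat_lit 0) (nat_lit 28429167810) (nat_lit 76) (nat_lit 9252713717) (nat_lit 76) (nat_lit 3193525426) (nat_lit 6) (nat_lit 4) (nat_lit 7) (nat_lit 5) (nat_lit 7) (nat_lit 4) (nat_lit 346) (nat_lit 290) (nat_lit 264)))) (XT.nd (nat_lit 156) (nat_lit 0) (nat_lit 0) (XT.nd (nat_lit 78) (nat_lit 76) (nat_lit 0) (XT.lf (nat_lit 0) (nat_lit 847060942) (nat_lit 152) (nat_lit 4367471007) (nat_lit 76) (nat_lit 38564149331) (nat_lit 5) (nat_lit 5) (nat_lit 7) (nat_lit 5) (nat_lit 6) (nat_lit 4) (nat_lit 347) (nat_lit 290) (nat_lit 263)) (XT.lf (nat_lit 0) (nat_lit 4355117299) (nat_lit 76) (nat_lit 716732126) (nat_lit 152) (nat_lit 41833083625) (nat_lit 4) (nat_lit 5) (nat_lit 5) (nat_lit 5) (nat_lit 6) (nat_lit 4) (nat_lit 348) (nat_lit 290) (nat_lit 262))) (XT.nd (nat_lit 78) (nat_lit 0) (nat_lit 0) (XT.lf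 (nat_lit 0) (nat_lit 9785974217) (nat_lit 152) (nat_lit 36488449565) (nat_lit 0) (nat_lit 3994781140) (nat_lit 4) (nat_lit 5) (nat_lit 6) (nat_lit 4) (nat_lit 4) (nat_lit 4) (nat_lit 349) (nat_lit 290) (nat_lit 261)) (XT.lf (nat_lit 0) (nat_lit 14830334869) (nat_lit 152) (nat_lit 30088496201) (nat_lit 0) (nat_lit 8987565131) (nat_lit 4) (nat_lit 5) (nat_lit 6) (nat_lit 4) (nat_lit 4) (nat_lit 4) (nat_lit 350) (nat_lit 290) (nat_lit 260))))) (XT.nd (nat_lit 312) (nat_lit 76) (nat_lit 0) (XT.nd (nat_lit 156) (nat_lit 0) (nat_lit 0) (XT.nd (nat_lit 78) (nat_lit 0) (nat_lit 0) (XT.lf (nat_lit 0) (nat_lit 20217586464) (nat_lit 152) (nat_lit 23294792585) (nat_lit 0) (nat_lit 14327060559) (nat_lit 4) (nat_lit 5) (nat_lit 6) (nat_lit 4) (nat_lit 4) (nat_lit 4) (nat_lit 351) (nat_lit 290) (nat_lit 259)) (XT.lf (nat_lit 0) (nat_lit 25979653456) (nat_lit 152) (nat_lit 16067079733) (nat_lit 0) (nat_lit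 20044908878) (nat_lit 4) (nat_lit 5) (nat_lit 6) (nat_lit 4) (nat_lit 4) (nat_lit 4) (nat_lit 352) (nat_lit 290) (nat_lit 258))) (XT.nd (nat_lit 78) (nat_lit 0) (nat_lit 0) (XT.lf (nat_lit 0) (nat_lit 32150681428) (nat_lit 152) (nat_lit 8362526753) (nat_lit 0) (nat_lit 26174993633) (nat_lit 4) (nat_lit 5) (nat_lit 6) (nat_lit 4) (nat_lit 4) (nat_lit 4) (nat_lit 353) (nat_lit 290) (nat_lit 257)) (XT.lf (nat_lit 0) (nat_lit 38767239433) (nat_lit 152) (nat_lit 135477036) (nat_lit 0) (nat_lit 32753641253) (nat_lit 4) (nat_lit 5) (nat_lit 6) (nat_lit 4) (nat_lit 4) (nat_lit 4) (nat_lit 354) (nat_lit 290) (nat_lit 256)))) (XT.nd (nat_lit 156) (nat_lit 0) (nat_lit 0) (XT.nd (nat_lit 78) (nat_lit 0) (nat_lit 0) (XT.lf (nat_lit 0) (nat_lit 9118991176) (nat_lit 76) (nat_lit 36968857486) (nat_lit 76) (nat_lit 30920157097) (nat_lit 3) (nat_lit 4) (nat_lit 4) (nat_lit 5) (nat_lit 4) (nat_lit 4) (nat_lit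 355) (nat_lit 290) (nat_lit 255)) (XT.lf (nat_lit 0) (nat_lit 19036807556) (nat_lit 76) (nat_lit 34917683128) (nat_lit 76) (nat_lit 28836480695) (nat_lit 3) (nat_lit 4) (nat_lit 4) (nat_lit 5) (nat_lit 4) (nat_lit 4) (nat_lit 356) (nat_lit 290) (nat_lit 254))) (XT.nd (nat_lit 78) (nat_lit 0) (nat_lit 0) (XT.lf (nat_lit 0) (nat_lit 29669610367) (nat_lit 76) (nat_lit 32740742473) (nat_lit 76) (nat_lit 26629445553) (nat_lit 3) (nat_lit 4) (nat_lit 4) (nat_lit 5) (nat_lit 4) (nat_lit 4) (nat_lit 357) (nat_lit 290) (nat_lit 253)) (XT.nd (nat_lit 78) (nat_lit 0) (nat_lit 0) (XT.lf (nat_lit 0) (nat_lit 41080408811) (nat_lit 76) (nat_lit 30425135129) (nat_lit 76) (nat_lit 24285972945) (nat_lit 3) (nat_lit 4) (nat_lit 4) (nat_lit 5) (nat_lit 4) (nat_lit 4) (nat_lit 358) (nat_lit 290) (nat_lit 252)) (XT.lf (nat_lit 0) (nat_lit 53336822435) (nat_lit 76) (nat_lit 27957138981) (nat_lit 76) (nat_lit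 21792175625) (nat_lit 3) (nat_lit 4) (nat_lit 4) (nat_lit 5) (nat_lit 4) (nat_lit 4) (nat_lit 359) (nat_lit 290) (nat_lit 251))))))) (XT.nd (nat_lit 624) (nat_lit 0) (nat_lit 0) (XT.nd (nat_lit 312) (nat_lit 152) (nat_lit 0) (XT.nd (nat_lit 156) (nat_lit 0) (nat_lit 0) (XT.nd (nat_lit 78) (nat_lit 0) (nat_lit 0) (XT.lf (nat_lit 0) (nat_lit 66511481838) (nat_lit 76) (nat_lit 25322128865) (nat_lit 76) (nat_lit 19133275536) (nat_lit 3) (nat_lit 4) (nat_lit 4) (nat_lit 5) (nat_lit 4) (nat_lit 4) (nat_lit 360) (nat_lit 290) (nat_lit 250)) (XT.lf (nat_lit 0) (nat_lit 80682459075) (nat_lit 76) (nat_lit 22504489907) (nat_lit 76) (nat_lit 16293516232) (nat_lit 3) (nat_lit 4) (nat_lit 4) (nat_lit 5) (nat_lit 4) (nat_lit 4) (nat_lit 361) (nat_lit 290) (nat_lit 249))) (XT.nd (nat_lit 78) (nat_lit 0) (nat_lit 0) (XT.lf (nat_lit 0) (nat_lit 95933730309) (nat_lit 76) (nat_lit 19487524987) (nat_lit 76)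 (nat_lit 13256069511) (nat_lit 3) (nat_lit 4) (nat_lit 4) (nat_lit 5) (nat_lit 4) (nat_lit 4) (nat_lit 362) (nat_lit 290) (nat_lit 248)) (XT.lf (nat_lit 0) (nat_lit 112355673442) (nat_lit 76) (nat_lit 16253355794) (nat_lit 76) (nat_lit 10002935687) (nat_lit 3) (nat_lit 4) (nat_lit 4) (nat_lit 5) (nat_lit 4) (nat_lit 4) (nat_lit 363) (nat_lit 290) (nat_lit 247)))) (XT.nd (nat_lit 156) (nat_lit 152) (nat_lit 0) (XT.nd (nat_lit 78) (nat_lit 0) (nat_lit 0) (XT.lf (nat_lit 0) (nat_lit 130045603693) (nat_lit 76) (nat_lit 12782816882) (nat_lit 76) (nat_lit 6514836931) (nat_lit 3) (nat_lit 4) (nat_lit 4) (nat_lit 5) (nat_lit 4) (nat_lit 4) (nat_lit 364) (nat_lit 290) (nat_lit 246)) (XT.lf (nat_lit 0) (nat_lit 149108350278) (nat_lit 76) (nat_lit 9055342094) (nat_lit 76) (nat_lit 2771103028) (nat_lit 3) (nat_lit 4) (nat_lit 4) (nat_lit 5) (nat_lit 4) (nat_lit 4) (nat_lit 365) (nat_lit 290) (nat_lit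 245))) (XT.nd (nat_lit 78) (nat_lit 76) (nat_lit 0) (XT.lf (nat_lit 0) (nat_lit 1187898482) (nat_lit 152) (nat_lit 3828464957) (nat_lit 76) (nat_lit 168436499891) (nat_lit 2) (nat_lit 5) (nat_lit 4) (nat_lit 5) (nat_lit 3) (nat_lit 4) (nat_lit 366) (nat_lit 290) (nat_lit 244)) (XT.lf (nat_lit 0) (nat_lit 4947529341) (nat_lit 76) (nat_lit 466298885) (nat_lit 152) (nat_lit 181544803298) (nat_lit 1) (nat_lit 5) (nat_lit 2) (nat_lit 5) (nat_lit 3) (nat_lit 4) (nat_lit 367) (nat_lit 290) (nat_lit 243))))) (XT.nd (nat_lit 312) (nat_lit 0) (nat_lit 0) (XT.nd (nat_lit 156) (nat_lit 0) (nat_lit 0) (XT.nd (nat_lit 78) (nat_lit 0) (nat_lit 0) (XT.lf (nat_lit 0) (nat_lit 10173236138) (nat_lit 152) (nat_lit 187040300038) (nat_lit 0) (nat_lit 4315698749) (nat_lit 1) (nat_lit 5) (nat_lit 3) (nat_lit 4) (nat_lit 1) (nat_lit 4) (nat_lit 368) (nat_lit 290) (nat_lit 242)) (XT.lf (nat_lit 0) (nat_lit 15307951760)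 (nat_lit 152) (nat_lit 192518627348) (nat_lit 0) (nat_lit 9439348690) (nat_lit 1) (nat_lit 5) (nat_lit 3) (nat_lit 4) (nat_lit 1) (nat_lit 4) (nat_lit 369) (nat_lit 290) (nat_lit 241))) (XT.nd (nat_lit 78) (nat_lit 0) (nat_lit 0) (XT.lf (nat_lit 0) (nat_lit 20837188536) (nat_lit 152) (nat_lit 198467333775) (nat_lit 0) (nat_lit 14958339467) (nat_lit 1) (nat_lit 5) (nat_lit 3) (nat_lit 4) (nat_lit 1) (nat_lit 4) (nat_lit 370) (nat_lit 290) (nat_lit 240)) (XT.lf (nat_lit 0) (nat_lit 26793712316) (nat_lit 152) (nat_lit 204921670913) (nat_lit 0) (nat_lit 20905376209) (nat_lit 1) (nat_lit 5) (nat_lit 3) (nat_lit 4) (nat_lit 1) (nat_lit 4) (nat_lit 371) (nat_lit 290) (nat_lit 239)))) (XT.nd (nat_lit 156) (nat_lit 0) (nat_lit 0) (XT.nd (nat_lit 78) (nat_lit 0) (nat_lit 0) (XT.lf (nat_lit 0) (nat_lit 33212821017) (nat_lit 152) (nat_lit 211919886686) (nat_lit 0) (nat_lit 27315700617) (nat_lit 1)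 (nat_lit 5) (nat_lit 3) (nat_lit 4) (nat_lit 1) (nat_lit 4) (nat_lit 372) (nat_lit 290) (nat_lit 238)) (XT.lf (nat_lit 0) (nat_lit 40132553803) (nat_lit 152) (nat_lit 219503452002) (nat_lit 0) (nat_lit 34227299797) (nat_lit 1) (nat_lit 5) (nat_lit 3) (nat_lit 4) (nat_lit 1) (nat_lit 4) (nat_lit 373) (nat_lit 290) (nat_lit 237))) (XT.nd (nat_lit 78) (nat_lit 0) (nat_lit 0) (XT.lf (nat_lit 0) (nat_lit 47593916496) (nat_lit 152) (nat_lit 227717306507) (nat_lit 0) (nat_lit 41681131375) (nat_lit 1) (nat_lit 5) (nat_lit 3) (nat_lit 4) (nat_lit 1) (nat_lit 4) (nat_lit 374) (nat_lit 290) (nat_lit 236)) (XT.nd (nat_lit 78) (nat_lit 0) (nat_lit 0) (XT.lf (nat_lit 0) (nat_lit 55641124581) (nat_lit 152) (nat_lit 236610124894) (nat_lit 0) (nat_lit 49721366204) (nat_lit 1) (nat_lit 5) (nat_lit 3) (nat_lit 4) (nat_lit 1) (nat_lit 4) (nat_lit 375) (nat_lit 290) (nat_lit 235)) (XT.lf (nat_lit 0) (nat_lit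 64321865215) (nat_lit 152) (nat_lit 246234605348) (nat_lit 0) (nat_lit 58395650120) (nat_lit 1) (nat_lit 5) (nat_lit 3) (nat_lit 4) (nat_lit 1) (nat_lit 4) (nat_lit 376) (nat_lit 290) (nat_lit 234))))))))
noncomputable def xc67 : XT := (XT.nd (nat_lit 1326) (nat_lit 0) (nat_lit 0) (XT.nd (nat_lit 624) (nat_lit 0) (nat_lit 0) (XT.nd (nat_lit 312) (nat_lit 0) (nat_lit 0) (XT.nd (nat_lit 156) (nat_lit 0) (nat_lit 0) (XT.nd (nat_lit 78) (nat_lit 0) (nat_lit 0) (XT.lf (nat_lit 0) (nat_lit 73687579825) (nat_lit 152) (nat_lit 256647781825) (nat_lit 0) (nat_lit 67755386287) (nat_lit 1) (nat_lit 5) (nat_lit 3) (nat_lit 4) (nat_lit 1) (nat_lit 4) (nat_lit 377) (nat_lit 290) (nat_lit 233)) (XT.lf (nat_lit 0) (nat_lit 83793768941) (nat_lit 152) (nat_lit 267911362039) (nat_lit 0) (nat_lit 77856039809) (nat_lit 1) (nat_lit 5) (nat_lit 3) (nat_lit 4) (nat_lit 1) (nat_lit 4) (nat_lit 378) (nat_lit 290)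 (nat_lit 232))) (XT.nd (nat_lit 78) (nat_lit 0) (nat_lit 0) (XT.lf (nat_lit 0) (nat_lit 94700321093) (nat_lit 152) (nat_lit 280092093132) (nat_lit 0) (nat_lit 88757466409) (nat_lit 1) (nat_lit 5) (nat_lit 3) (nat_lit 4) (nat_lit 1) (nat_lit 4) (nat_lit 379) (nat_lit 290) (nat_lit 231)) (XT.lf (nat_lit 0) (nat_lit 106471867699) (nat_lit 152) (nat_lit 293262157212) (nat_lit 0) (nat_lit 100524267135) (nat_lit 1) (nat_lit 5) (nat_lit 3) (nat_lit 4) (nat_lit 1) (nat_lit 4) (nat_lit 380) (nat_lit 290) (nat_lit 230)))) (XT.nd (nat_lit 156) (nat_lit 0) (nat_lit 0) (XT.nd (nat_lit 78) (nat_lit 0) (nat_lit 0) (XT.lf (nat_lit 0) (nat_lit 119178166074) (nat_lit 152) (nat_lit 307499599106) (nat_lit 0) (nat_lit 113226171176) (nat_lit 1) (nat_lit 5) (nat_lit 3) (nat_lit 4) (nat_lit 1) (nat_lit 4) (nat_lit 381) (nat_lit 290) (nat_lit 229)) (XT.lf (nat_lit 0) (nat_lit 132894512800) (nat_lit 152) (nat_lit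 322888788839) (nat_lit 0) (nat_lit 126938449075) (nat_lit 1) (nat_lit 5) (nat_lit 3) (nat_lit 4) (nat_lit 1) (nat_lit 4) (nat_lit 382) (nat_lit 290) (nat_lit 228))) (XT.nd (nat_lit 78) (nat_lit 0) (nat_lit 0) (XT.lf (nat_lit 0) (nat_lit 147702189932) (nat_lit 152) (nat_lit 339520921609) (nat_lit 0) (nat_lit 141742358774) (nat_lit 1) (nat_lit 5) (nat_lit 3) (nat_lit 4) (nat_lit 1) (nat_lit 4) (nat_lit 383) (nat_lit 290) (nat_lit 227)) (XT.lf (nat_lit 0) (nat_lit 163688946668) (nat_lit 152) (nat_lit 357494558202) (nat_lit 0) (nat_lit 157725627146) (nat_lit 1) (nat_lit 5) (nat_lit 3) (nat_lit 4) (nat_lit 1) (nat_lit 4) (nat_lit 384) (nat_lit 290) (nat_lit 226))))) (XT.nd (nat_lit 312) (nat_lit 0) (nat_lit 0) (XT.nd (nat_lit 156) (nat_lit 0) (nat_lit 0) (XT.nd (nat_lit 78) (nat_lit 0) (nat_lit 0) (XT.lf (nat_lit 0) (nat_lit 180949519343) (nat_lit 152) (nat_lit 376916209059) (nat_lit 0) (nat_lit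 174982969855) (nat_lit 1) (nat_lit 5) (nat_lit 3) (nat_lit 4) (nat_lit 1) (nat_lit 4) (nat_lit 385) (nat_lit 290) (nat_lit 225)) (XT.lf (nat_lit 0) (nat_lit 199586192834) (nat_lit 152) (nat_lit 397900965444) (nat_lit 0) (nat_lit 193616652635) (nat_lit 1) (nat_lit 5) (nat_lit 3) (nat_lit 4) (nat_lit 1) (nat_lit 4) (nat_lit 386) (nat_lit 290) (nat_lit 224))) (XT.nd (nat_lit 78) (nat_lit 0) (nat_lit 0) (XT.lf (nat_lit 0) (nat_lit 219709406686) (nat_lit 152) (nat_lit 420573181467) (nat_lit 0) (nat_lit 213737097312) (nat_lit 1) (nat_lit 5) (nat_lit 3) (nat_lit 4) (nat_lit 1) (nat_lit 4) (nat_lit 387) (nat_lit 290) (nat_lit 223)) (XT.lf (nat_lit 0) (nat_lit 241438409575) (nat_lit 152) (nat_lit 445067211003) (nat_lit 0) (nat_lit 235463536149) (nat_lit 1) (nat_lit 5) (nat_lit 3) (nat_lit 4) (nat_lit 1) (nat_lit 4) (nat_lit 388) (nat_lit 290) (nat_lit 222)))) (XT.nd (nat_lit 156) (nat_lit 0) (nat_lit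 0) (XT.nd (nat_lit 78) (nat_lit 0) (nat_lit 0) (XT.lf (nat_lit 0) (nat_lit 264901965961) (nat_lit 152) (nat_lit 471528203856) (nat_lit 0) (nat_lit 258924718414) (nat_lit 1) (nat_lit 5) (nat_lit 3) (nat_lit 4) (nat_lit 1) (nat_lit 4) (nat_lit 389) (nat_lit 290) (nat_lit 221)) (XT.lf (nat_lit 0) (nat_lit 290239119143) (nat_lit 152) (nat_lit 500112965909) (nat_lit 0) (nat_lit 284259673334) (nat_lit 1) (nat_lit 5) (nat_lit 3) (nat_lit 4) (nat_lit 1) (nat_lit 4) (nat_lit 390) (nat_lit 290) (nat_lit 220))) (XT.nd (nat_lit 78) (nat_lit 0) (nat_lit 0) (XT.lf (nat_lit 0) (nat_lit 317600015212) (nat_lit 152) (nat_lit 530990888345) (nat_lit 0) (nat_lit 311618533977) (nat_lit 1) (nat_lit 5) (nat_lit 3) (nat_lit 4) (nat_lit 1) (nat_lit 4) (nat_lit 391) (nat_lit 290) (nat_lit 219)) (XT.nd (nat_lit 78) (nat_lit 0) (nat_lit 0) (XT.lf (nat_lit 0) (nat_lit 347146792813) (nat_lit 152) (nat_lit 564344951444)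 (nat_lit 0) (nat_lit 341163426923) (nat_lit 1) (nat_lit 5) (nat_lit 3) (nat_lit 4) (nat_lit 1) (nat_lit 4) (nat_lit 392) (nat_lit 290) (nat_lit 218)) (XT.lf (nat_lit 0) (nat_lit 379054543960) (nat_lit 152) (nat_lit 600372808915) (nat_lit 0) (nat_lit 373069433020) (nat_lit 1) (nat_lit 5) (nat_lit 3) (nat_lit 4) (nat_lit 1) (nat_lit 4) (nat_lit 393) (nat_lit 290) (nat_lit 217))))))) (XT.nd (nat_lit 702) (nat_lit 0) (nat_lit 0) (XT.nd (nat_lit 312) (nat_lit 0) (nat_lit 0) (XT.nd (nat_lit 156) (nat_lit 0) (nat_lit 0) (XT.nd (nat_lit 78) (nat_lit 0) (nat_lit 0) (XT.lf (nat_lit 0) (nat_lit 413512351624) (nat_lit 152) (nat_lit 639287959172) (nat_lit 0) (nat_lit 407525624896) (nat_lit 1) (nat_lit 5) (nat_lit 3) (nat_lit 4) (nat_lit 1) (nat_lit 4) (nat_lit 394) (nat_lit 290) (nat_lit 216)) (XT.lf (nat_lit 0) (nat_lit 450724410220) (nat_lit 152) (nat_lit 681321010512) (nat_lit 0) (nat_lit 444736187393)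 (nat_lit 1) (nat_lit 5) (nat_lit 3) (nat_lit 4) (nat_lit 1) (nat_lit 4) (nat_lit 395) (nat_lit 290) (nat_lit 215))) (XT.nd (nat_lit 78) (nat_lit 0) (nat_lit 0) (XT.lf (nat_lit 0) (nat_lit 490911235651) (nat_lit 152) (nat_lit 726721047685) (nat_lit 0) (nat_lit 484921627547) (nat_lit 1) (nat_lit 5) (nat_lit 3) (nat_lit 4) (nat_lit 1) (nat_lit 4) (nat_lit 396) (nat_lit 290) (nat_lit 214)) (XT.lf (nat_lit 0) (nat_lit 534310972068) (nat_lit 152) (nat_lit 775757107948) (nat_lit 0) (nat_lit 528320081300) (nat_lit 1) (nat_lit 5) (nat_lit 3) (nat_lit 4) (nat_lit 1) (nat_lit 4) (nat_lit 397) (nat_lit 290) (nat_lit 213)))) (XT.nd (nat_lit 156) (nat_lit 0) (nat_lit 0) (XT.nd (nat_lit 78) (nat_lit 0) (nat_lit 0) (XT.lf (nat_lit 0) (nat_lit 581180803094) (nat_lit 152) (nat_lit 828719775361) (nat_lit 0) (nat_lit 575188724673) (nat_lit 1) (nat_lit 5) (nat_lit 3) (nat_lit 4) (nat_lit 1) (nat_lit 4) (nat_lit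 398) (nat_lit 290) (nat_lit 212)) (XT.lf (nat_lit 0) (nat_lit 631798475876) (nat_lit 152) (nat_lit 885922902768) (nat_lit 0) (nat_lit 625805297777) (nat_lit 1) (nat_lit 5) (nat_lit 3) (nat_lit 4) (nat_lit 1) (nat_lit 4) (nat_lit 399) (nat_lit 290) (nat_lit 211))) (XT.nd (nat_lit 78) (nat_lit 0) (nat_lit 0) (XT.lf (nat_lit 0) (nat_lit 686463946993) (nat_lit 152) (nat_lit 947705471666) (nat_lit 0) (nat_lit 680469750674) (nat_lit 1) (nat_lit 5) (nat_lit 3) (nat_lit 4) (nat_lit 1) (nat_lit 4) (nat_lit 400) (nat_lit 290) (nat_lit 210)) (XT.nd (nat_lit 78) (nat_lit 0) (nat_lit 0) (XT.lf (nat_lit 0) (nat_lit 745501159977) (nat_lit 152) (nat_lit 1014433600980) (nat_lit 0) (nat_lit 739506020862) (nat_lit 1) (nat_lit 5) (nat_lit 3) (nat_lit 4) (nat_lit 1) (nat_lit 4) (nat_lit 401) (nat_lit 290) (nat_lit 209)) (XT.lf (nat_lit 0) (nat_lit 809259964981) (nat_lit 152) (nat_lit 1086502716663) (nat_lit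 0) (nat_lit 803263952906) (nat_lit 1) (nat_lit 5) (nat_lit 3) (nat_lit 4) (nat_lit 1) (nat_lit 4) (nat_lit 402) (nat_lit 290) (nat_lit 208)))))) (XT.nd (nat_lit 312) (nat_lit 0) (nat_lit 0) (XT.nd (nat_lit 156) (nat_lit 0) (nat_lit 0) (XT.nd (nat_lit 78) (nat_lit 0) (nat_lit 0) (XT.lf (nat_lit 0) (nat_lit 878118191958) (nat_lit 152) (nat_lit 1164339894956) (nat_lit 0) (nat_lit 872121371588) (nat_lit 1) (nat_lit 5) (nat_lit 3) (nat_lit 4) (nat_lit 1) (nat_lit 4) (nat_lit 403) (nat_lit 290) (nat_lit 207)) (XT.lf (nat_lit 0) (nat_lit 952483889663) (nat_lit 152) (nat_lit 1248406393210) (nat_lit 0) (nat_lit 946486320870) (nat_lit 1) (nat_lit 5) (nat_lit 3) (nat_lit 4) (nat_lit 1) (nat_lit 4) (nat_lit 404) (nat_lit 290) (nat_lit 206))) (XT.nd (nat_lit 78) (nat_lit 0) (nat_lit 0) (XT.lf (nat_lit 0) (nat_lit 1032797743711) (nat_lit 152) (nat_lit 1339200383269) (nat_lit 0) (nat_lit 1026799481934)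 (nat_lit 1) (nat_lit 5) (nat_lit 3) (nat_lit 4) (nat_lit 1) (nat_lit 4) (nat_lit 405) (nat_lit 290) (nat_lit 205)) (XT.lf (nat_lit 0) (nat_lit 1119535688051) (nat_lit 152) (nat_lit 1437259903592) (nat_lit 0) (nat_lit 1113536784623) (nat_lit 1) (nat_lit 5) (nat_lit 3) (nat_lit 4) (nat_lit 1) (nat_lit 4) (nat_lit 406) (nat_lit 290) (nat_lit 204)))) (XT.nd (nat_lit 156) (nat_lit 0) (nat_lit 0) (XT.nd (nat_lit 78) (nat_lit 0) (nat_lit 0) (XT.lf (nat_lit 0) (nat_lit 1213211725317) (nat_lit 152) (nat_lit 1543166047631) (nat_lit 0) (nat_lit 1207212227768) (nat_lit 1) (nat_lit 5) (nat_lit 3) (nat_lit 4) (nat_lit 1) (nat_lit 4) (nat_lit 407) (nat_lit 290) (nat_lit 203)) (XT.lf (nat_lit 0) (nat_lit 1314380972767) (nat_lit 152) (nat_lit 1657546407353) (nat_lit 0) (nat_lit 1308380925105) (nat_lit 1) (nat_lit 5) (nat_lit 3) (nat_lit 4) (nat_lit 1) (nat_lit 4) (nat_lit 408) (nat_lit 290) (nat_lit 202)))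 (XT.nd (nat_lit 78) (nat_lit 0) (nat_lit 0) (XT.lf (nat_lit 0) (nat_lit 1423642951867) (nat_lit 152) (nat_lit 1781078792295) (nat_lit 0) (nat_lit 1417642394841) (nat_lit 1) (nat_lit 5) (nat_lit 3) (nat_lit 4) (nat_lit 1) (nat_lit 4) (nat_lit 409) (nat_lit 290) (nat_lit 201)) (XT.nd (nat_lit 78) (nat_lit 0) (nat_lit 0) (XT.lf (nat_lit 0) (nat_lit 1541645141012) (nat_lit 152) (nat_lit 1914495246221) (nat_lit 0) (nat_lit 1535644112353) (nat_lit 1) (nat_lit 5) (nat_lit 3) (nat_lit 4) (nat_lit 1) (nat_lit 4) (nat_lit 410) (nat_lit 290) (nat_lit 200)) (XT.lf (nat_lit 0) (nat_lit 1669086812433) (nat_lit 152) (nat_lit 2058586385155) (nat_lit 0) (nat_lit 1663085347078) (nat_lit 1) (nat_lit 5) (nat_lit 3) (nat_lit 4) (nat_lit 1) (nat_lit 4) (nat_lit 411) (nat_lit 290) (nat_lit 199))))))))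
noncomputable def xc68 : XT := (XT.nd (nat_lit 40638) (nat_lit 0) (nat_lit 304) (XT.nd (nat_lit 39936) (nat_lit 0) (nat_lit 912) (XT.nd (nat_lit 39624) (nat_lit 0) (nat_lit 1748) (XT.nd (nat_lit 156) (nat_lit 0) (nat_lit 0) (XT.nd (nat_lit 78) (nat_lit 0) (nat_lit 0) (XT.lf (nat_lit 0) (nat_lit 1806723176037) (nat_lit 152) (nat_lit 2214206082511) (nat_lit 0) (nat_lit 1800721306332) (nat_lit 1) (nat_lit 5) (nat_lit 3) (nat_lit 4) (nat_lit 1) (nat_lit 4) (nat_lit 412) (nat_lit 290) (nat_lit 198)) (XT.lf (nat_lit 0) (nat_lit 1955369854717) (nat_lit 152) (nat_lit 2382276529088) (nat_lit 0) (nat_lit 1949367610614) (nat_lit 1) (nat_lit 5) (nat_lit 3) (nat_lit 4) (nat_lit 1) (nat_lit 4) (nat_lit 413) (nat_lit 290) (nat_lit 197))) (XT.nd (nat_lit 39390) (nat_lit 0) (nat_lit 2280) (XT.lf (nat_lit 0) (nat_lit 2115907717681) (nat_lit 152) (nat_lit 2563793697905) (nat_lit 0) (nat_lit 2109905126914)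 (nat_lit 1) (nat_lit 5) (nat_lit 3) (nat_lit 4) (nat_lit 1) (nat_lit 4) (nat_lit 414) (nat_lit 290) (nat_lit 196)) (XT.lf (nat_lit 0) (nat_lit 3935519601) (nat_lit 228) (nat_lit 292921132) (nat_lit 228) (nat_lit 292921132) (nat_lit 31) (nat_lit 4) (nat_lit 34) (nat_lit 5) (nat_lit 34) (nat_lit 4) (nat_lit 318) (nat_lit 291) (nat_lit 291)))) (XT.nd (nat_lit 156) (nat_lit 152) (nat_lit 0) (XT.nd (nat_lit 78) (nat_lit 152) (nat_lit 0) (XT.lf (nat_lit 0) (nat_lit 3353571861) (nat_lit 228) (nat_lit 3547909213) (nat_lit 0) (nat_lit 2464100082) (nat_lit 28) (nat_lit 5) (nat_lit 31) (nat_lit 4) (nat_lit 28) (nat_lit 4) (nat_lit 319) (nat_lit 291) (nat_lit 290)) (XT.lf (nat_lit 0) (nat_lit 3498096334) (nat_lit 152) (nat_lit 3968605216) (nat_lit 152) (nat_lit 2255548458) (nat_lit 26) (nat_lit 4) (nat_lit 28) (nat_lit 5) (nat_lit 28) (nat_lit 4) (nat_lit 320) (nat_lit 291) (nat_lit 289))) (XT.nd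 (nat_lit 78) (nat_lit 0) (nat_lit 0) (XT.lf (nat_lit 0) (nat_lit 835412415) (nat_lit 76) (nat_lit 756437517) (nat_lit 152) (nat_lit 8522051342) (nat_lit 24) (nat_lit 5) (nat_lit 25) (nat_lit 5) (nat_lit 26) (nat_lit 4) (nat_lit 321) (nat_lit 291) (nat_lit 288)) (XT.lf (nat_lit 0) (nat_lit 5631817739) (nat_lit 152) (nat_lit 2214406003) (nat_lit 0) (nat_lit 2685774387) (nat_lit 24) (nat_lit 5) (nat_lit 26) (nat_lit 4) (nat_lit 24) (nat_lit 4) (nat_lit 322) (nat_lit 291) (nat_lit 287))))) (XT.nd (nat_lit 312) (nat_lit 380) (nat_lit 0) (XT.nd (nat_lit 156) (nat_lit 152) (nat_lit 0) (XT.nd (nat_lit 78) (nat_lit 152) (nat_lit 0) (XT.lf (nat_lit 0) (nat_lit 5312183292) (nat_lit 152) (nat_lit 4614275471) (nat_lit 152) (nat_lit 1062872573) (nat_lit 22) (nat_lit 4) (nat_lit 24) (nat_lit 5) (nat_lit 24) (nat_lit 4) (nat_lit 323) (nat_lit 291) (nat_lit 286)) (XT.lf (nat_lit 0) (nat_lit 1748828326)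 (nat_lit 76) (nat_lit 1068839617) (nat_lit 152) (nat_lit 8668686064) (nat_lit 20) (nat_lit 5) (nat_lit 21) (nat_lit 5) (nat_lit 22) (nat_lit 4) (nat_lit 324) (nat_lit 291) (nat_lit 285))) (XT.nd (nat_lit 78) (nat_lit 152) (nat_lit 0) (XT.lf (nat_lit 0) (nat_lit 6967403216) (nat_lit 152) (nat_lit 2372961179) (nat_lit 0) (nat_lit 2679515033) (nat_lit 20) (nat_lit 5) (nat_lit 22) (nat_lit 4) (nat_lit 20) (nat_lit 4) (nat_lit 325) (nat_lit 291) (nat_lit 284)) (XT.lf (nat_lit 0) (nat_lit 5498464353) (nat_lit 152) (nat_lit 5916704662) (nat_lit 152) (nat_lit 1183859141) (nat_lit 18) (nat_lit 4) (nat_lit 20) (nat_lit 5) (nat_lit 20) (nat_lit 4) (nat_lit 326) (nat_lit 291) (nat_lit 283)))) (XT.nd (nat_lit 156) (nat_lit 228) (nat_lit 0) (XT.nd (nat_lit 78) (nat_lit 0) (nat_lit 0) (XT.lf (nat_lit 0) (nat_lit 536818445) (nat_lit 76) (nat_lit 2194749584) (nat_lit 152) (nat_lit 10496404660) (nat_lit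 16) (nat_lit 5) (nat_lit 17) (nat_lit 5) (nat_lit 18) (nat_lit 4) (nat_lit 327) (nat_lit 291) (nat_lit 282)) (XT.lf (nat_lit 0) (nat_lit 6950149119) (nat_lit 152) (nat_lit 5117308258) (nat_lit 0) (nat_lit 1833184067) (nat_lit 16) (nat_lit 5) (nat_lit 18) (nat_lit 4) (nat_lit 16) (nat_lit 4) (nat_lit 328) (nat_lit 291) (nat_lit 281))) (XT.nd (nat_lit 78) (nat_lit 152) (nat_lit 0) (XT.lf (nat_lit 0) (nat_lit 2837248427) (nat_lit 76) (nat_lit 8619029037) (nat_lit 76) (nat_lit 3175007058) (nat_lit 15) (nat_lit 4) (nat_lit 16) (nat_lit 5) (nat_lit 16) (nat_lit 4) (nat_lit 329) (nat_lit 291) (nat_lit 280)) (XT.nd (nat_lit 78) (nat_lit 76) (nat_lit 0) (XT.lf (nat_lit 0) (nat_lit 826897467) (nat_lit 152) (nat_lit 4026905733) (nat_lit 76) (nat_lit 10567419206) (nat_lit 14) (nat_lit 5) (nat_lit 16) (nat_lit 5) (nat_lit 15) (nat_lit 4) (nat_lit 330) (nat_lit 291) (nat_lit 279)) (XT.lf (nat_lit 0)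 (nat_lit 4200770849) (nat_lit 76) (nat_lit 716547379) (nat_lit 152) (nat_lit 11355379465) (nat_lit 13) (nat_lit 5) (nat_lit 14) (nat_lit 5) (nat_lit 15) (nat_lit 4) (nat_lit 331) (nat_lit 291) (nat_lit 278))))))) (XT.nd (nat_lit 624) (nat_lit 304) (nat_lit 0) (XT.nd (nat_lit 312) (nat_lit 76) (nat_lit 0) (XT.nd (nat_lit 156) (nat_lit 152) (nat_lit 0) (XT.nd (nat_lit 78) (nat_lit 76) (nat_lit 0) (XT.lf (nat_lit 0) (nat_lit 9379192639) (nat_lit 152) (nat_lit 4251674538) (nat_lit 0) (nat_lit 3558008008) (nat_lit 13) (nat_lit 5) (nat_lit 15) (nat_lit 4) (nat_lit 13) (nat_lit 4) (nat_lit 332) (nat_lit 291) (nat_lit 277)) (XT.lf (nat_lit 0) (nat_lit 4112047811) (nat_lit 76) (nat_lit 10056280501) (nat_lit 76) (nat_lit 4012506421) (nat_lit 12) (nat_lit 4) (nat_lit 13) (nat_lit 5) (nat_lit 13) (nat_lit 4) (nat_lit 333) (nat_lit 291) (nat_lit 276))) (XT.nd (nat_lit 78) (nat_lit 76) (nat_lit 0)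 (XT.lf (nat_lit 0) (nat_lit 56880960) (nat_lit 152) (nat_lit 6131563023) (nat_lit 76) (nat_lit 13065804651) (nat_lit 11) (nat_lit 5) (nat_lit 13) (nat_lit 5) (nat_lit 12) (nat_lit 4) (nat_lit 334) (nat_lit 291) (nat_lit 275)) (XT.lf (nat_lit 0) (nat_lit 2196060947) (nat_lit 76) (nat_lit 1956232775) (nat_lit 152) (nat_lit 16259613446) (nat_lit 10) (nat_lit 5) (nat_lit 11) (nat_lit 5) (nat_lit 12) (nat_lit 4) (nat_lit 335) (nat_lit 291) (nat_lit 274)))) (XT.nd (nat_lit 156) (nat_lit 76) (nat_lit 0) (XT.nd (nat_lit 78) (nat_lit 0) (nat_lit 0) (XT.lf (nat_lit 0) (nat_lit 8676131391) (nat_lit 152) (nat_lit 10429165392) (nat_lit 0) (nat_lit 2548901134) (nat_lit 10) (nat_lit 5) (nat_lit 12) (nat_lit 4) (nat_lit 10) (nat_lit 4) (nat_lit 336) (nat_lit 291) (nat_lit 273)) (XT.lf (nat_lit 0) (nat_lit 13488529424) (nat_lit 152) (nat_lit 2303478448) (nat_lit 0) (nat_lit 7209808529) (nat_lit 10) (nat_lit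 5) (nat_lit 12) (nat_lit 4) (nat_lit 10) (nat_lit 4) (nat_lit 337) (nat_lit 291) (nat_lit 272))) (XT.nd (nat_lit 78) (nat_lit 0) (nat_lit 0) (XT.lf (nat_lit 0) (nat_lit 6585865961) (nat_lit 76) (nat_lit 12143482565) (nat_lit 76) (nat_lit 5724492559) (nat_lit 9) (nat_lit 4) (nat_lit 10) (nat_lit 5) (nat_lit 10) (nat_lit 4) (nat_lit 338) (nat_lit 291) (nat_lit 271)) (XT.lf (nat_lit 0) (nat_lit 16106974143) (nat_lit 76) (nat_lit 8233935061) (nat_lit 76) (nat_lit 1685066249) (nat_lit 9) (nat_lit 4) (nat_lit 10) (nat_lit 5) (nat_lit 10) (nat_lit 4) (nat_lit 339) (nat_lit 291) (nat_lit 270))))) (XT.nd (nat_lit 312) (nat_lit 152) (nat_lit 0) (XT.nd (nat_lit 156) (nat_lit 0) (nat_lit 0) (XT.nd (nat_lit 78) (nat_lit 76) (nat_lit 0) (XT.lf (nat_lit 0) (nat_lit 2437588991) (nat_lit 152) (nat_lit 1598941861) (nat_lit 76) (nat_lit 23690733392) (nat_lit 8) (nat_lit 5) (nat_lit 10) (nat_lit 5) (nat_lit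 9) (nat_lit 4) (nat_lit 340) (nat_lit 291) (nat_lit 269)) (XT.lf (nat_lit 0) (nat_lit 6897768856) (nat_lit 152) (nat_lit 22035988799) (nat_lit 0) (nat_lit 619549313) (nat_lit 7) (nat_lit 5) (nat_lit 9) (nat_lit 4) (nat_lit 7) (nat_lit 4) (nat_lit 341) (nat_lit 291) (nat_lit 268))) (XT.nd (nat_lit 78) (nat_lit 0) (nat_lit 0) (XT.lf (nat_lit 0) (nat_lit 11767185399) (nat_lit 152) (nat_lit 14360601233) (nat_lit 0) (nat_lit 5393501056) (nat_lit 7) (nat_lit 5) (nat_lit 9) (nat_lit 4) (nat_lit 7) (nat_lit 4) (nat_lit 342) (nat_lit 291) (nat_lit 267)) (XT.lf (nat_lit 0) (nat_lit 16936084799) (nat_lit 152) (nat_lit 6243865359) (nat_lit 0) (nat_lit 10474007124) (nat_lit 7) (nat_lit 5) (nat_lit 9) (nat_lit 4) (nat_lit 7) (nat_lit 4) (nat_lit 343) (nat_lit 291) (nat_lit 266)))) (XT.nd (nat_lit 156) (nat_lit 76) (nat_lit 0) (XT.nd (nat_lit 78) (nat_lit 0) (nat_lit 0) (XT.lf (nat_lit 0) (nat_lit 2486713478)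 (nat_lit 76) (nat_lit 20008189613) (nat_lit 76) (nat_lit 13464266259) (nat_lit 6) (nat_lit 4) (nat_lit 7) (nat_lit 5) (nat_lit 7) (nat_lit 4) (nat_lit 344) (nat_lit 291) (nat_lit 265)) (XT.lf (nat_lit 0) (nat_lit 12114989277) (nat_lit 76) (nat_lit 16473186967) (nat_lit 76) (nat_lit 9853480578) (nat_lit 6) (nat_lit 4) (nat_lit 7) (nat_lit 5) (nat_lit 7) (nat_lit 4) (nat_lit 345) (nat_lit 291) (nat_lit 264))) (XT.nd (nat_lit 78) (nat_lit 76) (nat_lit 0) (XT.lf (nat_lit 0) (nat_lit 22369227599) (nat_lit 76) (nat_lit 12724712403) (nat_lit 76) (nat_lit 6034836536) (nat_lit 6) (nat_lit 4) (nat_lit 7) (nat_lit 5) (nat_lit 7) (nat_lit 4) (nat_lit 346) (nat_lit 291) (nat_lit 263)) (XT.nd (nat_lit 78) (nat_lit 76) (nat_lit 0) (XT.lf (nat_lit 0) (nat_lit 33310194303) (nat_lit 76) (nat_lit 8740552737) (nat_lit 76) (nat_lit 1985705132) (nat_lit 6) (nat_lit 4) (nat_lit 7) (nat_lit 5) (nat_lit 7) (nat_lit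 4) (nat_lit 347) (nat_lit 291) (nat_lit 262)) (XT.lf (nat_lit 0) (nat_lit 2201957317) (nat_lit 152) (nat_lit 2234935402) (nat_lit 76) (nat_lit 42740562015) (nat_lit 5) (nat_lit 5) (nat_lit 7) (nat_lit 5) (nat_lit 6) (nat_lit 4) (nat_lit 348) (nat_lit 291) (nat_lit 261))))))))
noncomputable def xc69 : XT := (XT.nd (nat_lit 1326) (nat_lit 152) (nat_lit 0) (XT.nd (nat_lit 624) (nat_lit 0) (nat_lit 0) (XT.nd (nat_lit 312) (nat_lit 76) (nat_lit 0) (XT.nd (nat_lit 156) (nat_lit 0) (nat_lit 0) (XT.nd (nat_lit 78) (nat_lit 0) (nat_lit 0) (XT.lf (nat_lit 0) (nat_lit 6737066433) (nat_lit 152) (nat_lit 43443695532) (nat_lit 0) (nat_lit 375298456) (nat_lit 4) (nat_lit 5) (nat_lit 6) (nat_lit 4) (nat_lit 4) (nat_lit 4) (nat_lit 349) (nat_lit 291) (nat_lit 260)) (XT.lf (nat_lit 0) (nat_lit 11752264629) (nat_lit 152) (nat_lit 37100591214) (nat_lit 0) (nat_lit 5342740484) (nat_lit 4) (nat_lit 5) (nat_lit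 6) (nat_lit 4) (nat_lit 4) (nat_lit 4) (nat_lit 350) (nat_lit 291) (nat_lit 259))) (XT.nd (nat_lit 78) (nat_lit 0) (nat_lit 0) (XT.lf (nat_lit 0) (nat_lit 17112513950) (nat_lit 152) (nat_lit 30359525604) (nat_lit 0) (nat_lit 10658771132) (nat_lit 4) (nat_lit 5) (nat_lit 6) (nat_lit 4) (nat_lit 4) (nat_lit 4) (nat_lit 351) (nat_lit 291) (nat_lit 258)) (XT.lf (nat_lit 0) (nat_lit 22849578836) (nat_lit 152) (nat_lit 23180551647) (nat_lit 0) (nat_lit 16354892802) (nat_lit 4) (nat_lit 5) (nat_lit 6) (nat_lit 4) (nat_lit 4) (nat_lit 4) (nat_lit 352) (nat_lit 291) (nat_lit 257)))) (XT.nd (nat_lit 156) (nat_lit 76) (nat_lit 0) (XT.nd (nat_lit 78) (nat_lit 0) (nat_lit 0) (XT.lf (nat_lit 0) (nat_lit 28997456710) (nat_lit 152) (nat_lit 15521127273) (nat_lit 0) (nat_lit 22464860290) (nat_lit 4) (nat_lit 5) (nat_lit 6) (nat_lit 4) (nat_lit 4) (nat_lit 4) (nat_lit 353) (nat_lit 291) (nat_lit 256))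 (XT.lf (nat_lit 0) (nat_lit 35592579439) (nat_lit 152) (nat_lit 7335863302) (nat_lit 0) (nat_lit 29024880811) (nat_lit 4) (nat_lit 5) (nat_lit 6) (nat_lit 4) (nat_lit 4) (nat_lit 4) (nat_lit 354) (nat_lit 291) (nat_lit 255))) (XT.nd (nat_lit 78) (nat_lit 0) (nat_lit 0) (XT.lf (nat_lit 0) (nat_lit 1498717449) (nat_lit 76) (nat_lit 41211355974) (nat_lit 76) (nat_lit 34611155301) (nat_lit 3) (nat_lit 4) (nat_lit 4) (nat_lit 5) (nat_lit 4) (nat_lit 4) (nat_lit 355) (nat_lit 291) (nat_lit 254)) (XT.lf (nat_lit 0) (nat_lit 11378822829) (nat_lit 76) (nat_lit 39178608372) (nat_lit 76) (nat_lit 32548313212) (nat_lit 3) (nat_lit 4) (nat_lit 4) (nat_lit 5) (nat_lit 4) (nat_lit 4) (nat_lit 356) (nat_lit 291) (nat_lit 253))))) (XT.nd (nat_lit 312) (nat_lit 0) (nat_lit 0) (XT.nd (nat_lit 156) (nat_lit 0) (nat_lit 0) (XT.nd (nat_lit 78) (nat_lit 0) (nat_lit 0) (XT.lf (nat_lit 0) (nat_lit 21976708048)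 (nat_lit 76) (nat_lit 37018729526) (nat_lit 76) (nat_lit 30360569102) (nat_lit 3) (nat_lit 4) (nat_lit 4) (nat_lit 5) (nat_lit 4) (nat_lit 4) (nat_lit 357) (nat_lit 291) (nat_lit 252)) (XT.lf (nat_lit 0) (nat_lit 33355175389) (nat_lit 76) (nat_lit 34718920155) (nat_lit 76) (nat_lit 28034958560) (nat_lit 3) (nat_lit 4) (nat_lit 4) (nat_lit 5) (nat_lit 4) (nat_lit 4) (nat_lit 358) (nat_lit 291) (nat_lit 251))) (XT.nd (nat_lit 78) (nat_lit 0) (nat_lit 0) (XT.lf (nat_lit 0) (nat_lit 45581652806) (nat_lit 76) (nat_lit 32265551759) (nat_lit 76) (nat_lit 25557700190) (nat_lit 3) (nat_lit 4) (nat_lit 4) (nat_lit 5) (nat_lit 4) (nat_lit 4) (nat_lit 359) (nat_lit 291) (nat_lit 250)) (XT.lf (nat_lit 0) (nat_lit 58728593498) (nat_lit 76) (nat_lit 29644085858) (nat_lit 76) (nat_lit 22914113944) (nat_lit 3) (nat_lit 4) (nat_lit 4) (nat_lit 5) (nat_lit 4) (nat_lit 4) (nat_lit 360) (nat_lit 291) (nat_lit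 249)))) (XT.nd (nat_lit 156) (nat_lit 0) (nat_lit 0) (XT.nd (nat_lit 78) (nat_lit 0) (nat_lit 0) (XT.lf (nat_lit 0) (nat_lit 72873905263) (nat_lit 76) (nat_lit 26838987840) (nat_lit 76) (nat_lit 20088534124) (nat_lit 3) (nat_lit 4) (nat_lit 4) (nat_lit 5) (nat_lit 4) (nat_lit 4) (nat_lit 361) (nat_lit 291) (nat_lit 248)) (XT.lf (nat_lit 0) (nat_lit 88101412170) (nat_lit 76) (nat_lit 23833634901) (nat_lit 76) (nat_lit 17064216554) (nat_lit 3) (nat_lit 4) (nat_lit 4) (nat_lit 5) (nat_lit 4) (nat_lit 4) (nat_lit 362) (nat_lit 291) (nat_lit 247))) (XT.nd (nat_lit 78) (nat_lit 0) (nat_lit 0) (XT.lf (nat_lit 0) (nat_lit 104501351297) (nat_lit 76) (nat_lit 20610217543) (nat_lit 76) (nat_lit 13823239352) (nat_lit 3) (nat_lit 4) (nat_lit 4) (nat_lit 5) (nat_lit 4) (nat_lit 4) (nat_lit 363) (nat_lit 291) (nat_lit 246)) (XT.nd (nat_lit 78) (nat_lit 0) (nat_lit 0) (XT.lf (nat_lit 0) (nat_lit 122170907468)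 (nat_lit 76) (nat_lit 17149634033) (nat_lit 76) (nat_lit 10346396728) (nat_lit 3) (nat_lit 4) (nat_lit 4) (nat_lit 5) (nat_lit 4) (nat_lit 4) (nat_lit 364) (nat_lit 291) (nat_lit 245)) (XT.lf (nat_lit 0) (nat_lit 141214789165) (nat_lit 76) (nat_lit 13431377209) (nat_lit 76) (nat_lit 6613085168) (nat_lit 3) (nat_lit 4) (nat_lit 4) (nat_lit 5) (nat_lit 4) (nat_lit 4) (nat_lit 365) (nat_lit 291) (nat_lit 244))))))) (XT.nd (nat_lit 624) (nat_lit 0) (nat_lit 0) (XT.nd (nat_lit 312) (nat_lit 0) (nat_lit 0) (XT.nd (nat_lit 156) (nat_lit 76) (nat_lit 0) (XT.nd (nat_lit 78) (nat_lit 76) (nat_lit 0) (XT.lf (nat_lit 0) (nat_lit 161745849020) (nat_lit 76) (nat_lit 9433412958) (nat_lit 76) (nat_lit 2601181347) (nat_lit 3) (nat_lit 4) (nat_lit 4) (nat_lit 5) (nat_lit 4) (nat_lit 4) (nat_lit 366) (nat_lit 291) (nat_lit 243)) (XT.lf (nat_lit 0) (nat_lit 1627393332) (nat_lit 152) (nat_lit 3460160489)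 (nat_lit 76) (nat_lit 182213863423) (nat_lit 2) (nat_lit 5) (nat_lit 4) (nat_lit 5) (nat_lit 3) (nat_lit 4) (nat_lit 367) (nat_lit 291) (nat_lit 242))) (XT.nd (nat_lit 78) (nat_lit 0) (nat_lit 0) (XT.lf (nat_lit 0) (nat_lit 6000835336) (nat_lit 76) (nat_lit 180859322) (nat_lit 152) (nat_lit 195706737208) (nat_lit 1) (nat_lit 5) (nat_lit 2) (nat_lit 5) (nat_lit 3) (nat_lit 4) (nat_lit 368) (nat_lit 291) (nat_lit 241)) (XT.lf (nat_lit 0) (nat_lit 11304245179) (nat_lit 152) (nat_lit 201377013079) (nat_lit 0) (nat_lit 4944842184) (nat_lit 1) (nat_lit 5) (nat_lit 3) (nat_lit 4) (nat_lit 1) (nat_lit 4) (nat_lit 369) (nat_lit 291) (nat_lit 240)))) (XT.nd (nat_lit 156) (nat_lit 0) (nat_lit 0) (XT.nd (nat_lit 78) (nat_lit 0) (nat_lit 0) (XT.lf (nat_lit 0) (nat_lit 16826245447) (nat_lit 152) (nat_lit 207340014793) (nat_lit 0) (nat_lit 10457355415) (nat_lit 1) (nat_lit 5) (nat_lit 3) (nat_lit 4)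 (nat_lit 1) (nat_lit 4) (nat_lit 370) (nat_lit 291) (nat_lit 239)) (XT.lf (nat_lit 0) (nat_lit 22776068755) (nat_lit 152) (nat_lit 213807588308) (nat_lit 0) (nat_lit 16398394429) (nat_lit 1) (nat_lit 5) (nat_lit 3) (nat_lit 4) (nat_lit 1) (nat_lit 4) (nat_lit 371) (nat_lit 291) (nat_lit 238))) (XT.nd (nat_lit 78) (nat_lit 0) (nat_lit 0) (XT.lf (nat_lit 0) (nat_lit 29188973316) (nat_lit 152) (nat_lit 220818059985) (nat_lit 0) (nat_lit 22803165385) (nat_lit 1) (nat_lit 5) (nat_lit 3) (nat_lit 4) (nat_lit 1) (nat_lit 4) (nat_lit 372) (nat_lit 291) (nat_lit 237)) (XT.lf (nat_lit 0) (nat_lit 36102961527) (nat_lit 152) (nat_lit 228412973360) (nat_lit 0) (nat_lit 29709622480) (nat_lit 1) (nat_lit 5) (nat_lit 3) (nat_lit 4) (nat_lit 1) (nat_lit 4) (nat_lit 373) (nat_lit 291) (nat_lit 236))))) (XT.nd (nat_lit 312) (nat_lit 0) (nat_lit 0) (XT.nd (nat_lit 156) (nat_lit 0) (nat_lit 0) (XT.nd (nat_lit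 78) (nat_lit 0) (nat_lit 0) (XT.lf (nat_lit 0) (nat_lit 43559005170) (nat_lit 152) (nat_lit 236637335328) (nat_lit 0) (nat_lit 37158692868) (nat_lit 1) (nat_lit 5) (nat_lit 3) (nat_lit 4) (nat_lit 1) (nat_lit 4) (nat_lit 374) (nat_lit 291) (nat_lit 235)) (XT.lf (nat_lit 0) (nat_lit 51601288208) (nat_lit 152) (nat_lit 245539882848) (nat_lit 0) (nat_lit 45194519187) (nat_lit 1) (nat_lit 5) (nat_lit 3) (nat_lit 4) (nat_lit 1) (nat_lit 4) (nat_lit 375) (nat_lit 291) (nat_lit 234))) (XT.nd (nat_lit 78) (nat_lit 0) (nat_lit 0) (XT.lf (nat_lit 0) (nat_lit 60277468614) (nat_lit 152) (nat_lit 255173371757) (nat_lit 0) (nat_lit 53864721151) (nat_lit 1) (nat_lit 5) (nat_lit 3) (nat_lit 4) (nat_lit 1) (nat_lit 4) (nat_lit 376) (nat_lit 291) (nat_lit 233)) (XT.lf (nat_lit 0) (nat_lit 69638960790) (nat_lit 152) (nat_lit 265594889397) (nat_lit 0) (nat_lit 63220677732) (nat_lit 1) (nat_lit 5) (nat_lit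 3) (nat_lit 4) (nat_lit 1) (nat_lit 4) (nat_lit 377) (nat_lit 291) (nat_lit 232)))) (XT.nd (nat_lit 156) (nat_lit 0) (nat_lit 0) (XT.nd (nat_lit 78) (nat_lit 0) (nat_lit 0) (XT.lf (nat_lit 0) (nat_lit 79741240246) (nat_lit 152) (nat_lit 276866192909) (nat_lit 0) (nat_lit 73317831637) (nat_lit 1) (nat_lit 5) (nat_lit 3) (nat_lit 4) (nat_lit 1) (nat_lit 4) (nat_lit 378) (nat_lit 291) (nat_lit 231)) (XT.lf (nat_lit 0) (nat_lit 90644172341) (nat_lit 152) (nat_lit 289054075204) (nat_lit 0) (nat_lit 84216017851) (nat_lit 1) (nat_lit 5) (nat_lit 3) (nat_lit 4) (nat_lit 1) (nat_lit 4) (nat_lit 379) (nat_lit 291) (nat_lit 230))) (XT.nd (nat_lit 78) (nat_lit 0) (nat_lit 0) (XT.lf (nat_lit 0) (nat_lit 102412367044) (nat_lit 152) (nat_lit 302230760769) (nat_lit 0) (nat_lit 95979818220) (nat_lit 1) (nat_lit 5) (nat_lit 3) (nat_lit 4) (nat_lit 1) (nat_lit 4) (nat_lit 380) (nat_lit 291) (nat_lit 229))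 (XT.nd (nat_lit 78) (nat_lit 0) (nat_lit 0) (XT.lf (nat_lit 0) (nat_lit 115115561804) (nat_lit 152) (nat_lit 316474333666) (nat_lit 0) (nat_lit 108678944153) (nat_lit 1) (nat_lit 5) (nat_lit 3) (nat_lit 4) (nat_lit 1) (nat_lit 4) (nat_lit 381) (nat_lit 291) (nat_lit 228)) (XT.lf (nat_lit 0) (nat_lit 128829034812) (nat_lit 152) (nat_lit 331869200254) (nat_lit 0) (nat_lit 122388649728) (nat_lit 1) (nat_lit 5) (nat_lit 3) (nat_lit 4) (nat_lit 1) (nat_lit 4) (nat_lit 382) (nat_lit 291) (nat_lit 227))))))))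
noncomputable def xc70 : XT := (XT.nd (nat_lit 1326) (nat_lit 0) (nat_lit 0) (XT.nd (nat_lit 624) (nat_lit 0) (nat_lit 0) (XT.nd (nat_lit 312) (nat_lit 0) (nat_lit 0) (XT.nd (nat_lit 156) (nat_lit 0) (nat_lit 0) (XT.nd (nat_lit 78) (nat_lit 0) (nat_lit 0) (XT.lf (nat_lit 0) (nat_lit 143634051095) (nat_lit 152) (nat_lit 348506589371) (nat_lit 0) (nat_lit 137190177647) (nat_lit 1) (nat_lit 5) (nat_lit 3) (nat_lit 4) (nat_lit 1) (nat_lit 4) (nat_lit 383) (nat_lit 291) (nat_lit 226)) (XT.lf (nat_lit 0) (nat_lit 159618344081) (nat_lit 152) (nat_lit 366485092953) (nat_lit 0) (nat_lit 153171240666) (nat_lit 1) (nat_lit 5) (nat_lit 3) (nat_lit 4) (nat_lit 1) (nat_lit 4) (nat_lit 384) (nat_lit 291) (nat_lit 225))) (XT.nd (nat_lit 78) (nat_lit 0) (nat_lit 0) (XT.lf (nat_lit 0) (nat_lit 176876635507) (nat_lit 152) (nat_lit 385911250281) (nat_lit 0) (nat_lit 170426541383) (nat_lit 1) (nat_lit 5)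 (nat_lit 3) (nat_lit 4) (nat_lit 1) (nat_lit 4) (nat_lit 385) (nat_lit 291) (nat_lit 224)) (XT.lf (nat_lit 0) (nat_lit 195511196729) (nat_lit 152) (nat_lit 406900179323) (nat_lit 0) (nat_lit 189058333430) (nat_lit 1) (nat_lit 5) (nat_lit 3) (nat_lit 4) (nat_lit 1) (nat_lit 4) (nat_lit 386) (nat_lit 291) (nat_lit 223)))) (XT.nd (nat_lit 156) (nat_lit 0) (nat_lit 0) (XT.nd (nat_lit 78) (nat_lit 0) (nat_lit 0) (XT.lf (nat_lit 0) (nat_lit 215632454778) (nat_lit 152) (nat_lit 429576258919) (nat_lit 0) (nat_lit 209177027426) (nat_lit 1) (nat_lit 5) (nat_lit 3) (nat_lit 4) (nat_lit 1) (nat_lit 4) (nat_lit 387) (nat_lit 291) (nat_lit 222)) (XT.lf (nat_lit 0) (nat_lit 237359646737) (nat_lit 152) (nat_lit 454073865837) (nat_lit 0) (nat_lit 230901845264) (nat_lit 1) (nat_lit 5) (nat_lit 3) (nat_lit 4) (nat_lit 1) (nat_lit 4) (nat_lit 388) (nat_lit 291) (nat_lit 221))) (XT.nd (nat_lit 78) (nat_lit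 0) (nat_lit 0) (XT.lf (nat_lit 0) (nat_lit 260821526337) (nat_lit 152) (nat_lit 480538171080) (nat_lit 0) (nat_lit 254361526603) (nat_lit 1) (nat_lit 5) (nat_lit 3) (nat_lit 4) (nat_lit 1) (nat_lit 4) (nat_lit 389) (nat_lit 291) (nat_lit 220)) (XT.lf (nat_lit 0) (nat_lit 286157126938) (nat_lit 152) (nat_lit 509126000161) (nat_lit 0) (nat_lit 279695091777) (nat_lit 1) (nat_lit 5) (nat_lit 3) (nat_lit 4) (nat_lit 1) (nat_lit 4) (nat_lit 390) (nat_lit 291) (nat_lit 219))))) (XT.nd (nat_lit 312) (nat_lit 0) (nat_lit 0) (XT.nd (nat_lit 156) (nat_lit 0) (nat_lit 0) (XT.nd (nat_lit 78) (nat_lit 0) (nat_lit 0) (XT.lf (nat_lit 0) (nat_lit 313516585434) (nat_lit 152) (nat_lit 540006762437) (nat_lit 0) (nat_lit 307052665618) (nat_lit 1) (nat_lit 5) (nat_lit 3) (nat_lit 4) (nat_lit 1) (nat_lit 4) (nat_lit 391) (nat_lit 291) (nat_lit 218)) (XT.lf (nat_lit 0) (nat_lit 343062031947) (nat_lit 152) (nat_lit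 573363455019) (nat_lit 0) (nat_lit 336596367081) (nat_lit 1) (nat_lit 5) (nat_lit 3) (nat_lit 4) (nat_lit 1) (nat_lit 4) (nat_lit 392) (nat_lit 291) (nat_lit 217))) (XT.nd (nat_lit 78) (nat_lit 0) (nat_lit 0) (XT.lf (nat_lit 0) (nat_lit 374968550606) (nat_lit 152) (nat_lit 609393747196) (nat_lit 0) (nat_lit 368501269953) (nat_lit 1) (nat_lit 5) (nat_lit 3) (nat_lit 4) (nat_lit 1) (nat_lit 4) (nat_lit 393) (nat_lit 291) (nat_lit 216)) (XT.lf (nat_lit 0) (nat_lit 409425217078) (nat_lit 152) (nat_lit 648311151810) (nat_lit 0) (nat_lit 402956440325) (nat_lit 1) (nat_lit 5) (nat_lit 3) (nat_lit 4) (nat_lit 1) (nat_lit 4) (nat_lit 394) (nat_lit 291) (nat_lit 215)))) (XT.nd (nat_lit 156) (nat_lit 0) (nat_lit 0) (XT.nd (nat_lit 78) (nat_lit 0) (nat_lit 0) (XT.lf (nat_lit 0) (nat_lit 446636219014) (nat_lit 152) (nat_lit 690346290519) (nat_lit 0) (nat_lit 440166056984) (nat_lit 1) (nat_lit 5) (nat_lit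 3) (nat_lit 4) (nat_lit 1) (nat_lit 4) (nat_lit 395) (nat_lit 291) (nat_lit 214)) (XT.lf (nat_lit 0) (nat_lit 486822066056) (nat_lit 152) (nat_lit 735748260439) (nat_lit 0) (nat_lit 480350621362) (nat_lit 1) (nat_lit 5) (nat_lit 3) (nat_lit 4) (nat_lit 1) (nat_lit 4) (nat_lit 396) (nat_lit 291) (nat_lit 213))) (XT.nd (nat_lit 78) (nat_lit 0) (nat_lit 0) (XT.lf (nat_lit 0) (nat_lit 530220896557) (nat_lit 152) (nat_lit 784786110283) (nat_lit 0) (nat_lit 523748264211) (nat_lit 1) (nat_lit 5) (nat_lit 3) (nat_lit 4) (nat_lit 1) (nat_lit 4) (nat_lit 397) (nat_lit 291) (nat_lit 212)) (XT.nd (nat_lit 78) (nat_lit 0) (nat_lit 0) (XT.lf (nat_lit 0) (nat_lit 577089888772) (nat_lit 152) (nat_lit 837750434716) (nat_lit 0) (nat_lit 570616156748) (nat_lit 1) (nat_lit 5) (nat_lit 3) (nat_lit 4) (nat_lit 1) (nat_lit 4) (nat_lit 398) (nat_lit 291) (nat_lit 211)) (XT.lf (nat_lit 0) (nat_lit 627706784878)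 (nat_lit 152) (nat_lit 894955096401) (nat_lit 0) (nat_lit 621232034633) (nat_lit 1) (nat_lit 5) (nat_lit 3) (nat_lit 4) (nat_lit 1) (nat_lit 4) (nat_lit 399) (nat_lit 291) (nat_lit 210))))))) (XT.nd (nat_lit 624) (nat_lit 0) (nat_lit 0) (XT.nd (nat_lit 312) (nat_lit 0) (nat_lit 0) (XT.nd (nat_lit 156) (nat_lit 0) (nat_lit 0) (XT.nd (nat_lit 78) (nat_lit 0) (nat_lit 0) (XT.lf (nat_lit 0) (nat_lit 682371536849) (nat_lit 152) (nat_lit 956739085926) (nat_lit 0) (nat_lit 675895843809) (nat_lit 1) (nat_lit 5) (nat_lit 3) (nat_lit 4) (nat_lit 1) (nat_lit 4) (nat_lit 400) (nat_lit 291) (nat_lit 209)) (XT.lf (nat_lit 0) (nat_lit 741408083959) (nat_lit 152) (nat_lit 1023468530637) (nat_lit 0) (nat_lit 734931517959) (nat_lit 1) (nat_lit 5) (nat_lit 3) (nat_lit 4) (nat_lit 1) (nat_lit 4) (nat_lit 401) (nat_lit 291) (nat_lit 208))) (XT.nd (nat_lit 78) (nat_lit 0) (nat_lit 0) (XT.lf (nat_lit 0) (nat_lit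 805166272412) (nat_lit 152) (nat_lit 1095538864279) (nat_lit 0) (nat_lit 798688898115) (nat_lit 1) (nat_lit 5) (nat_lit 3) (nat_lit 4) (nat_lit 1) (nat_lit 4) (nat_lit 402) (nat_lit 291) (nat_lit 207)) (XT.lf (nat_lit 0) (nat_lit 874023928509) (nat_lit 152) (nat_lit 1173377170311) (nat_lit 0) (nat_lit 867545805790) (nat_lit 1) (nat_lit 5) (nat_lit 3) (nat_lit 4) (nat_lit 1) (nat_lit 4) (nat_lit 403) (nat_lit 291) (nat_lit 206)))) (XT.nd (nat_lit 156) (nat_lit 0) (nat_lit 0) (XT.nd (nat_lit 78) (nat_lit 0) (nat_lit 0) (XT.lf (nat_lit 0) (nat_lit 948389097621) (nat_lit 152) (nat_lit 1257444712770) (nat_lit 0) (nat_lit 941910281919) (nat_lit 1) (nat_lit 5) (nat_lit 3) (nat_lit 4) (nat_lit 1) (nat_lit 4) (nat_lit 404) (nat_lit 291) (nat_lit 205)) (XT.lf (nat_lit 0) (nat_lit 1028702462230) (nat_lit 152) (nat_lit 1348239669684) (nat_lit 0) (nat_lit 1022223004877) (nat_lit 1) (nat_lit 5) (nat_lit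 3) (nat_lit 4) (nat_lit 1) (nat_lit 4) (nat_lit 405) (nat_lit 291) (nat_lit 204))) (XT.nd (nat_lit 78) (nat_lit 0) (nat_lit 0) (XT.lf (nat_lit 0) (nat_lit 1115439953387) (nat_lit 152) (nat_lit 1446300085242) (nat_lit 0) (nat_lit 1108959901912) (nat_lit 1) (nat_lit 5) (nat_lit 3) (nat_lit 4) (nat_lit 1) (nat_lit 4) (nat_lit 406) (nat_lit 291) (nat_lit 203)) (XT.lf (nat_lit 0) (nat_lit 1209115571039) (nat_lit 152) (nat_lit 1552207058204) (nat_lit 0) (nat_lit 1202634969451) (nat_lit 1) (nat_lit 5) (nat_lit 3) (nat_lit 4) (nat_lit 1) (nat_lit 4) (nat_lit 407) (nat_lit 291) (nat_lit 202))))) (XT.nd (nat_lit 312) (nat_lit 0) (nat_lit 0) (XT.nd (nat_lit 156) (nat_lit 0) (nat_lit 0) (XT.nd (nat_lit 78) (nat_lit 0) (nat_lit 0) (XT.lf (nat_lit 0) (nat_lit 1310284429957) (nat_lit 152) (nat_lit 1666588185447) (nat_lit 0) (nat_lit 1303803319006) (nat_lit 1) (nat_lit 5) (nat_lit 3) (nat_lit 4) (nat_lit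 1) (nat_lit 4) (nat_lit 408) (nat_lit 291) (nat_lit 201)) (XT.lf (nat_lit 0) (nat_lit 1419546049306) (nat_lit 152) (nat_lit 1790121281057) (nat_lit 0) (nat_lit 1413064466721) (nat_lit 1) (nat_lit 5) (nat_lit 3) (nat_lit 4) (nat_lit 1) (nat_lit 4) (nat_lit 409) (nat_lit 291) (nat_lit 200))) (XT.nd (nat_lit 78) (nat_lit 0) (nat_lit 0) (XT.lf (nat_lit 0) (nat_lit 1537547905347) (nat_lit 152) (nat_lit 1923538393008) (nat_lit 0) (nat_lit 1531065886066) (nat_lit 1) (nat_lit 5) (nat_lit 3) (nat_lit 4) (nat_lit 1) (nat_lit 4) (nat_lit 410) (nat_lit 291) (nat_lit 199)) (XT.lf (nat_lit 0) (nat_lit 1664989268340) (nat_lit 152) (nat_lit 2067630141224) (nat_lit 0) (nat_lit 1658506844709) (nat_lit 1) (nat_lit 5) (nat_lit 3) (nat_lit 4) (nat_lit 1) (nat_lit 4) (nat_lit 411) (nat_lit 291) (nat_lit 198)))) (XT.nd (nat_lit 156) (nat_lit 0) (nat_lit 0) (XT.nd (nat_lit 78) (nat_lit 0) (nat_lit 0) (XT.lf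 (nat_lit 0) (nat_lit 1802625346361) (nat_lit 152) (nat_lit 2223250402731) (nat_lit 0) (nat_lit 1796142548333) (nat_lit 1) (nat_lit 5) (nat_lit 3) (nat_lit 4) (nat_lit 1) (nat_lit 4) (nat_lit 412) (nat_lit 291) (nat_lit 197)) (XT.lf (nat_lit 0) (nat_lit 1951271760613) (nat_lit 152) (nat_lit 2391321371670) (nat_lit 0) (nat_lit 1944788615920) (nat_lit 1) (nat_lit 5) (nat_lit 3) (nat_lit 4) (nat_lit 1) (nat_lit 4) (nat_lit 413) (nat_lit 291) (nat_lit 196))) (XT.nd (nat_lit 39234) (nat_lit 0) (nat_lit 2280) (XT.lf (nat_lit 0) (nat_lit 2111809378736) (nat_lit 152) (nat_lit 2572839024155) (nat_lit 0) (nat_lit 2105325913058) (nat_lit 1) (nat_lit 5) (nat_lit 3) (nat_lit 4) (nat_lit 1) (nat_lit 4) (nat_lit 414) (nat_lit 291) (nat_lit 195)) (XT.nd (nat_lit 78) (nat_lit 228) (nat_lit 0) (XT.lf (nat_lit 0) (nat_lit 754715088) (nat_lit 228) (nat_lit 2720842368) (nat_lit 0) (nat_lit 754715088) (nat_lit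 34) (nat_lit 5) (nat_lit 37) (nat_lit 4) (nat_lit 34) (nat_lit 4) (nat_lit 316) (nat_lit 292) (nat_lit 292)) (XT.lf (nat_lit 0) (nat_lit 896082676) (nat_lit 228) (nat_lit 4441295639) (nat_lit 228) (nat_lit 3403815757) (nat_lit 31) (nat_lit 4) (nat_lit 34) (nat_lit 5) (nat_lit 34) (nat_lit 4) (nat_lit 317) (nat_lit 292) (nat_lit 291))))))))
noncomputable def xc71 : XT := (XT.nd (nat_lit 1326) (nat_lit 608) (nat_lit 0) (XT.nd (nat_lit 624) (nat_lit 608) (nat_lit 0) (XT.nd (nat_lit 312) (nat_lit 304) (nat_lit 0) (XT.nd (nat_lit 156) (nat_lit 304) (nat_lit 0) (XT.nd (nat_lit 78) (nat_lit 152) (nat_lit 0) (XT.lf (nat_lit 0) (nat_lit 309138698) (nat_lit 304) (nat_lit 1355100911) (nat_lit 76) (nat_lit 7387424297) (nat_lit 30) (nat_lit 5) (nat_lit 34) (nat_lit 5) (nat_lit 31) (nat_lit 4) (nat_lit 318) (nat_lit 292) (nat_lit 290)) (XT.lf (nat_lit 0) (nat_lit 4072200498) (nat_lit 228) (nat_lit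 3914643728) (nat_lit 0) (nat_lit 1398514218) (nat_lit 28) (nat_lit 5) (nat_lit 31) (nat_lit 4) (nat_lit 28) (nat_lit 4) (nat_lit 319) (nat_lit 292) (nat_lit 289))) (XT.nd (nat_lit 78) (nat_lit 152) (nat_lit 0) (XT.lf (nat_lit 0) (nat_lit 2940199221) (nat_lit 152) (nat_lit 5123985214) (nat_lit 152) (nat_lit 1687720249) (nat_lit 26) (nat_lit 4) (nat_lit 28) (nat_lit 5) (nat_lit 28) (nat_lit 4) (nat_lit 320) (nat_lit 292) (nat_lit 288)) (XT.lf (nat_lit 0) (nat_lit 28978351) (nat_lit 76) (nat_lit 1976471019) (nat_lit 152) (nat_lit 8147239205) (nat_lit 24) (nat_lit 5) (nat_lit 25) (nat_lit 5) (nat_lit 26) (nat_lit 4) (nat_lit 321) (nat_lit 292) (nat_lit 287)))) (XT.nd (nat_lit 156) (nat_lit 152) (nat_lit 0) (XT.nd (nat_lit 78) (nat_lit 152) (nat_lit 0) (XT.lf (nat_lit 0) (nat_lit 5912262809) (nat_lit 152) (nat_lit 3197934276) (nat_lit 0) (nat_lit 1471388132) (nat_lit 24) (nat_lit 5) (nat_lit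 26) (nat_lit 4) (nat_lit 24) (nat_lit 4) (nat_lit 322) (nat_lit 292) (nat_lit 286)) (XT.lf (nat_lit 0) (nat_lit 4113459693) (nat_lit 152) (nat_lit 5968492093) (nat_lit 152) (nat_lit 967099317) (nat_lit 22) (nat_lit 4) (nat_lit 24) (nat_lit 5) (nat_lit 24) (nat_lit 4) (nat_lit 323) (nat_lit 292) (nat_lit 285))) (XT.nd (nat_lit 78) (nat_lit 0) (nat_lit 0) (XT.lf (nat_lit 0) (nat_lit 257026824) (nat_lit 76) (nat_lit 2520577906) (nat_lit 152) (nat_lit 8778885455) (nat_lit 20) (nat_lit 5) (nat_lit 21) (nat_lit 5) (nat_lit 22) (nat_lit 4) (nat_lit 324) (nat_lit 292) (nat_lit 284)) (XT.lf (nat_lit 0) (nat_lit 6799181161) (nat_lit 152) (nat_lit 4058444863) (nat_lit 0) (nat_lit 1242750660) (nat_lit 20) (nat_lit 5) (nat_lit 22) (nat_lit 4) (nat_lit 20) (nat_lit 4) (nat_lit 325) (nat_lit 292) (nat_lit 283))))) (XT.nd (nat_lit 312) (nat_lit 228) (nat_lit 0) (XT.nd (nat_lit 156) (nat_lit 152) (nat_lit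 0) (XT.nd (nat_lit 78) (nat_lit 76) (nat_lit 0) (XT.lf (nat_lit 0) (nat_lit 3569777394) (nat_lit 152) (nat_lit 7544447097) (nat_lit 152) (nat_lit 1576019061) (nat_lit 18) (nat_lit 4) (nat_lit 20) (nat_lit 5) (nat_lit 20) (nat_lit 4) (nat_lit 326) (nat_lit 292) (nat_lit 282)) (XT.lf (nat_lit 0) (nat_lit 2260479548) (nat_lit 228) (nat_lit 1648109775) (nat_lit 76) (nat_lit 9419322985) (nat_lit 17) (nat_lit 5) (nat_lit 20) (nat_lit 5) (nat_lit 18) (nat_lit 4) (nat_lit 327) (nat_lit 292) (nat_lit 281))) (XT.nd (nat_lit 78) (nat_lit 76) (nat_lit 0) (XT.lf (nat_lit 0) (nat_lit 6310812778) (nat_lit 152) (nat_lit 7599095656) (nat_lit 0) (nat_lit 104212113) (nat_lit 16) (nat_lit 5) (nat_lit 18) (nat_lit 4) (nat_lit 16) (nat_lit 4) (nat_lit 328) (nat_lit 292) (nat_lit 280)) (XT.lf (nat_lit 0) (nat_lit 79452394) (nat_lit 76) (nat_lit 10593180402) (nat_lit 76) (nat_lit 4083749250) (nat_lit 15) (nat_lit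 4) (nat_lit 16) (nat_lit 5) (nat_lit 16) (nat_lit 4) (nat_lit 329) (nat_lit 292) (nat_lit 279)))) (XT.nd (nat_lit 156) (nat_lit 76) (nat_lit 0) (XT.nd (nat_lit 78) (nat_lit 152) (nat_lit 0) (XT.lf (nat_lit 0) (nat_lit 8524571975) (nat_lit 76) (nat_lit 6909678078) (nat_lit 76) (nat_lit 119848326) (nat_lit 15) (nat_lit 4) (nat_lit 16) (nat_lit 5) (nat_lit 16) (nat_lit 4) (nat_lit 330) (nat_lit 292) (nat_lit 278)) (XT.lf (nat_lit 0) (nat_lit 907882993) (nat_lit 76) (nat_lit 2917761756) (nat_lit 152) (nat_lit 12592291893) (nat_lit 13) (nat_lit 5) (nat_lit 14) (nat_lit 5) (nat_lit 15) (nat_lit 4) (nat_lit 331) (nat_lit 292) (nat_lit 277))) (XT.nd (nat_lit 78) (nat_lit 76) (nat_lit 0) (XT.lf (nat_lit 0) (nat_lit 8163812997) (nat_lit 152) (nat_lit 7766304299) (nat_lit 0) (nat_lit 1413947543) (nat_lit 13) (nat_lit 5) (nat_lit 15) (nat_lit 4) (nat_lit 13) (nat_lit 4) (nat_lit 332) (nat_lit 292)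 (nat_lit 276)) (XT.nd (nat_lit 78) (nat_lit 0) (nat_lit 0) (XT.lf (nat_lit 0) (nat_lit 286178678) (nat_lit 76) (nat_lit 12509232836) (nat_lit 76) (nat_lit 5553266040) (nat_lit 12) (nat_lit 4) (nat_lit 13) (nat_lit 5) (nat_lit 13) (nat_lit 4) (nat_lit 333) (nat_lit 292) (nat_lit 275)) (XT.lf (nat_lit 0) (nat_lit 9181552079) (nat_lit 76) (nat_lit 8696290444) (nat_lit 76) (nat_lit 1549489072) (nat_lit 12) (nat_lit 4) (nat_lit 13) (nat_lit 5) (nat_lit 13) (nat_lit 4) (nat_lit 334) (nat_lit 292) (nat_lit 274))))))) (XT.nd (nat_lit 702) (nat_lit 228) (nat_lit 0) (XT.nd (nat_lit 312) (nat_lit 152) (nat_lit 0) (XT.nd (nat_lit 156) (nat_lit 76) (nat_lit 0) (XT.nd (nat_lit 78) (nat_lit 76) (nat_lit 0) (XT.lf (nat_lit 0) (nat_lit 2510274043) (nat_lit 152) (nat_lit 2102130043) (nat_lit 76) (nat_lit 15984660020) (nat_lit 11) (nat_lit 5) (nat_lit 13) (nat_lit 5) (nat_lit 12) (nat_lit 4) (nat_lit 335)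 (nat_lit 292) (nat_lit 273)) (XT.lf (nat_lit 0) (nat_lit 6777274527) (nat_lit 76) (nat_lit 80602621) (nat_lit 152) (nat_lit 14995613367) (nat_lit 10) (nat_lit 5) (nat_lit 11) (nat_lit 5) (nat_lit 12) (nat_lit 4) (nat_lit 336) (nat_lit 292) (nat_lit 272))) (XT.nd (nat_lit 78) (nat_lit 76) (nat_lit 0) (XT.lf (nat_lit 0) (nat_lit 11613066971) (nat_lit 152) (nat_lit 7052364192) (nat_lit 0) (nat_lit 4540288655) (nat_lit 10) (nat_lit 5) (nat_lit 12) (nat_lit 4) (nat_lit 10) (nat_lit 4) (nat_lit 337) (nat_lit 292) (nat_lit 271)) (XT.lf (nat_lit 0) (nat_lit 1485765847) (nat_lit 76) (nat_lit 15194287032) (nat_lit 76) (nat_lit 7991629910) (nat_lit 9) (nat_lit 4) (nat_lit 10) (nat_lit 5) (nat_lit 10) (nat_lit 4) (nat_lit 338) (nat_lit 292) (nat_lit 270)))) (XT.nd (nat_lit 156) (nat_lit 76) (nat_lit 0) (XT.nd (nat_lit 78) (nat_lit 76) (nat_lit 0) (XT.lf (nat_lit 0) (nat_lit 10913219898) (nat_lit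 76) (nat_lit 11328756403) (nat_lit 76) (nat_lit 4005841128) (nat_lit 9) (nat_lit 4) (nat_lit 10) (nat_lit 5) (nat_lit 10) (nat_lit 4) (nat_lit 339) (nat_lit 292) (nat_lit 269)) (XT.lf (nat_lit 0) (nat_lit 185728708) (nat_lit 152) (nat_lit 7047949702) (nat_lit 76) (nat_lit 20723692492) (nat_lit 8) (nat_lit 5) (nat_lit 10) (nat_lit 5) (nat_lit 9) (nat_lit 4) (nat_lit 340) (nat_lit 292) (nat_lit 268))) (XT.nd (nat_lit 78) (nat_lit 0) (nat_lit 0) (XT.lf (nat_lit 0) (nat_lit 1711347390) (nat_lit 76) (nat_lit 2735150105) (nat_lit 152) (nat_lit 25352892268) (nat_lit 7) (nat_lit 5) (nat_lit 8) (nat_lit 5) (nat_lit 9) (nat_lit 4) (nat_lit 341) (nat_lit 292) (nat_lit 267)) (XT.nd (nat_lit 78) (nat_lit 0) (nat_lit 0) (XT.lf (nat_lit 0) (nat_lit 9206830503) (nat_lit 152) (nat_lit 20429894909) (nat_lit 0) (nat_lit 2139393281) (nat_lit 7) (nat_lit 5) (nat_lit 9) (nat_lit 4) (nat_lit 7) (nat_lit 4)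 (nat_lit 342) (nat_lit 292) (nat_lit 266)) (XT.lf (nat_lit 0) (nat_lit 14335634433) (nat_lit 152) (nat_lit 12390029893) (nat_lit 0) (nat_lit 7186351532) (nat_lit 7) (nat_lit 5) (nat_lit 9) (nat_lit 4) (nat_lit 7) (nat_lit 4) (nat_lit 343) (nat_lit 292) (nat_lit 265)))))) (XT.nd (nat_lit 312) (nat_lit 152) (nat_lit 0) (XT.nd (nat_lit 156) (nat_lit 0) (nat_lit 0) (XT.nd (nat_lit 78) (nat_lit 76) (nat_lit 0) (XT.lf (nat_lit 0) (nat_lit 19797521771) (nat_lit 152) (nat_lit 3855023256) (nat_lit 0) (nat_lit 12572455834) (nat_lit 7) (nat_lit 5) (nat_lit 9) (nat_lit 4) (nat_lit 7) (nat_lit 4) (nat_lit 344) (nat_lit 292) (nat_lit 264)) (XT.lf (nat_lit 0) (nat_lit 5500879070) (nat_lit 76) (nat_lit 20256276459) (nat_lit 76) (nat_lit 12961041045) (nat_lit 6) (nat_lit 4) (nat_lit 7) (nat_lit 5) (nat_lit 7) (nat_lit 4) (nat_lit 345) (nat_lit 292) (nat_lit 263))) (XT.nd (nat_lit 78) (nat_lit 0) (nat_lit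 0) (XT.lf (nat_lit 0) (nat_lit 15690881487) (nat_lit 76) (nat_lit 16538663848) (nat_lit 76) (nat_lit 9178456696) (nat_lit 6) (nat_lit 4) (nat_lit 7) (nat_lit 5) (nat_lit 7) (nat_lit 4) (nat_lit 346) (nat_lit 292) (nat_lit 262)) (XT.lf (nat_lit 0) (nat_lit 26572370500) (nat_lit 76) (nat_lit 12583080065) (nat_lit 76) (nat_lit 5162713896) (nat_lit 6) (nat_lit 4) (nat_lit 7) (nat_lit 5) (nat_lit 7) (nat_lit 4) (nat_lit 347) (nat_lit 292) (nat_lit 261)))) (XT.nd (nat_lit 156) (nat_lit 76) (nat_lit 0) (XT.nd (nat_lit 78) (nat_lit 76) (nat_lit 0) (XT.lf (nat_lit 0) (nat_lit 38209829008) (nat_lit 76) (nat_lit 8366084614) (nat_lit 76) (nat_lit 890015651) (nat_lit 6) (nat_lit 4) (nat_lit 7) (nat_lit 5) (nat_lit 7) (nat_lit 4) (nat_lit 348) (nat_lit 292) (nat_lit 260)) (XT.lf (nat_lit 0) (nat_lit 3481621703) (nat_lit 152) (nat_lit 285872479) (nat_lit 76) (nat_lit 47095404316) (nat_lit 5) (nat_lit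 5) (nat_lit 7) (nat_lit 5) (nat_lit 6) (nat_lit 4) (nat_lit 349) (nat_lit 292) (nat_lit 259))) (XT.nd (nat_lit 78) (nat_lit 0) (nat_lit 0) (XT.lf (nat_lit 0) (nat_lit 8371784040) (nat_lit 152) (nat_lit 44783140881) (nat_lit 0) (nat_lit 1357523122) (nat_lit 4) (nat_lit 5) (nat_lit 6) (nat_lit 4) (nat_lit 4) (nat_lit 4) (nat_lit 350) (nat_lit 292) (nat_lit 258)) (XT.nd (nat_lit 78) (nat_lit 0) (nat_lit 0) (XT.lf (nat_lit 0) (nat_lit 13707031255) (nat_lit 152) (nat_lit 38090814166) (nat_lit 0) (nat_lit 6651827121) (nat_lit 4) (nat_lit 5) (nat_lit 6) (nat_lit 4) (nat_lit 4) (nat_lit 4) (nat_lit 351) (nat_lit 292) (nat_lit 257)) (XT.lf (nat_lit 0) (nat_lit 19420946043) (nat_lit 152) (nat_lit 30956968815) (nat_lit 0) (nat_lit 12327831524) (nat_lit 4) (nat_lit 5) (nat_lit 6) (nat_lit 4) (nat_lit 4) (nat_lit 4) (nat_lit 352) (nat_lit 292) (nat_lit 256))))))))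
noncomputable def xc72 : XT := (XT.nd (nat_lit 1326) (nat_lit 0) (nat_lit 0) (XT.nd (nat_lit 624) (nat_lit 152) (nat_lit 0) (XT.nd (nat_lit 312) (nat_lit 0) (nat_lit 0) (XT.nd (nat_lit 156) (nat_lit 76) (nat_lit 0) (XT.nd (nat_lit 78) (nat_lit 0) (nat_lit 0) (XT.lf (nat_lit 0) (nat_lit 25547388640) (nat_lit 152) (nat_lit 23339330188) (nat_lit 0) (nat_lit 18419171913) (nat_lit 4) (nat_lit 5) (nat_lit 6) (nat_lit 4) (nat_lit 4) (nat_lit 4) (nat_lit 353) (nat_lit 292) (nat_lit 255)) (XT.lf (nat_lit 0) (nat_lit 32122663892) (nat_lit 152) (nat_lit 15192756723) (nat_lit 0) (nat_lit 24961945120) (nat_lit 4) (nat_lit 5) (nat_lit 6) (nat_lit 4) (nat_lit 4) (nat_lit 4) (nat_lit 354) (nat_lit 292) (nat_lit 254))) (XT.nd (nat_lit 78) (nat_lit 76) (nat_lit 0) (XT.lf (nat_lit 0) (nat_lit 39185736392) (nat_lit 152) (nat_lit 6468972430) (nat_lit 0) (nat_lit 31994923134) (nat_lit 4) (nat_lit 5) (nat_lit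 6) (nat_lit 4) (nat_lit 4) (nat_lit 4) (nat_lit 355) (nat_lit 292) (nat_lit 253)) (XT.lf (nat_lit 0) (nat_lit 3035570733) (nat_lit 76) (nat_lit 43815896200) (nat_lit 76) (nat_lit 36597217677) (nat_lit 3) (nat_lit 4) (nat_lit 4) (nat_lit 5) (nat_lit 4) (nat_lit 4) (nat_lit 356) (nat_lit 292) (nat_lit 252)))) (XT.nd (nat_lit 156) (nat_lit 0) (nat_lit 0) (XT.nd (nat_lit 78) (nat_lit 0) (nat_lit 0) (XT.lf (nat_lit 0) (nat_lit 13601124848) (nat_lit 76) (nat_lit 41671815327) (nat_lit 76) (nat_lit 34427335632) (nat_lit 3) (nat_lit 4) (nat_lit 4) (nat_lit 5) (nat_lit 4) (nat_lit 4) (nat_lit 357) (nat_lit 292) (nat_lit 251)) (XT.lf (nat_lit 0) (nat_lit 24949655982) (nat_lit 76) (nat_lit 39386633708) (nat_lit 76) (nat_lit 32118264040) (nat_lit 3) (nat_lit 4) (nat_lit 4) (nat_lit 5) (nat_lit 4) (nat_lit 4) (nat_lit 358) (nat_lit 292) (nat_lit 250))) (XT.nd (nat_lit 78) (nat_lit 0) (nat_lit 0) (XT.lf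 (nat_lit 0) (nat_lit 37148414688) (nat_lit 76) (nat_lit 36946809526) (nat_lit 76) (nat_lit 29656319513) (nat_lit 3) (nat_lit 4) (nat_lit 4) (nat_lit 5) (nat_lit 4) (nat_lit 4) (nat_lit 359) (nat_lit 292) (nat_lit 249)) (XT.lf (nat_lit 0) (nat_lit 50269689908) (nat_lit 76) (nat_lit 34337884565) (nat_lit 76) (nat_lit 27026912750) (nat_lit 3) (nat_lit 4) (nat_lit 4) (nat_lit 5) (nat_lit 4) (nat_lit 4) (nat_lit 360) (nat_lit 292) (nat_lit 248))))) (XT.nd (nat_lit 312) (nat_lit 152) (nat_lit 0) (XT.nd (nat_lit 156) (nat_lit 0) (nat_lit 0) (XT.nd (nat_lit 78) (nat_lit 0) (nat_lit 0) (XT.lf (nat_lit 0) (nat_lit 64391237346) (nat_lit 76) (nat_lit 31544398528) (nat_lit 76) (nat_lit 24214462082) (nat_lit 3) (nat_lit 4) (nat_lit 4) (nat_lit 5) (nat_lit 4) (nat_lit 4) (nat_lit 361) (nat_lit 292) (nat_lit 247)) (XT.lf (nat_lit 0) (nat_lit 79596740247) (nat_lit 76) (nat_lit 28549797424) (nat_lit 76)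 (nat_lit 21202301134) (nat_lit 3) (nat_lit 4) (nat_lit 4) (nat_lit 5) (nat_lit 4) (nat_lit 4) (nat_lit 362) (nat_lit 292) (nat_lit 246))) (XT.nd (nat_lit 78) (nat_lit 0) (nat_lit 0) (XT.lf (nat_lit 0) (nat_lit 95976305295) (nat_lit 76) (nat_lit 25336335468) (nat_lit 76) (nat_lit 17972580064) (nat_lit 3) (nat_lit 4) (nat_lit 4) (nat_lit 5) (nat_lit 4) (nat_lit 4) (nat_lit 363) (nat_lit 292) (nat_lit 245)) (XT.lf (nat_lit 0) (nat_lit 113626996578) (nat_lit 76) (nat_lit 21884969923) (nat_lit 76) (nat_lit 14506159783) (nat_lit 3) (nat_lit 4) (nat_lit 4) (nat_lit 5) (nat_lit 4) (nat_lit 4) (nat_lit 364) (nat_lit 292) (nat_lit 244)))) (XT.nd (nat_lit 156) (nat_lit 152) (nat_lit 0) (XT.nd (nat_lit 78) (nat_lit 0) (nat_lit 0) (XT.lf (nat_lit 0) (nat_lit 132653410785) (nat_lit 76) (nat_lit 18175248252) (nat_lit 76) (nat_lit 10782498543) (nat_lit 3) (nat_lit 4) (nat_lit 4) (nat_lit 5) (nat_lit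 4) (nat_lit 4) (nat_lit 365) (nat_lit 292) (nat_lit 243)) (XT.lf (nat_lit 0) (nat_lit 153168297039) (nat_lit 76) (nat_lit 14185186920) (nat_lit 76) (nat_lit 6779530201) (nat_lit 3) (nat_lit 4) (nat_lit 4) (nat_lit 5) (nat_lit 4) (nat_lit 4) (nat_lit 366) (nat_lit 292) (nat_lit 242))) (XT.nd (nat_lit 78) (nat_lit 152) (nat_lit 0) (XT.lf (nat_lit 0) (nat_lit 175293225035) (nat_lit 76) (nat_lit 9891141119) (nat_lit 76) (nat_lit 2473533465) (nat_lit 3) (nat_lit 4) (nat_lit 4) (nat_lit 5) (nat_lit 4) (nat_lit 4) (nat_lit 367) (nat_lit 292) (nat_lit 241)) (XT.nd (nat_lit 78) (nat_lit 76) (nat_lit 0) (XT.lf (nat_lit 0) (nat_lit 2052906276) (nat_lit 152) (nat_lit 3158628279) (nat_lit 76) (nat_lit 197050269086) (nat_lit 2) (nat_lit 5) (nat_lit 4) (nat_lit 5) (nat_lit 3) (nat_lit 4) (nat_lit 368) (nat_lit 292) (nat_lit 240)) (XT.lf (nat_lit 0) (nat_lit 6965190133) (nat_lit 152) (nat_lit 210973803865)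 (nat_lit 0) (nat_lit 77301861) (nat_lit 1) (nat_lit 5) (nat_lit 3) (nat_lit 4) (nat_lit 1) (nat_lit 4) (nat_lit 369) (nat_lit 292) (nat_lit 239))))))) (XT.nd (nat_lit 624) (nat_lit 0) (nat_lit 0) (XT.nd (nat_lit 312) (nat_lit 0) (nat_lit 0) (XT.nd (nat_lit 156) (nat_lit 0) (nat_lit 0) (XT.nd (nat_lit 78) (nat_lit 0) (nat_lit 0) (XT.lf (nat_lit 0) (nat_lit 12480489929) (nat_lit 152) (nat_lit 216950041956) (nat_lit 0) (nat_lit 5583817364) (nat_lit 1) (nat_lit 5) (nat_lit 3) (nat_lit 4) (nat_lit 1) (nat_lit 4) (nat_lit 370) (nat_lit 292) (nat_lit 238)) (XT.lf (nat_lit 0) (nat_lit 18424109097) (nat_lit 152) (nat_lit 223429871375) (nat_lit 0) (nat_lit 11519302926) (nat_lit 1) (nat_lit 5) (nat_lit 3) (nat_lit 4) (nat_lit 1) (nat_lit 4) (nat_lit 371) (nat_lit 292) (nat_lit 237))) (XT.nd (nat_lit 78) (nat_lit 0) (nat_lit 0) (XT.lf (nat_lit 0) (nat_lit 24831269084) (nat_lit 152) (nat_lit 230451691112)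 (nat_lit 0) (nat_lit 17918931797) (nat_lit 1) (nat_lit 5) (nat_lit 3) (nat_lit 4) (nat_lit 1) (nat_lit 4) (nat_lit 372) (nat_lit 292) (nat_lit 236)) (XT.lf (nat_lit 0) (nat_lit 31739938244) (nat_lit 152) (nat_lit 238057111950) (nat_lit 0) (nat_lit 24820627702) (nat_lit 1) (nat_lit 5) (nat_lit 3) (nat_lit 4) (nat_lit 1) (nat_lit 4) (nat_lit 373) (nat_lit 292) (nat_lit 235)))) (XT.nd (nat_lit 156) (nat_lit 0) (nat_lit 0) (XT.nd (nat_lit 78) (nat_lit 0) (nat_lit 0) (XT.lf (nat_lit 0) (nat_lit 39191056841) (nat_lit 152) (nat_lit 246291203050) (nat_lit 0) (nat_lit 32265289581) (nat_lit 1) (nat_lit 5) (nat_lit 3) (nat_lit 4) (nat_lit 1) (nat_lit 4) (nat_lit 374) (nat_lit 292) (nat_lit 234)) (XT.lf (nat_lit 0) (nat_lit 47228779650) (nat_lit 152) (nat_lit 255202759025) (nat_lit 0) (nat_lit 40297033948) (nat_lit 1) (nat_lit 5) (nat_lit 3) (nat_lit 4) (nat_lit 1) (nat_lit 4) (nat_lit 375) (nat_lit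 292) (nat_lit 233))) (XT.nd (nat_lit 78) (nat_lit 0) (nat_lit 0) (XT.lf (nat_lit 0) (nat_lit 55900737623) (nat_lit 152) (nat_lit 264844589097) (nat_lit 0) (nat_lit 48963456325) (nat_lit 1) (nat_lit 5) (nat_lit 3) (nat_lit 4) (nat_lit 1) (nat_lit 4) (nat_lit 376) (nat_lit 292) (nat_lit 232)) (XT.lf (nat_lit 0) (nat_lit 65258320138) (nat_lit 152) (nat_lit 275273830036) (nat_lit 0) (nat_lit 58315913289) (nat_lit 1) (nat_lit 5) (nat_lit 3) (nat_lit 4) (nat_lit 1) (nat_lit 4) (nat_lit 377) (nat_lit 292) (nat_lit 231))))) (XT.nd (nat_lit 312) (nat_lit 0) (nat_lit 0) (XT.nd (nat_lit 156) (nat_lit 0) (nat_lit 0) (XT.nd (nat_lit 78) (nat_lit 0) (nat_lit 0) (XT.lf (nat_lit 0) (nat_lit 75356979538) (nat_lit 152) (nat_lit 286552284751) (nat_lit 0) (nat_lit 68409826808) (nat_lit 1) (nat_lit 5) (nat_lit 3) (nat_lit 4) (nat_lit 1) (nat_lit 4) (nat_lit 378) (nat_lit 292) (nat_lit 230)) (XT.lf (nat_lit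 0) (nat_lit 86256559729) (nat_lit 152) (nat_lit 298746788529) (nat_lit 0) (nat_lit 79305012666) (nat_lit 1) (nat_lit 5) (nat_lit 3) (nat_lit 4) (nat_lit 1) (nat_lit 4) (nat_lit 379) (nat_lit 292) (nat_lit 229))) (XT.nd (nat_lit 78) (nat_lit 0) (nat_lit 0) (XT.lf (nat_lit 0) (nat_lit 98021650817) (nat_lit 152) (nat_lit 311929605098) (nat_lit 0) (nat_lit 91066034926) (nat_lit 1) (nat_lit 5) (nat_lit 3) (nat_lit 4) (nat_lit 1) (nat_lit 4) (nat_lit 380) (nat_lit 292) (nat_lit 228)) (XT.lf (nat_lit 0) (nat_lit 110721971859) (nat_lit 152) (nat_lit 326178854850) (nat_lit 0) (nat_lit 103762588535) (nat_lit 1) (nat_lit 5) (nat_lit 3) (nat_lit 4) (nat_lit 1) (nat_lit 4) (nat_lit 381) (nat_lit 292) (nat_lit 227)))) (XT.nd (nat_lit 156) (nat_lit 0) (nat_lit 0) (XT.nd (nat_lit 78) (nat_lit 0) (nat_lit 0) (XT.lf (nat_lit 0) (nat_lit 124432784018) (nat_lit 152) (nat_lit 341578977785) (nat_lit 0) (nat_lit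 117469912331) (nat_lit 1) (nat_lit 5) (nat_lit 3) (nat_lit 4) (nat_lit 1) (nat_lit 4) (nat_lit 382) (nat_lit 292) (nat_lit 226)) (XT.lf (nat_lit 0) (nat_lit 139235336551) (nat_lit 152) (nat_lit 358221233890) (nat_lit 0) (nat_lit 132269234897) (nat_lit 1) (nat_lit 5) (nat_lit 3) (nat_lit 4) (nat_lit 1) (nat_lit 4) (nat_lit 383) (nat_lit 292) (nat_lit 225))) (XT.nd (nat_lit 78) (nat_lit 0) (nat_lit 0) (XT.lf (nat_lit 0) (nat_lit 155217348288) (nat_lit 152) (nat_lit 376204243943) (nat_lit 0) (nat_lit 148248255924) (nat_lit 1) (nat_lit 5) (nat_lit 3) (nat_lit 4) (nat_lit 1) (nat_lit 4) (nat_lit 384) (nat_lit 292) (nat_lit 224)) (XT.nd (nat_lit 78) (nat_lit 0) (nat_lit 0) (XT.lf (nat_lit 0) (nat_lit 172473527446) (nat_lit 152) (nat_lit 395634573929) (nat_lit 0) (nat_lit 165501665906) (nat_lit 1) (nat_lit 5) (nat_lit 3) (nat_lit 4) (nat_lit 1) (nat_lit 4) (nat_lit 385) (nat_lit 292) (nat_lit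 223)) (XT.lf (nat_lit 0) (nat_lit 191106132865) (nat_lit 152) (nat_lit 416627366543) (nat_lit 0) (nat_lit 184131707274) (nat_lit 1) (nat_lit 5) (nat_lit 3) (nat_lit 4) (nat_lit 1) (nat_lit 4) (nat_lit 386) (nat_lit 292) (nat_lit 222))))))))
noncomputable def xc73 : XT := (XT.nd (nat_lit 1326) (nat_lit 0) (nat_lit 0) (XT.nd (nat_lit 624) (nat_lit 0) (nat_lit 0) (XT.nd (nat_lit 312) (nat_lit 0) (nat_lit 0) (XT.nd (nat_lit 156) (nat_lit 0) (nat_lit 0) (XT.nd (nat_lit 78) (nat_lit 0) (nat_lit 0) (XT.lf (nat_lit 0) (nat_lit 211225579984) (nat_lit 152) (nat_lit 439307023521) (nat_lit 0) (nat_lit 204248780271) (nat_lit 1) (nat_lit 5) (nat_lit 3) (nat_lit 4) (nat_lit 1) (nat_lit 4) (nat_lit 387) (nat_lit 292) (nat_lit 221)) (XT.lf (nat_lit 0) (nat_lit 232951095156) (nat_lit 152) (nat_lit 463807942829) (nat_lit 0) (nat_lit 225972097182) (nat_lit 1) (nat_lit 5) (nat_lit 3) (nat_lit 4) (nat_lit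 1) (nat_lit 4) (nat_lit 388) (nat_lit 292) (nat_lit 220))) (XT.nd (nat_lit 78) (nat_lit 0) (nat_lit 0) (XT.lf (nat_lit 0) (nat_lit 256411422176) (nat_lit 152) (nat_lit 490275315100) (nat_lit 0) (nat_lit 249430388776) (nat_lit 1) (nat_lit 5) (nat_lit 3) (nat_lit 4) (nat_lit 1) (nat_lit 4) (nat_lit 389) (nat_lit 292) (nat_lit 219)) (XT.lf (nat_lit 0) (nat_lit 281745585204) (nat_lit 152) (nat_lit 518865984022) (nat_lit 0) (nat_lit 274762667148) (nat_lit 1) (nat_lit 5) (nat_lit 3) (nat_lit 4) (nat_lit 1) (nat_lit 4) (nat_lit 390) (nat_lit 292) (nat_lit 218)))) (XT.nd (nat_lit 156) (nat_lit 0) (nat_lit 0) (XT.nd (nat_lit 78) (nat_lit 0) (nat_lit 0) (XT.lf (nat_lit 0) (nat_lit 309103712612) (nat_lit 152) (nat_lit 549749375781) (nat_lit 0) (nat_lit 302119049506) (nat_lit 1) (nat_lit 5) (nat_lit 3) (nat_lit 4) (nat_lit 1) (nat_lit 4) (nat_lit 391) (nat_lit 292) (nat_lit 217)) (XT.lf (nat_lit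 0) (nat_lit 338647926637) (nat_lit 152) (nat_lit 583108503069) (nat_lit 0) (nat_lit 331661647744) (nat_lit 1) (nat_lit 5) (nat_lit 3) (nat_lit 4) (nat_lit 1) (nat_lit 4) (nat_lit 392) (nat_lit 292) (nat_lit 216))) (XT.nd (nat_lit 78) (nat_lit 0) (nat_lit 0) (XT.lf (nat_lit 0) (nat_lit 370553304103) (nat_lit 152) (nat_lit 619141049603) (nat_lit 0) (nat_lit 363565529111) (nat_lit 1) (nat_lit 5) (nat_lit 3) (nat_lit 4) (nat_lit 1) (nat_lit 4) (nat_lit 393) (nat_lit 292) (nat_lit 215)) (XT.lf (nat_lit 0) (nat_lit 405008913915) (nat_lit 152) (nat_lit 658060541585) (nat_lit 0) (nat_lit 398019753645) (nat_lit 1) (nat_lit 5) (nat_lit 3) (nat_lit 4) (nat_lit 1) (nat_lit 4) (nat_lit 394) (nat_lit 292) (nat_lit 214))))) (XT.nd (nat_lit 312) (nat_lit 0) (nat_lit 0) (XT.nd (nat_lit 156) (nat_lit 0) (nat_lit 0) (XT.nd (nat_lit 78) (nat_lit 0) (nat_lit 0) (XT.lf (nat_lit 0) (nat_lit 442218937462) (nat_lit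 152) (nat_lit 700097613041) (nat_lit 0) (nat_lit 435228494528) (nat_lit 1) (nat_lit 5) (nat_lit 3) (nat_lit 4) (nat_lit 1) (nat_lit 4) (nat_lit 395) (nat_lit 292) (nat_lit 213)) (XT.lf (nat_lit 0) (nat_lit 482403878589) (nat_lit 152) (nat_lit 745501372543) (nat_lit 0) (nat_lit 475412248003) (nat_lit 1) (nat_lit 5) (nat_lit 3) (nat_lit 4) (nat_lit 1) (nat_lit 4) (nat_lit 396) (nat_lit 292) (nat_lit 212))) (XT.nd (nat_lit 78) (nat_lit 0) (nat_lit 0) (XT.lf (nat_lit 0) (nat_lit 525801870279) (nat_lit 152) (nat_lit 794540879407) (nat_lit 0) (nat_lit 518809140016) (nat_lit 1) (nat_lit 5) (nat_lit 3) (nat_lit 4) (nat_lit 1) (nat_lit 4) (nat_lit 397) (nat_lit 292) (nat_lit 211)) (XT.lf (nat_lit 0) (nat_lit 572670085818) (nat_lit 152) (nat_lit 847506738118) (nat_lit 0) (nat_lit 565676337334) (nat_lit 1) (nat_lit 5) (nat_lit 3) (nat_lit 4) (nat_lit 1) (nat_lit 4) (nat_lit 398) (nat_lit 292) (nat_lit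 210)))) (XT.nd (nat_lit 156) (nat_lit 0) (nat_lit 0) (XT.nd (nat_lit 78) (nat_lit 0) (nat_lit 0) (XT.lf (nat_lit 0) (nat_lit 623286262778) (nat_lit 152) (nat_lit 904712820430) (nat_lit 0) (nat_lit 616291571498) (nat_lit 1) (nat_lit 5) (nat_lit 3) (nat_lit 4) (nat_lit 1) (nat_lit 4) (nat_lit 399) (nat_lit 292) (nat_lit 209)) (XT.lf (nat_lit 0) (nat_lit 677950348875) (nat_lit 152) (nat_lit 966498125351) (nat_lit 0) (nat_lit 670954784635) (nat_lit 1) (nat_lit 5) (nat_lit 3) (nat_lit 4) (nat_lit 1) (nat_lit 4) (nat_lit 400) (nat_lit 292) (nat_lit 208))) (XT.nd (nat_lit 78) (nat_lit 0) (nat_lit 0) (XT.lf (nat_lit 0) (nat_lit 736986279434) (nat_lit 152) (nat_lit 1033228788021) (nat_lit 0) (nat_lit 729989906898) (nat_lit 1) (nat_lit 5) (nat_lit 3) (nat_lit 4) (nat_lit 1) (nat_lit 4) (nat_lit 401) (nat_lit 292) (nat_lit 207)) (XT.nd (nat_lit 78) (nat_lit 0) (nat_lit 0) (XT.lf (nat_lit 0) (nat_lit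 800743897006) (nat_lit 152) (nat_lit 1105300249403) (nat_lit 0) (nat_lit 793746776047) (nat_lit 1) (nat_lit 5) (nat_lit 3) (nat_lit 4) (nat_lit 1) (nat_lit 4) (nat_lit 402) (nat_lit 292) (nat_lit 206)) (XT.lf (nat_lit 0) (nat_lit 869601024510) (nat_lit 152) (nat_lit 1183139599639) (nat_lit 0) (nat_lit 862603210568) (nat_lit 1) (nat_lit 5) (nat_lit 3) (nat_lit 4) (nat_lit 1) (nat_lit 4) (nat_lit 403) (nat_lit 292) (nat_lit 205))))))) (XT.nd (nat_lit 624) (nat_lit 0) (nat_lit 0) (XT.nd (nat_lit 312) (nat_lit 0) (nat_lit 0) (XT.nd (nat_lit 156) (nat_lit 0) (nat_lit 0) (XT.nd (nat_lit 78) (nat_lit 0) (nat_lit 0) (XT.lf (nat_lit 0) (nat_lit 943965704184) (nat_lit 152) (nat_lit 1267208108952) (nat_lit 0) (nat_lit 936967248590) (nat_lit 1) (nat_lit 5) (nat_lit 3) (nat_lit 4) (nat_lit 1) (nat_lit 4) (nat_lit 404) (nat_lit 292) (nat_lit 204)) (XT.lf (nat_lit 0) (nat_lit 1024278615610) (nat_lit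 152) (nat_lit 1358003961103) (nat_lit 0) (nat_lit 1017279565895) (nat_lit 1) (nat_lit 5) (nat_lit 3) (nat_lit 4) (nat_lit 1) (nat_lit 4) (nat_lit 405) (nat_lit 292) (nat_lit 203))) (XT.nd (nat_lit 78) (nat_lit 0) (nat_lit 0) (XT.lf (nat_lit 0) (nat_lit 1111015687152) (nat_lit 152) (nat_lit 1456065205584) (nat_lit 0) (nat_lit 1104016087325) (nat_lit 1) (nat_lit 5) (nat_lit 3) (nat_lit 4) (nat_lit 1) (nat_lit 4) (nat_lit 406) (nat_lit 292) (nat_lit 202)) (XT.lf (nat_lit 0) (nat_lit 1204690916273) (nat_lit 152) (nat_lit 1561972946067) (nat_lit 0) (nat_lit 1197690807082) (nat_lit 1) (nat_lit 5) (nat_lit 3) (nat_lit 4) (nat_lit 1) (nat_lit 4) (nat_lit 407) (nat_lit 292) (nat_lit 201)))) (XT.nd (nat_lit 156) (nat_lit 0) (nat_lit 0) (XT.nd (nat_lit 78) (nat_lit 0) (nat_lit 0) (XT.lf (nat_lit 0) (nat_lit 1305859415440) (nat_lit 152) (nat_lit 1676354783976) (nat_lit 0) (nat_lit 1298858834615)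 (nat_lit 1) (nat_lit 5) (nat_lit 3) (nat_lit 4) (nat_lit 1) (nat_lit 4) (nat_lit 408) (nat_lit 292) (nat_lit 200)) (XT.lf (nat_lit 0) (nat_lit 1415120701685) (nat_lit 152) (nat_lit 1799888537612) (nat_lit 0) (nat_lit 1408119684164) (nat_lit 1) (nat_lit 5) (nat_lit 3) (nat_lit 4) (nat_lit 1) (nat_lit 4) (nat_lit 409) (nat_lit 292) (nat_lit 199))) (XT.nd (nat_lit 78) (nat_lit 0) (nat_lit 0) (XT.lf (nat_lit 0) (nat_lit 1533122249297) (nat_lit 152) (nat_lit 1933306258846) (nat_lit 0) (nat_lit 1526120827427) (nat_lit 1) (nat_lit 5) (nat_lit 3) (nat_lit 4) (nat_lit 1) (nat_lit 4) (nat_lit 410) (nat_lit 292) (nat_lit 198)) (XT.lf (nat_lit 0) (nat_lit 1660563326708) (nat_lit 152) (nat_lit 2077398571213) (nat_lit 0) (nat_lit 1653561530440) (nat_lit 1) (nat_lit 5) (nat_lit 3) (nat_lit 4) (nat_lit 1) (nat_lit 4) (nat_lit 411) (nat_lit 292) (nat_lit 197))))) (XT.nd (nat_lit 39312) (nat_lit 0) (nat_lit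 2052) (XT.nd (nat_lit 156) (nat_lit 0) (nat_lit 0) (XT.nd (nat_lit 78) (nat_lit 0) (nat_lit 0) (XT.lf (nat_lit 0) (nat_lit 1798199140300) (nat_lit 152) (nat_lit 2233019355081) (nat_lit 0) (nat_lit 1791196997368) (nat_lit 1) (nat_lit 5) (nat_lit 3) (nat_lit 4) (nat_lit 1) (nat_lit 4) (nat_lit 412) (nat_lit 292) (nat_lit 196)) (XT.lf (nat_lit 0) (nat_lit 1946845309711) (nat_lit 152) (nat_lit 2401090807689) (nat_lit 0) (nat_lit 1939842845794) (nat_lit 1) (nat_lit 5) (nat_lit 3) (nat_lit 4) (nat_lit 1) (nat_lit 4) (nat_lit 413) (nat_lit 292) (nat_lit 195))) (XT.nd (nat_lit 39078) (nat_lit 0) (nat_lit 2964) (XT.lf (nat_lit 0) (nat_lit 2107382701130) (nat_lit 152) (nat_lit 2582608908015) (nat_lit 0) (nat_lit 2100379940004) (nat_lit 1) (nat_lit 5) (nat_lit 3) (nat_lit 4) (nat_lit 1) (nat_lit 4) (nat_lit 414) (nat_lit 292) (nat_lit 194)) (XT.lf (nat_lit 0) (nat_lit 1693092415) (nat_lit 304) (nat_lit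 596168366) (nat_lit 0) (nat_lit 1693092415) (nat_lit 40) (nat_lit 5) (nat_lit 44) (nat_lit 4) (nat_lit 40) (nat_lit 4) (nat_lit 314) (nat_lit 293) (nat_lit 293)))) (XT.nd (nat_lit 156) (nat_lit 456) (nat_lit 0) (XT.nd (nat_lit 78) (nat_lit 228) (nat_lit 0) (XT.lf (nat_lit 0) (nat_lit 4912453984) (nat_lit 228) (nat_lit 2251403730) (nat_lit 228) (nat_lit 1041287194) (nat_lit 37) (nat_lit 4) (nat_lit 40) (nat_lit 5) (nat_lit 40) (nat_lit 4) (nat_lit 315) (nat_lit 293) (nat_lit 292)) (XT.lf (nat_lit 0) (nat_lit 2508234495) (nat_lit 228) (nat_lit 5612020851) (nat_lit 0) (nat_lit 350276339) (nat_lit 34) (nat_lit 5) (nat_lit 37) (nat_lit 4) (nat_lit 34) (nat_lit 4) (nat_lit 316) (nat_lit 293) (nat_lit 291))) (XT.nd (nat_lit 78) (nat_lit 228) (nat_lit 0) (XT.lf (nat_lit 0) (nat_lit 550753156) (nat_lit 228) (nat_lit 5664463226) (nat_lit 228) (nat_lit 2545875549) (nat_lit 31) (nat_lit 4) (nat_lit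 34) (nat_lit 5) (nat_lit 34) (nat_lit 4) (nat_lit 317) (nat_lit 293) (nat_lit 290)) (XT.nd (nat_lit 78) (nat_lit 152) (nat_lit 0) (XT.lf (nat_lit 0) (nat_lit 1013137023) (nat_lit 304) (nat_lit 1900734445) (nat_lit 76) (nat_lit 6165122143) (nat_lit 30) (nat_lit 5) (nat_lit 34) (nat_lit 5) (nat_lit 31) (nat_lit 4) (nat_lit 318) (nat_lit 293) (nat_lit 289)) (XT.lf (nat_lit 0) (nat_lit 4624244534) (nat_lit 228) (nat_lit 4650286000) (nat_lit 0) (nat_lit 150499686) (nat_lit 28) (nat_lit 5) (nat_lit 31) (nat_lit 4) (nat_lit 28) (nat_lit 4) (nat_lit 319) (nat_lit 293) (nat_lit 288))))))))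
noncomputable def xc74 : XT := (XT.nd (nat_lit 1326) (nat_lit 456) (nat_lit 0) (XT.nd (nat_lit 624) (nat_lit 532) (nat_lit 0) (XT.nd (nat_lit 312) (nat_lit 380) (nat_lit 0) (XT.nd (nat_lit 156) (nat_lit 228) (nat_lit 0) (XT.nd (nat_lit 78) (nat_lit 76) (nat_lit 0) (XT.lf (nat_lit 0) (nat_lit 2006698027) (nat_lit 152) (nat_lit 6487331280) (nat_lit 152) (nat_lit 1307495057) (nat_lit 26) (nat_lit 4) (nat_lit 28) (nat_lit 5) (nat_lit 28) (nat_lit 4) (nat_lit 320) (nat_lit 293) (nat_lit 287)) (XT.lf (nat_lit 0) (nat_lit 2267411910) (nat_lit 228) (nat_lit 1117407760) (nat_lit 76) (nat_lit 6824843847) (nat_lit 25) (nat_lit 5) (nat_lit 28) (nat_lit 5) (nat_lit 26) (nat_lit 4) (nat_lit 321) (nat_lit 293) (nat_lit 286))) (XT.nd (nat_lit 78) (nat_lit 152) (nat_lit 0) (XT.lf (nat_lit 0) (nat_lit 6015208234) (nat_lit 152) (nat_lit 4583023870) (nat_lit 0) (nat_lit 53185938) (nat_lit 24) (nat_lit 5)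 (nat_lit 26) (nat_lit 4) (nat_lit 24) (nat_lit 4) (nat_lit 322) (nat_lit 293) (nat_lit 285)) (XT.lf (nat_lit 0) (nat_lit 2504133300) (nat_lit 152) (nat_lit 7553057058) (nat_lit 152) (nat_lit 1072036522) (nat_lit 22) (nat_lit 4) (nat_lit 24) (nat_lit 5) (nat_lit 24) (nat_lit 4) (nat_lit 323) (nat_lit 293) (nat_lit 284)))) (XT.nd (nat_lit 156) (nat_lit 228) (nat_lit 0) (XT.nd (nat_lit 78) (nat_lit 76) (nat_lit 0) (XT.lf (nat_lit 0) (nat_lit 2583617222) (nat_lit 228) (nat_lit 1587650639) (nat_lit 76) (nat_lit 7473252345) (nat_lit 21) (nat_lit 5) (nat_lit 24) (nat_lit 5) (nat_lit 22) (nat_lit 4) (nat_lit 324) (nat_lit 293) (nat_lit 283)) (XT.lf (nat_lit 0) (nat_lit 6006455853) (nat_lit 76) (nat_lit 442095903) (nat_lit 152) (nat_lit 5752486644) (nat_lit 20) (nat_lit 5) (nat_lit 21) (nat_lit 5) (nat_lit 22) (nat_lit 4) (nat_lit 325) (nat_lit 293) (nat_lit 282))) (XT.nd (nat_lit 78) (nat_lit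 76) (nat_lit 0) (XT.lf (nat_lit 0) (nat_lit 1189338740) (nat_lit 152) (nat_lit 9426432193) (nat_lit 152) (nat_lit 2187053178) (nat_lit 18) (nat_lit 4) (nat_lit 20) (nat_lit 5) (nat_lit 20) (nat_lit 4) (nat_lit 326) (nat_lit 293) (nat_lit 281)) (XT.lf (nat_lit 0) (nat_lit 1600719710) (nat_lit 228) (nat_lit 4263103498) (nat_lit 76) (nat_lit 7584268314) (nat_lit 17) (nat_lit 5) (nat_lit 20) (nat_lit 5) (nat_lit 18) (nat_lit 4) (nat_lit 327) (nat_lit 293) (nat_lit 280))))) (XT.nd (nat_lit 312) (nat_lit 304) (nat_lit 0) (XT.nd (nat_lit 156) (nat_lit 152) (nat_lit 0) (XT.nd (nat_lit 78) (nat_lit 0) (nat_lit 0) (XT.lf (nat_lit 0) (nat_lit 3531969678) (nat_lit 76) (nat_lit 1973620274) (nat_lit 152) (nat_lit 8640420604) (nat_lit 16) (nat_lit 5) (nat_lit 17) (nat_lit 5) (nat_lit 18) (nat_lit 4) (nat_lit 328) (nat_lit 293) (nat_lit 279)) (XT.lf (nat_lit 0) (nat_lit 9745826796) (nat_lit 152) (nat_lit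 3019828139) (nat_lit 0) (nat_lit 2132412064) (nat_lit 16) (nat_lit 5) (nat_lit 18) (nat_lit 4) (nat_lit 16) (nat_lit 4) (nat_lit 329) (nat_lit 293) (nat_lit 278))) (XT.nd (nat_lit 78) (nat_lit 76) (nat_lit 0) (XT.lf (nat_lit 0) (nat_lit 5141682358) (nat_lit 76) (nat_lit 9219455870) (nat_lit 76) (nat_lit 1346412804) (nat_lit 15) (nat_lit 4) (nat_lit 16) (nat_lit 5) (nat_lit 16) (nat_lit 4) (nat_lit 330) (nat_lit 293) (nat_lit 277)) (XT.lf (nat_lit 0) (nat_lit 2572187689) (nat_lit 152) (nat_lit 2763289276) (nat_lit 76) (nat_lit 11245386478) (nat_lit 14) (nat_lit 5) (nat_lit 16) (nat_lit 5) (nat_lit 15) (nat_lit 4) (nat_lit 331) (nat_lit 293) (nat_lit 276)))) (XT.nd (nat_lit 156) (nat_lit 228) (nat_lit 0) (XT.nd (nat_lit 78) (nat_lit 0) (nat_lit 0) (XT.lf (nat_lit 0) (nat_lit 5683835720) (nat_lit 76) (nat_lit 1056483914) (nat_lit 152) (nat_lit 10780325107) (nat_lit 13) (nat_lit 5) (nat_lit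 14) (nat_lit 5) (nat_lit 15) (nat_lit 4) (nat_lit 332) (nat_lit 293) (nat_lit 275)) (XT.lf (nat_lit 0) (nat_lit 11278955871) (nat_lit 152) (nat_lit 3884209232) (nat_lit 0) (nat_lit 3369575814) (nat_lit 13) (nat_lit 5) (nat_lit 15) (nat_lit 4) (nat_lit 13) (nat_lit 4) (nat_lit 333) (nat_lit 293) (nat_lit 274))) (XT.nd (nat_lit 78) (nat_lit 152) (nat_lit 0) (XT.lf (nat_lit 0) (nat_lit 4698462272) (nat_lit 76) (nat_lit 11505811744) (nat_lit 76) (nat_lit 3419733005) (nat_lit 12) (nat_lit 4) (nat_lit 13) (nat_lit 5) (nat_lit 13) (nat_lit 4) (nat_lit 334) (nat_lit 293) (nat_lit 273)) (XT.nd (nat_lit 78) (nat_lit 76) (nat_lit 0) (XT.lf (nat_lit 0) (nat_lit 677711315) (nat_lit 152) (nat_lit 6840049091) (nat_lit 76) (nat_lit 13284084452) (nat_lit 11) (nat_lit 5) (nat_lit 13) (nat_lit 5) (nat_lit 12) (nat_lit 4) (nat_lit 335) (nat_lit 293) (nat_lit 272)) (XT.lf (nat_lit 0) (nat_lit 1689342800)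 (nat_lit 76) (nat_lit 3161869732) (nat_lit 152) (nat_lit 17221021051) (nat_lit 10) (nat_lit 5) (nat_lit 11) (nat_lit 5) (nat_lit 12) (nat_lit 4) (nat_lit 336) (nat_lit 293) (nat_lit 271))))))) (XT.nd (nat_lit 624) (nat_lit 228) (nat_lit 0) (XT.nd (nat_lit 312) (nat_lit 152) (nat_lit 0) (XT.nd (nat_lit 156) (nat_lit 76) (nat_lit 0) (XT.nd (nat_lit 78) (nat_lit 0) (nat_lit 0) (XT.lf (nat_lit 0) (nat_lit 9481122144) (nat_lit 152) (nat_lit 12381021145) (nat_lit 0) (nat_lit 1572373646) (nat_lit 10) (nat_lit 5) (nat_lit 12) (nat_lit 4) (nat_lit 10) (nat_lit 4) (nat_lit 337) (nat_lit 293) (nat_lit 270)) (XT.lf (nat_lit 0) (nat_lit 14464990475) (nat_lit 152) (nat_lit 4006184302) (nat_lit 0) (nat_lit 6435983824) (nat_lit 10) (nat_lit 5) (nat_lit 12) (nat_lit 4) (nat_lit 10) (nat_lit 4) (nat_lit 338) (nat_lit 293) (nat_lit 269))) (XT.nd (nat_lit 78) (nat_lit 0) (nat_lit 0) (XT.lf (nat_lit 0) (nat_lit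 5123594393) (nat_lit 76) (nat_lit 14755936692) (nat_lit 76) (nat_lit 6615579900) (nat_lit 9) (nat_lit 4) (nat_lit 10) (nat_lit 5) (nat_lit 10) (nat_lit 4) (nat_lit 339) (nat_lit 293) (nat_lit 268)) (XT.lf (nat_lit 0) (nat_lit 15044580525) (nat_lit 76) (nat_lit 10703674228) (nat_lit 76) (nat_lit 2460215452) (nat_lit 9) (nat_lit 4) (nat_lit 10) (nat_lit 5) (nat_lit 10) (nat_lit 4) (nat_lit 340) (nat_lit 293) (nat_lit 267)))) (XT.nd (nat_lit 156) (nat_lit 0) (nat_lit 0) (XT.nd (nat_lit 78) (nat_lit 76) (nat_lit 0) (XT.lf (nat_lit 0) (nat_lit 1842016115) (nat_lit 152) (nat_lit 4507530055) (nat_lit 76) (nat_lit 23712226456) (nat_lit 8) (nat_lit 5) (nat_lit 10) (nat_lit 5) (nat_lit 9) (nat_lit 4) (nat_lit 341) (nat_lit 293) (nat_lit 266)) (XT.lf (nat_lit 0) (nat_lit 4873922054) (nat_lit 76) (nat_lit 1520904369) (nat_lit 152) (nat_lit 25660296882) (nat_lit 7) (nat_lit 5) (nat_lit 8) (nat_lit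 5) (nat_lit 9) (nat_lit 4) (nat_lit 342) (nat_lit 293) (nat_lit 265))) (XT.nd (nat_lit 78) (nat_lit 0) (nat_lit 0) (XT.lf (nat_lit 0) (nat_lit 11449927131) (nat_lit 152) (nat_lit 19175935170) (nat_lit 0) (nat_lit 3571072884) (nat_lit 7) (nat_lit 5) (nat_lit 9) (nat_lit 4) (nat_lit 7) (nat_lit 4) (nat_lit 343) (nat_lit 293) (nat_lit 264)) (XT.lf (nat_lit 0) (nat_lit 16877439065) (nat_lit 152) (nat_lit 10706832903) (nat_lit 0) (nat_lit 8928415341) (nat_lit 7) (nat_lit 5) (nat_lit 9) (nat_lit 4) (nat_lit 7) (nat_lit 4) (nat_lit 344) (nat_lit 293) (nat_lit 263))))) (XT.nd (nat_lit 312) (nat_lit 152) (nat_lit 0) (XT.nd (nat_lit 156) (nat_lit 0) (nat_lit 0) (XT.nd (nat_lit 78) (nat_lit 76) (nat_lit 0) (XT.lf (nat_lit 0) (nat_lit 22672947473) (nat_lit 152) (nat_lit 1687129392) (nat_lit 0) (nat_lit 14658952010) (nat_lit 7) (nat_lit 5) (nat_lit 9) (nat_lit 4) (nat_lit 7) (nat_lit 4) (nat_lit 345)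 (nat_lit 293) (nat_lit 262)) (XT.lf (nat_lit 0) (nat_lit 8354554089) (nat_lit 76) (nat_lit 20717169245) (nat_lit 76) (nat_lit 12643014766) (nat_lit 6) (nat_lit 4) (nat_lit 7) (nat_lit 5) (nat_lit 7) (nat_lit 4) (nat_lit 346) (nat_lit 293) (nat_lit 261))) (XT.nd (nat_lit 78) (nat_lit 0) (nat_lit 0) (XT.lf (nat_lit 0) (nat_lit 19180971166) (nat_lit 76) (nat_lit 16788044613) (nat_lit 76) (nat_lit 8658187340) (nat_lit 6) (nat_lit 4) (nat_lit 7) (nat_lit 5) (nat_lit 7) (nat_lit 4) (nat_lit 347) (nat_lit 293) (nat_lit 260)) (XT.lf (nat_lit 0) (nat_lit 30767437140) (nat_lit 76) (nat_lit 12595548375) (nat_lit 76) (nat_lit 4414114442) (nat_lit 6) (nat_lit 4) (nat_lit 7) (nat_lit 5) (nat_lit 7) (nat_lit 4) (nat_lit 348) (nat_lit 293) (nat_lit 259)))) (XT.nd (nat_lit 156) (nat_lit 0) (nat_lit 0) (XT.nd (nat_lit 78) (nat_lit 76) (nat_lit 0) (XT.lf (nat_lit 0) (nat_lit 108633541) (nat_lit 152) (nat_lit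 8003232334) (nat_lit 76) (nat_lit 43071008775) (nat_lit 5) (nat_lit 5) (nat_lit 7) (nat_lit 5) (nat_lit 6) (nat_lit 4) (nat_lit 349) (nat_lit 293) (nat_lit 258)) (XT.lf (nat_lit 0) (nat_lit 1595359102) (nat_lit 76) (nat_lit 3149240838) (nat_lit 152) (nat_lit 50108169903) (nat_lit 4) (nat_lit 5) (nat_lit 5) (nat_lit 5) (nat_lit 6) (nat_lit 4) (nat_lit 350) (nat_lit 293) (nat_lit 257))) (XT.nd (nat_lit 78) (nat_lit 0) (nat_lit 0) (XT.lf (nat_lit 0) (nat_lit 9980957740) (nat_lit 152) (nat_lit 46534473314) (nat_lit 0) (nat_lit 2282483674) (nat_lit 4) (nat_lit 5) (nat_lit 6) (nat_lit 4) (nat_lit 4) (nat_lit 4) (nat_lit 351) (nat_lit 293) (nat_lit 256)) (XT.nd (nat_lit 78) (nat_lit 0) (nat_lit 0) (XT.lf (nat_lit 0) (nat_lit 15673437252) (nat_lit 152) (nat_lit 39442413709) (nat_lit 0) (nat_lit 7939860978) (nat_lit 4) (nat_lit 5) (nat_lit 6) (nat_lit 4) (nat_lit 4) (nat_lit 4) (nat_lit 352) (nat_lit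 293) (nat_lit 255)) (XT.lf (nat_lit 0) (nat_lit 21780032372) (nat_lit 152) (nat_lit 31863465588) (nat_lit 0) (nat_lit 14013954053) (nat_lit 4) (nat_lit 5) (nat_lit 6) (nat_lit 4) (nat_lit 4) (nat_lit 4) (nat_lit 353) (nat_lit 293) (nat_lit 254))))))))
noncomputable def xc75 : XT := (XT.nd (nat_lit 1326) (nat_lit 0) (nat_lit 0) (XT.nd (nat_lit 624) (nat_lit 152) (nat_lit 0) (XT.nd (nat_lit 312) (nat_lit 0) (nat_lit 0) (XT.nd (nat_lit 156) (nat_lit 76) (nat_lit 0) (XT.nd (nat_lit 78) (nat_lit 0) (nat_lit 0) (XT.lf (nat_lit 0) (nat_lit 28336930329) (nat_lit 152) (nat_lit 23752716666) (nat_lit 0) (nat_lit 20540757524) (nat_lit 4) (nat_lit 5) (nat_lit 6) (nat_lit 4) (nat_lit 4) (nat_lit 4) (nat_lit 354) (nat_lit 293) (nat_lit 253)) (XT.lf (nat_lit 0) (nat_lit 35382986816) (nat_lit 152) (nat_lit 15062103245) (nat_lit 0) (nat_lit 27558948746) (nat_lit 4) (nat_lit 5) (nat_lit 6) (nat_lit 4) (nat_lit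 4) (nat_lit 4) (nat_lit 355) (nat_lit 293) (nat_lit 252))) (XT.nd (nat_lit 78) (nat_lit 76) (nat_lit 0) (XT.lf (nat_lit 0) (nat_lit 42959956241) (nat_lit 152) (nat_lit 5740125394) (nat_lit 0) (nat_lit 35110117000) (nat_lit 4) (nat_lit 5) (nat_lit 6) (nat_lit 4) (nat_lit 4) (nat_lit 4) (nat_lit 356) (nat_lit 293) (nat_lit 251)) (XT.lf (nat_lit 0) (nat_lit 4493227682) (nat_lit 76) (nat_lit 46727573715) (nat_lit 76) (nat_lit 38853844501) (nat_lit 3) (nat_lit 4) (nat_lit 4) (nat_lit 5) (nat_lit 4) (nat_lit 4) (nat_lit 357) (nat_lit 293) (nat_lit 250)))) (XT.nd (nat_lit 156) (nat_lit 0) (nat_lit 0) (XT.nd (nat_lit 78) (nat_lit 0) (nat_lit 0) (XT.lf (nat_lit 0) (nat_lit 15814040104) (nat_lit 76) (nat_lit 44455936311) (nat_lit 76) (nat_lit 36560086751) (nat_lit 3) (nat_lit 4) (nat_lit 4) (nat_lit 5) (nat_lit 4) (nat_lit 4) (nat_lit 358) (nat_lit 293) (nat_lit 249)) (XT.lf (nat_lit 0) (nat_lit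 27987133338) (nat_lit 76) (nat_lit 42028653070) (nat_lit 76) (nat_lit 34112321708) (nat_lit 3) (nat_lit 4) (nat_lit 4) (nat_lit 5) (nat_lit 4) (nat_lit 4) (nat_lit 359) (nat_lit 293) (nat_lit 248))) (XT.nd (nat_lit 78) (nat_lit 0) (nat_lit 0) (XT.lf (nat_lit 0) (nat_lit 41084644232) (nat_lit 76) (nat_lit 39431340090) (nat_lit 76) (nat_lit 31496044097) (nat_lit 3) (nat_lit 4) (nat_lit 4) (nat_lit 5) (nat_lit 4) (nat_lit 4) (nat_lit 360) (nat_lit 293) (nat_lit 247)) (XT.lf (nat_lit 0) (nat_lit 55184187664) (nat_lit 76) (nat_lit 36648605887) (nat_lit 76) (nat_lit 28695750051) (nat_lit 3) (nat_lit 4) (nat_lit 4) (nat_lit 5) (nat_lit 4) (nat_lit 4) (nat_lit 361) (nat_lit 293) (nat_lit 246))))) (XT.nd (nat_lit 312) (nat_lit 152) (nat_lit 0) (XT.nd (nat_lit 156) (nat_lit 0) (nat_lit 0) (XT.nd (nat_lit 78) (nat_lit 0) (nat_lit 0) (XT.lf (nat_lit 0) (nat_lit 70369316485) (nat_lit 76) (nat_lit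 33663960185) (nat_lit 76) (nat_lit 25694845234) (nat_lit 3) (nat_lit 4) (nat_lit 4) (nat_lit 5) (nat_lit 4) (nat_lit 4) (nat_lit 362) (nat_lit 293) (nat_lit 245)) (XT.lf (nat_lit 0) (nat_lit 86730016644) (nat_lit 76) (nat_lit 30459716194) (nat_lit 76) (nat_lit 22475546508) (nat_lit 3) (nat_lit 4) (nat_lit 4) (nat_lit 5) (nat_lit 4) (nat_lit 4) (nat_lit 363) (nat_lit 293) (nat_lit 244))) (XT.nd (nat_lit 78) (nat_lit 0) (nat_lit 0) (XT.lf (nat_lit 0) (nat_lit 104363240438) (nat_lit 76) (nat_lit 27016885802) (nat_lit 76) (nat_lit 19018776546) (nat_lit 3) (nat_lit 4) (nat_lit 4) (nat_lit 5) (nat_lit 4) (nat_lit 4) (nat_lit 364) (nat_lit 293) (nat_lit 243)) (XT.lf (nat_lit 0) (nat_lit 123373481044) (nat_lit 76) (nat_lit 23315067051) (nat_lit 76) (nat_lit 15304050785) (nat_lit 3) (nat_lit 4) (nat_lit 4) (nat_lit 5) (nat_lit 4) (nat_lit 4) (nat_lit 365) (nat_lit 293) (nat_lit 242)))) (XT.nd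 (nat_lit 156) (nat_lit 152) (nat_lit 0) (XT.nd (nat_lit 78) (nat_lit 0) (nat_lit 0) (XT.lf (nat_lit 0) (nat_lit 143873391741) (nat_lit 76) (nat_lit 19332323237) (nat_lit 76) (nat_lit 11309356037) (nat_lit 3) (nat_lit 4) (nat_lit 4) (nat_lit 5) (nat_lit 4) (nat_lit 4) (nat_lit 366) (nat_lit 293) (nat_lit 241)) (XT.lf (nat_lit 0) (nat_lit 165984453481) (nat_lit 76) (nat_lit 15045052915) (nat_lit 76) (nat_lit 7011020035) (nat_lit 3) (nat_lit 4) (nat_lit 4) (nat_lit 5) (nat_lit 4) (nat_lit 4) (nat_lit 367) (nat_lit 293) (nat_lit 240))) (XT.nd (nat_lit 78) (nat_lit 152) (nat_lit 0) (XT.lf (nat_lit 0) (nat_lit 189837694777) (nat_lit 76) (nat_lit 10427850039) (nat_lit 76) (nat_lit 2383571158) (nat_lit 3) (nat_lit 4) (nat_lit 4) (nat_lit 5) (nat_lit 4) (nat_lit 4) (nat_lit 368) (nat_lit 293) (nat_lit 239)) (XT.nd (nat_lit 78) (nat_lit 76) (nat_lit 0) (XT.lf (nat_lit 0) (nat_lit 2470329345) (nat_lit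 152) (nat_lit 2915480879) (nat_lit 76) (nat_lit 213036595644) (nat_lit 2) (nat_lit 5) (nat_lit 4) (nat_lit 5) (nat_lit 3) (nat_lit 4) (nat_lit 369) (nat_lit 293) (nat_lit 238)) (XT.lf (nat_lit 0) (nat_lit 7774169359) (nat_lit 152) (nat_lit 227354363573) (nat_lit 0) (nat_lit 308845089) (nat_lit 1) (nat_lit 5) (nat_lit 3) (nat_lit 4) (nat_lit 1) (nat_lit 4) (nat_lit 370) (nat_lit 293) (nat_lit 237))))))) (XT.nd (nat_lit 702) (nat_lit 0) (nat_lit 0) (XT.nd (nat_lit 312) (nat_lit 0) (nat_lit 0) (XT.nd (nat_lit 156) (nat_lit 0) (nat_lit 0) (XT.nd (nat_lit 78) (nat_lit 0) (nat_lit 0) (XT.lf (nat_lit 0) (nat_lit 13712043952) (nat_lit 152) (nat_lit 233845541052) (nat_lit 0) (nat_lit 6239188567) (nat_lit 1) (nat_lit 5) (nat_lit 3) (nat_lit 4) (nat_lit 1) (nat_lit 4) (nat_lit 371) (nat_lit 293) (nat_lit 236)) (XT.lf (nat_lit 0) (nat_lit 20113884888) (nat_lit 152) (nat_lit 240877868251) (nat_lit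 0) (nat_lit 12634056247) (nat_lit 1) (nat_lit 5) (nat_lit 3) (nat_lit 4) (nat_lit 1) (nat_lit 4) (nat_lit 372) (nat_lit 293) (nat_lit 235))) (XT.nd (nat_lit 78) (nat_lit 0) (nat_lit 0) (XT.lf (nat_lit 0) (nat_lit 27017629002) (nat_lit 152) (nat_lit 248493018221) (nat_lit 0) (nat_lit 19531343643) (nat_lit 1) (nat_lit 5) (nat_lit 3) (nat_lit 4) (nat_lit 1) (nat_lit 4) (nat_lit 373) (nat_lit 293) (nat_lit 234)) (XT.lf (nat_lit 0) (nat_lit 34464187371) (nat_lit 152) (nat_lit 256736117777) (nat_lit 0) (nat_lit 26971923569) (nat_lit 1) (nat_lit 5) (nat_lit 3) (nat_lit 4) (nat_lit 1) (nat_lit 4) (nat_lit 374) (nat_lit 293) (nat_lit 233)))) (XT.nd (nat_lit 156) (nat_lit 0) (nat_lit 0) (XT.nd (nat_lit 78) (nat_lit 0) (nat_lit 0) (XT.lf (nat_lit 0) (nat_lit 42497687746) (nat_lit 152) (nat_lit 265656014915) (nat_lit 0) (nat_lit 34999888350) (nat_lit 1) (nat_lit 5) (nat_lit 3) (nat_lit 4) (nat_lit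 1) (nat_lit 4) (nat_lit 375) (nat_lit 293) (nat_lit 232)) (XT.lf (nat_lit 0) (nat_lit 51165736058) (nat_lit 152) (nat_lit 275305568285) (nat_lit 0) (nat_lit 43662811110) (nat_lit 1) (nat_lit 5) (nat_lit 3) (nat_lit 4) (nat_lit 1) (nat_lit 4) (nat_lit 376) (nat_lit 293) (nat_lit 231))) (XT.nd (nat_lit 78) (nat_lit 0) (nat_lit 0) (XT.lf (nat_lit 0) (nat_lit 60519698517) (nat_lit 152) (nat_lit 285741960427) (nat_lit 0) (nat_lit 53012027688) (nat_lit 1) (nat_lit 5) (nat_lit 3) (nat_lit 4) (nat_lit 1) (nat_lit 4) (nat_lit 377) (nat_lit 293) (nat_lit 230)) (XT.nd (nat_lit 78) (nat_lit 0) (nat_lit 0) (XT.lf (nat_lit 0) (nat_lit 70615006012) (nat_lit 152) (nat_lit 297027036625) (nat_lit 0) (nat_lit 63102940850) (nat_lit 1) (nat_lit 5) (nat_lit 3) (nat_lit 4) (nat_lit 1) (nat_lit 4) (nat_lit 378) (nat_lit 293) (nat_lit 229)) (XT.lf (nat_lit 0) (nat_lit 81511482589) (nat_lit 152) (nat_lit 309227671408)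 (nat_lit 0) (nat_lit 73995348599) (nat_lit 1) (nat_lit 5) (nat_lit 3) (nat_lit 4) (nat_lit 1) (nat_lit 4) (nat_lit 379) (nat_lit 293) (nat_lit 228)))))) (XT.nd (nat_lit 312) (nat_lit 0) (nat_lit 0) (XT.nd (nat_lit 156) (nat_lit 0) (nat_lit 0) (XT.nd (nat_lit 78) (nat_lit 0) (nat_lit 0) (XT.lf (nat_lit 0) (nat_lit 93273699959) (nat_lit 152) (nat_lit 322416164831) (nat_lit 0) (nat_lit 85753798537) (nat_lit 1) (nat_lit 5) (nat_lit 3) (nat_lit 4) (nat_lit 1) (nat_lit 4) (nat_lit 380) (nat_lit 293) (nat_lit 227)) (XT.lf (nat_lit 0) (nat_lit 105971360152) (nat_lit 152) (nat_lit 336670670931) (nat_lit 0) (nat_lit 98447970366) (nat_lit 1) (nat_lit 5) (nat_lit 3) (nat_lit 4) (nat_lit 1) (nat_lit 4) (nat_lit 381) (nat_lit 293) (nat_lit 226))) (XT.nd (nat_lit 78) (nat_lit 0) (nat_lit 0) (XT.lf (nat_lit 0) (nat_lit 119679708562) (nat_lit 152) (nat_lit 352075660854) (nat_lit 0) (nat_lit 112153088809)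 (nat_lit 1) (nat_lit 5) (nat_lit 3) (nat_lit 4) (nat_lit 1) (nat_lit 4) (nat_lit 382) (nat_lit 293) (nat_lit 225)) (XT.lf (nat_lit 0) (nat_lit 134479979846) (nat_lit 152) (nat_lit 368722423430) (nat_lit 0) (nat_lit 126950369383) (nat_lit 1) (nat_lit 5) (nat_lit 3) (nat_lit 4) (nat_lit 1) (nat_lit 4) (nat_lit 383) (nat_lit 293) (nat_lit 224)))) (XT.nd (nat_lit 156) (nat_lit 0) (nat_lit 0) (XT.nd (nat_lit 78) (nat_lit 0) (nat_lit 0) (XT.lf (nat_lit 0) (nat_lit 150459879314) (nat_lit 152) (nat_lit 386709606141) (nat_lit 0) (nat_lit 142927499676) (nat_lit 1) (nat_lit 5) (nat_lit 3) (nat_lit 4) (nat_lit 1) (nat_lit 4) (nat_lit 384) (nat_lit 293) (nat_lit 223)) (XT.lf (nat_lit 0) (nat_lit 167714102668) (nat_lit 152) (nat_lit 406143799698) (nat_lit 0) (nat_lit 160179158978) (nat_lit 1) (nat_lit 5) (nat_lit 3) (nat_lit 4) (nat_lit 1) (nat_lit 4) (nat_lit 385) (nat_lit 293) (nat_lit 222))) (XT.nd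 (nat_lit 78) (nat_lit 0) (nat_lit 0) (XT.lf (nat_lit 0) (nat_lit 186344897158) (nat_lit 152) (nat_lit 427140169695) (nat_lit 0) (nat_lit 178807579346) (nat_lit 1) (nat_lit 5) (nat_lit 3) (nat_lit 4) (nat_lit 1) (nat_lit 4) (nat_lit 386) (nat_lit 293) (nat_lit 221)) (XT.nd (nat_lit 78) (nat_lit 0) (nat_lit 0) (XT.lf (nat_lit 0) (nat_lit 206462667490) (nat_lit 152) (nat_lit 449823139063) (nat_lit 0) (nat_lit 198923151417) (nat_lit 1) (nat_lit 5) (nat_lit 3) (nat_lit 4) (nat_lit 1) (nat_lit 4) (nat_lit 387) (nat_lit 293) (nat_lit 220)) (XT.lf (nat_lit 0) (nat_lit 228186630083) (nat_lit 152) (nat_lit 474327125399) (nat_lit 0) (nat_lit 220645078583) (nat_lit 1) (nat_lit 5) (nat_lit 3) (nat_lit 4) (nat_lit 1) (nat_lit 4) (nat_lit 388) (nat_lit 293) (nat_lit 219))))))))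
noncomputable def xc76 : XT := (XT.nd (nat_lit 1326) (nat_lit 0) (nat_lit 0) (XT.nd (nat_lit 624) (nat_lit 0) (nat_lit 0) (XT.nd (nat_lit 312) (nat_lit 0) (nat_lit 0) (XT.nd (nat_lit 156) (nat_lit 0) (nat_lit 0) (XT.nd (nat_lit 78) (nat_lit 0) (nat_lit 0) (XT.lf (nat_lit 0) (nat_lit 251645519528) (nat_lit 152) (nat_lit 500797337511) (nat_lit 0) (nat_lit 244102083374) (nat_lit 1) (nat_lit 5) (nat_lit 3) (nat_lit 4) (nat_lit 1) (nat_lit 4) (nat_lit 389) (nat_lit 293) (nat_lit 218)) (XT.lf (nat_lit 0) (nat_lit 276978351468) (nat_lit 152) (nat_lit 529390635915) (nat_lit 0) (nat_lit 269433170264) (nat_lit 1) (nat_lit 5) (nat_lit 3) (nat_lit 4) (nat_lit 1) (nat_lit 4) (nat_lit 390) (nat_lit 293) (nat_lit 217))) (XT.nd (nat_lit 78) (nat_lit 0) (nat_lit 0) (XT.lf (nat_lit 0) (nat_lit 304335246388) (nat_lit 152) (nat_lit 560276462380) (nat_lit 0) (nat_lit 296788449396) (nat_lit 1) (nat_lit 5)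 (nat_lit 3) (nat_lit 4) (nat_lit 1) (nat_lit 4) (nat_lit 391) (nat_lit 293) (nat_lit 216)) (XT.lf (nat_lit 0) (nat_lit 333878319221) (nat_lit 152) (nat_lit 593637844025) (nat_lit 0) (nat_lit 326330026130) (nat_lit 1) (nat_lit 5) (nat_lit 3) (nat_lit 4) (nat_lit 1) (nat_lit 4) (nat_lit 392) (nat_lit 293) (nat_lit 215)))) (XT.nd (nat_lit 156) (nat_lit 0) (nat_lit 0) (XT.nd (nat_lit 78) (nat_lit 0) (nat_lit 0) (XT.lf (nat_lit 0) (nat_lit 365782640028) (nat_lit 152) (nat_lit 629672477927) (nat_lit 0) (nat_lit 358232961659) (nat_lit 1) (nat_lit 5) (nat_lit 3) (nat_lit 4) (nat_lit 1) (nat_lit 4) (nat_lit 393) (nat_lit 293) (nat_lit 214)) (XT.lf (nat_lit 0) (nat_lit 400237271450) (nat_lit 152) (nat_lit 668593902657) (nat_lit 0) (nat_lit 392686310417) (nat_lit 1) (nat_lit 5) (nat_lit 3) (nat_lit 4) (nat_lit 1) (nat_lit 4) (nat_lit 394) (nat_lit 293) (nat_lit 213))) (XT.nd (nat_lit 78) (nat_lit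 0) (nat_lit 0) (XT.lf (nat_lit 0) (nat_lit 437446389082) (nat_lit 152) (nat_lit 710632763695) (nat_lit 0) (nat_lit 429894240397) (nat_lit 1) (nat_lit 5) (nat_lit 3) (nat_lit 4) (nat_lit 1) (nat_lit 4) (nat_lit 395) (nat_lit 293) (nat_lit 212)) (XT.lf (nat_lit 0) (nat_lit 477630491398) (nat_lit 152) (nat_lit 756038180217) (nat_lit 0) (nat_lit 470077243035) (nat_lit 1) (nat_lit 5) (nat_lit 3) (nat_lit 4) (nat_lit 1) (nat_lit 4) (nat_lit 396) (nat_lit 293) (nat_lit 211))))) (XT.nd (nat_lit 312) (nat_lit 0) (nat_lit 0) (XT.nd (nat_lit 156) (nat_lit 0) (nat_lit 0) (XT.nd (nat_lit 78) (nat_lit 0) (nat_lit 0) (XT.lf (nat_lit 0) (nat_lit 521027706412) (nat_lit 152) (nat_lit 805079221359) (nat_lit 0) (nat_lit 513473439829) (nat_lit 1) (nat_lit 5) (nat_lit 3) (nat_lit 4) (nat_lit 1) (nat_lit 4) (nat_lit 397) (nat_lit 293) (nat_lit 210)) (XT.lf (nat_lit 0) (nat_lit 567895202805) (nat_lit 152) (nat_lit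 858046500697) (nat_lit 0) (nat_lit 560339993426) (nat_lit 1) (nat_lit 5) (nat_lit 3) (nat_lit 4) (nat_lit 1) (nat_lit 4) (nat_lit 398) (nat_lit 293) (nat_lit 209))) (XT.nd (nat_lit 78) (nat_lit 0) (nat_lit 0) (XT.lf (nat_lit 0) (nat_lit 618510713890) (nat_lit 152) (nat_lit 915253898405) (nat_lit 0) (nat_lit 610954631552) (nat_lit 1) (nat_lit 5) (nat_lit 3) (nat_lit 4) (nat_lit 1) (nat_lit 4) (nat_lit 399) (nat_lit 293) (nat_lit 208)) (XT.lf (nat_lit 0) (nat_lit 673174183436) (nat_lit 152) (nat_lit 977040421285) (nat_lit 0) (nat_lit 665617292802) (nat_lit 1) (nat_lit 5) (nat_lit 3) (nat_lit 4) (nat_lit 1) (nat_lit 4) (nat_lit 400) (nat_lit 293) (nat_lit 207)))) (XT.nd (nat_lit 156) (nat_lit 0) (nat_lit 0) (XT.nd (nat_lit 78) (nat_lit 0) (nat_lit 0) (XT.lf (nat_lit 0) (nat_lit 732209543115) (nat_lit 152) (nat_lit 1043772211694) (nat_lit 0) (nat_lit 724651904058) (nat_lit 1) (nat_lit 5)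 (nat_lit 3) (nat_lit 4) (nat_lit 1) (nat_lit 4) (nat_lit 401) (nat_lit 293) (nat_lit 206)) (XT.lf (nat_lit 0) (nat_lit 795966632094) (nat_lit 152) (nat_lit 1115844717280) (nat_lit 0) (nat_lit 788408300053) (nat_lit 1) (nat_lit 5) (nat_lit 3) (nat_lit 4) (nat_lit 1) (nat_lit 4) (nat_lit 402) (nat_lit 293) (nat_lit 205))) (XT.nd (nat_lit 78) (nat_lit 0) (nat_lit 0) (XT.lf (nat_lit 0) (nat_lit 864823270160) (nat_lit 152) (nat_lit 1193685034371) (nat_lit 0) (nat_lit 857264296468) (nat_lit 1) (nat_lit 5) (nat_lit 3) (nat_lit 4) (nat_lit 1) (nat_lit 4) (nat_lit 403) (nat_lit 293) (nat_lit 204)) (XT.nd (nat_lit 78) (nat_lit 0) (nat_lit 0) (XT.lf (nat_lit 0) (nat_lit 939187496650) (nat_lit 152) (nat_lit 1277754438921) (nat_lit 0) (nat_lit 931627928837) (nat_lit 1) (nat_lit 5) (nat_lit 3) (nat_lit 4) (nat_lit 1) (nat_lit 4) (nat_lit 404) (nat_lit 293) (nat_lit 203)) (XT.lf (nat_lit 0) (nat_lit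 1019499988462) (nat_lit 152) (nat_lit 1368551119994) (nat_lit 0) (nat_lit 1011939870536) (nat_lit 1) (nat_lit 5) (nat_lit 3) (nat_lit 4) (nat_lit 1) (nat_lit 4) (nat_lit 405) (nat_lit 293) (nat_lit 202))))))) (XT.nd (nat_lit 39546) (nat_lit 0) (nat_lit 1900) (XT.nd (nat_lit 312) (nat_lit 0) (nat_lit 0) (XT.nd (nat_lit 156) (nat_lit 0) (nat_lit 0) (XT.nd (nat_lit 78) (nat_lit 0) (nat_lit 0) (XT.lf (nat_lit 0) (nat_lit 1106236671473) (nat_lit 152) (nat_lit 1466613131996) (nat_lit 0) (nat_lit 1098676044183) (nat_lit 1) (nat_lit 5) (nat_lit 3) (nat_lit 4) (nat_lit 1) (nat_lit 4) (nat_lit 406) (nat_lit 293) (nat_lit 201)) (XT.lf (nat_lit 0) (nat_lit 1199911540842) (nat_lit 152) (nat_lit 1572521583146) (nat_lit 0) (nat_lit 1192350441919) (nat_lit 1) (nat_lit 5) (nat_lit 3) (nat_lit 4) (nat_lit 1) (nat_lit 4) (nat_lit 407) (nat_lit 293) (nat_lit 200))) (XT.nd (nat_lit 78) (nat_lit 0) (nat_lit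 0) (XT.lf (nat_lit 0) (nat_lit 1301079706906) (nat_lit 152) (nat_lit 1686904079081) (nat_lit 0) (nat_lit 1293518171286) (nat_lit 1) (nat_lit 5) (nat_lit 3) (nat_lit 4) (nat_lit 1) (nat_lit 4) (nat_lit 408) (nat_lit 293) (nat_lit 199)) (XT.lf (nat_lit 0) (nat_lit 1410340684722) (nat_lit 152) (nat_lit 1810438441999) (nat_lit 0) (nat_lit 1402778744753) (nat_lit 1) (nat_lit 5) (nat_lit 3) (nat_lit 4) (nat_lit 1) (nat_lit 4) (nat_lit 409) (nat_lit 293) (nat_lit 198)))) (XT.nd (nat_lit 156) (nat_lit 0) (nat_lit 0) (XT.nd (nat_lit 78) (nat_lit 0) (nat_lit 0) (XT.lf (nat_lit 0) (nat_lit 1528341946752) (nat_lit 152) (nat_lit 1943856727384) (nat_lit 0) (nat_lit 1520779632385) (nat_lit 1) (nat_lit 5) (nat_lit 3) (nat_lit 4) (nat_lit 1) (nat_lit 4) (nat_lit 410) (nat_lit 293) (nat_lit 197)) (XT.lf (nat_lit 0) (nat_lit 1655782759734) (nat_lit 152) (nat_lit 2087949562113) (nat_lit 0) (nat_lit 1648220098703)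 (nat_lit 1) (nat_lit 5) (nat_lit 3) (nat_lit 4) (nat_lit 1) (nat_lit 4) (nat_lit 411) (nat_lit 293) (nat_lit 196))) (XT.nd (nat_lit 78) (nat_lit 0) (nat_lit 0) (XT.lf (nat_lit 0) (nat_lit 1793418328486) (nat_lit 152) (nat_lit 2243570829650) (nat_lit 0) (nat_lit 1785855346470) (nat_lit 1) (nat_lit 5) (nat_lit 3) (nat_lit 4) (nat_lit 1) (nat_lit 4) (nat_lit 412) (nat_lit 293) (nat_lit 195)) (XT.lf (nat_lit 0) (nat_lit 1942064271193) (nat_lit 152) (nat_lit 2411642730099) (nat_lit 0) (nat_lit 1934500991967) (nat_lit 1) (nat_lit 5) (nat_lit 3) (nat_lit 4) (nat_lit 1) (nat_lit 4) (nat_lit 413) (nat_lit 293) (nat_lit 194))))) (XT.nd (nat_lit 312) (nat_lit 760) (nat_lit 0) (XT.nd (nat_lit 156) (nat_lit 304) (nat_lit 0) (XT.nd (nat_lit 78) (nat_lit 304) (nat_lit 0) (XT.lf (nat_lit 0) (nat_lit 1441267157) (nat_lit 304) (nat_lit 1166014745) (nat_lit 304) (nat_lit 1166014745) (nat_lit 44) (nat_lit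 4) (nat_lit 48) (nat_lit 5) (nat_lit 48) (nat_lit 4) (nat_lit 312) (nat_lit 294) (nat_lit 294)) (XT.lf (nat_lit 0) (nat_lit 838181044) (nat_lit 228) (nat_lit 243386730) (nat_lit 304) (nat_lit 6670173796) (nat_lit 40) (nat_lit 5) (nat_lit 43) (nat_lit 5) (nat_lit 44) (nat_lit 4) (nat_lit 313) (nat_lit 294) (nat_lit 293))) (XT.nd (nat_lit 78) (nat_lit 304) (nat_lit 0) (XT.lf (nat_lit 0) (nat_lit 4574235768) (nat_lit 304) (nat_lit 1343081968) (nat_lit 0) (nat_lit 2057193375) (nat_lit 40) (nat_lit 5) (nat_lit 44) (nat_lit 4) (nat_lit 40) (nat_lit 4) (nat_lit 314) (nat_lit 294) (nat_lit 292)) (XT.lf (nat_lit 0) (nat_lit 9379333) (nat_lit 304) (nat_lit 3618011651) (nat_lit 76) (nat_lit 4597206089) (nat_lit 36) (nat_lit 5) (nat_lit 40) (nat_lit 5) (nat_lit 37) (nat_lit 4) (nat_lit 315) (nat_lit 294) (nat_lit 291)))) (XT.nd (nat_lit 156) (nat_lit 608) (nat_lit 0) (XT.nd (nat_lit 78) (nat_lit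 0) (nat_lit 0) (XT.lf (nat_lit 0) (nat_lit 2349823865) (nat_lit 152) (nat_lit 1027495564) (nat_lit 228) (nat_lit 5121254321) (nat_lit 34) (nat_lit 5) (nat_lit 36) (nat_lit 5) (nat_lit 37) (nat_lit 4) (nat_lit 316) (nat_lit 294) (nat_lit 290)) (XT.lf (nat_lit 0) (nat_lit 6942028593) (nat_lit 228) (nat_lit 134851251) (nat_lit 0) (nat_lit 1723852603) (nat_lit 34) (nat_lit 5) (nat_lit 37) (nat_lit 4) (nat_lit 34) (nat_lit 4) (nat_lit 317) (nat_lit 294) (nat_lit 289))) (XT.nd (nat_lit 78) (nat_lit 304) (nat_lit 0) (XT.lf (nat_lit 0) (nat_lit 1559630757) (nat_lit 304) (nat_lit 2797728995) (nat_lit 76) (nat_lit 4768642211) (nat_lit 30) (nat_lit 5) (nat_lit 34) (nat_lit 5) (nat_lit 31) (nat_lit 4) (nat_lit 318) (nat_lit 294) (nat_lit 288)) (XT.nd (nat_lit 78) (nat_lit 152) (nat_lit 0) (XT.lf (nat_lit 0) (nat_lit 3690438053) (nat_lit 152) (nat_lit 1355128153) (nat_lit 228) (nat_lit 4436658102)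 (nat_lit 28) (nat_lit 5) (nat_lit 30) (nat_lit 5) (nat_lit 31) (nat_lit 4) (nat_lit 319) (nat_lit 294) (nat_lit 287)) (XT.lf (nat_lit 0) (nat_lit 692060892) (nat_lit 152) (nat_lit 8066722501) (nat_lit 152) (nat_lit 1112619694) (nat_lit 26) (nat_lit 4) (nat_lit 28) (nat_lit 5) (nat_lit 28) (nat_lit 4) (nat_lit 320) (nat_lit 294) (nat_lit 286))))))))
noncomputable def xc77 : XT := (XT.nd (nat_lit 1326) (nat_lit 456) (nat_lit 0) (XT.nd (nat_lit 624) (nat_lit 456) (nat_lit 0) (XT.nd (nat_lit 312) (nat_lit 380) (nat_lit 0) (XT.nd (nat_lit 156) (nat_lit 228) (nat_lit 0) (XT.nd (nat_lit 78) (nat_lit 76) (nat_lit 0) (XT.lf (nat_lit 0) (nat_lit 2361293151) (nat_lit 228) (nat_lit 2647972597) (nat_lit 76) (nat_lit 5277337721) (nat_lit 25) (nat_lit 5) (nat_lit 28) (nat_lit 5) (nat_lit 26) (nat_lit 4) (nat_lit 321) (nat_lit 294) (nat_lit 285)) (XT.lf (nat_lit 0) (nat_lit 4320903270) (nat_lit 76) (nat_lit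 1660290826) (nat_lit 152) (nat_lit 4757521931) (nat_lit 24) (nat_lit 5) (nat_lit 25) (nat_lit 5) (nat_lit 26) (nat_lit 4) (nat_lit 322) (nat_lit 294) (nat_lit 284))) (XT.nd (nat_lit 78) (nat_lit 76) (nat_lit 0) (XT.lf (nat_lit 0) (nat_lit 474667364) (nat_lit 152) (nat_lit 9377360382) (nat_lit 152) (nat_lit 1378306037) (nat_lit 22) (nat_lit 4) (nat_lit 24) (nat_lit 5) (nat_lit 24) (nat_lit 4) (nat_lit 323) (nat_lit 294) (nat_lit 283)) (XT.lf (nat_lit 0) (nat_lit 2211077634) (nat_lit 228) (nat_lit 3844970202) (nat_lit 76) (nat_lit 5696796152) (nat_lit 21) (nat_lit 5) (nat_lit 24) (nat_lit 5) (nat_lit 22) (nat_lit 4) (nat_lit 324) (nat_lit 294) (nat_lit 282)))) (XT.nd (nat_lit 156) (nat_lit 304) (nat_lit 0) (XT.nd (nat_lit 78) (nat_lit 0) (nat_lit 0) (XT.lf (nat_lit 0) (nat_lit 3499552583) (nat_lit 76) (nat_lit 2440621359) (nat_lit 152) (nat_lit 6380148207) (nat_lit 20) (nat_lit 5) (nat_lit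 21) (nat_lit 5) (nat_lit 22) (nat_lit 4) (nat_lit 325) (nat_lit 294) (nat_lit 281)) (XT.lf (nat_lit 0) (nat_lit 9956704418) (nat_lit 152) (nat_lit 1574070166) (nat_lit 0) (nat_lit 1403474401) (nat_lit 20) (nat_lit 5) (nat_lit 22) (nat_lit 4) (nat_lit 20) (nat_lit 4) (nat_lit 326) (nat_lit 294) (nat_lit 280))) (XT.nd (nat_lit 78) (nat_lit 76) (nat_lit 0) (XT.lf (nat_lit 0) (nat_lit 735468330) (nat_lit 228) (nat_lit 7350512817) (nat_lit 76) (nat_lit 5504274198) (nat_lit 17) (nat_lit 5) (nat_lit 20) (nat_lit 5) (nat_lit 18) (nat_lit 4) (nat_lit 327) (nat_lit 294) (nat_lit 279)) (XT.lf (nat_lit 0) (nat_lit 158640358) (nat_lit 76) (nat_lit 4332589348) (nat_lit 152) (nat_lit 9808941672) (nat_lit 16) (nat_lit 5) (nat_lit 17) (nat_lit 5) (nat_lit 18) (nat_lit 4) (nat_lit 328) (nat_lit 294) (nat_lit 278))))) (XT.nd (nat_lit 312) (nat_lit 228) (nat_lit 0) (XT.nd (nat_lit 156) (nat_lit 152) (nat_lit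 0) (XT.nd (nat_lit 78) (nat_lit 76) (nat_lit 0) (XT.lf (nat_lit 0) (nat_lit 8449007447) (nat_lit 76) (nat_lit 162782686) (nat_lit 152) (nat_lit 6450075035) (nat_lit 16) (nat_lit 5) (nat_lit 17) (nat_lit 5) (nat_lit 18) (nat_lit 4) (nat_lit 329) (nat_lit 294) (nat_lit 277)) (XT.lf (nat_lit 0) (nat_lit 1248209911) (nat_lit 76) (nat_lit 11819432991) (nat_lit 76) (nat_lit 2816521541) (nat_lit 15) (nat_lit 4) (nat_lit 16) (nat_lit 5) (nat_lit 16) (nat_lit 4) (nat_lit 330) (nat_lit 294) (nat_lit 276))) (XT.nd (nat_lit 78) (nat_lit 76) (nat_lit 0) (XT.lf (nat_lit 0) (nat_lit 1114123730) (nat_lit 152) (nat_lit 6908123539) (nat_lit 76) (nat_lit 8743027955) (nat_lit 14) (nat_lit 5) (nat_lit 16) (nat_lit 5) (nat_lit 15) (nat_lit 4) (nat_lit 331) (nat_lit 294) (nat_lit 275)) (XT.lf (nat_lit 0) (nat_lit 1213424731) (nat_lit 76) (nat_lit 3904376697) (nat_lit 152) (nat_lit 12600457911) (nat_lit 13)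 (nat_lit 5) (nat_lit 14) (nat_lit 5) (nat_lit 15) (nat_lit 4) (nat_lit 332) (nat_lit 294) (nat_lit 274)))) (XT.nd (nat_lit 156) (nat_lit 228) (nat_lit 0) (XT.nd (nat_lit 78) (nat_lit 0) (nat_lit 0) (XT.lf (nat_lit 0) (nat_lit 9531768726) (nat_lit 152) (nat_lit 8586498333) (nat_lit 0) (nat_lit 622105007) (nat_lit 13) (nat_lit 5) (nat_lit 15) (nat_lit 4) (nat_lit 13) (nat_lit 4) (nat_lit 333) (nat_lit 294) (nat_lit 273)) (XT.lf (nat_lit 0) (nat_lit 14292072954) (nat_lit 152) (nat_lit 334006832) (nat_lit 0) (nat_lit 5218799345) (nat_lit 13) (nat_lit 5) (nat_lit 15) (nat_lit 4) (nat_lit 13) (nat_lit 4) (nat_lit 334) (nat_lit 294) (nat_lit 272))) (XT.nd (nat_lit 78) (nat_lit 152) (nat_lit 0) (XT.lf (nat_lit 0) (nat_lit 8837533098) (nat_lit 76) (nat_lit 10708032754) (nat_lit 76) (nat_lit 1483268506) (nat_lit 12) (nat_lit 4) (nat_lit 13) (nat_lit 5) (nat_lit 13) (nat_lit 4) (nat_lit 335) (nat_lit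 294) (nat_lit 271)) (XT.nd (nat_lit 78) (nat_lit 76) (nat_lit 0) (XT.lf (nat_lit 0) (nat_lit 2675898434) (nat_lit 152) (nat_lit 3799164612) (nat_lit 76) (nat_lit 15834128148) (nat_lit 11) (nat_lit 5) (nat_lit 13) (nat_lit 5) (nat_lit 12) (nat_lit 4) (nat_lit 336) (nat_lit 294) (nat_lit 270)) (XT.lf (nat_lit 0) (nat_lit 5321740949) (nat_lit 76) (nat_lit 1801649970) (nat_lit 152) (nat_lit 16562706289) (nat_lit 10) (nat_lit 5) (nat_lit 11) (nat_lit 5) (nat_lit 12) (nat_lit 4) (nat_lit 337) (nat_lit 294) (nat_lit 269))))))) (XT.nd (nat_lit 702) (nat_lit 152) (nat_lit 0) (XT.nd (nat_lit 312) (nat_lit 228) (nat_lit 0) (XT.nd (nat_lit 156) (nat_lit 76) (nat_lit 0) (XT.nd (nat_lit 78) (nat_lit 0) (nat_lit 0) (XT.lf (nat_lit 0) (nat_lit 12020054643) (nat_lit 152) (nat_lit 10028568554) (nat_lit 0) (nat_lit 3117119165) (nat_lit 10) (nat_lit 5) (nat_lit 12) (nat_lit 4) (nat_lit 10) (nat_lit 4) (nat_lit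 338) (nat_lit 294) (nat_lit 268)) (XT.lf (nat_lit 0) (nat_lit 17270747794) (nat_lit 152) (nat_lit 1231369526) (nat_lit 0) (nat_lit 8264710333) (nat_lit 10) (nat_lit 5) (nat_lit 12) (nat_lit 4) (nat_lit 10) (nat_lit 4) (nat_lit 339) (nat_lit 294) (nat_lit 267))) (XT.nd (nat_lit 78) (nat_lit 0) (nat_lit 0) (XT.lf (nat_lit 0) (nat_lit 8550429199) (nat_lit 76) (nat_lit 14518464695) (nat_lit 76) (nat_lit 5416962434) (nat_lit 9) (nat_lit 4) (nat_lit 10) (nat_lit 5) (nat_lit 10) (nat_lit 4) (nat_lit 340) (nat_lit 294) (nat_lit 266)) (XT.lf (nat_lit 0) (nat_lit 19041616647) (nat_lit 76) (nat_lit 10247054339) (nat_lit 76) (nat_lit 1057158745) (nat_lit 9) (nat_lit 4) (nat_lit 10) (nat_lit 5) (nat_lit 10) (nat_lit 4) (nat_lit 341) (nat_lit 294) (nat_lit 265)))) (XT.nd (nat_lit 156) (nat_lit 76) (nat_lit 0) (XT.nd (nat_lit 78) (nat_lit 76) (nat_lit 0) (XT.lf (nat_lit 0) (nat_lit 3396638301) (nat_lit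 152) (nat_lit 2206733605) (nat_lit 76) (nat_lit 26750012669) (nat_lit 8) (nat_lit 5) (nat_lit 10) (nat_lit 5) (nat_lit 9) (nat_lit 4) (nat_lit 342) (nat_lit 294) (nat_lit 264)) (XT.lf (nat_lit 0) (nat_lit 7857857487) (nat_lit 76) (nat_lit 413960683) (nat_lit 152) (nat_lit 26237789042) (nat_lit 7) (nat_lit 5) (nat_lit 8) (nat_lit 5) (nat_lit 9) (nat_lit 4) (nat_lit 343) (nat_lit 294) (nat_lit 263))) (XT.nd (nat_lit 78) (nat_lit 76) (nat_lit 0) (XT.lf (nat_lit 0) (nat_lit 13657545262) (nat_lit 152) (nat_lit 18233714260) (nat_lit 0) (nat_lit 4937458424) (nat_lit 7) (nat_lit 5) (nat_lit 9) (nat_lit 4) (nat_lit 7) (nat_lit 4) (nat_lit 344) (nat_lit 294) (nat_lit 262)) (XT.nd (nat_lit 78) (nat_lit 76) (nat_lit 0) (XT.lf (nat_lit 0) (nat_lit 19423582302) (nat_lit 152) (nat_lit 9270513125) (nat_lit 0) (nat_lit 10643336447) (nat_lit 7) (nat_lit 5) (nat_lit 9) (nat_lit 4) (nat_lit 7) (nat_lit 4)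 (nat_lit 345) (nat_lit 294) (nat_lit 261)) (XT.lf (nat_lit 0) (nat_lit 316770872) (nat_lit 76) (nat_lit 25284990108) (nat_lit 76) (nat_lit 16449041460) (nat_lit 6) (nat_lit 4) (nat_lit 7) (nat_lit 5) (nat_lit 7) (nat_lit 4) (nat_lit 346) (nat_lit 294) (nat_lit 260)))))) (XT.nd (nat_lit 312) (nat_lit 76) (nat_lit 0) (XT.nd (nat_lit 156) (nat_lit 76) (nat_lit 0) (XT.nd (nat_lit 78) (nat_lit 0) (nat_lit 0) (XT.lf (nat_lit 0) (nat_lit 11092195415) (nat_lit 76) (nat_lit 21380364690) (nat_lit 76) (nat_lit 12492839381) (nat_lit 6) (nat_lit 4) (nat_lit 7) (nat_lit 5) (nat_lit 7) (nat_lit 4) (nat_lit 347) (nat_lit 294) (nat_lit 259)) (XT.lf (nat_lit 0) (nat_lit 22631446081) (nat_lit 76) (nat_lit 17210552909) (nat_lit 76) (nat_lit 8275271433) (nat_lit 6) (nat_lit 4) (nat_lit 7) (nat_lit 5) (nat_lit 7) (nat_lit 4) (nat_lit 348) (nat_lit 294) (nat_lit 258))) (XT.nd (nat_lit 78) (nat_lit 76) (nat_lit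 0) (XT.lf (nat_lit 0) (nat_lit 35002903613) (nat_lit 76) (nat_lit 12750844770) (nat_lit 76) (nat_lit 3771344620) (nat_lit 6) (nat_lit 4) (nat_lit 7) (nat_lit 5) (nat_lit 7) (nat_lit 4) (nat_lit 349) (nat_lit 294) (nat_lit 257)) (XT.lf (nat_lit 0) (nat_lit 993324295) (nat_lit 152) (nat_lit 6954328831) (nat_lit 76) (nat_lit 47259396810) (nat_lit 5) (nat_lit 5) (nat_lit 7) (nat_lit 5) (nat_lit 6) (nat_lit 4) (nat_lit 350) (nat_lit 294) (nat_lit 256)))) (XT.nd (nat_lit 156) (nat_lit 0) (nat_lit 0) (XT.nd (nat_lit 78) (nat_lit 0) (nat_lit 0) (XT.lf (nat_lit 0) (nat_lit 3369386324) (nat_lit 76) (nat_lit 2605488712) (nat_lit 152) (nat_lit 53197712900) (nat_lit 4) (nat_lit 5) (nat_lit 5) (nat_lit 5) (nat_lit 6) (nat_lit 4) (nat_lit 351) (nat_lit 294) (nat_lit 255)) (XT.lf (nat_lit 0) (nat_lit 11584845004) (nat_lit 152) (nat_lit 48687170447) (nat_lit 0) (nat_lit 3164978375) (nat_lit 4) (nat_lit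 5) (nat_lit 6) (nat_lit 4) (nat_lit 4) (nat_lit 4) (nat_lit 352) (nat_lit 294) (nat_lit 254))) (XT.nd (nat_lit 78) (nat_lit 0) (nat_lit 0) (XT.lf (nat_lit 0) (nat_lit 17673062830) (nat_lit 152) (nat_lit 41144046868) (nat_lit 0) (nat_lit 9223101714) (nat_lit 4) (nat_lit 5) (nat_lit 6) (nat_lit 4) (nat_lit 4) (nat_lit 4) (nat_lit 353) (nat_lit 294) (nat_lit 253)) (XT.nd (nat_lit 78) (nat_lit 0) (nat_lit 0) (XT.lf (nat_lit 0) (nat_lit 24212944774) (nat_lit 152) (nat_lit 33066468819) (nat_lit 0) (nat_lit 15735118394) (nat_lit 4) (nat_lit 5) (nat_lit 6) (nat_lit 4) (nat_lit 4) (nat_lit 4) (nat_lit 354) (nat_lit 294) (nat_lit 252)) (XT.lf (nat_lit 0) (nat_lit 31243245693) (nat_lit 152) (nat_lit 24406569169) (nat_lit 0) (nat_lit 22739618142) (nat_lit 4) (nat_lit 5) (nat_lit 6) (nat_lit 4) (nat_lit 4) (nat_lit 4) (nat_lit 355) (nat_lit 294) (nat_lit 251))))))))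
noncomputable def xc78 : XT := (XT.nd (nat_lit 1326) (nat_lit 0) (nat_lit 0) (XT.nd (nat_lit 624) (nat_lit 152) (nat_lit 0) (XT.nd (nat_lit 312) (nat_lit 0) (nat_lit 0) (XT.nd (nat_lit 156) (nat_lit 76) (nat_lit 0) (XT.nd (nat_lit 78) (nat_lit 0) (nat_lit 0) (XT.lf (nat_lit 0) (nat_lit 38805626630) (nat_lit 152) (nat_lit 15113029996) (nat_lit 0) (nat_lit 30278109105) (nat_lit 4) (nat_lit 5) (nat_lit 6) (nat_lit 4) (nat_lit 4) (nat_lit 4) (nat_lit 356) (nat_lit 294) (nat_lit 250)) (XT.lf (nat_lit 0) (nat_lit 46944901692) (nat_lit 152) (nat_lit 5130778473) (nat_lit 0) (nat_lit 38395263822) (nat_lit 4) (nat_lit 5) (nat_lit 6) (nat_lit 4) (nat_lit 4) (nat_lit 4) (nat_lit 357) (nat_lit 294) (nat_lit 249))) (XT.nd (nat_lit 78) (nat_lit 0) (nat_lit 0) (XT.lf (nat_lit 0) (nat_lit 5894190774) (nat_lit 76) (nat_lit 49956868278) (nat_lit 76) (nat_lit 41386748606) (nat_lit 3) (nat_lit 4) (nat_lit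 4) (nat_lit 5) (nat_lit 4) (nat_lit 4) (nat_lit 358) (nat_lit 294) (nat_lit 248)) (XT.lf (nat_lit 0) (nat_lit 18043519681) (nat_lit 76) (nat_lit 47541197018) (nat_lit 76) (nat_lit 38952112714) (nat_lit 3) (nat_lit 4) (nat_lit 4) (nat_lit 5) (nat_lit 4) (nat_lit 4) (nat_lit 359) (nat_lit 294) (nat_lit 247)))) (XT.nd (nat_lit 156) (nat_lit 0) (nat_lit 0) (XT.nd (nat_lit 78) (nat_lit 0) (nat_lit 0) (XT.lf (nat_lit 0) (nat_lit 31119026569) (nat_lit 76) (nat_lit 44954635872) (nat_lit 76) (nat_lit 36347991725) (nat_lit 3) (nat_lit 4) (nat_lit 4) (nat_lit 5) (nat_lit 4) (nat_lit 4) (nat_lit 360) (nat_lit 294) (nat_lit 246)) (XT.lf (nat_lit 0) (nat_lit 45198195921) (nat_lit 76) (nat_lit 42181857072) (nat_lit 76) (nat_lit 33558953810) (nat_lit 3) (nat_lit 4) (nat_lit 4) (nat_lit 5) (nat_lit 4) (nat_lit 4) (nat_lit 361) (nat_lit 294) (nat_lit 245))) (XT.nd (nat_lit 78) (nat_lit 0) (nat_lit 0) (XT.lf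 (nat_lit 0) (nat_lit 60364459854) (nat_lit 76) (nat_lit 39206429335) (nat_lit 76) (nat_lit 30568471338) (nat_lit 3) (nat_lit 4) (nat_lit 4) (nat_lit 5) (nat_lit 4) (nat_lit 4) (nat_lit 362) (nat_lit 294) (nat_lit 244)) (XT.lf (nat_lit 0) (nat_lit 76707692524) (nat_lit 76) (nat_lit 36010720497) (nat_lit 76) (nat_lit 27358822930) (nat_lit 3) (nat_lit 4) (nat_lit 4) (nat_lit 5) (nat_lit 4) (nat_lit 4) (nat_lit 363) (nat_lit 294) (nat_lit 243))))) (XT.nd (nat_lit 312) (nat_lit 152) (nat_lit 0) (XT.nd (nat_lit 156) (nat_lit 0) (nat_lit 0) (XT.nd (nat_lit 78) (nat_lit 0) (nat_lit 0) (XT.lf (nat_lit 0) (nat_lit 94324742716) (nat_lit 76) (nat_lit 32575793024) (nat_lit 76) (nat_lit 23910988448) (nat_lit 3) (nat_lit 4) (nat_lit 4) (nat_lit 5) (nat_lit 4) (nat_lit 4) (nat_lit 364) (nat_lit 294) (nat_lit 242)) (XT.lf (nat_lit 0) (nat_lit 113320007766) (nat_lit 76) (nat_lit 28881291791) (nat_lit 76)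 (nat_lit 20204536280) (nat_lit 3) (nat_lit 4) (nat_lit 4) (nat_lit 5) (nat_lit 4) (nat_lit 4) (nat_lit 365) (nat_lit 294) (nat_lit 241))) (XT.nd (nat_lit 78) (nat_lit 0) (nat_lit 0) (XT.lf (nat_lit 0) (nat_lit 133806052206) (nat_lit 76) (nat_lit 24905323456) (nat_lit 76) (nat_lit 16217502265) (nat_lit 3) (nat_lit 4) (nat_lit 4) (nat_lit 5) (nat_lit 4) (nat_lit 4) (nat_lit 366) (nat_lit 294) (nat_lit 240)) (XT.lf (nat_lit 0) (nat_lit 155904274820) (nat_lit 76) (nat_lit 20624326726) (nat_lit 76) (nat_lit 11926259535) (nat_lit 3) (nat_lit 4) (nat_lit 4) (nat_lit 5) (nat_lit 4) (nat_lit 4) (nat_lit 367) (nat_lit 294) (nat_lit 239)))) (XT.nd (nat_lit 156) (nat_lit 152) (nat_lit 0) (XT.nd (nat_lit 78) (nat_lit 0) (nat_lit 0) (XT.lf (nat_lit 0) (nat_lit 179745628036) (nat_lit 76) (nat_lit 16012932732) (nat_lit 76) (nat_lit 7305378504) (nat_lit 3) (nat_lit 4) (nat_lit 4) (nat_lit 5) (nat_lit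 4) (nat_lit 4) (nat_lit 368) (nat_lit 294) (nat_lit 238)) (XT.lf (nat_lit 0) (nat_lit 205471393949) (nat_lit 76) (nat_lit 11043814694) (nat_lit 76) (nat_lit 2327476172) (nat_lit 3) (nat_lit 4) (nat_lit 4) (nat_lit 5) (nat_lit 4) (nat_lit 4) (nat_lit 369) (nat_lit 294) (nat_lit 237))) (XT.nd (nat_lit 78) (nat_lit 76) (nat_lit 0) (XT.lf (nat_lit 0) (nat_lit 2885025794) (nat_lit 152) (nat_lit 2723618474) (nat_lit 76) (nat_lit 230270114029) (nat_lit 2) (nat_lit 5) (nat_lit 4) (nat_lit 5) (nat_lit 3) (nat_lit 4) (nat_lit 370) (nat_lit 294) (nat_lit 236)) (XT.nd (nat_lit 78) (nat_lit 0) (nat_lit 0) (XT.lf (nat_lit 0) (nat_lit 8611949971) (nat_lit 152) (nat_lit 245116319825) (nat_lit 0) (nat_lit 526761783) (nat_lit 1) (nat_lit 5) (nat_lit 3) (nat_lit 4) (nat_lit 1) (nat_lit 4) (nat_lit 371) (nat_lit 294) (nat_lit 235)) (XT.lf (nat_lit 0) (nat_lit 15008865860) (nat_lit 152) (nat_lit 252158376157)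 (nat_lit 0) (nat_lit 6917220954) (nat_lit 1) (nat_lit 5) (nat_lit 3) (nat_lit 4) (nat_lit 1) (nat_lit 4) (nat_lit 372) (nat_lit 294) (nat_lit 234))))))) (XT.nd (nat_lit 624) (nat_lit 0) (nat_lit 0) (XT.nd (nat_lit 312) (nat_lit 0) (nat_lit 0) (XT.nd (nat_lit 156) (nat_lit 0) (nat_lit 0) (XT.nd (nat_lit 78) (nat_lit 0) (nat_lit 0) (XT.lf (nat_lit 0) (nat_lit 21908049746) (nat_lit 152) (nat_lit 259782534582) (nat_lit 0) (nat_lit 13810426397) (nat_lit 1) (nat_lit 5) (nat_lit 3) (nat_lit 4) (nat_lit 1) (nat_lit 4) (nat_lit 373) (nat_lit 294) (nat_lit 233)) (XT.lf (nat_lit 0) (nat_lit 29350385681) (nat_lit 152) (nat_lit 268033975300) (nat_lit 0) (nat_lit 21247226737) (nat_lit 1) (nat_lit 5) (nat_lit 3) (nat_lit 4) (nat_lit 1) (nat_lit 4) (nat_lit 374) (nat_lit 294) (nat_lit 232))) (XT.nd (nat_lit 78) (nat_lit 0) (nat_lit 0) (XT.lf (nat_lit 0) (nat_lit 37379976395) (nat_lit 152) (nat_lit 276961595737)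 (nat_lit 0) (nat_lit 29271691901) (nat_lit 1) (nat_lit 5) (nat_lit 3) (nat_lit 4) (nat_lit 1) (nat_lit 4) (nat_lit 375) (nat_lit 294) (nat_lit 231)) (XT.lf (nat_lit 0) (nat_lit 46044404650) (nat_lit 152) (nat_lit 286618300310) (nat_lit 0) (nat_lit 37931374275) (nat_lit 1) (nat_lit 5) (nat_lit 3) (nat_lit 4) (nat_lit 1) (nat_lit 4) (nat_lit 376) (nat_lit 294) (nat_lit 230)))) (XT.nd (nat_lit 156) (nat_lit 0) (nat_lit 0) (XT.nd (nat_lit 78) (nat_lit 0) (nat_lit 0) (XT.lf (nat_lit 0) (nat_lit 55395015206) (nat_lit 152) (nat_lit 297061313935) (nat_lit 0) (nat_lit 47277590497) (nat_lit 1) (nat_lit 5) (nat_lit 3) (nat_lit 4) (nat_lit 1) (nat_lit 4) (nat_lit 377) (nat_lit 294) (nat_lit 229)) (XT.lf (nat_lit 0) (nat_lit 65487219086) (nat_lit 152) (nat_lit 308352521138) (nat_lit 0) (nat_lit 57365725550) (nat_lit 1) (nat_lit 5) (nat_lit 3) (nat_lit 4) (nat_lit 1) (nat_lit 4) (nat_lit 378) (nat_lit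 294) (nat_lit 228))) (XT.nd (nat_lit 78) (nat_lit 0) (nat_lit 0) (XT.lf (nat_lit 0) (nat_lit 76380821945) (nat_lit 152) (nat_lit 320558832775) (nat_lit 0) (nat_lit 68255560976) (nat_lit 1) (nat_lit 5) (nat_lit 3) (nat_lit 4) (nat_lit 1) (nat_lit 4) (nat_lit 379) (nat_lit 294) (nat_lit 227)) (XT.lf (nat_lit 0) (nat_lit 88140378466) (nat_lit 152) (nat_lit 333752582546) (nat_lit 0) (nat_lit 80011629133) (nat_lit 1) (nat_lit 5) (nat_lit 3) (nat_lit 4) (nat_lit 1) (nat_lit 4) (nat_lit 380) (nat_lit 294) (nat_lit 226))))) (XT.nd (nat_lit 312) (nat_lit 0) (nat_lit 0) (XT.nd (nat_lit 156) (nat_lit 0) (nat_lit 0) (XT.nd (nat_lit 78) (nat_lit 0) (nat_lit 0) (XT.lf (nat_lit 0) (nat_lit 100835574910) (nat_lit 152) (nat_lit 348011955633) (nat_lit 0) (nat_lit 92703595610) (nat_lit 1) (nat_lit 5) (nat_lit 3) (nat_lit 4) (nat_lit 1) (nat_lit 4) (nat_lit 381) (nat_lit 294) (nat_lit 225)) (XT.lf (nat_lit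 0) (nat_lit 114541642070) (nat_lit 152) (nat_lit 363421452027) (nat_lit 0) (nat_lit 106406672061) (nat_lit 1) (nat_lit 5) (nat_lit 3) (nat_lit 4) (nat_lit 1) (nat_lit 4) (nat_lit 382) (nat_lit 294) (nat_lit 224))) (XT.nd (nat_lit 78) (nat_lit 0) (nat_lit 0) (XT.lf (nat_lit 0) (nat_lit 129339801086) (nat_lit 152) (nat_lit 380072387261) (nat_lit 0) (nat_lit 121202061900) (nat_lit 1) (nat_lit 5) (nat_lit 3) (nat_lit 4) (nat_lit 1) (nat_lit 4) (nat_lit 383) (nat_lit 294) (nat_lit 223)) (XT.lf (nat_lit 0) (nat_lit 145317744750) (nat_lit 152) (nat_lit 398063433544) (nat_lit 0) (nat_lit 137177441514) (nat_lit 1) (nat_lit 5) (nat_lit 3) (nat_lit 4) (nat_lit 1) (nat_lit 4) (nat_lit 384) (nat_lit 294) (nat_lit 222)))) (XT.nd (nat_lit 156) (nat_lit 0) (nat_lit 0) (XT.nd (nat_lit 78) (nat_lit 0) (nat_lit 0) (XT.lf (nat_lit 0) (nat_lit 162570157175) (nat_lit 152) (nat_lit 417501204484) (nat_lit 0)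 (nat_lit 154427479817) (nat_lit 1) (nat_lit 5) (nat_lit 3) (nat_lit 4) (nat_lit 1) (nat_lit 4) (nat_lit 385) (nat_lit 294) (nat_lit 221)) (XT.lf (nat_lit 0) (nat_lit 181199274878) (nat_lit 152) (nat_lit 438500886870) (nat_lit 0) (nat_lit 173054399258) (nat_lit 1) (nat_lit 5) (nat_lit 3) (nat_lit 4) (nat_lit 1) (nat_lit 4) (nat_lit 386) (nat_lit 294) (nat_lit 220))) (XT.nd (nat_lit 78) (nat_lit 0) (nat_lit 0) (XT.lf (nat_lit 0) (nat_lit 201315492630) (nat_lit 152) (nat_lit 461186923267) (nat_lit 0) (nat_lit 193168581584) (nat_lit 1) (nat_lit 5) (nat_lit 3) (nat_lit 4) (nat_lit 1) (nat_lit 4) (nat_lit 387) (nat_lit 294) (nat_lit 219)) (XT.nd (nat_lit 78) (nat_lit 0) (nat_lit 0) (XT.lf (nat_lit 0) (nat_lit 223038017649) (nat_lit 152) (nat_lit 485693749444) (nat_lit 0) (nat_lit 214889221948) (nat_lit 1) (nat_lit 5) (nat_lit 3) (nat_lit 4) (nat_lit 1) (nat_lit 4) (nat_lit 388) (nat_lit 294)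 (nat_lit 218)) (XT.lf (nat_lit 0) (nat_lit 246495576007) (nat_lit 152) (nat_lit 512166591038) (nat_lit 0) (nat_lit 238345035256) (nat_lit 1) (nat_lit 5) (nat_lit 3) (nat_lit 4) (nat_lit 1) (nat_lit 4) (nat_lit 389) (nat_lit 294) (nat_lit 217))))))))
noncomputable def xc79 : XT := (XT.nd (nat_lit 1326) (nat_lit 0) (nat_lit 0) (XT.nd (nat_lit 624) (nat_lit 0) (nat_lit 0) (XT.nd (nat_lit 312) (nat_lit 0) (nat_lit 0) (XT.nd (nat_lit 156) (nat_lit 0) (nat_lit 0) (XT.nd (nat_lit 78) (nat_lit 0) (nat_lit 0) (XT.lf (nat_lit 0) (nat_lit 271827175459) (nat_lit 152) (nat_lit 540762324148) (nat_lit 0) (nat_lit 263675018921) (nat_lit 1) (nat_lit 5) (nat_lit 3) (nat_lit 4) (nat_lit 1) (nat_lit 4) (nat_lit 390) (nat_lit 294) (nat_lit 216)) (XT.lf (nat_lit 0) (nat_lit 299182929186) (nat_lit 152) (nat_lit 571650404970) (nat_lit 0) (nat_lit 291029276548) (nat_lit 1) (nat_lit 5) (nat_lit 3) (nat_lit 4)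 (nat_lit 1) (nat_lit 4) (nat_lit 391) (nat_lit 294) (nat_lit 215))) (XT.nd (nat_lit 78) (nat_lit 0) (nat_lit 0) (XT.lf (nat_lit 0) (nat_lit 328724945359) (nat_lit 152) (nat_lit 605013873983) (nat_lit 0) (nat_lit 320569907444) (nat_lit 1) (nat_lit 5) (nat_lit 3) (nat_lit 4) (nat_lit 1) (nat_lit 4) (nat_lit 392) (nat_lit 294) (nat_lit 214)) (XT.lf (nat_lit 0) (nat_lit 360628287777) (nat_lit 152) (nat_lit 641050440633) (nat_lit 0) (nat_lit 352471967197) (nat_lit 1) (nat_lit 5) (nat_lit 3) (nat_lit 4) (nat_lit 1) (nat_lit 4) (nat_lit 393) (nat_lit 294) (nat_lit 213)))) (XT.nd (nat_lit 156) (nat_lit 0) (nat_lit 0) (XT.nd (nat_lit 78) (nat_lit 0) (nat_lit 0) (XT.lf (nat_lit 0) (nat_lit 395082013284) (nat_lit 152) (nat_lit 679973654945) (nat_lit 0) (nat_lit 386924505052) (nat_lit 1) (nat_lit 5) (nat_lit 3) (nat_lit 4) (nat_lit 1) (nat_lit 4) (nat_lit 394) (nat_lit 294) (nat_lit 212)) (XT.lf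 (nat_lit 0) (nat_lit 432290292105) (nat_lit 152) (nat_lit 722014173002) (nat_lit 0) (nat_lit 424131684195) (nat_lit 1) (nat_lit 5) (nat_lit 3) (nat_lit 4) (nat_lit 1) (nat_lit 4) (nat_lit 395) (nat_lit 294) (nat_lit 211))) (XT.nd (nat_lit 78) (nat_lit 0) (nat_lit 0) (XT.lf (nat_lit 0) (nat_lit 472473617744) (nat_lit 152) (nat_lit 767421123802) (nat_lit 0) (nat_lit 464313991615) (nat_lit 1) (nat_lit 5) (nat_lit 3) (nat_lit 4) (nat_lit 1) (nat_lit 4) (nat_lit 396) (nat_lit 294) (nat_lit 210)) (XT.lf (nat_lit 0) (nat_lit 515870113613) (nat_lit 152) (nat_lit 816463585571) (nat_lit 0) (nat_lit 507709544687) (nat_lit 1) (nat_lit 5) (nat_lit 3) (nat_lit 4) (nat_lit 1) (nat_lit 4) (nat_lit 397) (nat_lit 294) (nat_lit 209))))) (XT.nd (nat_lit 312) (nat_lit 0) (nat_lit 0) (XT.nd (nat_lit 156) (nat_lit 0) (nat_lit 0) (XT.nd (nat_lit 78) (nat_lit 0) (nat_lit 0) (XT.lf (nat_lit 0) (nat_lit 562736944132)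 (nat_lit 152) (nat_lit 869432180305) (nat_lit 0) (nat_lit 554575502246) (nat_lit 1) (nat_lit 5) (nat_lit 3) (nat_lit 4) (nat_lit 1) (nat_lit 4) (nat_lit 398) (nat_lit 294) (nat_lit 208)) (XT.lf (nat_lit 0) (nat_lit 613351838666) (nat_lit 152) (nat_lit 926640795973) (nat_lit 0) (nat_lit 605189588484) (nat_lit 1) (nat_lit 5) (nat_lit 3) (nat_lit 4) (nat_lit 1) (nat_lit 4) (nat_lit 399) (nat_lit 294) (nat_lit 207))) (XT.nd (nat_lit 78) (nat_lit 0) (nat_lit 0) (XT.lf (nat_lit 0) (nat_lit 668014737332) (nat_lit 152) (nat_lit 988428446592) (nat_lit 0) (nat_lit 659851738728) (nat_lit 1) (nat_lit 5) (nat_lit 3) (nat_lit 4) (nat_lit 1) (nat_lit 4) (nat_lit 400) (nat_lit 294) (nat_lit 206)) (XT.lf (nat_lit 0) (nat_lit 727049568417) (nat_lit 152) (nat_lit 1055161281205) (nat_lit 0) (nat_lit 718885876829) (nat_lit 1) (nat_lit 5) (nat_lit 3) (nat_lit 4) (nat_lit 1) (nat_lit 4) (nat_lit 401) (nat_lit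 294) (nat_lit 205)))) (XT.nd (nat_lit 156) (nat_lit 0) (nat_lit 0) (XT.nd (nat_lit 78) (nat_lit 0) (nat_lit 0) (XT.lf (nat_lit 0) (nat_lit 790806167958) (nat_lit 152) (nat_lit 1127234753646) (nat_lit 0) (nat_lit 782641834719) (nat_lit 1) (nat_lit 5) (nat_lit 3) (nat_lit 4) (nat_lit 1) (nat_lit 4) (nat_lit 402) (nat_lit 294) (nat_lit 204)) (XT.lf (nat_lit 0) (nat_lit 859662352841) (nat_lit 152) (nat_lit 1205075965974) (nat_lit 0) (nat_lit 851497425480) (nat_lit 1) (nat_lit 5) (nat_lit 3) (nat_lit 4) (nat_lit 1) (nat_lit 4) (nat_lit 403) (nat_lit 294) (nat_lit 203))) (XT.nd (nat_lit 78) (nat_lit 0) (nat_lit 0) (XT.lf (nat_lit 0) (nat_lit 934026159717) (nat_lit 152) (nat_lit 1289146199446) (nat_lit 0) (nat_lit 925860682244) (nat_lit 1) (nat_lit 5) (nat_lit 3) (nat_lit 4) (nat_lit 1) (nat_lit 4) (nat_lit 404) (nat_lit 294) (nat_lit 202)) (XT.nd (nat_lit 78) (nat_lit 0) (nat_lit 0) (XT.lf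 (nat_lit 0) (nat_lit 1014338262997) (nat_lit 152) (nat_lit 1379943648040) (nat_lit 0) (nat_lit 1006172276160) (nat_lit 1) (nat_lit 5) (nat_lit 3) (nat_lit 4) (nat_lit 1) (nat_lit 4) (nat_lit 405) (nat_lit 294) (nat_lit 201)) (XT.lf (nat_lit 0) (nat_lit 1101074586257) (nat_lit 152) (nat_lit 1478006370709) (nat_lit 0) (nat_lit 1092908127787) (nat_lit 1) (nat_lit 5) (nat_lit 3) (nat_lit 4) (nat_lit 1) (nat_lit 4) (nat_lit 406) (nat_lit 294) (nat_lit 200))))))) (XT.nd (nat_lit 39468) (nat_lit 0) (nat_lit 2052) (XT.nd (nat_lit 312) (nat_lit 0) (nat_lit 0) (XT.nd (nat_lit 156) (nat_lit 0) (nat_lit 0) (XT.nd (nat_lit 78) (nat_lit 0) (nat_lit 0) (XT.lf (nat_lit 0) (nat_lit 1194749122522) (nat_lit 152) (nat_lit 1583915479885) (nat_lit 0) (nat_lit 1186582227355) (nat_lit 1) (nat_lit 5) (nat_lit 3) (nat_lit 4) (nat_lit 1) (nat_lit 4) (nat_lit 407) (nat_lit 294) (nat_lit 199)) (XT.lf (nat_lit 0)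 (nat_lit 1295916980157) (nat_lit 152) (nat_lit 1698298585103) (nat_lit 0) (nat_lit 1287749680641) (nat_lit 1) (nat_lit 5) (nat_lit 3) (nat_lit 4) (nat_lit 1) (nat_lit 4) (nat_lit 408) (nat_lit 294) (nat_lit 198))) (XT.nd (nat_lit 78) (nat_lit 0) (nat_lit 0) (XT.lf (nat_lit 0) (nat_lit 1405177672391) (nat_lit 152) (nat_lit 1821833512172) (nat_lit 0) (nat_lit 1397009998477) (nat_lit 1) (nat_lit 5) (nat_lit 3) (nat_lit 4) (nat_lit 1) (nat_lit 4) (nat_lit 409) (nat_lit 294) (nat_lit 197)) (XT.lf (nat_lit 0) (nat_lit 1523178669993) (nat_lit 152) (nat_lit 1955252319918) (nat_lit 0) (nat_lit 1515010649415) (nat_lit 1) (nat_lit 5) (nat_lit 3) (nat_lit 4) (nat_lit 1) (nat_lit 4) (nat_lit 410) (nat_lit 294) (nat_lit 196)))) (XT.nd (nat_lit 156) (nat_lit 0) (nat_lit 0) (XT.nd (nat_lit 78) (nat_lit 0) (nat_lit 0) (XT.lf (nat_lit 0) (nat_lit 1650619238134) (nat_lit 152) (nat_lit 2099345638315) (nat_lit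 0) (nat_lit 1642450896571) (nat_lit 1) (nat_lit 5) (nat_lit 3) (nat_lit 4) (nat_lit 1) (nat_lit 4) (nat_lit 411) (nat_lit 294) (nat_lit 195)) (XT.lf (nat_lit 0) (nat_lit 1788254580181) (nat_lit 152) (nat_lit 2254967353693) (nat_lit 0) (nat_lit 1780085941409) (nat_lit 1) (nat_lit 5) (nat_lit 3) (nat_lit 4) (nat_lit 1) (nat_lit 4) (nat_lit 412) (nat_lit 294) (nat_lit 194))) (XT.nd (nat_lit 38844) (nat_lit 0) (nat_lit 3572) (XT.lf (nat_lit 0) (nat_lit 1936900312976) (nat_lit 152) (nat_lit 2423039668810) (nat_lit 0) (nat_lit 1928731399011) (nat_lit 1) (nat_lit 5) (nat_lit 3) (nat_lit 4) (nat_lit 1) (nat_lit 4) (nat_lit 413) (nat_lit 294) (nat_lit 193)) (XT.nd (nat_lit 78) (nat_lit 532) (nat_lit 0) (XT.lf (nat_lit 0) (nat_lit 3444253686) (nat_lit 380) (nat_lit 79024262) (nat_lit 380) (nat_lit 79024262) (nat_lit 55) (nat_lit 4) (nat_lit 60) (nat_lit 5) (nat_lit 60) (nat_lit 4) (nat_lit 310)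 (nat_lit 295) (nat_lit 295)) (XT.lf (nat_lit 0) (nat_lit 3183275823) (nat_lit 532) (nat_lit 2525140324) (nat_lit 0) (nat_lit 1658877502) (nat_lit 48) (nat_lit 5) (nat_lit 55) (nat_lit 4) (nat_lit 48) (nat_lit 4) (nat_lit 311) (nat_lit 295) (nat_lit 294)))))) (XT.nd (nat_lit 312) (nat_lit 608) (nat_lit 0) (XT.nd (nat_lit 156) (nat_lit 304) (nat_lit 0) (XT.nd (nat_lit 78) (nat_lit 304) (nat_lit 0) (XT.lf (nat_lit 0) (nat_lit 2744167483) (nat_lit 304) (nat_lit 3874149711) (nat_lit 304) (nat_lit 938271464) (nat_lit 44) (nat_lit 4) (nat_lit 48) (nat_lit 5) (nat_lit 48) (nat_lit 4) (nat_lit 312) (nat_lit 295) (nat_lit 293)) (XT.lf (nat_lit 0) (nat_lit 505177518) (nat_lit 228) (nat_lit 1777505954) (nat_lit 304) (nat_lit 5486500266) (nat_lit 40) (nat_lit 5) (nat_lit 43) (nat_lit 5) (nat_lit 44) (nat_lit 4) (nat_lit 313) (nat_lit 295) (nat_lit 292))) (XT.nd (nat_lit 78) (nat_lit 304) (nat_lit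 0) (XT.lf (nat_lit 0) (nat_lit 5628386492) (nat_lit 304) (nat_lit 1796210981) (nat_lit 0) (nat_lit 579385900) (nat_lit 40) (nat_lit 5) (nat_lit 44) (nat_lit 4) (nat_lit 40) (nat_lit 4) (nat_lit 314) (nat_lit 295) (nat_lit 291)) (XT.lf (nat_lit 0) (nat_lit 862869474) (nat_lit 304) (nat_lit 4291711967) (nat_lit 76) (nat_lit 3107344753) (nat_lit 36) (nat_lit 5) (nat_lit 40) (nat_lit 5) (nat_lit 37) (nat_lit 4) (nat_lit 315) (nat_lit 295) (nat_lit 290)))) (XT.nd (nat_lit 156) (nat_lit 456) (nat_lit 0) (XT.nd (nat_lit 78) (nat_lit 0) (nat_lit 0) (XT.lf (nat_lit 0) (nat_lit 1502267218) (nat_lit 152) (nat_lit 2608010288) (nat_lit 228) (nat_lit 4435484562) (nat_lit 34) (nat_lit 5) (nat_lit 36) (nat_lit 5) (nat_lit 37) (nat_lit 4) (nat_lit 316) (nat_lit 295) (nat_lit 289)) (XT.lf (nat_lit 0) (nat_lit 7540386546) (nat_lit 228) (nat_lit 1126803098) (nat_lit 0) (nat_lit 191699717) (nat_lit 34) (nat_lit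 5) (nat_lit 37) (nat_lit 4) (nat_lit 34) (nat_lit 4) (nat_lit 317) (nat_lit 295) (nat_lit 288))) (XT.nd (nat_lit 78) (nat_lit 152) (nat_lit 0) (XT.lf (nat_lit 0) (nat_lit 1951858379) (nat_lit 304) (nat_lit 4051400085) (nat_lit 76) (nat_lit 3189709066) (nat_lit 30) (nat_lit 5) (nat_lit 34) (nat_lit 5) (nat_lit 31) (nat_lit 4) (nat_lit 318) (nat_lit 295) (nat_lit 287)) (XT.nd (nat_lit 78) (nat_lit 0) (nat_lit 0) (XT.lf (nat_lit 0) (nat_lit 2237239382) (nat_lit 152) (nat_lit 3077470363) (nat_lit 228) (nat_lit 4244486086) (nat_lit 28) (nat_lit 5) (nat_lit 30) (nat_lit 5) (nat_lit 31) (nat_lit 4) (nat_lit 319) (nat_lit 295) (nat_lit 286)) (XT.lf (nat_lit 0) (nat_lit 8884342272) (nat_lit 228) (nat_lit 960903165) (nat_lit 0) (nat_lit 114763384) (nat_lit 28) (nat_lit 5) (nat_lit 31) (nat_lit 4) (nat_lit 28) (nat_lit 4) (nat_lit 320) (nat_lit 295) (nat_lit 285))))))))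
noncomputable def xc80 : XT := (XT.nd (nat_lit 1326) (nat_lit 532) (nat_lit 0) (XT.nd (nat_lit 624) (nat_lit 456) (nat_lit 0) (XT.nd (nat_lit 312) (nat_lit 304) (nat_lit 0) (XT.nd (nat_lit 156) (nat_lit 228) (nat_lit 0) (XT.nd (nat_lit 78) (nat_lit 76) (nat_lit 0) (XT.lf (nat_lit 0) (nat_lit 2286952499) (nat_lit 228) (nat_lit 4573235788) (nat_lit 76) (nat_lit 3523831841) (nat_lit 25) (nat_lit 5) (nat_lit 28) (nat_lit 5) (nat_lit 26) (nat_lit 4) (nat_lit 321) (nat_lit 295) (nat_lit 284)) (XT.lf (nat_lit 0) (nat_lit 2166681881) (nat_lit 76) (nat_lit 3610134036) (nat_lit 152) (nat_lit 5069836811) (nat_lit 24) (nat_lit 5) (nat_lit 25) (nat_lit 5) (nat_lit 26) (nat_lit 4) (nat_lit 322) (nat_lit 295) (nat_lit 283))) (XT.nd (nat_lit 78) (nat_lit 228) (nat_lit 0) (XT.lf (nat_lit 0) (nat_lit 9460172601) (nat_lit 76) (nat_lit 54164780) (nat_lit 152) (nat_lit 1834706447) (nat_lit 24) (nat_lit 5)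 (nat_lit 25) (nat_lit 5) (nat_lit 26) (nat_lit 4) (nat_lit 323) (nat_lit 295) (nat_lit 282)) (XT.lf (nat_lit 0) (nat_lit 1651596825) (nat_lit 228) (nat_lit 6541166095) (nat_lit 76) (nat_lit 3689835051) (nat_lit 21) (nat_lit 5) (nat_lit 24) (nat_lit 5) (nat_lit 22) (nat_lit 4) (nat_lit 324) (nat_lit 295) (nat_lit 281)))) (XT.nd (nat_lit 156) (nat_lit 228) (nat_lit 0) (XT.nd (nat_lit 78) (nat_lit 0) (nat_lit 0) (XT.lf (nat_lit 0) (nat_lit 540345294) (nat_lit 76) (nat_lit 4699227775) (nat_lit 152) (nat_lit 7221878696) (nat_lit 20) (nat_lit 5) (nat_lit 21) (nat_lit 5) (nat_lit 22) (nat_lit 4) (nat_lit 325) (nat_lit 295) (nat_lit 280)) (XT.lf (nat_lit 0) (nat_lit 8327276027) (nat_lit 76) (nat_lit 825831761) (nat_lit 152) (nat_lit 3930590128) (nat_lit 20) (nat_lit 5) (nat_lit 21) (nat_lit 5) (nat_lit 22) (nat_lit 4) (nat_lit 326) (nat_lit 295) (nat_lit 279))) (XT.nd (nat_lit 78) (nat_lit 76)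 (nat_lit 0) (XT.lf (nat_lit 0) (nat_lit 2817305545) (nat_lit 152) (nat_lit 10578924287) (nat_lit 152) (nat_lit 358326972) (nat_lit 18) (nat_lit 4) (nat_lit 20) (nat_lit 5) (nat_lit 20) (nat_lit 4) (nat_lit 327) (nat_lit 295) (nat_lit 278)) (XT.lf (nat_lit 0) (nat_lit 3348599422) (nat_lit 228) (nat_lit 3535909116) (nat_lit 76) (nat_lit 7586057751) (nat_lit 17) (nat_lit 5) (nat_lit 20) (nat_lit 5) (nat_lit 18) (nat_lit 4) (nat_lit 328) (nat_lit 295) (nat_lit 277))))) (XT.nd (nat_lit 312) (nat_lit 228) (nat_lit 0) (XT.nd (nat_lit 156) (nat_lit 152) (nat_lit 0) (XT.nd (nat_lit 78) (nat_lit 0) (nat_lit 0) (XT.lf (nat_lit 0) (nat_lit 4462516952) (nat_lit 76) (nat_lit 2856300932) (nat_lit 152) (nat_lit 7925528101) (nat_lit 16) (nat_lit 5) (nat_lit 17) (nat_lit 5) (nat_lit 18) (nat_lit 4) (nat_lit 329) (nat_lit 295) (nat_lit 276)) (XT.lf (nat_lit 0) (nat_lit 11622551967) (nat_lit 152) (nat_lit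 3019895452) (nat_lit 0) (nat_lit 1436421548) (nat_lit 16) (nat_lit 5) (nat_lit 18) (nat_lit 4) (nat_lit 16) (nat_lit 4) (nat_lit 330) (nat_lit 295) (nat_lit 275))) (XT.nd (nat_lit 78) (nat_lit 76) (nat_lit 0) (XT.lf (nat_lit 0) (nat_lit 5361582311) (nat_lit 76) (nat_lit 11001744155) (nat_lit 76) (nat_lit 609512394) (nat_lit 15) (nat_lit 4) (nat_lit 16) (nat_lit 5) (nat_lit 16) (nat_lit 4) (nat_lit 331) (nat_lit 295) (nat_lit 274)) (XT.lf (nat_lit 0) (nat_lit 3342749767) (nat_lit 152) (nat_lit 3630146821) (nat_lit 76) (nat_lit 10960694592) (nat_lit 14) (nat_lit 5) (nat_lit 16) (nat_lit 5) (nat_lit 15) (nat_lit 4) (nat_lit 332) (nat_lit 295) (nat_lit 273)))) (XT.nd (nat_lit 156) (nat_lit 152) (nat_lit 0) (XT.nd (nat_lit 78) (nat_lit 0) (nat_lit 0) (XT.lf (nat_lit 0) (nat_lit 5044147422) (nat_lit 76) (nat_lit 2553887404) (nat_lit 152) (nat_lit 11370403506) (nat_lit 13) (nat_lit 5) (nat_lit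 14) (nat_lit 5) (nat_lit 15) (nat_lit 4) (nat_lit 333) (nat_lit 295) (nat_lit 272)) (XT.lf (nat_lit 0) (nat_lit 12248755236) (nat_lit 152) (nat_lit 5698474553) (nat_lit 0) (nat_lit 2134519210) (nat_lit 13) (nat_lit 5) (nat_lit 15) (nat_lit 4) (nat_lit 13) (nat_lit 4) (nat_lit 334) (nat_lit 295) (nat_lit 271))) (XT.nd (nat_lit 78) (nat_lit 76) (nat_lit 0) (XT.lf (nat_lit 0) (nat_lit 3104716100) (nat_lit 76) (nat_lit 14215062494) (nat_lit 76) (nat_lit 3960557357) (nat_lit 12) (nat_lit 4) (nat_lit 13) (nat_lit 5) (nat_lit 13) (nat_lit 4) (nat_lit 335) (nat_lit 295) (nat_lit 270)) (XT.nd (nat_lit 78) (nat_lit 0) (nat_lit 0) (XT.lf (nat_lit 0) (nat_lit 278177458) (nat_lit 152) (nat_lit 9805774827) (nat_lit 76) (nat_lit 12485084592) (nat_lit 11) (nat_lit 5) (nat_lit 13) (nat_lit 5) (nat_lit 12) (nat_lit 4) (nat_lit 336) (nat_lit 295) (nat_lit 269)) (XT.lf (nat_lit 0) (nat_lit 4556611439) (nat_lit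 152) (nat_lit 1026890300) (nat_lit 76) (nat_lit 18375992950) (nat_lit 11) (nat_lit 5) (nat_lit 13) (nat_lit 5) (nat_lit 12) (nat_lit 4) (nat_lit 337) (nat_lit 295) (nat_lit 268))))))) (XT.nd (nat_lit 624) (nat_lit 228) (nat_lit 0) (XT.nd (nat_lit 312) (nat_lit 152) (nat_lit 0) (XT.nd (nat_lit 156) (nat_lit 76) (nat_lit 0) (XT.nd (nat_lit 78) (nat_lit 0) (nat_lit 0) (XT.lf (nat_lit 0) (nat_lit 8745809035) (nat_lit 76) (nat_lit 562749268) (nat_lit 152) (nat_lit 16142184000) (nat_lit 10) (nat_lit 5) (nat_lit 11) (nat_lit 5) (nat_lit 12) (nat_lit 4) (nat_lit 338) (nat_lit 295) (nat_lit 267)) (XT.lf (nat_lit 0) (nat_lit 14508101682) (nat_lit 152) (nat_lit 7964826704) (nat_lit 0) (nat_lit 4583014441) (nat_lit 10) (nat_lit 5) (nat_lit 12) (nat_lit 4) (nat_lit 10) (nat_lit 4) (nat_lit 339) (nat_lit 295) (nat_lit 266))) (XT.nd (nat_lit 78) (nat_lit 0) (nat_lit 0) (XT.lf (nat_lit 0) (nat_lit 1393561516)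 (nat_lit 76) (nat_lit 18705734130) (nat_lit 76) (nat_lit 8692253556) (nat_lit 9) (nat_lit 4) (nat_lit 10) (nat_lit 5) (nat_lit 10) (nat_lit 4) (nat_lit 340) (nat_lit 295) (nat_lit 265)) (XT.lf (nat_lit 0) (nat_lit 11821009535) (nat_lit 76) (nat_lit 14464280919) (nat_lit 76) (nat_lit 4368954667) (nat_lit 9) (nat_lit 4) (nat_lit 10) (nat_lit 5) (nat_lit 10) (nat_lit 4) (nat_lit 341) (nat_lit 295) (nat_lit 264)))) (XT.nd (nat_lit 156) (nat_lit 76) (nat_lit 0) (XT.nd (nat_lit 78) (nat_lit 0) (nat_lit 0) (XT.lf (nat_lit 0) (nat_lit 218401933) (nat_lit 152) (nat_lit 9716833265) (nat_lit 76) (nat_lit 22735522550) (nat_lit 8) (nat_lit 5) (nat_lit 10) (nat_lit 5) (nat_lit 9) (nat_lit 4) (nat_lit 342) (nat_lit 295) (nat_lit 263)) (XT.lf (nat_lit 0) (nat_lit 4874868761) (nat_lit 152) (nat_lit 101551740) (nat_lit 76) (nat_lit 29868072751) (nat_lit 8) (nat_lit 5) (nat_lit 10) (nat_lit 5) (nat_lit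 9) (nat_lit 4) (nat_lit 343) (nat_lit 295) (nat_lit 262))) (XT.nd (nat_lit 78) (nat_lit 0) (nat_lit 0) (XT.lf (nat_lit 0) (nat_lit 10118759510) (nat_lit 152) (nat_lit 26480271067) (nat_lit 0) (nat_lit 575934969) (nat_lit 7) (nat_lit 5) (nat_lit 9) (nat_lit 4) (nat_lit 7) (nat_lit 4) (nat_lit 344) (nat_lit 295) (nat_lit 261)) (XT.lf (nat_lit 0) (nat_lit 15857508246) (nat_lit 152) (nat_lit 17569386947) (nat_lit 0) (nat_lit 6258980912) (nat_lit 7) (nat_lit 5) (nat_lit 9) (nat_lit 4) (nat_lit 7) (nat_lit 4) (nat_lit 345) (nat_lit 295) (nat_lit 260))))) (XT.nd (nat_lit 312) (nat_lit 152) (nat_lit 0) (XT.nd (nat_lit 156) (nat_lit 0) (nat_lit 0) (XT.nd (nat_lit 78) (nat_lit 76) (nat_lit 0) (XT.lf (nat_lit 0) (nat_lit 22002801629) (nat_lit 152) (nat_lit 8046390791) (nat_lit 0) (nat_lit 12352697635) (nat_lit 7) (nat_lit 5) (nat_lit 9) (nat_lit 4) (nat_lit 7) (nat_lit 4) (nat_lit 346) (nat_lit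 295) (nat_lit 259)) (XT.lf (nat_lit 0) (nat_lit 2258109763) (nat_lit 76) (nat_lit 26387254044) (nat_lit 76) (nat_lit 16689393882) (nat_lit 6) (nat_lit 4) (nat_lit 7) (nat_lit 5) (nat_lit 7) (nat_lit 4) (nat_lit 347) (nat_lit 295) (nat_lit 258))) (XT.nd (nat_lit 78) (nat_lit 0) (nat_lit 0) (XT.lf (nat_lit 0) (nat_lit 13753642551) (nat_lit 76) (nat_lit 22238446390) (nat_lit 76) (nat_lit 12496367555) (nat_lit 6) (nat_lit 4) (nat_lit 7) (nat_lit 5) (nat_lit 7) (nat_lit 4) (nat_lit 348) (nat_lit 295) (nat_lit 257)) (XT.lf (nat_lit 0) (nat_lit 26084620566) (nat_lit 76) (nat_lit 17798186517) (nat_lit 76) (nat_lit 8015164465) (nat_lit 6) (nat_lit 4) (nat_lit 7) (nat_lit 5) (nat_lit 7) (nat_lit 4) (nat_lit 349) (nat_lit 295) (nat_lit 256)))) (XT.nd (nat_lit 156) (nat_lit 76) (nat_lit 0) (XT.nd (nat_lit 78) (nat_lit 76) (nat_lit 0) (XT.lf (nat_lit 0) (nat_lit 39324116271) (nat_lit 76) (nat_lit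 13040161773) (nat_lit 76) (nat_lit 3219229336) (nat_lit 6) (nat_lit 4) (nat_lit 7) (nat_lit 5) (nat_lit 7) (nat_lit 4) (nat_lit 350) (nat_lit 295) (nat_lit 255)) (XT.lf (nat_lit 0) (nat_lit 1823819106) (nat_lit 152) (nat_lit 6062490904) (nat_lit 76) (nat_lit 51676900384) (nat_lit 5) (nat_lit 5) (nat_lit 7) (nat_lit 5) (nat_lit 6) (nat_lit 4) (nat_lit 351) (nat_lit 295) (nat_lit 254))) (XT.nd (nat_lit 78) (nat_lit 0) (nat_lit 0) (XT.lf (nat_lit 0) (nat_lit 5050458571) (nat_lit 76) (nat_lit 2131750688) (nat_lit 152) (nat_lit 56665540739) (nat_lit 4) (nat_lit 5) (nat_lit 5) (nat_lit 5) (nat_lit 6) (nat_lit 4) (nat_lit 352) (nat_lit 295) (nat_lit 253)) (XT.nd (nat_lit 78) (nat_lit 0) (nat_lit 0) (XT.lf (nat_lit 0) (nat_lit 13202142417) (nat_lit 152) (nat_lit 51236070067) (nat_lit 0) (nat_lit 4018224661) (nat_lit 4) (nat_lit 5) (nat_lit 6) (nat_lit 4) (nat_lit 4) (nat_lit 4) (nat_lit 353)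 (nat_lit 295) (nat_lit 252)) (XT.lf (nat_lit 0) (nat_lit 19726268794) (nat_lit 152) (nat_lit 43189205788) (nat_lit 0) (nat_lit 10516549867) (nat_lit 4) (nat_lit 5) (nat_lit 6) (nat_lit 4) (nat_lit 4) (nat_lit 4) (nat_lit 354) (nat_lit 295) (nat_lit 251))))))))
noncomputable def xc81 : XT := (XT.nd (nat_lit 1326) (nat_lit 76) (nat_lit 0) (XT.nd (nat_lit 624) (nat_lit 76) (nat_lit 0) (XT.nd (nat_lit 312) (nat_lit 76) (nat_lit 0) (XT.nd (nat_lit 156) (nat_lit 0) (nat_lit 0) (XT.nd (nat_lit 78) (nat_lit 0) (nat_lit 0) (XT.lf (nat_lit 0) (nat_lit 26741981224) (nat_lit 152) (nat_lit 34557744816) (nat_lit 0) (nat_lit 17508372324) (nat_lit 4) (nat_lit 5) (nat_lit 6) (nat_lit 4) (nat_lit 4) (nat_lit 4) (nat_lit 355) (nat_lit 295) (nat_lit 250)) (XT.lf (nat_lit 0) (nat_lit 34290854301) (nat_lit 152) (nat_lit 25290537750) (nat_lit 0) (nat_lit 25035125055) (nat_lit 4) (nat_lit 5) (nat_lit 6) (nat_lit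 4) (nat_lit 4) (nat_lit 4) (nat_lit 356) (nat_lit 295) (nat_lit 249))) (XT.nd (nat_lit 78) (nat_lit 0) (nat_lit 0) (XT.lf (nat_lit 0) (nat_lit 42417622086) (nat_lit 152) (nat_lit 15332667810) (nat_lit 0) (nat_lit 33141411038) (nat_lit 4) (nat_lit 5) (nat_lit 6) (nat_lit 4) (nat_lit 4) (nat_lit 4) (nat_lit 357) (nat_lit 295) (nat_lit 248)) (XT.lf (nat_lit 0) (nat_lit 51170443204) (nat_lit 152) (nat_lit 4625125394) (nat_lit 0) (nat_lit 41875267525) (nat_lit 4) (nat_lit 5) (nat_lit 6) (nat_lit 4) (nat_lit 4) (nat_lit 4) (nat_lit 358) (nat_lit 295) (nat_lit 247)))) (XT.nd (nat_lit 156) (nat_lit 0) (nat_lit 0) (XT.nd (nat_lit 78) (nat_lit 0) (nat_lit 0) (XT.lf (nat_lit 0) (nat_lit 7258648599) (nat_lit 76) (nat_lit 53517108297) (nat_lit 76) (nat_lit 44204372775) (nat_lit 3) (nat_lit 4) (nat_lit 4) (nat_lit 5) (nat_lit 4) (nat_lit 4) (nat_lit 359) (nat_lit 295) (nat_lit 246)) (XT.lf (nat_lit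 0) (nat_lit 20313781407) (nat_lit 76) (nat_lit 50940502554) (nat_lit 76) (nat_lit 41611507917) (nat_lit 3) (nat_lit 4) (nat_lit 4) (nat_lit 5) (nat_lit 4) (nat_lit 4) (nat_lit 360) (nat_lit 295) (nat_lit 245))) (XT.nd (nat_lit 78) (nat_lit 0) (nat_lit 0) (XT.lf (nat_lit 0) (nat_lit 34374085871) (nat_lit 76) (nat_lit 48176941719) (nat_lit 76) (nat_lit 38832892346) (nat_lit 3) (nat_lit 4) (nat_lit 4) (nat_lit 5) (nat_lit 4) (nat_lit 4) (nat_lit 361) (nat_lit 295) (nat_lit 244)) (XT.lf (nat_lit 0) (nat_lit 49522882315) (nat_lit 76) (nat_lit 45210049135) (nat_lit 76) (nat_lit 35852060192) (nat_lit 3) (nat_lit 4) (nat_lit 4) (nat_lit 5) (nat_lit 4) (nat_lit 4) (nat_lit 362) (nat_lit 295) (nat_lit 243))))) (XT.nd (nat_lit 312) (nat_lit 76) (nat_lit 0) (XT.nd (nat_lit 156) (nat_lit 0) (nat_lit 0) (XT.nd (nat_lit 78) (nat_lit 0) (nat_lit 0) (XT.lf (nat_lit 0) (nat_lit 65849941383) (nat_lit 76)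 (nat_lit 42022243216) (nat_lit 76) (nat_lit 32651347264) (nat_lit 3) (nat_lit 4) (nat_lit 4) (nat_lit 5) (nat_lit 4) (nat_lit 4) (nat_lit 363) (nat_lit 295) (nat_lit 242)) (XT.lf (nat_lit 0) (nat_lit 83452016018) (nat_lit 76) (nat_lit 38594633261) (nat_lit 76) (nat_lit 29211786375) (nat_lit 3) (nat_lit 4) (nat_lit 4) (nat_lit 5) (nat_lit 4) (nat_lit 4) (nat_lit 364) (nat_lit 295) (nat_lit 241))) (XT.nd (nat_lit 78) (nat_lit 0) (nat_lit 0) (XT.lf (nat_lit 0) (nat_lit 102433414812) (nat_lit 76) (nat_lit 34906907507) (nat_lit 76) (nat_lit 25512994941) (nat_lit 3) (nat_lit 4) (nat_lit 4) (nat_lit 5) (nat_lit 4) (nat_lit 4) (nat_lit 365) (nat_lit 295) (nat_lit 240)) (XT.lf (nat_lit 0) (nat_lit 122906620126) (nat_lit 76) (nat_lit 30937212765) (nat_lit 76) (nat_lit 21533054198) (nat_lit 3) (nat_lit 4) (nat_lit 4) (nat_lit 5) (nat_lit 4) (nat_lit 4) (nat_lit 366) (nat_lit 295) (nat_lit 239))))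 (XT.nd (nat_lit 156) (nat_lit 76) (nat_lit 0) (XT.nd (nat_lit 78) (nat_lit 0) (nat_lit 0) (XT.lf (nat_lit 0) (nat_lit 144992954660) (nat_lit 76) (nat_lit 26662024916) (nat_lit 76) (nat_lit 17248379313) (nat_lit 3) (nat_lit 4) (nat_lit 4) (nat_lit 5) (nat_lit 4) (nat_lit 4) (nat_lit 367) (nat_lit 295) (nat_lit 238)) (XT.lf (nat_lit 0) (nat_lit 168823300395) (nat_lit 76) (nat_lit 22056009516) (nat_lit 76) (nat_lit 12633579619) (nat_lit 3) (nat_lit 4) (nat_lit 4) (nat_lit 5) (nat_lit 4) (nat_lit 4) (nat_lit 368) (nat_lit 295) (nat_lit 237))) (XT.nd (nat_lit 78) (nat_lit 76) (nat_lit 0) (XT.lf (nat_lit 0) (nat_lit 194538874196) (nat_lit 76) (nat_lit 17091871658) (nat_lit 76) (nat_lit 7661308155) (nat_lit 3) (nat_lit 4) (nat_lit 4) (nat_lit 5) (nat_lit 4) (nat_lit 4) (nat_lit 369) (nat_lit 295) (nat_lit 236)) (XT.nd (nat_lit 78) (nat_lit 76) (nat_lit 0) (XT.lf (nat_lit 0) (nat_lit 222292064647)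 (nat_lit 76) (nat_lit 11740194228) (nat_lit 76) (nat_lit 2302099609) (nat_lit 3) (nat_lit 4) (nat_lit 4) (nat_lit 5) (nat_lit 4) (nat_lit 4) (nat_lit 370) (nat_lit 295) (nat_lit 235)) (XT.lf (nat_lit 0) (nat_lit 3301930483) (nat_lit 152) (nat_lit 2577052468) (nat_lit 76) (nat_lit 248855123986) (nat_lit 2) (nat_lit 5) (nat_lit 4) (nat_lit 5) (nat_lit 3) (nat_lit 4) (nat_lit 371) (nat_lit 295) (nat_lit 234))))))) (XT.nd (nat_lit 624) (nat_lit 0) (nat_lit 0) (XT.nd (nat_lit 312) (nat_lit 0) (nat_lit 0) (XT.nd (nat_lit 156) (nat_lit 0) (nat_lit 0) (XT.nd (nat_lit 78) (nat_lit 0) (nat_lit 0) (XT.lf (nat_lit 0) (nat_lit 9485960035) (nat_lit 152) (nat_lit 264360062282) (nat_lit 0) (nat_lit 734548376) (nat_lit 1) (nat_lit 5) (nat_lit 3) (nat_lit 4) (nat_lit 1) (nat_lit 4) (nat_lit 372) (nat_lit 295) (nat_lit 233)) (XT.lf (nat_lit 0) (nat_lit 16380921487) (nat_lit 152) (nat_lit 271992561870) (nat_lit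 0) (nat_lit 7623974233) (nat_lit 1) (nat_lit 5) (nat_lit 3) (nat_lit 4) (nat_lit 1) (nat_lit 4) (nat_lit 373) (nat_lit 295) (nat_lit 232))) (XT.nd (nat_lit 78) (nat_lit 0) (nat_lit 0) (XT.lf (nat_lit 0) (nat_lit 23819347761) (nat_lit 152) (nat_lit 280251725887) (nat_lit 0) (nat_lit 15057274956) (nat_lit 1) (nat_lit 5) (nat_lit 3) (nat_lit 4) (nat_lit 1) (nat_lit 4) (nat_lit 374) (nat_lit 295) (nat_lit 231)) (XT.lf (nat_lit 0) (nat_lit 31845318419) (nat_lit 152) (nat_lit 289186497526) (nat_lit 0) (nat_lit 23078499734) (nat_lit 1) (nat_lit 5) (nat_lit 3) (nat_lit 4) (nat_lit 1) (nat_lit 4) (nat_lit 375) (nat_lit 295) (nat_lit 230)))) (XT.nd (nat_lit 156) (nat_lit 0) (nat_lit 0) (XT.nd (nat_lit 78) (nat_lit 0) (nat_lit 0) (XT.lf (nat_lit 0) (nat_lit 40506394770) (nat_lit 152) (nat_lit 298849823583) (nat_lit 0) (nat_lit 31735181751) (nat_lit 1) (nat_lit 5) (nat_lit 3) (nat_lit 4) (nat_lit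 1) (nat_lit 4) (nat_lit 376) (nat_lit 295) (nat_lit 229)) (XT.lf (nat_lit 0) (nat_lit 49853901711) (nat_lit 152) (nat_lit 309298968212) (nat_lit 0) (nat_lit 41078619864) (nat_lit 1) (nat_lit 5) (nat_lit 3) (nat_lit 4) (nat_lit 1) (nat_lit 4) (nat_lit 377) (nat_lit 295) (nat_lit 228))) (XT.nd (nat_lit 78) (nat_lit 0) (nat_lit 0) (XT.lf (nat_lit 0) (nat_lit 59943231874) (nat_lit 152) (nat_lit 320595852269) (nat_lit 0) (nat_lit 51164182594) (nat_lit 1) (nat_lit 5) (nat_lit 3) (nat_lit 4) (nat_lit 1) (nat_lit 4) (nat_lit 378) (nat_lit 295) (nat_lit 227)) (XT.lf (nat_lit 0) (nat_lit 70834173884) (nat_lit 152) (nat_lit 332807420254) (nat_lit 0) (nat_lit 62051636240) (nat_lit 1) (nat_lit 5) (nat_lit 3) (nat_lit 4) (nat_lit 1) (nat_lit 4) (nat_lit 379) (nat_lit 295) (nat_lit 226))))) (XT.nd (nat_lit 312) (nat_lit 0) (nat_lit 0) (XT.nd (nat_lit 156) (nat_lit 0) (nat_lit 0) (XT.nd (nat_lit 78)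 (nat_lit 0) (nat_lit 0) (XT.lf (nat_lit 0) (nat_lit 82591266655) (nat_lit 152) (nat_lit 346006037013) (nat_lit 0) (nat_lit 73805499045) (nat_lit 1) (nat_lit 5) (nat_lit 3) (nat_lit 4) (nat_lit 1) (nat_lit 4) (nat_lit 380) (nat_lit 295) (nat_lit 225)) (XT.lf (nat_lit 0) (nat_lit 95284181849) (nat_lit 152) (nat_lit 360269916571) (nat_lit 0) (nat_lit 86495423529) (nat_lit 1) (nat_lit 5) (nat_lit 3) (nat_lit 4) (nat_lit 1) (nat_lit 4) (nat_lit 381) (nat_lit 295) (nat_lit 224))) (XT.nd (nat_lit 78) (nat_lit 0) (nat_lit 0) (XT.lf (nat_lit 0) (nat_lit 108988136741) (nat_lit 152) (nat_lit 375683585623) (nat_lit 0) (nat_lit 100196609246) (nat_lit 1) (nat_lit 5) (nat_lit 3) (nat_lit 4) (nat_lit 1) (nat_lit 4) (nat_lit 382) (nat_lit 295) (nat_lit 223)) (XT.lf (nat_lit 0) (nat_lit 123784339953) (nat_lit 152) (nat_lit 392338384430) (nat_lit 0) (nat_lit 114990248406) (nat_lit 1) (nat_lit 5) (nat_lit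 3) (nat_lit 4) (nat_lit 1) (nat_lit 4) (nat_lit 383) (nat_lit 295) (nat_lit 222)))) (XT.nd (nat_lit 156) (nat_lit 0) (nat_lit 0) (XT.nd (nat_lit 78) (nat_lit 0) (nat_lit 0) (XT.lf (nat_lit 0) (nat_lit 139760472688) (nat_lit 152) (nat_lit 410333008094) (nat_lit 0) (nat_lit 130964007019) (nat_lit 1) (nat_lit 5) (nat_lit 3) (nat_lit 4) (nat_lit 1) (nat_lit 4) (nat_lit 384) (nat_lit 295) (nat_lit 221)) (XT.lf (nat_lit 0) (nat_lit 157011208327) (nat_lit 152) (nat_lit 429774091424) (nat_lit 0) (nat_lit 148212544397) (nat_lit 1) (nat_lit 5) (nat_lit 3) (nat_lit 4) (nat_lit 1) (nat_lit 4) (nat_lit 385) (nat_lit 295) (nat_lit 220))) (XT.nd (nat_lit 78) (nat_lit 0) (nat_lit 0) (XT.lf (nat_lit 0) (nat_lit 175638773449) (nat_lit 152) (nat_lit 450776840839) (nat_lit 0) (nat_lit 166838074093) (nat_lit 1) (nat_lit 5) (nat_lit 3) (nat_lit 4) (nat_lit 1) (nat_lit 4) (nat_lit 386) (nat_lit 295) (nat_lit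 219)) (XT.nd (nat_lit 78) (nat_lit 0) (nat_lit 0) (XT.lf (nat_lit 0) (nat_lit 195753553628) (nat_lit 152) (nat_lit 473465717076) (nat_lit 0) (nat_lit 186950969616) (nat_lit 1) (nat_lit 5) (nat_lit 3) (nat_lit 4) (nat_lit 1) (nat_lit 4) (nat_lit 387) (nat_lit 295) (nat_lit 218)) (XT.lf (nat_lit 0) (nat_lit 217474747559) (nat_lit 152) (nat_lit 497975172735) (nat_lit 0) (nat_lit 208670418497) (nat_lit 1) (nat_lit 5) (nat_lit 3) (nat_lit 4) (nat_lit 1) (nat_lit 4) (nat_lit 388) (nat_lit 295) (nat_lit 217))))))))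
noncomputable def xc82 : XT := (XT.nd (nat_lit 1326) (nat_lit 0) (nat_lit 0) (XT.nd (nat_lit 624) (nat_lit 0) (nat_lit 0) (XT.nd (nat_lit 312) (nat_lit 0) (nat_lit 0) (XT.nd (nat_lit 156) (nat_lit 0) (nat_lit 0) (XT.nd (nat_lit 78) (nat_lit 0) (nat_lit 0) (XT.lf (nat_lit 0) (nat_lit 240931073429) (nat_lit 152) (nat_lit 524450449036) (nat_lit 0) (nat_lit 232125128580) (nat_lit 1) (nat_lit 5) (nat_lit 3) (nat_lit 4) (nat_lit 1) (nat_lit 4) (nat_lit 389) (nat_lit 295) (nat_lit 216)) (XT.lf (nat_lit 0) (nat_lit 266261531689) (nat_lit 152) (nat_lit 553048436503) (nat_lit 0) (nat_lit 257454090740) (nat_lit 1) (nat_lit 5) (nat_lit 3) (nat_lit 4) (nat_lit 1) (nat_lit 4) (nat_lit 390) (nat_lit 295) (nat_lit 215))) (XT.nd (nat_lit 78) (nat_lit 0) (nat_lit 0) (XT.lf (nat_lit 0) (nat_lit 293616228756) (nat_lit 152) (nat_lit 583938604693) (nat_lit 0) (nat_lit 284807402530) (nat_lit 1) (nat_lit 5)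 (nat_lit 3) (nat_lit 4) (nat_lit 1) (nat_lit 4) (nat_lit 391) (nat_lit 295) (nat_lit 214)) (XT.lf (nat_lit 0) (nat_lit 323157266540) (nat_lit 152) (nat_lit 617304006454) (nat_lit 0) (nat_lit 314347157650) (nat_lit 1) (nat_lit 5) (nat_lit 3) (nat_lit 4) (nat_lit 1) (nat_lit 4) (nat_lit 392) (nat_lit 295) (nat_lit 213)))) (XT.nd (nat_lit 156) (nat_lit 0) (nat_lit 0) (XT.nd (nat_lit 78) (nat_lit 0) (nat_lit 0) (XT.lf (nat_lit 0) (nat_lit 355059703042) (nat_lit 152) (nat_lit 653342362686) (nat_lit 0) (nat_lit 346248406500) (nat_lit 1) (nat_lit 5) (nat_lit 3) (nat_lit 4) (nat_lit 1) (nat_lit 4) (nat_lit 393) (nat_lit 295) (nat_lit 212)) (XT.lf (nat_lit 0) (nat_lit 389512589738) (nat_lit 152) (nat_lit 692267234017) (nat_lit 0) (nat_lit 380700193518) (nat_lit 1) (nat_lit 5) (nat_lit 3) (nat_lit 4) (nat_lit 1) (nat_lit 4) (nat_lit 394) (nat_lit 295) (nat_lit 211))) (XT.nd (nat_lit 78) (nat_lit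 0) (nat_lit 0) (XT.lf (nat_lit 0) (nat_lit 426720091882) (nat_lit 152) (nat_lit 734309286352) (nat_lit 0) (nat_lit 417906677442) (nat_lit 1) (nat_lit 5) (nat_lit 3) (nat_lit 4) (nat_lit 1) (nat_lit 4) (nat_lit 395) (nat_lit 295) (nat_lit 210)) (XT.lf (nat_lit 0) (nat_lit 466902698377) (nat_lit 152) (nat_lit 779717657779) (nat_lit 0) (nat_lit 458088341140) (nat_lit 1) (nat_lit 5) (nat_lit 3) (nat_lit 4) (nat_lit 1) (nat_lit 4) (nat_lit 396) (nat_lit 295) (nat_lit 209))))) (XT.nd (nat_lit 312) (nat_lit 0) (nat_lit 0) (XT.nd (nat_lit 156) (nat_lit 0) (nat_lit 0) (XT.nd (nat_lit 78) (nat_lit 0) (nat_lit 0) (XT.lf (nat_lit 0) (nat_lit 510298528371) (nat_lit 152) (nat_lit 828761434944) (nat_lit 0) (nat_lit 501483298175) (nat_lit 1) (nat_lit 5) (nat_lit 3) (nat_lit 4) (nat_lit 1) (nat_lit 4) (nat_lit 397) (nat_lit 295) (nat_lit 208)) (XT.lf (nat_lit 0) (nat_lit 557164742339) (nat_lit 152) (nat_lit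 881731247637) (nat_lit 0) (nat_lit 548348703846) (nat_lit 1) (nat_lit 5) (nat_lit 3) (nat_lit 4) (nat_lit 1) (nat_lit 4) (nat_lit 398) (nat_lit 295) (nat_lit 207))) (XT.nd (nat_lit 78) (nat_lit 0) (nat_lit 0) (XT.lf (nat_lit 0) (nat_lit 607779065992) (nat_lit 152) (nat_lit 938940991045) (nat_lit 0) (nat_lit 598962279078) (nat_lit 1) (nat_lit 5) (nat_lit 3) (nat_lit 4) (nat_lit 1) (nat_lit 4) (nat_lit 399) (nat_lit 295) (nat_lit 206)) (XT.lf (nat_lit 0) (nat_lit 662441436065) (nat_lit 152) (nat_lit 1000729685868) (nat_lit 0) (nat_lit 653623956167) (nat_lit 1) (nat_lit 5) (nat_lit 3) (nat_lit 4) (nat_lit 1) (nat_lit 4) (nat_lit 400) (nat_lit 295) (nat_lit 205)))) (XT.nd (nat_lit 156) (nat_lit 0) (nat_lit 0) (XT.nd (nat_lit 78) (nat_lit 0) (nat_lit 0) (XT.lf (nat_lit 0) (nat_lit 721475777712) (nat_lit 152) (nat_lit 1067463487336) (nat_lit 0) (nat_lit 712657656163) (nat_lit 1) (nat_lit 5)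 (nat_lit 3) (nat_lit 4) (nat_lit 1) (nat_lit 4) (nat_lit 401) (nat_lit 295) (nat_lit 204)) (XT.lf (nat_lit 0) (nat_lit 785231924070) (nat_lit 152) (nat_lit 1139537855013) (nat_lit 0) (nat_lit 776413208399) (nat_lit 1) (nat_lit 5) (nat_lit 3) (nat_lit 4) (nat_lit 1) (nat_lit 4) (nat_lit 402) (nat_lit 295) (nat_lit 203))) (XT.nd (nat_lit 78) (nat_lit 0) (nat_lit 0) (XT.lf (nat_lit 0) (nat_lit 854087689338) (nat_lit 152) (nat_lit 1217379896263) (nat_lit 0) (nat_lit 845268423555) (nat_lit 1) (nat_lit 5) (nat_lit 3) (nat_lit 4) (nat_lit 1) (nat_lit 4) (nat_lit 403) (nat_lit 295) (nat_lit 202)) (XT.nd (nat_lit 78) (nat_lit 0) (nat_lit 0) (XT.lf (nat_lit 0) (nat_lit 928451107683) (nat_lit 152) (nat_lit 1301450897256) (nat_lit 0) (nat_lit 919631332536) (nat_lit 1) (nat_lit 5) (nat_lit 3) (nat_lit 4) (nat_lit 1) (nat_lit 4) (nat_lit 404) (nat_lit 295) (nat_lit 201)) (XT.lf (nat_lit 0) (nat_lit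 1008762851212) (nat_lit 152) (nat_lit 1392249056517) (nat_lit 0) (nat_lit 999942604431) (nat_lit 1) (nat_lit 5) (nat_lit 3) (nat_lit 4) (nat_lit 1) (nat_lit 4) (nat_lit 405) (nat_lit 295) (nat_lit 200))))))) (XT.nd (nat_lit 39234) (nat_lit 0) (nat_lit 2508) (XT.nd (nat_lit 312) (nat_lit 0) (nat_lit 0) (XT.nd (nat_lit 156) (nat_lit 0) (nat_lit 0) (XT.nd (nat_lit 78) (nat_lit 0) (nat_lit 0) (XT.lf (nat_lit 0) (nat_lit 1095498841368) (nat_lit 152) (nat_lit 1490312437212) (nat_lit 0) (nat_lit 1086678157891) (nat_lit 1) (nat_lit 5) (nat_lit 3) (nat_lit 4) (nat_lit 1) (nat_lit 4) (nat_lit 406) (nat_lit 295) (nat_lit 199)) (XT.lf (nat_lit 0) (nat_lit 1189173069204) (nat_lit 152) (nat_lit 1596222155671) (nat_lit 0) (nat_lit 1180351981378) (nat_lit 1) (nat_lit 5) (nat_lit 3) (nat_lit 4) (nat_lit 1) (nat_lit 4) (nat_lit 407) (nat_lit 295) (nat_lit 198))) (XT.nd (nat_lit 78) (nat_lit 0) (nat_lit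 0) (XT.lf (nat_lit 0) (nat_lit 1290340641257) (nat_lit 152) (nat_lit 1710605825039) (nat_lit 0) (nat_lit 1281519179033) (nat_lit 1) (nat_lit 5) (nat_lit 3) (nat_lit 4) (nat_lit 1) (nat_lit 4) (nat_lit 408) (nat_lit 295) (nat_lit 197)) (XT.lf (nat_lit 0) (nat_lit 1399601069062) (nat_lit 152) (nat_lit 1834141274470) (nat_lit 0) (nat_lit 1390779260174) (nat_lit 1) (nat_lit 5) (nat_lit 3) (nat_lit 4) (nat_lit 1) (nat_lit 4) (nat_lit 409) (nat_lit 295) (nat_lit 196)))) (XT.nd (nat_lit 156) (nat_lit 0) (nat_lit 0) (XT.nd (nat_lit 78) (nat_lit 0) (nat_lit 0) (XT.lf (nat_lit 0) (nat_lit 1517601821824) (nat_lit 152) (nat_lit 1967560565885) (nat_lit 0) (nat_lit 1508779691950) (nat_lit 1) (nat_lit 5) (nat_lit 3) (nat_lit 4) (nat_lit 1) (nat_lit 4) (nat_lit 410) (nat_lit 295) (nat_lit 195)) (XT.lf (nat_lit 0) (nat_lit 1645042163261) (nat_lit 152) (nat_lit 2111654332123) (nat_lit 0) (nat_lit 1636219736178)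 (nat_lit 1) (nat_lit 5) (nat_lit 3) (nat_lit 4) (nat_lit 1) (nat_lit 4) (nat_lit 411) (nat_lit 295) (nat_lit 194))) (XT.nd (nat_lit 78) (nat_lit 0) (nat_lit 0) (XT.lf (nat_lit 0) (nat_lit 1782677295396) (nat_lit 152) (nat_lit 2267276462168) (nat_lit 0) (nat_lit 1773854593120) (nat_lit 1) (nat_lit 5) (nat_lit 3) (nat_lit 4) (nat_lit 1) (nat_lit 4) (nat_lit 412) (nat_lit 295) (nat_lit 193)) (XT.lf (nat_lit 0) (nat_lit 1931322833829) (nat_lit 152) (nat_lit 2435349161237) (nat_lit 0) (nat_lit 1922499876744) (nat_lit 1) (nat_lit 5) (nat_lit 3) (nat_lit 4) (nat_lit 1) (nat_lit 4) (nat_lit 413) (nat_lit 295) (nat_lit 192))))) (XT.nd (nat_lit 312) (nat_lit 1064) (nat_lit 0) (XT.nd (nat_lit 156) (nat_lit 532) (nat_lit 0) (XT.nd (nat_lit 78) (nat_lit 380) (nat_lit 0) (XT.lf (nat_lit 0) (nat_lit 1024822114) (nat_lit 380) (nat_lit 1411433370) (nat_lit 0) (nat_lit 1024822114) (nat_lit 60) (nat_lit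 5) (nat_lit 65) (nat_lit 4) (nat_lit 60) (nat_lit 4) (nat_lit 308) (nat_lit 296) (nat_lit 296)) (XT.lf (nat_lit 0) (nat_lit 1830218004) (nat_lit 380) (nat_lit 3501783632) (nat_lit 380) (nat_lit 1723725431) (nat_lit 55) (nat_lit 4) (nat_lit 60) (nat_lit 5) (nat_lit 60) (nat_lit 4) (nat_lit 309) (nat_lit 296) (nat_lit 295))) (XT.nd (nat_lit 78) (nat_lit 456) (nat_lit 0) (XT.lf (nat_lit 0) (nat_lit 1415552500) (nat_lit 456) (nat_lit 480059187) (nat_lit 76) (nat_lit 5316120522) (nat_lit 54) (nat_lit 5) (nat_lit 60) (nat_lit 5) (nat_lit 55) (nat_lit 4) (nat_lit 310) (nat_lit 296) (nat_lit 294)) (XT.lf (nat_lit 0) (nat_lit 4585606222) (nat_lit 532) (nat_lit 2798546260) (nat_lit 0) (nat_lit 3377788) (nat_lit 48) (nat_lit 5) (nat_lit 55) (nat_lit 4) (nat_lit 48) (nat_lit 4) (nat_lit 311) (nat_lit 296) (nat_lit 293)))) (XT.nd (nat_lit 156) (nat_lit 684) (nat_lit 0) (XT.nd (nat_lit 78) (nat_lit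 0) (nat_lit 0) (XT.lf (nat_lit 0) (nat_lit 299606906) (nat_lit 380) (nat_lit 5265971926) (nat_lit 76) (nat_lit 2020448348) (nat_lit 43) (nat_lit 5) (nat_lit 48) (nat_lit 5) (nat_lit 44) (nat_lit 4) (nat_lit 312) (nat_lit 296) (nat_lit 292)) (XT.lf (nat_lit 0) (nat_lit 3355076021) (nat_lit 380) (nat_lit 120712702) (nat_lit 76) (nat_lit 4330785170) (nat_lit 43) (nat_lit 5) (nat_lit 48) (nat_lit 5) (nat_lit 44) (nat_lit 4) (nat_lit 313) (nat_lit 296) (nat_lit 291))) (XT.nd (nat_lit 78) (nat_lit 456) (nat_lit 0) (XT.lf (nat_lit 0) (nat_lit 5470016073) (nat_lit 228) (nat_lit 1111601798) (nat_lit 304) (nat_lit 1469541230) (nat_lit 40) (nat_lit 5) (nat_lit 43) (nat_lit 5) (nat_lit 44) (nat_lit 4) (nat_lit 314) (nat_lit 296) (nat_lit 290)) (XT.nd (nat_lit 78) (nat_lit 152) (nat_lit 0) (XT.lf (nat_lit 0) (nat_lit 1576330350) (nat_lit 304) (nat_lit 5292741187) (nat_lit 76) (nat_lit 1450285382)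 (nat_lit 36) (nat_lit 5) (nat_lit 40) (nat_lit 5) (nat_lit 37) (nat_lit 4) (nat_lit 315) (nat_lit 296) (nat_lit 289)) (XT.lf (nat_lit 0) (nat_lit 320395512) (nat_lit 152) (nat_lit 4382188914) (nat_lit 228) (nat_lit 3910501269) (nat_lit 34) (nat_lit 5) (nat_lit 36) (nat_lit 5) (nat_lit 37) (nat_lit 4) (nat_lit 316) (nat_lit 296) (nat_lit 288))))))))
noncomputable def xc83 : XT := (XT.nd (nat_lit 1326) (nat_lit 608) (nat_lit 0) (XT.nd (nat_lit 624) (nat_lit 532) (nat_lit 0) (XT.nd (nat_lit 312) (nat_lit 532) (nat_lit 0) (XT.nd (nat_lit 156) (nat_lit 152) (nat_lit 0) (XT.nd (nat_lit 78) (nat_lit 304) (nat_lit 0) (XT.lf (nat_lit 0) (nat_lit 6436817021) (nat_lit 152) (nat_lit 1602308986) (nat_lit 228) (nat_lit 894758105) (nat_lit 34) (nat_lit 5) (nat_lit 36) (nat_lit 5) (nat_lit 37) (nat_lit 4) (nat_lit 317) (nat_lit 296) (nat_lit 287)) (XT.lf (nat_lit 0) (nat_lit 2192144202) (nat_lit 304)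 (nat_lit 5669176875) (nat_lit 76) (nat_lit 1418966066) (nat_lit 30) (nat_lit 5) (nat_lit 34) (nat_lit 5) (nat_lit 31) (nat_lit 4) (nat_lit 318) (nat_lit 296) (nat_lit 286))) (XT.nd (nat_lit 78) (nat_lit 0) (nat_lit 0) (XT.lf (nat_lit 0) (nat_lit 410651588) (nat_lit 152) (nat_lit 5018808370) (nat_lit 228) (nat_lit 4227245771) (nat_lit 28) (nat_lit 5) (nat_lit 30) (nat_lit 5) (nat_lit 31) (nat_lit 4) (nat_lit 319) (nat_lit 296) (nat_lit 285)) (XT.lf (nat_lit 0) (nat_lit 7061191119) (nat_lit 152) (nat_lit 1856681857) (nat_lit 228) (nat_lit 1146279819) (nat_lit 28) (nat_lit 5) (nat_lit 30) (nat_lit 5) (nat_lit 31) (nat_lit 4) (nat_lit 320) (nat_lit 296) (nat_lit 284)))) (XT.nd (nat_lit 156) (nat_lit 304) (nat_lit 0) (XT.nd (nat_lit 78) (nat_lit 0) (nat_lit 0) (XT.lf (nat_lit 0) (nat_lit 2043949415) (nat_lit 228) (nat_lit 6904606300) (nat_lit 76) (nat_lit 1553935061) (nat_lit 25) (nat_lit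 5) (nat_lit 28) (nat_lit 5) (nat_lit 26) (nat_lit 4) (nat_lit 321) (nat_lit 296) (nat_lit 283)) (XT.lf (nat_lit 0) (nat_lit 5409270331) (nat_lit 228) (nat_lit 385292721) (nat_lit 76) (nat_lit 5180632094) (nat_lit 25) (nat_lit 5) (nat_lit 28) (nat_lit 5) (nat_lit 26) (nat_lit 4) (nat_lit 322) (nat_lit 296) (nat_lit 282))) (XT.nd (nat_lit 78) (nat_lit 228) (nat_lit 0) (XT.lf (nat_lit 0) (nat_lit 6778532237) (nat_lit 76) (nat_lit 2288806506) (nat_lit 152) (nat_lit 2416704091) (nat_lit 24) (nat_lit 5) (nat_lit 25) (nat_lit 5) (nat_lit 26) (nat_lit 4) (nat_lit 323) (nat_lit 296) (nat_lit 281)) (XT.lf (nat_lit 0) (nat_lit 901859351) (nat_lit 228) (nat_lit 9692215775) (nat_lit 76) (nat_lit 1440475940) (nat_lit 21) (nat_lit 5) (nat_lit 24) (nat_lit 5) (nat_lit 22) (nat_lit 4) (nat_lit 324) (nat_lit 296) (nat_lit 280))))) (XT.nd (nat_lit 312) (nat_lit 228) (nat_lit 0) (XT.nd (nat_lit 156) (nat_lit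 228) (nat_lit 0) (XT.nd (nat_lit 78) (nat_lit 76) (nat_lit 0) (XT.lf (nat_lit 0) (nat_lit 4412070781) (nat_lit 228) (nat_lit 2744197481) (nat_lit 76) (nat_lit 5463437437) (nat_lit 21) (nat_lit 5) (nat_lit 24) (nat_lit 5) (nat_lit 22) (nat_lit 4) (nat_lit 325) (nat_lit 296) (nat_lit 279)) (XT.lf (nat_lit 0) (nat_lit 4794461100) (nat_lit 76) (nat_lit 3399203676) (nat_lit 152) (nat_lit 5058916088) (nat_lit 20) (nat_lit 5) (nat_lit 21) (nat_lit 5) (nat_lit 22) (nat_lit 4) (nat_lit 326) (nat_lit 296) (nat_lit 278))) (XT.nd (nat_lit 78) (nat_lit 228) (nat_lit 0) (XT.lf (nat_lit 0) (nat_lit 12248381046) (nat_lit 152) (nat_lit 1063292603) (nat_lit 0) (nat_lit 626906857) (nat_lit 20) (nat_lit 5) (nat_lit 22) (nat_lit 4) (nat_lit 20) (nat_lit 4) (nat_lit 327) (nat_lit 296) (nat_lit 277)) (XT.lf (nat_lit 0) (nat_lit 1997452523) (nat_lit 228) (nat_lit 7726401273) (nat_lit 76) (nat_lit 4940229274)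 (nat_lit 17) (nat_lit 5) (nat_lit 20) (nat_lit 5) (nat_lit 18) (nat_lit 4) (nat_lit 328) (nat_lit 296) (nat_lit 276)))) (XT.nd (nat_lit 156) (nat_lit 152) (nat_lit 0) (XT.nd (nat_lit 78) (nat_lit 76) (nat_lit 0) (XT.lf (nat_lit 0) (nat_lit 5806382459) (nat_lit 228) (nat_lit 44223610) (nat_lit 76) (nat_lit 9600213991) (nat_lit 17) (nat_lit 5) (nat_lit 20) (nat_lit 5) (nat_lit 18) (nat_lit 4) (nat_lit 329) (nat_lit 296) (nat_lit 275)) (XT.lf (nat_lit 0) (nat_lit 8498518107) (nat_lit 76) (nat_lit 1521965874) (nat_lit 152) (nat_lit 6272079862) (nat_lit 16) (nat_lit 5) (nat_lit 17) (nat_lit 5) (nat_lit 18) (nat_lit 4) (nat_lit 330) (nat_lit 296) (nat_lit 274))) (XT.nd (nat_lit 78) (nat_lit 76) (nat_lit 0) (XT.lf (nat_lit 0) (nat_lit 282986936) (nat_lit 76) (nat_lit 14270385203) (nat_lit 76) (nat_lit 2649838983) (nat_lit 15) (nat_lit 4) (nat_lit 16) (nat_lit 5) (nat_lit 16) (nat_lit 4) (nat_lit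 331) (nat_lit 296) (nat_lit 273)) (XT.nd (nat_lit 78) (nat_lit 0) (nat_lit 0) (XT.lf (nat_lit 0) (nat_lit 1355671057) (nat_lit 152) (nat_lit 8977449100) (nat_lit 76) (nat_lit 7838714125) (nat_lit 14) (nat_lit 5) (nat_lit 16) (nat_lit 5) (nat_lit 15) (nat_lit 4) (nat_lit 332) (nat_lit 296) (nat_lit 272)) (XT.lf (nat_lit 0) (nat_lit 5444442844) (nat_lit 152) (nat_lit 636413675) (nat_lit 76) (nat_lit 13139182875) (nat_lit 14) (nat_lit 5) (nat_lit 16) (nat_lit 5) (nat_lit 15) (nat_lit 4) (nat_lit 333) (nat_lit 296) (nat_lit 271))))))) (XT.nd (nat_lit 702) (nat_lit 228) (nat_lit 0) (XT.nd (nat_lit 312) (nat_lit 152) (nat_lit 0) (XT.nd (nat_lit 156) (nat_lit 152) (nat_lit 0) (XT.nd (nat_lit 78) (nat_lit 0) (nat_lit 0) (XT.lf (nat_lit 0) (nat_lit 8648681199) (nat_lit 76) (nat_lit 1332581602) (nat_lit 152) (nat_lit 10361233457) (nat_lit 13) (nat_lit 5) (nat_lit 14) (nat_lit 5) (nat_lit 15) (nat_lit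 4) (nat_lit 334) (nat_lit 296) (nat_lit 270)) (XT.lf (nat_lit 0) (nat_lit 14904277235) (nat_lit 152) (nat_lit 3089414549) (nat_lit 0) (nat_lit 3559263773) (nat_lit 13) (nat_lit 5) (nat_lit 15) (nat_lit 4) (nat_lit 13) (nat_lit 4) (nat_lit 335) (nat_lit 296) (nat_lit 269))) (XT.nd (nat_lit 78) (nat_lit 76) (nat_lit 0) (XT.lf (nat_lit 0) (nat_lit 6340437990) (nat_lit 76) (nat_lit 13988270064) (nat_lit 76) (nat_lit 2522998448) (nat_lit 12) (nat_lit 4) (nat_lit 13) (nat_lit 5) (nat_lit 13) (nat_lit 4) (nat_lit 336) (nat_lit 296) (nat_lit 268)) (XT.lf (nat_lit 0) (nat_lit 1843617886) (nat_lit 152) (nat_lit 7741896553) (nat_lit 76) (nat_lit 14664571499) (nat_lit 11) (nat_lit 5) (nat_lit 13) (nat_lit 5) (nat_lit 12) (nat_lit 4) (nat_lit 337) (nat_lit 296) (nat_lit 267)))) (XT.nd (nat_lit 156) (nat_lit 76) (nat_lit 0) (XT.nd (nat_lit 78) (nat_lit 0) (nat_lit 0) (XT.lf (nat_lit 0) (nat_lit 1608788694)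 (nat_lit 76) (nat_lit 4779919207) (nat_lit 152) (nat_lit 19369197450) (nat_lit 10) (nat_lit 5) (nat_lit 11) (nat_lit 5) (nat_lit 12) (nat_lit 4) (nat_lit 338) (nat_lit 296) (nat_lit 266)) (XT.lf (nat_lit 0) (nat_lit 11451998944) (nat_lit 152) (nat_lit 15372982053) (nat_lit 0) (nat_lit 549046592) (nat_lit 10) (nat_lit 5) (nat_lit 12) (nat_lit 4) (nat_lit 10) (nat_lit 4) (nat_lit 339) (nat_lit 296) (nat_lit 265))) (XT.nd (nat_lit 78) (nat_lit 76) (nat_lit 0) (XT.lf (nat_lit 0) (nat_lit 16977428372) (nat_lit 152) (nat_lit 6144856347) (nat_lit 0) (nat_lit 5992630341) (nat_lit 10) (nat_lit 5) (nat_lit 12) (nat_lit 4) (nat_lit 10) (nat_lit 4) (nat_lit 340) (nat_lit 296) (nat_lit 264)) (XT.nd (nat_lit 78) (nat_lit 0) (nat_lit 0) (XT.lf (nat_lit 0) (nat_lit 3899996437) (nat_lit 76) (nat_lit 19076580869) (nat_lit 76) (nat_lit 8015999802) (nat_lit 9) (nat_lit 4) (nat_lit 10) (nat_lit 5) (nat_lit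 10) (nat_lit 4) (nat_lit 341) (nat_lit 296) (nat_lit 263)) (XT.lf (nat_lit 0) (nat_lit 14984236595) (nat_lit 76) (nat_lit 14579190068) (nat_lit 76) (nat_lit 3448439524) (nat_lit 9) (nat_lit 4) (nat_lit 10) (nat_lit 5) (nat_lit 10) (nat_lit 4) (nat_lit 342) (nat_lit 296) (nat_lit 262)))))) (XT.nd (nat_lit 312) (nat_lit 76) (nat_lit 0) (XT.nd (nat_lit 156) (nat_lit 0) (nat_lit 0) (XT.nd (nat_lit 78) (nat_lit 76) (nat_lit 0) (XT.lf (nat_lit 0) (nat_lit 1353003159) (nat_lit 152) (nat_lit 8381475710) (nat_lit 76) (nat_lit 25459974602) (nat_lit 8) (nat_lit 5) (nat_lit 10) (nat_lit 5) (nat_lit 9) (nat_lit 4) (nat_lit 343) (nat_lit 296) (nat_lit 261)) (XT.lf (nat_lit 0) (nat_lit 1943766816) (nat_lit 76) (nat_lit 4402217854) (nat_lit 152) (nat_lit 31199027400) (nat_lit 7) (nat_lit 5) (nat_lit 8) (nat_lit 5) (nat_lit 9) (nat_lit 4) (nat_lit 344) (nat_lit 296) (nat_lit 260))) (XT.nd (nat_lit 78)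 (nat_lit 0) (nat_lit 0) (XT.lf (nat_lit 0) (nat_lit 11953593014) (nat_lit 152) (nat_lit 26632929369) (nat_lit 0) (nat_lit 1479904039) (nat_lit 7) (nat_lit 5) (nat_lit 9) (nat_lit 4) (nat_lit 7) (nat_lit 4) (nat_lit 345) (nat_lit 296) (nat_lit 259)) (XT.lf (nat_lit 0) (nat_lit 18075491075) (nat_lit 152) (nat_lit 17154786621) (nat_lit 0) (nat_lit 7554045933) (nat_lit 7) (nat_lit 5) (nat_lit 9) (nat_lit 4) (nat_lit 7) (nat_lit 4) (nat_lit 346) (nat_lit 296) (nat_lit 258)))) (XT.nd (nat_lit 156) (nat_lit 0) (nat_lit 0) (XT.nd (nat_lit 78) (nat_lit 76) (nat_lit 0) (XT.lf (nat_lit 0) (nat_lit 24642083324) (nat_lit 152) (nat_lit 7004776794) (nat_lit 0) (nat_lit 14076419508) (nat_lit 7) (nat_lit 5) (nat_lit 9) (nat_lit 4) (nat_lit 7) (nat_lit 4) (nat_lit 347) (nat_lit 296) (nat_lit 257)) (XT.lf (nat_lit 0) (nat_lit 4081417343) (nat_lit 76) (nat_lit 27709023742) (nat_lit 76) (nat_lit 17102416710)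 (nat_lit 6) (nat_lit 4) (nat_lit 7) (nat_lit 5) (nat_lit 7) (nat_lit 4) (nat_lit 348) (nat_lit 296) (nat_lit 256))) (XT.nd (nat_lit 78) (nat_lit 0) (nat_lit 0) (XT.lf (nat_lit 0) (nat_lit 16374914323) (nat_lit 76) (nat_lit 23286771522) (nat_lit 76) (nat_lit 12642254105) (nat_lit 6) (nat_lit 4) (nat_lit 7) (nat_lit 5) (nat_lit 7) (nat_lit 4) (nat_lit 349) (nat_lit 296) (nat_lit 255)) (XT.nd (nat_lit 78) (nat_lit 0) (nat_lit 0) (XT.lf (nat_lit 0) (nat_lit 29579705367) (nat_lit 76) (nat_lit 18545420532) (nat_lit 76) (nat_lit 7865800906) (nat_lit 6) (nat_lit 4) (nat_lit 7) (nat_lit 5) (nat_lit 7) (nat_lit 4) (nat_lit 350) (nat_lit 296) (nat_lit 254)) (XT.lf (nat_lit 0) (nat_lit 43774041087) (nat_lit 76) (nat_lit 13456873875) (nat_lit 76) (nat_lit 2744752205) (nat_lit 6) (nat_lit 4) (nat_lit 7) (nat_lit 5) (nat_lit 7) (nat_lit 4) (nat_lit 351) (nat_lit 296) (nat_lit 253))))))))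
noncomputable def xc84 : XT := (XT.nd (nat_lit 1326) (nat_lit 152) (nat_lit 0) (XT.nd (nat_lit 624) (nat_lit 76) (nat_lit 0) (XT.nd (nat_lit 312) (nat_lit 0) (nat_lit 0) (XT.nd (nat_lit 156) (nat_lit 0) (nat_lit 0) (XT.nd (nat_lit 78) (nat_lit 76) (nat_lit 0) (XT.lf (nat_lit 0) (nat_lit 2613610837) (nat_lit 152) (nat_lit 5305905613) (nat_lit 76) (nat_lit 56356964476) (nat_lit 5) (nat_lit 5) (nat_lit 7) (nat_lit 5) (nat_lit 6) (nat_lit 4) (nat_lit 352) (nat_lit 296) (nat_lit 252)) (XT.lf (nat_lit 0) (nat_lit 6664647299) (nat_lit 76) (nat_lit 1717433816) (nat_lit 152) (nat_lit 60523210273) (nat_lit 4) (nat_lit 5) (nat_lit 5) (nat_lit 5) (nat_lit 6) (nat_lit 4) (nat_lit 353) (nat_lit 296) (nat_lit 251))) (XT.nd (nat_lit 78) (nat_lit 0) (nat_lit 0) (XT.lf (nat_lit 0) (nat_lit 14850314679) (nat_lit 152) (nat_lit 54180914163) (nat_lit 0) (nat_lit 4854127093) (nat_lit 4) (nat_lit 5) (nat_lit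 6) (nat_lit 4) (nat_lit 4) (nat_lit 4) (nat_lit 354) (nat_lit 296) (nat_lit 250)) (XT.lf (nat_lit 0) (nat_lit 21852519250) (nat_lit 152) (nat_lit 45575785299) (nat_lit 0) (nat_lit 11834211318) (nat_lit 4) (nat_lit 5) (nat_lit 6) (nat_lit 4) (nat_lit 4) (nat_lit 4) (nat_lit 355) (nat_lit 296) (nat_lit 249)))) (XT.nd (nat_lit 156) (nat_lit 0) (nat_lit 0) (XT.nd (nat_lit 78) (nat_lit 0) (nat_lit 0) (XT.lf (nat_lit 0) (nat_lit 29388885048) (nat_lit 152) (nat_lit 36332959815) (nat_lit 0) (nat_lit 19350095315) (nat_lit 4) (nat_lit 5) (nat_lit 6) (nat_lit 4) (nat_lit 4) (nat_lit 4) (nat_lit 356) (nat_lit 296) (nat_lit 248)) (XT.lf (nat_lit 0) (nat_lit 37504072021) (nat_lit 152) (nat_lit 26397665413) (nat_lit 0) (nat_lit 27446317657) (nat_lit 4) (nat_lit 5) (nat_lit 6) (nat_lit 4) (nat_lit 4) (nat_lit 4) (nat_lit 357) (nat_lit 296) (nat_lit 247))) (XT.nd (nat_lit 78) (nat_lit 0) (nat_lit 0) (XT.lf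 (nat_lit 0) (nat_lit 46246170164) (nat_lit 152) (nat_lit 15711026274) (nat_lit 0) (nat_lit 36170855956) (nat_lit 4) (nat_lit 5) (nat_lit 6) (nat_lit 4) (nat_lit 4) (nat_lit 4) (nat_lit 358) (nat_lit 296) (nat_lit 246)) (XT.lf (nat_lit 0) (nat_lit 55666984504) (nat_lit 152) (nat_lit 4209714166) (nat_lit 0) (nat_lit 45575411181) (nat_lit 4) (nat_lit 5) (nat_lit 6) (nat_lit 4) (nat_lit 4) (nat_lit 4) (nat_lit 359) (nat_lit 296) (nat_lit 245))))) (XT.nd (nat_lit 312) (nat_lit 0) (nat_lit 0) (XT.nd (nat_lit 156) (nat_lit 0) (nat_lit 0) (XT.nd (nat_lit 78) (nat_lit 0) (nat_lit 0) (XT.lf (nat_lit 0) (nat_lit 8604877664) (nat_lit 76) (nat_lit 57424411938) (nat_lit 76) (nat_lit 47317783880) (nat_lit 3) (nat_lit 4) (nat_lit 4) (nat_lit 5) (nat_lit 4) (nat_lit 4) (nat_lit 360) (nat_lit 296) (nat_lit 244)) (XT.lf (nat_lit 0) (nat_lit 22647714639) (nat_lit 76) (nat_lit 54669386255) (nat_lit 76) (nat_lit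 44548818627) (nat_lit 3) (nat_lit 4) (nat_lit 4) (nat_lit 5) (nat_lit 4) (nat_lit 4) (nat_lit 361) (nat_lit 296) (nat_lit 243))) (XT.nd (nat_lit 78) (nat_lit 0) (nat_lit 0) (XT.lf (nat_lit 0) (nat_lit 37780337481) (nat_lit 76) (nat_lit 51710396590) (nat_lit 76) (nat_lit 41576921953) (nat_lit 3) (nat_lit 4) (nat_lit 4) (nat_lit 5) (nat_lit 4) (nat_lit 4) (nat_lit 362) (nat_lit 296) (nat_lit 242)) (XT.lf (nat_lit 0) (nat_lit 54092420993) (nat_lit 76) (nat_lit 48529908190) (nat_lit 76) (nat_lit 38384482618) (nat_lit 3) (nat_lit 4) (nat_lit 4) (nat_lit 5) (nat_lit 4) (nat_lit 4) (nat_lit 363) (nat_lit 296) (nat_lit 241)))) (XT.nd (nat_lit 156) (nat_lit 0) (nat_lit 0) (XT.nd (nat_lit 78) (nat_lit 0) (nat_lit 0) (XT.lf (nat_lit 0) (nat_lit 71680629372) (nat_lit 76) (nat_lit 45109073714) (nat_lit 76) (nat_lit 34952582463) (nat_lit 3) (nat_lit 4) (nat_lit 4) (nat_lit 5) (nat_lit 4) (nat_lit 4)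 (nat_lit 364) (nat_lit 296) (nat_lit 240)) (XT.lf (nat_lit 0) (nat_lit 90649189039) (nat_lit 76) (nat_lit 41427621553) (nat_lit 76) (nat_lit 31260884301) (nat_lit 3) (nat_lit 4) (nat_lit 4) (nat_lit 5) (nat_lit 4) (nat_lit 4) (nat_lit 365) (nat_lit 296) (nat_lit 239))) (XT.nd (nat_lit 78) (nat_lit 0) (nat_lit 0) (XT.lf (nat_lit 0) (nat_lit 111110506274) (nat_lit 76) (nat_lit 37463735692) (nat_lit 76) (nat_lit 27287511403) (nat_lit 3) (nat_lit 4) (nat_lit 4) (nat_lit 5) (nat_lit 4) (nat_lit 4) (nat_lit 366) (nat_lit 296) (nat_lit 238)) (XT.nd (nat_lit 78) (nat_lit 0) (nat_lit 0) (XT.lf (nat_lit 0) (nat_lit 133185833326) (nat_lit 76) (nat_lit 33193926438) (nat_lit 76) (nat_lit 23008917855) (nat_lit 3) (nat_lit 4) (nat_lit 4) (nat_lit 5) (nat_lit 4) (nat_lit 4) (nat_lit 367) (nat_lit 296) (nat_lit 237)) (XT.lf (nat_lit 0) (nat_lit 157005986950) (nat_lit 76) (nat_lit 28592891217) (nat_lit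 76) (nat_lit 18399749029) (nat_lit 3) (nat_lit 4) (nat_lit 4) (nat_lit 5) (nat_lit 4) (nat_lit 4) (nat_lit 368) (nat_lit 296) (nat_lit 236))))))) (XT.nd (nat_lit 624) (nat_lit 0) (nat_lit 0) (XT.nd (nat_lit 312) (nat_lit 76) (nat_lit 0) (XT.nd (nat_lit 156) (nat_lit 76) (nat_lit 0) (XT.nd (nat_lit 78) (nat_lit 0) (nat_lit 0) (XT.lf (nat_lit 0) (nat_lit 182712123609) (nat_lit 76) (nat_lit 23633364636) (nat_lit 76) (nat_lit 13432691332) (nat_lit 3) (nat_lit 4) (nat_lit 4) (nat_lit 5) (nat_lit 4) (nat_lit 4) (nat_lit 369) (nat_lit 296) (nat_lit 235)) (XT.lf (nat_lit 0) (nat_lit 210456575967) (nat_lit 76) (nat_lit 18285956907) (nat_lit 76) (nat_lit 8078310348) (nat_lit 3) (nat_lit 4) (nat_lit 4) (nat_lit 5) (nat_lit 4) (nat_lit 4) (nat_lit 370) (nat_lit 296) (nat_lit 234))) (XT.nd (nat_lit 78) (nat_lit 76) (nat_lit 0) (XT.lf (nat_lit 0) (nat_lit 240403755593) (nat_lit 76) (nat_lit 12518979689)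 (nat_lit 76) (nat_lit 2304876412) (nat_lit 3) (nat_lit 4) (nat_lit 4) (nat_lit 5) (nat_lit 4) (nat_lit 4) (nat_lit 371) (nat_lit 296) (nat_lit 233)) (XT.lf (nat_lit 0) (nat_lit 3725637926) (nat_lit 152) (nat_lit 2470754831) (nat_lit 76) (nat_lit 268903623784) (nat_lit 2) (nat_lit 5) (nat_lit 4) (nat_lit 5) (nat_lit 3) (nat_lit 4) (nat_lit 372) (nat_lit 296) (nat_lit 232)))) (XT.nd (nat_lit 156) (nat_lit 0) (nat_lit 0) (XT.nd (nat_lit 78) (nat_lit 0) (nat_lit 0) (XT.lf (nat_lit 0) (nat_lit 10403490873) (nat_lit 152) (nat_lit 285195455803) (nat_lit 0) (nat_lit 935326692) (nat_lit 1) (nat_lit 5) (nat_lit 3) (nat_lit 4) (nat_lit 1) (nat_lit 4) (nat_lit 373) (nat_lit 296) (nat_lit 231)) (XT.lf (nat_lit 0) (nat_lit 17838297090) (nat_lit 152) (nat_lit 293461771022) (nat_lit 0) (nat_lit 8365387029) (nat_lit 1) (nat_lit 5) (nat_lit 3) (nat_lit 4) (nat_lit 1) (nat_lit 4) (nat_lit 374) (nat_lit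 296) (nat_lit 230))) (XT.nd (nat_lit 78) (nat_lit 0) (nat_lit 0) (XT.lf (nat_lit 0) (nat_lit 25860915845) (nat_lit 152) (nat_lit 302403164145) (nat_lit 0) (nat_lit 16383611450) (nat_lit 1) (nat_lit 5) (nat_lit 3) (nat_lit 4) (nat_lit 1) (nat_lit 4) (nat_lit 375) (nat_lit 296) (nat_lit 229)) (XT.lf (nat_lit 0) (nat_lit 34518888581) (nat_lit 152) (nat_lit 312072621205) (nat_lit 0) (nat_lit 25037515359) (nat_lit 1) (nat_lit 5) (nat_lit 3) (nat_lit 4) (nat_lit 1) (nat_lit 4) (nat_lit 376) (nat_lit 296) (nat_lit 228))))) (XT.nd (nat_lit 312) (nat_lit 0) (nat_lit 0) (XT.nd (nat_lit 156) (nat_lit 0) (nat_lit 0) (XT.nd (nat_lit 78) (nat_lit 0) (nat_lit 0) (XT.lf (nat_lit 0) (nat_lit 43863521804) (nat_lit 152) (nat_lit 322527442689) (nat_lit 0) (nat_lit 34378381149) (nat_lit 1) (nat_lit 5) (nat_lit 3) (nat_lit 4) (nat_lit 1) (nat_lit 4) (nat_lit 377) (nat_lit 296) (nat_lit 227)) (XT.lf (nat_lit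 0) (nat_lit 53950191118) (nat_lit 152) (nat_lit 333829583094) (nat_lit 0) (nat_lit 44461562099) (nat_lit 1) (nat_lit 5) (nat_lit 3) (nat_lit 4) (nat_lit 1) (nat_lit 4) (nat_lit 378) (nat_lit 296) (nat_lit 226))) (XT.nd (nat_lit 78) (nat_lit 0) (nat_lit 0) (XT.lf (nat_lit 0) (nat_lit 64838669378) (nat_lit 152) (nat_lit 346046018067) (nat_lit 0) (nat_lit 55346810393) (nat_lit 1) (nat_lit 5) (nat_lit 3) (nat_lit 4) (nat_lit 1) (nat_lit 4) (nat_lit 379) (nat_lit 296) (nat_lit 225)) (XT.lf (nat_lit 0) (nat_lit 76593480900) (nat_lit 152) (nat_lit 359249141296) (nat_lit 0) (nat_lit 67098631205) (nat_lit 1) (nat_lit 5) (nat_lit 3) (nat_lit 4) (nat_lit 1) (nat_lit 4) (nat_lit 380) (nat_lit 296) (nat_lit 224)))) (XT.nd (nat_lit 156) (nat_lit 0) (nat_lit 0) (XT.nd (nat_lit 78) (nat_lit 0) (nat_lit 0) (XT.lf (nat_lit 0) (nat_lit 89284283826) (nat_lit 152) (nat_lit 373517193513) (nat_lit 0) (nat_lit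 79786664955) (nat_lit 1) (nat_lit 5) (nat_lit 3) (nat_lit 4) (nat_lit 1) (nat_lit 4) (nat_lit 381) (nat_lit 296) (nat_lit 223)) (XT.lf (nat_lit 0) (nat_lit 102986282915) (nat_lit 152) (nat_lit 388934726137) (nat_lit 0) (nat_lit 93486099992) (nat_lit 1) (nat_lit 5) (nat_lit 3) (nat_lit 4) (nat_lit 1) (nat_lit 4) (nat_lit 382) (nat_lit 296) (nat_lit 222))) (XT.nd (nat_lit 78) (nat_lit 0) (nat_lit 0) (XT.lf (nat_lit 0) (nat_lit 117780675197) (nat_lit 152) (nat_lit 405593102325) (nat_lit 0) (nat_lit 108278118152) (nat_lit 1) (nat_lit 5) (nat_lit 3) (nat_lit 4) (nat_lit 1) (nat_lit 4) (nat_lit 383) (nat_lit 296) (nat_lit 221)) (XT.nd (nat_lit 78) (nat_lit 0) (nat_lit 0) (XT.lf (nat_lit 0) (nat_lit 133755131146) (nat_lit 152) (nat_lit 423591038380) (nat_lit 0) (nat_lit 124250375840) (nat_lit 1) (nat_lit 5) (nat_lit 3) (nat_lit 4) (nat_lit 1) (nat_lit 4) (nat_lit 384) (nat_lit 296) (nat_lit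 220)) (XT.lf (nat_lit 0) (nat_lit 151004314204) (nat_lit 152) (nat_lit 443035188738) (nat_lit 0) (nat_lit 141497523471) (nat_lit 1) (nat_lit 5) (nat_lit 3) (nat_lit 4) (nat_lit 1) (nat_lit 4) (nat_lit 385) (nat_lit 296) (nat_lit 219))))))))
noncomputable def xc85 : XT := (XT.nd (nat_lit 1326) (nat_lit 0) (nat_lit 0) (XT.nd (nat_lit 624) (nat_lit 0) (nat_lit 0) (XT.nd (nat_lit 312) (nat_lit 0) (nat_lit 0) (XT.nd (nat_lit 156) (nat_lit 0) (nat_lit 0) (XT.nd (nat_lit 78) (nat_lit 0) (nat_lit 0) (XT.lf (nat_lit 0) (nat_lit 169630441752) (nat_lit 152) (nat_lit 464040777994) (nat_lit 0) (nat_lit 160121766366) (nat_lit 1) (nat_lit 5) (nat_lit 3) (nat_lit 4) (nat_lit 1) (nat_lit 4) (nat_lit 386) (nat_lit 296) (nat_lit 218)) (XT.lf (nat_lit 0) (nat_lit 189743890843) (nat_lit 152) (nat_lit 486732283713) (nat_lit 0) (nat_lit 180233470406) (nat_lit 1) (nat_lit 5) (nat_lit 3) (nat_lit 4) (nat_lit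 1) (nat_lit 4) (nat_lit 387) (nat_lit 296) (nat_lit 217))) (XT.nd (nat_lit 78) (nat_lit 0) (nat_lit 0) (XT.lf (nat_lit 0) (nat_lit 211463852287) (nat_lit 152) (nat_lit 511244174079) (nat_lit 0) (nat_lit 201951816062) (nat_lit 1) (nat_lit 5) (nat_lit 3) (nat_lit 4) (nat_lit 1) (nat_lit 4) (nat_lit 388) (nat_lit 296) (nat_lit 216)) (XT.lf (nat_lit 0) (nat_lit 234919036964) (nat_lit 152) (nat_lit 537721704736) (nat_lit 0) (nat_lit 225405504640) (nat_lit 1) (nat_lit 5) (nat_lit 3) (nat_lit 4) (nat_lit 1) (nat_lit 4) (nat_lit 389) (nat_lit 296) (nat_lit 215)))) (XT.nd (nat_lit 156) (nat_lit 0) (nat_lit 0) (XT.nd (nat_lit 78) (nat_lit 0) (nat_lit 0) (XT.lf (nat_lit 0) (nat_lit 260248438563) (nat_lit 152) (nat_lit 566321779571) (nat_lit 0) (nat_lit 250733520962) (nat_lit 1) (nat_lit 5) (nat_lit 3) (nat_lit 4) (nat_lit 1) (nat_lit 4) (nat_lit 390) (nat_lit 296) (nat_lit 214)) (XT.lf (nat_lit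 0) (nat_lit 287602157242) (nat_lit 152) (nat_lit 597213880509) (nat_lit 0) (nat_lit 278085956976) (nat_lit 1) (nat_lit 5) (nat_lit 3) (nat_lit 4) (nat_lit 1) (nat_lit 4) (nat_lit 391) (nat_lit 296) (nat_lit 213))) (XT.nd (nat_lit 78) (nat_lit 0) (nat_lit 0) (XT.lf (nat_lit 0) (nat_lit 317142289110) (nat_lit 152) (nat_lit 630581071852) (nat_lit 0) (nat_lit 307624901193) (nat_lit 1) (nat_lit 5) (nat_lit 3) (nat_lit 4) (nat_lit 1) (nat_lit 4) (nat_lit 392) (nat_lit 296) (nat_lit 212)) (XT.lf (nat_lit 0) (nat_lit 349043886802) (nat_lit 152) (nat_lit 666621085103) (nat_lit 0) (nat_lit 339525399206) (nat_lit 1) (nat_lit 5) (nat_lit 3) (nat_lit 4) (nat_lit 1) (nat_lit 4) (nat_lit 393) (nat_lit 296) (nat_lit 211))))) (XT.nd (nat_lit 312) (nat_lit 0) (nat_lit 0) (XT.nd (nat_lit 156) (nat_lit 0) (nat_lit 0) (XT.nd (nat_lit 78) (nat_lit 0) (nat_lit 0) (XT.lf (nat_lit 0) (nat_lit 383495996821) (nat_lit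 152) (nat_lit 705547490712) (nat_lit 0) (nat_lit 373976491006) (nat_lit 1) (nat_lit 5) (nat_lit 3) (nat_lit 4) (nat_lit 1) (nat_lit 4) (nat_lit 394) (nat_lit 296) (nat_lit 210)) (XT.lf (nat_lit 0) (nat_lit 420702779821) (nat_lit 152) (nat_lit 747590963675) (nat_lit 0) (nat_lit 411182331209) (nat_lit 1) (nat_lit 5) (nat_lit 3) (nat_lit 4) (nat_lit 1) (nat_lit 4) (nat_lit 395) (nat_lit 296) (nat_lit 209))) (XT.nd (nat_lit 78) (nat_lit 0) (nat_lit 0) (XT.lf (nat_lit 0) (nat_lit 460884720440) (nat_lit 152) (nat_lit 793000650498) (nat_lit 0) (nat_lit 451363398869) (nat_lit 1) (nat_lit 5) (nat_lit 3) (nat_lit 4) (nat_lit 1) (nat_lit 4) (nat_lit 396) (nat_lit 296) (nat_lit 208)) (XT.lf (nat_lit 0) (nat_lit 504279933883) (nat_lit 152) (nat_lit 842045645622) (nat_lit 0) (nat_lit 494757804016) (nat_lit 1) (nat_lit 5) (nat_lit 3) (nat_lit 4) (nat_lit 1) (nat_lit 4) (nat_lit 397) (nat_lit 296) (nat_lit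 207)))) (XT.nd (nat_lit 156) (nat_lit 0) (nat_lit 0) (XT.nd (nat_lit 78) (nat_lit 0) (nat_lit 0) (XT.lf (nat_lit 0) (nat_lit 551145576971) (nat_lit 152) (nat_lit 895016586055) (nat_lit 0) (nat_lit 541622698681) (nat_lit 1) (nat_lit 5) (nat_lit 3) (nat_lit 4) (nat_lit 1) (nat_lit 4) (nat_lit 398) (nat_lit 296) (nat_lit 206)) (XT.lf (nat_lit 0) (nat_lit 601759372031) (nat_lit 152) (nat_lit 952227373666) (nat_lit 0) (nat_lit 592235800758) (nat_lit 1) (nat_lit 5) (nat_lit 3) (nat_lit 4) (nat_lit 1) (nat_lit 4) (nat_lit 399) (nat_lit 296) (nat_lit 205))) (XT.nd (nat_lit 78) (nat_lit 0) (nat_lit 0) (XT.lf (nat_lit 0) (nat_lit 656421252666) (nat_lit 152) (nat_lit 1014017035344) (nat_lit 0) (nat_lit 646897039741) (nat_lit 1) (nat_lit 5) (nat_lit 3) (nat_lit 4) (nat_lit 1) (nat_lit 4) (nat_lit 400) (nat_lit 296) (nat_lit 204)) (XT.nd (nat_lit 78) (nat_lit 0) (nat_lit 0) (XT.lf (nat_lit 0) (nat_lit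 715455141130) (nat_lit 152) (nat_lit 1080751732049) (nat_lit 0) (nat_lit 705930334083) (nat_lit 1) (nat_lit 5) (nat_lit 3) (nat_lit 4) (nat_lit 1) (nat_lit 4) (nat_lit 401) (nat_lit 296) (nat_lit 203)) (XT.lf (nat_lit 0) (nat_lit 779210867873) (nat_lit 152) (nat_lit 1152826928648) (nat_lit 0) (nat_lit 769685510714) (nat_lit 1) (nat_lit 5) (nat_lit 3) (nat_lit 4) (nat_lit 1) (nat_lit 4) (nat_lit 402) (nat_lit 296) (nat_lit 202))))))) (XT.nd (nat_lit 624) (nat_lit 0) (nat_lit 0) (XT.nd (nat_lit 312) (nat_lit 0) (nat_lit 0) (XT.nd (nat_lit 156) (nat_lit 0) (nat_lit 0) (XT.nd (nat_lit 78) (nat_lit 0) (nat_lit 0) (XT.lf (nat_lit 0) (nat_lit 848066244610) (nat_lit 152) (nat_lit 1230669737419) (nat_lit 0) (nat_lit 838540378088) (nat_lit 1) (nat_lit 5) (nat_lit 3) (nat_lit 4) (nat_lit 1) (nat_lit 4) (nat_lit 403) (nat_lit 296) (nat_lit 201)) (XT.lf (nat_lit 0) (nat_lit 922429303203) (nat_lit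 152) (nat_lit 1314741449080) (nat_lit 0) (nat_lit 912902965047) (nat_lit 1) (nat_lit 5) (nat_lit 3) (nat_lit 4) (nat_lit 1) (nat_lit 4) (nat_lit 404) (nat_lit 296) (nat_lit 200))) (XT.nd (nat_lit 78) (nat_lit 0) (nat_lit 0) (XT.lf (nat_lit 0) (nat_lit 1002740713628) (nat_lit 152) (nat_lit 1405540266366) (nat_lit 0) (nat_lit 993213938776) (nat_lit 1) (nat_lit 5) (nat_lit 3) (nat_lit 4) (nat_lit 1) (nat_lit 4) (nat_lit 405) (nat_lit 296) (nat_lit 199)) (XT.lf (nat_lit 0) (nat_lit 1089476395356) (nat_lit 152) (nat_lit 1503604256344) (nat_lit 0) (nat_lit 1079949216154) (nat_lit 1) (nat_lit 5) (nat_lit 3) (nat_lit 4) (nat_lit 1) (nat_lit 4) (nat_lit 406) (nat_lit 296) (nat_lit 198)))) (XT.nd (nat_lit 156) (nat_lit 0) (nat_lit 0) (XT.nd (nat_lit 78) (nat_lit 0) (nat_lit 0) (XT.lf (nat_lit 0) (nat_lit 1183150337610) (nat_lit 152) (nat_lit 1609514538953) (nat_lit 0) (nat_lit 1173622784011) (nat_lit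 1) (nat_lit 5) (nat_lit 3) (nat_lit 4) (nat_lit 1) (nat_lit 4) (nat_lit 407) (nat_lit 296) (nat_lit 197)) (XT.lf (nat_lit 0) (nat_lit 1284317645234) (nat_lit 152) (nat_lit 1723898730684) (nat_lit 0) (nat_lit 1274789744970) (nat_lit 1) (nat_lit 5) (nat_lit 3) (nat_lit 4) (nat_lit 1) (nat_lit 4) (nat_lit 408) (nat_lit 296) (nat_lit 196))) (XT.nd (nat_lit 78) (nat_lit 0) (nat_lit 0) (XT.lf (nat_lit 0) (nat_lit 1393577828199) (nat_lit 152) (nat_lit 1847434663782) (nat_lit 0) (nat_lit 1384049606950) (nat_lit 1) (nat_lit 5) (nat_lit 3) (nat_lit 4) (nat_lit 1) (nat_lit 4) (nat_lit 409) (nat_lit 296) (nat_lit 195)) (XT.lf (nat_lit 0) (nat_lit 1511578354256) (nat_lit 152) (nat_lit 1980854403039) (nat_lit 0) (nat_lit 1502049835798) (nat_lit 1) (nat_lit 5) (nat_lit 3) (nat_lit 4) (nat_lit 1) (nat_lit 4) (nat_lit 410) (nat_lit 296) (nat_lit 194))))) (XT.nd (nat_lit 38766) (nat_lit 0) (nat_lit 3572)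 (XT.nd (nat_lit 156) (nat_lit 0) (nat_lit 0) (XT.nd (nat_lit 78) (nat_lit 0) (nat_lit 0) (XT.lf (nat_lit 0) (nat_lit 1639018485781) (nat_lit 152) (nat_lit 2124948583944) (nat_lit 0) (nat_lit 1629489692130) (nat_lit 1) (nat_lit 5) (nat_lit 3) (nat_lit 4) (nat_lit 1) (nat_lit 4) (nat_lit 411) (nat_lit 296) (nat_lit 193)) (XT.lf (nat_lit 0) (nat_lit 1776653423554) (nat_lit 152) (nat_lit 2280571097941) (nat_lit 0) (nat_lit 1767124375094) (nat_lit 1) (nat_lit 5) (nat_lit 3) (nat_lit 4) (nat_lit 1) (nat_lit 4) (nat_lit 412) (nat_lit 296) (nat_lit 192))) (XT.nd (nat_lit 38532) (nat_lit 0) (nat_lit 4864) (XT.lf (nat_lit 0) (nat_lit 1925298782021) (nat_lit 152) (nat_lit 2448644152520) (nat_lit 0) (nat_lit 1915769497628) (nat_lit 1) (nat_lit 5) (nat_lit 3) (nat_lit 4) (nat_lit 1) (nat_lit 4) (nat_lit 413) (nat_lit 296) (nat_lit 191)) (XT.lf (nat_lit 0) (nat_lit 1014747881) (nat_lit 228) (nat_lit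 1169784222) (nat_lit 228) (nat_lit 1169784222) (nat_lit 65) (nat_lit 4) (nat_lit 68) (nat_lit 5) (nat_lit 68) (nat_lit 4) (nat_lit 306) (nat_lit 297) (nat_lit 297)))) (XT.nd (nat_lit 156) (nat_lit 912) (nat_lit 0) (XT.nd (nat_lit 78) (nat_lit 304) (nat_lit 0) (XT.lf (nat_lit 0) (nat_lit 770093953) (nat_lit 304) (nat_lit 472131661) (nat_lit 76) (nat_lit 5569936608) (nat_lit 64) (nat_lit 5) (nat_lit 68) (nat_lit 5) (nat_lit 65) (nat_lit 4) (nat_lit 307) (nat_lit 297) (nat_lit 296)) (XT.lf (nat_lit 0) (nat_lit 3843499694) (nat_lit 380) (nat_lit 2944065707) (nat_lit 0) (nat_lit 145138636) (nat_lit 60) (nat_lit 5) (nat_lit 65) (nat_lit 4) (nat_lit 60) (nat_lit 4) (nat_lit 308) (nat_lit 297) (nat_lit 295))) (XT.nd (nat_lit 78) (nat_lit 532) (nat_lit 0) (XT.lf (nat_lit 0) (nat_lit 1584506277) (nat_lit 380) (nat_lit 5418360535) (nat_lit 380) (nat_lit 73649291) (nat_lit 55) (nat_lit 4) (nat_lit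 60) (nat_lit 5) (nat_lit 60) (nat_lit 4) (nat_lit 309) (nat_lit 297) (nat_lit 294)) (XT.nd (nat_lit 78) (nat_lit 456) (nat_lit 0) (XT.lf (nat_lit 0) (nat_lit 2868809471) (nat_lit 456) (nat_lit 901985864) (nat_lit 76) (nat_lit 3468036981) (nat_lit 54) (nat_lit 5) (nat_lit 60) (nat_lit 5) (nat_lit 55) (nat_lit 4) (nat_lit 310) (nat_lit 297) (nat_lit 293)) (XT.lf (nat_lit 0) (nat_lit 4032120400) (nat_lit 456) (nat_lit 1887451663) (nat_lit 532) (nat_lit 1504919911) (nat_lit 48) (nat_lit 5) (nat_lit 54) (nat_lit 5) (nat_lit 55) (nat_lit 4) (nat_lit 311) (nat_lit 297) (nat_lit 292))))))))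
noncomputable def xc86 : XT := (XT.nd (nat_lit 1326) (nat_lit 760) (nat_lit 0) (XT.nd (nat_lit 624) (nat_lit 988) (nat_lit 0) (XT.nd (nat_lit 312) (nat_lit 456) (nat_lit 0) (XT.nd (nat_lit 156) (nat_lit 532) (nat_lit 0) (XT.nd (nat_lit 78) (nat_lit 0) (nat_lit 0) (XT.lf (nat_lit 0) (nat_lit 1364512200) (nat_lit 380) (nat_lit 6039143650) (nat_lit 76) (nat_lit 230487884) (nat_lit 43) (nat_lit 5) (nat_lit 48) (nat_lit 5) (nat_lit 44) (nat_lit 4) (nat_lit 312) (nat_lit 297) (nat_lit 291)) (XT.lf (nat_lit 0) (nat_lit 4321462655) (nat_lit 380) (nat_lit 1009164976) (nat_lit 76) (nat_lit 2532196989) (nat_lit 43) (nat_lit 5) (nat_lit 48) (nat_lit 5) (nat_lit 44) (nat_lit 4) (nat_lit 313) (nat_lit 297) (nat_lit 290))) (XT.nd (nat_lit 78) (nat_lit 304) (nat_lit 0) (XT.lf (nat_lit 0) (nat_lit 4422417422) (nat_lit 228) (nat_lit 3009171330) (nat_lit 304) (nat_lit 685368300) (nat_lit 40) (nat_lit 5)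 (nat_lit 43) (nat_lit 5) (nat_lit 44) (nat_lit 4) (nat_lit 314) (nat_lit 297) (nat_lit 289)) (XT.lf (nat_lit 0) (nat_lit 1759704697) (nat_lit 228) (nat_lit 404001423) (nat_lit 304) (nat_lit 6232746157) (nat_lit 36) (nat_lit 5) (nat_lit 39) (nat_lit 5) (nat_lit 40) (nat_lit 5) (nat_lit 315) (nat_lit 297) (nat_lit 288)))) (XT.nd (nat_lit 156) (nat_lit 304) (nat_lit 0) (XT.nd (nat_lit 78) (nat_lit 152) (nat_lit 0) (XT.lf (nat_lit 0) (nat_lit 5186677402) (nat_lit 304) (nat_lit 1142626264) (nat_lit 76) (nat_lit 2369325738) (nat_lit 36) (nat_lit 5) (nat_lit 40) (nat_lit 5) (nat_lit 37) (nat_lit 4) (nat_lit 316) (nat_lit 297) (nat_lit 287)) (XT.lf (nat_lit 0) (nat_lit 4803775695) (nat_lit 152) (nat_lit 3608373171) (nat_lit 228) (nat_lit 616336535) (nat_lit 34) (nat_lit 5) (nat_lit 36) (nat_lit 5) (nat_lit 37) (nat_lit 4) (nat_lit 317) (nat_lit 297) (nat_lit 286))) (XT.nd (nat_lit 78) (nat_lit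 0) (nat_lit 0) (XT.lf (nat_lit 0) (nat_lit 1712682530) (nat_lit 228) (nat_lit 583256955) (nat_lit 304) (nat_lit 7091416580) (nat_lit 30) (nat_lit 5) (nat_lit 33) (nat_lit 5) (nat_lit 34) (nat_lit 5) (nat_lit 318) (nat_lit 297) (nat_lit 285)) (XT.lf (nat_lit 0) (nat_lit 5433790487) (nat_lit 304) (nat_lit 1710098779) (nat_lit 76) (nat_lit 2627979081) (nat_lit 30) (nat_lit 5) (nat_lit 34) (nat_lit 5) (nat_lit 31) (nat_lit 4) (nat_lit 319) (nat_lit 297) (nat_lit 284))))) (XT.nd (nat_lit 312) (nat_lit 532) (nat_lit 0) (XT.nd (nat_lit 156) (nat_lit 76) (nat_lit 0) (XT.nd (nat_lit 78) (nat_lit 228) (nat_lit 0) (XT.lf (nat_lit 0) (nat_lit 4744404259) (nat_lit 152) (nat_lit 4061992544) (nat_lit 228) (nat_lit 1382309549) (nat_lit 28) (nat_lit 5) (nat_lit 30) (nat_lit 5) (nat_lit 31) (nat_lit 4) (nat_lit 320) (nat_lit 297) (nat_lit 283)) (XT.lf (nat_lit 0) (nat_lit 969208987) (nat_lit 152) (nat_lit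 677939353) (nat_lit 228) (nat_lit 8994264766) (nat_lit 25) (nat_lit 5) (nat_lit 27) (nat_lit 5) (nat_lit 28) (nat_lit 5) (nat_lit 321) (nat_lit 297) (nat_lit 282))) (XT.nd (nat_lit 78) (nat_lit 76) (nat_lit 0) (XT.lf (nat_lit 0) (nat_lit 4929096509) (nat_lit 228) (nat_lit 3240491535) (nat_lit 76) (nat_lit 2951299594) (nat_lit 25) (nat_lit 5) (nat_lit 28) (nat_lit 5) (nat_lit 26) (nat_lit 4) (nat_lit 322) (nat_lit 297) (nat_lit 281)) (XT.lf (nat_lit 0) (nat_lit 3671708778) (nat_lit 76) (nat_lit 4778636697) (nat_lit 152) (nat_lit 3190428316) (nat_lit 24) (nat_lit 5) (nat_lit 25) (nat_lit 5) (nat_lit 26) (nat_lit 4) (nat_lit 323) (nat_lit 297) (nat_lit 280)))) (XT.nd (nat_lit 156) (nat_lit 304) (nat_lit 0) (XT.nd (nat_lit 78) (nat_lit 152) (nat_lit 0) (XT.lf (nat_lit 0) (nat_lit 11702459) (nat_lit 152) (nat_lit 1079454571) (nat_lit 76) (nat_lit 11114104294) (nat_lit 23) (nat_lit 5) (nat_lit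 25) (nat_lit 5) (nat_lit 24) (nat_lit 5) (nat_lit 324) (nat_lit 297) (nat_lit 279)) (XT.lf (nat_lit 0) (nat_lit 3407661998) (nat_lit 228) (nat_lit 6467350536) (nat_lit 76) (nat_lit 2924617331) (nat_lit 21) (nat_lit 5) (nat_lit 24) (nat_lit 5) (nat_lit 22) (nat_lit 4) (nat_lit 325) (nat_lit 297) (nat_lit 278))) (XT.nd (nat_lit 78) (nat_lit 228) (nat_lit 0) (XT.lf (nat_lit 0) (nat_lit 779172316) (nat_lit 76) (nat_lit 6257986480) (nat_lit 152) (nat_lit 6407582300) (nat_lit 20) (nat_lit 5) (nat_lit 21) (nat_lit 5) (nat_lit 22) (nat_lit 4) (nat_lit 326) (nat_lit 297) (nat_lit 277)) (XT.nd (nat_lit 78) (nat_lit 228) (nat_lit 0) (XT.lf (nat_lit 0) (nat_lit 8788175894) (nat_lit 76) (nat_lit 2234272410) (nat_lit 152) (nat_lit 3113909807) (nat_lit 20) (nat_lit 5) (nat_lit 21) (nat_lit 5) (nat_lit 22) (nat_lit 4) (nat_lit 327) (nat_lit 297) (nat_lit 276)) (XT.lf (nat_lit 0) (nat_lit 425966908) (nat_lit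 228) (nat_lit 12445604491) (nat_lit 76) (nat_lit 2010602312) (nat_lit 17) (nat_lit 5) (nat_lit 20) (nat_lit 5) (nat_lit 18) (nat_lit 4) (nat_lit 328) (nat_lit 297) (nat_lit 275))))))) (XT.nd (nat_lit 624) (nat_lit 456) (nat_lit 0) (XT.nd (nat_lit 312) (nat_lit 152) (nat_lit 0) (XT.nd (nat_lit 156) (nat_lit 76) (nat_lit 0) (XT.nd (nat_lit 78) (nat_lit 76) (nat_lit 0) (XT.lf (nat_lit 0) (nat_lit 4184929357) (nat_lit 228) (nat_lit 4849552046) (nat_lit 76) (nat_lit 6638476894) (nat_lit 17) (nat_lit 5) (nat_lit 20) (nat_lit 5) (nat_lit 18) (nat_lit 4) (nat_lit 329) (nat_lit 297) (nat_lit 274)) (XT.lf (nat_lit 0) (nat_lit 3356204760) (nat_lit 76) (nat_lit 4872887168) (nat_lit 152) (nat_lit 8299251746) (nat_lit 16) (nat_lit 5) (nat_lit 17) (nat_lit 5) (nat_lit 18) (nat_lit 4) (nat_lit 330) (nat_lit 297) (nat_lit 273))) (XT.nd (nat_lit 78) (nat_lit 76) (nat_lit 0) (XT.lf (nat_lit 0) (nat_lit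 12332548904) (nat_lit 76) (nat_lit 303840486) (nat_lit 152) (nat_lit 4812691854) (nat_lit 16) (nat_lit 5) (nat_lit 17) (nat_lit 5) (nat_lit 18) (nat_lit 4) (nat_lit 331) (nat_lit 297) (nat_lit 272)) (XT.lf (nat_lit 0) (nat_lit 3491683979) (nat_lit 76) (nat_lit 14012296500) (nat_lit 76) (nat_lit 930963436) (nat_lit 15) (nat_lit 4) (nat_lit 16) (nat_lit 5) (nat_lit 16) (nat_lit 4) (nat_lit 332) (nat_lit 297) (nat_lit 271)))) (XT.nd (nat_lit 156) (nat_lit 0) (nat_lit 0) (XT.nd (nat_lit 78) (nat_lit 76) (nat_lit 0) (XT.lf (nat_lit 0) (nat_lit 3162525756) (nat_lit 152) (nat_lit 6654770128) (nat_lit 76) (nat_lit 9671026733) (nat_lit 14) (nat_lit 5) (nat_lit 16) (nat_lit 5) (nat_lit 15) (nat_lit 4) (nat_lit 333) (nat_lit 297) (nat_lit 270)) (XT.lf (nat_lit 0) (nat_lit 2240370546) (nat_lit 76) (nat_lit 5266102222) (nat_lit 152) (nat_lit 13119768182) (nat_lit 13) (nat_lit 5) (nat_lit 14) (nat_lit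 5) (nat_lit 15) (nat_lit 4) (nat_lit 334) (nat_lit 297) (nat_lit 269))) (XT.nd (nat_lit 78) (nat_lit 0) (nat_lit 0) (XT.lf (nat_lit 0) (nat_lit 12084918959) (nat_lit 76) (nat_lit 216951510) (nat_lit 152) (nat_lit 9545068407) (nat_lit 13) (nat_lit 5) (nat_lit 14) (nat_lit 5) (nat_lit 15) (nat_lit 4) (nat_lit 335) (nat_lit 297) (nat_lit 268)) (XT.lf (nat_lit 0) (nat_lit 17533194844) (nat_lit 152) (nat_lit 708877410) (nat_lit 0) (nat_lit 4919093203) (nat_lit 13) (nat_lit 5) (nat_lit 15) (nat_lit 4) (nat_lit 13) (nat_lit 4) (nat_lit 336) (nat_lit 297) (nat_lit 267))))) (XT.nd (nat_lit 312) (nat_lit 228) (nat_lit 0) (XT.nd (nat_lit 156) (nat_lit 76) (nat_lit 0) (XT.nd (nat_lit 78) (nat_lit 76) (nat_lit 0) (XT.lf (nat_lit 0) (nat_lit 9408839527) (nat_lit 76) (nat_lit 13937923722) (nat_lit 76) (nat_lit 1220720098) (nat_lit 12) (nat_lit 4) (nat_lit 13) (nat_lit 5) (nat_lit 13) (nat_lit 4) (nat_lit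 337) (nat_lit 297) (nat_lit 266)) (XT.lf (nat_lit 0) (nat_lit 3314140780) (nat_lit 152) (nat_lit 5919255599) (nat_lit 76) (nat_lit 16849980137) (nat_lit 11) (nat_lit 5) (nat_lit 13) (nat_lit 5) (nat_lit 12) (nat_lit 4) (nat_lit 338) (nat_lit 297) (nat_lit 265))) (XT.nd (nat_lit 78) (nat_lit 0) (nat_lit 0) (XT.lf (nat_lit 0) (nat_lit 4117661868) (nat_lit 76) (nat_lit 4064416796) (nat_lit 152) (nat_lit 19533068276) (nat_lit 10) (nat_lit 5) (nat_lit 11) (nat_lit 5) (nat_lit 12) (nat_lit 4) (nat_lit 339) (nat_lit 297) (nat_lit 264)) (XT.lf (nat_lit 0) (nat_lit 13579898264) (nat_lit 152) (nat_lit 14327675716) (nat_lit 0) (nat_lit 1558687676) (nat_lit 10) (nat_lit 5) (nat_lit 12) (nat_lit 4) (nat_lit 10) (nat_lit 4) (nat_lit 340) (nat_lit 297) (nat_lit 263)))) (XT.nd (nat_lit 156) (nat_lit 152) (nat_lit 0) (XT.nd (nat_lit 78) (nat_lit 76) (nat_lit 0) (XT.lf (nat_lit 0) (nat_lit 19457603571)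 (nat_lit 152) (nat_lit 4529829205) (nat_lit 0) (nat_lit 7366223507) (nat_lit 10) (nat_lit 5) (nat_lit 12) (nat_lit 4) (nat_lit 10) (nat_lit 4) (nat_lit 341) (nat_lit 297) (nat_lit 262)) (XT.lf (nat_lit 0) (nat_lit 6265279760) (nat_lit 76) (nat_lit 19637676481) (nat_lit 76) (nat_lit 7481324678) (nat_lit 9) (nat_lit 4) (nat_lit 10) (nat_lit 5) (nat_lit 10) (nat_lit 4) (nat_lit 342) (nat_lit 297) (nat_lit 261))) (XT.nd (nat_lit 78) (nat_lit 152) (nat_lit 0) (XT.lf (nat_lit 0) (nat_lit 18084164048) (nat_lit 76) (nat_lit 14851978183) (nat_lit 76) (nat_lit 2635467363) (nat_lit 9) (nat_lit 4) (nat_lit 10) (nat_lit 5) (nat_lit 10) (nat_lit 4) (nat_lit 343) (nat_lit 297) (nat_lit 260)) (XT.nd (nat_lit 78) (nat_lit 76) (nat_lit 0) (XT.lf (nat_lit 0) (nat_lit 2419001532) (nat_lit 152) (nat_lit 7240690426) (nat_lit 76) (nat_lit 28273187392) (nat_lit 8) (nat_lit 5) (nat_lit 10) (nat_lit 5) (nat_lit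 9) (nat_lit 4) (nat_lit 344) (nat_lit 297) (nat_lit 259)) (XT.lf (nat_lit 0) (nat_lit 3864715722) (nat_lit 76) (nat_lit 3918219853) (nat_lit 152) (nat_lit 32690863702) (nat_lit 7) (nat_lit 5) (nat_lit 8) (nat_lit 5) (nat_lit 9) (nat_lit 4) (nat_lit 345) (nat_lit 297) (nat_lit 258))))))))
noncomputable def xc87 : XT := (XT.nd (nat_lit 1326) (nat_lit 152) (nat_lit 0) (XT.nd (nat_lit 624) (nat_lit 152) (nat_lit 0) (XT.nd (nat_lit 312) (nat_lit 76) (nat_lit 0) (XT.nd (nat_lit 156) (nat_lit 76) (nat_lit 0) (XT.nd (nat_lit 78) (nat_lit 0) (nat_lit 0) (XT.lf (nat_lit 0) (nat_lit 13788938019) (nat_lit 152) (nat_lit 27078238458) (nat_lit 0) (nat_lit 2333802425) (nat_lit 7) (nat_lit 5) (nat_lit 9) (nat_lit 4) (nat_lit 7) (nat_lit 4) (nat_lit 346) (nat_lit 297) (nat_lit 257)) (XT.lf (nat_lit 0) (nat_lit 20335472550) (nat_lit 152) (nat_lit 16966683199) (nat_lit 0) (nat_lit 8839393740) (nat_lit 7)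 (nat_lit 5) (nat_lit 9) (nat_lit 4) (nat_lit 7) (nat_lit 4) (nat_lit 347) (nat_lit 297) (nat_lit 256))) (XT.nd (nat_lit 78) (nat_lit 76) (nat_lit 0) (XT.lf (nat_lit 0) (nat_lit 27367100165) (nat_lit 152) (nat_lit 6120264167) (nat_lit 0) (nat_lit 15833110970) (nat_lit 7) (nat_lit 5) (nat_lit 9) (nat_lit 4) (nat_lit 7) (nat_lit 4) (nat_lit 348) (nat_lit 297) (nat_lit 255)) (XT.lf (nat_lit 0) (nat_lit 5816245886) (nat_lit 76) (nat_lit 29249124735) (nat_lit 76) (nat_lit 17680033331) (nat_lit 6) (nat_lit 4) (nat_lit 7) (nat_lit 5) (nat_lit 7) (nat_lit 4) (nat_lit 349) (nat_lit 297) (nat_lit 254)))) (XT.nd (nat_lit 156) (nat_lit 76) (nat_lit 0) (XT.nd (nat_lit 78) (nat_lit 0) (nat_lit 0) (XT.lf (nat_lit 0) (nat_lit 18988902984) (nat_lit 76) (nat_lit 24523212405) (nat_lit 76) (nat_lit 12921618956) (nat_lit 6) (nat_lit 4) (nat_lit 7) (nat_lit 5) (nat_lit 7) (nat_lit 4) (nat_lit 350) (nat_lit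 297) (nat_lit 253)) (XT.lf (nat_lit 0) (nat_lit 33153485051) (nat_lit 76) (nat_lit 19448960804) (nat_lit 76) (nat_lit 7817272869) (nat_lit 6) (nat_lit 4) (nat_lit 7) (nat_lit 5) (nat_lit 7) (nat_lit 4) (nat_lit 351) (nat_lit 297) (nat_lit 252))) (XT.nd (nat_lit 78) (nat_lit 76) (nat_lit 0) (XT.lf (nat_lit 0) (nat_lit 48393930351) (nat_lit 76) (nat_lit 13996300295) (nat_lit 76) (nat_lit 2336747095) (nat_lit 6) (nat_lit 4) (nat_lit 7) (nat_lit 5) (nat_lit 7) (nat_lit 4) (nat_lit 352) (nat_lit 297) (nat_lit 251)) (XT.lf (nat_lit 0) (nat_lit 3374728342) (nat_lit 152) (nat_lit 4665919418) (nat_lit 76) (nat_lit 61333553238) (nat_lit 5) (nat_lit 5) (nat_lit 7) (nat_lit 5) (nat_lit 6) (nat_lit 4) (nat_lit 353) (nat_lit 297) (nat_lit 250))))) (XT.nd (nat_lit 312) (nat_lit 76) (nat_lit 0) (XT.nd (nat_lit 156) (nat_lit 0) (nat_lit 0) (XT.nd (nat_lit 78) (nat_lit 0) (nat_lit 0) (XT.lf (nat_lit 0)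 (nat_lit 8235329407) (nat_lit 76) (nat_lit 1353407973) (nat_lit 152) (nat_lit 64785871515) (nat_lit 4) (nat_lit 5) (nat_lit 5) (nat_lit 5) (nat_lit 6) (nat_lit 4) (nat_lit 354) (nat_lit 297) (nat_lit 249)) (XT.lf (nat_lit 0) (nat_lit 16545885179) (nat_lit 152) (nat_lit 57525982711) (nat_lit 0) (nat_lit 5683510466) (nat_lit 4) (nat_lit 5) (nat_lit 6) (nat_lit 4) (nat_lit 4) (nat_lit 4) (nat_lit 355) (nat_lit 297) (nat_lit 248))) (XT.nd (nat_lit 78) (nat_lit 0) (nat_lit 0) (XT.lf (nat_lit 0) (nat_lit 24070670165) (nat_lit 152) (nat_lit 48305732766) (nat_lit 0) (nat_lit 13189330821) (nat_lit 4) (nat_lit 5) (nat_lit 6) (nat_lit 4) (nat_lit 4) (nat_lit 4) (nat_lit 356) (nat_lit 297) (nat_lit 247)) (XT.lf (nat_lit 0) (nat_lit 32175134163) (nat_lit 152) (nat_lit 38391341640) (nat_lit 0) (nat_lit 21276234975) (nat_lit 4) (nat_lit 5) (nat_lit 6) (nat_lit 4) (nat_lit 4) (nat_lit 4) (nat_lit 357)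 (nat_lit 297) (nat_lit 246)))) (XT.nd (nat_lit 156) (nat_lit 76) (nat_lit 0) (XT.nd (nat_lit 78) (nat_lit 0) (nat_lit 0) (XT.lf (nat_lit 0) (nat_lit 40907303626) (nat_lit 152) (nat_lit 27724057387) (nat_lit 0) (nat_lit 29992145324) (nat_lit 4) (nat_lit 5) (nat_lit 6) (nat_lit 4) (nat_lit 4) (nat_lit 4) (nat_lit 358) (nat_lit 297) (nat_lit 245)) (XT.lf (nat_lit 0) (nat_lit 50318924743) (nat_lit 152) (nat_lit 16240666469) (nat_lit 0) (nat_lit 39388711705) (nat_lit 4) (nat_lit 5) (nat_lit 6) (nat_lit 4) (nat_lit 4) (nat_lit 4) (nat_lit 359) (nat_lit 297) (nat_lit 244))) (XT.nd (nat_lit 78) (nat_lit 76) (nat_lit 0) (XT.lf (nat_lit 0) (nat_lit 60465770084) (nat_lit 152) (nat_lit 3873119163) (nat_lit 0) (nat_lit 49521617476) (nat_lit 4) (nat_lit 5) (nat_lit 6) (nat_lit 4) (nat_lit 4) (nat_lit 4) (nat_lit 360) (nat_lit 297) (nat_lit 243)) (XT.nd (nat_lit 78) (nat_lit 0) (nat_lit 0) (XT.lf (nat_lit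 0) (nat_lit 9949592618) (nat_lit 76) (nat_lit 61697664427) (nat_lit 76) (nat_lit 50740604809) (nat_lit 3) (nat_lit 4) (nat_lit 4) (nat_lit 5) (nat_lit 4) (nat_lit 4) (nat_lit 361) (nat_lit 297) (nat_lit 242)) (XT.lf (nat_lit 0) (nat_lit 25067239903) (nat_lit 76) (nat_lit 58745992280) (nat_lit 76) (nat_lit 47776981728) (nat_lit 3) (nat_lit 4) (nat_lit 4) (nat_lit 5) (nat_lit 4) (nat_lit 4) (nat_lit 362) (nat_lit 297) (nat_lit 241))))))) (XT.nd (nat_lit 702) (nat_lit 152) (nat_lit 0) (XT.nd (nat_lit 312) (nat_lit 0) (nat_lit 0) (XT.nd (nat_lit 156) (nat_lit 0) (nat_lit 0) (XT.nd (nat_lit 78) (nat_lit 0) (nat_lit 0) (XT.lf (nat_lit 0) (nat_lit 41365457158) (nat_lit 76) (nat_lit 55572279359) (nat_lit 76) (nat_lit 44592203127) (nat_lit 3) (nat_lit 4) (nat_lit 4) (nat_lit 5) (nat_lit 4) (nat_lit 4) (nat_lit 363) (nat_lit 297) (nat_lit 240)) (XT.lf (nat_lit 0) (nat_lit 58940826412) (nat_lit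 76) (nat_lit 52157718475) (nat_lit 76) (nat_lit 41167396243) (nat_lit 3) (nat_lit 4) (nat_lit 4) (nat_lit 5) (nat_lit 4) (nat_lit 4) (nat_lit 364) (nat_lit 297) (nat_lit 239))) (XT.nd (nat_lit 78) (nat_lit 0) (nat_lit 0) (XT.lf (nat_lit 0) (nat_lit 77897497999) (nat_lit 76) (nat_lit 48482075195) (nat_lit 76) (nat_lit 37482265926) (nat_lit 3) (nat_lit 4) (nat_lit 4) (nat_lit 5) (nat_lit 4) (nat_lit 4) (nat_lit 365) (nat_lit 297) (nat_lit 238)) (XT.lf (nat_lit 0) (nat_lit 98347807753) (nat_lit 76) (nat_lit 44523567928) (nat_lit 76) (nat_lit 33514974366) (nat_lit 3) (nat_lit 4) (nat_lit 4) (nat_lit 5) (nat_lit 4) (nat_lit 4) (nat_lit 366) (nat_lit 297) (nat_lit 237)))) (XT.nd (nat_lit 156) (nat_lit 0) (nat_lit 0) (XT.nd (nat_lit 78) (nat_lit 0) (nat_lit 0) (XT.lf (nat_lit 0) (nat_lit 120412942693) (nat_lit 76) (nat_lit 40258738854) (nat_lit 76) (nat_lit 29242011686) (nat_lit 3) (nat_lit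 4) (nat_lit 4) (nat_lit 5) (nat_lit 4) (nat_lit 4) (nat_lit 367) (nat_lit 297) (nat_lit 236)) (XT.lf (nat_lit 0) (nat_lit 144223659175) (nat_lit 76) (nat_lit 35662314911) (nat_lit 76) (nat_lit 24638056627) (nat_lit 3) (nat_lit 4) (nat_lit 4) (nat_lit 5) (nat_lit 4) (nat_lit 4) (nat_lit 368) (nat_lit 297) (nat_lit 235))) (XT.nd (nat_lit 78) (nat_lit 0) (nat_lit 0) (XT.lf (nat_lit 0) (nat_lit 169921057741) (nat_lit 76) (nat_lit 30707058031) (nat_lit 76) (nat_lit 19675826492) (nat_lit 3) (nat_lit 4) (nat_lit 4) (nat_lit 5) (nat_lit 4) (nat_lit 4) (nat_lit 369) (nat_lit 297) (nat_lit 234)) (XT.nd (nat_lit 78) (nat_lit 0) (nat_lit 0) (XT.lf (nat_lit 0) (nat_lit 197657419271) (nat_lit 76) (nat_lit 25363603730) (nat_lit 76) (nat_lit 14325915473) (nat_lit 3) (nat_lit 4) (nat_lit 4) (nat_lit 5) (nat_lit 4) (nat_lit 4) (nat_lit 370) (nat_lit 297) (nat_lit 233)) (XT.lf (nat_lit 0) (nat_lit 227597107390)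 (nat_lit 76) (nat_lit 19600287093) (nat_lit 76) (nat_lit 8556620393) (nat_lit 3) (nat_lit 4) (nat_lit 4) (nat_lit 5) (nat_lit 4) (nat_lit 4) (nat_lit 371) (nat_lit 297) (nat_lit 232)))))) (XT.nd (nat_lit 312) (nat_lit 0) (nat_lit 0) (XT.nd (nat_lit 156) (nat_lit 76) (nat_lit 0) (XT.nd (nat_lit 78) (nat_lit 76) (nat_lit 0) (XT.lf (nat_lit 0) (nat_lit 259917542471) (nat_lit 76) (nat_lit 13382955132) (nat_lit 76) (nat_lit 2333752837) (nat_lit 3) (nat_lit 4) (nat_lit 4) (nat_lit 5) (nat_lit 4) (nat_lit 4) (nat_lit 372) (nat_lit 297) (nat_lit 231)) (XT.lf (nat_lit 0) (nat_lit 4160479946) (nat_lit 152) (nat_lit 2400529557) (nat_lit 76) (nat_lit 290536018178) (nat_lit 2) (nat_lit 5) (nat_lit 4) (nat_lit 5) (nat_lit 3) (nat_lit 4) (nat_lit 373) (nat_lit 297) (nat_lit 230))) (XT.nd (nat_lit 78) (nat_lit 0) (nat_lit 0) (XT.lf (nat_lit 0) (nat_lit 11371790406) (nat_lit 152) (nat_lit 307742392454)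 (nat_lit 0) (nat_lit 1131907326) (nat_lit 1) (nat_lit 5) (nat_lit 3) (nat_lit 4) (nat_lit 1) (nat_lit 4) (nat_lit 374) (nat_lit 297) (nat_lit 229)) (XT.lf (nat_lit 0) (nat_lit 19391305546) (nat_lit 152) (nat_lit 316689916581) (nat_lit 0) (nat_lit 9147353638) (nat_lit 1) (nat_lit 5) (nat_lit 3) (nat_lit 4) (nat_lit 1) (nat_lit 4) (nat_lit 375) (nat_lit 297) (nat_lit 228)))) (XT.nd (nat_lit 156) (nat_lit 0) (nat_lit 0) (XT.nd (nat_lit 78) (nat_lit 0) (nat_lit 0) (XT.lf (nat_lit 0) (nat_lit 28046404565) (nat_lit 152) (nat_lit 326365050496) (nat_lit 0) (nat_lit 17798685224) (nat_lit 1) (nat_lit 5) (nat_lit 3) (nat_lit 4) (nat_lit 1) (nat_lit 4) (nat_lit 376) (nat_lit 297) (nat_lit 227)) (XT.lf (nat_lit 0) (nat_lit 37388376938) (nat_lit 152) (nat_lit 336825128327) (nat_lit 0) (nat_lit 27137169234) (nat_lit 1) (nat_lit 5) (nat_lit 3) (nat_lit 4) (nat_lit 1) (nat_lit 4) (nat_lit 377) (nat_lit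 297) (nat_lit 226))) (XT.nd (nat_lit 78) (nat_lit 0) (nat_lit 0) (XT.lf (nat_lit 0) (nat_lit 47472582503) (nat_lit 152) (nat_lit 348132135720) (nat_lit 0) (nat_lit 37218144831) (nat_lit 1) (nat_lit 5) (nat_lit 3) (nat_lit 4) (nat_lit 1) (nat_lit 4) (nat_lit 378) (nat_lit 297) (nat_lit 225)) (XT.nd (nat_lit 78) (nat_lit 0) (nat_lit 0) (XT.lf (nat_lit 0) (nat_lit 58358779513) (nat_lit 152) (nat_lit 360353077164) (nat_lit 0) (nat_lit 48101351132) (nat_lit 1) (nat_lit 5) (nat_lit 3) (nat_lit 4) (nat_lit 1) (nat_lit 4) (nat_lit 379) (nat_lit 297) (nat_lit 224)) (XT.lf (nat_lit 0) (nat_lit 70111478767) (nat_lit 152) (nat_lit 373560373051) (nat_lit 0) (nat_lit 59851281211) (nat_lit 1) (nat_lit 5) (nat_lit 3) (nat_lit 4) (nat_lit 1) (nat_lit 4) (nat_lit 380) (nat_lit 297) (nat_lit 223))))))))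
noncomputable def xc88 : XT := (XT.nd (nat_lit 1326) (nat_lit 0) (nat_lit 0) (XT.nd (nat_lit 624) (nat_lit 0) (nat_lit 0) (XT.nd (nat_lit 312) (nat_lit 0) (nat_lit 0) (XT.nd (nat_lit 156) (nat_lit 0) (nat_lit 0) (XT.nd (nat_lit 78) (nat_lit 0) (nat_lit 0) (XT.lf (nat_lit 0) (nat_lit 82800325889) (nat_lit 152) (nat_lit 387832288840) (nat_lit 0) (nat_lit 72537564281) (nat_lit 1) (nat_lit 5) (nat_lit 3) (nat_lit 4) (nat_lit 1) (nat_lit 4) (nat_lit 381) (nat_lit 297) (nat_lit 222)) (XT.lf (nat_lit 0) (nat_lit 96500514048) (nat_lit 152) (nat_lit 403253398846) (nat_lit 0) (nat_lit 86235378318) (nat_lit 1) (nat_lit 5) (nat_lit 3) (nat_lit 4) (nat_lit 1) (nat_lit 4) (nat_lit 382) (nat_lit 297) (nat_lit 221))) (XT.nd (nat_lit 78) (nat_lit 0) (nat_lit 0) (XT.lf (nat_lit 0) (nat_lit 111293229544) (nat_lit 152) (nat_lit 419915087424) (nat_lit 0) (nat_lit 101025895553) (nat_lit 1) (nat_lit 5) (nat_lit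 3) (nat_lit 4) (nat_lit 1) (nat_lit 4) (nat_lit 383) (nat_lit 297) (nat_lit 220)) (XT.lf (nat_lit 0) (nat_lit 127266132913) (nat_lit 152) (nat_lit 437916090507) (nat_lit 0) (nat_lit 116996763495) (nat_lit 1) (nat_lit 5) (nat_lit 3) (nat_lit 4) (nat_lit 1) (nat_lit 4) (nat_lit 384) (nat_lit 297) (nat_lit 219)))) (XT.nd (nat_lit 156) (nat_lit 0) (nat_lit 0) (XT.nd (nat_lit 78) (nat_lit 0) (nat_lit 0) (XT.lf (nat_lit 0) (nat_lit 144513878397) (nat_lit 152) (nat_lit 457363080706) (nat_lit 0) (nat_lit 134242624325) (nat_lit 1) (nat_lit 5) (nat_lit 3) (nat_lit 4) (nat_lit 1) (nat_lit 4) (nat_lit 385) (nat_lit 297) (nat_lit 218)) (XT.lf (nat_lit 0) (nat_lit 163138674858) (nat_lit 152) (nat_lit 478371299444) (nat_lit 0) (nat_lit 152865675736) (nat_lit 1) (nat_lit 5) (nat_lit 3) (nat_lit 4) (nat_lit 1) (nat_lit 4) (nat_lit 386) (nat_lit 297) (nat_lit 217))) (XT.nd (nat_lit 78) (nat_lit 0) (nat_lit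 0) (XT.lf (nat_lit 0) (nat_lit 183250891461) (nat_lit 152) (nat_lit 501065239870) (nat_lit 0) (nat_lit 172976276551) (nat_lit 1) (nat_lit 5) (nat_lit 3) (nat_lit 4) (nat_lit 1) (nat_lit 4) (nat_lit 387) (nat_lit 297) (nat_lit 216)) (XT.lf (nat_lit 0) (nat_lit 204969711711) (nat_lit 152) (nat_lit 525579384592) (nat_lit 0) (nat_lit 194693600702) (nat_lit 1) (nat_lit 5) (nat_lit 3) (nat_lit 4) (nat_lit 1) (nat_lit 4) (nat_lit 388) (nat_lit 297) (nat_lit 215))))) (XT.nd (nat_lit 312) (nat_lit 0) (nat_lit 0) (XT.nd (nat_lit 156) (nat_lit 0) (nat_lit 0) (XT.nd (nat_lit 78) (nat_lit 0) (nat_lit 0) (XT.lf (nat_lit 0) (nat_lit 228423839729) (nat_lit 152) (nat_lit 552059002618) (nat_lit 0) (nat_lit 218146343442) (nat_lit 1) (nat_lit 5) (nat_lit 3) (nat_lit 4) (nat_lit 1) (nat_lit 4) (nat_lit 389) (nat_lit 297) (nat_lit 214)) (XT.lf (nat_lit 0) (nat_lit 253752262940) (nat_lit 152) (nat_lit 580661010201)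 (nat_lit 0) (nat_lit 243473483989) (nat_lit 1) (nat_lit 5) (nat_lit 3) (nat_lit 4) (nat_lit 1) (nat_lit 4) (nat_lit 390) (nat_lit 297) (nat_lit 213))) (XT.nd (nat_lit 78) (nat_lit 0) (nat_lit 0) (XT.lf (nat_lit 0) (nat_lit 281105075702) (nat_lit 152) (nat_lit 611554900720) (nat_lit 0) (nat_lit 270825109100) (nat_lit 1) (nat_lit 5) (nat_lit 3) (nat_lit 4) (nat_lit 1) (nat_lit 4) (nat_lit 391) (nat_lit 297) (nat_lit 212)) (XT.lf (nat_lit 0) (nat_lit 310644368760) (nat_lit 152) (nat_lit 644923749083) (nat_lit 0) (nat_lit 300363302479) (nat_lit 1) (nat_lit 5) (nat_lit 3) (nat_lit 4) (nat_lit 1) (nat_lit 4) (nat_lit 392) (nat_lit 297) (nat_lit 211)))) (XT.nd (nat_lit 156) (nat_lit 0) (nat_lit 0) (XT.nd (nat_lit 78) (nat_lit 0) (nat_lit 0) (XT.lf (nat_lit 0) (nat_lit 342545189775) (nat_lit 152) (nat_lit 680965296612) (nat_lit 0) (nat_lit 332263105274) (nat_lit 1) (nat_lit 5) (nat_lit 3) (nat_lit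 4) (nat_lit 1) (nat_lit 4) (nat_lit 393) (nat_lit 297) (nat_lit 210)) (XT.lf (nat_lit 0) (nat_lit 376996580650) (nat_lit 152) (nat_lit 719893122848) (nat_lit 0) (nat_lit 366713553352) (nat_lit 1) (nat_lit 5) (nat_lit 3) (nat_lit 4) (nat_lit 1) (nat_lit 4) (nat_lit 394) (nat_lit 297) (nat_lit 209))) (XT.nd (nat_lit 78) (nat_lit 0) (nat_lit 0) (XT.lf (nat_lit 0) (nat_lit 414202697774) (nat_lit 152) (nat_lit 761937911207) (nat_lit 0) (nat_lit 403918797517) (nat_lit 1) (nat_lit 5) (nat_lit 3) (nat_lit 4) (nat_lit 1) (nat_lit 4) (nat_lit 395) (nat_lit 297) (nat_lit 208)) (XT.nd (nat_lit 78) (nat_lit 0) (nat_lit 0) (XT.lf (nat_lit 0) (nat_lit 454384021843) (nat_lit 152) (nat_lit 807348815989) (nat_lit 0) (nat_lit 444099313290) (nat_lit 1) (nat_lit 5) (nat_lit 3) (nat_lit 4) (nat_lit 1) (nat_lit 4) (nat_lit 396) (nat_lit 297) (nat_lit 207)) (XT.lf (nat_lit 0) (nat_lit 497778664405) (nat_lit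 152) (nat_lit 856394938853) (nat_lit 0) (nat_lit 487493207430) (nat_lit 1) (nat_lit 5) (nat_lit 3) (nat_lit 4) (nat_lit 1) (nat_lit 4) (nat_lit 397) (nat_lit 297) (nat_lit 206))))))) (XT.nd (nat_lit 624) (nat_lit 0) (nat_lit 0) (XT.nd (nat_lit 312) (nat_lit 0) (nat_lit 0) (XT.nd (nat_lit 156) (nat_lit 0) (nat_lit 0) (XT.nd (nat_lit 78) (nat_lit 0) (nat_lit 0) (XT.lf (nat_lit 0) (nat_lit 544643778899) (nat_lit 152) (nat_lit 909366923489) (nat_lit 0) (nat_lit 534357628941) (nat_lit 1) (nat_lit 5) (nat_lit 3) (nat_lit 4) (nat_lit 1) (nat_lit 4) (nat_lit 398) (nat_lit 297) (nat_lit 205)) (XT.lf (nat_lit 0) (nat_lit 595257084522) (nat_lit 152) (nat_lit 966578677956) (nat_lit 0) (nat_lit 584970292912) (nat_lit 1) (nat_lit 5) (nat_lit 3) (nat_lit 4) (nat_lit 1) (nat_lit 4) (nat_lit 399) (nat_lit 297) (nat_lit 204))) (XT.nd (nat_lit 78) (nat_lit 0) (nat_lit 0) (XT.lf (nat_lit 0) (nat_lit 649918511973)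 (nat_lit 152) (nat_lit 1028369234870) (nat_lit 0) (nat_lit 639631126241) (nat_lit 1) (nat_lit 5) (nat_lit 3) (nat_lit 4) (nat_lit 1) (nat_lit 4) (nat_lit 400) (nat_lit 297) (nat_lit 203)) (XT.lf (nat_lit 0) (nat_lit 708951980823) (nat_lit 152) (nat_lit 1095104760497) (nat_lit 0) (nat_lit 698664044978) (nat_lit 1) (nat_lit 5) (nat_lit 3) (nat_lit 4) (nat_lit 1) (nat_lit 4) (nat_lit 401) (nat_lit 297) (nat_lit 202)))) (XT.nd (nat_lit 156) (nat_lit 0) (nat_lit 0) (XT.nd (nat_lit 78) (nat_lit 0) (nat_lit 0) (XT.lf (nat_lit 0) (nat_lit 772707319035) (nat_lit 152) (nat_lit 1167180724618) (nat_lit 0) (nat_lit 762418873827) (nat_lit 1) (nat_lit 5) (nat_lit 3) (nat_lit 4) (nat_lit 1) (nat_lit 4) (nat_lit 402) (nat_lit 297) (nat_lit 201)) (XT.lf (nat_lit 0) (nat_lit 841562336020) (nat_lit 152) (nat_lit 1245024244056) (nat_lit 0) (nat_lit 831273419179) (nat_lit 1) (nat_lit 5) (nat_lit 3) (nat_lit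 4) (nat_lit 1) (nat_lit 4) (nat_lit 403) (nat_lit 297) (nat_lit 200))) (XT.nd (nat_lit 78) (nat_lit 0) (nat_lit 0) (XT.lf (nat_lit 0) (nat_lit 915925061510) (nat_lit 152) (nat_lit 1329096613742) (nat_lit 0) (nat_lit 905635707972) (nat_lit 1) (nat_lit 5) (nat_lit 3) (nat_lit 4) (nat_lit 1) (nat_lit 4) (nat_lit 404) (nat_lit 297) (nat_lit 199)) (XT.lf (nat_lit 0) (nat_lit 996236163506) (nat_lit 152) (nat_lit 1419896040311) (nat_lit 0) (nat_lit 985946405619) (nat_lit 1) (nat_lit 5) (nat_lit 3) (nat_lit 4) (nat_lit 1) (nat_lit 4) (nat_lit 405) (nat_lit 297) (nat_lit 198))))) (XT.nd (nat_lit 312) (nat_lit 0) (nat_lit 0) (XT.nd (nat_lit 156) (nat_lit 0) (nat_lit 0) (XT.nd (nat_lit 78) (nat_lit 0) (nat_lit 0) (XT.lf (nat_lit 0) (nat_lit 1082971559651) (nat_lit 152) (nat_lit 1517960594440) (nat_lit 0) (nat_lit 1072681427367) (nat_lit 1) (nat_lit 5) (nat_lit 3) (nat_lit 4) (nat_lit 1) (nat_lit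 4) (nat_lit 406) (nat_lit 297) (nat_lit 197)) (XT.lf (nat_lit 0) (nat_lit 1176645237477) (nat_lit 152) (nat_lit 1623871399411) (nat_lit 0) (nat_lit 1166354758528) (nat_lit 1) (nat_lit 5) (nat_lit 3) (nat_lit 4) (nat_lit 1) (nat_lit 4) (nat_lit 407) (nat_lit 297) (nat_lit 196))) (XT.nd (nat_lit 78) (nat_lit 0) (nat_lit 0) (XT.lf (nat_lit 0) (nat_lit 1277812300261) (nat_lit 152) (nat_lit 1738256074809) (nat_lit 0) (nat_lit 1267521500326) (nat_lit 1) (nat_lit 5) (nat_lit 3) (nat_lit 4) (nat_lit 1) (nat_lit 4) (nat_lit 408) (nat_lit 297) (nat_lit 195)) (XT.lf (nat_lit 0) (nat_lit 1387072256521) (nat_lit 152) (nat_lit 1861792455749) (nat_lit 0) (nat_lit 1376781159378) (nat_lit 1) (nat_lit 5) (nat_lit 3) (nat_lit 4) (nat_lit 1) (nat_lit 4) (nat_lit 409) (nat_lit 297) (nat_lit 194)))) (XT.nd (nat_lit 156) (nat_lit 0) (nat_lit 0) (XT.nd (nat_lit 78) (nat_lit 0) (nat_lit 0) (XT.lf (nat_lit 0)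 (nat_lit 1505072572666) (nat_lit 152) (nat_lit 1995212609673) (nat_lit 0) (nat_lit 1494781200330) (nat_lit 1) (nat_lit 5) (nat_lit 3) (nat_lit 4) (nat_lit 1) (nat_lit 4) (nat_lit 410) (nat_lit 297) (nat_lit 193)) (XT.lf (nat_lit 0) (nat_lit 1632512509829) (nat_lit 152) (nat_lit 2139307174530) (nat_lit 0) (nat_lit 1622220882684) (nat_lit 1) (nat_lit 5) (nat_lit 3) (nat_lit 4) (nat_lit 1) (nat_lit 4) (nat_lit 411) (nat_lit 297) (nat_lit 192))) (XT.nd (nat_lit 78) (nat_lit 0) (nat_lit 0) (XT.lf (nat_lit 0) (nat_lit 1770147267637) (nat_lit 152) (nat_lit 2294930044038) (nat_lit 0) (nat_lit 1759855404558) (nat_lit 1) (nat_lit 5) (nat_lit 3) (nat_lit 4) (nat_lit 1) (nat_lit 4) (nat_lit 412) (nat_lit 297) (nat_lit 191)) (XT.nd (nat_lit 38376) (nat_lit 0) (nat_lit 5092) (XT.lf (nat_lit 0) (nat_lit 1918792459469) (nat_lit 152) (nat_lit 2463003427793) (nat_lit 0) (nat_lit 1908500377933) (nat_lit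 1) (nat_lit 5) (nat_lit 3) (nat_lit 4) (nat_lit 1) (nat_lit 4) (nat_lit 413) (nat_lit 297) (nat_lit 190)) (XT.lf (nat_lit 0) (nat_lit 169646441) (nat_lit 228) (nat_lit 2941093576) (nat_lit 0) (nat_lit 169646441) (nat_lit 68) (nat_lit 5) (nat_lit 71) (nat_lit 4) (nat_lit 68) (nat_lit 4) (nat_lit 304) (nat_lit 298) (nat_lit 298))))))))
noncomputable def xc89 : XT := (XT.nd (nat_lit 1326) (nat_lit 1140) (nat_lit 0) (XT.nd (nat_lit 624) (nat_lit 1216) (nat_lit 0) (XT.nd (nat_lit 312) (nat_lit 1292) (nat_lit 0) (XT.nd (nat_lit 156) (nat_lit 380) (nat_lit 0) (XT.nd (nat_lit 78) (nat_lit 228) (nat_lit 0) (XT.lf (nat_lit 0) (nat_lit 3396385167) (nat_lit 228) (nat_lit 2075239542) (nat_lit 0) (nat_lit 1156543914) (nat_lit 68) (nat_lit 5) (nat_lit 71) (nat_lit 4) (nat_lit 68) (nat_lit 4) (nat_lit 305) (nat_lit 298) (nat_lit 297)) (XT.lf (nat_lit 0) (nat_lit 1923945614) (nat_lit 228) (nat_lit 4554690996)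 (nat_lit 228) (nat_lit 240922658) (nat_lit 65) (nat_lit 4) (nat_lit 68) (nat_lit 5) (nat_lit 68) (nat_lit 4) (nat_lit 306) (nat_lit 298) (nat_lit 296))) (XT.nd (nat_lit 78) (nat_lit 304) (nat_lit 0) (XT.lf (nat_lit 0) (nat_lit 2639560407) (nat_lit 304) (nat_lit 743785548) (nat_lit 76) (nat_lit 3446073861) (nat_lit 64) (nat_lit 5) (nat_lit 68) (nat_lit 5) (nat_lit 65) (nat_lit 4) (nat_lit 307) (nat_lit 298) (nat_lit 295)) (XT.lf (nat_lit 0) (nat_lit 3604594089) (nat_lit 304) (nat_lit 1980369124) (nat_lit 380) (nat_lit 1375639622) (nat_lit 60) (nat_lit 5) (nat_lit 64) (nat_lit 5) (nat_lit 65) (nat_lit 4) (nat_lit 308) (nat_lit 298) (nat_lit 294)))) (XT.nd (nat_lit 156) (nat_lit 836) (nat_lit 0) (XT.nd (nat_lit 78) (nat_lit 0) (nat_lit 0) (XT.lf (nat_lit 0) (nat_lit 1044686323) (nat_lit 380) (nat_lit 348983535) (nat_lit 456) (nat_lit 5721070441) (nat_lit 54) (nat_lit 5) (nat_lit 59) (nat_lit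 5) (nat_lit 60) (nat_lit 5) (nat_lit 309) (nat_lit 298) (nat_lit 293)) (XT.lf (nat_lit 0) (nat_lit 4218240511) (nat_lit 456) (nat_lit 1580576314) (nat_lit 76) (nat_lit 1487552600) (nat_lit 54) (nat_lit 5) (nat_lit 60) (nat_lit 5) (nat_lit 55) (nat_lit 4) (nat_lit 310) (nat_lit 298) (nat_lit 292))) (XT.nd (nat_lit 78) (nat_lit 380) (nat_lit 0) (XT.lf (nat_lit 0) (nat_lit 3213341599) (nat_lit 456) (nat_lit 3937996878) (nat_lit 532) (nat_lit 330398501) (nat_lit 48) (nat_lit 5) (nat_lit 54) (nat_lit 5) (nat_lit 55) (nat_lit 4) (nat_lit 311) (nat_lit 298) (nat_lit 291)) (XT.lf (nat_lit 0) (nat_lit 542031372) (nat_lit 304) (nat_lit 1811219609) (nat_lit 380) (nat_lit 5346292921) (nat_lit 43) (nat_lit 5) (nat_lit 47) (nat_lit 5) (nat_lit 48) (nat_lit 5) (nat_lit 312) (nat_lit 298) (nat_lit 290))))) (XT.nd (nat_lit 312) (nat_lit 684) (nat_lit 0) (XT.nd (nat_lit 156) (nat_lit 304) (nat_lit 0) (XT.nd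 (nat_lit 78) (nat_lit 228) (nat_lit 0) (XT.lf (nat_lit 0) (nat_lit 5175420581) (nat_lit 380) (nat_lit 2190715231) (nat_lit 76) (nat_lit 573105408) (nat_lit 43) (nat_lit 5) (nat_lit 48) (nat_lit 5) (nat_lit 44) (nat_lit 4) (nat_lit 313) (nat_lit 298) (nat_lit 289)) (XT.lf (nat_lit 0) (nat_lit 3074609885) (nat_lit 228) (nat_lit 5094058117) (nat_lit 304) (nat_lit 34272576) (nat_lit 40) (nat_lit 5) (nat_lit 43) (nat_lit 5) (nat_lit 44) (nat_lit 4) (nat_lit 314) (nat_lit 298) (nat_lit 288))) (XT.nd (nat_lit 78) (nat_lit 0) (nat_lit 0) (XT.lf (nat_lit 0) (nat_lit 127738712) (nat_lit 228) (nat_lit 2532437696) (nat_lit 304) (nat_lit 5830956813) (nat_lit 36) (nat_lit 5) (nat_lit 39) (nat_lit 5) (nat_lit 40) (nat_lit 5) (nat_lit 315) (nat_lit 298) (nat_lit 287)) (XT.lf (nat_lit 0) (nat_lit 5552457793) (nat_lit 304) (nat_lit 2922439938) (nat_lit 76) (nat_lit 329039779) (nat_lit 36) (nat_lit 5) (nat_lit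 40) (nat_lit 5) (nat_lit 37) (nat_lit 4) (nat_lit 316) (nat_lit 298) (nat_lit 286)))) (XT.nd (nat_lit 156) (nat_lit 456) (nat_lit 0) (XT.nd (nat_lit 78) (nat_lit 76) (nat_lit 0) (XT.lf (nat_lit 0) (nat_lit 2828526412) (nat_lit 152) (nat_lit 5828286056) (nat_lit 228) (nat_lit 486829612) (nat_lit 34) (nat_lit 5) (nat_lit 36) (nat_lit 5) (nat_lit 37) (nat_lit 4) (nat_lit 317) (nat_lit 298) (nat_lit 285)) (XT.lf (nat_lit 0) (nat_lit 2305384357) (nat_lit 228) (nat_lit 564641443) (nat_lit 76) (nat_lit 6641460975) (nat_lit 33) (nat_lit 5) (nat_lit 36) (nat_lit 5) (nat_lit 34) (nat_lit 5) (nat_lit 318) (nat_lit 298) (nat_lit 284))) (XT.nd (nat_lit 78) (nat_lit 228) (nat_lit 0) (XT.lf (nat_lit 0) (nat_lit 5303608399) (nat_lit 304) (nat_lit 4187745807) (nat_lit 76) (nat_lit 415941411) (nat_lit 30) (nat_lit 5) (nat_lit 34) (nat_lit 5) (nat_lit 31) (nat_lit 4) (nat_lit 319) (nat_lit 298) (nat_lit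 283)) (XT.nd (nat_lit 78) (nat_lit 76) (nat_lit 0) (XT.lf (nat_lit 0) (nat_lit 2038153802) (nat_lit 152) (nat_lit 6508193947) (nat_lit 228) (nat_lit 1788292270) (nat_lit 28) (nat_lit 5) (nat_lit 30) (nat_lit 5) (nat_lit 31) (nat_lit 4) (nat_lit 320) (nat_lit 298) (nat_lit 282)) (XT.lf (nat_lit 0) (nat_lit 1174279048) (nat_lit 228) (nat_lit 2016025138) (nat_lit 76) (nat_lit 7604899678) (nat_lit 27) (nat_lit 5) (nat_lit 30) (nat_lit 5) (nat_lit 28) (nat_lit 5) (nat_lit 321) (nat_lit 298) (nat_lit 281))))))) (XT.nd (nat_lit 624) (nat_lit 380) (nat_lit 0) (XT.nd (nat_lit 312) (nat_lit 304) (nat_lit 0) (XT.nd (nat_lit 156) (nat_lit 228) (nat_lit 0) (XT.nd (nat_lit 78) (nat_lit 76) (nat_lit 0) (XT.lf (nat_lit 0) (nat_lit 4281340226) (nat_lit 228) (nat_lit 6524220460) (nat_lit 76) (nat_lit 483201580) (nat_lit 25) (nat_lit 5) (nat_lit 28) (nat_lit 5) (nat_lit 26) (nat_lit 4) (nat_lit 322) (nat_lit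 298) (nat_lit 280)) (XT.lf (nat_lit 0) (nat_lit 121291420) (nat_lit 76) (nat_lit 7538409902) (nat_lit 152) (nat_lit 4160464154) (nat_lit 24) (nat_lit 5) (nat_lit 25) (nat_lit 5) (nat_lit 26) (nat_lit 4) (nat_lit 323) (nat_lit 298) (nat_lit 279))) (XT.nd (nat_lit 78) (nat_lit 228) (nat_lit 0) (XT.lf (nat_lit 0) (nat_lit 7488882428) (nat_lit 76) (nat_lit 3882747975) (nat_lit 152) (nat_lit 1017552295) (nat_lit 24) (nat_lit 5) (nat_lit 25) (nat_lit 5) (nat_lit 26) (nat_lit 4) (nat_lit 324) (nat_lit 298) (nat_lit 278)) (XT.lf (nat_lit 0) (nat_lit 2207399350) (nat_lit 228) (nat_lit 10678207257) (nat_lit 76) (nat_lit 117723495) (nat_lit 21) (nat_lit 5) (nat_lit 24) (nat_lit 5) (nat_lit 22) (nat_lit 4) (nat_lit 325) (nat_lit 298) (nat_lit 277)))) (XT.nd (nat_lit 156) (nat_lit 228) (nat_lit 0) (XT.nd (nat_lit 78) (nat_lit 76) (nat_lit 0) (XT.lf (nat_lit 0) (nat_lit 5766740920) (nat_lit 228) (nat_lit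 3555175392) (nat_lit 76) (nat_lit 4332200672) (nat_lit 21) (nat_lit 5) (nat_lit 24) (nat_lit 5) (nat_lit 22) (nat_lit 4) (nat_lit 326) (nat_lit 298) (nat_lit 276)) (XT.lf (nat_lit 0) (nat_lit 4184244903) (nat_lit 76) (nat_lit 5428192473) (nat_lit 152) (nat_lit 4744522617) (nat_lit 20) (nat_lit 5) (nat_lit 21) (nat_lit 5) (nat_lit 22) (nat_lit 4) (nat_lit 327) (nat_lit 298) (nat_lit 275))) (XT.nd (nat_lit 78) (nat_lit 228) (nat_lit 0) (XT.lf (nat_lit 0) (nat_lit 12586358486) (nat_lit 76) (nat_lit 1181131865) (nat_lit 152) (nat_lit 1348516790) (nat_lit 20) (nat_lit 5) (nat_lit 21) (nat_lit 5) (nat_lit 22) (nat_lit 4) (nat_lit 328) (nat_lit 298) (nat_lit 274)) (XT.lf (nat_lit 0) (nat_lit 2337526328) (nat_lit 228) (nat_lit 10205177545) (nat_lit 76) (nat_lit 3377959088) (nat_lit 17) (nat_lit 5) (nat_lit 20) (nat_lit 5) (nat_lit 18) (nat_lit 4) (nat_lit 329) (nat_lit 298) (nat_lit 273)))))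 (XT.nd (nat_lit 312) (nat_lit 152) (nat_lit 0) (XT.nd (nat_lit 156) (nat_lit 152) (nat_lit 0) (XT.nd (nat_lit 78) (nat_lit 76) (nat_lit 0) (XT.lf (nat_lit 0) (nat_lit 6258133028) (nat_lit 228) (nat_lit 2241150186) (nat_lit 76) (nat_lit 8286692629) (nat_lit 17) (nat_lit 5) (nat_lit 20) (nat_lit 5) (nat_lit 18) (nat_lit 4) (nat_lit 330) (nat_lit 298) (nat_lit 272)) (XT.lf (nat_lit 0) (nat_lit 6545209796) (nat_lit 76) (nat_lit 4022086051) (nat_lit 152) (nat_lit 7147308185) (nat_lit 16) (nat_lit 5) (nat_lit 17) (nat_lit 5) (nat_lit 18) (nat_lit 4) (nat_lit 331) (nat_lit 298) (nat_lit 271))) (XT.nd (nat_lit 78) (nat_lit 152) (nat_lit 0) (XT.lf (nat_lit 0) (nat_lit 15222476910) (nat_lit 152) (nat_lit 2715482819) (nat_lit 0) (nat_lit 779536672) (nat_lit 16) (nat_lit 5) (nat_lit 18) (nat_lit 4) (nat_lit 16) (nat_lit 4) (nat_lit 332) (nat_lit 298) (nat_lit 270)) (XT.lf (nat_lit 0) (nat_lit 617449226)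 (nat_lit 152) (nat_lit 13298914956) (nat_lit 76) (nat_lit 5868218598) (nat_lit 14) (nat_lit 5) (nat_lit 16) (nat_lit 5) (nat_lit 15) (nat_lit 4) (nat_lit 333) (nat_lit 298) (nat_lit 269)))) (XT.nd (nat_lit 156) (nat_lit 76) (nat_lit 0) (XT.nd (nat_lit 78) (nat_lit 76) (nat_lit 0) (XT.lf (nat_lit 0) (nat_lit 4871632939) (nat_lit 152) (nat_lit 4580091639) (nat_lit 76) (nat_lit 11477986888) (nat_lit 14) (nat_lit 5) (nat_lit 16) (nat_lit 5) (nat_lit 15) (nat_lit 4) (nat_lit 334) (nat_lit 298) (nat_lit 268)) (XT.lf (nat_lit 0) (nat_lit 4960658767) (nat_lit 76) (nat_lit 4555689825) (nat_lit 152) (nat_lit 12646142483) (nat_lit 13) (nat_lit 5) (nat_lit 14) (nat_lit 5) (nat_lit 15) (nat_lit 4) (nat_lit 335) (nat_lit 298) (nat_lit 267))) (XT.nd (nat_lit 78) (nat_lit 76) (nat_lit 0) (XT.lf (nat_lit 0) (nat_lit 14610547437) (nat_lit 152) (nat_lit 8104299831) (nat_lit 0) (nat_lit 772865540) (nat_lit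 13) (nat_lit 5) (nat_lit 15) (nat_lit 4) (nat_lit 13) (nat_lit 4) (nat_lit 336) (nat_lit 298) (nat_lit 266)) (XT.nd (nat_lit 78) (nat_lit 0) (nat_lit 0) (XT.lf (nat_lit 0) (nat_lit 1565548370) (nat_lit 76) (nat_lit 18639585420) (nat_lit 76) (nat_lit 4706438724) (nat_lit 12) (nat_lit 4) (nat_lit 13) (nat_lit 5) (nat_lit 13) (nat_lit 4) (nat_lit 337) (nat_lit 298) (nat_lit 265)) (XT.lf (nat_lit 0) (nat_lit 12357334152) (nat_lit 76) (nat_lit 14050378790) (nat_lit 76) (nat_lit 28838761) (nat_lit 12) (nat_lit 4) (nat_lit 13) (nat_lit 5) (nat_lit 13) (nat_lit 4) (nat_lit 338) (nat_lit 298) (nat_lit 264))))))))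
noncomputable def xc90 : XT := (XT.nd (nat_lit 1326) (nat_lit 76) (nat_lit 0) (XT.nd (nat_lit 624) (nat_lit 228) (nat_lit 0) (XT.nd (nat_lit 312) (nat_lit 228) (nat_lit 0) (XT.nd (nat_lit 156) (nat_lit 0) (nat_lit 0) (XT.nd (nat_lit 78) (nat_lit 76) (nat_lit 0) (XT.lf (nat_lit 0) (nat_lit 4713559991) (nat_lit 152) (nat_lit 4299180924) (nat_lit 76) (nat_lit 19065813697) (nat_lit 11) (nat_lit 5) (nat_lit 13) (nat_lit 5) (nat_lit 12) (nat_lit 4) (nat_lit 339) (nat_lit 298) (nat_lit 263)) (XT.lf (nat_lit 0) (nat_lit 6487687025) (nat_lit 76) (nat_lit 3448301324) (nat_lit 152) (nat_lit 19907729367) (nat_lit 10) (nat_lit 5) (nat_lit 11) (nat_lit 5) (nat_lit 12) (nat_lit 4) (nat_lit 340) (nat_lit 298) (nat_lit 262))) (XT.nd (nat_lit 78) (nat_lit 0) (nat_lit 0) (XT.lf (nat_lit 0) (nat_lit 15705161356) (nat_lit 152) (nat_lit 13523319727) (nat_lit 0) (nat_lit 2511329670) (nat_lit 10) (nat_lit 5)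 (nat_lit 12) (nat_lit 4) (nat_lit 10) (nat_lit 4) (nat_lit 341) (nat_lit 298) (nat_lit 261)) (XT.lf (nat_lit 0) (nat_lit 21976129663) (nat_lit 152) (nat_lit 3086132166) (nat_lit 0) (nat_lit 8722138961) (nat_lit 10) (nat_lit 5) (nat_lit 12) (nat_lit 4) (nat_lit 10) (nat_lit 4) (nat_lit 342) (nat_lit 298) (nat_lit 260)))) (XT.nd (nat_lit 156) (nat_lit 152) (nat_lit 0) (XT.nd (nat_lit 78) (nat_lit 0) (nat_lit 0) (XT.lf (nat_lit 0) (nat_lit 8526861887) (nat_lit 76) (nat_lit 20381332184) (nat_lit 76) (nat_lit 7071638687) (nat_lit 9) (nat_lit 4) (nat_lit 10) (nat_lit 5) (nat_lit 10) (nat_lit 4) (nat_lit 343) (nat_lit 298) (nat_lit 259)) (XT.lf (nat_lit 0) (nat_lit 21160859900) (nat_lit 76) (nat_lit 15274063830) (nat_lit 76) (nat_lit 1912793673) (nat_lit 9) (nat_lit 4) (nat_lit 10) (nat_lit 5) (nat_lit 10) (nat_lit 4) (nat_lit 344) (nat_lit 298) (nat_lit 258))) (XT.nd (nat_lit 78) (nat_lit 76)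 (nat_lit 0) (XT.lf (nat_lit 0) (nat_lit 3433644871) (nat_lit 152) (nat_lit 6267044990) (nat_lit 76) (nat_lit 31200692951) (nat_lit 8) (nat_lit 5) (nat_lit 10) (nat_lit 5) (nat_lit 9) (nat_lit 4) (nat_lit 345) (nat_lit 298) (nat_lit 257)) (XT.lf (nat_lit 0) (nat_lit 5687479708) (nat_lit 76) (nat_lit 3514791785) (nat_lit 152) (nat_lit 34445290985) (nat_lit 7) (nat_lit 5) (nat_lit 8) (nat_lit 5) (nat_lit 9) (nat_lit 4) (nat_lit 346) (nat_lit 298) (nat_lit 256))))) (XT.nd (nat_lit 312) (nat_lit 152) (nat_lit 0) (XT.nd (nat_lit 156) (nat_lit 76) (nat_lit 0) (XT.nd (nat_lit 78) (nat_lit 0) (nat_lit 0) (XT.lf (nat_lit 0) (nat_lit 15645703236) (nat_lit 152) (nat_lit 27799602764) (nat_lit 0) (nat_lit 3151084519) (nat_lit 7) (nat_lit 5) (nat_lit 9) (nat_lit 4) (nat_lit 7) (nat_lit 4) (nat_lit 347) (nat_lit 298) (nat_lit 255)) (XT.lf (nat_lit 0) (nat_lit 22660134591) (nat_lit 152) (nat_lit 16986152327)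 (nat_lit 0) (nat_lit 10130413666) (nat_lit 7) (nat_lit 5) (nat_lit 9) (nat_lit 4) (nat_lit 7) (nat_lit 4) (nat_lit 348) (nat_lit 298) (nat_lit 254))) (XT.nd (nat_lit 78) (nat_lit 76) (nat_lit 0) (XT.lf (nat_lit 0) (nat_lit 30202601730) (nat_lit 152) (nat_lit 5371120923) (nat_lit 0) (nat_lit 17640378760) (nat_lit 7) (nat_lit 5) (nat_lit 9) (nat_lit 4) (nat_lit 7) (nat_lit 4) (nat_lit 349) (nat_lit 298) (nat_lit 253)) (XT.lf (nat_lit 0) (nat_lit 7488948812) (nat_lit 76) (nat_lit 31008961344) (nat_lit 76) (nat_lit 18416643888) (nat_lit 6) (nat_lit 4) (nat_lit 7) (nat_lit 5) (nat_lit 7) (nat_lit 4) (nat_lit 350) (nat_lit 298) (nat_lit 252)))) (XT.nd (nat_lit 156) (nat_lit 152) (nat_lit 0) (XT.nd (nat_lit 78) (nat_lit 0) (nat_lit 0) (XT.lf (nat_lit 0) (nat_lit 21625981199) (nat_lit 76) (nat_lit 25947945907) (nat_lit 76) (nat_lit 13327763186) (nat_lit 6) (nat_lit 4) (nat_lit 7) (nat_lit 5)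 (nat_lit 7) (nat_lit 4) (nat_lit 351) (nat_lit 298) (nat_lit 251)) (XT.lf (nat_lit 0) (nat_lit 36840917537) (nat_lit 76) (nat_lit 20507541104) (nat_lit 76) (nat_lit 7861557211) (nat_lit 6) (nat_lit 4) (nat_lit 7) (nat_lit 5) (nat_lit 7) (nat_lit 4) (nat_lit 352) (nat_lit 298) (nat_lit 250))) (XT.nd (nat_lit 78) (nat_lit 152) (nat_lit 0) (XT.lf (nat_lit 0) (nat_lit 53223920410) (nat_lit 76) (nat_lit 14655507499) (nat_lit 76) (nat_lit 1985633633) (nat_lit 6) (nat_lit 4) (nat_lit 7) (nat_lit 5) (nat_lit 7) (nat_lit 4) (nat_lit 353) (nat_lit 298) (nat_lit 249)) (XT.nd (nat_lit 78) (nat_lit 76) (nat_lit 0) (XT.lf (nat_lit 0) (nat_lit 4117982191) (nat_lit 152) (nat_lit 4126591253) (nat_lit 76) (nat_lit 66641499159) (nat_lit 5) (nat_lit 5) (nat_lit 7) (nat_lit 5) (nat_lit 6) (nat_lit 4) (nat_lit 354) (nat_lit 298) (nat_lit 248)) (XT.lf (nat_lit 0) (nat_lit 9783653637) (nat_lit 76) (nat_lit 1031793309)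 (nat_lit 152) (nat_lit 69472174380) (nat_lit 4) (nat_lit 5) (nat_lit 5) (nat_lit 5) (nat_lit 6) (nat_lit 4) (nat_lit 355) (nat_lit 298) (nat_lit 247))))))) (XT.nd (nat_lit 624) (nat_lit 0) (nat_lit 0) (XT.nd (nat_lit 312) (nat_lit 76) (nat_lit 0) (XT.nd (nat_lit 156) (nat_lit 0) (nat_lit 0) (XT.nd (nat_lit 78) (nat_lit 0) (nat_lit 0) (XT.lf (nat_lit 0) (nat_lit 18304694305) (nat_lit 152) (nat_lit 61279806367) (nat_lit 0) (nat_lit 6516323338) (nat_lit 4) (nat_lit 5) (nat_lit 6) (nat_lit 4) (nat_lit 4) (nat_lit 4) (nat_lit 356) (nat_lit 298) (nat_lit 246)) (XT.lf (nat_lit 0) (nat_lit 26399229622) (nat_lit 152) (nat_lit 51384770127) (nat_lit 0) (nat_lit 14594599541) (nat_lit 4) (nat_lit 5) (nat_lit 6) (nat_lit 4) (nat_lit 4) (nat_lit 4) (nat_lit 357) (nat_lit 298) (nat_lit 245))) (XT.nd (nat_lit 78) (nat_lit 0) (nat_lit 0) (XT.lf (nat_lit 0) (nat_lit 35122205863) (nat_lit 152) (nat_lit 40735407064)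 (nat_lit 0) (nat_lit 23302521046) (nat_lit 4) (nat_lit 5) (nat_lit 6) (nat_lit 4) (nat_lit 4) (nat_lit 4) (nat_lit 358) (nat_lit 298) (nat_lit 244)) (XT.lf (nat_lit 0) (nat_lit 44525314737) (nat_lit 152) (nat_lit 29268609841) (nat_lit 0) (nat_lit 32691690350) (nat_lit 4) (nat_lit 5) (nat_lit 6) (nat_lit 4) (nat_lit 4) (nat_lit 4) (nat_lit 359) (nat_lit 298) (nat_lit 243)))) (XT.nd (nat_lit 156) (nat_lit 76) (nat_lit 0) (XT.nd (nat_lit 78) (nat_lit 0) (nat_lit 0) (XT.lf (nat_lit 0) (nat_lit 54664278371) (nat_lit 152) (nat_lit 16916427068) (nat_lit 0) (nat_lit 42817746976) (nat_lit 4) (nat_lit 5) (nat_lit 6) (nat_lit 4) (nat_lit 4) (nat_lit 4) (nat_lit 360) (nat_lit 298) (nat_lit 242)) (XT.lf (nat_lit 0) (nat_lit 65599179514) (nat_lit 152) (nat_lit 3605660623) (nat_lit 0) (nat_lit 53740697184) (nat_lit 4) (nat_lit 5) (nat_lit 6) (nat_lit 4) (nat_lit 4) (nat_lit 4) (nat_lit 361) (nat_lit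 298) (nat_lit 241))) (XT.nd (nat_lit 78) (nat_lit 0) (nat_lit 0) (XT.lf (nat_lit 0) (nat_lit 11308252706) (nat_lit 76) (nat_lit 66358528622) (nat_lit 76) (nat_lit 54488980611) (nat_lit 3) (nat_lit 4) (nat_lit 4) (nat_lit 5) (nat_lit 4) (nat_lit 4) (nat_lit 362) (nat_lit 298) (nat_lit 240)) (XT.lf (nat_lit 0) (nat_lit 27593630835) (nat_lit 76) (nat_lit 63191089293) (nat_lit 76) (nat_lit 51311295282) (nat_lit 3) (nat_lit 4) (nat_lit 4) (nat_lit 5) (nat_lit 4) (nat_lit 4) (nat_lit 363) (nat_lit 298) (nat_lit 239))))) (XT.nd (nat_lit 312) (nat_lit 0) (nat_lit 0) (XT.nd (nat_lit 156) (nat_lit 0) (nat_lit 0) (XT.nd (nat_lit 78) (nat_lit 0) (nat_lit 0) (XT.lf (nat_lit 0) (nat_lit 45157112008) (nat_lit 76) (nat_lit 59782337291) (nat_lit 76) (nat_lit 47893056243) (nat_lit 3) (nat_lit 4) (nat_lit 4) (nat_lit 5) (nat_lit 4) (nat_lit 4) (nat_lit 364) (nat_lit 298) (nat_lit 238)) (XT.lf (nat_lit 0)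 (nat_lit 64102776115) (nat_lit 76) (nat_lit 56112072605) (nat_lit 76) (nat_lit 44214007264) (nat_lit 3) (nat_lit 4) (nat_lit 4) (nat_lit 5) (nat_lit 4) (nat_lit 4) (nat_lit 365) (nat_lit 298) (nat_lit 237))) (XT.nd (nat_lit 78) (nat_lit 0) (nat_lit 0) (XT.lf (nat_lit 0) (nat_lit 84542893756) (nat_lit 76) (nat_lit 52158545518) (nat_lit 76) (nat_lit 40252346572) (nat_lit 3) (nat_lit 4) (nat_lit 4) (nat_lit 5) (nat_lit 4) (nat_lit 4) (nat_lit 366) (nat_lit 298) (nat_lit 236)) (XT.lf (nat_lit 0) (nat_lit 106598591555) (nat_lit 76) (nat_lit 47898327721) (nat_lit 76) (nat_lit 35984597659) (nat_lit 3) (nat_lit 4) (nat_lit 4) (nat_lit 5) (nat_lit 4) (nat_lit 4) (nat_lit 367) (nat_lit 298) (nat_lit 235)))) (XT.nd (nat_lit 156) (nat_lit 0) (nat_lit 0) (XT.nd (nat_lit 78) (nat_lit 0) (nat_lit 0) (XT.lf (nat_lit 0) (nat_lit 130400569943) (nat_lit 76) (nat_lit 43306173480) (nat_lit 76) (nat_lit 31385470162)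 (nat_lit 3) (nat_lit 4) (nat_lit 4) (nat_lit 5) (nat_lit 4) (nat_lit 4) (nat_lit 368) (nat_lit 298) (nat_lit 234)) (XT.lf (nat_lit 0) (nat_lit 156089877682) (nat_lit 76) (nat_lit 38354870027) (nat_lit 76) (nat_lit 26427709991) (nat_lit 3) (nat_lit 4) (nat_lit 4) (nat_lit 5) (nat_lit 4) (nat_lit 4) (nat_lit 369) (nat_lit 298) (nat_lit 233))) (XT.nd (nat_lit 78) (nat_lit 0) (nat_lit 0) (XT.lf (nat_lit 0) (nat_lit 183818747706) (nat_lit 76) (nat_lit 33015076307) (nat_lit 76) (nat_lit 21081937828) (nat_lit 3) (nat_lit 4) (nat_lit 4) (nat_lit 5) (nat_lit 4) (nat_lit 4) (nat_lit 370) (nat_lit 298) (nat_lit 232)) (XT.nd (nat_lit 78) (nat_lit 0) (nat_lit 0) (XT.lf (nat_lit 0) (nat_lit 213751499244) (nat_lit 76) (nat_lit 27255149096) (nat_lit 76) (nat_lit 15316475022) (nat_lit 3) (nat_lit 4) (nat_lit 4) (nat_lit 5) (nat_lit 4) (nat_lit 4) (nat_lit 371) (nat_lit 298) (nat_lit 231)) (XT.lf (nat_lit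 0) (nat_lit 246065511566) (nat_lit 76) (nat_lit 21040955493) (nat_lit 76) (nat_lit 9097155868) (nat_lit 3) (nat_lit 4) (nat_lit 4) (nat_lit 5) (nat_lit 4) (nat_lit 4) (nat_lit 372) (nat_lit 298) (nat_lit 230))))))))
noncomputable def xc91 : XT := (XT.nd (nat_lit 1326) (nat_lit 0) (nat_lit 0) (XT.nd (nat_lit 624) (nat_lit 0) (nat_lit 0) (XT.nd (nat_lit 312) (nat_lit 0) (nat_lit 0) (XT.nd (nat_lit 156) (nat_lit 76) (nat_lit 0) (XT.nd (nat_lit 78) (nat_lit 76) (nat_lit 0) (XT.lf (nat_lit 0) (nat_lit 280952275114) (nat_lit 76) (nat_lit 14335670646) (nat_lit 76) (nat_lit 2387125141) (nat_lit 3) (nat_lit 4) (nat_lit 4) (nat_lit 5) (nat_lit 4) (nat_lit 4) (nat_lit 373) (nat_lit 298) (nat_lit 229)) (XT.lf (nat_lit 0) (nat_lit 4610594563) (nat_lit 152) (nat_lit 2362903146) (nat_lit 76) (nat_lit 313881869875) (nat_lit 2) (nat_lit 5) (nat_lit 4) (nat_lit 5) (nat_lit 3) (nat_lit 4) (nat_lit 374)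 (nat_lit 298) (nat_lit 228))) (XT.nd (nat_lit 78) (nat_lit 0) (nat_lit 0) (XT.lf (nat_lit 0) (nat_lit 12398149090) (nat_lit 152) (nat_lit 332131417070) (nat_lit 0) (nat_lit 1326844770) (nat_lit 1) (nat_lit 5) (nat_lit 3) (nat_lit 4) (nat_lit 1) (nat_lit 4) (nat_lit 375) (nat_lit 298) (nat_lit 227)) (XT.lf (nat_lit 0) (nat_lit 21050587260) (nat_lit 152) (nat_lit 341811807332) (nat_lit 0) (nat_lit 9975794575) (nat_lit 1) (nat_lit 5) (nat_lit 3) (nat_lit 4) (nat_lit 1) (nat_lit 4) (nat_lit 376) (nat_lit 298) (nat_lit 226)))) (XT.nd (nat_lit 156) (nat_lit 0) (nat_lit 0) (XT.nd (nat_lit 78) (nat_lit 0) (nat_lit 0) (XT.lf (nat_lit 0) (nat_lit 30390095884) (nat_lit 152) (nat_lit 352276752152) (nat_lit 0) (nat_lit 19312073233) (nat_lit 1) (nat_lit 5) (nat_lit 3) (nat_lit 4) (nat_lit 1) (nat_lit 4) (nat_lit 377) (nat_lit 298) (nat_lit 225)) (XT.lf (nat_lit 0) (nat_lit 40472020199) (nat_lit 152)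 (nat_lit 363588266015) (nat_lit 0) (nat_lit 29391006838) (nat_lit 1) (nat_lit 5) (nat_lit 3) (nat_lit 4) (nat_lit 1) (nat_lit 4) (nat_lit 378) (nat_lit 298) (nat_lit 224))) (XT.nd (nat_lit 78) (nat_lit 0) (nat_lit 0) (XT.lf (nat_lit 0) (nat_lit 51356104941) (nat_lit 152) (nat_lit 375813380117) (nat_lit 0) (nat_lit 40272322405) (nat_lit 1) (nat_lit 5) (nat_lit 3) (nat_lit 4) (nat_lit 1) (nat_lit 4) (nat_lit 379) (nat_lit 298) (nat_lit 223)) (XT.lf (nat_lit 0) (nat_lit 63106848391) (nat_lit 152) (nat_lit 389024539577) (nat_lit 0) (nat_lit 52020501803) (nat_lit 1) (nat_lit 5) (nat_lit 3) (nat_lit 4) (nat_lit 1) (nat_lit 4) (nat_lit 380) (nat_lit 298) (nat_lit 222))))) (XT.nd (nat_lit 312) (nat_lit 0) (nat_lit 0) (XT.nd (nat_lit 156) (nat_lit 0) (nat_lit 0) (XT.nd (nat_lit 78) (nat_lit 0) (nat_lit 0) (XT.lf (nat_lit 0) (nat_lit 75793884584) (nat_lit 152) (nat_lit 403300032747) (nat_lit 0)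 (nat_lit 64705163874) (nat_lit 1) (nat_lit 5) (nat_lit 3) (nat_lit 4) (nat_lit 1) (nat_lit 4) (nat_lit 381) (nat_lit 298) (nat_lit 221)) (XT.lf (nat_lit 0) (nat_lit 89492395957) (nat_lit 152) (nat_lit 418724455143) (nat_lit 0) (nat_lit 78401476986) (nat_lit 1) (nat_lit 5) (nat_lit 3) (nat_lit 4) (nat_lit 1) (nat_lit 4) (nat_lit 382) (nat_lit 298) (nat_lit 220))) (XT.nd (nat_lit 78) (nat_lit 0) (nat_lit 0) (XT.lf (nat_lit 0) (nat_lit 104283558872) (nat_lit 152) (nat_lit 435389210750) (nat_lit 0) (nat_lit 93190604474) (nat_lit 1) (nat_lit 5) (nat_lit 3) (nat_lit 4) (nat_lit 1) (nat_lit 4) (nat_lit 383) (nat_lit 298) (nat_lit 219)) (XT.lf (nat_lit 0) (nat_lit 120255024667) (nat_lit 152) (nat_lit 453393053674) (nat_lit 0) (nat_lit 109160185615) (nat_lit 1) (nat_lit 5) (nat_lit 3) (nat_lit 4) (nat_lit 1) (nat_lit 4) (nat_lit 384) (nat_lit 298) (nat_lit 218)))) (XT.nd (nat_lit 156) (nat_lit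 0) (nat_lit 0) (XT.nd (nat_lit 78) (nat_lit 0) (nat_lit 0) (XT.lf (nat_lit 0) (nat_lit 137501439064) (nat_lit 152) (nat_lit 472842673355) (nat_lit 0) (nat_lit 126404854961) (nat_lit 1) (nat_lit 5) (nat_lit 3) (nat_lit 4) (nat_lit 1) (nat_lit 4) (nat_lit 385) (nat_lit 298) (nat_lit 217)) (XT.lf (nat_lit 0) (nat_lit 156125003037) (nat_lit 152) (nat_lit 493853326799) (nat_lit 0) (nat_lit 145026803147) (nat_lit 1) (nat_lit 5) (nat_lit 3) (nat_lit 4) (nat_lit 1) (nat_lit 4) (nat_lit 386) (nat_lit 298) (nat_lit 216))) (XT.nd (nat_lit 78) (nat_lit 0) (nat_lit 0) (XT.lf (nat_lit 0) (nat_lit 176236078447) (nat_lit 152) (nat_lit 516549521582) (nat_lit 0) (nat_lit 165136382458) (nat_lit 1) (nat_lit 5) (nat_lit 3) (nat_lit 4) (nat_lit 1) (nat_lit 4) (nat_lit 387) (nat_lit 298) (nat_lit 215)) (XT.nd (nat_lit 78) (nat_lit 0) (nat_lit 0) (XT.lf (nat_lit 0) (nat_lit 197953842038) (nat_lit 152) (nat_lit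 541065753672) (nat_lit 0) (nat_lit 186852760771) (nat_lit 1) (nat_lit 5) (nat_lit 3) (nat_lit 4) (nat_lit 1) (nat_lit 4) (nat_lit 388) (nat_lit 298) (nat_lit 214)) (XT.lf (nat_lit 0) (nat_lit 221406991667) (nat_lit 152) (nat_lit 567547304446) (nat_lit 0) (nat_lit 210304627736) (nat_lit 1) (nat_lit 5) (nat_lit 3) (nat_lit 4) (nat_lit 1) (nat_lit 4) (nat_lit 389) (nat_lit 298) (nat_lit 213))))))) (XT.nd (nat_lit 702) (nat_lit 0) (nat_lit 0) (XT.nd (nat_lit 312) (nat_lit 0) (nat_lit 0) (XT.nd (nat_lit 156) (nat_lit 0) (nat_lit 0) (XT.nd (nat_lit 78) (nat_lit 0) (nat_lit 0) (XT.lf (nat_lit 0) (nat_lit 246734508962) (nat_lit 152) (nat_lit 596151101610) (nat_lit 0) (nat_lit 235630957378) (nat_lit 1) (nat_lit 5) (nat_lit 3) (nat_lit 4) (nat_lit 1) (nat_lit 4) (nat_lit 390) (nat_lit 298) (nat_lit 212)) (XT.lf (nat_lit 0) (nat_lit 274086482914) (nat_lit 152) (nat_lit 627046649150) (nat_lit 0)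 (nat_lit 262981831653) (nat_lit 1) (nat_lit 5) (nat_lit 3) (nat_lit 4) (nat_lit 1) (nat_lit 4) (nat_lit 391) (nat_lit 298) (nat_lit 211))) (XT.nd (nat_lit 78) (nat_lit 0) (nat_lit 0) (XT.lf (nat_lit 0) (nat_lit 303624999295) (nat_lit 152) (nat_lit 660417031790) (nat_lit 0) (nat_lit 292519329814) (nat_lit 1) (nat_lit 5) (nat_lit 3) (nat_lit 4) (nat_lit 1) (nat_lit 4) (nat_lit 392) (nat_lit 298) (nat_lit 210)) (XT.lf (nat_lit 0) (nat_lit 335525101165) (nat_lit 152) (nat_lit 696459999946) (nat_lit 0) (nat_lit 324418488887) (nat_lit 1) (nat_lit 5) (nat_lit 3) (nat_lit 4) (nat_lit 1) (nat_lit 4) (nat_lit 393) (nat_lit 298) (nat_lit 209)))) (XT.nd (nat_lit 156) (nat_lit 0) (nat_lit 0) (XT.nd (nat_lit 78) (nat_lit 0) (nat_lit 0) (XT.lf (nat_lit 0) (nat_lit 369975826164) (nat_lit 152) (nat_lit 735389141579) (nat_lit 0) (nat_lit 358868340927) (nat_lit 1) (nat_lit 5) (nat_lit 3) (nat_lit 4) (nat_lit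 1) (nat_lit 4) (nat_lit 394) (nat_lit 298) (nat_lit 208)) (XT.lf (nat_lit 0) (nat_lit 407181326738) (nat_lit 152) (nat_lit 777435147896) (nat_lit 0) (nat_lit 396073033205) (nat_lit 1) (nat_lit 5) (nat_lit 3) (nat_lit 4) (nat_lit 1) (nat_lit 4) (nat_lit 395) (nat_lit 298) (nat_lit 207))) (XT.nd (nat_lit 78) (nat_lit 0) (nat_lit 0) (XT.lf (nat_lit 0) (nat_lit 447362079926) (nat_lit 152) (nat_lit 822847180418) (nat_lit 0) (nat_lit 436253037970) (nat_lit 1) (nat_lit 5) (nat_lit 3) (nat_lit 4) (nat_lit 1) (nat_lit 4) (nat_lit 396) (nat_lit 298) (nat_lit 206)) (XT.nd (nat_lit 78) (nat_lit 0) (nat_lit 0) (XT.lf (nat_lit 0) (nat_lit 490756193895) (nat_lit 152) (nat_lit 871894347486) (nat_lit 0) (nat_lit 479646458957) (nat_lit 1) (nat_lit 5) (nat_lit 3) (nat_lit 4) (nat_lit 1) (nat_lit 4) (nat_lit 397) (nat_lit 298) (nat_lit 205)) (XT.lf (nat_lit 0) (nat_lit 537620818952) (nat_lit 152) (nat_lit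 924867298977) (nat_lit 0) (nat_lit 526510442361) (nat_lit 1) (nat_lit 5) (nat_lit 3) (nat_lit 4) (nat_lit 1) (nat_lit 4) (nat_lit 398) (nat_lit 298) (nat_lit 204)))))) (XT.nd (nat_lit 312) (nat_lit 0) (nat_lit 0) (XT.nd (nat_lit 156) (nat_lit 0) (nat_lit 0) (XT.nd (nat_lit 78) (nat_lit 0) (nat_lit 0) (XT.lf (nat_lit 0) (nat_lit 588233671391) (nat_lit 152) (nat_lit 982079948680) (nat_lit 0) (nat_lit 577122700679) (nat_lit 1) (nat_lit 5) (nat_lit 3) (nat_lit 4) (nat_lit 1) (nat_lit 4) (nat_lit 399) (nat_lit 298) (nat_lit 203)) (XT.lf (nat_lit 0) (nat_lit 642894679228) (nat_lit 152) (nat_lit 1043871334517) (nat_lit 0) (nat_lit 631783158403) (nat_lit 1) (nat_lit 5) (nat_lit 3) (nat_lit 4) (nat_lit 1) (nat_lit 4) (nat_lit 400) (nat_lit 298) (nat_lit 202))) (XT.nd (nat_lit 78) (nat_lit 0) (nat_lit 0) (XT.lf (nat_lit 0) (nat_lit 701927759546) (nat_lit 152) (nat_lit 1110607627665) (nat_lit 0)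 (nat_lit 690815729358) (nat_lit 1) (nat_lit 5) (nat_lit 3) (nat_lit 4) (nat_lit 1) (nat_lit 4) (nat_lit 401) (nat_lit 298) (nat_lit 201)) (XT.lf (nat_lit 0) (nat_lit 765682738006) (nat_lit 152) (nat_lit 1182684302453) (nat_lit 0) (nat_lit 754570236185) (nat_lit 1) (nat_lit 5) (nat_lit 3) (nat_lit 4) (nat_lit 1) (nat_lit 4) (nat_lit 402) (nat_lit 298) (nat_lit 200)))) (XT.nd (nat_lit 156) (nat_lit 0) (nat_lit 0) (XT.nd (nat_lit 78) (nat_lit 0) (nat_lit 0) (XT.lf (nat_lit 0) (nat_lit 834537421888) (nat_lit 152) (nat_lit 1260528479916) (nat_lit 0) (nat_lit 823424483370) (nat_lit 1) (nat_lit 5) (nat_lit 3) (nat_lit 4) (nat_lit 1) (nat_lit 4) (nat_lit 403) (nat_lit 298) (nat_lit 199)) (XT.lf (nat_lit 0) (nat_lit 908899838949) (nat_lit 152) (nat_lit 1344601458885) (nat_lit 0) (nat_lit 897786496082) (nat_lit 1) (nat_lit 5) (nat_lit 3) (nat_lit 4) (nat_lit 1) (nat_lit 4) (nat_lit 404) (nat_lit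 298) (nat_lit 198))) (XT.nd (nat_lit 78) (nat_lit 0) (nat_lit 0) (XT.lf (nat_lit 0) (nat_lit 989210655363) (nat_lit 152) (nat_lit 1435401449605) (nat_lit 0) (nat_lit 978096938098) (nat_lit 1) (nat_lit 5) (nat_lit 3) (nat_lit 4) (nat_lit 1) (nat_lit 4) (nat_lit 405) (nat_lit 298) (nat_lit 197)) (XT.nd (nat_lit 78) (nat_lit 0) (nat_lit 0) (XT.lf (nat_lit 0) (nat_lit 1075945787080) (nat_lit 152) (nat_lit 1533466526095) (nat_lit 0) (nat_lit 1064831723151) (nat_lit 1) (nat_lit 5) (nat_lit 3) (nat_lit 4) (nat_lit 1) (nat_lit 4) (nat_lit 406) (nat_lit 298) (nat_lit 196)) (XT.lf (nat_lit 0) (nat_lit 1169619220065) (nat_lit 152) (nat_lit 1639377814735) (nat_lit 0) (nat_lit 1158504835151) (nat_lit 1) (nat_lit 5) (nat_lit 3) (nat_lit 4) (nat_lit 1) (nat_lit 4) (nat_lit 407) (nat_lit 298) (nat_lit 195))))))))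
noncomputable def xc92 : XT := (XT.nd (nat_lit 39468) (nat_lit 0) (nat_lit 1216) (XT.nd (nat_lit 38766) (nat_lit 0) (nat_lit 3496) (XT.nd (nat_lit 312) (nat_lit 0) (nat_lit 0) (XT.nd (nat_lit 156) (nat_lit 0) (nat_lit 0) (XT.nd (nat_lit 78) (nat_lit 0) (nat_lit 0) (XT.lf (nat_lit 0) (nat_lit 1270786056144) (nat_lit 152) (nat_lit 1753762937974) (nat_lit 0) (nat_lit 1259671374020) (nat_lit 1) (nat_lit 5) (nat_lit 3) (nat_lit 4) (nat_lit 1) (nat_lit 4) (nat_lit 408) (nat_lit 298) (nat_lit 194)) (XT.lf (nat_lit 0) (nat_lit 1380045802493) (nat_lit 152) (nat_lit 1877299733582) (nat_lit 0) (nat_lit 1368930845176) (nat_lit 1) (nat_lit 5) (nat_lit 3) (nat_lit 4) (nat_lit 1) (nat_lit 4) (nat_lit 409) (nat_lit 298) (nat_lit 193))) (XT.nd (nat_lit 78) (nat_lit 0) (nat_lit 0) (XT.lf (nat_lit 0) (nat_lit 1498045924276) (nat_lit 152) (nat_lit 2010720271457) (nat_lit 0) (nat_lit 1486930712150) (nat_lit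 1) (nat_lit 5) (nat_lit 3) (nat_lit 4) (nat_lit 1) (nat_lit 4) (nat_lit 410) (nat_lit 298) (nat_lit 192)) (XT.lf (nat_lit 0) (nat_lit 1625485681473) (nat_lit 152) (nat_lit 2154815191825) (nat_lit 0) (nat_lit 1614370233414) (nat_lit 1) (nat_lit 5) (nat_lit 3) (nat_lit 4) (nat_lit 1) (nat_lit 4) (nat_lit 411) (nat_lit 298) (nat_lit 191)))) (XT.nd (nat_lit 38298) (nat_lit 0) (nat_lit 5320) (XT.nd (nat_lit 78) (nat_lit 0) (nat_lit 0) (XT.lf (nat_lit 0) (nat_lit 1763120272646) (nat_lit 152) (nat_lit 2310438390509) (nat_lit 0) (nat_lit 1752004606130) (nat_lit 1) (nat_lit 5) (nat_lit 3) (nat_lit 4) (nat_lit 1) (nat_lit 4) (nat_lit 412) (nat_lit 298) (nat_lit 190)) (XT.lf (nat_lit 0) (nat_lit 1911765310187) (nat_lit 152) (nat_lit 2478512079057) (nat_lit 0) (nat_lit 1900649441396) (nat_lit 1) (nat_lit 5) (nat_lit 3) (nat_lit 4) (nat_lit 1) (nat_lit 4) (nat_lit 413) (nat_lit 298) (nat_lit 189)))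 (XT.nd (nat_lit 78) (nat_lit 76) (nat_lit 0) (XT.lf (nat_lit 0) (nat_lit 1605955764) (nat_lit 76) (nat_lit 22567203) (nat_lit 0) (nat_lit 1605955764) (nat_lit 72) (nat_lit 5) (nat_lit 73) (nat_lit 0) (nat_lit 72) (nat_lit 4) (nat_lit 302) (nat_lit 299) (nat_lit 299)) (XT.lf (nat_lit 0) (nat_lit 3491931037) (nat_lit 76) (nat_lit 2814610879) (nat_lit 76) (nat_lit 202060042) (nat_lit 71) (nat_lit 4) (nat_lit 72) (nat_lit 5) (nat_lit 72) (nat_lit 4) (nat_lit 303) (nat_lit 299) (nat_lit 298))))) (XT.nd (nat_lit 312) (nat_lit 1292) (nat_lit 0) (XT.nd (nat_lit 156) (nat_lit 304) (nat_lit 0) (XT.nd (nat_lit 78) (nat_lit 0) (nat_lit 0) (XT.lf (nat_lit 0) (nat_lit 526139351) (nat_lit 152) (nat_lit 2145840812) (nat_lit 228) (nat_lit 3896245573) (nat_lit 68) (nat_lit 5) (nat_lit 70) (nat_lit 5) (nat_lit 71) (nat_lit 4) (nat_lit 304) (nat_lit 299) (nat_lit 297)) (XT.lf (nat_lit 0) (nat_lit 4334325206)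 (nat_lit 152) (nat_lit 1245360298) (nat_lit 228) (nat_lit 1068392002) (nat_lit 68) (nat_lit 5) (nat_lit 70) (nat_lit 5) (nat_lit 71) (nat_lit 4) (nat_lit 305) (nat_lit 299) (nat_lit 296))) (XT.nd (nat_lit 78) (nat_lit 0) (nat_lit 0) (XT.lf (nat_lit 0) (nat_lit 1558253055) (nat_lit 228) (nat_lit 110357512) (nat_lit 304) (nat_lit 5080206884) (nat_lit 64) (nat_lit 5) (nat_lit 67) (nat_lit 5) (nat_lit 68) (nat_lit 5) (nat_lit 306) (nat_lit 299) (nat_lit 295)) (XT.lf (nat_lit 0) (nat_lit 4419390780) (nat_lit 304) (nat_lit 1238825126) (nat_lit 76) (nat_lit 1209811603) (nat_lit 64) (nat_lit 5) (nat_lit 68) (nat_lit 5) (nat_lit 65) (nat_lit 4) (nat_lit 307) (nat_lit 299) (nat_lit 294)))) (XT.nd (nat_lit 156) (nat_lit 532) (nat_lit 0) (XT.nd (nat_lit 78) (nat_lit 380) (nat_lit 0) (XT.lf (nat_lit 0) (nat_lit 222508406) (nat_lit 380) (nat_lit 4025925364) (nat_lit 76) (nat_lit 2760400083) (nat_lit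 59) (nat_lit 5) (nat_lit 64) (nat_lit 5) (nat_lit 60) (nat_lit 5) (nat_lit 308) (nat_lit 299) (nat_lit 293)) (XT.lf (nat_lit 0) (nat_lit 206484876) (nat_lit 380) (nat_lit 2592721648) (nat_lit 456) (nat_lit 4371340065) (nat_lit 54) (nat_lit 5) (nat_lit 59) (nat_lit 5) (nat_lit 60) (nat_lit 5) (nat_lit 309) (nat_lit 299) (nat_lit 292))) (XT.nd (nat_lit 78) (nat_lit 532) (nat_lit 0) (XT.lf (nat_lit 0) (nat_lit 4817354831) (nat_lit 380) (nat_lit 670615739) (nat_lit 456) (nat_lit 1865364399) (nat_lit 54) (nat_lit 5) (nat_lit 59) (nat_lit 5) (nat_lit 60) (nat_lit 5) (nat_lit 310) (nat_lit 299) (nat_lit 291)) (XT.nd (nat_lit 78) (nat_lit 0) (nat_lit 0) (XT.lf (nat_lit 0) (nat_lit 692065034) (nat_lit 532) (nat_lit 5449244048) (nat_lit 76) (nat_lit 1416900622) (nat_lit 47) (nat_lit 5) (nat_lit 54) (nat_lit 5) (nat_lit 48) (nat_lit 5) (nat_lit 311) (nat_lit 299) (nat_lit 290)) (XT.lf (nat_lit 0)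 (nat_lit 3257523288) (nat_lit 532) (nat_lit 768332231) (nat_lit 76) (nat_lit 3757892454) (nat_lit 47) (nat_lit 5) (nat_lit 54) (nat_lit 5) (nat_lit 48) (nat_lit 5) (nat_lit 312) (nat_lit 299) (nat_lit 289))))))) (XT.nd (nat_lit 624) (nat_lit 988) (nat_lit 0) (XT.nd (nat_lit 312) (nat_lit 456) (nat_lit 0) (XT.nd (nat_lit 156) (nat_lit 228) (nat_lit 0) (XT.nd (nat_lit 78) (nat_lit 304) (nat_lit 0) (XT.lf (nat_lit 0) (nat_lit 4321310097) (nat_lit 304) (nat_lit 1640145735) (nat_lit 380) (nat_lit 2071665056) (nat_lit 43) (nat_lit 5) (nat_lit 47) (nat_lit 5) (nat_lit 48) (nat_lit 5) (nat_lit 313) (nat_lit 299) (nat_lit 288)) (XT.lf (nat_lit 0) (nat_lit 463212345) (nat_lit 304) (nat_lit 6902739653) (nat_lit 76) (nat_lit 942729062) (nat_lit 39) (nat_lit 5) (nat_lit 43) (nat_lit 5) (nat_lit 40) (nat_lit 5) (nat_lit 314) (nat_lit 299) (nat_lit 287))) (XT.nd (nat_lit 78) (nat_lit 228) (nat_lit 0)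 (XT.lf (nat_lit 0) (nat_lit 3076202379) (nat_lit 304) (nat_lit 1747290534) (nat_lit 76) (nat_lit 3779866380) (nat_lit 39) (nat_lit 5) (nat_lit 43) (nat_lit 5) (nat_lit 40) (nat_lit 5) (nat_lit 315) (nat_lit 299) (nat_lit 286)) (XT.lf (nat_lit 0) (nat_lit 3832414319) (nat_lit 228) (nat_lit 2010321630) (nat_lit 304) (nat_lit 3083646689) (nat_lit 36) (nat_lit 5) (nat_lit 39) (nat_lit 5) (nat_lit 40) (nat_lit 5) (nat_lit 316) (nat_lit 299) (nat_lit 285)))) (XT.nd (nat_lit 156) (nat_lit 228) (nat_lit 0) (XT.nd (nat_lit 78) (nat_lit 76) (nat_lit 0) (XT.lf (nat_lit 0) (nat_lit 499363993) (nat_lit 152) (nat_lit 8275202682) (nat_lit 228) (nat_lit 505469886) (nat_lit 34) (nat_lit 5) (nat_lit 36) (nat_lit 5) (nat_lit 37) (nat_lit 4) (nat_lit 317) (nat_lit 299) (nat_lit 284)) (XT.lf (nat_lit 0) (nat_lit 2220645494) (nat_lit 228) (nat_lit 3120609350) (nat_lit 76) (nat_lit 4312151162) (nat_lit 33)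 (nat_lit 5) (nat_lit 36) (nat_lit 5) (nat_lit 34) (nat_lit 5) (nat_lit 318) (nat_lit 299) (nat_lit 283))) (XT.nd (nat_lit 78) (nat_lit 0) (nat_lit 0) (XT.lf (nat_lit 0) (nat_lit 2951802668) (nat_lit 228) (nat_lit 2127633022) (nat_lit 304) (nat_lit 4981050906) (nat_lit 30) (nat_lit 5) (nat_lit 33) (nat_lit 5) (nat_lit 34) (nat_lit 5) (nat_lit 319) (nat_lit 299) (nat_lit 282)) (XT.lf (nat_lit 0) (nat_lit 8162004827) (nat_lit 304) (nat_lit 1019891604) (nat_lit 76) (nat_lit 1318856554) (nat_lit 30) (nat_lit 5) (nat_lit 34) (nat_lit 5) (nat_lit 31) (nat_lit 4) (nat_lit 320) (nat_lit 299) (nat_lit 281))))) (XT.nd (nat_lit 312) (nat_lit 532) (nat_lit 0) (XT.nd (nat_lit 156) (nat_lit 76) (nat_lit 0) (XT.nd (nat_lit 78) (nat_lit 152) (nat_lit 0) (XT.lf (nat_lit 0) (nat_lit 565714823) (nat_lit 228) (nat_lit 5369388391) (nat_lit 76) (nat_lit 5034217154) (nat_lit 27) (nat_lit 5) (nat_lit 30) (nat_lit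 5) (nat_lit 28) (nat_lit 5) (nat_lit 321) (nat_lit 299) (nat_lit 280)) (XT.lf (nat_lit 0) (nat_lit 1162676463) (nat_lit 152) (nat_lit 2356151975) (nat_lit 228) (nat_lit 7956452165) (nat_lit 25) (nat_lit 5) (nat_lit 27) (nat_lit 5) (nat_lit 28) (nat_lit 5) (nat_lit 322) (nat_lit 299) (nat_lit 279))) (XT.nd (nat_lit 78) (nat_lit 76) (nat_lit 0) (XT.lf (nat_lit 0) (nat_lit 6784365992) (nat_lit 228) (nat_lit 3698977734) (nat_lit 76) (nat_lit 1532445626) (nat_lit 25) (nat_lit 5) (nat_lit 28) (nat_lit 5) (nat_lit 26) (nat_lit 4) (nat_lit 323) (nat_lit 299) (nat_lit 278)) (XT.lf (nat_lit 0) (nat_lit 3393436352) (nat_lit 76) (nat_lit 6957983012) (nat_lit 152) (nat_lit 2245051022) (nat_lit 24) (nat_lit 5) (nat_lit 25) (nat_lit 5) (nat_lit 26) (nat_lit 4) (nat_lit 324) (nat_lit 299) (nat_lit 277)))) (XT.nd (nat_lit 156) (nat_lit 304) (nat_lit 0) (XT.nd (nat_lit 78) (nat_lit 152) (nat_lit 0) (XT.lf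 (nat_lit 0) (nat_lit 933595257) (nat_lit 152) (nat_lit 2138413368) (nat_lit 76) (nat_lit 10149650893) (nat_lit 23) (nat_lit 5) (nat_lit 25) (nat_lit 5) (nat_lit 24) (nat_lit 5) (nat_lit 325) (nat_lit 299) (nat_lit 276)) (XT.lf (nat_lit 0) (nat_lit 4315904227) (nat_lit 228) (nat_lit 8356942368) (nat_lit 76) (nat_lit 1213820962) (nat_lit 21) (nat_lit 5) (nat_lit 24) (nat_lit 5) (nat_lit 22) (nat_lit 4) (nat_lit 326) (nat_lit 299) (nat_lit 275))) (XT.nd (nat_lit 78) (nat_lit 304) (nat_lit 0) (XT.lf (nat_lit 0) (nat_lit 8016888461) (nat_lit 228) (nat_lit 899291766) (nat_lit 76) (nat_lit 5684961529) (nat_lit 21) (nat_lit 5) (nat_lit 24) (nat_lit 5) (nat_lit 22) (nat_lit 4) (nat_lit 327) (nat_lit 299) (nat_lit 274)) (XT.nd (nat_lit 78) (nat_lit 228) (nat_lit 0) (XT.lf (nat_lit 0) (nat_lit 7384844237) (nat_lit 76) (nat_lit 4721816076) (nat_lit 152) (nat_lit 3258801276) (nat_lit 20) (nat_lit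 5) (nat_lit 21) (nat_lit 5) (nat_lit 22) (nat_lit 4) (nat_lit 328) (nat_lit 299) (nat_lit 273)) (XT.lf (nat_lit 0) (nat_lit 47078357) (nat_lit 152) (nat_lit 211227467) (nat_lit 228) (nat_lit 15936689707) (nat_lit 17) (nat_lit 5) (nat_lit 19) (nat_lit 5) (nat_lit 20) (nat_lit 5) (nat_lit 329) (nat_lit 299) (nat_lit 272))))))))
noncomputable def xc93 : XT := (XT.nd (nat_lit 1326) (nat_lit 380) (nat_lit 0) (XT.nd (nat_lit 624) (nat_lit 380) (nat_lit 0) (XT.nd (nat_lit 312) (nat_lit 228) (nat_lit 0) (XT.nd (nat_lit 156) (nat_lit 0) (nat_lit 0) (XT.nd (nat_lit 78) (nat_lit 76) (nat_lit 0) (XT.lf (nat_lit 0) (nat_lit 4134166696) (nat_lit 228) (nat_lit 8247178765) (nat_lit 76) (nat_lit 4682582466) (nat_lit 17) (nat_lit 5) (nat_lit 20) (nat_lit 5) (nat_lit 18) (nat_lit 4) (nat_lit 330) (nat_lit 299) (nat_lit 271)) (XT.lf (nat_lit 0) (nat_lit 156276282) (nat_lit 76) (nat_lit 8096671634) (nat_lit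 152) (nat_lit 9754875624) (nat_lit 16) (nat_lit 5) (nat_lit 17) (nat_lit 5) (nat_lit 18) (nat_lit 4) (nat_lit 331) (nat_lit 299) (nat_lit 270))) (XT.nd (nat_lit 78) (nat_lit 0) (nat_lit 0) (XT.lf (nat_lit 0) (nat_lit 9572692025) (nat_lit 76) (nat_lit 3280210882) (nat_lit 152) (nat_lit 6162265251) (nat_lit 16) (nat_lit 5) (nat_lit 17) (nat_lit 5) (nat_lit 18) (nat_lit 4) (nat_lit 332) (nat_lit 299) (nat_lit 269)) (XT.lf (nat_lit 0) (nat_lit 17797500997) (nat_lit 152) (nat_lit 530046421) (nat_lit 0) (nat_lit 1777486986) (nat_lit 16) (nat_lit 5) (nat_lit 18) (nat_lit 4) (nat_lit 16) (nat_lit 4) (nat_lit 333) (nat_lit 299) (nat_lit 268)))) (XT.nd (nat_lit 156) (nat_lit 76) (nat_lit 0) (XT.nd (nat_lit 78) (nat_lit 0) (nat_lit 0) (XT.lf (nat_lit 0) (nat_lit 2015090648) (nat_lit 152) (nat_lit 11948883616) (nat_lit 76) (nat_lit 7294414990) (nat_lit 14) (nat_lit 5) (nat_lit 16) (nat_lit 5) (nat_lit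 15) (nat_lit 4) (nat_lit 334) (nat_lit 299) (nat_lit 267)) (XT.lf (nat_lit 0) (nat_lit 6509739021) (nat_lit 152) (nat_lit 2711365141) (nat_lit 76) (nat_lit 13282095194) (nat_lit 14) (nat_lit 5) (nat_lit 16) (nat_lit 5) (nat_lit 15) (nat_lit 4) (nat_lit 335) (nat_lit 299) (nat_lit 266))) (XT.nd (nat_lit 78) (nat_lit 0) (nat_lit 0) (XT.lf (nat_lit 0) (nat_lit 7536059632) (nat_lit 76) (nat_lit 3949894176) (nat_lit 152) (nat_lit 12351929257) (nat_lit 13) (nat_lit 5) (nat_lit 14) (nat_lit 5) (nat_lit 15) (nat_lit 4) (nat_lit 336) (nat_lit 299) (nat_lit 265)) (XT.lf (nat_lit 0) (nat_lit 16919791125) (nat_lit 152) (nat_lit 6666698536) (nat_lit 0) (nat_lit 1688134561) (nat_lit 13) (nat_lit 5) (nat_lit 15) (nat_lit 4) (nat_lit 13) (nat_lit 4) (nat_lit 337) (nat_lit 299) (nat_lit 264))))) (XT.nd (nat_lit 312) (nat_lit 152) (nat_lit 0) (XT.nd (nat_lit 156) (nat_lit 76) (nat_lit 0) (XT.nd (nat_lit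 78) (nat_lit 76) (nat_lit 0) (XT.lf (nat_lit 0) (nat_lit 3723928780) (nat_lit 76) (nat_lit 19202438523) (nat_lit 76) (nat_lit 3888936280) (nat_lit 12) (nat_lit 4) (nat_lit 13) (nat_lit 5) (nat_lit 13) (nat_lit 4) (nat_lit 338) (nat_lit 299) (nat_lit 263)) (XT.lf (nat_lit 0) (nat_lit 1020678798) (nat_lit 152) (nat_lit 13266273377) (nat_lit 76) (nat_lit 14179868752) (nat_lit 11) (nat_lit 5) (nat_lit 13) (nat_lit 5) (nat_lit 12) (nat_lit 4) (nat_lit 339) (nat_lit 299) (nat_lit 262))) (XT.nd (nat_lit 78) (nat_lit 76) (nat_lit 0) (XT.lf (nat_lit 0) (nat_lit 6063113882) (nat_lit 152) (nat_lit 2848177879) (nat_lit 76) (nat_lit 21335107556) (nat_lit 11) (nat_lit 5) (nat_lit 13) (nat_lit 5) (nat_lit 12) (nat_lit 4) (nat_lit 340) (nat_lit 299) (nat_lit 261)) (XT.lf (nat_lit 0) (nat_lit 8756198050) (nat_lit 76) (nat_lit 2917179134) (nat_lit 152) (nat_lit 20481842597) (nat_lit 10) (nat_lit 5) (nat_lit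 11) (nat_lit 5) (nat_lit 12) (nat_lit 4) (nat_lit 341) (nat_lit 299) (nat_lit 260)))) (XT.nd (nat_lit 156) (nat_lit 152) (nat_lit 0) (XT.nd (nat_lit 78) (nat_lit 0) (nat_lit 0) (XT.lf (nat_lit 0) (nat_lit 17852238900) (nat_lit 152) (nat_lit 12932885883) (nat_lit 0) (nat_lit 3422067130) (nat_lit 10) (nat_lit 5) (nat_lit 12) (nat_lit 4) (nat_lit 10) (nat_lit 4) (nat_lit 342) (nat_lit 299) (nat_lit 259)) (XT.lf (nat_lit 0) (nat_lit 24558909514) (nat_lit 152) (nat_lit 1784597348) (nat_lit 0) (nat_lit 10077161084) (nat_lit 10) (nat_lit 5) (nat_lit 12) (nat_lit 4) (nat_lit 10) (nat_lit 4) (nat_lit 343) (nat_lit 299) (nat_lit 258))) (XT.nd (nat_lit 78) (nat_lit 76) (nat_lit 0) (XT.lf (nat_lit 0) (nat_lit 10718235586) (nat_lit 76) (nat_lit 21302512270) (nat_lit 76) (nat_lit 6773007672) (nat_lit 9) (nat_lit 4) (nat_lit 10) (nat_lit 5) (nat_lit 10) (nat_lit 4) (nat_lit 344) (nat_lit 299) (nat_lit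 257)) (XT.nd (nat_lit 78) (nat_lit 76) (nat_lit 0) (XT.lf (nat_lit 0) (nat_lit 24251159014) (nat_lit 76) (nat_lit 15839205151) (nat_lit 76) (nat_lit 1265481880) (nat_lit 9) (nat_lit 4) (nat_lit 10) (nat_lit 5) (nat_lit 10) (nat_lit 4) (nat_lit 345) (nat_lit 299) (nat_lit 256)) (XT.lf (nat_lit 0) (nat_lit 4412317271) (nat_lit 152) (nat_lit 5437046562) (nat_lit 76) (nat_lit 34267436459) (nat_lit 8) (nat_lit 5) (nat_lit 10) (nat_lit 5) (nat_lit 9) (nat_lit 4) (nat_lit 346) (nat_lit 299) (nat_lit 255))))))) (XT.nd (nat_lit 702) (nat_lit 152) (nat_lit 0) (XT.nd (nat_lit 312) (nat_lit 152) (nat_lit 0) (XT.nd (nat_lit 156) (nat_lit 0) (nat_lit 0) (XT.nd (nat_lit 78) (nat_lit 0) (nat_lit 0) (XT.lf (nat_lit 0) (nat_lit 7440134744) (nat_lit 76) (nat_lit 3181361224) (nat_lit 152) (nat_lit 36462881159) (nat_lit 7) (nat_lit 5) (nat_lit 8) (nat_lit 5) (nat_lit 9) (nat_lit 4) (nat_lit 347) (nat_lit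 299) (nat_lit 254)) (XT.lf (nat_lit 0) (nat_lit 17543493047) (nat_lit 152) (nat_lit 28784806608) (nat_lit 0) (nat_lit 3943790194) (nat_lit 7) (nat_lit 5) (nat_lit 9) (nat_lit 4) (nat_lit 7) (nat_lit 4) (nat_lit 348) (nat_lit 299) (nat_lit 253))) (XT.nd (nat_lit 78) (nat_lit 0) (nat_lit 0) (XT.lf (nat_lit 0) (nat_lit 25071217165) (nat_lit 152) (nat_lit 17198040459) (nat_lit 0) (nat_lit 11441419827) (nat_lit 7) (nat_lit 5) (nat_lit 9) (nat_lit 4) (nat_lit 7) (nat_lit 4) (nat_lit 349) (nat_lit 299) (nat_lit 252)) (XT.lf (nat_lit 0) (nat_lit 33172765246) (nat_lit 152) (nat_lit 4738769806) (nat_lit 0) (nat_lit 19515102643) (nat_lit 7) (nat_lit 5) (nat_lit 9) (nat_lit 4) (nat_lit 7) (nat_lit 4) (nat_lit 350) (nat_lit 299) (nat_lit 251)))) (XT.nd (nat_lit 156) (nat_lit 76) (nat_lit 0) (XT.nd (nat_lit 78) (nat_lit 0) (nat_lit 0) (XT.lf (nat_lit 0) (nat_lit 9123218398) (nat_lit 76) (nat_lit 32992341686)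 (nat_lit 76) (nat_lit 19308877911) (nat_lit 6) (nat_lit 4) (nat_lit 7) (nat_lit 5) (nat_lit 7) (nat_lit 4) (nat_lit 351) (nat_lit 299) (nat_lit 250)) (XT.lf (nat_lit 0) (nat_lit 24314535327) (nat_lit 76) (nat_lit 27563284760) (nat_lit 76) (nat_lit 13855931011) (nat_lit 6) (nat_lit 4) (nat_lit 7) (nat_lit 5) (nat_lit 7) (nat_lit 4) (nat_lit 352) (nat_lit 299) (nat_lit 249))) (XT.nd (nat_lit 78) (nat_lit 76) (nat_lit 0) (XT.lf (nat_lit 0) (nat_lit 40675668377) (nat_lit 76) (nat_lit 21721758448) (nat_lit 76) (nat_lit 7992284354) (nat_lit 6) (nat_lit 4) (nat_lit 7) (nat_lit 5) (nat_lit 7) (nat_lit 4) (nat_lit 353) (nat_lit 299) (nat_lit 248)) (XT.nd (nat_lit 78) (nat_lit 76) (nat_lit 0) (XT.lf (nat_lit 0) (nat_lit 58303572410) (nat_lit 76) (nat_lit 15433146299) (nat_lit 76) (nat_lit 1683190403) (nat_lit 6) (nat_lit 4) (nat_lit 7) (nat_lit 5) (nat_lit 7) (nat_lit 4) (nat_lit 354) (nat_lit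 299) (nat_lit 247)) (XT.lf (nat_lit 0) (nat_lit 4853178294) (nat_lit 152) (nat_lit 3674309673) (nat_lit 76) (nat_lit 72316836292) (nat_lit 5) (nat_lit 5) (nat_lit 7) (nat_lit 5) (nat_lit 6) (nat_lit 4) (nat_lit 355) (nat_lit 299) (nat_lit 246)))))) (XT.nd (nat_lit 312) (nat_lit 76) (nat_lit 0) (XT.nd (nat_lit 156) (nat_lit 0) (nat_lit 0) (XT.nd (nat_lit 78) (nat_lit 0) (nat_lit 0) (XT.lf (nat_lit 0) (nat_lit 11328946989) (nat_lit 76) (nat_lit 745777702) (nat_lit 152) (nat_lit 74604222288) (nat_lit 4) (nat_lit 5) (nat_lit 5) (nat_lit 5) (nat_lit 6) (nat_lit 4) (nat_lit 356) (nat_lit 299) (nat_lit 245)) (XT.lf (nat_lit 0) (nat_lit 20142130815) (nat_lit 152) (nat_lit 65454948970) (nat_lit 0) (nat_lit 7361816478) (nat_lit 4) (nat_lit 5) (nat_lit 6) (nat_lit 4) (nat_lit 4) (nat_lit 4) (nat_lit 357) (nat_lit 299) (nat_lit 244))) (XT.nd (nat_lit 78) (nat_lit 0) (nat_lit 0) (XT.lf (nat_lit 0)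 (nat_lit 28856594813) (nat_lit 152) (nat_lit 54822179601) (nat_lit 0) (nat_lit 16062340905) (nat_lit 4) (nat_lit 5) (nat_lit 6) (nat_lit 4) (nat_lit 4) (nat_lit 4) (nat_lit 358) (nat_lit 299) (nat_lit 243)) (XT.lf (nat_lit 0) (nat_lit 38251821980) (nat_lit 152) (nat_lit 43370746911) (nat_lit 0) (nat_lit 25444661063) (nat_lit 4) (nat_lit 5) (nat_lit 6) (nat_lit 4) (nat_lit 4) (nat_lit 4) (nat_lit 359) (nat_lit 299) (nat_lit 242)))) (XT.nd (nat_lit 156) (nat_lit 76) (nat_lit 0) (XT.nd (nat_lit 78) (nat_lit 0) (nat_lit 0) (XT.lf (nat_lit 0) (nat_lit 48383487739) (nat_lit 152) (nat_lit 31032790556) (nat_lit 0) (nat_lit 35564375887) (nat_lit 4) (nat_lit 5) (nat_lit 6) (nat_lit 4) (nat_lit 4) (nat_lit 4) (nat_lit 360) (nat_lit 299) (nat_lit 241)) (XT.lf (nat_lit 0) (nat_lit 59311631588) (nat_lit 152) (nat_lit 17735196722) (nat_lit 0) (nat_lit 46481454057) (nat_lit 4) (nat_lit 5) (nat_lit 6)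 (nat_lit 4) (nat_lit 4) (nat_lit 4) (nat_lit 361) (nat_lit 299) (nat_lit 240))) (XT.nd (nat_lit 78) (nat_lit 76) (nat_lit 0) (XT.lf (nat_lit 0) (nat_lit 71101012900) (nat_lit 152) (nat_lit 3399164851) (nat_lit 0) (nat_lit 58260589369) (nat_lit 4) (nat_lit 5) (nat_lit 6) (nat_lit 4) (nat_lit 4) (nat_lit 4) (nat_lit 362) (nat_lit 299) (nat_lit 239)) (XT.nd (nat_lit 78) (nat_lit 0) (nat_lit 0) (XT.lf (nat_lit 0) (nat_lit 12695331200) (nat_lit 76) (nat_lit 71431486495) (nat_lit 76) (nat_lit 58581575927) (nat_lit 3) (nat_lit 4) (nat_lit 4) (nat_lit 5) (nat_lit 4) (nat_lit 4) (nat_lit 363) (nat_lit 299) (nat_lit 238)) (XT.lf (nat_lit 0) (nat_lit 30247804892) (nat_lit 76) (nat_lit 68028113088) (nat_lit 76) (nat_lit 55169418226) (nat_lit 3) (nat_lit 4) (nat_lit 4) (nat_lit 5) (nat_lit 4) (nat_lit 4) (nat_lit 364) (nat_lit 299) (nat_lit 237))))))))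
noncomputable def xc94 : XT := (XT.nd (nat_lit 1326) (nat_lit 0) (nat_lit 0) (XT.nd (nat_lit 624) (nat_lit 152) (nat_lit 0) (XT.nd (nat_lit 312) (nat_lit 0) (nat_lit 0) (XT.nd (nat_lit 156) (nat_lit 0) (nat_lit 0) (XT.nd (nat_lit 78) (nat_lit 0) (nat_lit 0) (XT.lf (nat_lit 0) (nat_lit 49183276886) (nat_lit 76) (nat_lit 64362828582) (nat_lit 76) (nat_lit 51496000114) (nat_lit 3) (nat_lit 4) (nat_lit 4) (nat_lit 5) (nat_lit 4) (nat_lit 4) (nat_lit 365) (nat_lit 299) (nat_lit 236)) (XT.lf (nat_lit 0) (nat_lit 69613957386) (nat_lit 76) (nat_lit 60413912772) (nat_lit 76) (nat_lit 47539553189) (nat_lit 3) (nat_lit 4) (nat_lit 4) (nat_lit 5) (nat_lit 4) (nat_lit 4) (nat_lit 366) (nat_lit 299) (nat_lit 235))) (XT.nd (nat_lit 78) (nat_lit 0) (nat_lit 0) (XT.lf (nat_lit 0) (nat_lit 91660917092) (nat_lit 76) (nat_lit 56157964677) (nat_lit 76) (nat_lit 43276631838) (nat_lit 3) (nat_lit 4) (nat_lit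 4) (nat_lit 5) (nat_lit 4) (nat_lit 4) (nat_lit 367) (nat_lit 299) (nat_lit 234)) (XT.lf (nat_lit 0) (nat_lit 115454804653) (nat_lit 76) (nat_lit 51569763862) (nat_lit 76) (nat_lit 38681974305) (nat_lit 3) (nat_lit 4) (nat_lit 4) (nat_lit 5) (nat_lit 4) (nat_lit 4) (nat_lit 368) (nat_lit 299) (nat_lit 233)))) (XT.nd (nat_lit 156) (nat_lit 0) (nat_lit 0) (XT.nd (nat_lit 78) (nat_lit 0) (nat_lit 0) (XT.lf (nat_lit 0) (nat_lit 141136620885) (nat_lit 76) (nat_lit 46622120991) (nat_lit 76) (nat_lit 33728352991) (nat_lit 3) (nat_lit 4) (nat_lit 4) (nat_lit 5) (nat_lit 4) (nat_lit 4) (nat_lit 369) (nat_lit 299) (nat_lit 232)) (XT.lf (nat_lit 0) (nat_lit 168858554328) (nat_lit 76) (nat_lit 41285716697) (nat_lit 76) (nat_lit 28386413102) (nat_lit 3) (nat_lit 4) (nat_lit 4) (nat_lit 5) (nat_lit 4) (nat_lit 4) (nat_lit 370) (nat_lit 299) (nat_lit 231))) (XT.nd (nat_lit 78) (nat_lit 0) (nat_lit 0)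 (XT.lf (nat_lit 0) (nat_lit 198784883107) (nat_lit 76) (nat_lit 35528927844) (nat_lit 76) (nat_lit 22624498698) (nat_lit 3) (nat_lit 4) (nat_lit 4) (nat_lit 5) (nat_lit 4) (nat_lit 4) (nat_lit 371) (nat_lit 299) (nat_lit 230)) (XT.lf (nat_lit 0) (nat_lit 231092948429) (nat_lit 76) (nat_lit 29317640128) (nat_lit 76) (nat_lit 16408465102) (nat_lit 3) (nat_lit 4) (nat_lit 4) (nat_lit 5) (nat_lit 4) (nat_lit 4) (nat_lit 372) (nat_lit 299) (nat_lit 229))))) (XT.nd (nat_lit 312) (nat_lit 0) (nat_lit 0) (XT.nd (nat_lit 156) (nat_lit 152) (nat_lit 0) (XT.nd (nat_lit 78) (nat_lit 0) (nat_lit 0) (XT.lf (nat_lit 0) (nat_lit 265974205496) (nat_lit 76) (nat_lit 22615045918) (nat_lit 76) (nat_lit 9701476558) (nat_lit 3) (nat_lit 4) (nat_lit 4) (nat_lit 5) (nat_lit 4) (nat_lit 4) (nat_lit 373) (nat_lit 299) (nat_lit 228)) (XT.lf (nat_lit 0) (nat_lit 303635358053) (nat_lit 76) (nat_lit 15381426137) (nat_lit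 76) (nat_lit 2463787949) (nat_lit 3) (nat_lit 4) (nat_lit 4) (nat_lit 5) (nat_lit 4) (nat_lit 4) (nat_lit 374) (nat_lit 299) (nat_lit 227))) (XT.nd (nat_lit 78) (nat_lit 76) (nat_lit 0) (XT.lf (nat_lit 0) (nat_lit 5079987586) (nat_lit 152) (nat_lit 2355031440) (nat_lit 76) (nat_lit 339080699852) (nat_lit 2) (nat_lit 5) (nat_lit 4) (nat_lit 5) (nat_lit 3) (nat_lit 4) (nat_lit 375) (nat_lit 299) (nat_lit 226)) (XT.lf (nat_lit 0) (nat_lit 13489979972) (nat_lit 152) (nat_lit 358504428051) (nat_lit 0) (nat_lit 1522485542) (nat_lit 1) (nat_lit 5) (nat_lit 3) (nat_lit 4) (nat_lit 1) (nat_lit 4) (nat_lit 376) (nat_lit 299) (nat_lit 225)))) (XT.nd (nat_lit 156) (nat_lit 0) (nat_lit 0) (XT.nd (nat_lit 78) (nat_lit 0) (nat_lit 0) (XT.lf (nat_lit 0) (nat_lit 22827207346) (nat_lit 152) (nat_lit 368973879341) (nat_lit 0) (nat_lit 10856722207) (nat_lit 1) (nat_lit 5) (nat_lit 3) (nat_lit 4) (nat_lit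 1) (nat_lit 4) (nat_lit 377) (nat_lit 299) (nat_lit 224)) (XT.lf (nat_lit 0) (nat_lit 32907019393) (nat_lit 152) (nat_lit 380289565863) (nat_lit 0) (nat_lit 20933765078) (nat_lit 1) (nat_lit 5) (nat_lit 3) (nat_lit 4) (nat_lit 1) (nat_lit 4) (nat_lit 378) (nat_lit 299) (nat_lit 223))) (XT.nd (nat_lit 78) (nat_lit 0) (nat_lit 0) (XT.lf (nat_lit 0) (nat_lit 43789148332) (nat_lit 152) (nat_lit 392518543537) (nat_lit 0) (nat_lit 31813329965) (nat_lit 1) (nat_lit 5) (nat_lit 3) (nat_lit 4) (nat_lit 1) (nat_lit 4) (nat_lit 379) (nat_lit 299) (nat_lit 222)) (XT.nd (nat_lit 78) (nat_lit 0) (nat_lit 0) (XT.lf (nat_lit 0) (nat_lit 55538080853) (nat_lit 152) (nat_lit 405733280378) (nat_lit 0) (nat_lit 43559888364) (nat_lit 1) (nat_lit 5) (nat_lit 3) (nat_lit 4) (nat_lit 1) (nat_lit 4) (nat_lit 380) (nat_lit 299) (nat_lit 221)) (XT.lf (nat_lit 0) (nat_lit 68223440259) (nat_lit 152) (nat_lit 420012085939)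 (nat_lit 0) (nat_lit 56243049509) (nat_lit 1) (nat_lit 5) (nat_lit 3) (nat_lit 4) (nat_lit 1) (nat_lit 4) (nat_lit 381) (nat_lit 299) (nat_lit 220))))))) (XT.nd (nat_lit 624) (nat_lit 0) (nat_lit 0) (XT.nd (nat_lit 312) (nat_lit 0) (nat_lit 0) (XT.nd (nat_lit 156) (nat_lit 0) (nat_lit 0) (XT.nd (nat_lit 78) (nat_lit 0) (nat_lit 0) (XT.lf (nat_lit 0) (nat_lit 81920399051) (nat_lit 152) (nat_lit 435439575363) (nat_lit 0) (nat_lit 69937972875) (nat_lit 1) (nat_lit 5) (nat_lit 3) (nat_lit 4) (nat_lit 1) (nat_lit 4) (nat_lit 382) (nat_lit 299) (nat_lit 219)) (XT.lf (nat_lit 0) (nat_lit 96710124393) (nat_lit 152) (nat_lit 452107170811) (nat_lit 0) (nat_lit 84725813562) (nat_lit 1) (nat_lit 5) (nat_lit 3) (nat_lit 4) (nat_lit 1) (nat_lit 4) (nat_lit 383) (nat_lit 299) (nat_lit 218))) (XT.nd (nat_lit 78) (nat_lit 0) (nat_lit 0) (XT.lf (nat_lit 0) (nat_lit 112680259100) (nat_lit 152) (nat_lit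 470113643217) (nat_lit 0) (nat_lit 100694203219) (nat_lit 1) (nat_lit 5) (nat_lit 3) (nat_lit 4) (nat_lit 1) (nat_lit 4) (nat_lit 384) (nat_lit 299) (nat_lit 217)) (XT.lf (nat_lit 0) (nat_lit 129925441009) (nat_lit 152) (nat_lit 489565697604) (nat_lit 0) (nat_lit 117937769340) (nat_lit 1) (nat_lit 5) (nat_lit 3) (nat_lit 4) (nat_lit 1) (nat_lit 4) (nat_lit 385) (nat_lit 299) (nat_lit 216)))) (XT.nd (nat_lit 156) (nat_lit 0) (nat_lit 0) (XT.nd (nat_lit 78) (nat_lit 0) (nat_lit 0) (XT.lf (nat_lit 0) (nat_lit 148547863789) (nat_lit 152) (nat_lit 510578605406) (nat_lit 0) (nat_lit 136558696021) (nat_lit 1) (nat_lit 5) (nat_lit 3) (nat_lit 4) (nat_lit 1) (nat_lit 4) (nat_lit 386) (nat_lit 299) (nat_lit 215)) (XT.lf (nat_lit 0) (nat_lit 168657882540) (nat_lit 152) (nat_lit 533276887556) (nat_lit 0) (nat_lit 156667329494) (nat_lit 1) (nat_lit 5) (nat_lit 3) (nat_lit 4) (nat_lit 1) (nat_lit 4)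 (nat_lit 387) (nat_lit 299) (nat_lit 214))) (XT.nd (nat_lit 78) (nat_lit 0) (nat_lit 0) (XT.lf (nat_lit 0) (nat_lit 190374667741) (nat_lit 152) (nat_lit 557795052394) (nat_lit 0) (nat_lit 178382832032) (nat_lit 1) (nat_lit 5) (nat_lit 3) (nat_lit 4) (nat_lit 1) (nat_lit 4) (nat_lit 388) (nat_lit 299) (nat_lit 213)) (XT.lf (nat_lit 0) (nat_lit 213826911455) (nat_lit 152) (nat_lit 584278392749) (nat_lit 0) (nat_lit 201833888093) (nat_lit 1) (nat_lit 5) (nat_lit 3) (nat_lit 4) (nat_lit 1) (nat_lit 4) (nat_lit 389) (nat_lit 299) (nat_lit 212))))) (XT.nd (nat_lit 312) (nat_lit 0) (nat_lit 0) (XT.nd (nat_lit 156) (nat_lit 0) (nat_lit 0) (XT.nd (nat_lit 78) (nat_lit 0) (nat_lit 0) (XT.lf (nat_lit 0) (nat_lit 239153589939) (nat_lit 152) (nat_lit 612883846934) (nat_lit 0) (nat_lit 227159466899) (nat_lit 1) (nat_lit 5) (nat_lit 3) (nat_lit 4) (nat_lit 1) (nat_lit 4) (nat_lit 390) (nat_lit 299)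 (nat_lit 211)) (XT.lf (nat_lit 0) (nat_lit 266504787214) (nat_lit 152) (nat_lit 643780928751) (nat_lit 0) (nat_lit 254509645955) (nat_lit 1) (nat_lit 5) (nat_lit 3) (nat_lit 4) (nat_lit 1) (nat_lit 4) (nat_lit 391) (nat_lit 299) (nat_lit 210))) (XT.nd (nat_lit 78) (nat_lit 0) (nat_lit 0) (XT.lf (nat_lit 0) (nat_lit 296042584450) (nat_lit 152) (nat_lit 677152732019) (nat_lit 0) (nat_lit 284046500394) (nat_lit 1) (nat_lit 5) (nat_lit 3) (nat_lit 4) (nat_lit 1) (nat_lit 4) (nat_lit 392) (nat_lit 299) (nat_lit 209)) (XT.lf (nat_lit 0) (nat_lit 327942020445) (nat_lit 152) (nat_lit 713197015571) (nat_lit 0) (nat_lit 315945063430) (nat_lit 1) (nat_lit 5) (nat_lit 3) (nat_lit 4) (nat_lit 1) (nat_lit 4) (nat_lit 393) (nat_lit 299) (nat_lit 208)))) (XT.nd (nat_lit 156) (nat_lit 0) (nat_lit 0) (XT.nd (nat_lit 78) (nat_lit 0) (nat_lit 0) (XT.lf (nat_lit 0) (nat_lit 362392128894) (nat_lit 152) (nat_lit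 752127375162) (nat_lit 0) (nat_lit 350394363582) (nat_lit 1) (nat_lit 5) (nat_lit 3) (nat_lit 4) (nat_lit 1) (nat_lit 4) (nat_lit 394) (nat_lit 299) (nat_lit 207)) (XT.lf (nat_lit 0) (nat_lit 399597058587) (nat_lit 152) (nat_lit 794174509220) (nat_lit 0) (nat_lit 387598544853) (nat_lit 1) (nat_lit 5) (nat_lit 3) (nat_lit 4) (nat_lit 1) (nat_lit 4) (nat_lit 395) (nat_lit 299) (nat_lit 206))) (XT.nd (nat_lit 78) (nat_lit 0) (nat_lit 0) (XT.lf (nat_lit 0) (nat_lit 439777283182) (nat_lit 152) (nat_lit 839587585946) (nat_lit 0) (nat_lit 427778076465) (nat_lit 1) (nat_lit 5) (nat_lit 3) (nat_lit 4) (nat_lit 1) (nat_lit 4) (nat_lit 396) (nat_lit 299) (nat_lit 205)) (XT.nd (nat_lit 78) (nat_lit 0) (nat_lit 0) (XT.lf (nat_lit 0) (nat_lit 483170907714) (nat_lit 152) (nat_lit 888635719868) (nat_lit 0) (nat_lit 471171059345) (nat_lit 1) (nat_lit 5) (nat_lit 3) (nat_lit 4) (nat_lit 1) (nat_lit 4)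 (nat_lit 397) (nat_lit 299) (nat_lit 204)) (XT.lf (nat_lit 0) (nat_lit 530035079587) (nat_lit 152) (nat_lit 941609566596) (nat_lit 0) (nat_lit 518034637096) (nat_lit 1) (nat_lit 5) (nat_lit 3) (nat_lit 4) (nat_lit 1) (nat_lit 4) (nat_lit 398) (nat_lit 299) (nat_lit 203))))))))
noncomputable def xc95 : XT := (XT.nd (nat_lit 39312) (nat_lit 0) (nat_lit 2432) (XT.nd (nat_lit 624) (nat_lit 0) (nat_lit 0) (XT.nd (nat_lit 312) (nat_lit 0) (nat_lit 0) (XT.nd (nat_lit 156) (nat_lit 0) (nat_lit 0) (XT.nd (nat_lit 78) (nat_lit 0) (nat_lit 0) (XT.lf (nat_lit 0) (nat_lit 580647512412) (nat_lit 152) (nat_lit 998823045221) (nat_lit 0) (nat_lit 568646519808) (nat_lit 1) (nat_lit 5) (nat_lit 3) (nat_lit 4) (nat_lit 1) (nat_lit 4) (nat_lit 399) (nat_lit 299) (nat_lit 202)) (XT.lf (nat_lit 0) (nat_lit 635308131717) (nat_lit 152) (nat_lit 1060615198579) (nat_lit 0) (nat_lit 623306629750) (nat_lit 1) (nat_lit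 5) (nat_lit 3) (nat_lit 4) (nat_lit 1) (nat_lit 4) (nat_lit 400) (nat_lit 299) (nat_lit 201))) (XT.nd (nat_lit 78) (nat_lit 0) (nat_lit 0) (XT.lf (nat_lit 0) (nat_lit 694340852284) (nat_lit 152) (nat_lit 1127352202394) (nat_lit 0) (nat_lit 682338878684) (nat_lit 1) (nat_lit 5) (nat_lit 3) (nat_lit 4) (nat_lit 1) (nat_lit 4) (nat_lit 401) (nat_lit 299) (nat_lit 200)) (XT.lf (nat_lit 0) (nat_lit 758095497641) (nat_lit 152) (nat_lit 1199429535208) (nat_lit 0) (nat_lit 746093087344) (nat_lit 1) (nat_lit 5) (nat_lit 3) (nat_lit 4) (nat_lit 1) (nat_lit 4) (nat_lit 402) (nat_lit 299) (nat_lit 199)))) (XT.nd (nat_lit 156) (nat_lit 0) (nat_lit 0) (XT.nd (nat_lit 78) (nat_lit 0) (nat_lit 0) (XT.lf (nat_lit 0) (nat_lit 826949873094) (nat_lit 152) (nat_lit 1277274321954) (nat_lit 0) (nat_lit 814947058448) (nat_lit 1) (nat_lit 5) (nat_lit 3) (nat_lit 4) (nat_lit 1) (nat_lit 4) (nat_lit 403) (nat_lit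 299) (nat_lit 198)) (XT.lf (nat_lit 0) (nat_lit 901312004572) (nat_lit 152) (nat_lit 1361347865074) (nat_lit 0) (nat_lit 889308815529) (nat_lit 1) (nat_lit 5) (nat_lit 3) (nat_lit 4) (nat_lit 1) (nat_lit 4) (nat_lit 404) (nat_lit 299) (nat_lit 197))) (XT.nd (nat_lit 78) (nat_lit 0) (nat_lit 0) (XT.lf (nat_lit 0) (nat_lit 981622556558) (nat_lit 152) (nat_lit 1452148378155) (nat_lit 0) (nat_lit 969619020850) (nat_lit 1) (nat_lit 5) (nat_lit 3) (nat_lit 4) (nat_lit 1) (nat_lit 4) (nat_lit 405) (nat_lit 299) (nat_lit 196)) (XT.lf (nat_lit 0) (nat_lit 1068357443434) (nat_lit 152) (nat_lit 1550213938314) (nat_lit 0) (nat_lit 1056353586741) (nat_lit 1) (nat_lit 5) (nat_lit 3) (nat_lit 4) (nat_lit 1) (nat_lit 4) (nat_lit 406) (nat_lit 299) (nat_lit 195))))) (XT.nd (nat_lit 312) (nat_lit 0) (nat_lit 0) (XT.nd (nat_lit 156) (nat_lit 0) (nat_lit 0) (XT.nd (nat_lit 78) (nat_lit 0) (nat_lit 0) (XT.lf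 (nat_lit 0) (nat_lit 1162030649715) (nat_lit 152) (nat_lit 1656125674794) (nat_lit 0) (nat_lit 1150026495813) (nat_lit 1) (nat_lit 5) (nat_lit 3) (nat_lit 4) (nat_lit 1) (nat_lit 4) (nat_lit 407) (nat_lit 299) (nat_lit 194)) (XT.lf (nat_lit 0) (nat_lit 1263197275882) (nat_lit 152) (nat_lit 1770511212701) (nat_lit 0) (nat_lit 1251192846787) (nat_lit 1) (nat_lit 5) (nat_lit 3) (nat_lit 4) (nat_lit 1) (nat_lit 4) (nat_lit 408) (nat_lit 299) (nat_lit 193))) (XT.nd (nat_lit 78) (nat_lit 0) (nat_lit 0) (XT.lf (nat_lit 0) (nat_lit 1372456827868) (nat_lit 152) (nat_lit 1894048392261) (nat_lit 0) (nat_lit 1360452143964) (nat_lit 1) (nat_lit 5) (nat_lit 3) (nat_lit 4) (nat_lit 1) (nat_lit 4) (nat_lit 409) (nat_lit 299) (nat_lit 192)) (XT.lf (nat_lit 0) (nat_lit 1490456769686) (nat_lit 152) (nat_lit 2027469285647) (nat_lit 0) (nat_lit 1478451849848) (nat_lit 1) (nat_lit 5) (nat_lit 3) (nat_lit 4)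 (nat_lit 1) (nat_lit 4) (nat_lit 410) (nat_lit 299) (nat_lit 191)))) (XT.nd (nat_lit 156) (nat_lit 0) (nat_lit 0) (XT.nd (nat_lit 78) (nat_lit 0) (nat_lit 0) (XT.lf (nat_lit 0) (nat_lit 1617896360248) (nat_lit 152) (nat_lit 2171564535191) (nat_lit 0) (nat_lit 1605891221953) (nat_lit 1) (nat_lit 5) (nat_lit 3) (nat_lit 4) (nat_lit 1) (nat_lit 4) (nat_lit 411) (nat_lit 299) (nat_lit 190)) (XT.lf (nat_lit 0) (nat_lit 1755530797130) (nat_lit 152) (nat_lit 2327188038668) (nat_lit 0) (nat_lit 1743525456560) (nat_lit 1) (nat_lit 5) (nat_lit 3) (nat_lit 4) (nat_lit 1) (nat_lit 4) (nat_lit 412) (nat_lit 299) (nat_lit 189))) (XT.nd (nat_lit 38064) (nat_lit 0) (nat_lit 5396) (XT.lf (nat_lit 0) (nat_lit 1904175691809) (nat_lit 152) (nat_lit 2495262009432) (nat_lit 0) (nat_lit 1892170163947) (nat_lit 1) (nat_lit 5) (nat_lit 3) (nat_lit 4) (nat_lit 1) (nat_lit 4) (nat_lit 413) (nat_lit 299) (nat_lit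 188)) (XT.nd (nat_lit 78) (nat_lit 76) (nat_lit 0) (XT.lf (nat_lit 0) (nat_lit 0) (nat_lit 0) (nat_lit 0) (nat_lit 0) (nat_lit 1073741823) (nat_lit 1) (nat_lit 0) (nat_lit 1) (nat_lit 0) (nat_lit 73) (nat_lit 0) (nat_lit 300) (nat_lit 300) (nat_lit 300)) (XT.lf (nat_lit 0) (nat_lit 2973992156) (nat_lit 76) (nat_lit 3322571701) (nat_lit 0) (nat_lit 152437251) (nat_lit 72) (nat_lit 5) (nat_lit 73) (nat_lit 0) (nat_lit 72) (nat_lit 4) (nat_lit 301) (nat_lit 300) (nat_lit 299))))))) (XT.nd (nat_lit 702) (nat_lit 1596) (nat_lit 0) (XT.nd (nat_lit 312) (nat_lit 988) (nat_lit 0) (XT.nd (nat_lit 156) (nat_lit 228) (nat_lit 0) (XT.nd (nat_lit 78) (nat_lit 152) (nat_lit 0) (XT.lf (nat_lit 0) (nat_lit 5892320829) (nat_lit 76) (nat_lit 130349487) (nat_lit 0) (nat_lit 458215087) (nat_lit 72) (nat_lit 5) (nat_lit 73) (nat_lit 0) (nat_lit 72) (nat_lit 4) (nat_lit 302) (nat_lit 300) (nat_lit 298)) (XT.lf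 (nat_lit 0) (nat_lit 2204133516) (nat_lit 152) (nat_lit 3268536580) (nat_lit 76) (nat_lit 1054772513) (nat_lit 70) (nat_lit 5) (nat_lit 72) (nat_lit 5) (nat_lit 71) (nat_lit 4) (nat_lit 303) (nat_lit 300) (nat_lit 297))) (XT.nd (nat_lit 78) (nat_lit 76) (nat_lit 0) (XT.lf (nat_lit 0) (nat_lit 167392896) (nat_lit 152) (nat_lit 4765476547) (nat_lit 228) (nat_lit 1665129003) (nat_lit 68) (nat_lit 5) (nat_lit 70) (nat_lit 5) (nat_lit 71) (nat_lit 4) (nat_lit 304) (nat_lit 300) (nat_lit 296)) (XT.lf (nat_lit 0) (nat_lit 981856981) (nat_lit 228) (nat_lit 2819076218) (nat_lit 76) (nat_lit 2884929253) (nat_lit 67) (nat_lit 5) (nat_lit 70) (nat_lit 5) (nat_lit 68) (nat_lit 5) (nat_lit 305) (nat_lit 300) (nat_lit 295)))) (XT.nd (nat_lit 156) (nat_lit 760) (nat_lit 0) (XT.nd (nat_lit 78) (nat_lit 0) (nat_lit 0) (XT.lf (nat_lit 0) (nat_lit 912679721) (nat_lit 228) (nat_lit 2623594228) (nat_lit 304)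 (nat_lit 3259005056) (nat_lit 64) (nat_lit 5) (nat_lit 67) (nat_lit 5) (nat_lit 68) (nat_lit 5) (nat_lit 306) (nat_lit 300) (nat_lit 294)) (XT.lf (nat_lit 0) (nat_lit 4936529614) (nat_lit 228) (nat_lit 1212769743) (nat_lit 304) (nat_lit 776581360) (nat_lit 64) (nat_lit 5) (nat_lit 67) (nat_lit 5) (nat_lit 68) (nat_lit 5) (nat_lit 307) (nat_lit 300) (nat_lit 293))) (XT.nd (nat_lit 78) (nat_lit 380) (nat_lit 0) (XT.lf (nat_lit 0) (nat_lit 1658621938) (nat_lit 380) (nat_lit 4979168711) (nat_lit 76) (nat_lit 438181585) (nat_lit 59) (nat_lit 5) (nat_lit 64) (nat_lit 5) (nat_lit 60) (nat_lit 5) (nat_lit 308) (nat_lit 300) (nat_lit 292)) (XT.nd (nat_lit 78) (nat_lit 380) (nat_lit 0) (XT.lf (nat_lit 0) (nat_lit 4134393412) (nat_lit 380) (nat_lit 843449194) (nat_lit 76) (nat_lit 2268211224) (nat_lit 59) (nat_lit 5) (nat_lit 64) (nat_lit 5) (nat_lit 60) (nat_lit 5) (nat_lit 309) (nat_lit 300) (nat_lit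 291)) (XT.lf (nat_lit 0) (nat_lit 3638831075) (nat_lit 380) (nat_lit 3072096345) (nat_lit 456) (nat_lit 727166088) (nat_lit 54) (nat_lit 5) (nat_lit 59) (nat_lit 5) (nat_lit 60) (nat_lit 5) (nat_lit 310) (nat_lit 300) (nat_lit 290)))))) (XT.nd (nat_lit 312) (nat_lit 684) (nat_lit 0) (XT.nd (nat_lit 156) (nat_lit 380) (nat_lit 0) (XT.nd (nat_lit 78) (nat_lit 0) (nat_lit 0) (XT.lf (nat_lit 0) (nat_lit 701997449) (nat_lit 456) (nat_lit 914117470) (nat_lit 532) (nat_lit 6037474283) (nat_lit 47) (nat_lit 5) (nat_lit 53) (nat_lit 5) (nat_lit 54) (nat_lit 5) (nat_lit 311) (nat_lit 300) (nat_lit 289)) (XT.lf (nat_lit 0) (nat_lit 4077526135) (nat_lit 532) (nat_lit 2336153017) (nat_lit 76) (nat_lit 1473988714) (nat_lit 47) (nat_lit 5) (nat_lit 54) (nat_lit 5) (nat_lit 48) (nat_lit 5) (nat_lit 312) (nat_lit 300) (nat_lit 288))) (XT.nd (nat_lit 78) (nat_lit 76) (nat_lit 0) (XT.lf (nat_lit 0) (nat_lit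 2585687136) (nat_lit 304) (nat_lit 4078045980) (nat_lit 380) (nat_lit 1482926294) (nat_lit 43) (nat_lit 5) (nat_lit 47) (nat_lit 5) (nat_lit 48) (nat_lit 5) (nat_lit 313) (nat_lit 300) (nat_lit 287)) (XT.lf (nat_lit 0) (nat_lit 889893854) (nat_lit 380) (nat_lit 586237680) (nat_lit 76) (nat_lit 6955735777) (nat_lit 42) (nat_lit 5) (nat_lit 47) (nat_lit 5) (nat_lit 43) (nat_lit 5) (nat_lit 314) (nat_lit 300) (nat_lit 286)))) (XT.nd (nat_lit 156) (nat_lit 228) (nat_lit 0) (XT.nd (nat_lit 78) (nat_lit 228) (nat_lit 0) (XT.lf (nat_lit 0) (nat_lit 3381162992) (nat_lit 304) (nat_lit 3945313994) (nat_lit 76) (nat_lit 1409965460) (nat_lit 39) (nat_lit 5) (nat_lit 43) (nat_lit 5) (nat_lit 40) (nat_lit 5) (nat_lit 315) (nat_lit 300) (nat_lit 285)) (XT.lf (nat_lit 0) (nat_lit 1434349326) (nat_lit 228) (nat_lit 4589939508) (nat_lit 304) (nat_lit 3045197012) (nat_lit 36) (nat_lit 5) (nat_lit 39) (nat_lit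 5) (nat_lit 40) (nat_lit 5) (nat_lit 316) (nat_lit 300) (nat_lit 284))) (XT.nd (nat_lit 78) (nat_lit 228) (nat_lit 0) (XT.lf (nat_lit 0) (nat_lit 7306408450) (nat_lit 228) (nat_lit 1549824416) (nat_lit 304) (nat_lit 575034353) (nat_lit 36) (nat_lit 5) (nat_lit 39) (nat_lit 5) (nat_lit 40) (nat_lit 5) (nat_lit 317) (nat_lit 300) (nat_lit 283)) (XT.nd (nat_lit 78) (nat_lit 0) (nat_lit 0) (XT.lf (nat_lit 0) (nat_lit 2000030684) (nat_lit 228) (nat_lit 6056042982) (nat_lit 76) (nat_lit 1761176299) (nat_lit 33) (nat_lit 5) (nat_lit 36) (nat_lit 5) (nat_lit 34) (nat_lit 5) (nat_lit 318) (nat_lit 300) (nat_lit 282)) (XT.lf (nat_lit 0) (nat_lit 4730361633) (nat_lit 228) (nat_lit 209189299) (nat_lit 76) (nat_lit 5295164734) (nat_lit 33) (nat_lit 5) (nat_lit 36) (nat_lit 5) (nat_lit 34) (nat_lit 5) (nat_lit 319) (nat_lit 300) (nat_lit 281))))))))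
noncomputable def xc96 : XT := (XT.nd (nat_lit 1326) (nat_lit 608) (nat_lit 0) (XT.nd (nat_lit 624) (nat_lit 532) (nat_lit 0) (XT.nd (nat_lit 312) (nat_lit 304) (nat_lit 0) (XT.nd (nat_lit 156) (nat_lit 228) (nat_lit 0) (XT.nd (nat_lit 78) (nat_lit 152) (nat_lit 0) (XT.lf (nat_lit 0) (nat_lit 6268988622) (nat_lit 228) (nat_lit 1450220031) (nat_lit 304) (nat_lit 2963371513) (nat_lit 30) (nat_lit 5) (nat_lit 33) (nat_lit 5) (nat_lit 34) (nat_lit 5) (nat_lit 320) (nat_lit 300) (nat_lit 280)) (XT.lf (nat_lit 0) (nat_lit 2001805220) (nat_lit 152) (nat_lit 8948158528) (nat_lit 228) (nat_lit 216279308) (nat_lit 28) (nat_lit 5) (nat_lit 30) (nat_lit 5) (nat_lit 31) (nat_lit 4) (nat_lit 321) (nat_lit 300) (nat_lit 279))) (XT.nd (nat_lit 78) (nat_lit 152) (nat_lit 0) (XT.lf (nat_lit 0) (nat_lit 2668976333) (nat_lit 228) (nat_lit 2760215548) (nat_lit 76) (nat_lit 6249801359) (nat_lit 27) (nat_lit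 5) (nat_lit 30) (nat_lit 5) (nat_lit 28) (nat_lit 5) (nat_lit 322) (nat_lit 300) (nat_lit 278)) (XT.lf (nat_lit 0) (nat_lit 4217484776) (nat_lit 152) (nat_lit 1559640718) (nat_lit 228) (nat_lit 6455041321) (nat_lit 25) (nat_lit 5) (nat_lit 27) (nat_lit 5) (nat_lit 28) (nat_lit 5) (nat_lit 323) (nat_lit 300) (nat_lit 277)))) (XT.nd (nat_lit 156) (nat_lit 228) (nat_lit 0) (XT.nd (nat_lit 78) (nat_lit 76) (nat_lit 0) (XT.lf (nat_lit 0) (nat_lit 9179411694) (nat_lit 228) (nat_lit 1125228290) (nat_lit 76) (nat_lit 2521457530) (nat_lit 25) (nat_lit 5) (nat_lit 28) (nat_lit 5) (nat_lit 26) (nat_lit 4) (nat_lit 324) (nat_lit 300) (nat_lit 276)) (XT.lf (nat_lit 0) (nat_lit 6461929109) (nat_lit 76) (nat_lit 6499961431) (nat_lit 152) (nat_lit 497142874) (nat_lit 24) (nat_lit 5) (nat_lit 25) (nat_lit 5) (nat_lit 26) (nat_lit 4) (nat_lit 325) (nat_lit 300) (nat_lit 275))) (XT.nd (nat_lit 78) (nat_lit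 0) (nat_lit 0) (XT.lf (nat_lit 0) (nat_lit 391404044) (nat_lit 152) (nat_lit 2321746055) (nat_lit 228) (nat_lit 11427652877) (nat_lit 21) (nat_lit 5) (nat_lit 23) (nat_lit 5) (nat_lit 24) (nat_lit 5) (nat_lit 326) (nat_lit 300) (nat_lit 274)) (XT.lf (nat_lit 0) (nat_lit 6317480516) (nat_lit 228) (nat_lit 6302999928) (nat_lit 76) (nat_lit 2242579234) (nat_lit 21) (nat_lit 5) (nat_lit 24) (nat_lit 5) (nat_lit 22) (nat_lit 4) (nat_lit 327) (nat_lit 300) (nat_lit 273))))) (XT.nd (nat_lit 312) (nat_lit 228) (nat_lit 0) (XT.nd (nat_lit 156) (nat_lit 228) (nat_lit 0) (XT.nd (nat_lit 78) (nat_lit 0) (nat_lit 0) (XT.lf (nat_lit 0) (nat_lit 1631195206) (nat_lit 76) (nat_lit 8599889384) (nat_lit 152) (nat_lit 5410434821) (nat_lit 20) (nat_lit 5) (nat_lit 21) (nat_lit 5) (nat_lit 22) (nat_lit 4) (nat_lit 328) (nat_lit 300) (nat_lit 272)) (XT.lf (nat_lit 0) (nat_lit 10432644586) (nat_lit 76) (nat_lit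 4121653445) (nat_lit 152) (nat_lit 1920325723) (nat_lit 20) (nat_lit 5) (nat_lit 21) (nat_lit 5) (nat_lit 22) (nat_lit 4) (nat_lit 329) (nat_lit 300) (nat_lit 271))) (XT.nd (nat_lit 78) (nat_lit 0) (nat_lit 0) (XT.lf (nat_lit 0) (nat_lit 1763889660) (nat_lit 228) (nat_lit 14865363210) (nat_lit 76) (nat_lit 741051522) (nat_lit 17) (nat_lit 5) (nat_lit 20) (nat_lit 5) (nat_lit 18) (nat_lit 4) (nat_lit 330) (nat_lit 300) (nat_lit 270)) (XT.lf (nat_lit 0) (nat_lit 5844905399) (nat_lit 228) (nat_lit 6528341111) (nat_lit 76) (nat_lit 5944008895) (nat_lit 17) (nat_lit 5) (nat_lit 20) (nat_lit 5) (nat_lit 18) (nat_lit 4) (nat_lit 331) (nat_lit 300) (nat_lit 269)))) (XT.nd (nat_lit 156) (nat_lit 152) (nat_lit 0) (XT.nd (nat_lit 78) (nat_lit 0) (nat_lit 0) (XT.lf (nat_lit 0) (nat_lit 2487172315) (nat_lit 76) (nat_lit 7759551611) (nat_lit 152) (nat_lit 9093758647) (nat_lit 16) (nat_lit 5) (nat_lit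 17) (nat_lit 5) (nat_lit 18) (nat_lit 4) (nat_lit 332) (nat_lit 300) (nat_lit 268)) (XT.lf (nat_lit 0) (nat_lit 12485168434) (nat_lit 76) (nat_lit 2630726129) (nat_lit 152) (nat_lit 5320517742) (nat_lit 16) (nat_lit 5) (nat_lit 17) (nat_lit 5) (nat_lit 18) (nat_lit 4) (nat_lit 333) (nat_lit 300) (nat_lit 267))) (XT.nd (nat_lit 78) (nat_lit 76) (nat_lit 0) (XT.lf (nat_lit 0) (nat_lit 1565783255) (nat_lit 76) (nat_lit 18856777428) (nat_lit 76) (nat_lit 1193675195) (nat_lit 15) (nat_lit 4) (nat_lit 16) (nat_lit 5) (nat_lit 16) (nat_lit 4) (nat_lit 334) (nat_lit 300) (nat_lit 266)) (XT.nd (nat_lit 78) (nat_lit 0) (nat_lit 0) (XT.lf (nat_lit 0) (nat_lit 3332201092) (nat_lit 152) (nat_lit 10835225944) (nat_lit 76) (nat_lit 8698217592) (nat_lit 14) (nat_lit 5) (nat_lit 16) (nat_lit 5) (nat_lit 15) (nat_lit 4) (nat_lit 335) (nat_lit 300) (nat_lit 265)) (XT.lf (nat_lit 0) (nat_lit 8100798877)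 (nat_lit 152) (nat_lit 1012007351) (nat_lit 76) (nat_lit 15104152998) (nat_lit 14) (nat_lit 5) (nat_lit 16) (nat_lit 5) (nat_lit 15) (nat_lit 4) (nat_lit 336) (nat_lit 300) (nat_lit 264))))))) (XT.nd (nat_lit 624) (nat_lit 304) (nat_lit 0) (XT.nd (nat_lit 312) (nat_lit 76) (nat_lit 0) (XT.nd (nat_lit 156) (nat_lit 152) (nat_lit 0) (XT.nd (nat_lit 78) (nat_lit 0) (nat_lit 0) (XT.lf (nat_lit 0) (nat_lit 10006698315) (nat_lit 76) (nat_lit 3434052003) (nat_lit 152) (nat_lit 12220480868) (nat_lit 13) (nat_lit 5) (nat_lit 14) (nat_lit 5) (nat_lit 15) (nat_lit 4) (nat_lit 337) (nat_lit 300) (nat_lit 263)) (XT.lf (nat_lit 0) (nat_lit 19251083513) (nat_lit 152) (nat_lit 5411672552) (nat_lit 0) (nat_lit 2554872377) (nat_lit 13) (nat_lit 5) (nat_lit 15) (nat_lit 4) (nat_lit 13) (nat_lit 4) (nat_lit 338) (nat_lit 300) (nat_lit 262))) (XT.nd (nat_lit 78) (nat_lit 76) (nat_lit 0) (XT.lf (nat_lit 0)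 (nat_lit 5764929965) (nat_lit 76) (nat_lit 19942754206) (nat_lit 76) (nat_lit 3176373592) (nat_lit 12) (nat_lit 4) (nat_lit 13) (nat_lit 5) (nat_lit 13) (nat_lit 4) (nat_lit 339) (nat_lit 300) (nat_lit 261)) (XT.lf (nat_lit 0) (nat_lit 2002767446) (nat_lit 152) (nat_lit 12665596063) (nat_lit 76) (nat_lit 16003173774) (nat_lit 11) (nat_lit 5) (nat_lit 13) (nat_lit 5) (nat_lit 12) (nat_lit 4) (nat_lit 340) (nat_lit 300) (nat_lit 260)))) (XT.nd (nat_lit 156) (nat_lit 0) (nat_lit 0) (XT.nd (nat_lit 78) (nat_lit 76) (nat_lit 0) (XT.lf (nat_lit 0) (nat_lit 7381898497) (nat_lit 152) (nat_lit 1537162495) (nat_lit 76) (nat_lit 23679800902) (nat_lit 11) (nat_lit 5) (nat_lit 13) (nat_lit 5) (nat_lit 12) (nat_lit 4) (nat_lit 341) (nat_lit 300) (nat_lit 259)) (XT.lf (nat_lit 0) (nat_lit 10956604785) (nat_lit 76) (nat_lit 2458692785) (nat_lit 152) (nat_lit 21247186027) (nat_lit 10) (nat_lit 5) (nat_lit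 11) (nat_lit 5) (nat_lit 12) (nat_lit 4) (nat_lit 342) (nat_lit 300) (nat_lit 258))) (XT.nd (nat_lit 78) (nat_lit 0) (nat_lit 0) (XT.lf (nat_lit 0) (nat_lit 20044019379) (nat_lit 152) (nat_lit 12533789540) (nat_lit 0) (nat_lit 4304398247) (nat_lit 10) (nat_lit 5) (nat_lit 12) (nat_lit 4) (nat_lit 10) (nat_lit 4) (nat_lit 343) (nat_lit 300) (nat_lit 257)) (XT.lf (nat_lit 0) (nat_lit 27230660579) (nat_lit 152) (nat_lit 599839938) (nat_lit 0) (nat_lit 11446820773) (nat_lit 10) (nat_lit 5) (nat_lit 12) (nat_lit 4) (nat_lit 10) (nat_lit 4) (nat_lit 344) (nat_lit 300) (nat_lit 256))))) (XT.nd (nat_lit 312) (nat_lit 76) (nat_lit 0) (XT.nd (nat_lit 156) (nat_lit 152) (nat_lit 0) (XT.nd (nat_lit 78) (nat_lit 0) (nat_lit 0) (XT.lf (nat_lit 0) (nat_lit 12869611398) (nat_lit 76) (nat_lit 22398580116) (nat_lit 76) (nat_lit 6573797094) (nat_lit 9) (nat_lit 4) (nat_lit 10) (nat_lit 5) (nat_lit 10) (nat_lit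 4) (nat_lit 345) (nat_lit 300) (nat_lit 255)) (XT.lf (nat_lit 0) (nat_lit 27389323000) (nat_lit 76) (nat_lit 16543255327) (nat_lit 76) (nat_lit 680561919) (nat_lit 9) (nat_lit 4) (nat_lit 10) (nat_lit 5) (nat_lit 10) (nat_lit 4) (nat_lit 346) (nat_lit 300) (nat_lit 254))) (XT.nd (nat_lit 78) (nat_lit 76) (nat_lit 0) (XT.lf (nat_lit 0) (nat_lit 5368852730) (nat_lit 152) (nat_lit 4730581936) (nat_lit 76) (nat_lit 37498104415) (nat_lit 8) (nat_lit 5) (nat_lit 10) (nat_lit 5) (nat_lit 9) (nat_lit 4) (nat_lit 347) (nat_lit 300) (nat_lit 253)) (XT.lf (nat_lit 0) (nat_lit 9147876954) (nat_lit 76) (nat_lit 2908937764) (nat_lit 152) (nat_lit 38747167220) (nat_lit 7) (nat_lit 5) (nat_lit 8) (nat_lit 5) (nat_lit 9) (nat_lit 4) (nat_lit 348) (nat_lit 300) (nat_lit 252)))) (XT.nd (nat_lit 156) (nat_lit 76) (nat_lit 0) (XT.nd (nat_lit 78) (nat_lit 0) (nat_lit 0) (XT.lf (nat_lit 0) (nat_lit 19500927868)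 (nat_lit 152) (nat_lit 30025550346) (nat_lit 0) (nat_lit 4722786991) (nat_lit 7) (nat_lit 5) (nat_lit 9) (nat_lit 4) (nat_lit 7) (nat_lit 4) (nat_lit 349) (nat_lit 300) (nat_lit 251)) (XT.lf (nat_lit 0) (nat_lit 27589836184) (nat_lit 152) (nat_lit 17590512593) (nat_lit 0) (nat_lit 12785894136) (nat_lit 7) (nat_lit 5) (nat_lit 9) (nat_lit 4) (nat_lit 7) (nat_lit 4) (nat_lit 350) (nat_lit 300) (nat_lit 250))) (XT.nd (nat_lit 78) (nat_lit 76) (nat_lit 0) (XT.lf (nat_lit 0) (nat_lit 36301513916) (nat_lit 152) (nat_lit 4207342592) (nat_lit 0) (nat_lit 21473681894) (nat_lit 7) (nat_lit 5) (nat_lit 9) (nat_lit 4) (nat_lit 7) (nat_lit 4) (nat_lit 351) (nat_lit 300) (nat_lit 249)) (XT.nd (nat_lit 78) (nat_lit 0) (nat_lit 0) (XT.lf (nat_lit 0) (nat_lit 10740553307) (nat_lit 76) (nat_lit 35205343077) (nat_lit 76) (nat_lit 20355390710) (nat_lit 6) (nat_lit 4) (nat_lit 7) (nat_lit 5) (nat_lit 7) (nat_lit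 4) (nat_lit 352) (nat_lit 300) (nat_lit 248)) (XT.lf (nat_lit 0) (nat_lit 27081436520) (nat_lit 76) (nat_lit 29373545740) (nat_lit 76) (nat_lit 14503111571) (nat_lit 6) (nat_lit 4) (nat_lit 7) (nat_lit 5) (nat_lit 7) (nat_lit 4) (nat_lit 353) (nat_lit 300) (nat_lit 247))))))))
noncomputable def xc97 : XT := (XT.nd (nat_lit 1326) (nat_lit 152) (nat_lit 0) (XT.nd (nat_lit 624) (nat_lit 76) (nat_lit 0) (XT.nd (nat_lit 312) (nat_lit 0) (nat_lit 0) (XT.nd (nat_lit 156) (nat_lit 152) (nat_lit 0) (XT.nd (nat_lit 78) (nat_lit 0) (nat_lit 0) (XT.lf (nat_lit 0) (nat_lit 44690590705) (nat_lit 76) (nat_lit 23093941901) (nat_lit 76) (nat_lit 8204543102) (nat_lit 6) (nat_lit 4) (nat_lit 7) (nat_lit 5) (nat_lit 7) (nat_lit 4) (nat_lit 354) (nat_lit 300) (nat_lit 246)) (XT.lf (nat_lit 0) (nat_lit 63672366405) (nat_lit 76) (nat_lit 16329319093) (nat_lit 76) (nat_lit 1422360450) (nat_lit 6) (nat_lit 4)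 (nat_lit 7) (nat_lit 5) (nat_lit 7) (nat_lit 4) (nat_lit 355) (nat_lit 300) (nat_lit 245))) (XT.nd (nat_lit 78) (nat_lit 76) (nat_lit 0) (XT.lf (nat_lit 0) (nat_lit 5589304238) (nat_lit 152) (nat_lit 3297464940) (nat_lit 76) (nat_lit 78397122496) (nat_lit 5) (nat_lit 5) (nat_lit 7) (nat_lit 5) (nat_lit 6) (nat_lit 4) (nat_lit 356) (nat_lit 300) (nat_lit 244)) (XT.lf (nat_lit 0) (nat_lit 12889070242) (nat_lit 76) (nat_lit 489459919) (nat_lit 152) (nat_lit 80207568608) (nat_lit 4) (nat_lit 5) (nat_lit 5) (nat_lit 5) (nat_lit 6) (nat_lit 4) (nat_lit 357) (nat_lit 300) (nat_lit 243)))) (XT.nd (nat_lit 156) (nat_lit 0) (nat_lit 0) (XT.nd (nat_lit 78) (nat_lit 0) (nat_lit 0) (XT.lf (nat_lit 0) (nat_lit 22073340929) (nat_lit 152) (nat_lit 70067852169) (nat_lit 0) (nat_lit 8228700130) (nat_lit 4) (nat_lit 5) (nat_lit 6) (nat_lit 4) (nat_lit 4) (nat_lit 4) (nat_lit 358) (nat_lit 300) (nat_lit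 242)) (XT.lf (nat_lit 0) (nat_lit 31461270220) (nat_lit 152) (nat_lit 58630645897) (nat_lit 0) (nat_lit 17604678486) (nat_lit 4) (nat_lit 5) (nat_lit 6) (nat_lit 4) (nat_lit 4) (nat_lit 4) (nat_lit 359) (nat_lit 300) (nat_lit 241))) (XT.nd (nat_lit 78) (nat_lit 0) (nat_lit 0) (XT.lf (nat_lit 0) (nat_lit 41586178686) (nat_lit 152) (nat_lit 46305862152) (nat_lit 0) (nat_lit 27718521272) (nat_lit 4) (nat_lit 5) (nat_lit 6) (nat_lit 4) (nat_lit 4) (nat_lit 4) (nat_lit 360) (nat_lit 300) (nat_lit 240)) (XT.lf (nat_lit 0) (nat_lit 52508065783) (nat_lit 152) (nat_lit 33020465178) (nat_lit 0) (nat_lit 38630162369) (nat_lit 4) (nat_lit 5) (nat_lit 6) (nat_lit 4) (nat_lit 4) (nat_lit 4) (nat_lit 361) (nat_lit 300) (nat_lit 239))))) (XT.nd (nat_lit 312) (nat_lit 0) (nat_lit 0) (XT.nd (nat_lit 156) (nat_lit 76) (nat_lit 0) (XT.nd (nat_lit 78) (nat_lit 0) (nat_lit 0) (XT.lf (nat_lit 0) (nat_lit 64291653805)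 (nat_lit 152) (nat_lit 18695726698) (nat_lit 0) (nat_lit 50404263354) (nat_lit 4) (nat_lit 5) (nat_lit 6) (nat_lit 4) (nat_lit 4) (nat_lit 4) (nat_lit 362) (nat_lit 300) (nat_lit 238)) (XT.lf (nat_lit 0) (nat_lit 77006771423) (nat_lit 152) (nat_lit 3246759372) (nat_lit 0) (nat_lit 63110596678) (nat_lit 4) (nat_lit 5) (nat_lit 6) (nat_lit 4) (nat_lit 4) (nat_lit 4) (nat_lit 363) (nat_lit 300) (nat_lit 237))) (XT.nd (nat_lit 78) (nat_lit 0) (nat_lit 0) (XT.lf (nat_lit 0) (nat_lit 14124553612) (nat_lit 76) (nat_lit 76943909722) (nat_lit 76) (nat_lit 63039601372) (nat_lit 3) (nat_lit 4) (nat_lit 4) (nat_lit 5) (nat_lit 4) (nat_lit 4) (nat_lit 364) (nat_lit 300) (nat_lit 236)) (XT.lf (nat_lit 0) (nat_lit 33050588465) (nat_lit 76) (nat_lit 73283236493) (nat_lit 76) (nat_lit 59371397027) (nat_lit 3) (nat_lit 4) (nat_lit 4) (nat_lit 5) (nat_lit 4) (nat_lit 4) (nat_lit 365) (nat_lit 300) (nat_lit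 235)))) (XT.nd (nat_lit 156) (nat_lit 0) (nat_lit 0) (XT.nd (nat_lit 78) (nat_lit 0) (nat_lit 0) (XT.lf (nat_lit 0) (nat_lit 53472530872) (nat_lit 76) (nat_lit 69338590385) (nat_lit 76) (nat_lit 55419777664) (nat_lit 3) (nat_lit 4) (nat_lit 4) (nat_lit 5) (nat_lit 4) (nat_lit 4) (nat_lit 366) (nat_lit 300) (nat_lit 234)) (XT.lf (nat_lit 0) (nat_lit 75511399750) (nat_lit 76) (nat_lit 65086595717) (nat_lit 76) (nat_lit 51161326278) (nat_lit 3) (nat_lit 4) (nat_lit 4) (nat_lit 5) (nat_lit 4) (nat_lit 4) (nat_lit 367) (nat_lit 300) (nat_lit 233))) (XT.nd (nat_lit 78) (nat_lit 0) (nat_lit 0) (XT.lf (nat_lit 0) (nat_lit 99297795805) (nat_lit 76) (nat_lit 60502055483) (nat_lit 76) (nat_lit 46570807601) (nat_lit 3) (nat_lit 4) (nat_lit 4) (nat_lit 5) (nat_lit 4) (nat_lit 4) (nat_lit 368) (nat_lit 300) (nat_lit 232)) (XT.nd (nat_lit 78) (nat_lit 0) (nat_lit 0) (XT.lf (nat_lit 0) (nat_lit 124972675456)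 (nat_lit 76) (nat_lit 55557802038) (nat_lit 76) (nat_lit 41621018561) (nat_lit 3) (nat_lit 4) (nat_lit 4) (nat_lit 5) (nat_lit 4) (nat_lit 4) (nat_lit 369) (nat_lit 300) (nat_lit 231)) (XT.lf (nat_lit 0) (nat_lit 152688186140) (nat_lit 76) (nat_lit 50224536102) (nat_lit 76) (nat_lit 36282627074) (nat_lit 3) (nat_lit 4) (nat_lit 4) (nat_lit 5) (nat_lit 4) (nat_lit 4) (nat_lit 370) (nat_lit 300) (nat_lit 230))))))) (XT.nd (nat_lit 624) (nat_lit 0) (nat_lit 0) (XT.nd (nat_lit 312) (nat_lit 152) (nat_lit 0) (XT.nd (nat_lit 156) (nat_lit 0) (nat_lit 0) (XT.nd (nat_lit 78) (nat_lit 0) (nat_lit 0) (XT.lf (nat_lit 0) (nat_lit 182608567919) (nat_lit 76) (nat_lit 44470653137) (nat_lit 76) (nat_lit 30523998228) (nat_lit 3) (nat_lit 4) (nat_lit 4) (nat_lit 5) (nat_lit 4) (nat_lit 4) (nat_lit 371) (nat_lit 300) (nat_lit 229)) (XT.lf (nat_lit 0) (nat_lit 214911126760) (nat_lit 76) (nat_lit 38262056057)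 (nat_lit 76) (nat_lit 24311006814) (nat_lit 3) (nat_lit 4) (nat_lit 4) (nat_lit 5) (nat_lit 4) (nat_lit 4) (nat_lit 372) (nat_lit 300) (nat_lit 228))) (XT.nd (nat_lit 78) (nat_lit 0) (nat_lit 0) (XT.lf (nat_lit 0) (nat_lit 249787285233) (nat_lit 76) (nat_lit 31561953176) (nat_lit 76) (nat_lit 17606835106) (nat_lit 3) (nat_lit 4) (nat_lit 4) (nat_lit 5) (nat_lit 4) (nat_lit 4) (nat_lit 373) (nat_lit 300) (nat_lit 227)) (XT.lf (nat_lit 0) (nat_lit 287443716871) (nat_lit 76) (nat_lit 24330640182) (nat_lit 76) (nat_lit 10371754679) (nat_lit 3) (nat_lit 4) (nat_lit 4) (nat_lit 5) (nat_lit 4) (nat_lit 4) (nat_lit 374) (nat_lit 300) (nat_lit 226)))) (XT.nd (nat_lit 156) (nat_lit 76) (nat_lit 0) (XT.nd (nat_lit 78) (nat_lit 76) (nat_lit 0) (XT.lf (nat_lit 0) (nat_lit 328103570897) (nat_lit 76) (nat_lit 16525264849) (nat_lit 76) (nat_lit 2562890982) (nat_lit 3) (nat_lit 4) (nat_lit 4) (nat_lit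 5) (nat_lit 4) (nat_lit 4) (nat_lit 375) (nat_lit 300) (nat_lit 225)) (XT.lf (nat_lit 0) (nat_lit 5572588117) (nat_lit 152) (nat_lit 2374620548) (nat_lit 76) (nat_lit 366282842043) (nat_lit 2) (nat_lit 5) (nat_lit 4) (nat_lit 5) (nat_lit 3) (nat_lit 4) (nat_lit 376) (nat_lit 300) (nat_lit 224))) (XT.nd (nat_lit 78) (nat_lit 0) (nat_lit 0) (XT.lf (nat_lit 0) (nat_lit 14654894208) (nat_lit 152) (nat_lit 387015455834) (nat_lit 0) (nat_lit 1721010372) (nat_lit 1) (nat_lit 5) (nat_lit 3) (nat_lit 4) (nat_lit 1) (nat_lit 4) (nat_lit 377) (nat_lit 300) (nat_lit 223)) (XT.lf (nat_lit 0) (nat_lit 24732750451) (nat_lit 152) (nat_lit 398335005928) (nat_lit 0) (nat_lit 11796302563) (nat_lit 1) (nat_lit 5) (nat_lit 3) (nat_lit 4) (nat_lit 1) (nat_lit 4) (nat_lit 378) (nat_lit 300) (nat_lit 222))))) (XT.nd (nat_lit 312) (nat_lit 0) (nat_lit 0) (XT.nd (nat_lit 156) (nat_lit 0) (nat_lit 0) (XT.nd (nat_lit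 78) (nat_lit 0) (nat_lit 0) (XT.lf (nat_lit 0) (nat_lit 35613068461) (nat_lit 152) (nat_lit 410567560984) (nat_lit 0) (nat_lit 22674246451) (nat_lit 1) (nat_lit 5) (nat_lit 3) (nat_lit 4) (nat_lit 1) (nat_lit 4) (nat_lit 379) (nat_lit 300) (nat_lit 221)) (XT.lf (nat_lit 0) (nat_lit 47360324195) (nat_lit 152) (nat_lit 423785610216) (nat_lit 0) (nat_lit 34419303924) (nat_lit 1) (nat_lit 5) (nat_lit 3) (nat_lit 4) (nat_lit 1) (nat_lit 4) (nat_lit 380) (nat_lit 300) (nat_lit 220))) (XT.nd (nat_lit 78) (nat_lit 0) (nat_lit 0) (XT.lf (nat_lit 0) (nat_lit 60044131021) (nat_lit 152) (nat_lit 438067482805) (nat_lit 0) (nat_lit 47101075324) (nat_lit 1) (nat_lit 5) (nat_lit 3) (nat_lit 4) (nat_lit 1) (nat_lit 4) (nat_lit 381) (nat_lit 300) (nat_lit 219)) (XT.lf (nat_lit 0) (nat_lit 73739652239) (nat_lit 152) (nat_lit 453497812070) (nat_lit 0) (nat_lit 60794711887) (nat_lit 1) (nat_lit 5) (nat_lit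 3) (nat_lit 4) (nat_lit 1) (nat_lit 4) (nat_lit 382) (nat_lit 300) (nat_lit 218)))) (XT.nd (nat_lit 156) (nat_lit 0) (nat_lit 0) (XT.nd (nat_lit 78) (nat_lit 0) (nat_lit 0) (XT.lf (nat_lit 0) (nat_lit 88528046494) (nat_lit 152) (nat_lit 470168037000) (nat_lit 0) (nat_lit 75581361091) (nat_lit 1) (nat_lit 5) (nat_lit 3) (nat_lit 4) (nat_lit 1) (nat_lit 4) (nat_lit 383) (nat_lit 300) (nat_lit 217)) (XT.lf (nat_lit 0) (nat_lit 104496948713) (nat_lit 152) (nat_lit 488176944112) (nat_lit 0) (nat_lit 91548647523) (nat_lit 1) (nat_lit 5) (nat_lit 3) (nat_lit 4) (nat_lit 1) (nat_lit 4) (nat_lit 384) (nat_lit 300) (nat_lit 216))) (XT.nd (nat_lit 78) (nat_lit 0) (nat_lit 0) (XT.lf (nat_lit 0) (nat_lit 121740989429) (nat_lit 152) (nat_lit 507631252856) (nat_lit 0) (nat_lit 108791192140) (nat_lit 1) (nat_lit 5) (nat_lit 3) (nat_lit 4) (nat_lit 1) (nat_lit 4) (nat_lit 385) (nat_lit 300) (nat_lit 215))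 (XT.nd (nat_lit 78) (nat_lit 0) (nat_lit 0) (XT.lf (nat_lit 0) (nat_lit 140362355549) (nat_lit 152) (nat_lit 528646248026) (nat_lit 0) (nat_lit 127411172983) (nat_lit 1) (nat_lit 5) (nat_lit 3) (nat_lit 4) (nat_lit 1) (nat_lit 4) (nat_lit 386) (nat_lit 300) (nat_lit 214)) (XT.lf (nat_lit 0) (nat_lit 160471395911) (nat_lit 152) (nat_lit 551346462924) (nat_lit 0) (nat_lit 147518930680) (nat_lit 1) (nat_lit 5) (nat_lit 3) (nat_lit 4) (nat_lit 1) (nat_lit 4) (nat_lit 387) (nat_lit 300) (nat_lit 213))))))))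
noncomputable def xc98 : XT := (XT.nd (nat_lit 1326) (nat_lit 0) (nat_lit 0) (XT.nd (nat_lit 624) (nat_lit 0) (nat_lit 0) (XT.nd (nat_lit 312) (nat_lit 0) (nat_lit 0) (XT.nd (nat_lit 156) (nat_lit 0) (nat_lit 0) (XT.nd (nat_lit 78) (nat_lit 0) (nat_lit 0) (XT.lf (nat_lit 0) (nat_lit 182187275197) (nat_lit 152) (nat_lit 575866417344) (nat_lit 0) (nat_lit 169233622314) (nat_lit 1) (nat_lit 5) (nat_lit 3) (nat_lit 4) (nat_lit 1) (nat_lit 4) (nat_lit 388) (nat_lit 300) (nat_lit 212)) (XT.lf (nat_lit 0) (nat_lit 205638680100) (nat_lit 152) (nat_lit 602351414719) (nat_lit 0) (nat_lit 192683927539) (nat_lit 1) (nat_lit 5) (nat_lit 3) (nat_lit 4) (nat_lit 1) (nat_lit 4) (nat_lit 389) (nat_lit 300) (nat_lit 211))) (XT.nd (nat_lit 78) (nat_lit 0) (nat_lit 0) (XT.lf (nat_lit 0) (nat_lit 230964581907) (nat_lit 152) (nat_lit 630958403181) (nat_lit 0) (nat_lit 218008811127) (nat_lit 1) (nat_lit 5)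 (nat_lit 3) (nat_lit 4) (nat_lit 1) (nat_lit 4) (nat_lit 390) (nat_lit 300) (nat_lit 210)) (XT.lf (nat_lit 0) (nat_lit 258315060038) (nat_lit 152) (nat_lit 661856905626) (nat_lit 0) (nat_lit 245358346461) (nat_lit 1) (nat_lit 5) (nat_lit 3) (nat_lit 4) (nat_lit 1) (nat_lit 4) (nat_lit 391) (nat_lit 300) (nat_lit 209)))) (XT.nd (nat_lit 156) (nat_lit 0) (nat_lit 0) (XT.nd (nat_lit 78) (nat_lit 0) (nat_lit 0) (XT.lf (nat_lit 0) (nat_lit 287852191399) (nat_lit 152) (nat_lit 695230024289) (nat_lit 0) (nat_lit 274894604862) (nat_lit 1) (nat_lit 5) (nat_lit 3) (nat_lit 4) (nat_lit 1) (nat_lit 4) (nat_lit 392) (nat_lit 300) (nat_lit 208)) (XT.lf (nat_lit 0) (nat_lit 319751010843) (nat_lit 152) (nat_lit 731275525800) (nat_lit 0) (nat_lit 306792616010) (nat_lit 1) (nat_lit 5) (nat_lit 3) (nat_lit 4) (nat_lit 1) (nat_lit 4) (nat_lit 393) (nat_lit 300) (nat_lit 207))) (XT.nd (nat_lit 78) (nat_lit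 0) (nat_lit 0) (XT.lf (nat_lit 0) (nat_lit 354200548411) (nat_lit 152) (nat_lit 770207013132) (nat_lit 0) (nat_lit 341241405156) (nat_lit 1) (nat_lit 5) (nat_lit 3) (nat_lit 4) (nat_lit 1) (nat_lit 4) (nat_lit 394) (nat_lit 300) (nat_lit 206)) (XT.lf (nat_lit 0) (nat_lit 391404949511) (nat_lit 152) (nat_lit 812255191393) (nat_lit 0) (nat_lit 378445113273) (nat_lit 1) (nat_lit 5) (nat_lit 3) (nat_lit 4) (nat_lit 1) (nat_lit 4) (nat_lit 395) (nat_lit 300) (nat_lit 205))))) (XT.nd (nat_lit 312) (nat_lit 0) (nat_lit 0) (XT.nd (nat_lit 156) (nat_lit 0) (nat_lit 0) (XT.nd (nat_lit 78) (nat_lit 0) (nat_lit 0) (XT.lf (nat_lit 0) (nat_lit 431584684668) (nat_lit 152) (nat_lit 857669234974) (nat_lit 0) (nat_lit 418624206778) (nat_lit 1) (nat_lit 5) (nat_lit 3) (nat_lit 4) (nat_lit 1) (nat_lit 4) (nat_lit 396) (nat_lit 300) (nat_lit 204)) (XT.lf (nat_lit 0) (nat_lit 474977856016) (nat_lit 152) (nat_lit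 906718264133) (nat_lit 0) (nat_lit 462016784005) (nat_lit 1) (nat_lit 5) (nat_lit 3) (nat_lit 4) (nat_lit 1) (nat_lit 4) (nat_lit 397) (nat_lit 300) (nat_lit 203))) (XT.nd (nat_lit 78) (nat_lit 0) (nat_lit 0) (XT.lf (nat_lit 0) (nat_lit 521841608275) (nat_lit 152) (nat_lit 959692939783) (nat_lit 0) (nat_lit 508879986151) (nat_lit 1) (nat_lit 5) (nat_lit 3) (nat_lit 4) (nat_lit 1) (nat_lit 4) (nat_lit 398) (nat_lit 300) (nat_lit 202)) (XT.lf (nat_lit 0) (nat_lit 572453652568) (nat_lit 152) (nat_lit 1016907185929) (nat_lit 0) (nat_lit 559491521081) (nat_lit 1) (nat_lit 5) (nat_lit 3) (nat_lit 4) (nat_lit 1) (nat_lit 4) (nat_lit 399) (nat_lit 300) (nat_lit 201)))) (XT.nd (nat_lit 156) (nat_lit 0) (nat_lit 0) (XT.nd (nat_lit 78) (nat_lit 0) (nat_lit 0) (XT.lf (nat_lit 0) (nat_lit 627113912122) (nat_lit 152) (nat_lit 1078700049954) (nat_lit 0) (nat_lit 614151309001) (nat_lit 1) (nat_lit 5)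 (nat_lit 3) (nat_lit 4) (nat_lit 1) (nat_lit 4) (nat_lit 400) (nat_lit 300) (nat_lit 200)) (XT.lf (nat_lit 0) (nat_lit 686146299585) (nat_lit 152) (nat_lit 1145437711795) (nat_lit 0) (nat_lit 673183259767) (nat_lit 1) (nat_lit 5) (nat_lit 3) (nat_lit 4) (nat_lit 1) (nat_lit 4) (nat_lit 401) (nat_lit 300) (nat_lit 199))) (XT.nd (nat_lit 78) (nat_lit 0) (nat_lit 0) (XT.lf (nat_lit 0) (nat_lit 749900636513) (nat_lit 152) (nat_lit 1217515653891) (nat_lit 0) (nat_lit 736937192346) (nat_lit 1) (nat_lit 5) (nat_lit 3) (nat_lit 4) (nat_lit 1) (nat_lit 4) (nat_lit 402) (nat_lit 300) (nat_lit 198)) (XT.nd (nat_lit 78) (nat_lit 0) (nat_lit 0) (XT.lf (nat_lit 0) (nat_lit 818754726384) (nat_lit 152) (nat_lit 1295361004788) (nat_lit 0) (nat_lit 805790907820) (nat_lit 1) (nat_lit 5) (nat_lit 3) (nat_lit 4) (nat_lit 1) (nat_lit 4) (nat_lit 403) (nat_lit 300) (nat_lit 197)) (XT.lf (nat_lit 0) (nat_lit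 893116593435) (nat_lit 152) (nat_lit 1379435070270) (nat_lit 0) (nat_lit 880152428206) (nat_lit 1) (nat_lit 5) (nat_lit 3) (nat_lit 4) (nat_lit 1) (nat_lit 4) (nat_lit 404) (nat_lit 300) (nat_lit 196))))))) (XT.nd (nat_lit 624) (nat_lit 0) (nat_lit 0) (XT.nd (nat_lit 312) (nat_lit 0) (nat_lit 0) (XT.nd (nat_lit 156) (nat_lit 0) (nat_lit 0) (XT.nd (nat_lit 78) (nat_lit 0) (nat_lit 0) (XT.lf (nat_lit 0) (nat_lit 973426900580) (nat_lit 152) (nat_lit 1470236067020) (nat_lit 0) (nat_lit 960462414365) (nat_lit 1) (nat_lit 5) (nat_lit 3) (nat_lit 4) (nat_lit 1) (nat_lit 4) (nat_lit 405) (nat_lit 300) (nat_lit 195)) (XT.lf (nat_lit 0) (nat_lit 1060161560751) (nat_lit 152) (nat_lit 1568302075019) (nat_lit 0) (nat_lit 1047196777328) (nat_lit 1) (nat_lit 5) (nat_lit 3) (nat_lit 4) (nat_lit 1) (nat_lit 4) (nat_lit 406) (nat_lit 300) (nat_lit 194))) (XT.nd (nat_lit 78) (nat_lit 0) (nat_lit 0) (XT.lf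 (nat_lit 0) (nat_lit 1153834557120) (nat_lit 152) (nat_lit 1674214226167) (nat_lit 0) (nat_lit 1140869498504) (nat_lit 1) (nat_lit 5) (nat_lit 3) (nat_lit 4) (nat_lit 1) (nat_lit 4) (nat_lit 407) (nat_lit 300) (nat_lit 193)) (XT.lf (nat_lit 0) (nat_lit 1255000988925) (nat_lit 152) (nat_lit 1788600148026) (nat_lit 0) (nat_lit 1242035675500) (nat_lit 1) (nat_lit 5) (nat_lit 3) (nat_lit 4) (nat_lit 1) (nat_lit 4) (nat_lit 408) (nat_lit 300) (nat_lit 192)))) (XT.nd (nat_lit 156) (nat_lit 0) (nat_lit 0) (XT.nd (nat_lit 78) (nat_lit 0) (nat_lit 0) (XT.lf (nat_lit 0) (nat_lit 1364260360946) (nat_lit 152) (nat_lit 1912137683095) (nat_lit 0) (nat_lit 1351294811587) (nat_lit 1) (nat_lit 5) (nat_lit 3) (nat_lit 4) (nat_lit 1) (nat_lit 4) (nat_lit 409) (nat_lit 300) (nat_lit 191)) (XT.lf (nat_lit 0) (nat_lit 1482260136129) (nat_lit 152) (nat_lit 2045558905658) (nat_lit 0) (nat_lit 1469294368312)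 (nat_lit 1) (nat_lit 5) (nat_lit 3) (nat_lit 4) (nat_lit 1) (nat_lit 4) (nat_lit 410) (nat_lit 300) (nat_lit 190))) (XT.nd (nat_lit 78) (nat_lit 0) (nat_lit 0) (XT.lf (nat_lit 0) (nat_lit 1609699572400) (nat_lit 152) (nat_lit 2189654459995) (nat_lit 0) (nat_lit 1596733602309) (nat_lit 1) (nat_lit 5) (nat_lit 3) (nat_lit 4) (nat_lit 1) (nat_lit 4) (nat_lit 411) (nat_lit 300) (nat_lit 189)) (XT.lf (nat_lit 0) (nat_lit 1747333866420) (nat_lit 152) (nat_lit 2345278245688) (nat_lit 0) (nat_lit 1734367709037) (nat_lit 1) (nat_lit 5) (nat_lit 3) (nat_lit 4) (nat_lit 1) (nat_lit 4) (nat_lit 412) (nat_lit 300) (nat_lit 188))))) (XT.nd (nat_lit 38376) (nat_lit 0) (nat_lit 4408) (XT.nd (nat_lit 38220) (nat_lit 0) (nat_lit 5168) (XT.nd (nat_lit 38142) (nat_lit 0) (nat_lit 5396) (XT.lf (nat_lit 0) (nat_lit 1895978628819) (nat_lit 152) (nat_lit 2513352477763) (nat_lit 0) (nat_lit 1883012298017) (nat_lit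 1) (nat_lit 5) (nat_lit 3) (nat_lit 4) (nat_lit 1) (nat_lit 4) (nat_lit 413) (nat_lit 300) (nat_lit 187)) (XT.lf (nat_lit 0) (nat_lit 1449350607) (nat_lit 0) (nat_lit 1449350607) (nat_lit 76) (nat_lit 335415843) (nat_lit 72) (nat_lit 5) (nat_lit 72) (nat_lit 3) (nat_lit 73) (nat_lit 0) (nat_lit 301) (nat_lit 301) (nat_lit 298))) (XT.nd (nat_lit 78) (nat_lit 0) (nat_lit 0) (XT.lf (nat_lit 0) (nat_lit 1960559877) (nat_lit 228) (nat_lit 496516074) (nat_lit 228) (nat_lit 4050862645) (nat_lit 69) (nat_lit 3) (nat_lit 72) (nat_lit 3) (nat_lit 72) (nat_lit 5) (nat_lit 302) (nat_lit 301) (nat_lit 297)) (XT.lf (nat_lit 76) (nat_lit 2802876124) (nat_lit 0) (nat_lit 1768294882) (nat_lit 228) (nat_lit 1994909073) (nat_lit 70) (nat_lit 5) (nat_lit 69) (nat_lit 3) (nat_lit 72) (nat_lit 5) (nat_lit 303) (nat_lit 301) (nat_lit 296)))) (XT.nd (nat_lit 156) (nat_lit 532) (nat_lit 0) (XT.nd (nat_lit 78)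 (nat_lit 0) (nat_lit 76) (XT.lf (nat_lit 0) (nat_lit 483905418) (nat_lit 228) (nat_lit 404913191) (nat_lit 304) (nat_lit 5758669109) (nat_lit 66) (nat_lit 5) (nat_lit 69) (nat_lit 3) (nat_lit 70) (nat_lit 5) (nat_lit 304) (nat_lit 301) (nat_lit 295)) (XT.lf (nat_lit 0) (nat_lit 2902087317) (nat_lit 228) (nat_lit 3563678061) (nat_lit 76) (nat_lit 278424212) (nat_lit 67) (nat_lit 5) (nat_lit 70) (nat_lit 5) (nat_lit 68) (nat_lit 5) (nat_lit 305) (nat_lit 301) (nat_lit 294))) (XT.nd (nat_lit 78) (nat_lit 380) (nat_lit 0) (XT.lf (nat_lit 0) (nat_lit 48690635) (nat_lit 228) (nat_lit 5281836309) (nat_lit 304) (nat_lit 1533528658) (nat_lit 64) (nat_lit 5) (nat_lit 67) (nat_lit 5) (nat_lit 68) (nat_lit 5) (nat_lit 306) (nat_lit 301) (nat_lit 293)) (XT.nd (nat_lit 78) (nat_lit 304) (nat_lit 0) (XT.lf (nat_lit 0) (nat_lit 799333140) (nat_lit 304) (nat_lit 3024870876) (nat_lit 76) (nat_lit 3177113471)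 (nat_lit 63) (nat_lit 5) (nat_lit 67) (nat_lit 5) (nat_lit 64) (nat_lit 5) (nat_lit 307) (nat_lit 301) (nat_lit 292)) (XT.lf (nat_lit 0) (nat_lit 921165972) (nat_lit 304) (nat_lit 2140335489) (nat_lit 380) (nat_lit 4099443104) (nat_lit 59) (nat_lit 5) (nat_lit 63) (nat_lit 5) (nat_lit 64) (nat_lit 5) (nat_lit 308) (nat_lit 301) (nat_lit 291))))))))
noncomputable def xc99 : XT := (XT.nd (nat_lit 1326) (nat_lit 1064) (nat_lit 0) (XT.nd (nat_lit 624) (nat_lit 1140) (nat_lit 0) (XT.nd (nat_lit 312) (nat_lit 608) (nat_lit 0) (XT.nd (nat_lit 156) (nat_lit 456) (nat_lit 0) (XT.nd (nat_lit 78) (nat_lit 456) (nat_lit 0) (XT.lf (nat_lit 0) (nat_lit 5204864896) (nat_lit 304) (nat_lit 196813816) (nat_lit 380) (nat_lit 1940467881) (nat_lit 59) (nat_lit 5) (nat_lit 63) (nat_lit 5) (nat_lit 64) (nat_lit 5) (nat_lit 309) (nat_lit 301) (nat_lit 290)) (XT.lf (nat_lit 0) (nat_lit 296904126) (nat_lit 456)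 (nat_lit 5347766315) (nat_lit 76) (nat_lit 1898888311) (nat_lit 53) (nat_lit 5) (nat_lit 59) (nat_lit 5) (nat_lit 54) (nat_lit 5) (nat_lit 310) (nat_lit 301) (nat_lit 289))) (XT.nd (nat_lit 78) (nat_lit 456) (nat_lit 0) (XT.lf (nat_lit 0) (nat_lit 2506768042) (nat_lit 456) (nat_lit 975715792) (nat_lit 76) (nat_lit 4283151479) (nat_lit 53) (nat_lit 5) (nat_lit 59) (nat_lit 5) (nat_lit 54) (nat_lit 5) (nat_lit 311) (nat_lit 301) (nat_lit 288)) (XT.lf (nat_lit 0) (nat_lit 3788058710) (nat_lit 456) (nat_lit 1042086422) (nat_lit 532) (nat_lit 3180812160) (nat_lit 47) (nat_lit 5) (nat_lit 53) (nat_lit 5) (nat_lit 54) (nat_lit 5) (nat_lit 312) (nat_lit 301) (nat_lit 287)))) (XT.nd (nat_lit 156) (nat_lit 228) (nat_lit 0) (XT.nd (nat_lit 78) (nat_lit 76) (nat_lit 0) (XT.lf (nat_lit 0) (nat_lit 547041650) (nat_lit 304) (nat_lit 6724863428) (nat_lit 380) (nat_lit 1009785250) (nat_lit 43) (nat_lit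 5) (nat_lit 47) (nat_lit 5) (nat_lit 48) (nat_lit 5) (nat_lit 313) (nat_lit 301) (nat_lit 286)) (XT.lf (nat_lit 0) (nat_lit 1270563910) (nat_lit 380) (nat_lit 2848157961) (nat_lit 76) (nat_lit 4452929469) (nat_lit 42) (nat_lit 5) (nat_lit 47) (nat_lit 5) (nat_lit 43) (nat_lit 5) (nat_lit 314) (nat_lit 301) (nat_lit 285))) (XT.nd (nat_lit 78) (nat_lit 0) (nat_lit 0) (XT.lf (nat_lit 0) (nat_lit 2373731534) (nat_lit 228) (nat_lit 1229634508) (nat_lit 304) (nat_lit 5285685229) (nat_lit 39) (nat_lit 5) (nat_lit 42) (nat_lit 5) (nat_lit 43) (nat_lit 5) (nat_lit 315) (nat_lit 301) (nat_lit 284)) (XT.lf (nat_lit 0) (nat_lit 6121558003) (nat_lit 304) (nat_lit 1251984353) (nat_lit 76) (nat_lit 1858683541) (nat_lit 39) (nat_lit 5) (nat_lit 43) (nat_lit 5) (nat_lit 40) (nat_lit 5) (nat_lit 316) (nat_lit 301) (nat_lit 283))))) (XT.nd (nat_lit 312) (nat_lit 456) (nat_lit 0) (XT.nd (nat_lit 156) (nat_lit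 228) (nat_lit 0) (XT.nd (nat_lit 78) (nat_lit 228) (nat_lit 0) (XT.lf (nat_lit 0) (nat_lit 4481875962) (nat_lit 228) (nat_lit 4381835646) (nat_lit 304) (nat_lit 737605300) (nat_lit 36) (nat_lit 5) (nat_lit 39) (nat_lit 5) (nat_lit 40) (nat_lit 5) (nat_lit 317) (nat_lit 301) (nat_lit 282)) (XT.lf (nat_lit 0) (nat_lit 587583548) (nat_lit 152) (nat_lit 1080638412) (nat_lit 228) (nat_lit 8333688471) (nat_lit 33) (nat_lit 5) (nat_lit 35) (nat_lit 5) (nat_lit 36) (nat_lit 5) (nat_lit 318) (nat_lit 301) (nat_lit 281))) (XT.nd (nat_lit 78) (nat_lit 228) (nat_lit 0) (XT.lf (nat_lit 0) (nat_lit 4319352120) (nat_lit 228) (nat_lit 3613610866) (nat_lit 76) (nat_lit 2492849550) (nat_lit 33) (nat_lit 5) (nat_lit 36) (nat_lit 5) (nat_lit 34) (nat_lit 5) (nat_lit 319) (nat_lit 301) (nat_lit 280)) (XT.lf (nat_lit 0) (nat_lit 2614995202) (nat_lit 228) (nat_lit 4556055485) (nat_lit 304) (nat_lit 3713691136)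 (nat_lit 30) (nat_lit 5) (nat_lit 33) (nat_lit 5) (nat_lit 34) (nat_lit 5) (nat_lit 320) (nat_lit 301) (nat_lit 279)))) (XT.nd (nat_lit 156) (nat_lit 228) (nat_lit 0) (XT.nd (nat_lit 78) (nat_lit 228) (nat_lit 0) (XT.lf (nat_lit 0) (nat_lit 9412004404) (nat_lit 228) (nat_lit 839536989) (nat_lit 304) (nat_lit 1128970499) (nat_lit 30) (nat_lit 5) (nat_lit 33) (nat_lit 5) (nat_lit 34) (nat_lit 5) (nat_lit 321) (nat_lit 301) (nat_lit 278)) (XT.lf (nat_lit 0) (nat_lit 1683662606) (nat_lit 228) (nat_lit 7078341965) (nat_lit 76) (nat_lit 3142549603) (nat_lit 27) (nat_lit 5) (nat_lit 30) (nat_lit 5) (nat_lit 28) (nat_lit 5) (nat_lit 322) (nat_lit 301) (nat_lit 277))) (XT.nd (nat_lit 78) (nat_lit 228) (nat_lit 0) (XT.lf (nat_lit 0) (nat_lit 4646901438) (nat_lit 228) (nat_lit 375816816) (nat_lit 76) (nat_lit 7446670612) (nat_lit 27) (nat_lit 5) (nat_lit 30) (nat_lit 5) (nat_lit 28) (nat_lit 5)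 (nat_lit 323) (nat_lit 301) (nat_lit 276)) (XT.nd (nat_lit 78) (nat_lit 76) (nat_lit 0) (XT.lf (nat_lit 0) (nat_lit 7094144699) (nat_lit 152) (nat_lit 839930311) (nat_lit 228) (nat_lit 5138516799) (nat_lit 25) (nat_lit 5) (nat_lit 27) (nat_lit 5) (nat_lit 28) (nat_lit 5) (nat_lit 324) (nat_lit 301) (nat_lit 275)) (XT.lf (nat_lit 0) (nat_lit 1310592057) (nat_lit 76) (nat_lit 10222737973) (nat_lit 152) (nat_lit 2186914134) (nat_lit 24) (nat_lit 5) (nat_lit 25) (nat_lit 5) (nat_lit 26) (nat_lit 4) (nat_lit 325) (nat_lit 301) (nat_lit 274))))))) (XT.nd (nat_lit 702) (nat_lit 456) (nat_lit 0) (XT.nd (nat_lit 312) (nat_lit 304) (nat_lit 0) (XT.nd (nat_lit 156) (nat_lit 76) (nat_lit 0) (XT.nd (nat_lit 78) (nat_lit 152) (nat_lit 0) (XT.lf (nat_lit 0) (nat_lit 1059809088) (nat_lit 152) (nat_lit 5061264600) (nat_lit 76) (nat_lit 8288089273) (nat_lit 23) (nat_lit 5) (nat_lit 25) (nat_lit 5) (nat_lit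 24) (nat_lit 5) (nat_lit 326) (nat_lit 301) (nat_lit 273)) (XT.lf (nat_lit 0) (nat_lit 2842558571) (nat_lit 152) (nat_lit 1599419286) (nat_lit 228) (nat_lit 10707261216) (nat_lit 21) (nat_lit 5) (nat_lit 23) (nat_lit 5) (nat_lit 24) (nat_lit 5) (nat_lit 327) (nat_lit 301) (nat_lit 272))) (XT.nd (nat_lit 78) (nat_lit 76) (nat_lit 0) (XT.lf (nat_lit 0) (nat_lit 8242892632) (nat_lit 228) (nat_lit 4473136844) (nat_lit 76) (nat_lit 3220727510) (nat_lit 21) (nat_lit 5) (nat_lit 24) (nat_lit 5) (nat_lit 22) (nat_lit 4) (nat_lit 328) (nat_lit 301) (nat_lit 271)) (XT.lf (nat_lit 0) (nat_lit 4036702684) (nat_lit 76) (nat_lit 8382410241) (nat_lit 152) (nat_lit 4362547703) (nat_lit 20) (nat_lit 5) (nat_lit 21) (nat_lit 5) (nat_lit 22) (nat_lit 4) (nat_lit 329) (nat_lit 301) (nat_lit 270)))) (XT.nd (nat_lit 156) (nat_lit 76) (nat_lit 0) (XT.nd (nat_lit 78) (nat_lit 228) (nat_lit 0) (XT.lf (nat_lit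 0) (nat_lit 13373748617) (nat_lit 76) (nat_lit 3612987300) (nat_lit 152) (nat_lit 702912982) (nat_lit 20) (nat_lit 5) (nat_lit 21) (nat_lit 5) (nat_lit 22) (nat_lit 4) (nat_lit 330) (nat_lit 301) (nat_lit 269)) (XT.lf (nat_lit 0) (nat_lit 3182783580) (nat_lit 228) (nat_lit 13852173790) (nat_lit 76) (nat_lit 1621465118) (nat_lit 17) (nat_lit 5) (nat_lit 20) (nat_lit 5) (nat_lit 18) (nat_lit 4) (nat_lit 331) (nat_lit 301) (nat_lit 268))) (XT.nd (nat_lit 78) (nat_lit 76) (nat_lit 0) (XT.lf (nat_lit 0) (nat_lit 7495630005) (nat_lit 228) (nat_lit 5011332033) (nat_lit 76) (nat_lit 7179834675) (nat_lit 17) (nat_lit 5) (nat_lit 20) (nat_lit 5) (nat_lit 18) (nat_lit 4) (nat_lit 332) (nat_lit 301) (nat_lit 267)) (XT.nd (nat_lit 78) (nat_lit 0) (nat_lit 0) (XT.lf (nat_lit 0) (nat_lit 4673795218) (nat_lit 76) (nat_lit 7535962385) (nat_lit 152) (nat_lit 8585399404) (nat_lit 16) (nat_lit 5) (nat_lit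 17) (nat_lit 5) (nat_lit 18) (nat_lit 4) (nat_lit 333) (nat_lit 301) (nat_lit 266)) (XT.lf (nat_lit 0) (nat_lit 15324397758) (nat_lit 76) (nat_lit 2059375558) (nat_lit 152) (nat_lit 4601844407) (nat_lit 16) (nat_lit 5) (nat_lit 17) (nat_lit 5) (nat_lit 18) (nat_lit 4) (nat_lit 334) (nat_lit 301) (nat_lit 265)))))) (XT.nd (nat_lit 312) (nat_lit 228) (nat_lit 0) (XT.nd (nat_lit 156) (nat_lit 76) (nat_lit 0) (XT.nd (nat_lit 78) (nat_lit 76) (nat_lit 0) (XT.lf (nat_lit 0) (nat_lit 3550080209) (nat_lit 76) (nat_lit 19548596727) (nat_lit 76) (nat_lit 162529390) (nat_lit 15) (nat_lit 4) (nat_lit 16) (nat_lit 5) (nat_lit 16) (nat_lit 4) (nat_lit 335) (nat_lit 301) (nat_lit 264)) (XT.lf (nat_lit 0) (nat_lit 4589777858) (nat_lit 152) (nat_lit 9927722722) (nat_lit 76) (nat_lit 10097306655) (nat_lit 14) (nat_lit 5) (nat_lit 16) (nat_lit 5) (nat_lit 15) (nat_lit 4) (nat_lit 336) (nat_lit 301) (nat_lit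 263))) (XT.nd (nat_lit 78) (nat_lit 0) (nat_lit 0) (XT.lf (nat_lit 0) (nat_lit 578880076) (nat_lit 76) (nat_lit 9101498012) (nat_lit 152) (nat_lit 16398667663) (nat_lit 13) (nat_lit 5) (nat_lit 14) (nat_lit 5) (nat_lit 15) (nat_lit 4) (nat_lit 337) (nat_lit 301) (nat_lit 262)) (XT.lf (nat_lit 0) (nat_lit 12408532116) (nat_lit 76) (nat_lit 2995612835) (nat_lit 152) (nat_lit 12238240453) (nat_lit 13) (nat_lit 5) (nat_lit 14) (nat_lit 5) (nat_lit 15) (nat_lit 4) (nat_lit 338) (nat_lit 301) (nat_lit 261)))) (XT.nd (nat_lit 156) (nat_lit 152) (nat_lit 0) (XT.nd (nat_lit 78) (nat_lit 76) (nat_lit 0) (XT.lf (nat_lit 0) (nat_lit 21629398159) (nat_lit 152) (nat_lit 4311374303) (nat_lit 0) (nat_lit 3386565881) (nat_lit 13) (nat_lit 5) (nat_lit 15) (nat_lit 4) (nat_lit 13) (nat_lit 4) (nat_lit 339) (nat_lit 301) (nat_lit 260)) (XT.lf (nat_lit 0) (nat_lit 7720540414) (nat_lit 76) (nat_lit 20855836237)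 (nat_lit 76) (nat_lit 2552844942) (nat_lit 12) (nat_lit 4) (nat_lit 13) (nat_lit 5) (nat_lit 13) (nat_lit 4) (nat_lit 340) (nat_lit 301) (nat_lit 259))) (XT.nd (nat_lit 78) (nat_lit 76) (nat_lit 0) (XT.lf (nat_lit 0) (nat_lit 2934966160) (nat_lit 152) (nat_lit 12253964475) (nat_lit 76) (nat_lit 17874061696) (nat_lit 11) (nat_lit 5) (nat_lit 13) (nat_lit 5) (nat_lit 12) (nat_lit 4) (nat_lit 341) (nat_lit 301) (nat_lit 258)) (XT.nd (nat_lit 78) (nat_lit 76) (nat_lit 0) (XT.lf (nat_lit 0) (nat_lit 8687244190) (nat_lit 152) (nat_lit 340802834) (nat_lit 76) (nat_lit 26121068326) (nat_lit 11) (nat_lit 5) (nat_lit 13) (nat_lit 5) (nat_lit 12) (nat_lit 4) (nat_lit 342) (nat_lit 301) (nat_lit 257)) (XT.lf (nat_lit 0) (nat_lit 13119065002) (nat_lit 76) (nat_lit 2062229189) (nat_lit 152) (nat_lit 22198329242) (nat_lit 10) (nat_lit 5) (nat_lit 11) (nat_lit 5) (nat_lit 12) (nat_lit 4) (nat_lit 343)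 (nat_lit 301) (nat_lit 256))))))))
noncomputable def xc100 : XT := (XT.nd (nat_lit 1326) (nat_lit 152) (nat_lit 0) (XT.nd (nat_lit 624) (nat_lit 228) (nat_lit 0) (XT.nd (nat_lit 312) (nat_lit 152) (nat_lit 0) (XT.nd (nat_lit 156) (nat_lit 0) (nat_lit 0) (XT.nd (nat_lit 78) (nat_lit 76) (nat_lit 0) (XT.lf (nat_lit 0) (nat_lit 22302206026) (nat_lit 152) (nat_lit 12307302705) (nat_lit 0) (nat_lit 5170497146) (nat_lit 10) (nat_lit 5) (nat_lit 12) (nat_lit 4) (nat_lit 10) (nat_lit 4) (nat_lit 344) (nat_lit 301) (nat_lit 255)) (XT.lf (nat_lit 0) (nat_lit 516130701) (nat_lit 76) (nat_lit 29511567064) (nat_lit 76) (nat_lit 12341947799) (nat_lit 9) (nat_lit 4) (nat_lit 10) (nat_lit 5) (nat_lit 10) (nat_lit 4) (nat_lit 345) (nat_lit 301) (nat_lit 254))) (XT.nd (nat_lit 78) (nat_lit 0) (nat_lit 0) (XT.lf (nat_lit 0) (nat_lit 15008505554) (nat_lit 76) (nat_lit 23669090381) (nat_lit 76) (nat_lit 6464368907)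 (nat_lit 9) (nat_lit 4) (nat_lit 10) (nat_lit 5) (nat_lit 10) (nat_lit 4) (nat_lit 346) (nat_lit 301) (nat_lit 253)) (XT.lf (nat_lit 0) (nat_lit 30607621844) (nat_lit 76) (nat_lit 17383960063) (nat_lit 76) (nat_lit 146736545) (nat_lit 9) (nat_lit 4) (nat_lit 10) (nat_lit 5) (nat_lit 10) (nat_lit 4) (nat_lit 347) (nat_lit 301) (nat_lit 252)))) (XT.nd (nat_lit 156) (nat_lit 0) (nat_lit 0) (XT.nd (nat_lit 78) (nat_lit 76) (nat_lit 0) (XT.lf (nat_lit 0) (nat_lit 6315807859) (nat_lit 152) (nat_lit 4130437656) (nat_lit 76) (nat_lit 40917425537) (nat_lit 8) (nat_lit 5) (nat_lit 10) (nat_lit 5) (nat_lit 9) (nat_lit 4) (nat_lit 348) (nat_lit 301) (nat_lit 251)) (XT.lf (nat_lit 0) (nat_lit 10833523494) (nat_lit 76) (nat_lit 2689893218) (nat_lit 152) (nat_lit 41304464234) (nat_lit 7) (nat_lit 5) (nat_lit 8) (nat_lit 5) (nat_lit 9) (nat_lit 4) (nat_lit 349) (nat_lit 301) (nat_lit 250))) (XT.nd (nat_lit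 78) (nat_lit 0) (nat_lit 0) (XT.lf (nat_lit 0) (nat_lit 21535929547) (nat_lit 152) (nat_lit 31517065575) (nat_lit 0) (nat_lit 5497980991) (nat_lit 7) (nat_lit 5) (nat_lit 9) (nat_lit 4) (nat_lit 7) (nat_lit 4) (nat_lit 350) (nat_lit 301) (nat_lit 249)) (XT.lf (nat_lit 0) (nat_lit 30236770718) (nat_lit 152) (nat_lit 18154671380) (nat_lit 0) (nat_lit 14176701816) (nat_lit 7) (nat_lit 5) (nat_lit 9) (nat_lit 4) (nat_lit 7) (nat_lit 4) (nat_lit 351) (nat_lit 301) (nat_lit 248))))) (XT.nd (nat_lit 312) (nat_lit 152) (nat_lit 0) (XT.nd (nat_lit 156) (nat_lit 0) (nat_lit 0) (XT.nd (nat_lit 78) (nat_lit 76) (nat_lit 0) (XT.lf (nat_lit 0) (nat_lit 39612808768) (nat_lit 152) (nat_lit 3763298314) (nat_lit 0) (nat_lit 23532258065) (nat_lit 7) (nat_lit 5) (nat_lit 9) (nat_lit 4) (nat_lit 7) (nat_lit 4) (nat_lit 352) (nat_lit 301) (nat_lit 247)) (XT.lf (nat_lit 0) (nat_lit 12360666430) (nat_lit 76)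 (nat_lit 37656213301) (nat_lit 76) (nat_lit 21556697966) (nat_lit 6) (nat_lit 4) (nat_lit 7) (nat_lit 5) (nat_lit 7) (nat_lit 4) (nat_lit 353) (nat_lit 301) (nat_lit 246))) (XT.nd (nat_lit 78) (nat_lit 0) (nat_lit 0) (XT.lf (nat_lit 0) (nat_lit 29952459644) (nat_lit 76) (nat_lit 31384950490) (nat_lit 76) (nat_lit 15267875311) (nat_lit 6) (nat_lit 4) (nat_lit 7) (nat_lit 5) (nat_lit 7) (nat_lit 4) (nat_lit 354) (nat_lit 301) (nat_lit 245)) (XT.lf (nat_lit 0) (nat_lit 48918160371) (nat_lit 76) (nat_lit 24628050856) (nat_lit 76) (nat_lit 8494716563) (nat_lit 6) (nat_lit 4) (nat_lit 7) (nat_lit 5) (nat_lit 7) (nat_lit 4) (nat_lit 355) (nat_lit 301) (nat_lit 244)))) (XT.nd (nat_lit 156) (nat_lit 76) (nat_lit 0) (XT.nd (nat_lit 78) (nat_lit 76) (nat_lit 0) (XT.lf (nat_lit 0) (nat_lit 69370157949) (nat_lit 76) (nat_lit 17345473512) (nat_lit 76) (nat_lit 1197084483) (nat_lit 6) (nat_lit 4) (nat_lit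 7) (nat_lit 5) (nat_lit 7) (nat_lit 4) (nat_lit 356) (nat_lit 301) (nat_lit 243)) (XT.lf (nat_lit 0) (nat_lit 6334692474) (nat_lit 152) (nat_lit 2986168251) (nat_lit 76) (nat_lit 84921755208) (nat_lit 5) (nat_lit 5) (nat_lit 7) (nat_lit 5) (nat_lit 6) (nat_lit 4) (nat_lit 357) (nat_lit 301) (nat_lit 242))) (XT.nd (nat_lit 78) (nat_lit 0) (nat_lit 0) (XT.lf (nat_lit 0) (nat_lit 14480730407) (nat_lit 76) (nat_lit 257714792) (nat_lit 152) (nat_lit 86311252747) (nat_lit 4) (nat_lit 5) (nat_lit 5) (nat_lit 5) (nat_lit 6) (nat_lit 4) (nat_lit 358) (nat_lit 301) (nat_lit 241)) (XT.nd (nat_lit 78) (nat_lit 0) (nat_lit 0) (XT.lf (nat_lit 0) (nat_lit 24113419150) (nat_lit 152) (nat_lit 75138735830) (nat_lit 0) (nat_lit 9125283463) (nat_lit 4) (nat_lit 5) (nat_lit 6) (nat_lit 4) (nat_lit 4) (nat_lit 4) (nat_lit 359) (nat_lit 301) (nat_lit 240)) (XT.lf (nat_lit 0) (nat_lit 34232070863) (nat_lit 152)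 (nat_lit 62826148946) (nat_lit 0) (nat_lit 19233689176) (nat_lit 4) (nat_lit 5) (nat_lit 6) (nat_lit 4) (nat_lit 4) (nat_lit 4) (nat_lit 360) (nat_lit 301) (nat_lit 239))))))) (XT.nd (nat_lit 624) (nat_lit 76) (nat_lit 0) (XT.nd (nat_lit 312) (nat_lit 76) (nat_lit 0) (XT.nd (nat_lit 156) (nat_lit 0) (nat_lit 0) (XT.nd (nat_lit 78) (nat_lit 0) (nat_lit 0) (XT.lf (nat_lit 0) (nat_lit 45148164671) (nat_lit 152) (nat_lit 49552045363) (nat_lit 0) (nat_lit 30140295946) (nat_lit 4) (nat_lit 5) (nat_lit 6) (nat_lit 4) (nat_lit 4) (nat_lit 4) (nat_lit 361) (nat_lit 301) (nat_lit 238)) (XT.lf (nat_lit 0) (nat_lit 56926388536) (nat_lit 152) (nat_lit 35237763725) (nat_lit 0) (nat_lit 41909735518) (nat_lit 4) (nat_lit 5) (nat_lit 6) (nat_lit 4) (nat_lit 4) (nat_lit 4) (nat_lit 362) (nat_lit 301) (nat_lit 237))) (XT.nd (nat_lit 78) (nat_lit 0) (nat_lit 0) (XT.lf (nat_lit 0) (nat_lit 69636539342) (nat_lit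 152) (nat_lit 19798478660) (nat_lit 0) (nat_lit 54611752718) (nat_lit 4) (nat_lit 5) (nat_lit 6) (nat_lit 4) (nat_lit 4) (nat_lit 4) (nat_lit 363) (nat_lit 301) (nat_lit 236)) (XT.lf (nat_lit 0) (nat_lit 83353936500) (nat_lit 152) (nat_lit 3142698109) (nat_lit 0) (nat_lit 68321618761) (nat_lit 4) (nat_lit 5) (nat_lit 6) (nat_lit 4) (nat_lit 4) (nat_lit 4) (nat_lit 364) (nat_lit 301) (nat_lit 235)))) (XT.nd (nat_lit 156) (nat_lit 0) (nat_lit 0) (XT.nd (nat_lit 78) (nat_lit 0) (nat_lit 0) (XT.lf (nat_lit 0) (nat_lit 15609109737) (nat_lit 76) (nat_lit 82926158017) (nat_lit 76) (nat_lit 67886867022) (nat_lit 3) (nat_lit 4) (nat_lit 4) (nat_lit 5) (nat_lit 4) (nat_lit 4) (nat_lit 365) (nat_lit 301) (nat_lit 234)) (XT.lf (nat_lit 0) (nat_lit 36022961316) (nat_lit 76) (nat_lit 78985465336) (nat_lit 76) (nat_lit 63939717623) (nat_lit 3) (nat_lit 4) (nat_lit 4) (nat_lit 5) (nat_lit 4) (nat_lit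 4) (nat_lit 366) (nat_lit 301) (nat_lit 233))) (XT.nd (nat_lit 78) (nat_lit 0) (nat_lit 0) (XT.lf (nat_lit 0) (nat_lit 58054338688) (nat_lit 76) (nat_lit 74737131249) (nat_lit 76) (nat_lit 59685405093) (nat_lit 3) (nat_lit 4) (nat_lit 4) (nat_lit 5) (nat_lit 4) (nat_lit 4) (nat_lit 367) (nat_lit 301) (nat_lit 232)) (XT.lf (nat_lit 0) (nat_lit 81833798162) (nat_lit 76) (nat_lit 70155980442) (nat_lit 76) (nat_lit 55098718691) (nat_lit 3) (nat_lit 4) (nat_lit 4) (nat_lit 5) (nat_lit 4) (nat_lit 4) (nat_lit 368) (nat_lit 301) (nat_lit 231))))) (XT.nd (nat_lit 312) (nat_lit 76) (nat_lit 0) (XT.nd (nat_lit 156) (nat_lit 0) (nat_lit 0) (XT.nd (nat_lit 78) (nat_lit 0) (nat_lit 0) (XT.lf (nat_lit 0) (nat_lit 107502255054) (nat_lit 76) (nat_lit 65214865355) (nat_lit 76) (nat_lit 50152478053) (nat_lit 3) (nat_lit 4) (nat_lit 4) (nat_lit 5) (nat_lit 4) (nat_lit 4) (nat_lit 369) (nat_lit 301) (nat_lit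 230)) (XT.lf (nat_lit 0) (nat_lit 135211818738) (nat_lit 76) (nat_lit 59884505306) (nat_lit 76) (nat_lit 44817372124) (nat_lit 3) (nat_lit 4) (nat_lit 4) (nat_lit 5) (nat_lit 4) (nat_lit 4) (nat_lit 370) (nat_lit 301) (nat_lit 229))) (XT.nd (nat_lit 78) (nat_lit 0) (nat_lit 0) (XT.lf (nat_lit 0) (nat_lit 165126694036) (nat_lit 76) (nat_lit 54133312976) (nat_lit 76) (nat_lit 39061785460) (nat_lit 3) (nat_lit 4) (nat_lit 4) (nat_lit 5) (nat_lit 4) (nat_lit 4) (nat_lit 371) (nat_lit 301) (nat_lit 228)) (XT.lf (nat_lit 0) (nat_lit 197424154283) (nat_lit 76) (nat_lit 47927207226) (nat_lit 76) (nat_lit 32851610883) (nat_lit 3) (nat_lit 4) (nat_lit 4) (nat_lit 5) (nat_lit 4) (nat_lit 4) (nat_lit 372) (nat_lit 301) (nat_lit 227)))) (XT.nd (nat_lit 156) (nat_lit 76) (nat_lit 0) (XT.nd (nat_lit 78) (nat_lit 0) (nat_lit 0) (XT.lf (nat_lit 0) (nat_lit 232295591836) (nat_lit 76) (nat_lit 41229411132)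 (nat_lit 76) (nat_lit 26150047356) (nat_lit 3) (nat_lit 4) (nat_lit 4) (nat_lit 5) (nat_lit 4) (nat_lit 4) (nat_lit 373) (nat_lit 301) (nat_lit 226)) (XT.lf (nat_lit 0) (nat_lit 269947652251) (nat_lit 76) (nat_lit 34000234052) (nat_lit 76) (nat_lit 18917381912) (nat_lit 3) (nat_lit 4) (nat_lit 4) (nat_lit 5) (nat_lit 4) (nat_lit 4) (nat_lit 374) (nat_lit 301) (nat_lit 225))) (XT.nd (nat_lit 78) (nat_lit 76) (nat_lit 0) (XT.lf (nat_lit 0) (nat_lit 310603458850) (nat_lit 76) (nat_lit 26196836416) (nat_lit 76) (nat_lit 11110754310) (nat_lit 3) (nat_lit 4) (nat_lit 4) (nat_lit 5) (nat_lit 4) (nat_lit 4) (nat_lit 375) (nat_lit 301) (nat_lit 224)) (XT.nd (nat_lit 78) (nat_lit 76) (nat_lit 0) (XT.lf (nat_lit 0) (nat_lit 354503934929) (nat_lit 76) (nat_lit 17772975870) (nat_lit 76) (nat_lit 2683903053) (nat_lit 3) (nat_lit 4) (nat_lit 4) (nat_lit 5) (nat_lit 4) (nat_lit 4) (nat_lit 376) (nat_lit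 301) (nat_lit 223)) (XT.lf (nat_lit 0) (nat_lit 6092299080) (nat_lit 152) (nat_lit 2419859905) (nat_lit 76) (nat_lit 395650358126) (nat_lit 2) (nat_lit 5) (nat_lit 4) (nat_lit 5) (nat_lit 3) (nat_lit 4) (nat_lit 377) (nat_lit 301) (nat_lit 222))))))))
noncomputable def xc101 : XT := (XT.nd (nat_lit 1326) (nat_lit 0) (nat_lit 0) (XT.nd (nat_lit 624) (nat_lit 0) (nat_lit 0) (XT.nd (nat_lit 312) (nat_lit 0) (nat_lit 0) (XT.nd (nat_lit 156) (nat_lit 0) (nat_lit 0) (XT.nd (nat_lit 78) (nat_lit 0) (nat_lit 0) (XT.lf (nat_lit 0) (nat_lit 15900773261) (nat_lit 152) (nat_lit 417831522153) (nat_lit 0) (nat_lit 1924471368) (nat_lit 1) (nat_lit 5) (nat_lit 3) (nat_lit 4) (nat_lit 1) (nat_lit 4) (nat_lit 378) (nat_lit 301) (nat_lit 221)) (XT.lf (nat_lit 0) (nat_lit 26779414484) (nat_lit 152) (nat_lit 430067389599) (nat_lit 0) (nat_lit 12800914330) (nat_lit 1) (nat_lit 5) (nat_lit 3) (nat_lit 4) (nat_lit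 1) (nat_lit 4) (nat_lit 379) (nat_lit 301) (nat_lit 220))) (XT.nd (nat_lit 78) (nat_lit 0) (nat_lit 0) (XT.lf (nat_lit 0) (nat_lit 38525117638) (nat_lit 152) (nat_lit 443288505859) (nat_lit 0) (nat_lit 24544582058) (nat_lit 1) (nat_lit 5) (nat_lit 3) (nat_lit 4) (nat_lit 1) (nat_lit 4) (nat_lit 380) (nat_lit 301) (nat_lit 219)) (XT.lf (nat_lit 0) (nat_lit 51207486890) (nat_lit 152) (nat_lit 457573218289) (nat_lit 0) (nat_lit 37225066655) (nat_lit 1) (nat_lit 5) (nat_lit 3) (nat_lit 4) (nat_lit 1) (nat_lit 4) (nat_lit 381) (nat_lit 301) (nat_lit 218)))) (XT.nd (nat_lit 156) (nat_lit 0) (nat_lit 0) (XT.nd (nat_lit 78) (nat_lit 0) (nat_lit 0) (XT.lf (nat_lit 0) (nat_lit 64901677021) (nat_lit 152) (nat_lit 473006177036) (nat_lit 0) (nat_lit 50917511736) (nat_lit 1) (nat_lit 5) (nat_lit 3) (nat_lit 4) (nat_lit 1) (nat_lit 4) (nat_lit 382) (nat_lit 301) (nat_lit 217)) (XT.lf (nat_lit 0) (nat_lit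 79688838787) (nat_lit 152) (nat_lit 489678836672) (nat_lit 0) (nat_lit 65703057715) (nat_lit 1) (nat_lit 5) (nat_lit 3) (nat_lit 4) (nat_lit 1) (nat_lit 4) (nat_lit 383) (nat_lit 301) (nat_lit 216))) (XT.nd (nat_lit 78) (nat_lit 0) (nat_lit 0) (XT.lf (nat_lit 0) (nat_lit 95656599814) (nat_lit 152) (nat_lit 507689998142) (nat_lit 0) (nat_lit 81669322642) (nat_lit 1) (nat_lit 5) (nat_lit 3) (nat_lit 4) (nat_lit 1) (nat_lit 4) (nat_lit 384) (nat_lit 301) (nat_lit 215)) (XT.lf (nat_lit 0) (nat_lit 112899583870) (nat_lit 152) (nat_lit 527146394254) (nat_lit 0) (nat_lit 98910921420) (nat_lit 1) (nat_lit 5) (nat_lit 3) (nat_lit 4) (nat_lit 1) (nat_lit 4) (nat_lit 385) (nat_lit 301) (nat_lit 214))))) (XT.nd (nat_lit 312) (nat_lit 0) (nat_lit 0) (XT.nd (nat_lit 156) (nat_lit 0) (nat_lit 0) (XT.nd (nat_lit 78) (nat_lit 0) (nat_lit 0) (XT.lf (nat_lit 0) (nat_lit 131519971601) (nat_lit 152) (nat_lit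 548163322171) (nat_lit 0) (nat_lit 117530026488) (nat_lit 1) (nat_lit 5) (nat_lit 3) (nat_lit 4) (nat_lit 1) (nat_lit 4) (nat_lit 386) (nat_lit 301) (nat_lit 213)) (XT.lf (nat_lit 0) (nat_lit 151628106047) (nat_lit 152) (nat_lit 570865326651) (nat_lit 0) (nat_lit 137636973282) (nat_lit 1) (nat_lit 5) (nat_lit 3) (nat_lit 4) (nat_lit 1) (nat_lit 4) (nat_lit 387) (nat_lit 301) (nat_lit 212))) (XT.nd (nat_lit 78) (nat_lit 0) (nat_lit 0) (XT.lf (nat_lit 0) (nat_lit 173343146523) (nat_lit 152) (nat_lit 595386938091) (nat_lit 0) (nat_lit 159350914080) (nat_lit 1) (nat_lit 5) (nat_lit 3) (nat_lit 4) (nat_lit 1) (nat_lit 4) (nat_lit 388) (nat_lit 301) (nat_lit 211)) (XT.lf (nat_lit 0) (nat_lit 196793774749) (nat_lit 152) (nat_lit 621873469743) (nat_lit 0) (nat_lit 182800524085) (nat_lit 1) (nat_lit 5) (nat_lit 3) (nat_lit 4) (nat_lit 1) (nat_lit 4) (nat_lit 389) (nat_lit 301) (nat_lit 210))))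 (XT.nd (nat_lit 156) (nat_lit 0) (nat_lit 0) (XT.nd (nat_lit 78) (nat_lit 0) (nat_lit 0) (XT.lf (nat_lit 0) (nat_lit 222118957411) (nat_lit 152) (nat_lit 650481878833) (nat_lit 0) (nat_lit 208124763952) (nat_lit 1) (nat_lit 5) (nat_lit 3) (nat_lit 4) (nat_lit 1) (nat_lit 4) (nat_lit 390) (nat_lit 301) (nat_lit 209)) (XT.lf (nat_lit 0) (nat_lit 249468769667) (nat_lit 152) (nat_lit 681381696673) (nat_lit 0) (nat_lit 235473703248) (nat_lit 1) (nat_lit 5) (nat_lit 3) (nat_lit 4) (nat_lit 1) (nat_lit 4) (nat_lit 391) (nat_lit 301) (nat_lit 208))) (XT.nd (nat_lit 78) (nat_lit 0) (nat_lit 0) (XT.lf (nat_lit 0) (nat_lit 279005284477) (nat_lit 152) (nat_lit 714756033296) (nat_lit 0) (nat_lit 265009409762) (nat_lit 1) (nat_lit 5) (nat_lit 3) (nat_lit 4) (nat_lit 1) (nat_lit 4) (nat_lit 392) (nat_lit 301) (nat_lit 207)) (XT.nd (nat_lit 78) (nat_lit 0) (nat_lit 0) (XT.lf (nat_lit 0) (nat_lit 310903533040)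 (nat_lit 152) (nat_lit 750802662547) (nat_lit 0) (nat_lit 296906909903) (nat_lit 1) (nat_lit 5) (nat_lit 3) (nat_lit 4) (nat_lit 1) (nat_lit 4) (nat_lit 393) (nat_lit 301) (nat_lit 206)) (XT.lf (nat_lit 0) (nat_lit 345352542016) (nat_lit 152) (nat_lit 789735194082) (nat_lit 0) (nat_lit 331355225895) (nat_lit 1) (nat_lit 5) (nat_lit 3) (nat_lit 4) (nat_lit 1) (nat_lit 4) (nat_lit 394) (nat_lit 301) (nat_lit 205))))))) (XT.nd (nat_lit 624) (nat_lit 0) (nat_lit 0) (XT.nd (nat_lit 312) (nat_lit 0) (nat_lit 0) (XT.nd (nat_lit 156) (nat_lit 0) (nat_lit 0) (XT.nd (nat_lit 78) (nat_lit 0) (nat_lit 0) (XT.lf (nat_lit 0) (nat_lit 382556453678) (nat_lit 152) (nat_lit 831784339198) (nat_lit 0) (nat_lit 368558495905) (nat_lit 1) (nat_lit 5) (nat_lit 3) (nat_lit 4) (nat_lit 1) (nat_lit 4) (nat_lit 395) (nat_lit 301) (nat_lit 204)) (XT.lf (nat_lit 0) (nat_lit 422735735651) (nat_lit 152) (nat_lit 877199278016)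 (nat_lit 0) (nat_lit 408737183757) (nat_lit 1) (nat_lit 5) (nat_lit 3) (nat_lit 4) (nat_lit 1) (nat_lit 4) (nat_lit 396) (nat_lit 301) (nat_lit 203))) (XT.nd (nat_lit 78) (nat_lit 0) (nat_lit 0) (XT.lf (nat_lit 0) (nat_lit 466128487385) (nat_lit 152) (nat_lit 926249136097) (nat_lit 0) (nat_lit 452129385379) (nat_lit 1) (nat_lit 5) (nat_lit 3) (nat_lit 4) (nat_lit 1) (nat_lit 4) (nat_lit 397) (nat_lit 301) (nat_lit 202)) (XT.lf (nat_lit 0) (nat_lit 512991851112) (nat_lit 152) (nat_lit 979224579268) (nat_lit 0) (nat_lit 498992239742) (nat_lit 1) (nat_lit 5) (nat_lit 3) (nat_lit 4) (nat_lit 1) (nat_lit 4) (nat_lit 398) (nat_lit 301) (nat_lit 201)))) (XT.nd (nat_lit 156) (nat_lit 0) (nat_lit 0) (XT.nd (nat_lit 78) (nat_lit 0) (nat_lit 0) (XT.lf (nat_lit 0) (nat_lit 563603535654) (nat_lit 152) (nat_lit 1036439536081) (nat_lit 0) (nat_lit 549603452651) (nat_lit 1) (nat_lit 5) (nat_lit 3) (nat_lit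 4) (nat_lit 1) (nat_lit 4) (nat_lit 399) (nat_lit 301) (nat_lit 200)) (XT.lf (nat_lit 0) (nat_lit 618263462105) (nat_lit 152) (nat_lit 1098233058132) (nat_lit 0) (nat_lit 604262942404) (nat_lit 1) (nat_lit 5) (nat_lit 3) (nat_lit 4) (nat_lit 1) (nat_lit 4) (nat_lit 400) (nat_lit 301) (nat_lit 199))) (XT.nd (nat_lit 78) (nat_lit 0) (nat_lit 0) (XT.lf (nat_lit 0) (nat_lit 677295541139) (nat_lit 152) (nat_lit 1164971329256) (nat_lit 0) (nat_lit 663294617089) (nat_lit 1) (nat_lit 5) (nat_lit 3) (nat_lit 4) (nat_lit 1) (nat_lit 4) (nat_lit 401) (nat_lit 301) (nat_lit 198)) (XT.lf (nat_lit 0) (nat_lit 741049592485) (nat_lit 152) (nat_lit 1237049835502) (nat_lit 0) (nat_lit 727048294038) (nat_lit 1) (nat_lit 5) (nat_lit 3) (nat_lit 4) (nat_lit 1) (nat_lit 4) (nat_lit 402) (nat_lit 301) (nat_lit 197))))) (XT.nd (nat_lit 312) (nat_lit 0) (nat_lit 0) (XT.nd (nat_lit 156) (nat_lit 0) (nat_lit 0)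 (XT.nd (nat_lit 78) (nat_lit 0) (nat_lit 0) (XT.lf (nat_lit 0) (nat_lit 809903417928) (nat_lit 152) (nat_lit 1314895708761) (nat_lit 0) (nat_lit 795901772816) (nat_lit 1) (nat_lit 5) (nat_lit 3) (nat_lit 4) (nat_lit 1) (nat_lit 4) (nat_lit 403) (nat_lit 301) (nat_lit 196)) (XT.lf (nat_lit 0) (nat_lit 884265040137) (nat_lit 152) (nat_lit 1398970257911) (nat_lit 0) (nat_lit 870263074040) (nat_lit 1) (nat_lit 5) (nat_lit 3) (nat_lit 4) (nat_lit 1) (nat_lit 4) (nat_lit 404) (nat_lit 301) (nat_lit 195))) (XT.nd (nat_lit 78) (nat_lit 0) (nat_lit 0) (XT.lf (nat_lit 0) (nat_lit 964575120578) (nat_lit 152) (nat_lit 1489771702502) (nat_lit 0) (nat_lit 950572857272) (nat_lit 1) (nat_lit 5) (nat_lit 3) (nat_lit 4) (nat_lit 1) (nat_lit 4) (nat_lit 405) (nat_lit 301) (nat_lit 194)) (XT.lf (nat_lit 0) (nat_lit 1051309570838) (nat_lit 152) (nat_lit 1587838125169) (nat_lit 0) (nat_lit 1037307032339) (nat_lit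 1) (nat_lit 5) (nat_lit 3) (nat_lit 4) (nat_lit 1) (nat_lit 4) (nat_lit 406) (nat_lit 301) (nat_lit 193)))) (XT.nd (nat_lit 156) (nat_lit 0) (nat_lit 0) (XT.nd (nat_lit 78) (nat_lit 0) (nat_lit 0) (XT.lf (nat_lit 0) (nat_lit 1144982372844) (nat_lit 152) (nat_lit 1693750660269) (nat_lit 0) (nat_lit 1130979579537) (nat_lit 1) (nat_lit 5) (nat_lit 3) (nat_lit 4) (nat_lit 1) (nat_lit 4) (nat_lit 407) (nat_lit 301) (nat_lit 192)) (XT.lf (nat_lit 0) (nat_lit 1246148624683) (nat_lit 152) (nat_lit 1808136937638) (nat_lit 0) (nat_lit 1232145595442) (nat_lit 1) (nat_lit 5) (nat_lit 3) (nat_lit 4) (nat_lit 1) (nat_lit 4) (nat_lit 408) (nat_lit 301) (nat_lit 191))) (XT.nd (nat_lit 78) (nat_lit 0) (nat_lit 0) (XT.lf (nat_lit 0) (nat_lit 1355407830070) (nat_lit 152) (nat_lit 1931674801884) (nat_lit 0) (nat_lit 1341404582371) (nat_lit 1) (nat_lit 5) (nat_lit 3) (nat_lit 4) (nat_lit 1) (nat_lit 4) (nat_lit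 409) (nat_lit 301) (nat_lit 190)) (XT.nd (nat_lit 78) (nat_lit 0) (nat_lit 0) (XT.lf (nat_lit 0) (nat_lit 1473407450961) (nat_lit 152) (nat_lit 2065096329240) (nat_lit 0) (nat_lit 1459404000987) (nat_lit 1) (nat_lit 5) (nat_lit 3) (nat_lit 4) (nat_lit 1) (nat_lit 4) (nat_lit 410) (nat_lit 301) (nat_lit 189)) (XT.lf (nat_lit 0) (nat_lit 1600846744371) (nat_lit 152) (nat_lit 2209192165793) (nat_lit 0) (nat_lit 1586843107104) (nat_lit 1) (nat_lit 5) (nat_lit 3) (nat_lit 4) (nat_lit 1) (nat_lit 4) (nat_lit 411) (nat_lit 301) (nat_lit 188))))))))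
noncomputable def xc102 : XT := (XT.nd (nat_lit 39468) (nat_lit 0) (nat_lit 1216) (XT.nd (nat_lit 38766) (nat_lit 0) (nat_lit 2888) (XT.nd (nat_lit 38454) (nat_lit 0) (nat_lit 4636) (XT.nd (nat_lit 38298) (nat_lit 0) (nat_lit 4940) (XT.nd (nat_lit 78) (nat_lit 0) (nat_lit 0) (XT.lf (nat_lit 0) (nat_lit 1738480906110) (nat_lit 152) (nat_lit 2364816212797) (nat_lit 0) (nat_lit 1724477095426) (nat_lit 1) (nat_lit 5) (nat_lit 3) (nat_lit 4) (nat_lit 1) (nat_lit 4) (nat_lit 412) (nat_lit 301) (nat_lit 187)) (XT.lf (nat_lit 0) (nat_lit 1887125546028) (nat_lit 152) (nat_lit 2532890686827) (nat_lit 0) (nat_lit 1873121574771) (nat_lit 1) (nat_lit 5) (nat_lit 3) (nat_lit 4) (nat_lit 1) (nat_lit 4) (nat_lit 413) (nat_lit 301) (nat_lit 186))) (XT.nd (nat_lit 78) (nat_lit 228) (nat_lit 0) (XT.lf (nat_lit 0) (nat_lit 2216105837) (nat_lit 228) (nat_lit 531185098) (nat_lit 228) (nat_lit 531185098) (nat_lit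 69) (nat_lit 3) (nat_lit 72) (nat_lit 3) (nat_lit 72) (nat_lit 5) (nat_lit 302) (nat_lit 302) (nat_lit 296)) (XT.lf (nat_lit 0) (nat_lit 269675982) (nat_lit 228) (nat_lit 4492443909) (nat_lit 304) (nat_lit 1863516278) (nat_lit 66) (nat_lit 5) (nat_lit 69) (nat_lit 3) (nat_lit 70) (nat_lit 5) (nat_lit 303) (nat_lit 302) (nat_lit 295)))) (XT.nd (nat_lit 156) (nat_lit 304) (nat_lit 0) (XT.nd (nat_lit 78) (nat_lit 0) (nat_lit 0) (XT.lf (nat_lit 0) (nat_lit 2535772032) (nat_lit 228) (nat_lit 1250199868) (nat_lit 304) (nat_lit 2926668671) (nat_lit 66) (nat_lit 5) (nat_lit 69) (nat_lit 3) (nat_lit 70) (nat_lit 5) (nat_lit 304) (nat_lit 302) (nat_lit 294)) (XT.lf (nat_lit 76) (nat_lit 2231980321) (nat_lit 0) (nat_lit 2587369418) (nat_lit 304) (nat_lit 2001132310) (nat_lit 67) (nat_lit 5) (nat_lit 66) (nat_lit 5) (nat_lit 70) (nat_lit 5) (nat_lit 305) (nat_lit 302) (nat_lit 293))) (XT.nd (nat_lit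 78) (nat_lit 0) (nat_lit 76) (XT.lf (nat_lit 0) (nat_lit 155853986) (nat_lit 304) (nat_lit 1019175079) (nat_lit 380) (nat_lit 5775942410) (nat_lit 62) (nat_lit 5) (nat_lit 66) (nat_lit 5) (nat_lit 67) (nat_lit 5) (nat_lit 306) (nat_lit 302) (nat_lit 292)) (XT.lf (nat_lit 0) (nat_lit 2262739131) (nat_lit 304) (nat_lit 4317348483) (nat_lit 76) (nat_lit 517431029) (nat_lit 63) (nat_lit 5) (nat_lit 67) (nat_lit 5) (nat_lit 64) (nat_lit 5) (nat_lit 307) (nat_lit 302) (nat_lit 291))))) (XT.nd (nat_lit 312) (nat_lit 1064) (nat_lit 0) (XT.nd (nat_lit 156) (nat_lit 456) (nat_lit 0) (XT.nd (nat_lit 78) (nat_lit 304) (nat_lit 0) (XT.lf (nat_lit 0) (nat_lit 4415223961) (nat_lit 304) (nat_lit 485921872) (nat_lit 76) (nat_lit 2365047461) (nat_lit 63) (nat_lit 5) (nat_lit 67) (nat_lit 5) (nat_lit 64) (nat_lit 5) (nat_lit 308) (nat_lit 302) (nat_lit 290)) (XT.lf (nat_lit 0) (nat_lit 3705394413) (nat_lit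 304) (nat_lit 2955052795) (nat_lit 380) (nat_lit 794797114) (nat_lit 59) (nat_lit 5) (nat_lit 63) (nat_lit 5) (nat_lit 64) (nat_lit 5) (nat_lit 309) (nat_lit 302) (nat_lit 289))) (XT.nd (nat_lit 78) (nat_lit 0) (nat_lit 0) (XT.lf (nat_lit 0) (nat_lit 451527367) (nat_lit 380) (nat_lit 763725196) (nat_lit 456) (nat_lit 6453017177) (nat_lit 53) (nat_lit 5) (nat_lit 58) (nat_lit 5) (nat_lit 59) (nat_lit 5) (nat_lit 310) (nat_lit 302) (nat_lit 288)) (XT.lf (nat_lit 0) (nat_lit 3332528273) (nat_lit 456) (nat_lit 2897254097) (nat_lit 76) (nat_lit 1668171573) (nat_lit 53) (nat_lit 5) (nat_lit 59) (nat_lit 5) (nat_lit 54) (nat_lit 5) (nat_lit 311) (nat_lit 302) (nat_lit 287)))) (XT.nd (nat_lit 156) (nat_lit 608) (nat_lit 0) (XT.nd (nat_lit 78) (nat_lit 0) (nat_lit 0) (XT.lf (nat_lit 0) (nat_lit 1696201441) (nat_lit 456) (nat_lit 3840671930) (nat_lit 532) (nat_lit 2616110838) (nat_lit 47) (nat_lit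 5) (nat_lit 53) (nat_lit 5) (nat_lit 54) (nat_lit 5) (nat_lit 312) (nat_lit 302) (nat_lit 286)) (XT.lf (nat_lit 0) (nat_lit 6688755555) (nat_lit 456) (nat_lit 1172469415) (nat_lit 532) (nat_lit 572056913) (nat_lit 47) (nat_lit 5) (nat_lit 53) (nat_lit 5) (nat_lit 54) (nat_lit 5) (nat_lit 313) (nat_lit 302) (nat_lit 285))) (XT.nd (nat_lit 78) (nat_lit 228) (nat_lit 0) (XT.lf (nat_lit 0) (nat_lit 1549178941) (nat_lit 380) (nat_lit 5439067820) (nat_lit 76) (nat_lit 1745278688) (nat_lit 42) (nat_lit 5) (nat_lit 47) (nat_lit 5) (nat_lit 43) (nat_lit 5) (nat_lit 314) (nat_lit 302) (nat_lit 284)) (XT.nd (nat_lit 78) (nat_lit 228) (nat_lit 0) (XT.lf (nat_lit 0) (nat_lit 3765905671) (nat_lit 380) (nat_lit 401821186) (nat_lit 76) (nat_lit 4892621072) (nat_lit 42) (nat_lit 5) (nat_lit 47) (nat_lit 5) (nat_lit 43) (nat_lit 5) (nat_lit 315) (nat_lit 302) (nat_lit 283)) (XT.lf (nat_lit 0) (nat_lit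 5170118471) (nat_lit 228) (nat_lit 1000588750) (nat_lit 304) (nat_lit 3242012969) (nat_lit 39) (nat_lit 5) (nat_lit 42) (nat_lit 5) (nat_lit 43) (nat_lit 5) (nat_lit 316) (nat_lit 302) (nat_lit 282))))))) (XT.nd (nat_lit 624) (nat_lit 608) (nat_lit 0) (XT.nd (nat_lit 312) (nat_lit 608) (nat_lit 0) (XT.nd (nat_lit 156) (nat_lit 152) (nat_lit 0) (XT.nd (nat_lit 78) (nat_lit 76) (nat_lit 0) (XT.lf (nat_lit 0) (nat_lit 1292191262) (nat_lit 228) (nat_lit 7467711454) (nat_lit 304) (nat_lit 1034262173) (nat_lit 36) (nat_lit 5) (nat_lit 39) (nat_lit 5) (nat_lit 40) (nat_lit 5) (nat_lit 317) (nat_lit 302) (nat_lit 281)) (XT.lf (nat_lit 0) (nat_lit 1321070262) (nat_lit 304) (nat_lit 2881965648) (nat_lit 76) (nat_lit 5997620397) (nat_lit 35) (nat_lit 5) (nat_lit 39) (nat_lit 5) (nat_lit 36) (nat_lit 5) (nat_lit 318) (nat_lit 302) (nat_lit 280))) (XT.nd (nat_lit 78) (nat_lit 0) (nat_lit 0) (XT.lf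 (nat_lit 0) (nat_lit 3195933821) (nat_lit 152) (nat_lit 591266772) (nat_lit 228) (nat_lit 6852250717) (nat_lit 33) (nat_lit 5) (nat_lit 35) (nat_lit 5) (nat_lit 36) (nat_lit 5) (nat_lit 319) (nat_lit 302) (nat_lit 279)) (XT.lf (nat_lit 0) (nat_lit 6516168277) (nat_lit 228) (nat_lit 1393341407) (nat_lit 76) (nat_lit 3198775411) (nat_lit 33) (nat_lit 5) (nat_lit 36) (nat_lit 5) (nat_lit 34) (nat_lit 5) (nat_lit 320) (nat_lit 302) (nat_lit 278)))) (XT.nd (nat_lit 156) (nat_lit 152) (nat_lit 0) (XT.nd (nat_lit 78) (nat_lit 228) (nat_lit 0) (XT.lf (nat_lit 0) (nat_lit 5270025089) (nat_lit 228) (nat_lit 4247668956) (nat_lit 304) (nat_lit 2092757968) (nat_lit 30) (nat_lit 5) (nat_lit 33) (nat_lit 5) (nat_lit 34) (nat_lit 5) (nat_lit 321) (nat_lit 302) (nat_lit 277)) (XT.lf (nat_lit 0) (nat_lit 273275419) (nat_lit 152) (nat_lit 262114403) (nat_lit 228) (nat_lit 11619642923) (nat_lit 27) (nat_lit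 5) (nat_lit 29) (nat_lit 5) (nat_lit 30) (nat_lit 5) (nat_lit 322) (nat_lit 302) (nat_lit 276))) (XT.nd (nat_lit 78) (nat_lit 152) (nat_lit 0) (XT.lf (nat_lit 0) (nat_lit 3452065798) (nat_lit 228) (nat_lit 5232372307) (nat_lit 76) (nat_lit 4039217594) (nat_lit 27) (nat_lit 5) (nat_lit 30) (nat_lit 5) (nat_lit 28) (nat_lit 5) (nat_lit 323) (nat_lit 302) (nat_lit 275)) (XT.lf (nat_lit 0) (nat_lit 1923912526) (nat_lit 152) (nat_lit 4653705785) (nat_lit 228) (nat_lit 6762228565) (nat_lit 25) (nat_lit 5) (nat_lit 27) (nat_lit 5) (nat_lit 28) (nat_lit 5) (nat_lit 324) (nat_lit 302) (nat_lit 274))))) (XT.nd (nat_lit 312) (nat_lit 304) (nat_lit 0) (XT.nd (nat_lit 156) (nat_lit 228) (nat_lit 0) (XT.nd (nat_lit 78) (nat_lit 76) (nat_lit 0) (XT.lf (nat_lit 0) (nat_lit 9838683426) (nat_lit 152) (nat_lit 183117821) (nat_lit 228) (nat_lit 3978157962) (nat_lit 25) (nat_lit 5) (nat_lit 27) (nat_lit 5)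 (nat_lit 28) (nat_lit 5) (nat_lit 325) (nat_lit 302) (nat_lit 273)) (XT.lf (nat_lit 0) (nat_lit 3635802369) (nat_lit 76) (nat_lit 10235087013) (nat_lit 152) (nat_lit 831745912) (nat_lit 24) (nat_lit 5) (nat_lit 25) (nat_lit 5) (nat_lit 26) (nat_lit 4) (nat_lit 326) (nat_lit 302) (nat_lit 272))) (XT.nd (nat_lit 78) (nat_lit 152) (nat_lit 0) (XT.lf (nat_lit 0) (nat_lit 2490499821) (nat_lit 152) (nat_lit 3337654754) (nat_lit 76) (nat_lit 9624322572) (nat_lit 23) (nat_lit 5) (nat_lit 25) (nat_lit 5) (nat_lit 24) (nat_lit 5) (nat_lit 327) (nat_lit 302) (nat_lit 271)) (XT.lf (nat_lit 0) (nat_lit 5144587916) (nat_lit 152) (nat_lit 948852207) (nat_lit 228) (nat_lit 10162432742) (nat_lit 21) (nat_lit 5) (nat_lit 23) (nat_lit 5) (nat_lit 24) (nat_lit 5) (nat_lit 328) (nat_lit 302) (nat_lit 270)))) (XT.nd (nat_lit 156) (nat_lit 228) (nat_lit 0) (XT.nd (nat_lit 78) (nat_lit 76) (nat_lit 0) (XT.lf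 (nat_lit 0) (nat_lit 10119756892) (nat_lit 228) (nat_lit 2829870612) (nat_lit 76) (nat_lit 4163178181) (nat_lit 21) (nat_lit 5) (nat_lit 24) (nat_lit 5) (nat_lit 22) (nat_lit 4) (nat_lit 329) (nat_lit 302) (nat_lit 269)) (XT.lf (nat_lit 0) (nat_lit 6310094884) (nat_lit 76) (nat_lit 8276708227) (nat_lit 152) (nat_lit 3442071150) (nat_lit 20) (nat_lit 5) (nat_lit 21) (nat_lit 5) (nat_lit 22) (nat_lit 4) (nat_lit 330) (nat_lit 302) (nat_lit 268))) (XT.nd (nat_lit 78) (nat_lit 152) (nat_lit 0) (XT.lf (nat_lit 0) (nat_lit 395473815) (nat_lit 152) (nat_lit 2776948001) (nat_lit 76) (nat_lit 15843339499) (nat_lit 19) (nat_lit 5) (nat_lit 21) (nat_lit 5) (nat_lit 20) (nat_lit 5) (nat_lit 331) (nat_lit 302) (nat_lit 267)) (XT.nd (nat_lit 78) (nat_lit 0) (nat_lit 0) (XT.lf (nat_lit 0) (nat_lit 4532899021) (nat_lit 228) (nat_lit 13072128835) (nat_lit 76) (nat_lit 2455168501) (nat_lit 17) (nat_lit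 5) (nat_lit 20) (nat_lit 5) (nat_lit 18) (nat_lit 4) (nat_lit 332) (nat_lit 302) (nat_lit 266)) (XT.lf (nat_lit 0) (nat_lit 9109625548) (nat_lit 228) (nat_lit 3663887800) (nat_lit 76) (nat_lit 8406060500) (nat_lit 17) (nat_lit 5) (nat_lit 20) (nat_lit 5) (nat_lit 18) (nat_lit 4) (nat_lit 333) (nat_lit 302) (nat_lit 265))))))))
noncomputable def xc103 : XT := (XT.nd (nat_lit 1326) (nat_lit 304) (nat_lit 0) (XT.nd (nat_lit 624) (nat_lit 380) (nat_lit 0) (XT.nd (nat_lit 312) (nat_lit 152) (nat_lit 0) (XT.nd (nat_lit 156) (nat_lit 152) (nat_lit 0) (XT.nd (nat_lit 78) (nat_lit 0) (nat_lit 0) (XT.lf (nat_lit 0) (nat_lit 6751787585) (nat_lit 76) (nat_lit 7414942467) (nat_lit 152) (nat_lit 8212680659) (nat_lit 16) (nat_lit 5) (nat_lit 17) (nat_lit 5) (nat_lit 18) (nat_lit 4) (nat_lit 334) (nat_lit 302) (nat_lit 264)) (XT.lf (nat_lit 0) (nat_lit 18128209532) (nat_lit 76) (nat_lit 1553850686) (nat_lit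 152) (nat_lit 3988926499) (nat_lit 16) (nat_lit 5) (nat_lit 17) (nat_lit 5) (nat_lit 18) (nat_lit 4) (nat_lit 335) (nat_lit 302) (nat_lit 263))) (XT.nd (nat_lit 78) (nat_lit 0) (nat_lit 0) (XT.lf (nat_lit 0) (nat_lit 750842288) (nat_lit 152) (nat_lit 19640904574) (nat_lit 76) (nat_lit 4656537246) (nat_lit 14) (nat_lit 5) (nat_lit 16) (nat_lit 5) (nat_lit 15) (nat_lit 4) (nat_lit 336) (nat_lit 302) (nat_lit 262)) (XT.lf (nat_lit 0) (nat_lit 5806583440) (nat_lit 152) (nat_lit 9200746012) (nat_lit 76) (nat_lit 11507998986) (nat_lit 14) (nat_lit 5) (nat_lit 16) (nat_lit 5) (nat_lit 15) (nat_lit 4) (nat_lit 337) (nat_lit 302) (nat_lit 261)))) (XT.nd (nat_lit 156) (nat_lit 76) (nat_lit 0) (XT.nd (nat_lit 78) (nat_lit 0) (nat_lit 0) (XT.lf (nat_lit 0) (nat_lit 2107873756) (nat_lit 76) (nat_lit 9169281437) (nat_lit 152) (nat_lit 16821784332) (nat_lit 13) (nat_lit 5) (nat_lit 14) (nat_lit 5) (nat_lit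 15) (nat_lit 4) (nat_lit 338) (nat_lit 302) (nat_lit 260)) (XT.lf (nat_lit 0) (nat_lit 14774069568) (nat_lit 76) (nat_lit 2623839255) (nat_lit 152) (nat_lit 12394358260) (nat_lit 13) (nat_lit 5) (nat_lit 14) (nat_lit 5) (nat_lit 15) (nat_lit 4) (nat_lit 339) (nat_lit 302) (nat_lit 259))) (XT.nd (nat_lit 78) (nat_lit 76) (nat_lit 0) (XT.lf (nat_lit 0) (nat_lit 24078395387) (nat_lit 152) (nat_lit 3341784888) (nat_lit 0) (nat_lit 4195302977) (nat_lit 13) (nat_lit 5) (nat_lit 15) (nat_lit 4) (nat_lit 13) (nat_lit 4) (nat_lit 340) (nat_lit 302) (nat_lit 258)) (XT.lf (nat_lit 0) (nat_lit 9619404542) (nat_lit 76) (nat_lit 21939308019) (nat_lit 76) (nat_lit 2004638948) (nat_lit 12) (nat_lit 4) (nat_lit 13) (nat_lit 5) (nat_lit 13) (nat_lit 4) (nat_lit 341) (nat_lit 302) (nat_lit 257))))) (XT.nd (nat_lit 312) (nat_lit 228) (nat_lit 0) (XT.nd (nat_lit 156) (nat_lit 0) (nat_lit 0) (XT.nd (nat_lit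 78) (nat_lit 76) (nat_lit 0) (XT.lf (nat_lit 0) (nat_lit 3831609576) (nat_lit 152) (nat_lit 12012677317) (nat_lit 76) (nat_lit 19810360106) (nat_lit 11) (nat_lit 5) (nat_lit 13) (nat_lit 5) (nat_lit 12) (nat_lit 4) (nat_lit 342) (nat_lit 302) (nat_lit 256)) (XT.lf (nat_lit 0) (nat_lit 803228803) (nat_lit 76) (nat_lit 9211133078) (nat_lit 152) (nat_lit 27895706989) (nat_lit 10) (nat_lit 5) (nat_lit 11) (nat_lit 5) (nat_lit 12) (nat_lit 4) (nat_lit 343) (nat_lit 302) (nat_lit 255))) (XT.nd (nat_lit 78) (nat_lit 0) (nat_lit 0) (XT.lf (nat_lit 0) (nat_lit 15271069483) (nat_lit 76) (nat_lit 1718669271) (nat_lit 152) (nat_lit 23332364590) (nat_lit 10) (nat_lit 5) (nat_lit 11) (nat_lit 5) (nat_lit 12) (nat_lit 4) (nat_lit 344) (nat_lit 302) (nat_lit 254)) (XT.lf (nat_lit 0) (nat_lit 24647652309) (nat_lit 152) (nat_lit 12238054619) (nat_lit 0) (nat_lit 6031450909) (nat_lit 10) (nat_lit 5) (nat_lit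 12) (nat_lit 4) (nat_lit 10) (nat_lit 4) (nat_lit 345) (nat_lit 302) (nat_lit 253)))) (XT.nd (nat_lit 156) (nat_lit 152) (nat_lit 0) (XT.nd (nat_lit 78) (nat_lit 0) (nat_lit 0) (XT.lf (nat_lit 0) (nat_lit 1584574161) (nat_lit 76) (nat_lit 31389736740) (nat_lit 76) (nat_lit 12741033295) (nat_lit 9) (nat_lit 4) (nat_lit 10) (nat_lit 5) (nat_lit 10) (nat_lit 4) (nat_lit 346) (nat_lit 302) (nat_lit 252)) (XT.lf (nat_lit 0) (nat_lit 17160253595) (nat_lit 76) (nat_lit 25115621603) (nat_lit 76) (nat_lit 6436823671) (nat_lit 9) (nat_lit 4) (nat_lit 10) (nat_lit 5) (nat_lit 10) (nat_lit 4) (nat_lit 347) (nat_lit 302) (nat_lit 251))) (XT.nd (nat_lit 78) (nat_lit 76) (nat_lit 0) (XT.lf (nat_lit 0) (nat_lit 328569626) (nat_lit 152) (nat_lit 18023238373) (nat_lit 76) (nat_lit 33599296434) (nat_lit 8) (nat_lit 5) (nat_lit 10) (nat_lit 5) (nat_lit 9) (nat_lit 4) (nat_lit 348) (nat_lit 302) (nat_lit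 250)) (XT.nd (nat_lit 78) (nat_lit 76) (nat_lit 0) (XT.lf (nat_lit 0) (nat_lit 7264699812) (nat_lit 152) (nat_lit 3621888756) (nat_lit 76) (nat_lit 44550449870) (nat_lit 8) (nat_lit 5) (nat_lit 10) (nat_lit 5) (nat_lit 9) (nat_lit 4) (nat_lit 349) (nat_lit 302) (nat_lit 249)) (XT.lf (nat_lit 0) (nat_lit 12517949187) (nat_lit 76) (nat_lit 2517773662) (nat_lit 152) (nat_lit 44143735327) (nat_lit 7) (nat_lit 5) (nat_lit 8) (nat_lit 5) (nat_lit 9) (nat_lit 4) (nat_lit 350) (nat_lit 302) (nat_lit 248))))))) (XT.nd (nat_lit 702) (nat_lit 76) (nat_lit 0) (XT.nd (nat_lit 312) (nat_lit 152) (nat_lit 0) (XT.nd (nat_lit 156) (nat_lit 76) (nat_lit 0) (XT.nd (nat_lit 78) (nat_lit 0) (nat_lit 0) (XT.lf (nat_lit 0) (nat_lit 23665977651) (nat_lit 152) (nat_lit 33257799135) (nat_lit 0) (nat_lit 6278501089) (nat_lit 7) (nat_lit 5) (nat_lit 9) (nat_lit 4) (nat_lit 7) (nat_lit 4) (nat_lit 351) (nat_lit 302)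 (nat_lit 247)) (XT.lf (nat_lit 0) (nat_lit 33032725097) (nat_lit 152) (nat_lit 18884237974) (nat_lit 0) (nat_lit 15626283904) (nat_lit 7) (nat_lit 5) (nat_lit 9) (nat_lit 4) (nat_lit 7) (nat_lit 4) (nat_lit 352) (nat_lit 302) (nat_lit 246))) (XT.nd (nat_lit 78) (nat_lit 76) (nat_lit 0) (XT.lf (nat_lit 0) (nat_lit 43130919323) (nat_lit 152) (nat_lit 3395096330) (nat_lit 0) (nat_lit 25706918287) (nat_lit 7) (nat_lit 5) (nat_lit 9) (nat_lit 4) (nat_lit 7) (nat_lit 4) (nat_lit 353) (nat_lit 302) (nat_lit 245)) (XT.lf (nat_lit 0) (nat_lit 14001842154) (nat_lit 76) (nat_lit 40355303967) (nat_lit 76) (nat_lit 22915043816) (nat_lit 6) (nat_lit 4) (nat_lit 7) (nat_lit 5) (nat_lit 7) (nat_lit 4) (nat_lit 354) (nat_lit 302) (nat_lit 244)))) (XT.nd (nat_lit 156) (nat_lit 152) (nat_lit 0) (XT.nd (nat_lit 78) (nat_lit 0) (nat_lit 0) (XT.lf (nat_lit 0) (nat_lit 32952658647) (nat_lit 76) (nat_lit 33605555420)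 (nat_lit 76) (nat_lit 16150240534) (nat_lit 6) (nat_lit 4) (nat_lit 7) (nat_lit 5) (nat_lit 7) (nat_lit 4) (nat_lit 355) (nat_lit 302) (nat_lit 243)) (XT.lf (nat_lit 0) (nat_lit 53390874526) (nat_lit 76) (nat_lit 26329599453) (nat_lit 76) (nat_lit 8860344997) (nat_lit 6) (nat_lit 4) (nat_lit 7) (nat_lit 5) (nat_lit 7) (nat_lit 4) (nat_lit 356) (nat_lit 302) (nat_lit 242))) (XT.nd (nat_lit 78) (nat_lit 152) (nat_lit 0) (XT.lf (nat_lit 0) (nat_lit 75437605145) (nat_lit 76) (nat_lit 18484319290) (nat_lit 76) (nat_lit 1002157824) (nat_lit 6) (nat_lit 4) (nat_lit 7) (nat_lit 5) (nat_lit 7) (nat_lit 4) (nat_lit 357) (nat_lit 302) (nat_lit 241)) (XT.nd (nat_lit 78) (nat_lit 76) (nat_lit 0) (XT.lf (nat_lit 0) (nat_lit 7097163942) (nat_lit 152) (nat_lit 2732011399) (nat_lit 76) (nat_lit 91932284815) (nat_lit 5) (nat_lit 5) (nat_lit 7) (nat_lit 5) (nat_lit 6) (nat_lit 4) (nat_lit 358) (nat_lit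 302) (nat_lit 240)) (XT.lf (nat_lit 0) (nat_lit 16119756865) (nat_lit 76) (nat_lit 46077242) (nat_lit 152) (nat_lit 92947873345) (nat_lit 4) (nat_lit 5) (nat_lit 5) (nat_lit 5) (nat_lit 6) (nat_lit 4) (nat_lit 359) (nat_lit 302) (nat_lit 239)))))) (XT.nd (nat_lit 312) (nat_lit 76) (nat_lit 0) (XT.nd (nat_lit 156) (nat_lit 0) (nat_lit 0) (XT.nd (nat_lit 78) (nat_lit 0) (nat_lit 0) (XT.lf (nat_lit 0) (nat_lit 26277584372) (nat_lit 152) (nat_lit 80691548936) (nat_lit 0) (nat_lit 10059599113) (nat_lit 4) (nat_lit 5) (nat_lit 6) (nat_lit 4) (nat_lit 4) (nat_lit 4) (nat_lit 360) (nat_lit 302) (nat_lit 238)) (XT.lf (nat_lit 0) (nat_lit 37188314023) (nat_lit 152) (nat_lit 67427902194) (nat_lit 0) (nat_lit 20961544470) (nat_lit 4) (nat_lit 5) (nat_lit 6) (nat_lit 4) (nat_lit 4) (nat_lit 4) (nat_lit 361) (nat_lit 302) (nat_lit 237))) (XT.nd (nat_lit 78) (nat_lit 0) (nat_lit 0) (XT.lf (nat_lit 0)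 (nat_lit 48961571076) (nat_lit 152) (nat_lit 53123302818) (nat_lit 0) (nat_lit 32726667918) (nat_lit 4) (nat_lit 5) (nat_lit 6) (nat_lit 4) (nat_lit 4) (nat_lit 4) (nat_lit 362) (nat_lit 302) (nat_lit 236)) (XT.lf (nat_lit 0) (nat_lit 61667122982) (nat_lit 152) (nat_lit 37692982810) (nat_lit 0) (nat_lit 45424688708) (nat_lit 4) (nat_lit 5) (nat_lit 6) (nat_lit 4) (nat_lit 4) (nat_lit 4) (nat_lit 363) (nat_lit 302) (nat_lit 235)))) (XT.nd (nat_lit 156) (nat_lit 76) (nat_lit 0) (XT.nd (nat_lit 78) (nat_lit 0) (nat_lit 0) (XT.lf (nat_lit 0) (nat_lit 75380261899) (nat_lit 152) (nat_lit 21045503237) (nat_lit 0) (nat_lit 59130854370) (nat_lit 4) (nat_lit 5) (nat_lit 6) (nat_lit 4) (nat_lit 4) (nat_lit 4) (nat_lit 364) (nat_lit 302) (nat_lit 234)) (XT.lf (nat_lit 0) (nat_lit 90182250874) (nat_lit 152) (nat_lit 3082212369) (nat_lit 0) (nat_lit 73926386626) (nat_lit 4) (nat_lit 5) (nat_lit 6)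 (nat_lit 4) (nat_lit 4) (nat_lit 4) (nat_lit 365) (nat_lit 302) (nat_lit 233))) (XT.nd (nat_lit 78) (nat_lit 0) (nat_lit 0) (XT.lf (nat_lit 0) (nat_lit 17161843862) (nat_lit 76) (nat_lit 89411704291) (nat_lit 76) (nat_lit 73149861601) (nat_lit 3) (nat_lit 4) (nat_lit 4) (nat_lit 5) (nat_lit 4) (nat_lit 4) (nat_lit 366) (nat_lit 302) (nat_lit 232)) (XT.nd (nat_lit 78) (nat_lit 0) (nat_lit 0) (XT.lf (nat_lit 0) (nat_lit 39186284653) (nat_lit 76) (nat_lit 85166759630) (nat_lit 76) (nat_lit 68899381345) (nat_lit 3) (nat_lit 4) (nat_lit 4) (nat_lit 5) (nat_lit 4) (nat_lit 4) (nat_lit 367) (nat_lit 302) (nat_lit 231)) (XT.lf (nat_lit 0) (nat_lit 62959321367) (nat_lit 76) (nat_lit 80588747181) (nat_lit 76) (nat_lit 64316243345) (nat_lit 3) (nat_lit 4) (nat_lit 4) (nat_lit 5) (nat_lit 4) (nat_lit 4) (nat_lit 368) (nat_lit 302) (nat_lit 230))))))))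
noncomputable def xc104 : XT := (XT.nd (nat_lit 1326) (nat_lit 0) (nat_lit 0) (XT.nd (nat_lit 624) (nat_lit 152) (nat_lit 0) (XT.nd (nat_lit 312) (nat_lit 0) (nat_lit 0) (XT.nd (nat_lit 156) (nat_lit 0) (nat_lit 0) (XT.nd (nat_lit 78) (nat_lit 0) (nat_lit 0) (XT.lf (nat_lit 0) (nat_lit 88621831259) (nat_lit 76) (nat_lit 75650537981) (nat_lit 76) (nat_lit 59373288264) (nat_lit 3) (nat_lit 4) (nat_lit 4) (nat_lit 5) (nat_lit 4) (nat_lit 4) (nat_lit 369) (nat_lit 302) (nat_lit 229)) (XT.lf (nat_lit 0) (nat_lit 116325888462) (nat_lit 76) (nat_lit 70322868569) (nat_lit 76) (nat_lit 54041224518) (nat_lit 3) (nat_lit 4) (nat_lit 4) (nat_lit 5) (nat_lit 4) (nat_lit 4) (nat_lit 370) (nat_lit 302) (nat_lit 228))) (XT.nd (nat_lit 78) (nat_lit 0) (nat_lit 0) (XT.lf (nat_lit 0) (nat_lit 146235665167) (nat_lit 76) (nat_lit 64574167569) (nat_lit 76) (nat_lit 48288454690) (nat_lit 3) (nat_lit 4) (nat_lit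 4) (nat_lit 5) (nat_lit 4) (nat_lit 4) (nat_lit 371) (nat_lit 302) (nat_lit 227)) (XT.lf (nat_lit 0) (nat_lit 178528404494) (nat_lit 76) (nat_lit 58370368605) (nat_lit 76) (nat_lit 42080888294) (nat_lit 3) (nat_lit 4) (nat_lit 4) (nat_lit 5) (nat_lit 4) (nat_lit 4) (nat_lit 372) (nat_lit 302) (nat_lit 226)))) (XT.nd (nat_lit 156) (nat_lit 0) (nat_lit 0) (XT.nd (nat_lit 78) (nat_lit 0) (nat_lit 0) (XT.lf (nat_lit 0) (nat_lit 213395470825) (nat_lit 76) (nat_lit 51674708425) (nat_lit 76) (nat_lit 35381739750) (nat_lit 3) (nat_lit 4) (nat_lit 4) (nat_lit 5) (nat_lit 4) (nat_lit 4) (nat_lit 373) (nat_lit 302) (nat_lit 225)) (XT.lf (nat_lit 0) (nat_lit 251043483812) (nat_lit 76) (nat_lit 44447509043) (nat_lit 76) (nat_lit 28151310401) (nat_lit 3) (nat_lit 4) (nat_lit 4) (nat_lit 5) (nat_lit 4) (nat_lit 4) (nat_lit 374) (nat_lit 302) (nat_lit 224))) (XT.nd (nat_lit 78) (nat_lit 0) (nat_lit 0)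 (XT.lf (nat_lit 0) (nat_lit 291695542792) (nat_lit 76) (nat_lit 36645942609) (nat_lit 76) (nat_lit 20346753258) (nat_lit 3) (nat_lit 4) (nat_lit 4) (nat_lit 5) (nat_lit 4) (nat_lit 4) (nat_lit 375) (nat_lit 302) (nat_lit 223)) (XT.lf (nat_lit 0) (nat_lit 335592548854) (nat_lit 76) (nat_lit 28223777620) (nat_lit 76) (nat_lit 11921819093) (nat_lit 3) (nat_lit 4) (nat_lit 4) (nat_lit 5) (nat_lit 4) (nat_lit 4) (nat_lit 376) (nat_lit 302) (nat_lit 222))))) (XT.nd (nat_lit 312) (nat_lit 0) (nat_lit 0) (XT.nd (nat_lit 156) (nat_lit 76) (nat_lit 0) (XT.nd (nat_lit 78) (nat_lit 76) (nat_lit 0) (XT.lf (nat_lit 0) (nat_lit 382994632405) (nat_lit 76) (nat_lit 19131104949) (nat_lit 76) (nat_lit 2826582370) (nat_lit 3) (nat_lit 4) (nat_lit 4) (nat_lit 5) (nat_lit 4) (nat_lit 4) (nat_lit 377) (nat_lit 302) (nat_lit 221)) (XT.lf (nat_lit 0) (nat_lit 6643043699) (nat_lit 152) (nat_lit 2489365804) (nat_lit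 76) (nat_lit 427358018394) (nat_lit 2) (nat_lit 5) (nat_lit 4) (nat_lit 5) (nat_lit 3) (nat_lit 4) (nat_lit 378) (nat_lit 302) (nat_lit 220))) (XT.nd (nat_lit 78) (nat_lit 0) (nat_lit 0) (XT.lf (nat_lit 0) (nat_lit 17235838822) (nat_lit 152) (nat_lit 451133583922) (nat_lit 0) (nat_lit 2134824969) (nat_lit 1) (nat_lit 5) (nat_lit 3) (nat_lit 4) (nat_lit 1) (nat_lit 4) (nat_lit 379) (nat_lit 302) (nat_lit 219)) (XT.lf (nat_lit 0) (nat_lit 28980104402) (nat_lit 152) (nat_lit 464357540023) (nat_lit 0) (nat_lit 13877205894) (nat_lit 1) (nat_lit 5) (nat_lit 3) (nat_lit 4) (nat_lit 1) (nat_lit 4) (nat_lit 380) (nat_lit 302) (nat_lit 218)))) (XT.nd (nat_lit 156) (nat_lit 0) (nat_lit 0) (XT.nd (nat_lit 78) (nat_lit 0) (nat_lit 0) (XT.lf (nat_lit 0) (nat_lit 41661142567) (nat_lit 152) (nat_lit 478644881935) (nat_lit 0) (nat_lit 26556499009) (nat_lit 1) (nat_lit 5) (nat_lit 3) (nat_lit 4) (nat_lit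 1) (nat_lit 4) (nat_lit 381) (nat_lit 302) (nat_lit 217)) (XT.lf (nat_lit 0) (nat_lit 55354100210) (nat_lit 152) (nat_lit 494080275388) (nat_lit 0) (nat_lit 40247840864) (nat_lit 1) (nat_lit 5) (nat_lit 3) (nat_lit 4) (nat_lit 1) (nat_lit 4) (nat_lit 382) (nat_lit 302) (nat_lit 216))) (XT.nd (nat_lit 78) (nat_lit 0) (nat_lit 0) (XT.lf (nat_lit 0) (nat_lit 70140120783) (nat_lit 152) (nat_lit 510755189381) (nat_lit 0) (nat_lit 55032365338) (nat_lit 1) (nat_lit 5) (nat_lit 3) (nat_lit 4) (nat_lit 1) (nat_lit 4) (nat_lit 383) (nat_lit 302) (nat_lit 215)) (XT.nd (nat_lit 78) (nat_lit 0) (nat_lit 0) (XT.lf (nat_lit 0) (nat_lit 86106825150) (nat_lit 152) (nat_lit 528768438219) (nat_lit 0) (nat_lit 70997684427) (nat_lit 1) (nat_lit 5) (nat_lit 3) (nat_lit 4) (nat_lit 1) (nat_lit 4) (nat_lit 384) (nat_lit 302) (nat_lit 214)) (XT.lf (nat_lit 0) (nat_lit 103348830817) (nat_lit 152) (nat_lit 548226767079)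 (nat_lit 0) (nat_lit 88238407430) (nat_lit 1) (nat_lit 5) (nat_lit 3) (nat_lit 4) (nat_lit 1) (nat_lit 4) (nat_lit 385) (nat_lit 302) (nat_lit 213))))))) (XT.nd (nat_lit 624) (nat_lit 0) (nat_lit 0) (XT.nd (nat_lit 312) (nat_lit 0) (nat_lit 0) (XT.nd (nat_lit 156) (nat_lit 0) (nat_lit 0) (XT.nd (nat_lit 78) (nat_lit 0) (nat_lit 0) (XT.lf (nat_lit 0) (nat_lit 121968312633) (nat_lit 152) (nat_lit 569245484578) (nat_lit 0) (nat_lit 106856701595) (nat_lit 1) (nat_lit 5) (nat_lit 3) (nat_lit 4) (nat_lit 1) (nat_lit 4) (nat_lit 386) (nat_lit 302) (nat_lit 212)) (XT.lf (nat_lit 0) (nat_lit 142075608268) (nat_lit 152) (nat_lit 591949146077) (nat_lit 0) (nat_lit 126962897552) (nat_lit 1) (nat_lit 5) (nat_lit 3) (nat_lit 4) (nat_lit 1) (nat_lit 4) (nat_lit 387) (nat_lit 302) (nat_lit 211))) (XT.nd (nat_lit 78) (nat_lit 0) (nat_lit 0) (XT.lf (nat_lit 0) (nat_lit 163789872067) (nat_lit 152) (nat_lit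 616472291795) (nat_lit 0) (nat_lit 148676143131) (nat_lit 1) (nat_lit 5) (nat_lit 3) (nat_lit 4) (nat_lit 1) (nat_lit 4) (nat_lit 388) (nat_lit 302) (nat_lit 210)) (XT.lf (nat_lit 0) (nat_lit 187239781148) (nat_lit 152) (nat_lit 642960244075) (nat_lit 0) (nat_lit 172125109415) (nat_lit 1) (nat_lit 5) (nat_lit 3) (nat_lit 4) (nat_lit 1) (nat_lit 4) (nat_lit 389) (nat_lit 302) (nat_lit 209)))) (XT.nd (nat_lit 156) (nat_lit 0) (nat_lit 0) (XT.nd (nat_lit 78) (nat_lit 0) (nat_lit 0) (XT.lf (nat_lit 0) (nat_lit 212564297936) (nat_lit 152) (nat_lit 671569968560) (nat_lit 0) (nat_lit 197448753243) (nat_lit 1) (nat_lit 5) (nat_lit 3) (nat_lit 4) (nat_lit 1) (nat_lit 4) (nat_lit 390) (nat_lit 302) (nat_lit 208)) (XT.lf (nat_lit 0) (nat_lit 239913493640) (nat_lit 152) (nat_lit 702471004360) (nat_lit 0) (nat_lit 224797140652) (nat_lit 1) (nat_lit 5) (nat_lit 3) (nat_lit 4) (nat_lit 1) (nat_lit 4)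 (nat_lit 391) (nat_lit 302) (nat_lit 207))) (XT.nd (nat_lit 78) (nat_lit 0) (nat_lit 0) (XT.lf (nat_lit 0) (nat_lit 269449437570) (nat_lit 152) (nat_lit 735846468722) (nat_lit 0) (nat_lit 254332336159) (nat_lit 1) (nat_lit 5) (nat_lit 3) (nat_lit 4) (nat_lit 1) (nat_lit 4) (nat_lit 392) (nat_lit 302) (nat_lit 206)) (XT.lf (nat_lit 0) (nat_lit 301347157541) (nat_lit 152) (nat_lit 771894142177) (nat_lit 0) (nat_lit 286229363146) (nat_lit 1) (nat_lit 5) (nat_lit 3) (nat_lit 4) (nat_lit 1) (nat_lit 4) (nat_lit 393) (nat_lit 302) (nat_lit 205))))) (XT.nd (nat_lit 312) (nat_lit 0) (nat_lit 0) (XT.nd (nat_lit 156) (nat_lit 0) (nat_lit 0) (XT.nd (nat_lit 78) (nat_lit 0) (nat_lit 0) (XT.lf (nat_lit 0) (nat_lit 335795677078) (nat_lit 152) (nat_lit 810827640567) (nat_lit 0) (nat_lit 320677241032) (nat_lit 1) (nat_lit 5) (nat_lit 3) (nat_lit 4) (nat_lit 1) (nat_lit 4) (nat_lit 394) (nat_lit 302)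 (nat_lit 204)) (XT.lf (nat_lit 0) (nat_lit 372999135556) (nat_lit 152) (nat_lit 852877680920) (nat_lit 0) (nat_lit 357880105389) (nat_lit 1) (nat_lit 5) (nat_lit 3) (nat_lit 4) (nat_lit 1) (nat_lit 4) (nat_lit 395) (nat_lit 302) (nat_lit 203))) (XT.nd (nat_lit 78) (nat_lit 0) (nat_lit 0) (XT.lf (nat_lit 0) (nat_lit 413177997916) (nat_lit 152) (nat_lit 898293448660) (nat_lit 0) (nat_lit 398058417636) (nat_lit 1) (nat_lit 5) (nat_lit 3) (nat_lit 4) (nat_lit 1) (nat_lit 4) (nat_lit 396) (nat_lit 302) (nat_lit 202)) (XT.lf (nat_lit 0) (nat_lit 456570361118) (nat_lit 152) (nat_lit 947344074262) (nat_lit 0) (nat_lit 441450271475) (nat_lit 1) (nat_lit 5) (nat_lit 3) (nat_lit 4) (nat_lit 1) (nat_lit 4) (nat_lit 397) (nat_lit 302) (nat_lit 201)))) (XT.nd (nat_lit 156) (nat_lit 0) (nat_lit 0) (XT.nd (nat_lit 78) (nat_lit 0) (nat_lit 0) (XT.lf (nat_lit 0) (nat_lit 503433365094) (nat_lit 152) (nat_lit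 1000320228100) (nat_lit 0) (nat_lit 488312803817) (nat_lit 1) (nat_lit 5) (nat_lit 3) (nat_lit 4) (nat_lit 1) (nat_lit 4) (nat_lit 398) (nat_lit 302) (nat_lit 200)) (XT.lf (nat_lit 0) (nat_lit 554044716532) (nat_lit 152) (nat_lit 1057535842939) (nat_lit 0) (nat_lit 538923718559) (nat_lit 1) (nat_lit 5) (nat_lit 3) (nat_lit 4) (nat_lit 1) (nat_lit 4) (nat_lit 399) (nat_lit 302) (nat_lit 199))) (XT.nd (nat_lit 78) (nat_lit 0) (nat_lit 0) (XT.lf (nat_lit 0) (nat_lit 608704334554) (nat_lit 152) (nat_lit 1119329974273) (nat_lit 0) (nat_lit 593582932231) (nat_lit 1) (nat_lit 5) (nat_lit 3) (nat_lit 4) (nat_lit 1) (nat_lit 4) (nat_lit 400) (nat_lit 302) (nat_lit 198)) (XT.nd (nat_lit 78) (nat_lit 0) (nat_lit 0) (XT.lf (nat_lit 0) (nat_lit 667736128006) (nat_lit 152) (nat_lit 1186068809547) (nat_lit 0) (nat_lit 652614351285) (nat_lit 1) (nat_lit 5) (nat_lit 3) (nat_lit 4) (nat_lit 1) (nat_lit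 4) (nat_lit 401) (nat_lit 302) (nat_lit 197)) (XT.lf (nat_lit 0) (nat_lit 731489914923) (nat_lit 152) (nat_lit 1258147838155) (nat_lit 0) (nat_lit 716367791539) (nat_lit 1) (nat_lit 5) (nat_lit 3) (nat_lit 4) (nat_lit 1) (nat_lit 4) (nat_lit 402) (nat_lit 302) (nat_lit 196))))))))
noncomputable def xc105 : XT := (XT.nd (nat_lit 39546) (nat_lit 0) (nat_lit 1824) (XT.nd (nat_lit 624) (nat_lit 0) (nat_lit 0) (XT.nd (nat_lit 312) (nat_lit 0) (nat_lit 0) (XT.nd (nat_lit 156) (nat_lit 0) (nat_lit 0) (XT.nd (nat_lit 78) (nat_lit 0) (nat_lit 0) (XT.lf (nat_lit 0) (nat_lit 800343495525) (nat_lit 152) (nat_lit 1335994195083) (nat_lit 0) (nat_lit 785221051155) (nat_lit 1) (nat_lit 5) (nat_lit 3) (nat_lit 4) (nat_lit 1) (nat_lit 4) (nat_lit 403) (nat_lit 302) (nat_lit 195)) (XT.lf (nat_lit 0) (nat_lit 874704891030) (nat_lit 152) (nat_lit 1420069192073) (nat_lit 0) (nat_lit 859582149451) (nat_lit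 1) (nat_lit 5) (nat_lit 3) (nat_lit 4) (nat_lit 1) (nat_lit 4) (nat_lit 404) (nat_lit 302) (nat_lit 194))) (XT.nd (nat_lit 78) (nat_lit 0) (nat_lit 0) (XT.lf (nat_lit 0) (nat_lit 955014761559) (nat_lit 152) (nat_lit 1510871051332) (nat_lit 0) (nat_lit 939891744787) (nat_lit 1) (nat_lit 5) (nat_lit 3) (nat_lit 4) (nat_lit 1) (nat_lit 4) (nat_lit 405) (nat_lit 302) (nat_lit 193)) (XT.lf (nat_lit 0) (nat_lit 1041749017457) (nat_lit 152) (nat_lit 1608937857950) (nat_lit 0) (nat_lit 1026625745876) (nat_lit 1) (nat_lit 5) (nat_lit 3) (nat_lit 4) (nat_lit 1) (nat_lit 4) (nat_lit 406) (nat_lit 302) (nat_lit 192)))) (XT.nd (nat_lit 156) (nat_lit 0) (nat_lit 0) (XT.nd (nat_lit 78) (nat_lit 0) (nat_lit 0) (XT.lf (nat_lit 0) (nat_lit 1135421639498) (nat_lit 152) (nat_lit 1714850748561) (nat_lit 0) (nat_lit 1120298131983) (nat_lit 1) (nat_lit 5) (nat_lit 3) (nat_lit 4) (nat_lit 1) (nat_lit 4) (nat_lit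 407) (nat_lit 302) (nat_lit 191)) (XT.lf (nat_lit 0) (nat_lit 1236587724703) (nat_lit 152) (nat_lit 1829237355107) (nat_lit 0) (nat_lit 1221463998731) (nat_lit 1) (nat_lit 5) (nat_lit 3) (nat_lit 4) (nat_lit 1) (nat_lit 4) (nat_lit 408) (nat_lit 302) (nat_lit 190))) (XT.nd (nat_lit 78) (nat_lit 0) (nat_lit 0) (XT.lf (nat_lit 0) (nat_lit 1345846775798) (nat_lit 152) (nat_lit 1952775524146) (nat_lit 0) (nat_lit 1330722847550) (nat_lit 1) (nat_lit 5) (nat_lit 3) (nat_lit 4) (nat_lit 1) (nat_lit 4) (nat_lit 409) (nat_lit 302) (nat_lit 189)) (XT.lf (nat_lit 0) (nat_lit 1463846253827) (nat_lit 152) (nat_lit 2086197333717) (nat_lit 0) (nat_lit 1448722138288) (nat_lit 1) (nat_lit 5) (nat_lit 3) (nat_lit 4) (nat_lit 1) (nat_lit 4) (nat_lit 410) (nat_lit 302) (nat_lit 188))))) (XT.nd (nat_lit 38532) (nat_lit 0) (nat_lit 4636) (XT.nd (nat_lit 156) (nat_lit 0) (nat_lit 0) (XT.nd (nat_lit 78) (nat_lit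 0) (nat_lit 0) (XT.lf (nat_lit 0) (nat_lit 1591285414956) (nat_lit 152) (nat_lit 2230293431581) (nat_lit 0) (nat_lit 1576161125999) (nat_lit 1) (nat_lit 5) (nat_lit 3) (nat_lit 4) (nat_lit 1) (nat_lit 4) (nat_lit 411) (nat_lit 302) (nat_lit 187)) (XT.lf (nat_lit 0) (nat_lit 1728919454215) (nat_lit 152) (nat_lit 2385917720540) (nat_lit 0) (nat_lit 1713795004684) (nat_lit 1) (nat_lit 5) (nat_lit 3) (nat_lit 4) (nat_lit 1) (nat_lit 4) (nat_lit 412) (nat_lit 302) (nat_lit 186))) (XT.nd (nat_lit 38298) (nat_lit 0) (nat_lit 4940) (XT.lf (nat_lit 0) (nat_lit 1877563980724) (nat_lit 152) (nat_lit 2553992418602) (nat_lit 0) (nat_lit 1862439382515) (nat_lit 1) (nat_lit 5) (nat_lit 3) (nat_lit 4) (nat_lit 1) (nat_lit 4) (nat_lit 413) (nat_lit 302) (nat_lit 185)) (XT.lf (nat_lit 0) (nat_lit 600411686) (nat_lit 0) (nat_lit 600411686) (nat_lit 228) (nat_lit 2150739545) (nat_lit 66) (nat_lit 5) (nat_lit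 66) (nat_lit 3) (nat_lit 69) (nat_lit 3) (nat_lit 303) (nat_lit 303) (nat_lit 294)))) (XT.nd (nat_lit 156) (nat_lit 304) (nat_lit 0) (XT.nd (nat_lit 78) (nat_lit 0) (nat_lit 0) (XT.lf (nat_lit 0) (nat_lit 4506223868) (nat_lit 0) (nat_lit 28770840) (nat_lit 228) (nat_lit 2266126648) (nat_lit 66) (nat_lit 5) (nat_lit 66) (nat_lit 3) (nat_lit 69) (nat_lit 3) (nat_lit 304) (nat_lit 303) (nat_lit 293)) (XT.lf (nat_lit 76) (nat_lit 1071567815) (nat_lit 0) (nat_lit 5621589718) (nat_lit 304) (nat_lit 226182260) (nat_lit 67) (nat_lit 5) (nat_lit 66) (nat_lit 5) (nat_lit 70) (nat_lit 5) (nat_lit 305) (nat_lit 303) (nat_lit 292))) (XT.nd (nat_lit 78) (nat_lit 0) (nat_lit 0) (XT.lf (nat_lit 0) (nat_lit 1748336029) (nat_lit 304) (nat_lit 2383241421) (nat_lit 380) (nat_lit 2922625712) (nat_lit 62) (nat_lit 5) (nat_lit 66) (nat_lit 5) (nat_lit 67) (nat_lit 5) (nat_lit 306) (nat_lit 303) (nat_lit 291))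 (XT.nd (nat_lit 78) (nat_lit 0) (nat_lit 0) (XT.lf (nat_lit 76) (nat_lit 1297885849) (nat_lit 0) (nat_lit 2421507866) (nat_lit 380) (nat_lit 3492495707) (nat_lit 63) (nat_lit 5) (nat_lit 62) (nat_lit 5) (nat_lit 67) (nat_lit 5) (nat_lit 307) (nat_lit 303) (nat_lit 290)) (XT.lf (nat_lit 76) (nat_lit 5292452243) (nat_lit 0) (nat_lit 450989522) (nat_lit 380) (nat_lit 1647649931) (nat_lit 63) (nat_lit 5) (nat_lit 62) (nat_lit 5) (nat_lit 67) (nat_lit 5) (nat_lit 308) (nat_lit 303) (nat_lit 289))))))) (XT.nd (nat_lit 624) (nat_lit 1064) (nat_lit 0) (XT.nd (nat_lit 312) (nat_lit 1064) (nat_lit 0) (XT.nd (nat_lit 156) (nat_lit 380) (nat_lit 0) (XT.nd (nat_lit 78) (nat_lit 0) (nat_lit 0) (XT.lf (nat_lit 0) (nat_lit 256611424) (nat_lit 380) (nat_lit 5639783213) (nat_lit 76) (nat_lit 1693696716) (nat_lit 58) (nat_lit 5) (nat_lit 63) (nat_lit 5) (nat_lit 59) (nat_lit 5) (nat_lit 309) (nat_lit 303)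 (nat_lit 288)) (XT.lf (nat_lit 0) (nat_lit 2143135623) (nat_lit 380) (nat_lit 1541413626) (nat_lit 76) (nat_lit 4123940236) (nat_lit 58) (nat_lit 5) (nat_lit 63) (nat_lit 5) (nat_lit 59) (nat_lit 5) (nat_lit 310) (nat_lit 303) (nat_lit 287))) (XT.nd (nat_lit 78) (nat_lit 0) (nat_lit 0) (XT.lf (nat_lit 0) (nat_lit 2912447975) (nat_lit 380) (nat_lit 1197764235) (nat_lit 456) (nat_lit 3940163136) (nat_lit 53) (nat_lit 5) (nat_lit 58) (nat_lit 5) (nat_lit 59) (nat_lit 5) (nat_lit 311) (nat_lit 303) (nat_lit 286)) (XT.lf (nat_lit 0) (nat_lit 6181325166) (nat_lit 456) (nat_lit 661327358) (nat_lit 76) (nat_lit 1473583630) (nat_lit 53) (nat_lit 5) (nat_lit 59) (nat_lit 5) (nat_lit 54) (nat_lit 5) (nat_lit 312) (nat_lit 303) (nat_lit 285)))) (XT.nd (nat_lit 156) (nat_lit 228) (nat_lit 0) (XT.nd (nat_lit 78) (nat_lit 380) (nat_lit 0) (XT.lf (nat_lit 0) (nat_lit 4237131027) (nat_lit 456) (nat_lit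 4191459091) (nat_lit 532) (nat_lit 174269871) (nat_lit 47) (nat_lit 5) (nat_lit 53) (nat_lit 5) (nat_lit 54) (nat_lit 5) (nat_lit 313) (nat_lit 303) (nat_lit 284)) (XT.lf (nat_lit 0) (nat_lit 511775619) (nat_lit 304) (nat_lit 1245570379) (nat_lit 380) (nat_lit 7158706416) (nat_lit 42) (nat_lit 5) (nat_lit 46) (nat_lit 5) (nat_lit 47) (nat_lit 5) (nat_lit 314) (nat_lit 303) (nat_lit 283))) (XT.nd (nat_lit 78) (nat_lit 228) (nat_lit 0) (XT.lf (nat_lit 0) (nat_lit 3889499042) (nat_lit 380) (nat_lit 3398091938) (nat_lit 76) (nat_lit 1962176210) (nat_lit 42) (nat_lit 5) (nat_lit 47) (nat_lit 5) (nat_lit 43) (nat_lit 5) (nat_lit 315) (nat_lit 303) (nat_lit 282)) (XT.lf (nat_lit 0) (nat_lit 1956596389) (nat_lit 228) (nat_lit 4209846986) (nat_lit 304) (nat_lit 3446041694) (nat_lit 39) (nat_lit 5) (nat_lit 42) (nat_lit 5) (nat_lit 43) (nat_lit 5) (nat_lit 316) (nat_lit 303) (nat_lit 281))))) (XT.nd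 (nat_lit 312) (nat_lit 608) (nat_lit 0) (XT.nd (nat_lit 156) (nat_lit 152) (nat_lit 0) (XT.nd (nat_lit 78) (nat_lit 304) (nat_lit 0) (XT.lf (nat_lit 0) (nat_lit 7818371651) (nat_lit 228) (nat_lit 799928957) (nat_lit 304) (nat_lit 1386724592) (nat_lit 39) (nat_lit 5) (nat_lit 42) (nat_lit 5) (nat_lit 43) (nat_lit 5) (nat_lit 317) (nat_lit 303) (nat_lit 280)) (XT.lf (nat_lit 0) (nat_lit 862794375) (nat_lit 304) (nat_lit 6722052756) (nat_lit 76) (nat_lit 2837316141) (nat_lit 35) (nat_lit 5) (nat_lit 39) (nat_lit 5) (nat_lit 36) (nat_lit 5) (nat_lit 318) (nat_lit 303) (nat_lit 279))) (XT.nd (nat_lit 78) (nat_lit 152) (nat_lit 0) (XT.lf (nat_lit 0) (nat_lit 3208163755) (nat_lit 304) (nat_lit 859546225) (nat_lit 76) (nat_lit 6802995198) (nat_lit 35) (nat_lit 5) (nat_lit 39) (nat_lit 5) (nat_lit 36) (nat_lit 5) (nat_lit 319) (nat_lit 303) (nat_lit 278)) (XT.lf (nat_lit 0) (nat_lit 5647547818)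 (nat_lit 152) (nat_lit 144892948) (nat_lit 228) (nat_lit 5558753106) (nat_lit 33) (nat_lit 5) (nat_lit 35) (nat_lit 5) (nat_lit 36) (nat_lit 5) (nat_lit 320) (nat_lit 303) (nat_lit 277)))) (XT.nd (nat_lit 156) (nat_lit 380) (nat_lit 0) (XT.nd (nat_lit 78) (nat_lit 0) (nat_lit 0) (XT.lf (nat_lit 0) (nat_lit 680608376) (nat_lit 228) (nat_lit 7960385923) (nat_lit 304) (nat_lit 3224678025) (nat_lit 30) (nat_lit 5) (nat_lit 33) (nat_lit 5) (nat_lit 34) (nat_lit 5) (nat_lit 321) (nat_lit 303) (nat_lit 276)) (XT.lf (nat_lit 0) (nat_lit 7788532334) (nat_lit 228) (nat_lit 4010604072) (nat_lit 304) (nat_lit 615778350) (nat_lit 30) (nat_lit 5) (nat_lit 33) (nat_lit 5) (nat_lit 34) (nat_lit 5) (nat_lit 322) (nat_lit 303) (nat_lit 275))) (XT.nd (nat_lit 78) (nat_lit 152) (nat_lit 0) (XT.lf (nat_lit 0) (nat_lit 2084107457) (nat_lit 228) (nat_lit 10591936954) (nat_lit 76) (nat_lit 328544117) (nat_lit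 27) (nat_lit 5) (nat_lit 30) (nat_lit 5) (nat_lit 28) (nat_lit 5) (nat_lit 323) (nat_lit 303) (nat_lit 274)) (XT.nd (nat_lit 78) (nat_lit 152) (nat_lit 0) (XT.lf (nat_lit 0) (nat_lit 5128874225) (nat_lit 228) (nat_lit 3582857655) (nat_lit 76) (nat_lit 4915564897) (nat_lit 27) (nat_lit 5) (nat_lit 30) (nat_lit 5) (nat_lit 28) (nat_lit 5) (nat_lit 324) (nat_lit 303) (nat_lit 273)) (XT.lf (nat_lit 0) (nat_lit 4093572890) (nat_lit 152) (nat_lit 4355625475) (nat_lit 228) (nat_lit 5848169646) (nat_lit 25) (nat_lit 5) (nat_lit 27) (nat_lit 5) (nat_lit 28) (nat_lit 5) (nat_lit 325) (nat_lit 303) (nat_lit 272))))))))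
noncomputable def xc106 : XT := (XT.nd (nat_lit 1326) (nat_lit 532) (nat_lit 0) (XT.nd (nat_lit 624) (nat_lit 380) (nat_lit 0) (XT.nd (nat_lit 312) (nat_lit 304) (nat_lit 0) (XT.nd (nat_lit 156) (nat_lit 152) (nat_lit 0) (XT.nd (nat_lit 78) (nat_lit 152) (nat_lit 0) (XT.lf (nat_lit 0) (nat_lit 12079430862) (nat_lit 228) (nat_lit 2536373947) (nat_lit 76) (nat_lit 401794215) (nat_lit 25) (nat_lit 5) (nat_lit 28) (nat_lit 5) (nat_lit 26) (nat_lit 4) (nat_lit 326) (nat_lit 303) (nat_lit 271)) (XT.lf (nat_lit 0) (nat_lit 392859562) (nat_lit 152) (nat_lit 9959732237) (nat_lit 76) (nat_lit 5426668869) (nat_lit 23) (nat_lit 5) (nat_lit 25) (nat_lit 5) (nat_lit 24) (nat_lit 5) (nat_lit 327) (nat_lit 303) (nat_lit 270))) (XT.nd (nat_lit 78) (nat_lit 152) (nat_lit 0) (XT.lf (nat_lit 0) (nat_lit 3843637274) (nat_lit 152) (nat_lit 1779812012) (nat_lit 76) (nat_lit 10971417003) (nat_lit 23) (nat_lit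 5) (nat_lit 25) (nat_lit 5) (nat_lit 24) (nat_lit 5) (nat_lit 328) (nat_lit 303) (nat_lit 269)) (XT.lf (nat_lit 0) (nat_lit 7334811208) (nat_lit 152) (nat_lit 357304431) (nat_lit 228) (nat_lit 9773944705) (nat_lit 21) (nat_lit 5) (nat_lit 23) (nat_lit 5) (nat_lit 24) (nat_lit 5) (nat_lit 329) (nat_lit 303) (nat_lit 268)))) (XT.nd (nat_lit 156) (nat_lit 228) (nat_lit 0) (XT.nd (nat_lit 78) (nat_lit 76) (nat_lit 0) (XT.lf (nat_lit 0) (nat_lit 11973089886) (nat_lit 228) (nat_lit 1340624819) (nat_lit 76) (nat_lit 5083331604) (nat_lit 21) (nat_lit 5) (nat_lit 24) (nat_lit 5) (nat_lit 22) (nat_lit 4) (nat_lit 330) (nat_lit 303) (nat_lit 267)) (XT.lf (nat_lit 0) (nat_lit 8487104108) (nat_lit 76) (nat_lit 8273297188) (nat_lit 152) (nat_lit 2629062039) (nat_lit 20) (nat_lit 5) (nat_lit 21) (nat_lit 5) (nat_lit 22) (nat_lit 4) (nat_lit 331) (nat_lit 303) (nat_lit 266))) (XT.nd (nat_lit 78) (nat_lit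 152) (nat_lit 0) (XT.lf (nat_lit 0) (nat_lit 1384454208) (nat_lit 152) (nat_lit 1399338045) (nat_lit 76) (nat_lit 17675623577) (nat_lit 19) (nat_lit 5) (nat_lit 21) (nat_lit 5) (nat_lit 20) (nat_lit 5) (nat_lit 332) (nat_lit 303) (nat_lit 265)) (XT.lf (nat_lit 0) (nat_lit 5834739407) (nat_lit 228) (nat_lit 12499055813) (nat_lit 76) (nat_lit 3255136658) (nat_lit 17) (nat_lit 5) (nat_lit 20) (nat_lit 5) (nat_lit 18) (nat_lit 4) (nat_lit 333) (nat_lit 303) (nat_lit 264))))) (XT.nd (nat_lit 312) (nat_lit 152) (nat_lit 0) (XT.nd (nat_lit 156) (nat_lit 152) (nat_lit 0) (XT.nd (nat_lit 78) (nat_lit 76) (nat_lit 0) (XT.lf (nat_lit 0) (nat_lit 10708033059) (nat_lit 228) (nat_lit 2458069816) (nat_lit 76) (nat_lit 9637392262) (nat_lit 17) (nat_lit 5) (nat_lit 20) (nat_lit 5) (nat_lit 18) (nat_lit 4) (nat_lit 334) (nat_lit 303) (nat_lit 263)) (XT.lf (nat_lit 0) (nat_lit 8752912030) (nat_lit 76) (nat_lit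 7387512942) (nat_lit 152) (nat_lit 7961301166) (nat_lit 16) (nat_lit 5) (nat_lit 17) (nat_lit 5) (nat_lit 18) (nat_lit 4) (nat_lit 335) (nat_lit 303) (nat_lit 262))) (XT.nd (nat_lit 78) (nat_lit 152) (nat_lit 0) (XT.lf (nat_lit 0) (nat_lit 20931226886) (nat_lit 76) (nat_lit 1103506036) (nat_lit 152) (nat_lit 3466935114) (nat_lit 16) (nat_lit 5) (nat_lit 17) (nat_lit 5) (nat_lit 18) (nat_lit 4) (nat_lit 336) (nat_lit 303) (nat_lit 261)) (XT.lf (nat_lit 0) (nat_lit 1597597961) (nat_lit 152) (nat_lit 19803663488) (nat_lit 76) (nat_lit 5587308187) (nat_lit 14) (nat_lit 5) (nat_lit 16) (nat_lit 5) (nat_lit 15) (nat_lit 4) (nat_lit 337) (nat_lit 303) (nat_lit 260)))) (XT.nd (nat_lit 156) (nat_lit 76) (nat_lit 0) (XT.nd (nat_lit 78) (nat_lit 76) (nat_lit 0) (XT.lf (nat_lit 0) (nat_lit 6999525199) (nat_lit 152) (nat_lit 8632626572) (nat_lit 76) (nat_lit 12945535165) (nat_lit 14) (nat_lit 5) (nat_lit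 16) (nat_lit 5) (nat_lit 15) (nat_lit 4) (nat_lit 338) (nat_lit 303) (nat_lit 259)) (XT.lf (nat_lit 0) (nat_lit 3547665585) (nat_lit 76) (nat_lit 9336691909) (nat_lit 152) (nat_lit 17405544273) (nat_lit 13) (nat_lit 5) (nat_lit 14) (nat_lit 5) (nat_lit 15) (nat_lit 4) (nat_lit 339) (nat_lit 303) (nat_lit 258))) (XT.nd (nat_lit 78) (nat_lit 76) (nat_lit 0) (XT.lf (nat_lit 0) (nat_lit 17132996920) (nat_lit 76) (nat_lit 2309550059) (nat_lit 152) (nat_lit 12680367286) (nat_lit 13) (nat_lit 5) (nat_lit 14) (nat_lit 5) (nat_lit 15) (nat_lit 4) (nat_lit 340) (nat_lit 303) (nat_lit 257)) (XT.nd (nat_lit 78) (nat_lit 76) (nat_lit 0) (XT.lf (nat_lit 0) (nat_lit 26620789596) (nat_lit 152) (nat_lit 2482156349) (nat_lit 0) (nat_lit 4992014172) (nat_lit 13) (nat_lit 5) (nat_lit 15) (nat_lit 4) (nat_lit 13) (nat_lit 4) (nat_lit 341) (nat_lit 303) (nat_lit 256)) (XT.lf (nat_lit 0) (nat_lit 11487397316)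 (nat_lit 76) (nat_lit 23192913636) (nat_lit 76) (nat_lit 1519919539) (nat_lit 12) (nat_lit 4) (nat_lit 13) (nat_lit 5) (nat_lit 13) (nat_lit 4) (nat_lit 342) (nat_lit 303) (nat_lit 255))))))) (XT.nd (nat_lit 624) (nat_lit 228) (nat_lit 0) (XT.nd (nat_lit 312) (nat_lit 152) (nat_lit 0) (XT.nd (nat_lit 156) (nat_lit 0) (nat_lit 0) (XT.nd (nat_lit 78) (nat_lit 76) (nat_lit 0) (XT.lf (nat_lit 0) (nat_lit 4705564717) (nat_lit 152) (nat_lit 11926362700) (nat_lit 76) (nat_lit 21829322551) (nat_lit 11) (nat_lit 5) (nat_lit 13) (nat_lit 5) (nat_lit 12) (nat_lit 4) (nat_lit 343) (nat_lit 303) (nat_lit 254)) (XT.lf (nat_lit 0) (nat_lit 1888301257) (nat_lit 76) (nat_lit 9477154971) (nat_lit 152) (nat_lit 29533075593) (nat_lit 10) (nat_lit 5) (nat_lit 11) (nat_lit 5) (nat_lit 12) (nat_lit 4) (nat_lit 344) (nat_lit 303) (nat_lit 253))) (XT.nd (nat_lit 78) (nat_lit 0) (nat_lit 0) (XT.lf (nat_lit 0)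 (nat_lit 17437953328) (nat_lit 76) (nat_lit 1420173227) (nat_lit 152) (nat_lit 24648687132) (nat_lit 10) (nat_lit 5) (nat_lit 11) (nat_lit 5) (nat_lit 12) (nat_lit 4) (nat_lit 345) (nat_lit 303) (nat_lit 252)) (XT.lf (nat_lit 0) (nat_lit 27100662883) (nat_lit 152) (nat_lit 12313607645) (nat_lit 0) (nat_lit 6897466631) (nat_lit 10) (nat_lit 5) (nat_lit 12) (nat_lit 4) (nat_lit 10) (nat_lit 4) (nat_lit 346) (nat_lit 303) (nat_lit 251)))) (XT.nd (nat_lit 156) (nat_lit 76) (nat_lit 0) (XT.nd (nat_lit 78) (nat_lit 0) (nat_lit 0) (XT.lf (nat_lit 0) (nat_lit 2591958239) (nat_lit 76) (nat_lit 33487030486) (nat_lit 76) (nat_lit 13255968969) (nat_lit 9) (nat_lit 4) (nat_lit 10) (nat_lit 5) (nat_lit 10) (nat_lit 4) (nat_lit 347) (nat_lit 303) (nat_lit 250)) (XT.lf (nat_lit 0) (nat_lit 19348461054) (nat_lit 76) (nat_lit 26741644300) (nat_lit 76) (nat_lit 6484781612) (nat_lit 9) (nat_lit 4) (nat_lit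 10) (nat_lit 5) (nat_lit 10) (nat_lit 4) (nat_lit 348) (nat_lit 303) (nat_lit 249))) (XT.nd (nat_lit 78) (nat_lit 0) (nat_lit 0) (XT.lf (nat_lit 0) (nat_lit 765621237) (nat_lit 152) (nat_lit 18688260487) (nat_lit 76) (nat_lit 36620231157) (nat_lit 8) (nat_lit 5) (nat_lit 10) (nat_lit 5) (nat_lit 9) (nat_lit 4) (nat_lit 349) (nat_lit 303) (nat_lit 248)) (XT.lf (nat_lit 0) (nat_lit 8226214724) (nat_lit 152) (nat_lit 3192346379) (nat_lit 76) (nat_lit 48422810868) (nat_lit 8) (nat_lit 5) (nat_lit 10) (nat_lit 5) (nat_lit 9) (nat_lit 4) (nat_lit 350) (nat_lit 303) (nat_lit 247))))) (XT.nd (nat_lit 312) (nat_lit 152) (nat_lit 0) (XT.nd (nat_lit 156) (nat_lit 0) (nat_lit 0) (XT.nd (nat_lit 78) (nat_lit 0) (nat_lit 0) (XT.lf (nat_lit 0) (nat_lit 14220468638) (nat_lit 76) (nat_lit 2387138787) (nat_lit 152) (nat_lit 47276497831) (nat_lit 7) (nat_lit 5) (nat_lit 8) (nat_lit 5) (nat_lit 9) (nat_lit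 4) (nat_lit 351) (nat_lit 303) (nat_lit 246)) (XT.lf (nat_lit 0) (nat_lit 25908341716) (nat_lit 152) (nat_lit 35249157217) (nat_lit 0) (nat_lit 7072860753) (nat_lit 7) (nat_lit 5) (nat_lit 9) (nat_lit 4) (nat_lit 7) (nat_lit 4) (nat_lit 352) (nat_lit 303) (nat_lit 245))) (XT.nd (nat_lit 78) (nat_lit 0) (nat_lit 0) (XT.lf (nat_lit 0) (nat_lit 35998570747) (nat_lit 152) (nat_lit 19775286411) (nat_lit 0) (nat_lit 17146830670) (nat_lit 7) (nat_lit 5) (nat_lit 9) (nat_lit 4) (nat_lit 7) (nat_lit 4) (nat_lit 353) (nat_lit 303) (nat_lit 244)) (XT.lf (nat_lit 0) (nat_lit 46880677723) (nat_lit 152) (nat_lit 3092916443) (nat_lit 0) (nat_lit 28013882910) (nat_lit 7) (nat_lit 5) (nat_lit 9) (nat_lit 4) (nat_lit 7) (nat_lit 4) (nat_lit 354) (nat_lit 303) (nat_lit 243)))) (XT.nd (nat_lit 156) (nat_lit 76) (nat_lit 0) (XT.nd (nat_lit 78) (nat_lit 0) (nat_lit 0) (XT.lf (nat_lit 0) (nat_lit 15681250851)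 (nat_lit 76) (nat_lit 43315032813) (nat_lit 76) (nat_lit 24434298430) (nat_lit 6) (nat_lit 4) (nat_lit 7) (nat_lit 5) (nat_lit 7) (nat_lit 4) (nat_lit 355) (nat_lit 303) (nat_lit 242)) (XT.lf (nat_lit 0) (nat_lit 36106705898) (nat_lit 76) (nat_lit 36045207751) (nat_lit 76) (nat_lit 17151566359) (nat_lit 6) (nat_lit 4) (nat_lit 7) (nat_lit 5) (nat_lit 7) (nat_lit 4) (nat_lit 356) (nat_lit 303) (nat_lit 241))) (XT.nd (nat_lit 78) (nat_lit 76) (nat_lit 0) (XT.lf (nat_lit 0) (nat_lit 58141620933) (nat_lit 76) (nat_lit 28205604351) (nat_lit 76) (nat_lit 9300012024) (nat_lit 6) (nat_lit 4) (nat_lit 7) (nat_lit 5) (nat_lit 7) (nat_lit 4) (nat_lit 357) (nat_lit 303) (nat_lit 240)) (XT.nd (nat_lit 78) (nat_lit 76) (nat_lit 0) (XT.lf (nat_lit 0) (nat_lit 81916573228) (nat_lit 76) (nat_lit 19749765705) (nat_lit 76) (nat_lit 833107698) (nat_lit 6) (nat_lit 4) (nat_lit 7) (nat_lit 5) (nat_lit 7) (nat_lit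 4) (nat_lit 358) (nat_lit 303) (nat_lit 239)) (XT.lf (nat_lit 0) (nat_lit 7884155225) (nat_lit 152) (nat_lit 2527861138) (nat_lit 76) (nat_lit 99472729389) (nat_lit 5) (nat_lit 5) (nat_lit 7) (nat_lit 5) (nat_lit 6) (nat_lit 4) (nat_lit 359) (nat_lit 303) (nat_lit 238))))))))
noncomputable def xc107 : XT := (XT.nd (nat_lit 1326) (nat_lit 152) (nat_lit 0) (XT.nd (nat_lit 624) (nat_lit 0) (nat_lit 0) (XT.nd (nat_lit 312) (nat_lit 76) (nat_lit 0) (XT.nd (nat_lit 156) (nat_lit 0) (nat_lit 0) (XT.nd (nat_lit 78) (nat_lit 0) (nat_lit 0) (XT.lf (nat_lit 0) (nat_lit 17675581516) (nat_lit 152) (nat_lit 100007931156) (nat_lit 0) (nat_lit 141886105) (nat_lit 4) (nat_lit 5) (nat_lit 6) (nat_lit 4) (nat_lit 4) (nat_lit 4) (nat_lit 360) (nat_lit 303) (nat_lit 237)) (XT.lf (nat_lit 0) (nat_lit 28581344354) (nat_lit 152) (nat_lit 86753966677) (nat_lit 0) (nat_lit 11039515338) (nat_lit 4) (nat_lit 5)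 (nat_lit 6) (nat_lit 4) (nat_lit 4) (nat_lit 4) (nat_lit 361) (nat_lit 303) (nat_lit 236))) (XT.nd (nat_lit 78) (nat_lit 0) (nat_lit 0) (XT.lf (nat_lit 0) (nat_lit 40350002508) (nat_lit 152) (nat_lit 72458332357) (nat_lit 0) (nat_lit 22800642376) (nat_lit 4) (nat_lit 5) (nat_lit 6) (nat_lit 4) (nat_lit 4) (nat_lit 4) (nat_lit 362) (nat_lit 303) (nat_lit 235)) (XT.lf (nat_lit 0) (nat_lit 53051296173) (nat_lit 152) (nat_lit 57036313328) (nat_lit 0) (nat_lit 35494962785) (nat_lit 4) (nat_lit 5) (nat_lit 6) (nat_lit 4) (nat_lit 4) (nat_lit 4) (nat_lit 363) (nat_lit 303) (nat_lit 234)))) (XT.nd (nat_lit 156) (nat_lit 76) (nat_lit 0) (XT.nd (nat_lit 78) (nat_lit 0) (nat_lit 0) (XT.lf (nat_lit 0) (nat_lit 66760492275) (nat_lit 152) (nat_lit 40396519847) (nat_lit 0) (nat_lit 49197702169) (nat_lit 4) (nat_lit 5) (nat_lit 6) (nat_lit 4) (nat_lit 4) (nat_lit 4) (nat_lit 364) (nat_lit 303) (nat_lit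 233)) (XT.lf (nat_lit 0) (nat_lit 81558830494) (nat_lit 152) (nat_lit 22440345729) (nat_lit 0) (nat_lit 63990061946) (nat_lit 4) (nat_lit 5) (nat_lit 6) (nat_lit 4) (nat_lit 4) (nat_lit 4) (nat_lit 365) (nat_lit 303) (nat_lit 232))) (XT.nd (nat_lit 78) (nat_lit 76) (nat_lit 0) (XT.lf (nat_lit 0) (nat_lit 97534004687) (nat_lit 152) (nat_lit 3061384018) (nat_lit 0) (nat_lit 79959700543) (nat_lit 4) (nat_lit 5) (nat_lit 6) (nat_lit 4) (nat_lit 4) (nat_lit 4) (nat_lit 366) (nat_lit 303) (nat_lit 231)) (XT.lf (nat_lit 0) (nat_lit 18795426955) (nat_lit 76) (nat_lit 96437286067) (nat_lit 76) (nat_lit 78857856373) (nat_lit 3) (nat_lit 4) (nat_lit 4) (nat_lit 5) (nat_lit 4) (nat_lit 4) (nat_lit 367) (nat_lit 303) (nat_lit 230))))) (XT.nd (nat_lit 312) (nat_lit 0) (nat_lit 0) (XT.nd (nat_lit 156) (nat_lit 0) (nat_lit 0) (XT.nd (nat_lit 78) (nat_lit 0) (nat_lit 0) (XT.lf (nat_lit 0) (nat_lit 42562516670)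 (nat_lit 76) (nat_lit 91862179505) (nat_lit 76) (nat_lit 74278003930) (nat_lit 3) (nat_lit 4) (nat_lit 4) (nat_lit 5) (nat_lit 4) (nat_lit 4) (nat_lit 368) (nat_lit 303) (nat_lit 229)) (XT.lf (nat_lit 0) (nat_lit 68219520081) (nat_lit 76) (nat_lit 86926660941) (nat_lit 76) (nat_lit 69338091033) (nat_lit 3) (nat_lit 4) (nat_lit 4) (nat_lit 5) (nat_lit 4) (nat_lit 4) (nat_lit 369) (nat_lit 303) (nat_lit 228))) (XT.nd (nat_lit 78) (nat_lit 0) (nat_lit 0) (XT.lf (nat_lit 0) (nat_lit 95918478690) (nat_lit 76) (nat_lit 81601482858) (nat_lit 76) (nat_lit 64008844122) (nat_lit 3) (nat_lit 4) (nat_lit 4) (nat_lit 5) (nat_lit 4) (nat_lit 4) (nat_lit 370) (nat_lit 303) (nat_lit 227)) (XT.lf (nat_lit 0) (nat_lit 125823534475) (nat_lit 76) (nat_lit 75855088645) (nat_lit 76) (nat_lit 58258682476) (nat_lit 3) (nat_lit 4) (nat_lit 4) (nat_lit 5) (nat_lit 4) (nat_lit 4) (nat_lit 371) (nat_lit 303) (nat_lit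 226)))) (XT.nd (nat_lit 156) (nat_lit 0) (nat_lit 0) (XT.nd (nat_lit 78) (nat_lit 0) (nat_lit 0) (XT.lf (nat_lit 0) (nat_lit 158111902580) (nat_lit 76) (nat_lit 69653425596) (nat_lit 76) (nat_lit 52053531062) (nat_lit 3) (nat_lit 4) (nat_lit 4) (nat_lit 5) (nat_lit 4) (nat_lit 4) (nat_lit 372) (nat_lit 303) (nat_lit 225)) (XT.lf (nat_lit 0) (nat_lit 192974921483) (nat_lit 76) (nat_lit 62959743114) (nat_lit 76) (nat_lit 45356618614) (nat_lit 3) (nat_lit 4) (nat_lit 4) (nat_lit 5) (nat_lit 4) (nat_lit 4) (nat_lit 373) (nat_lit 303) (nat_lit 224))) (XT.nd (nat_lit 78) (nat_lit 0) (nat_lit 0) (XT.lf (nat_lit 0) (nat_lit 230619186851) (nat_lit 76) (nat_lit 55734374933) (nat_lit 76) (nat_lit 38128259723) (nat_lit 3) (nat_lit 4) (nat_lit 4) (nat_lit 5) (nat_lit 4) (nat_lit 4) (nat_lit 374) (nat_lit 303) (nat_lit 223)) (XT.nd (nat_lit 78) (nat_lit 0) (nat_lit 0) (XT.lf (nat_lit 0) (nat_lit 271267775814)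 (nat_lit 76) (nat_lit 47934504056) (nat_lit 76) (nat_lit 30325619671) (nat_lit 3) (nat_lit 4) (nat_lit 4) (nat_lit 5) (nat_lit 4) (nat_lit 4) (nat_lit 375) (nat_lit 303) (nat_lit 222)) (XT.lf (nat_lit 0) (nat_lit 315161568897) (nat_lit 76) (nat_lit 39513909027) (nat_lit 76) (nat_lit 21902460591) (nat_lit 3) (nat_lit 4) (nat_lit 4) (nat_lit 5) (nat_lit 4) (nat_lit 4) (nat_lit 376) (nat_lit 303) (nat_lit 221))))))) (XT.nd (nat_lit 702) (nat_lit 0) (nat_lit 0) (XT.nd (nat_lit 312) (nat_lit 0) (nat_lit 0) (XT.nd (nat_lit 156) (nat_lit 152) (nat_lit 0) (XT.nd (nat_lit 78) (nat_lit 0) (nat_lit 0) (XT.lf (nat_lit 0) (nat_lit 362560677468) (nat_lit 76) (nat_lit 30422690023) (nat_lit 76) (nat_lit 12808867465) (nat_lit 3) (nat_lit 4) (nat_lit 4) (nat_lit 5) (nat_lit 4) (nat_lit 4) (nat_lit 377) (nat_lit 303) (nat_lit 220)) (XT.lf (nat_lit 0) (nat_lit 413745985133) (nat_lit 76) (nat_lit 20606973154)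 (nat_lit 76) (nat_lit 2990952334) (nat_lit 3) (nat_lit 4) (nat_lit 4) (nat_lit 5) (nat_lit 4) (nat_lit 4) (nat_lit 378) (nat_lit 303) (nat_lit 219))) (XT.nd (nat_lit 78) (nat_lit 76) (nat_lit 0) (XT.lf (nat_lit 0) (nat_lit 7228808778) (nat_lit 152) (nat_lit 2582133987) (nat_lit 76) (nat_lit 461594355012) (nat_lit 2) (nat_lit 5) (nat_lit 4) (nat_lit 5) (nat_lit 3) (nat_lit 4) (nat_lit 379) (nat_lit 303) (nat_lit 218)) (XT.lf (nat_lit 0) (nat_lit 18668721446) (nat_lit 152) (nat_lit 487117566243) (nat_lit 0) (nat_lit 2353961352) (nat_lit 1) (nat_lit 5) (nat_lit 3) (nat_lit 4) (nat_lit 1) (nat_lit 4) (nat_lit 380) (nat_lit 303) (nat_lit 217)))) (XT.nd (nat_lit 156) (nat_lit 0) (nat_lit 0) (XT.nd (nat_lit 78) (nat_lit 0) (nat_lit 0) (XT.lf (nat_lit 0) (nat_lit 31348527123) (nat_lit 152) (nat_lit 501407342861) (nat_lit 0) (nat_lit 15032151242) (nat_lit 1) (nat_lit 5) (nat_lit 3) (nat_lit 4)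 (nat_lit 1) (nat_lit 4) (nat_lit 381) (nat_lit 303) (nat_lit 216)) (XT.lf (nat_lit 0) (nat_lit 45040343573) (nat_lit 152) (nat_lit 516844990672) (nat_lit 0) (nat_lit 28722471593) (nat_lit 1) (nat_lit 5) (nat_lit 3) (nat_lit 4) (nat_lit 1) (nat_lit 4) (nat_lit 382) (nat_lit 303) (nat_lit 215))) (XT.nd (nat_lit 78) (nat_lit 0) (nat_lit 0) (XT.lf (nat_lit 0) (nat_lit 59825307486) (nat_lit 152) (nat_lit 533521992032) (nat_lit 0) (nat_lit 43506050229) (nat_lit 1) (nat_lit 5) (nat_lit 3) (nat_lit 4) (nat_lit 1) (nat_lit 4) (nat_lit 383) (nat_lit 303) (nat_lit 214)) (XT.nd (nat_lit 78) (nat_lit 0) (nat_lit 0) (XT.lf (nat_lit 0) (nat_lit 75791033464) (nat_lit 152) (nat_lit 551537173618) (nat_lit 0) (nat_lit 59470493542) (nat_lit 1) (nat_lit 5) (nat_lit 3) (nat_lit 4) (nat_lit 1) (nat_lit 4) (nat_lit 384) (nat_lit 303) (nat_lit 213)) (XT.lf (nat_lit 0) (nat_lit 93032133216) (nat_lit 152) (nat_lit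 570997292060) (nat_lit 0) (nat_lit 76710405642) (nat_lit 1) (nat_lit 5) (nat_lit 3) (nat_lit 4) (nat_lit 1) (nat_lit 4) (nat_lit 385) (nat_lit 303) (nat_lit 212)))))) (XT.nd (nat_lit 312) (nat_lit 0) (nat_lit 0) (XT.nd (nat_lit 156) (nat_lit 0) (nat_lit 0) (XT.nd (nat_lit 78) (nat_lit 0) (nat_lit 0) (XT.lf (nat_lit 0) (nat_lit 111650776221) (nat_lit 152) (nat_lit 592017666578) (nat_lit 0) (nat_lit 95327948970) (nat_lit 1) (nat_lit 5) (nat_lit 3) (nat_lit 4) (nat_lit 1) (nat_lit 4) (nat_lit 386) (nat_lit 303) (nat_lit 211)) (XT.lf (nat_lit 0) (nat_lit 131757295180) (nat_lit 152) (nat_lit 614722862356) (nat_lit 0) (nat_lit 115433449708) (nat_lit 1) (nat_lit 5) (nat_lit 3) (nat_lit 4) (nat_lit 1) (nat_lit 4) (nat_lit 387) (nat_lit 303) (nat_lit 210))) (XT.nd (nat_lit 78) (nat_lit 0) (nat_lit 0) (XT.lf (nat_lit 0) (nat_lit 153470839834) (nat_lit 152) (nat_lit 639247428700) (nat_lit 0) (nat_lit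 137146051566) (nat_lit 1) (nat_lit 5) (nat_lit 3) (nat_lit 4) (nat_lit 1) (nat_lit 4) (nat_lit 388) (nat_lit 303) (nat_lit 209)) (XT.lf (nat_lit 0) (nat_lit 176920083040) (nat_lit 152) (nat_lit 665736696376) (nat_lit 0) (nat_lit 160594421812) (nat_lit 1) (nat_lit 5) (nat_lit 3) (nat_lit 4) (nat_lit 1) (nat_lit 4) (nat_lit 389) (nat_lit 303) (nat_lit 208)))) (XT.nd (nat_lit 156) (nat_lit 0) (nat_lit 0) (XT.nd (nat_lit 78) (nat_lit 0) (nat_lit 0) (XT.lf (nat_lit 0) (nat_lit 202243983276) (nat_lit 152) (nat_lit 694347638821) (nat_lit 0) (nat_lit 185917513753) (nat_lit 1) (nat_lit 5) (nat_lit 3) (nat_lit 4) (nat_lit 1) (nat_lit 4) (nat_lit 390) (nat_lit 303) (nat_lit 207)) (XT.lf (nat_lit 0) (nat_lit 229592608100) (nat_lit 152) (nat_lit 725249802360) (nat_lit 0) (nat_lit 213265390155) (nat_lit 1) (nat_lit 5) (nat_lit 3) (nat_lit 4) (nat_lit 1) (nat_lit 4) (nat_lit 391) (nat_lit 303) (nat_lit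 206))) (XT.nd (nat_lit 78) (nat_lit 0) (nat_lit 0) (XT.lf (nat_lit 0) (nat_lit 259128023437) (nat_lit 152) (nat_lit 758626310926) (nat_lit 0) (nat_lit 242800112508) (nat_lit 1) (nat_lit 5) (nat_lit 3) (nat_lit 4) (nat_lit 1) (nat_lit 4) (nat_lit 392) (nat_lit 303) (nat_lit 205)) (XT.nd (nat_lit 78) (nat_lit 0) (nat_lit 0) (XT.lf (nat_lit 0) (nat_lit 291025253970) (nat_lit 152) (nat_lit 794674951236) (nat_lit 0) (nat_lit 274696701389) (nat_lit 1) (nat_lit 5) (nat_lit 3) (nat_lit 4) (nat_lit 1) (nat_lit 4) (nat_lit 393) (nat_lit 303) (nat_lit 204)) (XT.lf (nat_lit 0) (nat_lit 325473320323) (nat_lit 152) (nat_lit 833609344863) (nat_lit 0) (nat_lit 309144173621) (nat_lit 1) (nat_lit 5) (nat_lit 3) (nat_lit 4) (nat_lit 1) (nat_lit 4) (nat_lit 394) (nat_lit 303) (nat_lit 203))))))))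
noncomputable def xc108 : XT := (XT.nd (nat_lit 1326) (nat_lit 0) (nat_lit 0) (XT.nd (nat_lit 624) (nat_lit 0) (nat_lit 0) (XT.nd (nat_lit 312) (nat_lit 0) (nat_lit 0) (XT.nd (nat_lit 156) (nat_lit 0) (nat_lit 0) (XT.nd (nat_lit 78) (nat_lit 0) (nat_lit 0) (XT.lf (nat_lit 0) (nat_lit 362676359188) (nat_lit 152) (nat_lit 875660214138) (nat_lit 0) (nat_lit 346346662373) (nat_lit 1) (nat_lit 5) (nat_lit 3) (nat_lit 4) (nat_lit 1) (nat_lit 4) (nat_lit 395) (nat_lit 303) (nat_lit 202)) (XT.lf (nat_lit 0) (nat_lit 402854833016) (nat_lit 152) (nat_lit 921076749398) (nat_lit 0) (nat_lit 386524626837) (nat_lit 1) (nat_lit 5) (nat_lit 3) (nat_lit 4) (nat_lit 1) (nat_lit 4) (nat_lit 396) (nat_lit 303) (nat_lit 201))) (XT.nd (nat_lit 78) (nat_lit 0) (nat_lit 0) (XT.lf (nat_lit 0) (nat_lit 446246836467) (nat_lit 152) (nat_lit 970128085668) (nat_lit 0) (nat_lit 429916158655) (nat_lit 1) (nat_lit 5)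 (nat_lit 3) (nat_lit 4) (nat_lit 1) (nat_lit 4) (nat_lit 397) (nat_lit 303) (nat_lit 200)) (XT.lf (nat_lit 0) (nat_lit 493109507339) (nat_lit 152) (nat_lit 1023104897532) (nat_lit 0) (nat_lit 476778392830) (nat_lit 1) (nat_lit 5) (nat_lit 3) (nat_lit 4) (nat_lit 1) (nat_lit 4) (nat_lit 398) (nat_lit 303) (nat_lit 199)))) (XT.nd (nat_lit 156) (nat_lit 0) (nat_lit 0) (XT.nd (nat_lit 78) (nat_lit 0) (nat_lit 0) (XT.lf (nat_lit 0) (nat_lit 543720550348) (nat_lit 152) (nat_lit 1080321121653) (nat_lit 0) (nat_lit 527389031490) (nat_lit 1) (nat_lit 5) (nat_lit 3) (nat_lit 4) (nat_lit 1) (nat_lit 4) (nat_lit 399) (nat_lit 303) (nat_lit 198)) (XT.lf (nat_lit 0) (nat_lit 598379882788) (nat_lit 152) (nat_lit 1142115817138) (nat_lit 0) (nat_lit 582047989532) (nat_lit 1) (nat_lit 5) (nat_lit 3) (nat_lit 4) (nat_lit 1) (nat_lit 4) (nat_lit 400) (nat_lit 303) (nat_lit 197))) (XT.nd (nat_lit 78) (nat_lit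 0) (nat_lit 0) (XT.lf (nat_lit 0) (nat_lit 657411411811) (nat_lit 152) (nat_lit 1208855174774) (nat_lit 0) (nat_lit 641079171892) (nat_lit 1) (nat_lit 5) (nat_lit 3) (nat_lit 4) (nat_lit 1) (nat_lit 4) (nat_lit 401) (nat_lit 303) (nat_lit 196)) (XT.lf (nat_lit 0) (nat_lit 721164953888) (nat_lit 152) (nat_lit 1280934687051) (nat_lit 0) (nat_lit 704832392983) (nat_lit 1) (nat_lit 5) (nat_lit 3) (nat_lit 4) (nat_lit 1) (nat_lit 4) (nat_lit 402) (nat_lit 303) (nat_lit 195))))) (XT.nd (nat_lit 312) (nat_lit 0) (nat_lit 0) (XT.nd (nat_lit 156) (nat_lit 0) (nat_lit 0) (XT.nd (nat_lit 78) (nat_lit 0) (nat_lit 0) (XT.lf (nat_lit 0) (nat_lit 790018307786) (nat_lit 152) (nat_lit 1358781491819) (nat_lit 0) (nat_lit 773685449672) (nat_lit 1) (nat_lit 5) (nat_lit 3) (nat_lit 4) (nat_lit 1) (nat_lit 4) (nat_lit 403) (nat_lit 303) (nat_lit 194)) (XT.lf (nat_lit 0) (nat_lit 864379493379) (nat_lit 152)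 (nat_lit 1442856903477) (nat_lit 0) (nat_lit 848046360072) (nat_lit 1) (nat_lit 5) (nat_lit 3) (nat_lit 4) (nat_lit 1) (nat_lit 4) (nat_lit 404) (nat_lit 303) (nat_lit 193))) (XT.nd (nat_lit 78) (nat_lit 0) (nat_lit 0) (XT.lf (nat_lit 0) (nat_lit 944689169545) (nat_lit 152) (nat_lit 1533659146687) (nat_lit 0) (nat_lit 928355781430) (nat_lit 1) (nat_lit 5) (nat_lit 3) (nat_lit 4) (nat_lit 1) (nat_lit 4) (nat_lit 405) (nat_lit 303) (nat_lit 192)) (XT.lf (nat_lit 0) (nat_lit 1031423245477) (nat_lit 152) (nat_lit 1631726308817) (nat_lit 0) (nat_lit 1015089621428) (nat_lit 1) (nat_lit 5) (nat_lit 3) (nat_lit 4) (nat_lit 1) (nat_lit 4) (nat_lit 406) (nat_lit 303) (nat_lit 191)))) (XT.nd (nat_lit 156) (nat_lit 0) (nat_lit 0) (XT.nd (nat_lit 78) (nat_lit 0) (nat_lit 0) (XT.lf (nat_lit 0) (nat_lit 1125095700884) (nat_lit 152) (nat_lit 1737639528603) (nat_lit 0) (nat_lit 1108761858377) (nat_lit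 1) (nat_lit 5) (nat_lit 3) (nat_lit 4) (nat_lit 1) (nat_lit 4) (nat_lit 407) (nat_lit 303) (nat_lit 190)) (XT.lf (nat_lit 0) (nat_lit 1226261631797) (nat_lit 152) (nat_lit 1852026439942) (nat_lit 0) (nat_lit 1209927587015) (nat_lit 1) (nat_lit 5) (nat_lit 3) (nat_lit 4) (nat_lit 1) (nat_lit 4) (nat_lit 408) (nat_lit 303) (nat_lit 189))) (XT.nd (nat_lit 78) (nat_lit 0) (nat_lit 0) (XT.lf (nat_lit 0) (nat_lit 1335520540030) (nat_lit 152) (nat_lit 1975564891197) (nat_lit 0) (nat_lit 1319186307956) (nat_lit 1) (nat_lit 5) (nat_lit 3) (nat_lit 4) (nat_lit 1) (nat_lit 4) (nat_lit 409) (nat_lit 303) (nat_lit 188)) (XT.nd (nat_lit 78) (nat_lit 0) (nat_lit 0) (XT.lf (nat_lit 0) (nat_lit 1453519885780) (nat_lit 152) (nat_lit 2108986962080) (nat_lit 0) (nat_lit 1437185480287) (nat_lit 1) (nat_lit 5) (nat_lit 3) (nat_lit 4) (nat_lit 1) (nat_lit 4) (nat_lit 410) (nat_lit 303) (nat_lit 187)) (XT.lf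 (nat_lit 0) (nat_lit 1580958924428) (nat_lit 152) (nat_lit 2253083301898) (nat_lit 0) (nat_lit 1564624358362) (nat_lit 1) (nat_lit 5) (nat_lit 3) (nat_lit 4) (nat_lit 1) (nat_lit 4) (nat_lit 411) (nat_lit 303) (nat_lit 186))))))) (XT.nd (nat_lit 38922) (nat_lit 0) (nat_lit 2812) (XT.nd (nat_lit 38610) (nat_lit 0) (nat_lit 4256) (XT.nd (nat_lit 38454) (nat_lit 0) (nat_lit 4560) (XT.nd (nat_lit 78) (nat_lit 0) (nat_lit 0) (XT.lf (nat_lit 0) (nat_lit 1718592850277) (nat_lit 152) (nat_lit 2408707814889) (nat_lit 0) (nat_lit 1702258135534) (nat_lit 1) (nat_lit 5) (nat_lit 3) (nat_lit 4) (nat_lit 1) (nat_lit 4) (nat_lit 412) (nat_lit 303) (nat_lit 185)) (XT.lf (nat_lit 0) (nat_lit 1867237271778) (nat_lit 152) (nat_lit 2576782720388) (nat_lit 0) (nat_lit 1850902419369) (nat_lit 1) (nat_lit 5) (nat_lit 3) (nat_lit 4) (nat_lit 1) (nat_lit 4) (nat_lit 413) (nat_lit 303) (nat_lit 184))) (XT.nd (nat_lit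 78) (nat_lit 380) (nat_lit 0) (XT.lf (nat_lit 0) (nat_lit 1642587326) (nat_lit 0) (nat_lit 1642587326) (nat_lit 228) (nat_lit 168475404) (nat_lit 66) (nat_lit 5) (nat_lit 66) (nat_lit 3) (nat_lit 69) (nat_lit 3) (nat_lit 304) (nat_lit 304) (nat_lit 292)) (XT.lf (nat_lit 0) (nat_lit 1464930193) (nat_lit 380) (nat_lit 367093535) (nat_lit 380) (nat_lit 5202742805) (nat_lit 61) (nat_lit 3) (nat_lit 66) (nat_lit 3) (nat_lit 66) (nat_lit 5) (nat_lit 305) (nat_lit 304) (nat_lit 291)))) (XT.nd (nat_lit 156) (nat_lit 304) (nat_lit 0) (XT.nd (nat_lit 78) (nat_lit 0) (nat_lit 76) (XT.lf (nat_lit 76) (nat_lit 3202371274) (nat_lit 0) (nat_lit 87534020) (nat_lit 380) (nat_lit 3890620619) (nat_lit 62) (nat_lit 5) (nat_lit 61) (nat_lit 3) (nat_lit 66) (nat_lit 5) (nat_lit 306) (nat_lit 304) (nat_lit 290)) (XT.lf (nat_lit 0) (nat_lit 5147329971) (nat_lit 304) (nat_lit 413095709) (nat_lit 380) (nat_lit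 1787129814) (nat_lit 62) (nat_lit 5) (nat_lit 66) (nat_lit 5) (nat_lit 67) (nat_lit 5) (nat_lit 307) (nat_lit 304) (nat_lit 289))) (XT.nd (nat_lit 78) (nat_lit 380) (nat_lit 0) (XT.lf (nat_lit 76) (nat_lit 3507817819) (nat_lit 0) (nat_lit 3577489416) (nat_lit 380) (nat_lit 448570159) (nat_lit 63) (nat_lit 5) (nat_lit 62) (nat_lit 5) (nat_lit 67) (nat_lit 5) (nat_lit 308) (nat_lit 304) (nat_lit 288)) (XT.lf (nat_lit 0) (nat_lit 1232775279) (nat_lit 380) (nat_lit 111569477) (nat_lit 456) (nat_lit 6399460495) (nat_lit 57) (nat_lit 5) (nat_lit 62) (nat_lit 5) (nat_lit 63) (nat_lit 5) (nat_lit 309) (nat_lit 304) (nat_lit 287))))) (XT.nd (nat_lit 312) (nat_lit 608) (nat_lit 0) (XT.nd (nat_lit 156) (nat_lit 532) (nat_lit 0) (XT.nd (nat_lit 78) (nat_lit 380) (nat_lit 0) (XT.lf (nat_lit 0) (nat_lit 3016563319) (nat_lit 380) (nat_lit 3787465689) (nat_lit 76) (nat_lit 1166578996) (nat_lit 58) (nat_lit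 5) (nat_lit 63) (nat_lit 5) (nat_lit 59) (nat_lit 5) (nat_lit 310) (nat_lit 304) (nat_lit 286)) (XT.lf (nat_lit 0) (nat_lit 492795444) (nat_lit 380) (nat_lit 4370145531) (nat_lit 456) (nat_lit 3359380773) (nat_lit 53) (nat_lit 5) (nat_lit 58) (nat_lit 5) (nat_lit 59) (nat_lit 5) (nat_lit 311) (nat_lit 304) (nat_lit 285))) (XT.nd (nat_lit 78) (nat_lit 532) (nat_lit 0) (XT.lf (nat_lit 0) (nat_lit 5224317629) (nat_lit 380) (nat_lit 1613322190) (nat_lit 456) (nat_lit 1658415097) (nat_lit 53) (nat_lit 5) (nat_lit 58) (nat_lit 5) (nat_lit 59) (nat_lit 5) (nat_lit 312) (nat_lit 304) (nat_lit 284)) (XT.lf (nat_lit 0) (nat_lit 123038574) (nat_lit 532) (nat_lit 7323499179) (nat_lit 76) (nat_lit 1348821541) (nat_lit 46) (nat_lit 5) (nat_lit 53) (nat_lit 5) (nat_lit 47) (nat_lit 5) (nat_lit 313) (nat_lit 304) (nat_lit 283)))) (XT.nd (nat_lit 156) (nat_lit 304) (nat_lit 0) (XT.nd (nat_lit 78) (nat_lit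 304) (nat_lit 0) (XT.lf (nat_lit 0) (nat_lit 1980419672) (nat_lit 532) (nat_lit 2529530841) (nat_lit 76) (nat_lit 4603633680) (nat_lit 46) (nat_lit 5) (nat_lit 53) (nat_lit 5) (nat_lit 47) (nat_lit 5) (nat_lit 314) (nat_lit 304) (nat_lit 282)) (XT.lf (nat_lit 0) (nat_lit 2678434200) (nat_lit 304) (nat_lit 1269897117) (nat_lit 380) (nat_lit 5512224004) (nat_lit 42) (nat_lit 5) (nat_lit 46) (nat_lit 5) (nat_lit 47) (nat_lit 5) (nat_lit 315) (nat_lit 304) (nat_lit 281))) (XT.nd (nat_lit 78) (nat_lit 304) (nat_lit 0) (XT.lf (nat_lit 0) (nat_lit 6100852541) (nat_lit 380) (nat_lit 1547081520) (nat_lit 76) (nat_lit 2185401359) (nat_lit 42) (nat_lit 5) (nat_lit 47) (nat_lit 5) (nat_lit 43) (nat_lit 5) (nat_lit 316) (nat_lit 304) (nat_lit 280)) (XT.nd (nat_lit 78) (nat_lit 76) (nat_lit 0) (XT.lf (nat_lit 0) (nat_lit 4182238639) (nat_lit 228) (nat_lit 4286720956) (nat_lit 304) (nat_lit 1763716312)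 (nat_lit 39) (nat_lit 5) (nat_lit 42) (nat_lit 5) (nat_lit 43) (nat_lit 5) (nat_lit 317) (nat_lit 304) (nat_lit 279)) (XT.lf (nat_lit 0) (nat_lit 299535468) (nat_lit 304) (nat_lit 315537059) (nat_lit 76) (nat_lit 10051962879) (nat_lit 38) (nat_lit 5) (nat_lit 42) (nat_lit 5) (nat_lit 39) (nat_lit 5) (nat_lit 318) (nat_lit 304) (nat_lit 278))))))))
noncomputable def xc109 : XT := (XT.nd (nat_lit 1326) (nat_lit 760) (nat_lit 0) (XT.nd (nat_lit 624) (nat_lit 608) (nat_lit 0) (XT.nd (nat_lit 312) (nat_lit 380) (nat_lit 0) (XT.nd (nat_lit 156) (nat_lit 228) (nat_lit 0) (XT.nd (nat_lit 78) (nat_lit 152) (nat_lit 0) (XT.lf (nat_lit 0) (nat_lit 2581269658) (nat_lit 304) (nat_lit 5173727462) (nat_lit 76) (nat_lit 3365750662) (nat_lit 35) (nat_lit 5) (nat_lit 39) (nat_lit 5) (nat_lit 36) (nat_lit 5) (nat_lit 319) (nat_lit 304) (nat_lit 277)) (XT.lf (nat_lit 0) (nat_lit 1056084043) (nat_lit 152)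 (nat_lit 3961401782) (nat_lit 228) (nat_lit 6595669275) (nat_lit 33) (nat_lit 5) (nat_lit 35) (nat_lit 5) (nat_lit 36) (nat_lit 5) (nat_lit 320) (nat_lit 304) (nat_lit 276))) (XT.nd (nat_lit 78) (nat_lit 228) (nat_lit 0) (XT.lf (nat_lit 0) (nat_lit 7721668790) (nat_lit 228) (nat_lit 4164164740) (nat_lit 76) (nat_lit 253417958) (nat_lit 33) (nat_lit 5) (nat_lit 36) (nat_lit 5) (nat_lit 34) (nat_lit 5) (nat_lit 321) (nat_lit 304) (nat_lit 275)) (XT.lf (nat_lit 0) (nat_lit 2676635971) (nat_lit 228) (nat_lit 8063070129) (nat_lit 304) (nat_lit 1960059437) (nat_lit 30) (nat_lit 5) (nat_lit 33) (nat_lit 5) (nat_lit 34) (nat_lit 5) (nat_lit 322) (nat_lit 304) (nat_lit 274)))) (XT.nd (nat_lit 156) (nat_lit 152) (nat_lit 0) (XT.nd (nat_lit 78) (nat_lit 152) (nat_lit 0) (XT.lf (nat_lit 0) (nat_lit 707511267) (nat_lit 304) (nat_lit 3110016269) (nat_lit 76) (nat_lit 9482517304) (nat_lit 29) (nat_lit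 5) (nat_lit 33) (nat_lit 5) (nat_lit 30) (nat_lit 5) (nat_lit 323) (nat_lit 304) (nat_lit 273)) (XT.lf (nat_lit 0) (nat_lit 3547727871) (nat_lit 228) (nat_lit 9524380395) (nat_lit 76) (nat_lit 867059032) (nat_lit 27) (nat_lit 5) (nat_lit 30) (nat_lit 5) (nat_lit 28) (nat_lit 5) (nat_lit 324) (nat_lit 304) (nat_lit 272))) (XT.nd (nat_lit 78) (nat_lit 152) (nat_lit 0) (XT.lf (nat_lit 0) (nat_lit 6740009919) (nat_lit 228) (nat_lit 2096420050) (nat_lit 76) (nat_lit 5783098409) (nat_lit 27) (nat_lit 5) (nat_lit 30) (nat_lit 5) (nat_lit 28) (nat_lit 5) (nat_lit 325) (nat_lit 304) (nat_lit 271)) (XT.lf (nat_lit 0) (nat_lit 6149237187) (nat_lit 152) (nat_lit 4129335481) (nat_lit 228) (nat_lit 5068563337) (nat_lit 25) (nat_lit 5) (nat_lit 27) (nat_lit 5) (nat_lit 28) (nat_lit 5) (nat_lit 326) (nat_lit 304) (nat_lit 270))))) (XT.nd (nat_lit 312) (nat_lit 304) (nat_lit 0) (XT.nd (nat_lit 156) (nat_lit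 152) (nat_lit 0) (XT.nd (nat_lit 78) (nat_lit 152) (nat_lit 0) (XT.lf (nat_lit 0) (nat_lit 14126582502) (nat_lit 228) (nat_lit 1064860344) (nat_lit 76) (nat_lit 939483315) (nat_lit 25) (nat_lit 5) (nat_lit 28) (nat_lit 5) (nat_lit 26) (nat_lit 4) (nat_lit 327) (nat_lit 304) (nat_lit 269)) (XT.lf (nat_lit 0) (nat_lit 1492711907) (nat_lit 152) (nat_lit 9066830147) (nat_lit 76) (nat_lit 6395199254) (nat_lit 23) (nat_lit 5) (nat_lit 25) (nat_lit 5) (nat_lit 24) (nat_lit 5) (nat_lit 328) (nat_lit 304) (nat_lit 268))) (XT.nd (nat_lit 78) (nat_lit 152) (nat_lit 0) (XT.lf (nat_lit 0) (nat_lit 5140409349) (nat_lit 152) (nat_lit 357677835) (nat_lit 76) (nat_lit 12343942285) (nat_lit 23) (nat_lit 5) (nat_lit 25) (nat_lit 5) (nat_lit 24) (nat_lit 5) (nat_lit 329) (nat_lit 304) (nat_lit 267)) (XT.lf (nat_lit 0) (nat_lit 9264641703) (nat_lit 228) (nat_lit 9343917098) (nat_lit 76) (nat_lit 177025274)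 (nat_lit 21) (nat_lit 5) (nat_lit 24) (nat_lit 5) (nat_lit 22) (nat_lit 4) (nat_lit 330) (nat_lit 304) (nat_lit 266)))) (XT.nd (nat_lit 156) (nat_lit 228) (nat_lit 0) (XT.nd (nat_lit 78) (nat_lit 0) (nat_lit 0) (XT.lf (nat_lit 0) (nat_lit 24217519) (nat_lit 76) (nat_lit 13802151478) (nat_lit 152) (nat_lit 5969705954) (nat_lit 20) (nat_lit 5) (nat_lit 21) (nat_lit 5) (nat_lit 22) (nat_lit 4) (nat_lit 331) (nat_lit 304) (nat_lit 265)) (XT.lf (nat_lit 0) (nat_lit 10599715812) (nat_lit 76) (nat_lit 8364561086) (nat_lit 152) (nat_lit 1906281033) (nat_lit 20) (nat_lit 5) (nat_lit 21) (nat_lit 5) (nat_lit 22) (nat_lit 4) (nat_lit 332) (nat_lit 304) (nat_lit 264))) (XT.nd (nat_lit 78) (nat_lit 152) (nat_lit 0) (XT.lf (nat_lit 0) (nat_lit 2315977424) (nat_lit 152) (nat_lit 139743769) (nat_lit 76) (nat_lit 19573912933) (nat_lit 19) (nat_lit 5) (nat_lit 21) (nat_lit 5) (nat_lit 20) (nat_lit 5) (nat_lit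 333) (nat_lit 304) (nat_lit 263)) (XT.nd (nat_lit 78) (nat_lit 0) (nat_lit 0) (XT.lf (nat_lit 0) (nat_lit 7106738437) (nat_lit 228) (nat_lit 12111083048) (nat_lit 76) (nat_lit 4032998444) (nat_lit 17) (nat_lit 5) (nat_lit 20) (nat_lit 5) (nat_lit 18) (nat_lit 4) (nat_lit 334) (nat_lit 304) (nat_lit 262)) (XT.lf (nat_lit 0) (nat_lit 12310249665) (nat_lit 228) (nat_lit 1369625374) (nat_lit 76) (nat_lit 10887504804) (nat_lit 17) (nat_lit 5) (nat_lit 20) (nat_lit 5) (nat_lit 18) (nat_lit 4) (nat_lit 335) (nat_lit 304) (nat_lit 261))))))) (XT.nd (nat_lit 702) (nat_lit 304) (nat_lit 0) (XT.nd (nat_lit 312) (nat_lit 228) (nat_lit 0) (XT.nd (nat_lit 156) (nat_lit 152) (nat_lit 0) (XT.nd (nat_lit 78) (nat_lit 0) (nat_lit 0) (XT.lf (nat_lit 0) (nat_lit 10705701095) (nat_lit 76) (nat_lit 7446428139) (nat_lit 152) (nat_lit 7819403866) (nat_lit 16) (nat_lit 5) (nat_lit 17) (nat_lit 5) (nat_lit 18)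 (nat_lit 4) (nat_lit 336) (nat_lit 304) (nat_lit 260)) (XT.lf (nat_lit 0) (nat_lit 23765499206) (nat_lit 76) (nat_lit 699114446) (nat_lit 152) (nat_lit 3023177521) (nat_lit 16) (nat_lit 5) (nat_lit 17) (nat_lit 5) (nat_lit 18) (nat_lit 4) (nat_lit 337) (nat_lit 304) (nat_lit 259))) (XT.nd (nat_lit 78) (nat_lit 0) (nat_lit 0) (XT.lf (nat_lit 0) (nat_lit 2399864208) (nat_lit 152) (nat_lit 20180383306) (nat_lit 76) (nat_lit 6512900491) (nat_lit 14) (nat_lit 5) (nat_lit 16) (nat_lit 5) (nat_lit 15) (nat_lit 4) (nat_lit 338) (nat_lit 304) (nat_lit 258)) (XT.lf (nat_lit 0) (nat_lit 8183985743) (nat_lit 152) (nat_lit 8205113308) (nat_lit 76) (nat_lit 14424333209) (nat_lit 14) (nat_lit 5) (nat_lit 16) (nat_lit 5) (nat_lit 15) (nat_lit 4) (nat_lit 339) (nat_lit 304) (nat_lit 257)))) (XT.nd (nat_lit 156) (nat_lit 152) (nat_lit 0) (XT.nd (nat_lit 78) (nat_lit 0) (nat_lit 0) (XT.lf (nat_lit 0) (nat_lit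 4921295300) (nat_lit 76) (nat_lit 9598260283) (nat_lit 152) (nat_lit 18144710376) (nat_lit 13) (nat_lit 5) (nat_lit 14) (nat_lit 5) (nat_lit 15) (nat_lit 4) (nat_lit 340) (nat_lit 304) (nat_lit 256)) (XT.lf (nat_lit 0) (nat_lit 19512725996) (nat_lit 76) (nat_lit 2044900195) (nat_lit 152) (nat_lit 13089910151) (nat_lit 13) (nat_lit 5) (nat_lit 14) (nat_lit 5) (nat_lit 15) (nat_lit 4) (nat_lit 341) (nat_lit 304) (nat_lit 255))) (XT.nd (nat_lit 78) (nat_lit 152) (nat_lit 0) (XT.lf (nat_lit 0) (nat_lit 29278678567) (nat_lit 152) (nat_lit 1714532586) (nat_lit 0) (nat_lit 5786683053) (nat_lit 13) (nat_lit 5) (nat_lit 15) (nat_lit 4) (nat_lit 13) (nat_lit 4) (nat_lit 342) (nat_lit 304) (nat_lit 254)) (XT.nd (nat_lit 78) (nat_lit 76) (nat_lit 0) (XT.lf (nat_lit 0) (nat_lit 13348124707) (nat_lit 76) (nat_lit 24618357852) (nat_lit 76) (nat_lit 1088451952) (nat_lit 12) (nat_lit 4) (nat_lit 13) (nat_lit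 5) (nat_lit 13) (nat_lit 4) (nat_lit 343) (nat_lit 304) (nat_lit 253)) (XT.lf (nat_lit 0) (nat_lit 5568486553) (nat_lit 152) (nat_lit 11982556076) (nat_lit 76) (nat_lit 23947867976) (nat_lit 11) (nat_lit 5) (nat_lit 13) (nat_lit 5) (nat_lit 12) (nat_lit 4) (nat_lit 344) (nat_lit 304) (nat_lit 252)))))) (XT.nd (nat_lit 312) (nat_lit 152) (nat_lit 0) (XT.nd (nat_lit 156) (nat_lit 76) (nat_lit 0) (XT.nd (nat_lit 78) (nat_lit 0) (nat_lit 0) (XT.lf (nat_lit 0) (nat_lit 2914548956) (nat_lit 76) (nat_lit 9831633308) (nat_lit 152) (nat_lit 31386215507) (nat_lit 10) (nat_lit 5) (nat_lit 11) (nat_lit 5) (nat_lit 12) (nat_lit 4) (nat_lit 345) (nat_lit 304) (nat_lit 251)) (XT.lf (nat_lit 0) (nat_lit 19643344778) (nat_lit 76) (nat_lit 1159996287) (nat_lit 152) (nat_lit 26148817164) (nat_lit 10) (nat_lit 5) (nat_lit 11) (nat_lit 5) (nat_lit 12) (nat_lit 4) (nat_lit 346) (nat_lit 304) (nat_lit 250)))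 (XT.nd (nat_lit 78) (nat_lit 76) (nat_lit 0) (XT.lf (nat_lit 0) (nat_lit 29681265972) (nat_lit 152) (nat_lit 12524098054) (nat_lit 0) (nat_lit 7778053098) (nat_lit 10) (nat_lit 5) (nat_lit 12) (nat_lit 4) (nat_lit 10) (nat_lit 4) (nat_lit 347) (nat_lit 304) (nat_lit 249)) (XT.lf (nat_lit 0) (nat_lit 3554303020) (nat_lit 76) (nat_lit 35811153082) (nat_lit 76) (nat_lit 13884050234) (nat_lit 9) (nat_lit 4) (nat_lit 10) (nat_lit 5) (nat_lit 10) (nat_lit 4) (nat_lit 348) (nat_lit 304) (nat_lit 248)))) (XT.nd (nat_lit 156) (nat_lit 76) (nat_lit 0) (XT.nd (nat_lit 78) (nat_lit 76) (nat_lit 0) (XT.lf (nat_lit 0) (nat_lit 21595401014) (nat_lit 76) (nat_lit 28552420434) (nat_lit 76) (nat_lit 6603197240) (nat_lit 9) (nat_lit 4) (nat_lit 10) (nat_lit 5) (nat_lit 10) (nat_lit 4) (nat_lit 349) (nat_lit 304) (nat_lit 247)) (XT.lf (nat_lit 0) (nat_lit 1179036609) (nat_lit 152) (nat_lit 19517308847) (nat_lit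 76) (nat_lit 39835335769) (nat_lit 8) (nat_lit 5) (nat_lit 10) (nat_lit 5) (nat_lit 9) (nat_lit 4) (nat_lit 350) (nat_lit 304) (nat_lit 246))) (XT.nd (nat_lit 78) (nat_lit 76) (nat_lit 0) (XT.lf (nat_lit 0) (nat_lit 9210391229) (nat_lit 152) (nat_lit 2831055868) (nat_lit 76) (nat_lit 52560974736) (nat_lit 8) (nat_lit 5) (nat_lit 10) (nat_lit 5) (nat_lit 9) (nat_lit 4) (nat_lit 351) (nat_lit 304) (nat_lit 245)) (XT.nd (nat_lit 78) (nat_lit 0) (nat_lit 0) (XT.lf (nat_lit 0) (nat_lit 15959172244) (nat_lit 76) (nat_lit 2293424733) (nat_lit 152) (nat_lit 50716765529) (nat_lit 7) (nat_lit 5) (nat_lit 8) (nat_lit 5) (nat_lit 9) (nat_lit 4) (nat_lit 352) (nat_lit 304) (nat_lit 244)) (XT.lf (nat_lit 0) (nat_lit 28280293907) (nat_lit 152) (nat_lit 37495302201) (nat_lit 0) (nat_lit 7889100774) (nat_lit 7) (nat_lit 5) (nat_lit 9) (nat_lit 4) (nat_lit 7) (nat_lit 4) (nat_lit 353) (nat_lit 304) (nat_lit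 243))))))))
noncomputable def xc110 : XT := (XT.nd (nat_lit 1326) (nat_lit 152) (nat_lit 0) (XT.nd (nat_lit 624) (nat_lit 76) (nat_lit 0) (XT.nd (nat_lit 312) (nat_lit 152) (nat_lit 0) (XT.nd (nat_lit 156) (nat_lit 76) (nat_lit 0) (XT.nd (nat_lit 78) (nat_lit 0) (nat_lit 0) (XT.lf (nat_lit 0) (nat_lit 39155572012) (nat_lit 152) (nat_lit 20826024516) (nat_lit 0) (nat_lit 18750439308) (nat_lit 7) (nat_lit 5) (nat_lit 9) (nat_lit 4) (nat_lit 7) (nat_lit 4) (nat_lit 354) (nat_lit 304) (nat_lit 242)) (XT.lf (nat_lit 0) (nat_lit 50887720464) (nat_lit 152) (nat_lit 2848419381) (nat_lit 0) (nat_lit 30469680752) (nat_lit 7) (nat_lit 5) (nat_lit 9) (nat_lit 4) (nat_lit 7) (nat_lit 4) (nat_lit 355) (nat_lit 304) (nat_lit 241))) (XT.nd (nat_lit 78) (nat_lit 0) (nat_lit 0) (XT.lf (nat_lit 0) (nat_lit 17415227364) (nat_lit 76) (nat_lit 46549872380) (nat_lit 76) (nat_lit 26119881733) (nat_lit 6) (nat_lit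 4) (nat_lit 7) (nat_lit 5) (nat_lit 7) (nat_lit 4) (nat_lit 356) (nat_lit 304) (nat_lit 240)) (XT.lf (nat_lit 0) (nat_lit 39439202041) (nat_lit 76) (nat_lit 38715525243) (nat_lit 76) (nat_lit 18274468915) (nat_lit 6) (nat_lit 4) (nat_lit 7) (nat_lit 5) (nat_lit 7) (nat_lit 4) (nat_lit 357) (nat_lit 304) (nat_lit 239)))) (XT.nd (nat_lit 156) (nat_lit 152) (nat_lit 0) (XT.nd (nat_lit 78) (nat_lit 0) (nat_lit 0) (XT.lf (nat_lit 0) (nat_lit 63204024377) (nat_lit 76) (nat_lit 30264553506) (nat_lit 76) (nat_lit 9813251179) (nat_lit 6) (nat_lit 4) (nat_lit 7) (nat_lit 5) (nat_lit 7) (nat_lit 4) (nat_lit 358) (nat_lit 304) (nat_lit 238)) (XT.lf (nat_lit 0) (nat_lit 88850522947) (nat_lit 76) (nat_lit 21146877338) (nat_lit 76) (nat_lit 686087974) (nat_lit 6) (nat_lit 4) (nat_lit 7) (nat_lit 5) (nat_lit 7) (nat_lit 4) (nat_lit 359) (nat_lit 304) (nat_lit 237))) (XT.nd (nat_lit 78) (nat_lit 76) (nat_lit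 0) (XT.lf (nat_lit 0) (nat_lit 8702831888) (nat_lit 152) (nat_lit 2367683331) (nat_lit 76) (nat_lit 107589894267) (nat_lit 5) (nat_lit 5) (nat_lit 7) (nat_lit 5) (nat_lit 6) (nat_lit 4) (nat_lit 360) (nat_lit 304) (nat_lit 236)) (XT.lf (nat_lit 0) (nat_lit 19276251400) (nat_lit 152) (nat_lit 107644763636) (nat_lit 0) (nat_lit 315411342) (nat_lit 4) (nat_lit 5) (nat_lit 6) (nat_lit 4) (nat_lit 4) (nat_lit 4) (nat_lit 361) (nat_lit 304) (nat_lit 235))))) (XT.nd (nat_lit 312) (nat_lit 76) (nat_lit 0) (XT.nd (nat_lit 156) (nat_lit 0) (nat_lit 0) (XT.nd (nat_lit 78) (nat_lit 0) (nat_lit 0) (XT.lf (nat_lit 0) (nat_lit 31040651313) (nat_lit 152) (nat_lit 93357430295) (nat_lit 0) (nat_lit 12072837999) (nat_lit 4) (nat_lit 5) (nat_lit 6) (nat_lit 4) (nat_lit 4) (nat_lit 4) (nat_lit 362) (nat_lit 304) (nat_lit 234)) (XT.lf (nat_lit 0) (nat_lit 43738002162) (nat_lit 152) (nat_lit 77943097357) (nat_lit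 0) (nat_lit 24763732130) (nat_lit 4) (nat_lit 5) (nat_lit 6) (nat_lit 4) (nat_lit 4) (nat_lit 4) (nat_lit 363) (nat_lit 304) (nat_lit 233))) (XT.nd (nat_lit 78) (nat_lit 0) (nat_lit 0) (XT.lf (nat_lit 0) (nat_lit 57443547509) (nat_lit 152) (nat_lit 61310420627) (nat_lit 0) (nat_lit 38463299034) (nat_lit 4) (nat_lit 5) (nat_lit 6) (nat_lit 4) (nat_lit 4) (nat_lit 4) (nat_lit 364) (nat_lit 304) (nat_lit 232)) (XT.lf (nat_lit 0) (nat_lit 72238505400) (nat_lit 152) (nat_lit 43360836094) (nat_lit 0) (nat_lit 53252721330) (nat_lit 4) (nat_lit 5) (nat_lit 6) (nat_lit 4) (nat_lit 4) (nat_lit 4) (nat_lit 365) (nat_lit 304) (nat_lit 231)))) (XT.nd (nat_lit 156) (nat_lit 76) (nat_lit 0) (XT.nd (nat_lit 78) (nat_lit 0) (nat_lit 0) (XT.lf (nat_lit 0) (nat_lit 88210549658) (nat_lit 152) (nat_lit 23987975851) (nat_lit 0) (nat_lit 69219640038) (nat_lit 4) (nat_lit 5) (nat_lit 6) (nat_lit 4) (nat_lit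 4) (nat_lit 4) (nat_lit 366) (nat_lit 304) (nat_lit 230)) (XT.lf (nat_lit 0) (nat_lit 105454329437) (nat_lit 152) (nat_lit 3077037761) (nat_lit 0) (nat_lit 86458673935) (nat_lit 4) (nat_lit 5) (nat_lit 6) (nat_lit 4) (nat_lit 4) (nat_lit 4) (nat_lit 367) (nat_lit 304) (nat_lit 229))) (XT.nd (nat_lit 78) (nat_lit 0) (nat_lit 0) (XT.lf (nat_lit 0) (nat_lit 20522514116) (nat_lit 76) (nat_lit 104043082938) (nat_lit 76) (nat_lit 85043033103) (nat_lit 3) (nat_lit 4) (nat_lit 4) (nat_lit 5) (nat_lit 4) (nat_lit 4) (nat_lit 368) (nat_lit 304) (nat_lit 228)) (XT.nd (nat_lit 78) (nat_lit 0) (nat_lit 0) (XT.lf (nat_lit 0) (nat_lit 46174418934) (nat_lit 76) (nat_lit 99110055704) (nat_lit 76) (nat_lit 80105937041) (nat_lit 3) (nat_lit 4) (nat_lit 4) (nat_lit 5) (nat_lit 4) (nat_lit 4) (nat_lit 369) (nat_lit 304) (nat_lit 227)) (XT.lf (nat_lit 0) (nat_lit 73868656623) (nat_lit 76) (nat_lit 93787184408)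 (nat_lit 76) (nat_lit 74779298312) (nat_lit 3) (nat_lit 4) (nat_lit 4) (nat_lit 5) (nat_lit 4) (nat_lit 4) (nat_lit 370) (nat_lit 304) (nat_lit 226))))))) (XT.nd (nat_lit 624) (nat_lit 152) (nat_lit 0) (XT.nd (nat_lit 312) (nat_lit 0) (nat_lit 0) (XT.nd (nat_lit 156) (nat_lit 0) (nat_lit 0) (XT.nd (nat_lit 78) (nat_lit 0) (nat_lit 0) (XT.lf (nat_lit 0) (nat_lit 103769341185) (nat_lit 76) (nat_lit 88042926108) (nat_lit 76) (nat_lit 69031551649) (nat_lit 3) (nat_lit 4) (nat_lit 4) (nat_lit 5) (nat_lit 4) (nat_lit 4) (nat_lit 371) (nat_lit 304) (nat_lit 225)) (XT.lf (nat_lit 0) (nat_lit 136053661862) (nat_lit 76) (nat_lit 81843240757) (nat_lit 76) (nat_lit 62828636330) (nat_lit 3) (nat_lit 4) (nat_lit 4) (nat_lit 5) (nat_lit 4) (nat_lit 4) (nat_lit 372) (nat_lit 304) (nat_lit 224))) (XT.nd (nat_lit 78) (nat_lit 0) (nat_lit 0) (XT.lf (nat_lit 0) (nat_lit 170912933146) (nat_lit 76) (nat_lit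 75151389476) (nat_lit 76) (nat_lit 56133794340) (nat_lit 3) (nat_lit 4) (nat_lit 4) (nat_lit 5) (nat_lit 4) (nat_lit 4) (nat_lit 373) (nat_lit 304) (nat_lit 223)) (XT.lf (nat_lit 0) (nat_lit 208553728498) (nat_lit 76) (nat_lit 67927716853) (nat_lit 76) (nat_lit 48907352541) (nat_lit 3) (nat_lit 4) (nat_lit 4) (nat_lit 5) (nat_lit 4) (nat_lit 4) (nat_lit 374) (nat_lit 304) (nat_lit 222)))) (XT.nd (nat_lit 156) (nat_lit 0) (nat_lit 0) (XT.nd (nat_lit 78) (nat_lit 0) (nat_lit 0) (XT.lf (nat_lit 0) (nat_lit 249199104481) (nat_lit 76) (nat_lit 60129415937) (nat_lit 76) (nat_lit 41106487573) (nat_lit 3) (nat_lit 4) (nat_lit 4) (nat_lit 5) (nat_lit 4) (nat_lit 4) (nat_lit 375) (nat_lit 304) (nat_lit 221)) (XT.lf (nat_lit 0) (nat_lit 293089922584) (nat_lit 76) (nat_lit 51710274574) (nat_lit 76) (nat_lit 32684972089) (nat_lit 3) (nat_lit 4) (nat_lit 4) (nat_lit 5) (nat_lit 4) (nat_lit 4) (nat_lit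 376) (nat_lit 304) (nat_lit 220))) (XT.nd (nat_lit 78) (nat_lit 0) (nat_lit 0) (XT.lf (nat_lit 0) (nat_lit 340486276544) (nat_lit 76) (nat_lit 42620401558) (nat_lit 76) (nat_lit 23592900812) (nat_lit 3) (nat_lit 4) (nat_lit 4) (nat_lit 5) (nat_lit 4) (nat_lit 4) (nat_lit 377) (nat_lit 304) (nat_lit 219)) (XT.lf (nat_lit 0) (nat_lit 391669033642) (nat_lit 76) (nat_lit 32805930974) (nat_lit 76) (nat_lit 13776394801) (nat_lit 3) (nat_lit 4) (nat_lit 4) (nat_lit 5) (nat_lit 4) (nat_lit 4) (nat_lit 378) (nat_lit 304) (nat_lit 218))))) (XT.nd (nat_lit 312) (nat_lit 0) (nat_lit 0) (XT.nd (nat_lit 156) (nat_lit 76) (nat_lit 0) (XT.nd (nat_lit 78) (nat_lit 76) (nat_lit 0) (XT.lf (nat_lit 0) (nat_lit 446941499107) (nat_lit 76) (nat_lit 22208702996) (nat_lit 76) (nat_lit 3177282169) (nat_lit 3) (nat_lit 4) (nat_lit 4) (nat_lit 5) (nat_lit 4) (nat_lit 4) (nat_lit 379) (nat_lit 304) (nat_lit 217))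 (XT.lf (nat_lit 0) (nat_lit 7853685481) (nat_lit 152) (nat_lit 2697500075) (nat_lit 76) (nat_lit 498562794313) (nat_lit 2) (nat_lit 5) (nat_lit 4) (nat_lit 5) (nat_lit 3) (nat_lit 4) (nat_lit 380) (nat_lit 304) (nat_lit 216))) (XT.nd (nat_lit 78) (nat_lit 0) (nat_lit 0) (XT.lf (nat_lit 0) (nat_lit 20208528762) (nat_lit 152) (nat_lit 525995489724) (nat_lit 0) (nat_lit 2583730924) (nat_lit 1) (nat_lit 5) (nat_lit 3) (nat_lit 4) (nat_lit 1) (nat_lit 4) (nat_lit 381) (nat_lit 304) (nat_lit 215)) (XT.lf (nat_lit 0) (nat_lit 33899288552) (nat_lit 152) (nat_lit 541435224903) (nat_lit 0) (nat_lit 16273105437) (nat_lit 1) (nat_lit 5) (nat_lit 3) (nat_lit 4) (nat_lit 1) (nat_lit 4) (nat_lit 382) (nat_lit 304) (nat_lit 214)))) (XT.nd (nat_lit 156) (nat_lit 0) (nat_lit 0) (XT.nd (nat_lit 78) (nat_lit 0) (nat_lit 0) (XT.lf (nat_lit 0) (nat_lit 48683274077) (nat_lit 152) (nat_lit 558114159011) (nat_lit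 0) (nat_lit 31055808297) (nat_lit 1) (nat_lit 5) (nat_lit 3) (nat_lit 4) (nat_lit 1) (nat_lit 4) (nat_lit 383) (nat_lit 304) (nat_lit 213)) (XT.lf (nat_lit 0) (nat_lit 64648094139) (nat_lit 152) (nat_lit 576131130178) (nat_lit 0) (nat_lit 47019440708) (nat_lit 1) (nat_lit 5) (nat_lit 3) (nat_lit 4) (nat_lit 1) (nat_lit 4) (nat_lit 384) (nat_lit 304) (nat_lit 212))) (XT.nd (nat_lit 78) (nat_lit 0) (nat_lit 0) (XT.lf (nat_lit 0) (nat_lit 81888355080) (nat_lit 152) (nat_lit 595592905640) (nat_lit 0) (nat_lit 64258601971) (nat_lit 1) (nat_lit 5) (nat_lit 3) (nat_lit 4) (nat_lit 1) (nat_lit 4) (nat_lit 385) (nat_lit 304) (nat_lit 211)) (XT.nd (nat_lit 78) (nat_lit 0) (nat_lit 0) (XT.lf (nat_lit 0) (nat_lit 100506221409) (nat_lit 152) (nat_lit 616614814436) (nat_lit 0) (nat_lit 82875450080) (nat_lit 1) (nat_lit 5) (nat_lit 3) (nat_lit 4) (nat_lit 1) (nat_lit 4) (nat_lit 386) (nat_lit 304) (nat_lit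 210)) (XT.lf (nat_lit 0) (nat_lit 120612021223) (nat_lit 152) (nat_lit 639321430841) (nat_lit 0) (nat_lit 102980307097) (nat_lit 1) (nat_lit 5) (nat_lit 3) (nat_lit 4) (nat_lit 1) (nat_lit 4) (nat_lit 387) (nat_lit 304) (nat_lit 209))))))))
noncomputable def xc111 : XT := (XT.nd (nat_lit 1326) (nat_lit 0) (nat_lit 0) (XT.nd (nat_lit 624) (nat_lit 0) (nat_lit 0) (XT.nd (nat_lit 312) (nat_lit 0) (nat_lit 0) (XT.nd (nat_lit 156) (nat_lit 0) (nat_lit 0) (XT.nd (nat_lit 78) (nat_lit 0) (nat_lit 0) (XT.lf (nat_lit 0) (nat_lit 142324900001) (nat_lit 152) (nat_lit 663847312582) (nat_lit 0) (nat_lit 124692312916) (nat_lit 1) (nat_lit 5) (nat_lit 3) (nat_lit 4) (nat_lit 1) (nat_lit 4) (nat_lit 388) (nat_lit 304) (nat_lit 208)) (XT.lf (nat_lit 0) (nat_lit 165773526656) (nat_lit 152) (nat_lit 690337798217) (nat_lit 0) (nat_lit 148140131275) (nat_lit 1) (nat_lit 5) (nat_lit 3) (nat_lit 4) (nat_lit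 1) (nat_lit 4) (nat_lit 389) (nat_lit 304) (nat_lit 207))) (XT.nd (nat_lit 78) (nat_lit 0) (nat_lit 0) (XT.lf (nat_lit 0) (nat_lit 191096856013) (nat_lit 152) (nat_lit 718949868401) (nat_lit 0) (nat_lit 173462712209) (nat_lit 1) (nat_lit 5) (nat_lit 3) (nat_lit 4) (nat_lit 1) (nat_lit 4) (nat_lit 390) (nat_lit 304) (nat_lit 206)) (XT.lf (nat_lit 0) (nat_lit 218444952244) (nat_lit 152) (nat_lit 749853076144) (nat_lit 0) (nat_lit 200810115457) (nat_lit 1) (nat_lit 5) (nat_lit 3) (nat_lit 4) (nat_lit 1) (nat_lit 4) (nat_lit 391) (nat_lit 304) (nat_lit 205)))) (XT.nd (nat_lit 156) (nat_lit 0) (nat_lit 0) (XT.nd (nat_lit 78) (nat_lit 0) (nat_lit 0) (XT.lf (nat_lit 0) (nat_lit 247979878142) (nat_lit 152) (nat_lit 783230551565) (nat_lit 0) (nat_lit 230344399704) (nat_lit 1) (nat_lit 5) (nat_lit 3) (nat_lit 4) (nat_lit 1) (nat_lit 4) (nat_lit 392) (nat_lit 304) (nat_lit 204)) (XT.lf (nat_lit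 0) (nat_lit 279876655492) (nat_lit 152) (nat_lit 819280087112) (nat_lit 0) (nat_lit 262240582931) (nat_lit 1) (nat_lit 5) (nat_lit 3) (nat_lit 4) (nat_lit 1) (nat_lit 4) (nat_lit 393) (nat_lit 304) (nat_lit 203))) (XT.nd (nat_lit 78) (nat_lit 0) (nat_lit 0) (XT.lf (nat_lit 0) (nat_lit 314324302231) (nat_lit 152) (nat_lit 858215309661) (nat_lit 0) (nat_lit 296687679558) (nat_lit 1) (nat_lit 5) (nat_lit 3) (nat_lit 4) (nat_lit 1) (nat_lit 4) (nat_lit 394) (nat_lit 304) (nat_lit 202)) (XT.lf (nat_lit 0) (nat_lit 351526952564) (nat_lit 152) (nat_lit 900266946457) (nat_lit 0) (nat_lit 333889820527) (nat_lit 1) (nat_lit 5) (nat_lit 3) (nat_lit 4) (nat_lit 1) (nat_lit 4) (nat_lit 395) (nat_lit 304) (nat_lit 201))))) (XT.nd (nat_lit 312) (nat_lit 0) (nat_lit 0) (XT.nd (nat_lit 156) (nat_lit 0) (nat_lit 0) (XT.nd (nat_lit 78) (nat_lit 0) (nat_lit 0) (XT.lf (nat_lit 0) (nat_lit 391705066640) (nat_lit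 152) (nat_lit 945684192385) (nat_lit 0) (nat_lit 374067462971) (nat_lit 1) (nat_lit 5) (nat_lit 3) (nat_lit 4) (nat_lit 1) (nat_lit 4) (nat_lit 396) (nat_lit 304) (nat_lit 200)) (XT.lf (nat_lit 0) (nat_lit 435096736988) (nat_lit 152) (nat_lit 994736186680) (nat_lit 0) (nat_lit 417458696621) (nat_lit 1) (nat_lit 5) (nat_lit 3) (nat_lit 4) (nat_lit 1) (nat_lit 4) (nat_lit 397) (nat_lit 304) (nat_lit 199))) (XT.nd (nat_lit 78) (nat_lit 0) (nat_lit 0) (XT.lf (nat_lit 0) (nat_lit 481959099431) (nat_lit 152) (nat_lit 1047713607826) (nat_lit 0) (nat_lit 464320654715) (nat_lit 1) (nat_lit 5) (nat_lit 3) (nat_lit 4) (nat_lit 1) (nat_lit 4) (nat_lit 398) (nat_lit 304) (nat_lit 198)) (XT.lf (nat_lit 0) (nat_lit 532569856858) (nat_lit 152) (nat_lit 1104930396099) (nat_lit 0) (nat_lit 514931037745) (nat_lit 1) (nat_lit 5) (nat_lit 3) (nat_lit 4) (nat_lit 1) (nat_lit 4) (nat_lit 399) (nat_lit 304)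 (nat_lit 197)))) (XT.nd (nat_lit 156) (nat_lit 0) (nat_lit 0) (XT.nd (nat_lit 78) (nat_lit 0) (nat_lit 0) (XT.lf (nat_lit 0) (nat_lit 587228924870) (nat_lit 152) (nat_lit 1166725613945) (nat_lit 0) (nat_lit 569589759092) (nat_lit 1) (nat_lit 5) (nat_lit 3) (nat_lit 4) (nat_lit 1) (nat_lit 4) (nat_lit 400) (nat_lit 304) (nat_lit 196)) (XT.lf (nat_lit 0) (nat_lit 646260209052) (nat_lit 152) (nat_lit 1233465455249) (nat_lit 0) (nat_lit 628620722289) (nat_lit 1) (nat_lit 5) (nat_lit 3) (nat_lit 4) (nat_lit 1) (nat_lit 4) (nat_lit 401) (nat_lit 304) (nat_lit 195))) (XT.nd (nat_lit 78) (nat_lit 0) (nat_lit 0) (XT.lf (nat_lit 0) (nat_lit 710013524425) (nat_lit 152) (nat_lit 1305545415367) (nat_lit 0) (nat_lit 692373740453) (nat_lit 1) (nat_lit 5) (nat_lit 3) (nat_lit 4) (nat_lit 1) (nat_lit 4) (nat_lit 402) (nat_lit 304) (nat_lit 194)) (XT.nd (nat_lit 78) (nat_lit 0) (nat_lit 0) (XT.lf (nat_lit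 0) (nat_lit 778866668411) (nat_lit 152) (nat_lit 1383392634803) (nat_lit 0) (nat_lit 761226609245) (nat_lit 1) (nat_lit 5) (nat_lit 3) (nat_lit 4) (nat_lit 1) (nat_lit 4) (nat_lit 403) (nat_lit 304) (nat_lit 193)) (XT.lf (nat_lit 0) (nat_lit 853227659641) (nat_lit 152) (nat_lit 1467468430413) (nat_lit 0) (nat_lit 835587345668) (nat_lit 1) (nat_lit 5) (nat_lit 3) (nat_lit 4) (nat_lit 1) (nat_lit 4) (nat_lit 404) (nat_lit 304) (nat_lit 192))))))) (XT.nd (nat_lit 39078) (nat_lit 0) (nat_lit 3876) (XT.nd (nat_lit 312) (nat_lit 0) (nat_lit 0) (XT.nd (nat_lit 156) (nat_lit 0) (nat_lit 0) (XT.nd (nat_lit 78) (nat_lit 0) (nat_lit 0) (XT.lf (nat_lit 0) (nat_lit 933537155843) (nat_lit 152) (nat_lit 1558271029133) (nat_lit 0) (nat_lit 915896605935) (nat_lit 1) (nat_lit 5) (nat_lit 3) (nat_lit 4) (nat_lit 1) (nat_lit 4) (nat_lit 405) (nat_lit 304) (nat_lit 191)) (XT.lf (nat_lit 0) (nat_lit 1020271065140)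 (nat_lit 152) (nat_lit 1656338520439) (nat_lit 0) (nat_lit 1002630296775) (nat_lit 1) (nat_lit 5) (nat_lit 3) (nat_lit 4) (nat_lit 1) (nat_lit 4) (nat_lit 406) (nat_lit 304) (nat_lit 190))) (XT.nd (nat_lit 78) (nat_lit 0) (nat_lit 0) (XT.lf (nat_lit 0) (nat_lit 1113943366255) (nat_lit 152) (nat_lit 1762252045019) (nat_lit 0) (nat_lit 1096302395615) (nat_lit 1) (nat_lit 5) (nat_lit 3) (nat_lit 4) (nat_lit 1) (nat_lit 4) (nat_lit 407) (nat_lit 304) (nat_lit 189)) (XT.lf (nat_lit 0) (nat_lit 1215109154306) (nat_lit 152) (nat_lit 1876639238574) (nat_lit 0) (nat_lit 1197467996374) (nat_lit 1) (nat_lit 5) (nat_lit 3) (nat_lit 4) (nat_lit 1) (nat_lit 4) (nat_lit 408) (nat_lit 304) (nat_lit 188)))) (XT.nd (nat_lit 156) (nat_lit 0) (nat_lit 0) (XT.nd (nat_lit 78) (nat_lit 0) (nat_lit 0) (XT.lf (nat_lit 0) (nat_lit 1324367930259) (nat_lit 152) (nat_lit 2000177951140) (nat_lit 0) (nat_lit 1306726598909)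 (nat_lit 1) (nat_lit 5) (nat_lit 3) (nat_lit 4) (nat_lit 1) (nat_lit 4) (nat_lit 409) (nat_lit 304) (nat_lit 187)) (XT.lf (nat_lit 0) (nat_lit 1442367153527) (nat_lit 152) (nat_lit 2133600263977) (nat_lit 0) (nat_lit 1424725661604) (nat_lit 1) (nat_lit 5) (nat_lit 3) (nat_lit 4) (nat_lit 1) (nat_lit 4) (nat_lit 410) (nat_lit 304) (nat_lit 186))) (XT.nd (nat_lit 78) (nat_lit 0) (nat_lit 0) (XT.lf (nat_lit 0) (nat_lit 1569806078767) (nat_lit 152) (nat_lit 2277696827827) (nat_lit 0) (nat_lit 1552164438165) (nat_lit 1) (nat_lit 5) (nat_lit 3) (nat_lit 4) (nat_lit 1) (nat_lit 4) (nat_lit 411) (nat_lit 304) (nat_lit 185)) (XT.nd (nat_lit 78) (nat_lit 0) (nat_lit 0) (XT.lf (nat_lit 0) (nat_lit 1707439899608) (nat_lit 152) (nat_lit 2433321548255) (nat_lit 0) (nat_lit 1689798121342) (nat_lit 1) (nat_lit 5) (nat_lit 3) (nat_lit 4) (nat_lit 1) (nat_lit 4) (nat_lit 412) (nat_lit 304) (nat_lit 184))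 (XT.lf (nat_lit 0) (nat_lit 1856084223880) (nat_lit 152) (nat_lit 2601396645825) (nat_lit 0) (nat_lit 1838442318145) (nat_lit 1) (nat_lit 5) (nat_lit 3) (nat_lit 4) (nat_lit 1) (nat_lit 4) (nat_lit 413) (nat_lit 304) (nat_lit 183)))))) (XT.nd (nat_lit 312) (nat_lit 380) (nat_lit 0) (XT.nd (nat_lit 156) (nat_lit 304) (nat_lit 0) (XT.nd (nat_lit 78) (nat_lit 0) (nat_lit 0) (XT.lf (nat_lit 0) (nat_lit 1581739941) (nat_lit 380) (nat_lit 1001323931) (nat_lit 380) (nat_lit 1001323931) (nat_lit 61) (nat_lit 3) (nat_lit 66) (nat_lit 3) (nat_lit 66) (nat_lit 5) (nat_lit 305) (nat_lit 305) (nat_lit 290)) (XT.lf (nat_lit 76) (nat_lit 1435043899) (nat_lit 0) (nat_lit 3430836755) (nat_lit 380) (nat_lit 2458712961) (nat_lit 62) (nat_lit 5) (nat_lit 61) (nat_lit 3) (nat_lit 66) (nat_lit 5) (nat_lit 306) (nat_lit 305) (nat_lit 289))) (XT.nd (nat_lit 78) (nat_lit 304) (nat_lit 0) (XT.lf (nat_lit 76) (nat_lit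 5173729358) (nat_lit 0) (nat_lit 1429176724) (nat_lit 380) (nat_lit 898583015) (nat_lit 62) (nat_lit 5) (nat_lit 61) (nat_lit 3) (nat_lit 66) (nat_lit 5) (nat_lit 307) (nat_lit 305) (nat_lit 288)) (XT.lf (nat_lit 0) (nat_lit 654258935) (nat_lit 380) (nat_lit 6236292884) (nat_lit 456) (nat_lit 808309593) (nat_lit 57) (nat_lit 5) (nat_lit 62) (nat_lit 5) (nat_lit 63) (nat_lit 5) (nat_lit 308) (nat_lit 305) (nat_lit 287)))) (XT.nd (nat_lit 156) (nat_lit 380) (nat_lit 0) (XT.nd (nat_lit 78) (nat_lit 0) (nat_lit 0) (XT.lf (nat_lit 0) (nat_lit 2246465068) (nat_lit 380) (nat_lit 2380784807) (nat_lit 456) (nat_lit 3286198073) (nat_lit 57) (nat_lit 5) (nat_lit 62) (nat_lit 5) (nat_lit 63) (nat_lit 5) (nat_lit 309) (nat_lit 305) (nat_lit 286)) (XT.lf (nat_lit 76) (nat_lit 1779356666) (nat_lit 0) (nat_lit 2101025318) (nat_lit 456) (nat_lit 4272030378) (nat_lit 58) (nat_lit 5) (nat_lit 57) (nat_lit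 5) (nat_lit 63) (nat_lit 5) (nat_lit 310) (nat_lit 305) (nat_lit 285))) (XT.nd (nat_lit 78) (nat_lit 456) (nat_lit 0) (XT.lf (nat_lit 0) (nat_lit 5606502052) (nat_lit 380) (nat_lit 2115582817) (nat_lit 76) (nat_lit 691821076) (nat_lit 58) (nat_lit 5) (nat_lit 63) (nat_lit 5) (nat_lit 59) (nat_lit 5) (nat_lit 311) (nat_lit 305) (nat_lit 284)) (XT.nd (nat_lit 78) (nat_lit 76) (nat_lit 0) (XT.lf (nat_lit 0) (nat_lit 2457102242) (nat_lit 380) (nat_lit 5015809782) (nat_lit 456) (nat_lit 1223537634) (nat_lit 53) (nat_lit 5) (nat_lit 58) (nat_lit 5) (nat_lit 59) (nat_lit 5) (nat_lit 312) (nat_lit 305) (nat_lit 283)) (XT.lf (nat_lit 0) (nat_lit 413607417) (nat_lit 456) (nat_lit 1591594573) (nat_lit 76) (nat_lit 6999646086) (nat_lit 52) (nat_lit 5) (nat_lit 58) (nat_lit 5) (nat_lit 53) (nat_lit 5) (nat_lit 313) (nat_lit 305) (nat_lit 282))))))))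
noncomputable def xc112 : XT := (XT.nd (nat_lit 1326) (nat_lit 836) (nat_lit 0) (XT.nd (nat_lit 624) (nat_lit 912) (nat_lit 0) (XT.nd (nat_lit 312) (nat_lit 456) (nat_lit 0) (XT.nd (nat_lit 156) (nat_lit 532) (nat_lit 0) (XT.nd (nat_lit 78) (nat_lit 0) (nat_lit 0) (XT.lf (nat_lit 0) (nat_lit 2132155766) (nat_lit 532) (nat_lit 5889999532) (nat_lit 76) (nat_lit 1312141337) (nat_lit 46) (nat_lit 5) (nat_lit 53) (nat_lit 5) (nat_lit 47) (nat_lit 5) (nat_lit 314) (nat_lit 305) (nat_lit 281)) (XT.lf (nat_lit 0) (nat_lit 3990032973) (nat_lit 532) (nat_lit 862097400) (nat_lit 76) (nat_lit 4838048516) (nat_lit 46) (nat_lit 5) (nat_lit 53) (nat_lit 5) (nat_lit 47) (nat_lit 5) (nat_lit 315) (nat_lit 305) (nat_lit 280))) (XT.nd (nat_lit 78) (nat_lit 228) (nat_lit 0) (XT.lf (nat_lit 0) (nat_lit 4715168240) (nat_lit 304) (nat_lit 1306915077) (nat_lit 380) (nat_lit 4050613683) (nat_lit 42) (nat_lit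 5) (nat_lit 46) (nat_lit 5) (nat_lit 47) (nat_lit 5) (nat_lit 316) (nat_lit 305) (nat_lit 279)) (XT.lf (nat_lit 0) (nat_lit 157014856) (nat_lit 228) (nat_lit 8064791817) (nat_lit 304) (nat_lit 2263794421) (nat_lit 39) (nat_lit 5) (nat_lit 42) (nat_lit 5) (nat_lit 43) (nat_lit 5) (nat_lit 317) (nat_lit 305) (nat_lit 278)))) (XT.nd (nat_lit 156) (nat_lit 152) (nat_lit 0) (XT.nd (nat_lit 78) (nat_lit 304) (nat_lit 0) (XT.lf (nat_lit 0) (nat_lit 6290749948) (nat_lit 228) (nat_lit 4406824451) (nat_lit 304) (nat_lit 226136732) (nat_lit 39) (nat_lit 5) (nat_lit 42) (nat_lit 5) (nat_lit 43) (nat_lit 5) (nat_lit 318) (nat_lit 305) (nat_lit 277)) (XT.lf (nat_lit 0) (nat_lit 1455296510) (nat_lit 228) (nat_lit 379778255) (nat_lit 304) (nat_lit 9561404382) (nat_lit 35) (nat_lit 5) (nat_lit 38) (nat_lit 5) (nat_lit 39) (nat_lit 5) (nat_lit 319) (nat_lit 305) (nat_lit 276))) (XT.nd (nat_lit 78) (nat_lit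 152) (nat_lit 0) (XT.lf (nat_lit 0) (nat_lit 4201910234) (nat_lit 304) (nat_lit 3799140135) (nat_lit 76) (nat_lit 3893454843) (nat_lit 35) (nat_lit 5) (nat_lit 39) (nat_lit 5) (nat_lit 36) (nat_lit 5) (nat_lit 320) (nat_lit 305) (nat_lit 275)) (XT.lf (nat_lit 0) (nat_lit 2883778175) (nat_lit 152) (nat_lit 3886418662) (nat_lit 228) (nat_lit 5661339706) (nat_lit 33) (nat_lit 5) (nat_lit 35) (nat_lit 5) (nat_lit 36) (nat_lit 5) (nat_lit 321) (nat_lit 305) (nat_lit 274))))) (XT.nd (nat_lit 312) (nat_lit 456) (nat_lit 0) (XT.nd (nat_lit 156) (nat_lit 228) (nat_lit 0) (XT.nd (nat_lit 78) (nat_lit 228) (nat_lit 0) (XT.lf (nat_lit 0) (nat_lit 9599344179) (nat_lit 228) (nat_lit 2789470805) (nat_lit 76) (nat_lit 618405353) (nat_lit 33) (nat_lit 5) (nat_lit 36) (nat_lit 5) (nat_lit 34) (nat_lit 5) (nat_lit 322) (nat_lit 305) (nat_lit 273)) (XT.lf (nat_lit 0) (nat_lit 4555357833) (nat_lit 228) (nat_lit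 8250171065) (nat_lit 304) (nat_lit 811486251) (nat_lit 30) (nat_lit 5) (nat_lit 33) (nat_lit 5) (nat_lit 34) (nat_lit 5) (nat_lit 323) (nat_lit 305) (nat_lit 272))) (XT.nd (nat_lit 78) (nat_lit 152) (nat_lit 0) (XT.lf (nat_lit 0) (nat_lit 1912332214) (nat_lit 304) (nat_lit 1755180308) (nat_lit 76) (nat_lit 10602792221) (nat_lit 29) (nat_lit 5) (nat_lit 33) (nat_lit 5) (nat_lit 30) (nat_lit 5) (nat_lit 324) (nat_lit 305) (nat_lit 271)) (XT.lf (nat_lit 0) (nat_lit 4943421801) (nat_lit 228) (nat_lit 8644602847) (nat_lit 76) (nat_lit 1375579606) (nat_lit 27) (nat_lit 5) (nat_lit 30) (nat_lit 5) (nat_lit 28) (nat_lit 5) (nat_lit 325) (nat_lit 305) (nat_lit 270)))) (XT.nd (nat_lit 156) (nat_lit 304) (nat_lit 0) (XT.nd (nat_lit 78) (nat_lit 152) (nat_lit 0) (XT.lf (nat_lit 0) (nat_lit 8308725250) (nat_lit 228) (nat_lit 744015154) (nat_lit 76) (nat_lit 6652372070) (nat_lit 27) (nat_lit 5) (nat_lit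 30) (nat_lit 5) (nat_lit 28) (nat_lit 5) (nat_lit 326) (nat_lit 305) (nat_lit 269)) (XT.lf (nat_lit 0) (nat_lit 8122810649) (nat_lit 152) (nat_lit 3966935379) (nat_lit 228) (nat_lit 4404552622) (nat_lit 25) (nat_lit 5) (nat_lit 27) (nat_lit 5) (nat_lit 28) (nat_lit 5) (nat_lit 327) (nat_lit 305) (nat_lit 268))) (XT.nd (nat_lit 78) (nat_lit 228) (nat_lit 0) (XT.lf (nat_lit 0) (nat_lit 300532989) (nat_lit 76) (nat_lit 15890013311) (nat_lit 152) (nat_lit 1154760652) (nat_lit 24) (nat_lit 5) (nat_lit 25) (nat_lit 5) (nat_lit 26) (nat_lit 4) (nat_lit 328) (nat_lit 305) (nat_lit 267)) (XT.nd (nat_lit 78) (nat_lit 152) (nat_lit 0) (XT.lf (nat_lit 0) (nat_lit 2528129872) (nat_lit 152) (nat_lit 8343547728) (nat_lit 76) (nat_lit 7364974381) (nat_lit 23) (nat_lit 5) (nat_lit 25) (nat_lit 5) (nat_lit 24) (nat_lit 5) (nat_lit 329) (nat_lit 305) (nat_lit 266)) (XT.lf (nat_lit 0) (nat_lit 1005321165)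 (nat_lit 152) (nat_lit 5418648015) (nat_lit 228) (nat_lit 12774535970) (nat_lit 21) (nat_lit 5) (nat_lit 23) (nat_lit 5) (nat_lit 24) (nat_lit 5) (nat_lit 330) (nat_lit 305) (nat_lit 265))))))) (XT.nd (nat_lit 624) (nat_lit 456) (nat_lit 0) (XT.nd (nat_lit 312) (nat_lit 76) (nat_lit 0) (XT.nd (nat_lit 156) (nat_lit 228) (nat_lit 0) (XT.nd (nat_lit 78) (nat_lit 76) (nat_lit 0) (XT.lf (nat_lit 0) (nat_lit 10834377380) (nat_lit 228) (nat_lit 8729503738) (nat_lit 76) (nat_lit 657245545) (nat_lit 21) (nat_lit 5) (nat_lit 24) (nat_lit 5) (nat_lit 22) (nat_lit 4) (nat_lit 331) (nat_lit 305) (nat_lit 264)) (XT.lf (nat_lit 0) (nat_lit 1353602490) (nat_lit 76) (nat_lit 14377990376) (nat_lit 152) (nat_lit 5583295421) (nat_lit 20) (nat_lit 5) (nat_lit 21) (nat_lit 5) (nat_lit 22) (nat_lit 4) (nat_lit 332) (nat_lit 305) (nat_lit 263))) (XT.nd (nat_lit 78) (nat_lit 228) (nat_lit 0) (XT.lf (nat_lit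 0) (nat_lit 12676811197) (nat_lit 76) (nat_lit 8544528547) (nat_lit 152) (nat_lit 1258795545) (nat_lit 20) (nat_lit 5) (nat_lit 21) (nat_lit 5) (nat_lit 22) (nat_lit 4) (nat_lit 333) (nat_lit 305) (nat_lit 262)) (XT.lf (nat_lit 0) (nat_lit 1078924520) (nat_lit 152) (nat_lit 2151954567) (nat_lit 228) (nat_lit 20502006903) (nat_lit 17) (nat_lit 5) (nat_lit 19) (nat_lit 5) (nat_lit 20) (nat_lit 5) (nat_lit 334) (nat_lit 305) (nat_lit 261)))) (XT.nd (nat_lit 156) (nat_lit 76) (nat_lit 0) (XT.nd (nat_lit 78) (nat_lit 0) (nat_lit 0) (XT.lf (nat_lit 0) (nat_lit 8365623772) (nat_lit 228) (nat_lit 11890071519) (nat_lit 76) (nat_lit 4799269025) (nat_lit 17) (nat_lit 5) (nat_lit 20) (nat_lit 5) (nat_lit 18) (nat_lit 4) (nat_lit 335) (nat_lit 305) (nat_lit 260)) (XT.lf (nat_lit 0) (nat_lit 13934279138) (nat_lit 228) (nat_lit 377437836) (nat_lit 76) (nat_lit 12169274360) (nat_lit 17) (nat_lit 5) (nat_lit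 20) (nat_lit 5) (nat_lit 18) (nat_lit 4) (nat_lit 336) (nat_lit 305) (nat_lit 259))) (XT.nd (nat_lit 78) (nat_lit 0) (nat_lit 0) (XT.lf (nat_lit 0) (nat_lit 12636022154) (nat_lit 76) (nat_lit 7585964545) (nat_lit 152) (nat_lit 7777259507) (nat_lit 16) (nat_lit 5) (nat_lit 17) (nat_lit 5) (nat_lit 18) (nat_lit 4) (nat_lit 337) (nat_lit 305) (nat_lit 258)) (XT.lf (nat_lit 0) (nat_lit 26661058560) (nat_lit 76) (nat_lit 332656708) (nat_lit 152) (nat_lit 2646794068) (nat_lit 16) (nat_lit 5) (nat_lit 17) (nat_lit 5) (nat_lit 18) (nat_lit 4) (nat_lit 338) (nat_lit 305) (nat_lit 257))))) (XT.nd (nat_lit 312) (nat_lit 228) (nat_lit 0) (XT.nd (nat_lit 156) (nat_lit 76) (nat_lit 0) (XT.nd (nat_lit 78) (nat_lit 0) (nat_lit 0) (XT.lf (nat_lit 0) (nat_lit 3170092723) (nat_lit 152) (nat_lit 20759514536) (nat_lit 76) (nat_lit 7444261447) (nat_lit 14) (nat_lit 5) (nat_lit 16) (nat_lit 5) (nat_lit 15)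 (nat_lit 4) (nat_lit 339) (nat_lit 305) (nat_lit 256)) (XT.lf (nat_lit 0) (nat_lit 9374111434) (nat_lit 152) (nat_lit 7902911784) (nat_lit 76) (nat_lit 15958214048) (nat_lit 14) (nat_lit 5) (nat_lit 16) (nat_lit 5) (nat_lit 15) (nat_lit 4) (nat_lit 340) (nat_lit 305) (nat_lit 255))) (XT.nd (nat_lit 78) (nat_lit 0) (nat_lit 0) (XT.lf (nat_lit 0) (nat_lit 6249340890) (nat_lit 76) (nat_lit 9949997153) (nat_lit 152) (nat_lit 19036207096) (nat_lit 13) (nat_lit 5) (nat_lit 14) (nat_lit 5) (nat_lit 15) (nat_lit 4) (nat_lit 341) (nat_lit 305) (nat_lit 254)) (XT.lf (nat_lit 0) (nat_lit 21938875526) (nat_lit 76) (nat_lit 1823192254) (nat_lit 152) (nat_lit 13618510269) (nat_lit 13) (nat_lit 5) (nat_lit 14) (nat_lit 5) (nat_lit 15) (nat_lit 4) (nat_lit 342) (nat_lit 305) (nat_lit 253)))) (XT.nd (nat_lit 156) (nat_lit 152) (nat_lit 0) (XT.nd (nat_lit 78) (nat_lit 76) (nat_lit 0) (XT.lf (nat_lit 0)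 (nat_lit 32073841340) (nat_lit 152) (nat_lit 1023337622) (nat_lit 0) (nat_lit 6588530375) (nat_lit 13) (nat_lit 5) (nat_lit 15) (nat_lit 4) (nat_lit 13) (nat_lit 4) (nat_lit 343) (nat_lit 305) (nat_lit 252)) (XT.lf (nat_lit 0) (nat_lit 15223361177) (nat_lit 76) (nat_lit 26219180325) (nat_lit 76) (nat_lit 701367314) (nat_lit 12) (nat_lit 4) (nat_lit 13) (nat_lit 5) (nat_lit 13) (nat_lit 4) (nat_lit 344) (nat_lit 305) (nat_lit 251))) (XT.nd (nat_lit 78) (nat_lit 76) (nat_lit 0) (XT.lf (nat_lit 0) (nat_lit 6431040802) (nat_lit 152) (nat_lit 12171342627) (nat_lit 76) (nat_lit 26182798597) (nat_lit 11) (nat_lit 5) (nat_lit 13) (nat_lit 5) (nat_lit 12) (nat_lit 4) (nat_lit 345) (nat_lit 305) (nat_lit 250)) (XT.nd (nat_lit 78) (nat_lit 0) (nat_lit 0) (XT.lf (nat_lit 0) (nat_lit 3898041746) (nat_lit 76) (nat_lit 10272061382) (nat_lit 152) (nat_lit 33460293360) (nat_lit 10) (nat_lit 5) (nat_lit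 11) (nat_lit 5) (nat_lit 12) (nat_lit 4) (nat_lit 346) (nat_lit 305) (nat_lit 249)) (XT.lf (nat_lit 0) (nat_lit 21909561318) (nat_lit 76) (nat_lit 932330629) (nat_lit 152) (nat_lit 27836260141) (nat_lit 10) (nat_lit 5) (nat_lit 11) (nat_lit 5) (nat_lit 12) (nat_lit 4) (nat_lit 347) (nat_lit 305) (nat_lit 248))))))))
noncomputable def xc113 : XT := (XT.nd (nat_lit 1326) (nat_lit 152) (nat_lit 0) (XT.nd (nat_lit 624) (nat_lit 228) (nat_lit 0) (XT.nd (nat_lit 312) (nat_lit 76) (nat_lit 0) (XT.nd (nat_lit 156) (nat_lit 76) (nat_lit 0) (XT.nd (nat_lit 78) (nat_lit 76) (nat_lit 0) (XT.lf (nat_lit 0) (nat_lit 32409462431) (nat_lit 152) (nat_lit 12861932789) (nat_lit 0) (nat_lit 8682181037) (nat_lit 10) (nat_lit 5) (nat_lit 12) (nat_lit 4) (nat_lit 10) (nat_lit 4) (nat_lit 348) (nat_lit 305) (nat_lit 247)) (XT.lf (nat_lit 0) (nat_lit 4485927886) (nat_lit 76) (nat_lit 38371827355) (nat_lit 76)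 (nat_lit 14624064159) (nat_lit 9) (nat_lit 4) (nat_lit 10) (nat_lit 5) (nat_lit 10) (nat_lit 4) (nat_lit 349) (nat_lit 305) (nat_lit 246))) (XT.nd (nat_lit 78) (nat_lit 76) (nat_lit 0) (XT.lf (nat_lit 0) (nat_lit 23922367007) (nat_lit 76) (nat_lit 30554930760) (nat_lit 76) (nat_lit 6788202933) (nat_lit 9) (nat_lit 4) (nat_lit 10) (nat_lit 5) (nat_lit 10) (nat_lit 4) (nat_lit 350) (nat_lit 305) (nat_lit 245)) (XT.lf (nat_lit 0) (nat_lit 1575284840) (nat_lit 152) (nat_lit 20507695201) (nat_lit 76) (nat_lit 43266920963) (nat_lit 8) (nat_lit 5) (nat_lit 10) (nat_lit 5) (nat_lit 9) (nat_lit 4) (nat_lit 351) (nat_lit 305) (nat_lit 244)))) (XT.nd (nat_lit 156) (nat_lit 0) (nat_lit 0) (XT.nd (nat_lit 78) (nat_lit 76) (nat_lit 0) (XT.lf (nat_lit 0) (nat_lit 10226782993) (nat_lit 152) (nat_lit 2528838158) (nat_lit 76) (nat_lit 56992480800) (nat_lit 8) (nat_lit 5) (nat_lit 10) (nat_lit 5) (nat_lit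 9) (nat_lit 4) (nat_lit 352) (nat_lit 305) (nat_lit 243)) (XT.lf (nat_lit 0) (nat_lit 17751223337) (nat_lit 76) (nat_lit 2232827074) (nat_lit 152) (nat_lit 54481023671) (nat_lit 7) (nat_lit 5) (nat_lit 8) (nat_lit 5) (nat_lit 9) (nat_lit 4) (nat_lit 353) (nat_lit 305) (nat_lit 242))) (XT.nd (nat_lit 78) (nat_lit 0) (nat_lit 0) (XT.lf (nat_lit 0) (nat_lit 30799305943) (nat_lit 152) (nat_lit 40002995999) (nat_lit 0) (nat_lit 8734916044) (nat_lit 7) (nat_lit 5) (nat_lit 9) (nat_lit 4) (nat_lit 7) (nat_lit 4) (nat_lit 354) (nat_lit 305) (nat_lit 241)) (XT.lf (nat_lit 0) (nat_lit 42525599739) (nat_lit 152) (nat_lit 22036615386) (nat_lit 0) (nat_lit 20449258906) (nat_lit 7) (nat_lit 5) (nat_lit 9) (nat_lit 4) (nat_lit 7) (nat_lit 4) (nat_lit 355) (nat_lit 305) (nat_lit 240))))) (XT.nd (nat_lit 312) (nat_lit 152) (nat_lit 0) (XT.nd (nat_lit 156) (nat_lit 0) (nat_lit 0) (XT.nd (nat_lit 78) (nat_lit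 76) (nat_lit 0) (XT.lf (nat_lit 0) (nat_lit 55178721404) (nat_lit 152) (nat_lit 2654541921) (nat_lit 0) (nat_lit 33091314890) (nat_lit 7) (nat_lit 5) (nat_lit 9) (nat_lit 4) (nat_lit 7) (nat_lit 4) (nat_lit 356) (nat_lit 305) (nat_lit 239)) (XT.lf (nat_lit 0) (nat_lit 19219519322) (nat_lit 76) (nat_lit 50076362978) (nat_lit 76) (nat_lit 27978710464) (nat_lit 6) (nat_lit 4) (nat_lit 7) (nat_lit 5) (nat_lit 7) (nat_lit 4) (nat_lit 357) (nat_lit 305) (nat_lit 238))) (XT.nd (nat_lit 78) (nat_lit 0) (nat_lit 0) (XT.lf (nat_lit 0) (nat_lit 42974962065) (nat_lit 76) (nat_lit 41629897639) (nat_lit 76) (nat_lit 19522758088) (nat_lit 6) (nat_lit 4) (nat_lit 7) (nat_lit 5) (nat_lit 7) (nat_lit 4) (nat_lit 358) (nat_lit 305) (nat_lit 237)) (XT.lf (nat_lit 0) (nat_lit 68612775827) (nat_lit 76) (nat_lit 32516394062) (nat_lit 76) (nat_lit 10400470217) (nat_lit 6) (nat_lit 4) (nat_lit 7) (nat_lit 5)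 (nat_lit 7) (nat_lit 4) (nat_lit 359) (nat_lit 305) (nat_lit 236)))) (XT.nd (nat_lit 156) (nat_lit 76) (nat_lit 0) (XT.nd (nat_lit 78) (nat_lit 76) (nat_lit 0) (XT.lf (nat_lit 0) (nat_lit 96284888394) (nat_lit 76) (nat_lit 22681846299) (nat_lit 76) (nat_lit 557788849) (nat_lit 6) (nat_lit 4) (nat_lit 7) (nat_lit 5) (nat_lit 7) (nat_lit 4) (nat_lit 360) (nat_lit 305) (nat_lit 235)) (XT.lf (nat_lit 0) (nat_lit 9560190336) (nat_lit 152) (nat_lit 2246392666) (nat_lit 76) (nat_lit 116333699772) (nat_lit 5) (nat_lit 5) (nat_lit 7) (nat_lit 5) (nat_lit 6) (nat_lit 4) (nat_lit 361) (nat_lit 305) (nat_lit 234))) (XT.nd (nat_lit 78) (nat_lit 0) (nat_lit 0) (XT.lf (nat_lit 0) (nat_lit 20978350966) (nat_lit 152) (nat_lit 115944443138) (nat_lit 0) (nat_lit 479682613) (nat_lit 4) (nat_lit 5) (nat_lit 6) (nat_lit 4) (nat_lit 4) (nat_lit 4) (nat_lit 362) (nat_lit 305) (nat_lit 233)) (XT.nd (nat_lit 78)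 (nat_lit 0) (nat_lit 0) (XT.lf (nat_lit 0) (nat_lit 33672051061) (nat_lit 152) (nat_lit 100537226952) (nat_lit 0) (nat_lit 13167404265) (nat_lit 4) (nat_lit 5) (nat_lit 6) (nat_lit 4) (nat_lit 4) (nat_lit 4) (nat_lit 363) (nat_lit 305) (nat_lit 232)) (XT.lf (nat_lit 0) (nat_lit 47374216078) (nat_lit 152) (nat_lit 83911139806) (nat_lit 0) (nat_lit 26864033688) (nat_lit 4) (nat_lit 5) (nat_lit 6) (nat_lit 4) (nat_lit 4) (nat_lit 4) (nat_lit 364) (nat_lit 305) (nat_lit 231))))))) (XT.nd (nat_lit 624) (nat_lit 76) (nat_lit 0) (XT.nd (nat_lit 312) (nat_lit 76) (nat_lit 0) (XT.nd (nat_lit 156) (nat_lit 0) (nat_lit 0) (XT.nd (nat_lit 78) (nat_lit 0) (nat_lit 0) (XT.lf (nat_lit 0) (nat_lit 62166044035) (nat_lit 152) (nat_lit 65967656740) (nat_lit 0) (nat_lit 41650736093) (nat_lit 4) (nat_lit 5) (nat_lit 6) (nat_lit 4) (nat_lit 4) (nat_lit 4) (nat_lit 365) (nat_lit 305) (nat_lit 230)) (XT.lf (nat_lit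 0) (nat_lit 78135190207) (nat_lit 152) (nat_lit 46600446003) (nat_lit 0) (nat_lit 57615136385) (nat_lit 4) (nat_lit 5) (nat_lit 6) (nat_lit 4) (nat_lit 4) (nat_lit 4) (nat_lit 366) (nat_lit 305) (nat_lit 229))) (XT.nd (nat_lit 78) (nat_lit 0) (nat_lit 0) (XT.lf (nat_lit 0) (nat_lit 95376286571) (nat_lit 152) (nat_lit 25694738938) (nat_lit 0) (nat_lit 74851838415) (nat_lit 4) (nat_lit 5) (nat_lit 6) (nat_lit 4) (nat_lit 4) (nat_lit 4) (nat_lit 367) (nat_lit 305) (nat_lit 228)) (XT.lf (nat_lit 0) (nat_lit 113991502588) (nat_lit 152) (nat_lit 3126649874) (nat_lit 0) (nat_lit 93462985605) (nat_lit 4) (nat_lit 5) (nat_lit 6) (nat_lit 4) (nat_lit 4) (nat_lit 4) (nat_lit 368) (nat_lit 305) (nat_lit 227)))) (XT.nd (nat_lit 156) (nat_lit 0) (nat_lit 0) (XT.nd (nat_lit 78) (nat_lit 0) (nat_lit 0) (XT.lf (nat_lit 0) (nat_lit 22355890181) (nat_lit 76) (nat_lit 112272920164) (nat_lit 76) (nat_lit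 91740635748) (nat_lit 3) (nat_lit 4) (nat_lit 4) (nat_lit 5) (nat_lit 4) (nat_lit 4) (nat_lit 369) (nat_lit 305) (nat_lit 226)) (XT.lf (nat_lit 0) (nat_lit 50045756648) (nat_lit 76) (nat_lit 106952184782) (nat_lit 76) (nat_lit 86416412001) (nat_lit 3) (nat_lit 4) (nat_lit 4) (nat_lit 5) (nat_lit 4) (nat_lit 4) (nat_lit 370) (nat_lit 305) (nat_lit 225))) (XT.nd (nat_lit 78) (nat_lit 0) (nat_lit 0) (XT.lf (nat_lit 0) (nat_lit 79942393782) (nat_lit 76) (nat_lit 101209904180) (nat_lit 76) (nat_lit 80670901433) (nat_lit 3) (nat_lit 4) (nat_lit 4) (nat_lit 5) (nat_lit 4) (nat_lit 4) (nat_lit 371) (nat_lit 305) (nat_lit 224)) (XT.lf (nat_lit 0) (nat_lit 112222966840) (nat_lit 76) (nat_lit 95012050030) (nat_lit 76) (nat_lit 74470056574) (nat_lit 3) (nat_lit 4) (nat_lit 4) (nat_lit 5) (nat_lit 4) (nat_lit 4) (nat_lit 372) (nat_lit 305) (nat_lit 223))))) (XT.nd (nat_lit 312) (nat_lit 76) (nat_lit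 0) (XT.nd (nat_lit 156) (nat_lit 0) (nat_lit 0) (XT.nd (nat_lit 78) (nat_lit 0) (nat_lit 0) (XT.lf (nat_lit 0) (nat_lit 147078768107) (nat_lit 76) (nat_lit 88321894307) (nat_lit 76) (nat_lit 67777131675) (nat_lit 3) (nat_lit 4) (nat_lit 4) (nat_lit 5) (nat_lit 4) (nat_lit 4) (nat_lit 373) (nat_lit 305) (nat_lit 222)) (XT.lf (nat_lit 0) (nat_lit 184716350480) (nat_lit 76) (nat_lit 81099791644) (nat_lit 76) (nat_lit 60552464960) (nat_lit 3) (nat_lit 4) (nat_lit 4) (nat_lit 5) (nat_lit 4) (nat_lit 4) (nat_lit 374) (nat_lit 305) (nat_lit 221))) (XT.nd (nat_lit 78) (nat_lit 0) (nat_lit 0) (XT.lf (nat_lit 0) (nat_lit 225358751483) (nat_lit 76) (nat_lit 73302944395) (nat_lit 76) (nat_lit 52753243589) (nat_lit 3) (nat_lit 4) (nat_lit 4) (nat_lit 5) (nat_lit 4) (nat_lit 4) (nat_lit 375) (nat_lit 305) (nat_lit 220)) (XT.lf (nat_lit 0) (nat_lit 269246814975) (nat_lit 76) (nat_lit 64885149020) (nat_lit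 76) (nat_lit 44333249954) (nat_lit 3) (nat_lit 4) (nat_lit 4) (nat_lit 5) (nat_lit 4) (nat_lit 4) (nat_lit 376) (nat_lit 305) (nat_lit 219)))) (XT.nd (nat_lit 156) (nat_lit 76) (nat_lit 0) (XT.nd (nat_lit 78) (nat_lit 0) (nat_lit 0) (XT.lf (nat_lit 0) (nat_lit 316640618368) (nat_lit 76) (nat_lit 55796522290) (nat_lit 76) (nat_lit 35242587796) (nat_lit 3) (nat_lit 4) (nat_lit 4) (nat_lit 5) (nat_lit 4) (nat_lit 4) (nat_lit 377) (nat_lit 305) (nat_lit 218)) (XT.lf (nat_lit 0) (nat_lit 367821013831) (nat_lit 76) (nat_lit 45983205673) (nat_lit 76) (nat_lit 25427386525) (nat_lit 3) (nat_lit 4) (nat_lit 4) (nat_lit 5) (nat_lit 4) (nat_lit 4) (nat_lit 378) (nat_lit 305) (nat_lit 217))) (XT.nd (nat_lit 78) (nat_lit 76) (nat_lit 0) (XT.lf (nat_lit 0) (nat_lit 423091292596) (nat_lit 76) (nat_lit 35387046183) (nat_lit 76) (nat_lit 14829481985) (nat_lit 3) (nat_lit 4) (nat_lit 4) (nat_lit 5) (nat_lit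 4) (nat_lit 4) (nat_lit 379) (nat_lit 305) (nat_lit 216)) (XT.nd (nat_lit 78) (nat_lit 76) (nat_lit 0) (XT.lf (nat_lit 0) (nat_lit 482778982241) (nat_lit 76) (nat_lit 23945251765) (nat_lit 76) (nat_lit 3386071779) (nat_lit 3) (nat_lit 4) (nat_lit 4) (nat_lit 5) (nat_lit 4) (nat_lit 4) (nat_lit 380) (nat_lit 305) (nat_lit 215)) (XT.lf (nat_lit 0) (nat_lit 8521908304) (nat_lit 152) (nat_lit 2835106810) (nat_lit 76) (nat_lit 538482875214) (nat_lit 2) (nat_lit 5) (nat_lit 4) (nat_lit 5) (nat_lit 3) (nat_lit 4) (nat_lit 381) (nat_lit 305) (nat_lit 214))))))))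
noncomputable def xc114 : XT := (XT.nd (nat_lit 1326) (nat_lit 0) (nat_lit 0) (XT.nd (nat_lit 624) (nat_lit 0) (nat_lit 0) (XT.nd (nat_lit 312) (nat_lit 0) (nat_lit 0) (XT.nd (nat_lit 156) (nat_lit 0) (nat_lit 0) (XT.nd (nat_lit 78) (nat_lit 0) (nat_lit 0) (XT.lf (nat_lit 0) (nat_lit 21864914081) (nat_lit 152) (nat_lit 567996697988) (nat_lit 0) (nat_lit 2825968375) (nat_lit 1) (nat_lit 5) (nat_lit 3) (nat_lit 4) (nat_lit 1) (nat_lit 4) (nat_lit 382) (nat_lit 305) (nat_lit 213)) (XT.lf (nat_lit 0) (nat_lit 36647993690) (nat_lit 152) (nat_lit 584677421678) (nat_lit 0) (nat_lit 17607860332) (nat_lit 1) (nat_lit 5) (nat_lit 3) (nat_lit 4) (nat_lit 1) (nat_lit 4) (nat_lit 383) (nat_lit 305) (nat_lit 212))) (XT.nd (nat_lit 78) (nat_lit 0) (nat_lit 0) (XT.lf (nat_lit 0) (nat_lit 52611974942) (nat_lit 152) (nat_lit 602696049865) (nat_lit 0) (nat_lit 33570741906) (nat_lit 1) (nat_lit 5) (nat_lit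 3) (nat_lit 4) (nat_lit 1) (nat_lit 4) (nat_lit 384) (nat_lit 305) (nat_lit 211)) (XT.lf (nat_lit 0) (nat_lit 69851459206) (nat_lit 152) (nat_lit 622159359604) (nat_lit 0) (nat_lit 50809207950) (nat_lit 1) (nat_lit 5) (nat_lit 3) (nat_lit 4) (nat_lit 1) (nat_lit 4) (nat_lit 385) (nat_lit 305) (nat_lit 210)))) (XT.nd (nat_lit 156) (nat_lit 0) (nat_lit 0) (XT.nd (nat_lit 78) (nat_lit 0) (nat_lit 0) (XT.lf (nat_lit 0) (nat_lit 88468606390) (nat_lit 152) (nat_lit 643182689028) (nat_lit 0) (nat_lit 69425412338) (nat_lit 1) (nat_lit 5) (nat_lit 3) (nat_lit 4) (nat_lit 1) (nat_lit 4) (nat_lit 386) (nat_lit 305) (nat_lit 209)) (XT.lf (nat_lit 0) (nat_lit 108573740329) (nat_lit 152) (nat_lit 665890620829) (nat_lit 0) (nat_lit 89529673317) (nat_lit 1) (nat_lit 5) (nat_lit 3) (nat_lit 4) (nat_lit 1) (nat_lit 4) (nat_lit 387) (nat_lit 305) (nat_lit 208))) (XT.nd (nat_lit 78) (nat_lit 0) (nat_lit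 0) (XT.lf (nat_lit 0) (nat_lit 130286002557) (nat_lit 152) (nat_lit 690417720529) (nat_lit 0) (nat_lit 111241127249) (nat_lit 1) (nat_lit 5) (nat_lit 3) (nat_lit 4) (nat_lit 1) (nat_lit 4) (nat_lit 388) (nat_lit 305) (nat_lit 207)) (XT.lf (nat_lit 0) (nat_lit 153734058331) (nat_lit 152) (nat_lit 716909333903) (nat_lit 0) (nat_lit 134688434601) (nat_lit 1) (nat_lit 5) (nat_lit 3) (nat_lit 4) (nat_lit 1) (nat_lit 4) (nat_lit 389) (nat_lit 305) (nat_lit 206))))) (XT.nd (nat_lit 312) (nat_lit 0) (nat_lit 0) (XT.nd (nat_lit 156) (nat_lit 0) (nat_lit 0) (XT.nd (nat_lit 78) (nat_lit 0) (nat_lit 0) (XT.lf (nat_lit 0) (nat_lit 179056859094) (nat_lit 152) (nat_lit 745522448292) (nat_lit 0) (nat_lit 160010542381) (nat_lit 1) (nat_lit 5) (nat_lit 3) (nat_lit 4) (nat_lit 1) (nat_lit 4) (nat_lit 390) (nat_lit 305) (nat_lit 205)) (XT.lf (nat_lit 0) (nat_lit 206404465888) (nat_lit 152) (nat_lit 776426622890)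 (nat_lit 0) (nat_lit 187357507522) (nat_lit 1) (nat_lit 5) (nat_lit 3) (nat_lit 4) (nat_lit 1) (nat_lit 4) (nat_lit 391) (nat_lit 305) (nat_lit 204))) (XT.nd (nat_lit 78) (nat_lit 0) (nat_lit 0) (XT.lf (nat_lit 0) (nat_lit 235938938603) (nat_lit 152) (nat_lit 809804993547) (nat_lit 0) (nat_lit 216891386116) (nat_lit 1) (nat_lit 5) (nat_lit 3) (nat_lit 4) (nat_lit 1) (nat_lit 4) (nat_lit 392) (nat_lit 305) (nat_lit 203)) (XT.lf (nat_lit 0) (nat_lit 267835296338) (nat_lit 152) (nat_lit 845855358016) (nat_lit 0) (nat_lit 248787193738) (nat_lit 1) (nat_lit 5) (nat_lit 3) (nat_lit 4) (nat_lit 1) (nat_lit 4) (nat_lit 393) (nat_lit 305) (nat_lit 202)))) (XT.nd (nat_lit 156) (nat_lit 0) (nat_lit 0) (XT.nd (nat_lit 78) (nat_lit 0) (nat_lit 0) (XT.lf (nat_lit 0) (nat_lit 302282554546) (nat_lit 152) (nat_lit 884791348086) (nat_lit 0) (nat_lit 283233942583) (nat_lit 1) (nat_lit 5) (nat_lit 3) (nat_lit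 4) (nat_lit 1) (nat_lit 4) (nat_lit 394) (nat_lit 305) (nat_lit 201)) (XT.lf (nat_lit 0) (nat_lit 339484845127) (nat_lit 152) (nat_lit 926843695549) (nat_lit 0) (nat_lit 320435761531) (nat_lit 1) (nat_lit 5) (nat_lit 3) (nat_lit 4) (nat_lit 1) (nat_lit 4) (nat_lit 395) (nat_lit 305) (nat_lit 200))) (XT.nd (nat_lit 78) (nat_lit 0) (nat_lit 0) (XT.lf (nat_lit 0) (nat_lit 379662626100) (nat_lit 152) (nat_lit 972261599502) (nat_lit 0) (nat_lit 360613105807) (nat_lit 1) (nat_lit 5) (nat_lit 3) (nat_lit 4) (nat_lit 1) (nat_lit 4) (nat_lit 396) (nat_lit 305) (nat_lit 199)) (XT.nd (nat_lit 78) (nat_lit 0) (nat_lit 0) (XT.lf (nat_lit 0) (nat_lit 423053988019) (nat_lit 152) (nat_lit 1021314203080) (nat_lit 0) (nat_lit 404004063376) (nat_lit 1) (nat_lit 5) (nat_lit 3) (nat_lit 4) (nat_lit 1) (nat_lit 4) (nat_lit 397) (nat_lit 305) (nat_lit 198)) (XT.lf (nat_lit 0) (nat_lit 469916064880) (nat_lit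 152) (nat_lit 1074292188378) (nat_lit 0) (nat_lit 450865765840) (nat_lit 1) (nat_lit 5) (nat_lit 3) (nat_lit 4) (nat_lit 1) (nat_lit 4) (nat_lit 398) (nat_lit 305) (nat_lit 197))))))) (XT.nd (nat_lit 624) (nat_lit 0) (nat_lit 0) (XT.nd (nat_lit 312) (nat_lit 0) (nat_lit 0) (XT.nd (nat_lit 156) (nat_lit 0) (nat_lit 0) (XT.nd (nat_lit 78) (nat_lit 0) (nat_lit 0) (XT.lf (nat_lit 0) (nat_lit 520526557879) (nat_lit 152) (nat_lit 1131509499012) (nat_lit 0) (nat_lit 501475912175) (nat_lit 1) (nat_lit 5) (nat_lit 3) (nat_lit 4) (nat_lit 1) (nat_lit 4) (nat_lit 399) (nat_lit 305) (nat_lit 196)) (XT.lf (nat_lit 0) (nat_lit 575185381049) (nat_lit 152) (nat_lit 1193305200526) (nat_lit 0) (nat_lit 556134414359) (nat_lit 1) (nat_lit 5) (nat_lit 3) (nat_lit 4) (nat_lit 1) (nat_lit 4) (nat_lit 400) (nat_lit 305) (nat_lit 195))) (XT.nd (nat_lit 78) (nat_lit 0) (nat_lit 0) (XT.lf (nat_lit 0) (nat_lit 634216438527)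 (nat_lit 152) (nat_lit 1260045489672) (nat_lit 0) (nat_lit 615165174629) (nat_lit 1) (nat_lit 5) (nat_lit 3) (nat_lit 4) (nat_lit 1) (nat_lit 4) (nat_lit 401) (nat_lit 305) (nat_lit 194)) (XT.lf (nat_lit 0) (nat_lit 697969543988) (nat_lit 152) (nat_lit 1332125864457) (nat_lit 0) (nat_lit 678918004896) (nat_lit 1) (nat_lit 5) (nat_lit 3) (nat_lit 4) (nat_lit 1) (nat_lit 4) (nat_lit 402) (nat_lit 305) (nat_lit 193)))) (XT.nd (nat_lit 156) (nat_lit 0) (nat_lit 0) (XT.nd (nat_lit 78) (nat_lit 0) (nat_lit 0) (XT.lf (nat_lit 0) (nat_lit 766822493611) (nat_lit 152) (nat_lit 1409973467844) (nat_lit 0) (nat_lit 747770699711) (nat_lit 1) (nat_lit 5) (nat_lit 3) (nat_lit 4) (nat_lit 1) (nat_lit 4) (nat_lit 403) (nat_lit 305) (nat_lit 192)) (XT.lf (nat_lit 0) (nat_lit 841183304877) (nat_lit 152) (nat_lit 1494049618965) (nat_lit 0) (nat_lit 822131275043) (nat_lit 1) (nat_lit 5) (nat_lit 3) (nat_lit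 4) (nat_lit 1) (nat_lit 4) (nat_lit 404) (nat_lit 305) (nat_lit 191))) (XT.nd (nat_lit 78) (nat_lit 0) (nat_lit 0) (XT.lf (nat_lit 0) (nat_lit 921492634443) (nat_lit 152) (nat_lit 1584852546862) (nat_lit 0) (nat_lit 902440386152) (nat_lit 1) (nat_lit 5) (nat_lit 3) (nat_lit 4) (nat_lit 1) (nat_lit 4) (nat_lit 405) (nat_lit 305) (nat_lit 190)) (XT.lf (nat_lit 0) (nat_lit 1008226389450) (nat_lit 152) (nat_lit 1682920342961) (nat_lit 0) (nat_lit 989173938883) (nat_lit 1) (nat_lit 5) (nat_lit 3) (nat_lit 4) (nat_lit 1) (nat_lit 4) (nat_lit 406) (nat_lit 305) (nat_lit 189))))) (XT.nd (nat_lit 312) (nat_lit 0) (nat_lit 0) (XT.nd (nat_lit 156) (nat_lit 0) (nat_lit 0) (XT.nd (nat_lit 78) (nat_lit 0) (nat_lit 0) (XT.lf (nat_lit 0) (nat_lit 1101898547703) (nat_lit 152) (nat_lit 1788834149756) (nat_lit 0) (nat_lit 1082845909844) (nat_lit 1) (nat_lit 5) (nat_lit 3) (nat_lit 4) (nat_lit 1) (nat_lit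 4) (nat_lit 407) (nat_lit 305) (nat_lit 188)) (XT.lf (nat_lit 0) (nat_lit 1203064203474) (nat_lit 152) (nat_lit 1903221604622) (nat_lit 0) (nat_lit 1184011392197) (nat_lit 1) (nat_lit 5) (nat_lit 3) (nat_lit 4) (nat_lit 1) (nat_lit 4) (nat_lit 408) (nat_lit 305) (nat_lit 187))) (XT.nd (nat_lit 78) (nat_lit 0) (nat_lit 0) (XT.lf (nat_lit 0) (nat_lit 1312322856945) (nat_lit 152) (nat_lit 2026760559143) (nat_lit 0) (nat_lit 1293269885096) (nat_lit 1) (nat_lit 5) (nat_lit 3) (nat_lit 4) (nat_lit 1) (nat_lit 4) (nat_lit 409) (nat_lit 305) (nat_lit 186)) (XT.lf (nat_lit 0) (nat_lit 1430321966805) (nat_lit 152) (nat_lit 2160183096012) (nat_lit 0) (nat_lit 1411268846277) (nat_lit 1) (nat_lit 5) (nat_lit 3) (nat_lit 4) (nat_lit 1) (nat_lit 4) (nat_lit 410) (nat_lit 305) (nat_lit 185)))) (XT.nd (nat_lit 38688) (nat_lit 0) (nat_lit 4180) (XT.nd (nat_lit 78) (nat_lit 0) (nat_lit 0) (XT.lf (nat_lit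 0) (nat_lit 1557760787036) (nat_lit 152) (nat_lit 2304279867299) (nat_lit 0) (nat_lit 1538707528843) (nat_lit 1) (nat_lit 5) (nat_lit 3) (nat_lit 4) (nat_lit 1) (nat_lit 4) (nat_lit 411) (nat_lit 305) (nat_lit 184)) (XT.lf (nat_lit 0) (nat_lit 1695394510648) (nat_lit 152) (nat_lit 2459904779798) (nat_lit 0) (nat_lit 1676341124987) (nat_lit 1) (nat_lit 5) (nat_lit 3) (nat_lit 4) (nat_lit 1) (nat_lit 4) (nat_lit 412) (nat_lit 305) (nat_lit 183))) (XT.nd (nat_lit 78) (nat_lit 380) (nat_lit 0) (XT.lf (nat_lit 0) (nat_lit 3212558398) (nat_lit 380) (nat_lit 266745489) (nat_lit 380) (nat_lit 266745489) (nat_lit 61) (nat_lit 3) (nat_lit 66) (nat_lit 3) (nat_lit 66) (nat_lit 5) (nat_lit 306) (nat_lit 306) (nat_lit 288)) (XT.nd (nat_lit 78) (nat_lit 0) (nat_lit 0) (XT.lf (nat_lit 0) (nat_lit 383020148) (nat_lit 380) (nat_lit 4547588859) (nat_lit 456) (nat_lit 2744473685) (nat_lit 56) (nat_lit 5)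 (nat_lit 61) (nat_lit 3) (nat_lit 62) (nat_lit 5) (nat_lit 307) (nat_lit 306) (nat_lit 287)) (XT.lf (nat_lit 0) (nat_lit 1768443632) (nat_lit 380) (nat_lit 870953514) (nat_lit 456) (nat_lit 5241312128) (nat_lit 56) (nat_lit 5) (nat_lit 61) (nat_lit 3) (nat_lit 62) (nat_lit 5) (nat_lit 308) (nat_lit 306) (nat_lit 286))))))))
noncomputable def xc115 : XT := (XT.nd (nat_lit 1326) (nat_lit 1216) (nat_lit 0) (XT.nd (nat_lit 624) (nat_lit 988) (nat_lit 0) (XT.nd (nat_lit 312) (nat_lit 1064) (nat_lit 0) (XT.nd (nat_lit 156) (nat_lit 0) (nat_lit 76) (XT.nd (nat_lit 78) (nat_lit 0) (nat_lit 76) (XT.lf (nat_lit 76) (nat_lit 3182125124) (nat_lit 0) (nat_lit 31421322) (nat_lit 456) (nat_lit 4893689601) (nat_lit 57) (nat_lit 5) (nat_lit 56) (nat_lit 5) (nat_lit 62) (nat_lit 5) (nat_lit 309) (nat_lit 306) (nat_lit 285)) (XT.lf (nat_lit 0) (nat_lit 4746729600) (nat_lit 380) (nat_lit 894542892) (nat_lit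 456) (nat_lit 2713145900) (nat_lit 57) (nat_lit 5) (nat_lit 62) (nat_lit 5) (nat_lit 63) (nat_lit 5) (nat_lit 310) (nat_lit 306) (nat_lit 284))) (XT.nd (nat_lit 78) (nat_lit 0) (nat_lit 76) (XT.lf (nat_lit 76) (nat_lit 3555961679) (nat_lit 0) (nat_lit 2822809703) (nat_lit 456) (nat_lit 2244814292) (nat_lit 58) (nat_lit 5) (nat_lit 57) (nat_lit 5) (nat_lit 63) (nat_lit 5) (nat_lit 311) (nat_lit 306) (nat_lit 283)) (XT.lf (nat_lit 0) (nat_lit 8068579886) (nat_lit 380) (nat_lit 591688043) (nat_lit 76) (nat_lit 260126090) (nat_lit 58) (nat_lit 5) (nat_lit 63) (nat_lit 5) (nat_lit 59) (nat_lit 5) (nat_lit 312) (nat_lit 306) (nat_lit 282)))) (XT.nd (nat_lit 156) (nat_lit 760) (nat_lit 0) (XT.nd (nat_lit 78) (nat_lit 0) (nat_lit 0) (XT.lf (nat_lit 0) (nat_lit 703106456) (nat_lit 456) (nat_lit 4948561325) (nat_lit 76) (nat_lit 3581616848) (nat_lit 52) (nat_lit 5) (nat_lit 58) (nat_lit 5) (nat_lit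 53) (nat_lit 5) (nat_lit 313) (nat_lit 306) (nat_lit 281)) (XT.lf (nat_lit 0) (nat_lit 2260051834) (nat_lit 456) (nat_lit 91002060) (nat_lit 76) (nat_lit 7224715902) (nat_lit 52) (nat_lit 5) (nat_lit 58) (nat_lit 5) (nat_lit 53) (nat_lit 5) (nat_lit 314) (nat_lit 306) (nat_lit 280))) (XT.nd (nat_lit 78) (nat_lit 304) (nat_lit 0) (XT.lf (nat_lit 0) (nat_lit 4016783531) (nat_lit 532) (nat_lit 4629906987) (nat_lit 76) (nat_lit 1293153516) (nat_lit 46) (nat_lit 5) (nat_lit 53) (nat_lit 5) (nat_lit 47) (nat_lit 5) (nat_lit 315) (nat_lit 306) (nat_lit 279)) (XT.lf (nat_lit 0) (nat_lit 707368882) (nat_lit 304) (nat_lit 5205967212) (nat_lit 380) (nat_lit 4419958783) (nat_lit 42) (nat_lit 5) (nat_lit 46) (nat_lit 5) (nat_lit 47) (nat_lit 5) (nat_lit 316) (nat_lit 306) (nat_lit 278))))) (XT.nd (nat_lit 312) (nat_lit 456) (nat_lit 0) (XT.nd (nat_lit 156) (nat_lit 304) (nat_lit 0) (XT.nd (nat_lit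 78) (nat_lit 228) (nat_lit 0) (XT.lf (nat_lit 0) (nat_lit 6654846808) (nat_lit 304) (nat_lit 1356106649) (nat_lit 380) (nat_lit 2743500020) (nat_lit 42) (nat_lit 5) (nat_lit 46) (nat_lit 5) (nat_lit 47) (nat_lit 5) (nat_lit 317) (nat_lit 306) (nat_lit 277)) (XT.lf (nat_lit 0) (nat_lit 1812105875) (nat_lit 228) (nat_lit 8503647216) (nat_lit 304) (nat_lit 890567526) (nat_lit 39) (nat_lit 5) (nat_lit 42) (nat_lit 5) (nat_lit 43) (nat_lit 5) (nat_lit 318) (nat_lit 306) (nat_lit 276))) (XT.nd (nat_lit 78) (nat_lit 228) (nat_lit 0) (XT.lf (nat_lit 0) (nat_lit 1135190090) (nat_lit 304) (nat_lit 3402097814) (nat_lit 76) (nat_lit 7148642700) (nat_lit 38) (nat_lit 5) (nat_lit 42) (nat_lit 5) (nat_lit 39) (nat_lit 5) (nat_lit 319) (nat_lit 306) (nat_lit 275)) (XT.lf (nat_lit 0) (nat_lit 3126951205) (nat_lit 228) (nat_lit 158259277) (nat_lit 304) (nat_lit 8916154625) (nat_lit 35) (nat_lit 5) (nat_lit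 38) (nat_lit 5) (nat_lit 39) (nat_lit 5) (nat_lit 320) (nat_lit 306) (nat_lit 274)))) (XT.nd (nat_lit 156) (nat_lit 304) (nat_lit 0) (XT.nd (nat_lit 78) (nat_lit 152) (nat_lit 0) (XT.lf (nat_lit 0) (nat_lit 5750459317) (nat_lit 304) (nat_lit 2569733277) (nat_lit 76) (nat_lit 4426505414) (nat_lit 35) (nat_lit 5) (nat_lit 39) (nat_lit 5) (nat_lit 36) (nat_lit 5) (nat_lit 321) (nat_lit 306) (nat_lit 273)) (XT.lf (nat_lit 0) (nat_lit 4608999812) (nat_lit 152) (nat_lit 3861345132) (nat_lit 228) (nat_lit 4860832007) (nat_lit 33) (nat_lit 5) (nat_lit 35) (nat_lit 5) (nat_lit 36) (nat_lit 5) (nat_lit 322) (nat_lit 306) (nat_lit 272))) (XT.nd (nat_lit 78) (nat_lit 304) (nat_lit 0) (XT.lf (nat_lit 0) (nat_lit 11447488803) (nat_lit 228) (nat_lit 1548441987) (nat_lit 76) (nat_lit 963414439) (nat_lit 33) (nat_lit 5) (nat_lit 36) (nat_lit 5) (nat_lit 34) (nat_lit 5) (nat_lit 323) (nat_lit 306) (nat_lit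 271)) (XT.nd (nat_lit 78) (nat_lit 0) (nat_lit 0) (XT.lf (nat_lit 0) (nat_lit 230602891) (nat_lit 304) (nat_lit 8280663020) (nat_lit 76) (nat_lit 6109996947) (nat_lit 29) (nat_lit 5) (nat_lit 33) (nat_lit 5) (nat_lit 30) (nat_lit 5) (nat_lit 324) (nat_lit 306) (nat_lit 270)) (XT.lf (nat_lit 0) (nat_lit 3049732411) (nat_lit 304) (nat_lit 520734254) (nat_lit 76) (nat_lit 11761092358) (nat_lit 29) (nat_lit 5) (nat_lit 33) (nat_lit 5) (nat_lit 30) (nat_lit 5) (nat_lit 325) (nat_lit 306) (nat_lit 269))))))) (XT.nd (nat_lit 702) (nat_lit 532) (nat_lit 0) (XT.nd (nat_lit 312) (nat_lit 304) (nat_lit 0) (XT.nd (nat_lit 156) (nat_lit 76) (nat_lit 0) (XT.nd (nat_lit 78) (nat_lit 152) (nat_lit 0) (XT.lf (nat_lit 0) (nat_lit 6292149746) (nat_lit 228) (nat_lit 7928653946) (nat_lit 76) (nat_lit 1862131334) (nat_lit 27) (nat_lit 5) (nat_lit 30) (nat_lit 5) (nat_lit 28) (nat_lit 5) (nat_lit 326) (nat_lit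 306) (nat_lit 268)) (XT.lf (nat_lit 0) (nat_lit 526034616) (nat_lit 152) (nat_lit 9342682578) (nat_lit 228) (nat_lit 7019794438) (nat_lit 25) (nat_lit 5) (nat_lit 27) (nat_lit 5) (nat_lit 28) (nat_lit 5) (nat_lit 327) (nat_lit 306) (nat_lit 267))) (XT.nd (nat_lit 78) (nat_lit 76) (nat_lit 0) (XT.lf (nat_lit 0) (nat_lit 10042898264) (nat_lit 152) (nat_lit 3861839129) (nat_lit 228) (nat_lit 3839996579) (nat_lit 25) (nat_lit 5) (nat_lit 27) (nat_lit 5) (nat_lit 28) (nat_lit 5) (nat_lit 328) (nat_lit 306) (nat_lit 266)) (XT.lf (nat_lit 0) (nat_lit 1620136082) (nat_lit 76) (nat_lit 16691230368) (nat_lit 152) (nat_lit 354330391) (nat_lit 24) (nat_lit 5) (nat_lit 25) (nat_lit 5) (nat_lit 26) (nat_lit 4) (nat_lit 329) (nat_lit 306) (nat_lit 265)))) (XT.nd (nat_lit 156) (nat_lit 76) (nat_lit 0) (XT.nd (nat_lit 78) (nat_lit 152) (nat_lit 0) (XT.lf (nat_lit 0) (nat_lit 3515703489) (nat_lit 152)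 (nat_lit 7769065813) (nat_lit 76) (nat_lit 8346969988) (nat_lit 23) (nat_lit 5) (nat_lit 25) (nat_lit 5) (nat_lit 24) (nat_lit 5) (nat_lit 330) (nat_lit 306) (nat_lit 264)) (XT.lf (nat_lit 0) (nat_lit 2296270421) (nat_lit 152) (nat_lit 5397880551) (nat_lit 228) (nat_lit 12978789940) (nat_lit 21) (nat_lit 5) (nat_lit 23) (nat_lit 5) (nat_lit 24) (nat_lit 5) (nat_lit 331) (nat_lit 306) (nat_lit 263))) (XT.nd (nat_lit 78) (nat_lit 76) (nat_lit 0) (XT.lf (nat_lit 0) (nat_lit 12411487945) (nat_lit 228) (nat_lit 8260231383) (nat_lit 76) (nat_lit 1109395018) (nat_lit 21) (nat_lit 5) (nat_lit 24) (nat_lit 5) (nat_lit 22) (nat_lit 4) (nat_lit 332) (nat_lit 306) (nat_lit 262)) (XT.nd (nat_lit 78) (nat_lit 0) (nat_lit 0) (XT.lf (nat_lit 0) (nat_lit 2599963023) (nat_lit 76) (nat_lit 15075269027) (nat_lit 152) (nat_lit 5289229452) (nat_lit 20) (nat_lit 5) (nat_lit 21) (nat_lit 5) (nat_lit 22) (nat_lit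 4) (nat_lit 333) (nat_lit 306) (nat_lit 261)) (XT.lf (nat_lit 0) (nat_lit 14744726772) (nat_lit 76) (nat_lit 8808682887) (nat_lit 152) (nat_lit 673638445) (nat_lit 20) (nat_lit 5) (nat_lit 21) (nat_lit 5) (nat_lit 22) (nat_lit 4) (nat_lit 334) (nat_lit 306) (nat_lit 260)))))) (XT.nd (nat_lit 312) (nat_lit 228) (nat_lit 0) (XT.nd (nat_lit 156) (nat_lit 76) (nat_lit 0) (XT.nd (nat_lit 78) (nat_lit 0) (nat_lit 0) (XT.lf (nat_lit 0) (nat_lit 2226448309) (nat_lit 152) (nat_lit 1891711384) (nat_lit 228) (nat_lit 21462410216) (nat_lit 17) (nat_lit 5) (nat_lit 19) (nat_lit 5) (nat_lit 20) (nat_lit 5) (nat_lit 335) (nat_lit 306) (nat_lit 259)) (XT.lf (nat_lit 0) (nat_lit 9626734322) (nat_lit 228) (nat_lit 11821131344) (nat_lit 76) (nat_lit 5563552372) (nat_lit 17) (nat_lit 5) (nat_lit 20) (nat_lit 5) (nat_lit 18) (nat_lit 4) (nat_lit 336) (nat_lit 306) (nat_lit 258))) (XT.nd (nat_lit 78) (nat_lit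 0) (nat_lit 0) (XT.lf (nat_lit 0) (nat_lit 565221330) (nat_lit 76) (nat_lit 15045412843) (nat_lit 152) (nat_lit 12943356921) (nat_lit 16) (nat_lit 5) (nat_lit 17) (nat_lit 5) (nat_lit 18) (nat_lit 4) (nat_lit 337) (nat_lit 306) (nat_lit 257)) (XT.lf (nat_lit 0) (nat_lit 14567570054) (nat_lit 76) (nat_lit 7801742733) (nat_lit 152) (nat_lit 7826997994) (nat_lit 16) (nat_lit 5) (nat_lit 17) (nat_lit 5) (nat_lit 18) (nat_lit 4) (nat_lit 338) (nat_lit 306) (nat_lit 256)))) (XT.nd (nat_lit 156) (nat_lit 76) (nat_lit 0) (XT.nd (nat_lit 78) (nat_lit 152) (nat_lit 0) (XT.lf (nat_lit 0) (nat_lit 29643621216) (nat_lit 152) (nat_lit 2325707784) (nat_lit 0) (nat_lit 2716395) (nat_lit 16) (nat_lit 5) (nat_lit 18) (nat_lit 4) (nat_lit 16) (nat_lit 4) (nat_lit 339) (nat_lit 306) (nat_lit 255)) (XT.lf (nat_lit 0) (nat_lit 3919447207) (nat_lit 152) (nat_lit 21532673303) (nat_lit 76) (nat_lit 8391593272)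 (nat_lit 14) (nat_lit 5) (nat_lit 16) (nat_lit 5) (nat_lit 15) (nat_lit 4) (nat_lit 340) (nat_lit 306) (nat_lit 254))) (XT.nd (nat_lit 78) (nat_lit 76) (nat_lit 0) (XT.lf (nat_lit 0) (nat_lit 10583065410) (nat_lit 152) (nat_lit 7713290656) (nat_lit 76) (nat_lit 17560603495) (nat_lit 14) (nat_lit 5) (nat_lit 16) (nat_lit 5) (nat_lit 15) (nat_lit 4) (nat_lit 341) (nat_lit 306) (nat_lit 253)) (XT.nd (nat_lit 78) (nat_lit 0) (nat_lit 0) (XT.lf (nat_lit 0) (nat_lit 7550335800) (nat_lit 76) (nat_lit 10389237707) (nat_lit 152) (nat_lit 20078925244) (nat_lit 13) (nat_lit 5) (nat_lit 14) (nat_lit 5) (nat_lit 15) (nat_lit 4) (nat_lit 342) (nat_lit 306) (nat_lit 252)) (XT.lf (nat_lit 0) (nat_lit 24435696344) (nat_lit 76) (nat_lit 1638715025) (nat_lit 152) (nat_lit 14263381442) (nat_lit 13) (nat_lit 5) (nat_lit 14) (nat_lit 5) (nat_lit 15) (nat_lit 4) (nat_lit 343) (nat_lit 306) (nat_lit 251))))))))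
noncomputable def xc116 : XT := (XT.nd (nat_lit 1326) (nat_lit 228) (nat_lit 0) (XT.nd (nat_lit 624) (nat_lit 228) (nat_lit 0) (XT.nd (nat_lit 312) (nat_lit 76) (nat_lit 0) (XT.nd (nat_lit 156) (nat_lit 152) (nat_lit 0) (XT.nd (nat_lit 78) (nat_lit 76) (nat_lit 0) (XT.lf (nat_lit 0) (nat_lit 35028010383) (nat_lit 152) (nat_lit 395021529) (nat_lit 0) (nat_lit 7406175800) (nat_lit 13) (nat_lit 5) (nat_lit 15) (nat_lit 4) (nat_lit 13) (nat_lit 4) (nat_lit 344) (nat_lit 306) (nat_lit 250)) (XT.lf (nat_lit 0) (nat_lit 17133433854) (nat_lit 76) (nat_lit 28000660092) (nat_lit 76) (nat_lit 350960244) (nat_lit 12) (nat_lit 4) (nat_lit 13) (nat_lit 5) (nat_lit 13) (nat_lit 4) (nat_lit 345) (nat_lit 306) (nat_lit 249))) (XT.nd (nat_lit 78) (nat_lit 76) (nat_lit 0) (XT.lf (nat_lit 0) (nat_lit 7303098933) (nat_lit 152) (nat_lit 12485055237) (nat_lit 76) (nat_lit 28551000317) (nat_lit 11) (nat_lit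 5) (nat_lit 13) (nat_lit 5) (nat_lit 12) (nat_lit 4) (nat_lit 346) (nat_lit 306) (nat_lit 248)) (XT.lf (nat_lit 0) (nat_lit 4853171157) (nat_lit 76) (nat_lit 10797099106) (nat_lit 152) (nat_lit 35762614610) (nat_lit 10) (nat_lit 5) (nat_lit 11) (nat_lit 5) (nat_lit 12) (nat_lit 4) (nat_lit 347) (nat_lit 306) (nat_lit 247)))) (XT.nd (nat_lit 156) (nat_lit 76) (nat_lit 0) (XT.nd (nat_lit 78) (nat_lit 0) (nat_lit 0) (XT.lf (nat_lit 0) (nat_lit 24257961474) (nat_lit 76) (nat_lit 732169685) (nat_lit 152) (nat_lit 29716399639) (nat_lit 10) (nat_lit 5) (nat_lit 11) (nat_lit 5) (nat_lit 12) (nat_lit 4) (nat_lit 348) (nat_lit 306) (nat_lit 246)) (XT.lf (nat_lit 0) (nat_lit 35305456035) (nat_lit 152) (nat_lit 13321534610) (nat_lit 0) (nat_lit 9618425351) (nat_lit 10) (nat_lit 5) (nat_lit 12) (nat_lit 4) (nat_lit 10) (nat_lit 4) (nat_lit 349) (nat_lit 306) (nat_lit 245))) (XT.nd (nat_lit 78) (nat_lit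 0) (nat_lit 0) (XT.lf (nat_lit 0) (nat_lit 5399740925) (nat_lit 76) (nat_lit 41180755666) (nat_lit 76) (nat_lit 15476165138) (nat_lit 9) (nat_lit 4) (nat_lit 10) (nat_lit 5) (nat_lit 10) (nat_lit 4) (nat_lit 350) (nat_lit 306) (nat_lit 244)) (XT.lf (nat_lit 0) (nat_lit 26349988597) (nat_lit 76) (nat_lit 32757827186) (nat_lit 76) (nat_lit 7036977544) (nat_lit 9) (nat_lit 4) (nat_lit 10) (nat_lit 5) (nat_lit 10) (nat_lit 4) (nat_lit 351) (nat_lit 306) (nat_lit 243))))) (XT.nd (nat_lit 312) (nat_lit 76) (nat_lit 0) (XT.nd (nat_lit 156) (nat_lit 76) (nat_lit 0) (XT.nd (nat_lit 78) (nat_lit 0) (nat_lit 0) (XT.lf (nat_lit 0) (nat_lit 1960159910) (nat_lit 152) (nat_lit 21658771763) (nat_lit 76) (nat_lit 46938115459) (nat_lit 8) (nat_lit 5) (nat_lit 10) (nat_lit 5) (nat_lit 9) (nat_lit 4) (nat_lit 352) (nat_lit 306) (nat_lit 242)) (XT.lf (nat_lit 0) (nat_lit 11284603672) (nat_lit 152) (nat_lit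 2277868309) (nat_lit 76) (nat_lit 61746176320) (nat_lit 8) (nat_lit 5) (nat_lit 10) (nat_lit 5) (nat_lit 9) (nat_lit 4) (nat_lit 353) (nat_lit 306) (nat_lit 241))) (XT.nd (nat_lit 78) (nat_lit 0) (nat_lit 0) (XT.lf (nat_lit 0) (nat_lit 19613122742) (nat_lit 76) (nat_lit 2202201151) (nat_lit 152) (nat_lit 58588234046) (nat_lit 7) (nat_lit 5) (nat_lit 8) (nat_lit 5) (nat_lit 9) (nat_lit 4) (nat_lit 354) (nat_lit 306) (nat_lit 240)) (XT.lf (nat_lit 0) (nat_lit 33483233721) (nat_lit 152) (nat_lit 42781484669) (nat_lit 0) (nat_lit 9617769006) (nat_lit 7) (nat_lit 5) (nat_lit 9) (nat_lit 4) (nat_lit 7) (nat_lit 4) (nat_lit 355) (nat_lit 306) (nat_lit 239)))) (XT.nd (nat_lit 156) (nat_lit 76) (nat_lit 0) (XT.nd (nat_lit 78) (nat_lit 0) (nat_lit 0) (XT.lf (nat_lit 0) (nat_lit 46131335961) (nat_lit 152) (nat_lit 23409034422) (nat_lit 0) (nat_lit 22255625246) (nat_lit 7) (nat_lit 5) (nat_lit 9)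 (nat_lit 4) (nat_lit 7) (nat_lit 4) (nat_lit 356) (nat_lit 306) (nat_lit 238)) (XT.lf (nat_lit 0) (nat_lit 59781619341) (nat_lit 152) (nat_lit 2505321761) (nat_lit 0) (nat_lit 35896421589) (nat_lit 7) (nat_lit 5) (nat_lit 9) (nat_lit 4) (nat_lit 7) (nat_lit 4) (nat_lit 357) (nat_lit 306) (nat_lit 237))) (XT.nd (nat_lit 78) (nat_lit 0) (nat_lit 0) (XT.lf (nat_lit 0) (nat_lit 21109510369) (nat_lit 76) (nat_lit 53913148291) (nat_lit 76) (nat_lit 30019166246) (nat_lit 6) (nat_lit 4) (nat_lit 7) (nat_lit 5) (nat_lit 7) (nat_lit 4) (nat_lit 358) (nat_lit 306) (nat_lit 236)) (XT.nd (nat_lit 78) (nat_lit 0) (nat_lit 0) (XT.lf (nat_lit 0) (nat_lit 46739282642) (nat_lit 76) (nat_lit 44803508224) (nat_lit 76) (nat_lit 20901392573) (nat_lit 6) (nat_lit 4) (nat_lit 7) (nat_lit 5) (nat_lit 7) (nat_lit 4) (nat_lit 359) (nat_lit 306) (nat_lit 235)) (XT.lf (nat_lit 0) (nat_lit 74403949386) (nat_lit 76)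 (nat_lit 34972537784) (nat_lit 76) (nat_lit 11062891017) (nat_lit 6) (nat_lit 4) (nat_lit 7) (nat_lit 5) (nat_lit 7) (nat_lit 4) (nat_lit 360) (nat_lit 306) (nat_lit 234))))))) (XT.nd (nat_lit 624) (nat_lit 76) (nat_lit 0) (XT.nd (nat_lit 312) (nat_lit 0) (nat_lit 0) (XT.nd (nat_lit 156) (nat_lit 76) (nat_lit 0) (XT.nd (nat_lit 78) (nat_lit 76) (nat_lit 0) (XT.lf (nat_lit 0) (nat_lit 104267449366) (nat_lit 76) (nat_lit 24361979370) (nat_lit 76) (nat_lit 445359348) (nat_lit 6) (nat_lit 4) (nat_lit 7) (nat_lit 5) (nat_lit 7) (nat_lit 4) (nat_lit 361) (nat_lit 306) (nat_lit 233)) (XT.lf (nat_lit 0) (nat_lit 10463150193) (nat_lit 152) (nat_lit 2159724337) (nat_lit 76) (nat_lit 125757520208) (nat_lit 5) (nat_lit 5) (nat_lit 7) (nat_lit 5) (nat_lit 6) (nat_lit 4) (nat_lit 362) (nat_lit 306) (nat_lit 232))) (XT.nd (nat_lit 78) (nat_lit 0) (nat_lit 0) (XT.lf (nat_lit 0) (nat_lit 22793792787)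 (nat_lit 152) (nat_lit 124952593249) (nat_lit 0) (nat_lit 637260210) (nat_lit 4) (nat_lit 5) (nat_lit 6) (nat_lit 4) (nat_lit 4) (nat_lit 4) (nat_lit 363) (nat_lit 306) (nat_lit 231)) (XT.lf (nat_lit 0) (nat_lit 36492827870) (nat_lit 152) (nat_lit 108332607571) (nat_lit 0) (nat_lit 14331169743) (nat_lit 4) (nat_lit 5) (nat_lit 6) (nat_lit 4) (nat_lit 4) (nat_lit 4) (nat_lit 364) (nat_lit 306) (nat_lit 230)))) (XT.nd (nat_lit 156) (nat_lit 0) (nat_lit 0) (XT.nd (nat_lit 78) (nat_lit 0) (nat_lit 0) (XT.lf (nat_lit 0) (nat_lit 51281757740) (nat_lit 152) (nat_lit 90394774012) (nat_lit 0) (nat_lit 29115353732) (nat_lit 4) (nat_lit 5) (nat_lit 6) (nat_lit 4) (nat_lit 4) (nat_lit 4) (nat_lit 365) (nat_lit 306) (nat_lit 229)) (XT.lf (nat_lit 0) (nat_lit 67248220498) (nat_lit 152) (nat_lit 71032794299) (nat_lit 0) (nat_lit 45077422155) (nat_lit 4) (nat_lit 5) (nat_lit 6) (nat_lit 4) (nat_lit 4)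 (nat_lit 4) (nat_lit 366) (nat_lit 306) (nat_lit 228))) (XT.nd (nat_lit 78) (nat_lit 0) (nat_lit 0) (XT.lf (nat_lit 0) (nat_lit 84486832219) (nat_lit 152) (nat_lit 50131930776) (nat_lit 0) (nat_lit 62311965050) (nat_lit 4) (nat_lit 5) (nat_lit 6) (nat_lit 4) (nat_lit 4) (nat_lit 4) (nat_lit 367) (nat_lit 306) (nat_lit 227)) (XT.lf (nat_lit 0) (nat_lit 103099747641) (nat_lit 152) (nat_lit 27568326472) (nat_lit 0) (nat_lit 80921113039) (nat_lit 4) (nat_lit 5) (nat_lit 6) (nat_lit 4) (nat_lit 4) (nat_lit 4) (nat_lit 368) (nat_lit 306) (nat_lit 226))))) (XT.nd (nat_lit 312) (nat_lit 0) (nat_lit 0) (XT.nd (nat_lit 156) (nat_lit 0) (nat_lit 0) (XT.nd (nat_lit 78) (nat_lit 76) (nat_lit 0) (XT.lf (nat_lit 0) (nat_lit 123197265522) (nat_lit 152) (nat_lit 3208271141) (nat_lit 0) (nat_lit 101015142555) (nat_lit 4) (nat_lit 5) (nat_lit 6) (nat_lit 4) (nat_lit 4) (nat_lit 4) (nat_lit 369) (nat_lit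 306) (nat_lit 225)) (XT.lf (nat_lit 0) (nat_lit 24308606024) (nat_lit 76) (nat_lit 121174498797) (nat_lit 76) (nat_lit 98989145864) (nat_lit 3) (nat_lit 4) (nat_lit 4) (nat_lit 5) (nat_lit 4) (nat_lit 4) (nat_lit 370) (nat_lit 306) (nat_lit 224))) (XT.nd (nat_lit 78) (nat_lit 0) (nat_lit 0) (XT.lf (nat_lit 0) (nat_lit 54201495540) (nat_lit 76) (nat_lit 115434049397) (nat_lit 76) (nat_lit 93245705755) (nat_lit 3) (nat_lit 4) (nat_lit 4) (nat_lit 5) (nat_lit 4) (nat_lit 4) (nat_lit 371) (nat_lit 306) (nat_lit 223)) (XT.lf (nat_lit 0) (nat_lit 86478598581) (nat_lit 76) (nat_lit 109237890805) (nat_lit 76) (nat_lit 87046777986) (nat_lit 3) (nat_lit 4) (nat_lit 4) (nat_lit 5) (nat_lit 4) (nat_lit 4) (nat_lit 372) (nat_lit 306) (nat_lit 222)))) (XT.nd (nat_lit 156) (nat_lit 0) (nat_lit 0) (XT.nd (nat_lit 78) (nat_lit 0) (nat_lit 0) (XT.lf (nat_lit 0) (nat_lit 121331186869) (nat_lit 76) (nat_lit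 102549305042) (nat_lit 76) (nat_lit 80355628172) (nat_lit 3) (nat_lit 4) (nat_lit 4) (nat_lit 5) (nat_lit 4) (nat_lit 4) (nat_lit 373) (nat_lit 306) (nat_lit 221)) (XT.lf (nat_lit 0) (nat_lit 158965794262) (nat_lit 76) (nat_lit 95328656045) (nat_lit 76) (nat_lit 73132605054) (nat_lit 3) (nat_lit 4) (nat_lit 4) (nat_lit 5) (nat_lit 4) (nat_lit 4) (nat_lit 374) (nat_lit 306) (nat_lit 220))) (XT.nd (nat_lit 78) (nat_lit 0) (nat_lit 0) (XT.lf (nat_lit 0) (nat_lit 199605440653) (nat_lit 76) (nat_lit 87533154784) (nat_lit 76) (nat_lit 65334905531) (nat_lit 3) (nat_lit 4) (nat_lit 4) (nat_lit 5) (nat_lit 4) (nat_lit 4) (nat_lit 375) (nat_lit 306) (nat_lit 219)) (XT.nd (nat_lit 78) (nat_lit 0) (nat_lit 0) (XT.lf (nat_lit 0) (nat_lit 243490953579) (nat_lit 76) (nat_lit 79116605695) (nat_lit 76) (nat_lit 56916321016) (nat_lit 3) (nat_lit 4) (nat_lit 4) (nat_lit 5) (nat_lit 4) (nat_lit 4) (nat_lit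 376) (nat_lit 306) (nat_lit 218)) (XT.lf (nat_lit 0) (nat_lit 290882395336) (nat_lit 76) (nat_lit 70029132932) (nat_lit 76) (nat_lit 47826963598) (nat_lit 3) (nat_lit 4) (nat_lit 4) (nat_lit 5) (nat_lit 4) (nat_lit 4) (nat_lit 377) (nat_lit 306) (nat_lit 217))))))))
noncomputable def xc117 : XT := (XT.nd (nat_lit 1326) (nat_lit 0) (nat_lit 0) (XT.nd (nat_lit 624) (nat_lit 0) (nat_lit 0) (XT.nd (nat_lit 312) (nat_lit 152) (nat_lit 0) (XT.nd (nat_lit 156) (nat_lit 0) (nat_lit 0) (XT.nd (nat_lit 78) (nat_lit 0) (nat_lit 0) (XT.lf (nat_lit 0) (nat_lit 342060604100) (nat_lit 76) (nat_lit 60216884804) (nat_lit 76) (nat_lit 38012970420) (nat_lit 3) (nat_lit 4) (nat_lit 4) (nat_lit 5) (nat_lit 4) (nat_lit 4) (nat_lit 378) (nat_lit 306) (nat_lit 216)) (XT.lf (nat_lit 0) (nat_lit 397328858143) (nat_lit 76) (nat_lit 49621714656) (nat_lit 76) (nat_lit 27416184484) (nat_lit 3) (nat_lit 4) (nat_lit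 4) (nat_lit 5) (nat_lit 4) (nat_lit 4) (nat_lit 379) (nat_lit 306) (nat_lit 215))) (XT.nd (nat_lit 78) (nat_lit 0) (nat_lit 0) (XT.lf (nat_lit 0) (nat_lit 457014673046) (nat_lit 76) (nat_lit 38180836294) (nat_lit 76) (nat_lit 15973810023) (nat_lit 3) (nat_lit 4) (nat_lit 4) (nat_lit 5) (nat_lit 4) (nat_lit 4) (nat_lit 380) (nat_lit 306) (nat_lit 214)) (XT.lf (nat_lit 0) (nat_lit 521471742527) (nat_lit 76) (nat_lit 25826451920) (nat_lit 76) (nat_lit 3618040372) (nat_lit 3) (nat_lit 4) (nat_lit 4) (nat_lit 5) (nat_lit 4) (nat_lit 4) (nat_lit 381) (nat_lit 306) (nat_lit 213)))) (XT.nd (nat_lit 156) (nat_lit 0) (nat_lit 0) (XT.nd (nat_lit 78) (nat_lit 76) (nat_lit 0) (XT.lf (nat_lit 0) (nat_lit 9237892780) (nat_lit 152) (nat_lit 2994877229) (nat_lit 76) (nat_lit 581591561264) (nat_lit 2) (nat_lit 5) (nat_lit 4) (nat_lit 5) (nat_lit 3) (nat_lit 4) (nat_lit 382) (nat_lit 306) (nat_lit 212))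 (XT.lf (nat_lit 0) (nat_lit 23648146147) (nat_lit 152) (nat_lit 613369191960) (nat_lit 0) (nat_lit 3082514790) (nat_lit 1) (nat_lit 5) (nat_lit 3) (nat_lit 4) (nat_lit 1) (nat_lit 4) (nat_lit 383) (nat_lit 306) (nat_lit 211))) (XT.nd (nat_lit 78) (nat_lit 0) (nat_lit 0) (XT.lf (nat_lit 0) (nat_lit 39611350721) (nat_lit 152) (nat_lit 631389354424) (nat_lit 0) (nat_lit 19044701145) (nat_lit 1) (nat_lit 5) (nat_lit 3) (nat_lit 4) (nat_lit 1) (nat_lit 4) (nat_lit 384) (nat_lit 306) (nat_lit 210)) (XT.lf (nat_lit 0) (nat_lit 56850115841) (nat_lit 152) (nat_lit 650854084791) (nat_lit 0) (nat_lit 36282523468) (nat_lit 1) (nat_lit 5) (nat_lit 3) (nat_lit 4) (nat_lit 1) (nat_lit 4) (nat_lit 385) (nat_lit 306) (nat_lit 209))))) (XT.nd (nat_lit 312) (nat_lit 0) (nat_lit 0) (XT.nd (nat_lit 156) (nat_lit 0) (nat_lit 0) (XT.nd (nat_lit 78) (nat_lit 0) (nat_lit 0) (XT.lf (nat_lit 0) (nat_lit 75466597150)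 (nat_lit 152) (nat_lit 671878729610) (nat_lit 0) (nat_lit 54898131817) (nat_lit 1) (nat_lit 5) (nat_lit 3) (nat_lit 4) (nat_lit 1) (nat_lit 4) (nat_lit 386) (nat_lit 306) (nat_lit 208)) (XT.lf (nat_lit 0) (nat_lit 95571114537) (nat_lit 152) (nat_lit 694587879370) (nat_lit 0) (nat_lit 75001840909) (nat_lit 1) (nat_lit 5) (nat_lit 3) (nat_lit 4) (nat_lit 1) (nat_lit 4) (nat_lit 387) (nat_lit 306) (nat_lit 207))) (XT.nd (nat_lit 78) (nat_lit 0) (nat_lit 0) (XT.lf (nat_lit 0) (nat_lit 117282805885) (nat_lit 152) (nat_lit 719116106810) (nat_lit 0) (nat_lit 96712783834) (nat_lit 1) (nat_lit 5) (nat_lit 3) (nat_lit 4) (nat_lit 1) (nat_lit 4) (nat_lit 388) (nat_lit 306) (nat_lit 206)) (XT.lf (nat_lit 0) (nat_lit 140730333066) (nat_lit 152) (nat_lit 745608764388) (nat_lit 0) (nat_lit 120159618032) (nat_lit 1) (nat_lit 5) (nat_lit 3) (nat_lit 4) (nat_lit 1) (nat_lit 4) (nat_lit 389) (nat_lit 306)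 (nat_lit 205)))) (XT.nd (nat_lit 156) (nat_lit 0) (nat_lit 0) (XT.nd (nat_lit 78) (nat_lit 0) (nat_lit 0) (XT.lf (nat_lit 0) (nat_lit 166052644392) (nat_lit 152) (nat_lit 774222845632) (nat_lit 0) (nat_lit 145481287706) (nat_lit 1) (nat_lit 5) (nat_lit 3) (nat_lit 4) (nat_lit 1) (nat_lit 4) (nat_lit 390) (nat_lit 306) (nat_lit 204)) (XT.lf (nat_lit 0) (nat_lit 193399798001) (nat_lit 152) (nat_lit 805127915466) (nat_lit 0) (nat_lit 172827847194) (nat_lit 1) (nat_lit 5) (nat_lit 3) (nat_lit 4) (nat_lit 1) (nat_lit 4) (nat_lit 391) (nat_lit 306) (nat_lit 203))) (XT.nd (nat_lit 78) (nat_lit 0) (nat_lit 0) (XT.lf (nat_lit 0) (nat_lit 222933851103) (nat_lit 152) (nat_lit 838507115046) (nat_lit 0) (nat_lit 202361350182) (nat_lit 1) (nat_lit 5) (nat_lit 3) (nat_lit 4) (nat_lit 1) (nat_lit 4) (nat_lit 392) (nat_lit 306) (nat_lit 202)) (XT.nd (nat_lit 78) (nat_lit 0) (nat_lit 0) (XT.lf (nat_lit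 0) (nat_lit 254829820306) (nat_lit 152) (nat_lit 874558247036) (nat_lit 0) (nat_lit 234256810022) (nat_lit 1) (nat_lit 5) (nat_lit 3) (nat_lit 4) (nat_lit 1) (nat_lit 4) (nat_lit 393) (nat_lit 306) (nat_lit 201)) (XT.lf (nat_lit 0) (nat_lit 289276718762) (nat_lit 152) (nat_lit 913494947773) (nat_lit 0) (nat_lit 268703236846) (nat_lit 1) (nat_lit 5) (nat_lit 3) (nat_lit 4) (nat_lit 1) (nat_lit 4) (nat_lit 394) (nat_lit 306) (nat_lit 200))))))) (XT.nd (nat_lit 624) (nat_lit 0) (nat_lit 0) (XT.nd (nat_lit 312) (nat_lit 0) (nat_lit 0) (XT.nd (nat_lit 156) (nat_lit 0) (nat_lit 0) (XT.nd (nat_lit 78) (nat_lit 0) (nat_lit 0) (XT.lf (nat_lit 0) (nat_lit 326478676240) (nat_lit 152) (nat_lit 955547953262) (nat_lit 0) (nat_lit 305904757627) (nat_lit 1) (nat_lit 5) (nat_lit 3) (nat_lit 4) (nat_lit 1) (nat_lit 4) (nat_lit 395) (nat_lit 306) (nat_lit 199)) (XT.lf (nat_lit 0) (nat_lit 366656148784)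 (nat_lit 152) (nat_lit 1000966466498) (nat_lit 0) (nat_lit 346081825821) (nat_lit 1) (nat_lit 5) (nat_lit 3) (nat_lit 4) (nat_lit 1) (nat_lit 4) (nat_lit 396) (nat_lit 306) (nat_lit 198))) (XT.nd (nat_lit 78) (nat_lit 0) (nat_lit 0) (XT.lf (nat_lit 0) (nat_lit 410047225121) (nat_lit 152) (nat_lit 1050019634227) (nat_lit 0) (nat_lit 389472527760) (nat_lit 1) (nat_lit 5) (nat_lit 3) (nat_lit 4) (nat_lit 1) (nat_lit 4) (nat_lit 397) (nat_lit 306) (nat_lit 197)) (XT.lf (nat_lit 0) (nat_lit 456909037553) (nat_lit 152) (nat_lit 1102998141886) (nat_lit 0) (nat_lit 436333993529) (nat_lit 1) (nat_lit 5) (nat_lit 3) (nat_lit 4) (nat_lit 1) (nat_lit 4) (nat_lit 398) (nat_lit 306) (nat_lit 196)))) (XT.nd (nat_lit 156) (nat_lit 0) (nat_lit 0) (XT.nd (nat_lit 78) (nat_lit 0) (nat_lit 0) (XT.lf (nat_lit 0) (nat_lit 507519285712) (nat_lit 152) (nat_lit 1160215936188) (nat_lit 0) (nat_lit 486943920702)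 (nat_lit 1) (nat_lit 5) (nat_lit 3) (nat_lit 4) (nat_lit 1) (nat_lit 4) (nat_lit 399) (nat_lit 306) (nat_lit 195)) (XT.lf (nat_lit 0) (nat_lit 562177882177) (nat_lit 152) (nat_lit 1222012085544) (nat_lit 0) (nat_lit 541602219958) (nat_lit 1) (nat_lit 5) (nat_lit 3) (nat_lit 4) (nat_lit 1) (nat_lit 4) (nat_lit 400) (nat_lit 306) (nat_lit 194))) (XT.nd (nat_lit 78) (nat_lit 0) (nat_lit 0) (XT.lf (nat_lit 0) (nat_lit 621208729744) (nat_lit 152) (nat_lit 1288752789356) (nat_lit 0) (nat_lit 600632792332) (nat_lit 1) (nat_lit 5) (nat_lit 3) (nat_lit 4) (nat_lit 1) (nat_lit 4) (nat_lit 401) (nat_lit 306) (nat_lit 193)) (XT.lf (nat_lit 0) (nat_lit 684961640842) (nat_lit 152) (nat_lit 1360833548093) (nat_lit 0) (nat_lit 664385448622) (nat_lit 1) (nat_lit 5) (nat_lit 3) (nat_lit 4) (nat_lit 1) (nat_lit 4) (nat_lit 402) (nat_lit 306) (nat_lit 192))))) (XT.nd (nat_lit 312) (nat_lit 0) (nat_lit 0)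 (XT.nd (nat_lit 156) (nat_lit 0) (nat_lit 0) (XT.nd (nat_lit 78) (nat_lit 0) (nat_lit 0) (XT.lf (nat_lit 0) (nat_lit 753814410500) (nat_lit 152) (nat_lit 1438681506991) (nat_lit 0) (nat_lit 733237982346) (nat_lit 1) (nat_lit 5) (nat_lit 3) (nat_lit 4) (nat_lit 1) (nat_lit 4) (nat_lit 403) (nat_lit 306) (nat_lit 191)) (XT.lf (nat_lit 0) (nat_lit 828175055131) (nat_lit 152) (nat_lit 1522757987288) (nat_lit 0) (nat_lit 807598408519) (nat_lit 1) (nat_lit 5) (nat_lit 3) (nat_lit 4) (nat_lit 1) (nat_lit 4) (nat_lit 404) (nat_lit 306) (nat_lit 190))) (XT.nd (nat_lit 78) (nat_lit 0) (nat_lit 0) (XT.lf (nat_lit 0) (nat_lit 908484230407) (nat_lit 152) (nat_lit 1613561219979) (nat_lit 0) (nat_lit 887907381519) (nat_lit 1) (nat_lit 5) (nat_lit 3) (nat_lit 4) (nat_lit 1) (nat_lit 4) (nat_lit 405) (nat_lit 306) (nat_lit 189)) (XT.lf (nat_lit 0) (nat_lit 995217842551) (nat_lit 152) (nat_lit 1711629298293)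 (nat_lit 0) (nat_lit 974640806371) (nat_lit 1) (nat_lit 5) (nat_lit 3) (nat_lit 4) (nat_lit 1) (nat_lit 4) (nat_lit 406) (nat_lit 306) (nat_lit 188)))) (XT.nd (nat_lit 156) (nat_lit 0) (nat_lit 0) (XT.nd (nat_lit 78) (nat_lit 0) (nat_lit 0) (XT.lf (nat_lit 0) (nat_lit 1088889868524) (nat_lit 152) (nat_lit 1817543366400) (nat_lit 0) (nat_lit 1068312658926) (nat_lit 1) (nat_lit 5) (nat_lit 3) (nat_lit 4) (nat_lit 1) (nat_lit 4) (nat_lit 407) (nat_lit 306) (nat_lit 187)) (XT.lf (nat_lit 0) (nat_lit 1190055401814) (nat_lit 152) (nat_lit 1931931063220) (nat_lit 0) (nat_lit 1169478031643) (nat_lit 1) (nat_lit 5) (nat_lit 3) (nat_lit 4) (nat_lit 1) (nat_lit 4) (nat_lit 408) (nat_lit 306) (nat_lit 186))) (XT.nd (nat_lit 78) (nat_lit 0) (nat_lit 0) (XT.lf (nat_lit 0) (nat_lit 1299313941876) (nat_lit 152) (nat_lit 2055470241773) (nat_lit 0) (nat_lit 1278736423028) (nat_lit 1) (nat_lit 5) (nat_lit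 3) (nat_lit 4) (nat_lit 1) (nat_lit 4) (nat_lit 409) (nat_lit 306) (nat_lit 185)) (XT.nd (nat_lit 78) (nat_lit 0) (nat_lit 0) (XT.lf (nat_lit 0) (nat_lit 1417312946728) (nat_lit 152) (nat_lit 2188892986079) (nat_lit 0) (nat_lit 1396735290214) (nat_lit 1) (nat_lit 5) (nat_lit 3) (nat_lit 4) (nat_lit 1) (nat_lit 4) (nat_lit 410) (nat_lit 306) (nat_lit 184)) (XT.lf (nat_lit 0) (nat_lit 1544751669729) (nat_lit 152) (nat_lit 2332989949438) (nat_lit 0) (nat_lit 1524173885748) (nat_lit 1) (nat_lit 5) (nat_lit 3) (nat_lit 4) (nat_lit 1) (nat_lit 4) (nat_lit 411) (nat_lit 306) (nat_lit 183))))))))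
noncomputable def xc118 : XT := (XT.nd (nat_lit 39936) (nat_lit 0) (nat_lit 1140) (XT.nd (nat_lit 39234) (nat_lit 0) (nat_lit 2584) (XT.nd (nat_lit 38922) (nat_lit 0) (nat_lit 3800) (XT.nd (nat_lit 38766) (nat_lit 0) (nat_lit 4180) (XT.nd (nat_lit 38688) (nat_lit 0) (nat_lit 4180) (XT.lf (nat_lit 0) (nat_lit 1682385303314) (nat_lit 152) (nat_lit 2488615039781) (nat_lit 0) (nat_lit 1661807401306) (nat_lit 1) (nat_lit 5) (nat_lit 3) (nat_lit 4) (nat_lit 1) (nat_lit 4) (nat_lit 412) (nat_lit 306) (nat_lit 182)) (XT.lf (nat_lit 0) (nat_lit 399986145) (nat_lit 0) (nat_lit 399986145) (nat_lit 380) (nat_lit 3135315566) (nat_lit 56) (nat_lit 5) (nat_lit 56) (nat_lit 3) (nat_lit 61) (nat_lit 3) (nat_lit 307) (nat_lit 307) (nat_lit 286))) (XT.nd (nat_lit 78) (nat_lit 0) (nat_lit 0) (XT.lf (nat_lit 0) (nat_lit 2904741822) (nat_lit 380) (nat_lit 3411685610) (nat_lit 456) (nat_lit 1766396934) (nat_lit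 56) (nat_lit 5) (nat_lit 61) (nat_lit 3) (nat_lit 62) (nat_lit 5) (nat_lit 308) (nat_lit 307) (nat_lit 285)) (XT.lf (nat_lit 76) (nat_lit 471581311) (nat_lit 0) (nat_lit 3756234965) (nat_lit 456) (nat_lit 4091456361) (nat_lit 57) (nat_lit 5) (nat_lit 56) (nat_lit 5) (nat_lit 62) (nat_lit 5) (nat_lit 309) (nat_lit 307) (nat_lit 284)))) (XT.nd (nat_lit 156) (nat_lit 380) (nat_lit 0) (XT.nd (nat_lit 78) (nat_lit 0) (nat_lit 76) (XT.lf (nat_lit 76) (nat_lit 4790160880) (nat_lit 0) (nat_lit 848719806) (nat_lit 456) (nat_lit 2937491232) (nat_lit 57) (nat_lit 5) (nat_lit 56) (nat_lit 5) (nat_lit 62) (nat_lit 5) (nat_lit 310) (nat_lit 307) (nat_lit 283)) (XT.lf (nat_lit 76) (nat_lit 496220673) (nat_lit 0) (nat_lit 6631676721) (nat_lit 456) (nat_lit 1729220329) (nat_lit 58) (nat_lit 5) (nat_lit 57) (nat_lit 5) (nat_lit 63) (nat_lit 5) (nat_lit 311) (nat_lit 307) (nat_lit 282))) (XT.nd (nat_lit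 78) (nat_lit 456) (nat_lit 0) (XT.lf (nat_lit 76) (nat_lit 5241550135) (nat_lit 0) (nat_lit 3523345008) (nat_lit 456) (nat_lit 393382189) (nat_lit 58) (nat_lit 5) (nat_lit 57) (nat_lit 5) (nat_lit 63) (nat_lit 5) (nat_lit 312) (nat_lit 307) (nat_lit 281)) (XT.lf (nat_lit 76) (nat_lit 827595632) (nat_lit 0) (nat_lit 97569561) (nat_lit 532) (nat_lit 8562304341) (nat_lit 52) (nat_lit 5) (nat_lit 51) (nat_lit 5) (nat_lit 58) (nat_lit 5) (nat_lit 313) (nat_lit 307) (nat_lit 280))))) (XT.nd (nat_lit 312) (nat_lit 532) (nat_lit 0) (XT.nd (nat_lit 156) (nat_lit 304) (nat_lit 0) (XT.nd (nat_lit 78) (nat_lit 456) (nat_lit 0) (XT.lf (nat_lit 0) (nat_lit 2438388142) (nat_lit 456) (nat_lit 3837112824) (nat_lit 76) (nat_lit 3558051872) (nat_lit 52) (nat_lit 5) (nat_lit 58) (nat_lit 5) (nat_lit 53) (nat_lit 5) (nat_lit 314) (nat_lit 307) (nat_lit 279)) (XT.lf (nat_lit 0) (nat_lit 1365715475) (nat_lit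 456) (nat_lit 2662646338) (nat_lit 532) (nat_lit 6182698815) (nat_lit 46) (nat_lit 5) (nat_lit 52) (nat_lit 5) (nat_lit 53) (nat_lit 5) (nat_lit 315) (nat_lit 307) (nat_lit 278))) (XT.nd (nat_lit 78) (nat_lit 304) (nat_lit 0) (XT.lf (nat_lit 0) (nat_lit 5807652365) (nat_lit 532) (nat_lit 3515995269) (nat_lit 76) (nat_lit 1290330825) (nat_lit 46) (nat_lit 5) (nat_lit 53) (nat_lit 5) (nat_lit 47) (nat_lit 5) (nat_lit 316) (nat_lit 307) (nat_lit 277)) (XT.lf (nat_lit 0) (nat_lit 2210685345) (nat_lit 304) (nat_lit 5571183816) (nat_lit 380) (nat_lit 3263219598) (nat_lit 42) (nat_lit 5) (nat_lit 46) (nat_lit 5) (nat_lit 47) (nat_lit 5) (nat_lit 317) (nat_lit 307) (nat_lit 276)))) (XT.nd (nat_lit 156) (nat_lit 228) (nat_lit 0) (XT.nd (nat_lit 78) (nat_lit 304) (nat_lit 0) (XT.lf (nat_lit 0) (nat_lit 8526796546) (nat_lit 304) (nat_lit 1417131503) (nat_lit 380) (nat_lit 1564520866) (nat_lit 42)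 (nat_lit 5) (nat_lit 46) (nat_lit 5) (nat_lit 47) (nat_lit 5) (nat_lit 318) (nat_lit 307) (nat_lit 275)) (XT.lf (nat_lit 0) (nat_lit 352227242) (nat_lit 304) (nat_lit 8645188277) (nat_lit 76) (nat_lit 3003421174) (nat_lit 38) (nat_lit 5) (nat_lit 42) (nat_lit 5) (nat_lit 39) (nat_lit 5) (nat_lit 319) (nat_lit 307) (nat_lit 274))) (XT.nd (nat_lit 78) (nat_lit 228) (nat_lit 0) (XT.lf (nat_lit 0) (nat_lit 2398159364) (nat_lit 304) (nat_lit 2306273027) (nat_lit 76) (nat_lit 7820224416) (nat_lit 38) (nat_lit 5) (nat_lit 42) (nat_lit 5) (nat_lit 39) (nat_lit 5) (nat_lit 320) (nat_lit 307) (nat_lit 273)) (XT.nd (nat_lit 78) (nat_lit 0) (nat_lit 0) (XT.lf (nat_lit 0) (nat_lit 4666505825) (nat_lit 304) (nat_lit 8376498914) (nat_lit 76) (nat_lit 42791372) (nat_lit 35) (nat_lit 5) (nat_lit 39) (nat_lit 5) (nat_lit 36) (nat_lit 5) (nat_lit 321) (nat_lit 307) (nat_lit 272)) (XT.lf (nat_lit 0) (nat_lit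 7249930446) (nat_lit 304) (nat_lit 1460721689) (nat_lit 76) (nat_lit 4970589996) (nat_lit 35) (nat_lit 5) (nat_lit 39) (nat_lit 5) (nat_lit 36) (nat_lit 5) (nat_lit 322) (nat_lit 307) (nat_lit 271))))))) (XT.nd (nat_lit 624) (nat_lit 532) (nat_lit 0) (XT.nd (nat_lit 312) (nat_lit 304) (nat_lit 0) (XT.nd (nat_lit 156) (nat_lit 456) (nat_lit 0) (XT.nd (nat_lit 78) (nat_lit 0) (nat_lit 0) (XT.lf (nat_lit 0) (nat_lit 6259029283) (nat_lit 152) (nat_lit 3882198026) (nat_lit 228) (nat_lit 4175097338) (nat_lit 33) (nat_lit 5) (nat_lit 35) (nat_lit 5) (nat_lit 36) (nat_lit 5) (nat_lit 323) (nat_lit 307) (nat_lit 270)) (XT.lf (nat_lit 0) (nat_lit 13289382806) (nat_lit 228) (nat_lit 417013433) (nat_lit 76) (nat_lit 1293862644) (nat_lit 33) (nat_lit 5) (nat_lit 36) (nat_lit 5) (nat_lit 34) (nat_lit 5) (nat_lit 324) (nat_lit 307) (nat_lit 269))) (XT.nd (nat_lit 78) (nat_lit 152) (nat_lit 0) (XT.lf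 (nat_lit 0) (nat_lit 1160545215) (nat_lit 304) (nat_lit 7670097099) (nat_lit 76) (nat_lit 6885904813) (nat_lit 29) (nat_lit 5) (nat_lit 33) (nat_lit 5) (nat_lit 30) (nat_lit 5) (nat_lit 325) (nat_lit 307) (nat_lit 268)) (XT.lf (nat_lit 0) (nat_lit 648783020) (nat_lit 152) (nat_lit 3504507241) (nat_lit 228) (nat_lit 12334640816) (nat_lit 27) (nat_lit 5) (nat_lit 29) (nat_lit 5) (nat_lit 30) (nat_lit 5) (nat_lit 326) (nat_lit 307) (nat_lit 267)))) (XT.nd (nat_lit 156) (nat_lit 152) (nat_lit 0) (XT.nd (nat_lit 78) (nat_lit 152) (nat_lit 0) (XT.lf (nat_lit 0) (nat_lit 7612783558) (nat_lit 228) (nat_lit 7356227187) (nat_lit 76) (nat_lit 2333894502) (nat_lit 27) (nat_lit 5) (nat_lit 30) (nat_lit 5) (nat_lit 28) (nat_lit 5) (nat_lit 327) (nat_lit 307) (nat_lit 266)) (XT.lf (nat_lit 0) (nat_lit 1744286610) (nat_lit 152) (nat_lit 9698938776) (nat_lit 228) (nat_lit 6732377760) (nat_lit 25) (nat_lit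 5) (nat_lit 27) (nat_lit 5) (nat_lit 28) (nat_lit 5) (nat_lit 328) (nat_lit 307) (nat_lit 265))) (XT.nd (nat_lit 78) (nat_lit 152) (nat_lit 0) (XT.lf (nat_lit 0) (nat_lit 11935375704) (nat_lit 152) (nat_lit 3808602548) (nat_lit 228) (nat_lit 3361084978) (nat_lit 25) (nat_lit 5) (nat_lit 27) (nat_lit 5) (nat_lit 28) (nat_lit 5) (nat_lit 329) (nat_lit 307) (nat_lit 264)) (XT.lf (nat_lit 0) (nat_lit 363617357) (nat_lit 152) (nat_lit 17250033962) (nat_lit 76) (nat_lit 2486921939) (nat_lit 23) (nat_lit 5) (nat_lit 25) (nat_lit 5) (nat_lit 24) (nat_lit 5) (nat_lit 330) (nat_lit 307) (nat_lit 263))))) (XT.nd (nat_lit 312) (nat_lit 304) (nat_lit 0) (XT.nd (nat_lit 156) (nat_lit 76) (nat_lit 0) (XT.nd (nat_lit 78) (nat_lit 152) (nat_lit 0) (XT.lf (nat_lit 0) (nat_lit 4470247858) (nat_lit 152) (nat_lit 7325805642) (nat_lit 76) (nat_lit 9351488267) (nat_lit 23) (nat_lit 5) (nat_lit 25) (nat_lit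 5) (nat_lit 24) (nat_lit 5) (nat_lit 331) (nat_lit 307) (nat_lit 262)) (XT.lf (nat_lit 0) (nat_lit 3517800897) (nat_lit 152) (nat_lit 5440256858) (nat_lit 228) (nat_lit 13316039545) (nat_lit 21) (nat_lit 5) (nat_lit 23) (nat_lit 5) (nat_lit 24) (nat_lit 5) (nat_lit 332) (nat_lit 307) (nat_lit 261))) (XT.nd (nat_lit 78) (nat_lit 76) (nat_lit 0) (XT.lf (nat_lit 0) (nat_lit 14013426506) (nat_lit 228) (nat_lit 7919993092) (nat_lit 76) (nat_lit 1540713345) (nat_lit 21) (nat_lit 5) (nat_lit 24) (nat_lit 5) (nat_lit 22) (nat_lit 4) (nat_lit 333) (nat_lit 307) (nat_lit 260)) (XT.lf (nat_lit 0) (nat_lit 3783673657) (nat_lit 76) (nat_lit 15892949861) (nat_lit 152) (nat_lit 5077311565) (nat_lit 20) (nat_lit 5) (nat_lit 21) (nat_lit 5) (nat_lit 22) (nat_lit 4) (nat_lit 334) (nat_lit 307) (nat_lit 259)))) (XT.nd (nat_lit 156) (nat_lit 76) (nat_lit 0) (XT.nd (nat_lit 78) (nat_lit 228) (nat_lit 0) (XT.lf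 (nat_lit 0) (nat_lit 16827743425) (nat_lit 76) (nat_lit 9153802807) (nat_lit 152) (nat_lit 139514480) (nat_lit 20) (nat_lit 5) (nat_lit 21) (nat_lit 5) (nat_lit 22) (nat_lit 4) (nat_lit 335) (nat_lit 307) (nat_lit 258)) (XT.lf (nat_lit 0) (nat_lit 3314380556) (nat_lit 152) (nat_lit 1672335377) (nat_lit 228) (nat_lit 22596620763) (nat_lit 17) (nat_lit 5) (nat_lit 19) (nat_lit 5) (nat_lit 20) (nat_lit 5) (nat_lit 336) (nat_lit 307) (nat_lit 257))) (XT.nd (nat_lit 78) (nat_lit 76) (nat_lit 0) (XT.lf (nat_lit 0) (nat_lit 10904298178) (nat_lit 228) (nat_lit 11892211172) (nat_lit 76) (nat_lit 6334718373) (nat_lit 17) (nat_lit 5) (nat_lit 20) (nat_lit 5) (nat_lit 18) (nat_lit 4) (nat_lit 337) (nat_lit 307) (nat_lit 256)) (XT.nd (nat_lit 78) (nat_lit 0) (nat_lit 0) (XT.lf (nat_lit 0) (nat_lit 1462907673) (nat_lit 76) (nat_lit 15886917190) (nat_lit 152) (nat_lit 13448786332) (nat_lit 16) (nat_lit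 5) (nat_lit 17) (nat_lit 5) (nat_lit 18) (nat_lit 4) (nat_lit 338) (nat_lit 307) (nat_lit 255)) (XT.lf (nat_lit 0) (nat_lit 16522298471) (nat_lit 76) (nat_lit 8090577818) (nat_lit 152) (nat_lit 7962380850) (nat_lit 16) (nat_lit 5) (nat_lit 17) (nat_lit 5) (nat_lit 18) (nat_lit 4) (nat_lit 339) (nat_lit 307) (nat_lit 254))))))))
noncomputable def xc119 : XT := (XT.nd (nat_lit 1326) (nat_lit 304) (nat_lit 0) (XT.nd (nat_lit 624) (nat_lit 304) (nat_lit 0) (XT.nd (nat_lit 312) (nat_lit 152) (nat_lit 0) (XT.nd (nat_lit 156) (nat_lit 76) (nat_lit 0) (XT.nd (nat_lit 78) (nat_lit 152) (nat_lit 0) (XT.lf (nat_lit 0) (nat_lit 32442965130) (nat_lit 152) (nat_lit 1754341036) (nat_lit 0) (nat_lit 297869867) (nat_lit 16) (nat_lit 5) (nat_lit 18) (nat_lit 4) (nat_lit 16) (nat_lit 4) (nat_lit 340) (nat_lit 307) (nat_lit 253)) (XT.lf (nat_lit 0) (nat_lit 4658026188) (nat_lit 152) (nat_lit 22494311176)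 (nat_lit 76) (nat_lit 9364524737) (nat_lit 14) (nat_lit 5) (nat_lit 16) (nat_lit 5) (nat_lit 15) (nat_lit 4) (nat_lit 341) (nat_lit 307) (nat_lit 252))) (XT.nd (nat_lit 78) (nat_lit 76) (nat_lit 0) (XT.lf (nat_lit 0) (nat_lit 11823250647) (nat_lit 152) (nat_lit 7625746510) (nat_lit 76) (nat_lit 19244714741) (nat_lit 14) (nat_lit 5) (nat_lit 16) (nat_lit 5) (nat_lit 15) (nat_lit 4) (nat_lit 342) (nat_lit 307) (nat_lit 251)) (XT.lf (nat_lit 0) (nat_lit 8841131901) (nat_lit 76) (nat_lit 10914513196) (nat_lit 152) (nat_lit 21273563663) (nat_lit 13) (nat_lit 5) (nat_lit 14) (nat_lit 5) (nat_lit 15) (nat_lit 4) (nat_lit 343) (nat_lit 307) (nat_lit 250)))) (XT.nd (nat_lit 156) (nat_lit 76) (nat_lit 0) (XT.nd (nat_lit 78) (nat_lit 76) (nat_lit 0) (XT.lf (nat_lit 0) (nat_lit 27026449494) (nat_lit 76) (nat_lit 1486605257) (nat_lit 152) (nat_lit 15023270846) (nat_lit 13) (nat_lit 5) (nat_lit 14)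 (nat_lit 5) (nat_lit 15) (nat_lit 4) (nat_lit 344) (nat_lit 307) (nat_lit 249)) (XT.lf (nat_lit 0) (nat_lit 191840953) (nat_lit 76) (nat_lit 37975895897) (nat_lit 76) (nat_lit 8060553626) (nat_lit 12) (nat_lit 4) (nat_lit 13) (nat_lit 5) (nat_lit 13) (nat_lit 4) (nat_lit 345) (nat_lit 307) (nat_lit 248))) (XT.nd (nat_lit 78) (nat_lit 76) (nat_lit 0) (XT.lf (nat_lit 0) (nat_lit 19097561738) (nat_lit 76) (nat_lit 29969746970) (nat_lit 76) (nat_lit 30514725) (nat_lit 12) (nat_lit 4) (nat_lit 13) (nat_lit 5) (nat_lit 13) (nat_lit 4) (nat_lit 346) (nat_lit 307) (nat_lit 247)) (XT.lf (nat_lit 0) (nat_lit 8193909662) (nat_lit 152) (nat_lit 12918020492) (nat_lit 76) (nat_lit 31069629238) (nat_lit 11) (nat_lit 5) (nat_lit 13) (nat_lit 5) (nat_lit 12) (nat_lit 4) (nat_lit 347) (nat_lit 307) (nat_lit 246))))) (XT.nd (nat_lit 312) (nat_lit 152) (nat_lit 0) (XT.nd (nat_lit 156) (nat_lit 76) (nat_lit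 0) (XT.nd (nat_lit 78) (nat_lit 0) (nat_lit 0) (XT.lf (nat_lit 0) (nat_lit 5792938971) (nat_lit 76) (nat_lit 11406471299) (nat_lit 152) (nat_lit 38302548488) (nat_lit 10) (nat_lit 5) (nat_lit 11) (nat_lit 5) (nat_lit 12) (nat_lit 4) (nat_lit 348) (nat_lit 307) (nat_lit 245)) (XT.lf (nat_lit 0) (nat_lit 26709259616) (nat_lit 76) (nat_lit 555191652) (nat_lit 152) (nat_lit 31796419675) (nat_lit 10) (nat_lit 5) (nat_lit 11) (nat_lit 5) (nat_lit 12) (nat_lit 4) (nat_lit 349) (nat_lit 307) (nat_lit 244))) (XT.nd (nat_lit 78) (nat_lit 76) (nat_lit 0) (XT.lf (nat_lit 0) (nat_lit 38389869035) (nat_lit 152) (nat_lit 13899129118) (nat_lit 0) (nat_lit 10595092306) (nat_lit 10) (nat_lit 5) (nat_lit 12) (nat_lit 4) (nat_lit 10) (nat_lit 4) (nat_lit 350) (nat_lit 307) (nat_lit 243)) (XT.lf (nat_lit 0) (nat_lit 6307490782) (nat_lit 76) (nat_lit 44251606828) (nat_lit 76) (nat_lit 16441775364) (nat_lit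 9) (nat_lit 4) (nat_lit 10) (nat_lit 5) (nat_lit 10) (nat_lit 4) (nat_lit 351) (nat_lit 307) (nat_lit 242)))) (XT.nd (nat_lit 156) (nat_lit 76) (nat_lit 0) (XT.nd (nat_lit 78) (nat_lit 76) (nat_lit 0) (XT.lf (nat_lit 0) (nat_lit 28898516002) (nat_lit 76) (nat_lit 35171407721) (nat_lit 76) (nat_lit 7347636687) (nat_lit 9) (nat_lit 4) (nat_lit 10) (nat_lit 5) (nat_lit 10) (nat_lit 4) (nat_lit 352) (nat_lit 307) (nat_lit 241)) (XT.lf (nat_lit 0) (nat_lit 2338896814) (nat_lit 152) (nat_lit 22971772668) (nat_lit 76) (nat_lit 50873069377) (nat_lit 8) (nat_lit 5) (nat_lit 10) (nat_lit 5) (nat_lit 9) (nat_lit 4) (nat_lit 353) (nat_lit 307) (nat_lit 240))) (XT.nd (nat_lit 78) (nat_lit 76) (nat_lit 0) (XT.lf (nat_lit 0) (nat_lit 12392857254) (nat_lit 152) (nat_lit 2071485888) (nat_lit 76) (nat_lit 66852448834) (nat_lit 8) (nat_lit 5) (nat_lit 10) (nat_lit 5) (nat_lit 9) (nat_lit 4) (nat_lit 354)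 (nat_lit 307) (nat_lit 239)) (XT.nd (nat_lit 78) (nat_lit 0) (nat_lit 0) (XT.lf (nat_lit 0) (nat_lit 21560946171) (nat_lit 76) (nat_lit 2198977304) (nat_lit 152) (nat_lit 63059867942) (nat_lit 7) (nat_lit 5) (nat_lit 8) (nat_lit 5) (nat_lit 9) (nat_lit 4) (nat_lit 355) (nat_lit 307) (nat_lit 238)) (XT.lf (nat_lit 0) (nat_lit 36350492643) (nat_lit 152) (nat_lit 45842419929) (nat_lit 0) (nat_lit 10544992034) (nat_lit 7) (nat_lit 5) (nat_lit 9) (nat_lit 4) (nat_lit 7) (nat_lit 4) (nat_lit 356) (nat_lit 307) (nat_lit 237))))))) (XT.nd (nat_lit 702) (nat_lit 76) (nat_lit 0) (XT.nd (nat_lit 312) (nat_lit 152) (nat_lit 0) (XT.nd (nat_lit 156) (nat_lit 76) (nat_lit 0) (XT.nd (nat_lit 78) (nat_lit 0) (nat_lit 0) (XT.lf (nat_lit 0) (nat_lit 49996472675) (nat_lit 152) (nat_lit 24946957627) (nat_lit 0) (nat_lit 24182187773) (nat_lit 7) (nat_lit 5) (nat_lit 9) (nat_lit 4) (nat_lit 7) (nat_lit 4) (nat_lit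 357) (nat_lit 307) (nat_lit 236)) (XT.lf (nat_lit 0) (nat_lit 64725843182) (nat_lit 152) (nat_lit 2395747919) (nat_lit 0) (nat_lit 38903424674) (nat_lit 7) (nat_lit 5) (nat_lit 9) (nat_lit 4) (nat_lit 7) (nat_lit 4) (nat_lit 358) (nat_lit 307) (nat_lit 235))) (XT.nd (nat_lit 78) (nat_lit 0) (nat_lit 0) (XT.lf (nat_lit 0) (nat_lit 23100422690) (nat_lit 76) (nat_lit 58081032352) (nat_lit 76) (nat_lit 32251082728) (nat_lit 6) (nat_lit 4) (nat_lit 7) (nat_lit 5) (nat_lit 7) (nat_lit 4) (nat_lit 359) (nat_lit 307) (nat_lit 234)) (XT.lf (nat_lit 0) (nat_lit 50758195154) (nat_lit 76) (nat_lit 48253374249) (nat_lit 76) (nat_lit 22416451370) (nat_lit 6) (nat_lit 4) (nat_lit 7) (nat_lit 5) (nat_lit 7) (nat_lit 4) (nat_lit 360) (nat_lit 307) (nat_lit 233)))) (XT.nd (nat_lit 156) (nat_lit 152) (nat_lit 0) (XT.nd (nat_lit 78) (nat_lit 0) (nat_lit 0) (XT.lf (nat_lit 0) (nat_lit 80615311540) (nat_lit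 76) (nat_lit 37645882814) (nat_lit 76) (nat_lit 11802503217) (nat_lit 6) (nat_lit 4) (nat_lit 7) (nat_lit 5) (nat_lit 7) (nat_lit 4) (nat_lit 361) (nat_lit 307) (nat_lit 232)) (XT.lf (nat_lit 0) (nat_lit 112848702911) (nat_lit 76) (nat_lit 26195698838) (nat_lit 76) (nat_lit 346340798) (nat_lit 6) (nat_lit 4) (nat_lit 7) (nat_lit 5) (nat_lit 7) (nat_lit 4) (nat_lit 362) (nat_lit 307) (nat_lit 231))) (XT.nd (nat_lit 78) (nat_lit 76) (nat_lit 0) (XT.lf (nat_lit 0) (nat_lit 11418638963) (nat_lit 152) (nat_lit 2104124590) (nat_lit 76) (nat_lit 135918537166) (nat_lit 5) (nat_lit 5) (nat_lit 7) (nat_lit 5) (nat_lit 6) (nat_lit 4) (nat_lit 363) (nat_lit 307) (nat_lit 230)) (XT.nd (nat_lit 78) (nat_lit 0) (nat_lit 0) (XT.lf (nat_lit 0) (nat_lit 24734900585) (nat_lit 152) (nat_lit 134719543731) (nat_lit 0) (nat_lit 790438375) (nat_lit 4) (nat_lit 5) (nat_lit 6) (nat_lit 4) (nat_lit 4) (nat_lit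 4) (nat_lit 364) (nat_lit 307) (nat_lit 229)) (XT.lf (nat_lit 0) (nat_lit 39521147040) (nat_lit 152) (nat_lit 116786941196) (nat_lit 0) (nat_lit 15572290497) (nat_lit 4) (nat_lit 5) (nat_lit 6) (nat_lit 4) (nat_lit 4) (nat_lit 4) (nat_lit 365) (nat_lit 307) (nat_lit 228)))))) (XT.nd (nat_lit 312) (nat_lit 76) (nat_lit 0) (XT.nd (nat_lit 156) (nat_lit 0) (nat_lit 0) (XT.nd (nat_lit 78) (nat_lit 0) (nat_lit 0) (XT.lf (nat_lit 0) (nat_lit 55485125155) (nat_lit 152) (nat_lit 97429805025) (nat_lit 0) (nat_lit 31532199784) (nat_lit 4) (nat_lit 5) (nat_lit 6) (nat_lit 4) (nat_lit 4) (nat_lit 4) (nat_lit 366) (nat_lit 307) (nat_lit 227)) (XT.lf (nat_lit 0) (nat_lit 72721436282) (nat_lit 152) (nat_lit 76533426262) (nat_lit 0) (nat_lit 48764743478) (nat_lit 4) (nat_lit 5) (nat_lit 6) (nat_lit 4) (nat_lit 4) (nat_lit 4) (nat_lit 367) (nat_lit 307) (nat_lit 226))) (XT.nd (nat_lit 78) (nat_lit 0)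 (nat_lit 0) (XT.lf (nat_lit 0) (nat_lit 91332221523) (nat_lit 152) (nat_lit 53973974515) (nat_lit 0) (nat_lit 67372040356) (nat_lit 4) (nat_lit 5) (nat_lit 6) (nat_lit 4) (nat_lit 4) (nat_lit 4) (nat_lit 368) (nat_lit 307) (nat_lit 225)) (XT.lf (nat_lit 0) (nat_lit 111427767014) (nat_lit 152) (nat_lit 29617764143) (nat_lit 0) (nat_lit 87464355880) (nat_lit 4) (nat_lit 5) (nat_lit 6) (nat_lit 4) (nat_lit 4) (nat_lit 4) (nat_lit 369) (nat_lit 307) (nat_lit 224)))) (XT.nd (nat_lit 156) (nat_lit 0) (nat_lit 0) (XT.nd (nat_lit 78) (nat_lit 76) (nat_lit 0) (XT.lf (nat_lit 0) (nat_lit 133127157468) (nat_lit 152) (nat_lit 3320462048) (nat_lit 0) (nat_lit 109160755625) (nat_lit 4) (nat_lit 5) (nat_lit 6) (nat_lit 4) (nat_lit 4) (nat_lit 4) (nat_lit 370) (nat_lit 307) (nat_lit 223)) (XT.lf (nat_lit 0) (nat_lit 26394107803) (nat_lit 76) (nat_lit 130799652991) (nat_lit 76) (nat_lit 106830481971)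 (nat_lit 3) (nat_lit 4) (nat_lit 4) (nat_lit 5) (nat_lit 4) (nat_lit 4) (nat_lit 371) (nat_lit 307) (nat_lit 222))) (XT.nd (nat_lit 78) (nat_lit 0) (nat_lit 0) (XT.lf (nat_lit 0) (nat_lit 58667997865) (nat_lit 76) (nat_lit 124605064358) (nat_lit 76) (nat_lit 100633329287) (nat_lit 3) (nat_lit 4) (nat_lit 4) (nat_lit 5) (nat_lit 4) (nat_lit 4) (nat_lit 372) (nat_lit 307) (nat_lit 221)) (XT.nd (nat_lit 78) (nat_lit 0) (nat_lit 0) (XT.lf (nat_lit 0) (nat_lit 93517611173) (nat_lit 76) (nat_lit 117917932263) (nat_lit 76) (nat_lit 93943823070) (nat_lit 3) (nat_lit 4) (nat_lit 4) (nat_lit 5) (nat_lit 4) (nat_lit 4) (nat_lit 373) (nat_lit 307) (nat_lit 220)) (XT.lf (nat_lit 0) (nat_lit 131149463954) (nat_lit 76) (nat_lit 110698629254) (nat_lit 76) (nat_lit 86722321800) (nat_lit 3) (nat_lit 4) (nat_lit 4) (nat_lit 5) (nat_lit 4) (nat_lit 4) (nat_lit 374) (nat_lit 307) (nat_lit 219))))))))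
noncomputable def xc120 : XT := (XT.nd (nat_lit 1326) (nat_lit 0) (nat_lit 0) (XT.nd (nat_lit 624) (nat_lit 152) (nat_lit 0) (XT.nd (nat_lit 312) (nat_lit 0) (nat_lit 0) (XT.nd (nat_lit 156) (nat_lit 0) (nat_lit 0) (XT.nd (nat_lit 78) (nat_lit 0) (nat_lit 0) (XT.lf (nat_lit 0) (nat_lit 171786559779) (nat_lit 76) (nat_lit 102904374278) (nat_lit 76) (nat_lit 78926031397) (nat_lit 3) (nat_lit 4) (nat_lit 4) (nat_lit 5) (nat_lit 4) (nat_lit 4) (nat_lit 375) (nat_lit 307) (nat_lit 218)) (XT.lf (nat_lit 0) (nat_lit 215669711069) (nat_lit 76) (nat_lit 94488979157) (nat_lit 76) (nat_lit 70508751622) (nat_lit 3) (nat_lit 4) (nat_lit 4) (nat_lit 5) (nat_lit 4) (nat_lit 4) (nat_lit 376) (nat_lit 307) (nat_lit 217))) (XT.nd (nat_lit 78) (nat_lit 0) (nat_lit 0) (XT.lf (nat_lit 0) (nat_lit 263058966127) (nat_lit 76) (nat_lit 85402574882) (nat_lit 76) (nat_lit 61420602297) (nat_lit 3) (nat_lit 4) (nat_lit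 4) (nat_lit 5) (nat_lit 4) (nat_lit 4) (nat_lit 377) (nat_lit 307) (nat_lit 216)) (XT.lf (nat_lit 0) (nat_lit 314235150169) (nat_lit 76) (nat_lit 75591316096) (nat_lit 76) (nat_lit 51607727723) (nat_lit 3) (nat_lit 4) (nat_lit 4) (nat_lit 5) (nat_lit 4) (nat_lit 4) (nat_lit 378) (nat_lit 307) (nat_lit 215)))) (XT.nd (nat_lit 156) (nat_lit 0) (nat_lit 0) (XT.nd (nat_lit 78) (nat_lit 0) (nat_lit 0) (XT.lf (nat_lit 0) (nat_lit 369501529470) (nat_lit 76) (nat_lit 64997062004) (nat_lit 76) (nat_lit 41011977532) (nat_lit 3) (nat_lit 4) (nat_lit 4) (nat_lit 5) (nat_lit 4) (nat_lit 4) (nat_lit 379) (nat_lit 307) (nat_lit 214)) (XT.lf (nat_lit 0) (nat_lit 429185608501) (nat_lit 76) (nat_lit 53557031843) (nat_lit 76) (nat_lit 29570562093) (nat_lit 3) (nat_lit 4) (nat_lit 4) (nat_lit 5) (nat_lit 4) (nat_lit 4) (nat_lit 380) (nat_lit 307) (nat_lit 213))) (XT.nd (nat_lit 78) (nat_lit 0) (nat_lit 0)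 (XT.lf (nat_lit 0) (nat_lit 493641070692) (nat_lit 76) (nat_lit 41203432841) (nat_lit 76) (nat_lit 17215680427) (nat_lit 3) (nat_lit 4) (nat_lit 4) (nat_lit 5) (nat_lit 4) (nat_lit 4) (nat_lit 381) (nat_lit 307) (nat_lit 212)) (XT.lf (nat_lit 0) (nat_lit 563249874338) (nat_lit 76) (nat_lit 27863058485) (nat_lit 76) (nat_lit 3874118418) (nat_lit 3) (nat_lit 4) (nat_lit 4) (nat_lit 5) (nat_lit 4) (nat_lit 4) (nat_lit 382) (nat_lit 307) (nat_lit 211))))) (XT.nd (nat_lit 312) (nat_lit 0) (nat_lit 0) (XT.nd (nat_lit 156) (nat_lit 0) (nat_lit 0) (XT.nd (nat_lit 78) (nat_lit 76) (nat_lit 0) (XT.lf (nat_lit 0) (nat_lit 10006272463) (nat_lit 152) (nat_lit 3176993019) (nat_lit 76) (nat_lit 628144654368) (nat_lit 2) (nat_lit 5) (nat_lit 4) (nat_lit 5) (nat_lit 3) (nat_lit 4) (nat_lit 383) (nat_lit 307) (nat_lit 210)) (XT.lf (nat_lit 0) (nat_lit 25569180742) (nat_lit 152) (nat_lit 662381078253) (nat_lit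 0) (nat_lit 3355238183) (nat_lit 1) (nat_lit 5) (nat_lit 3) (nat_lit 4) (nat_lit 1) (nat_lit 4) (nat_lit 384) (nat_lit 307) (nat_lit 209))) (XT.nd (nat_lit 78) (nat_lit 0) (nat_lit 0) (XT.lf (nat_lit 0) (nat_lit 42807279986) (nat_lit 152) (nat_lit 681847124016) (nat_lit 0) (nat_lit 20592464467) (nat_lit 1) (nat_lit 5) (nat_lit 3) (nat_lit 4) (nat_lit 1) (nat_lit 4) (nat_lit 385) (nat_lit 307) (nat_lit 208)) (XT.lf (nat_lit 0) (nat_lit 61423144744) (nat_lit 152) (nat_lit 702872986794) (nat_lit 0) (nat_lit 39207520929) (nat_lit 1) (nat_lit 5) (nat_lit 3) (nat_lit 4) (nat_lit 1) (nat_lit 4) (nat_lit 386) (nat_lit 307) (nat_lit 207)))) (XT.nd (nat_lit 156) (nat_lit 0) (nat_lit 0) (XT.nd (nat_lit 78) (nat_lit 0) (nat_lit 0) (XT.lf (nat_lit 0) (nat_lit 81527091252) (nat_lit 152) (nat_lit 725583264294) (nat_lit 0) (nat_lit 59310719015) (nat_lit 1) (nat_lit 5) (nat_lit 3) (nat_lit 4) (nat_lit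 1) (nat_lit 4) (nat_lit 387) (nat_lit 307) (nat_lit 206)) (XT.lf (nat_lit 0) (nat_lit 103238254006) (nat_lit 152) (nat_lit 750112535938) (nat_lit 0) (nat_lit 81021188785) (nat_lit 1) (nat_lit 5) (nat_lit 3) (nat_lit 4) (nat_lit 1) (nat_lit 4) (nat_lit 388) (nat_lit 307) (nat_lit 205))) (XT.nd (nat_lit 78) (nat_lit 0) (nat_lit 0) (XT.lf (nat_lit 0) (nat_lit 126685291750) (nat_lit 152) (nat_lit 776606160371) (nat_lit 0) (nat_lit 104467584878) (nat_lit 1) (nat_lit 5) (nat_lit 3) (nat_lit 4) (nat_lit 1) (nat_lit 4) (nat_lit 389) (nat_lit 307) (nat_lit 204)) (XT.nd (nat_lit 78) (nat_lit 0) (nat_lit 0) (XT.lf (nat_lit 0) (nat_lit 152007149891) (nat_lit 152) (nat_lit 805221136851) (nat_lit 0) (nat_lit 129788848898) (nat_lit 1) (nat_lit 5) (nat_lit 3) (nat_lit 4) (nat_lit 1) (nat_lit 4) (nat_lit 390) (nat_lit 307) (nat_lit 203)) (XT.lf (nat_lit 0) (nat_lit 179353883887) (nat_lit 152) (nat_lit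 836127035608) (nat_lit 0) (nat_lit 157135032781) (nat_lit 1) (nat_lit 5) (nat_lit 3) (nat_lit 4) (nat_lit 1) (nat_lit 4) (nat_lit 391) (nat_lit 307) (nat_lit 202))))))) (XT.nd (nat_lit 624) (nat_lit 0) (nat_lit 0) (XT.nd (nat_lit 312) (nat_lit 0) (nat_lit 0) (XT.nd (nat_lit 156) (nat_lit 0) (nat_lit 0) (XT.nd (nat_lit 78) (nat_lit 0) (nat_lit 0) (XT.lf (nat_lit 0) (nat_lit 208887548456) (nat_lit 152) (nat_lit 869507002709) (nat_lit 0) (nat_lit 186668187986) (nat_lit 1) (nat_lit 5) (nat_lit 3) (nat_lit 4) (nat_lit 1) (nat_lit 4) (nat_lit 392) (nat_lit 307) (nat_lit 201)) (XT.lf (nat_lit 0) (nat_lit 240783157908) (nat_lit 152) (nat_lit 905558845366) (nat_lit 0) (nat_lit 218563325805) (nat_lit 1) (nat_lit 5) (nat_lit 3) (nat_lit 4) (nat_lit 1) (nat_lit 4) (nat_lit 393) (nat_lit 307) (nat_lit 200))) (XT.nd (nat_lit 78) (nat_lit 0) (nat_lit 0) (XT.lf (nat_lit 0) (nat_lit 275229723261) (nat_lit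 152) (nat_lit 944496204128) (nat_lit 0) (nat_lit 253009454461) (nat_lit 1) (nat_lit 5) (nat_lit 3) (nat_lit 4) (nat_lit 1) (nat_lit 4) (nat_lit 394) (nat_lit 307) (nat_lit 199)) (XT.lf (nat_lit 0) (nat_lit 312431372310) (nat_lit 152) (nat_lit 986549818900) (nat_lit 0) (nat_lit 290210699161) (nat_lit 1) (nat_lit 5) (nat_lit 3) (nat_lit 4) (nat_lit 1) (nat_lit 4) (nat_lit 395) (nat_lit 307) (nat_lit 198)))) (XT.nd (nat_lit 156) (nat_lit 0) (nat_lit 0) (XT.nd (nat_lit 78) (nat_lit 0) (nat_lit 0) (XT.lf (nat_lit 0) (nat_lit 352608559272) (nat_lit 152) (nat_lit 1031968896287) (nat_lit 0) (nat_lit 330387511725) (nat_lit 1) (nat_lit 5) (nat_lit 3) (nat_lit 4) (nat_lit 1) (nat_lit 4) (nat_lit 396) (nat_lit 307) (nat_lit 197)) (XT.lf (nat_lit 0) (nat_lit 395999371180) (nat_lit 152) (nat_lit 1081022586377) (nat_lit 0) (nat_lit 373777976969) (nat_lit 1) (nat_lit 5) (nat_lit 3) (nat_lit 4) (nat_lit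 1) (nat_lit 4) (nat_lit 397) (nat_lit 307) (nat_lit 196))) (XT.nd (nat_lit 78) (nat_lit 0) (nat_lit 0) (XT.lf (nat_lit 0) (nat_lit 442860938772) (nat_lit 152) (nat_lit 1134001577705) (nat_lit 0) (nat_lit 420639223576) (nat_lit 1) (nat_lit 5) (nat_lit 3) (nat_lit 4) (nat_lit 1) (nat_lit 4) (nat_lit 398) (nat_lit 307) (nat_lit 195)) (XT.lf (nat_lit 0) (nat_lit 493470960226) (nat_lit 152) (nat_lit 1191219819848) (nat_lit 0) (nat_lit 471248947821) (nat_lit 1) (nat_lit 5) (nat_lit 3) (nat_lit 4) (nat_lit 1) (nat_lit 4) (nat_lit 399) (nat_lit 307) (nat_lit 194))))) (XT.nd (nat_lit 312) (nat_lit 0) (nat_lit 0) (XT.nd (nat_lit 156) (nat_lit 0) (nat_lit 0) (XT.nd (nat_lit 78) (nat_lit 0) (nat_lit 0) (XT.lf (nat_lit 0) (nat_lit 548129346780) (nat_lit 152) (nat_lit 1253016383871) (nat_lit 0) (nat_lit 525907059182) (nat_lit 1) (nat_lit 5) (nat_lit 3) (nat_lit 4) (nat_lit 1) (nat_lit 4) (nat_lit 400)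 (nat_lit 307) (nat_lit 193)) (XT.lf (nat_lit 0) (nat_lit 607159999984) (nat_lit 152) (nat_lit 1319757471635) (nat_lit 0) (nat_lit 584937457577) (nat_lit 1) (nat_lit 5) (nat_lit 3) (nat_lit 4) (nat_lit 1) (nat_lit 4) (nat_lit 401) (nat_lit 307) (nat_lit 192))) (XT.nd (nat_lit 78) (nat_lit 0) (nat_lit 0) (XT.lf (nat_lit 0) (nat_lit 670912731117) (nat_lit 152) (nat_lit 1391838585883) (nat_lit 0) (nat_lit 648689952776) (nat_lit 1) (nat_lit 5) (nat_lit 3) (nat_lit 4) (nat_lit 1) (nat_lit 4) (nat_lit 402) (nat_lit 307) (nat_lit 191)) (XT.lf (nat_lit 0) (nat_lit 739765334141) (nat_lit 152) (nat_lit 1469686873957) (nat_lit 0) (nat_lit 717542337342) (nat_lit 1) (nat_lit 5) (nat_lit 3) (nat_lit 4) (nat_lit 1) (nat_lit 4) (nat_lit 403) (nat_lit 307) (nat_lit 190)))) (XT.nd (nat_lit 156) (nat_lit 0) (nat_lit 0) (XT.nd (nat_lit 78) (nat_lit 0) (nat_lit 0) (XT.lf (nat_lit 0) (nat_lit 814125824480)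 (nat_lit 152) (nat_lit 1553763659048) (nat_lit 0) (nat_lit 791902625407) (nat_lit 1) (nat_lit 5) (nat_lit 3) (nat_lit 4) (nat_lit 1) (nat_lit 4) (nat_lit 404) (nat_lit 307) (nat_lit 189)) (XT.lf (nat_lit 0) (nat_lit 894434856893) (nat_lit 152) (nat_lit 1644567173954) (nat_lit 0) (nat_lit 872211470528) (nat_lit 1) (nat_lit 5) (nat_lit 3) (nat_lit 4) (nat_lit 1) (nat_lit 4) (nat_lit 405) (nat_lit 307) (nat_lit 188))) (XT.nd (nat_lit 78) (nat_lit 0) (nat_lit 0) (XT.lf (nat_lit 0) (nat_lit 981168336757) (nat_lit 152) (nat_lit 1742635513579) (nat_lit 0) (nat_lit 958944776973) (nat_lit 1) (nat_lit 5) (nat_lit 3) (nat_lit 4) (nat_lit 1) (nat_lit 4) (nat_lit 406) (nat_lit 307) (nat_lit 187)) (XT.nd (nat_lit 78) (nat_lit 0) (nat_lit 0) (XT.lf (nat_lit 0) (nat_lit 1074840240249) (nat_lit 152) (nat_lit 1848549823640) (nat_lit 0) (nat_lit 1052616519892) (nat_lit 1) (nat_lit 5) (nat_lit 3) (nat_lit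 4) (nat_lit 1) (nat_lit 4) (nat_lit 407) (nat_lit 307) (nat_lit 186)) (XT.lf (nat_lit 0) (nat_lit 1176005660130) (nat_lit 152) (nat_lit 1962937744493) (nat_lit 0) (nat_lit 1153781791095) (nat_lit 1) (nat_lit 5) (nat_lit 3) (nat_lit 4) (nat_lit 1) (nat_lit 4) (nat_lit 408) (nat_lit 307) (nat_lit 185))))))))
noncomputable def xc121 : XT := (XT.nd (nat_lit 40014) (nat_lit 0) (nat_lit 1216) (XT.nd (nat_lit 39312) (nat_lit 0) (nat_lit 2812) (XT.nd (nat_lit 39000) (nat_lit 0) (nat_lit 4180) (XT.nd (nat_lit 156) (nat_lit 0) (nat_lit 0) (XT.nd (nat_lit 78) (nat_lit 0) (nat_lit 0) (XT.lf (nat_lit 0) (nat_lit 1285264095185) (nat_lit 152) (nat_lit 2086477130483) (nat_lit 0) (nat_lit 1263040088485) (nat_lit 1) (nat_lit 5) (nat_lit 3) (nat_lit 4) (nat_lit 1) (nat_lit 4) (nat_lit 409) (nat_lit 307) (nat_lit 184)) (XT.lf (nat_lit 0) (nat_lit 1403263002807) (nat_lit 152) (nat_lit 2219900066860) (nat_lit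 0) (nat_lit 1381038868639) (nat_lit 1) (nat_lit 5) (nat_lit 3) (nat_lit 4) (nat_lit 1) (nat_lit 4) (nat_lit 410) (nat_lit 307) (nat_lit 183))) (XT.nd (nat_lit 78) (nat_lit 0) (nat_lit 0) (XT.lf (nat_lit 0) (nat_lit 1530701635781) (nat_lit 152) (nat_lit 2363997208063) (nat_lit 0) (nat_lit 1508477383587) (nat_lit 1) (nat_lit 5) (nat_lit 3) (nat_lit 4) (nat_lit 1) (nat_lit 4) (nat_lit 411) (nat_lit 307) (nat_lit 182)) (XT.lf (nat_lit 0) (nat_lit 1668335186007) (nat_lit 152) (nat_lit 2519622463076) (nat_lit 0) (nat_lit 1646110824530) (nat_lit 1) (nat_lit 5) (nat_lit 3) (nat_lit 4) (nat_lit 1) (nat_lit 4) (nat_lit 412) (nat_lit 307) (nat_lit 181)))) (XT.nd (nat_lit 156) (nat_lit 0) (nat_lit 0) (XT.nd (nat_lit 78) (nat_lit 0) (nat_lit 0) (XT.lf (nat_lit 0) (nat_lit 1015642427) (nat_lit 0) (nat_lit 1015642427) (nat_lit 380) (nat_lit 2122210044) (nat_lit 56) (nat_lit 5) (nat_lit 56) (nat_lit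 3) (nat_lit 61) (nat_lit 3) (nat_lit 308) (nat_lit 308) (nat_lit 284)) (XT.lf (nat_lit 0) (nat_lit 5272820809) (nat_lit 380) (nat_lit 2398860551) (nat_lit 456) (nat_lit 880930015) (nat_lit 56) (nat_lit 5) (nat_lit 61) (nat_lit 3) (nat_lit 62) (nat_lit 5) (nat_lit 309) (nat_lit 308) (nat_lit 283))) (XT.nd (nat_lit 78) (nat_lit 0) (nat_lit 0) (XT.lf (nat_lit 76) (nat_lit 1762516841) (nat_lit 0) (nat_lit 4811164113) (nat_lit 456) (nat_lit 2244982558) (nat_lit 57) (nat_lit 5) (nat_lit 56) (nat_lit 5) (nat_lit 62) (nat_lit 5) (nat_lit 310) (nat_lit 308) (nat_lit 282)) (XT.lf (nat_lit 76) (nat_lit 6333752477) (nat_lit 0) (nat_lit 1615164012) (nat_lit 456) (nat_lit 1159721724) (nat_lit 57) (nat_lit 5) (nat_lit 56) (nat_lit 5) (nat_lit 62) (nat_lit 5) (nat_lit 311) (nat_lit 308) (nat_lit 281))))) (XT.nd (nat_lit 312) (nat_lit 988) (nat_lit 0) (XT.nd (nat_lit 156) (nat_lit 0) (nat_lit 0) (XT.nd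 (nat_lit 78) (nat_lit 0) (nat_lit 0) (XT.lf (nat_lit 0) (nat_lit 12362577) (nat_lit 456) (nat_lit 7589057052) (nat_lit 532) (nat_lit 1820543218) (nat_lit 51) (nat_lit 5) (nat_lit 57) (nat_lit 5) (nat_lit 58) (nat_lit 5) (nat_lit 312) (nat_lit 308) (nat_lit 280)) (XT.lf (nat_lit 0) (nat_lit 1250564646) (nat_lit 456) (nat_lit 2927443072) (nat_lit 532) (nat_lit 5577344145) (nat_lit 51) (nat_lit 5) (nat_lit 57) (nat_lit 5) (nat_lit 58) (nat_lit 5) (nat_lit 313) (nat_lit 308) (nat_lit 279))) (XT.nd (nat_lit 78) (nat_lit 0) (nat_lit 76) (XT.lf (nat_lit 76) (nat_lit 2153488761) (nat_lit 0) (nat_lit 407618962) (nat_lit 532) (nat_lit 7556634744) (nat_lit 52) (nat_lit 5) (nat_lit 51) (nat_lit 5) (nat_lit 58) (nat_lit 5) (nat_lit 314) (nat_lit 308) (nat_lit 278)) (XT.lf (nat_lit 0) (nat_lit 4072959511) (nat_lit 456) (nat_lit 2851786405) (nat_lit 76) (nat_lit 3576840119) (nat_lit 52) (nat_lit 5)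 (nat_lit 58) (nat_lit 5) (nat_lit 53) (nat_lit 5) (nat_lit 315) (nat_lit 308) (nat_lit 277)))) (XT.nd (nat_lit 156) (nat_lit 608) (nat_lit 0) (XT.nd (nat_lit 78) (nat_lit 0) (nat_lit 0) (XT.lf (nat_lit 0) (nat_lit 2734551817) (nat_lit 456) (nat_lit 2979242512) (nat_lit 532) (nat_lit 5201865650) (nat_lit 46) (nat_lit 5) (nat_lit 52) (nat_lit 5) (nat_lit 53) (nat_lit 5) (nat_lit 316) (nat_lit 308) (nat_lit 276)) (XT.lf (nat_lit 0) (nat_lit 7532146371) (nat_lit 532) (nat_lit 2524723213) (nat_lit 76) (nat_lit 1302443632) (nat_lit 46) (nat_lit 5) (nat_lit 53) (nat_lit 5) (nat_lit 47) (nat_lit 5) (nat_lit 317) (nat_lit 308) (nat_lit 275))) (XT.nd (nat_lit 78) (nat_lit 304) (nat_lit 0) (XT.lf (nat_lit 0) (nat_lit 3627875352) (nat_lit 304) (nat_lit 5972930672) (nat_lit 380) (nat_lit 2229407578) (nat_lit 42) (nat_lit 5) (nat_lit 46) (nat_lit 5) (nat_lit 47) (nat_lit 5) (nat_lit 318) (nat_lit 308)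 (nat_lit 274)) (XT.nd (nat_lit 78) (nat_lit 304) (nat_lit 0) (XT.lf (nat_lit 0) (nat_lit 10357398769) (nat_lit 304) (nat_lit 1489809570) (nat_lit 380) (nat_lit 490729213) (nat_lit 42) (nat_lit 5) (nat_lit 46) (nat_lit 5) (nat_lit 47) (nat_lit 5) (nat_lit 319) (nat_lit 308) (nat_lit 273)) (XT.lf (nat_lit 0) (nat_lit 1465733261) (nat_lit 304) (nat_lit 8070143513) (nat_lit 76) (nat_lit 3336000702) (nat_lit 38) (nat_lit 5) (nat_lit 42) (nat_lit 5) (nat_lit 39) (nat_lit 5) (nat_lit 320) (nat_lit 308) (nat_lit 272))))))) (XT.nd (nat_lit 624) (nat_lit 760) (nat_lit 0) (XT.nd (nat_lit 312) (nat_lit 456) (nat_lit 0) (XT.nd (nat_lit 156) (nat_lit 152) (nat_lit 0) (XT.nd (nat_lit 78) (nat_lit 228) (nat_lit 0) (XT.lf (nat_lit 0) (nat_lit 3594945298) (nat_lit 304) (nat_lit 1317941696) (nat_lit 76) (nat_lit 8531310734) (nat_lit 38) (nat_lit 5) (nat_lit 42) (nat_lit 5) (nat_lit 39) (nat_lit 5) (nat_lit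 321) (nat_lit 308) (nat_lit 271)) (XT.lf (nat_lit 0) (nat_lit 6002265534) (nat_lit 304) (nat_lit 7829405632) (nat_lit 76) (nat_lit 222107412) (nat_lit 35) (nat_lit 5) (nat_lit 39) (nat_lit 5) (nat_lit 36) (nat_lit 5) (nat_lit 322) (nat_lit 308) (nat_lit 270))) (XT.nd (nat_lit 78) (nat_lit 152) (nat_lit 0) (XT.lf (nat_lit 0) (nat_lit 8721072330) (nat_lit 304) (nat_lit 450530169) (nat_lit 76) (nat_lit 5531100835) (nat_lit 35) (nat_lit 5) (nat_lit 39) (nat_lit 5) (nat_lit 36) (nat_lit 5) (nat_lit 323) (nat_lit 308) (nat_lit 269)) (XT.lf (nat_lit 0) (nat_lit 7858267988) (nat_lit 152) (nat_lit 3945813376) (nat_lit 228) (nat_lit 3587807773) (nat_lit 33) (nat_lit 5) (nat_lit 35) (nat_lit 5) (nat_lit 36) (nat_lit 5) (nat_lit 324) (nat_lit 308) (nat_lit 268)))) (XT.nd (nat_lit 156) (nat_lit 152) (nat_lit 0) (XT.nd (nat_lit 78) (nat_lit 76) (nat_lit 0) (XT.lf (nat_lit 0) (nat_lit 658802221) (nat_lit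 228) (nat_lit 14503552526) (nat_lit 304) (nat_lit 971641910) (nat_lit 30) (nat_lit 5) (nat_lit 33) (nat_lit 5) (nat_lit 34) (nat_lit 5) (nat_lit 325) (nat_lit 308) (nat_lit 267)) (XT.lf (nat_lit 0) (nat_lit 2034848101) (nat_lit 304) (nat_lit 7192296292) (nat_lit 76) (nat_lit 7682926127) (nat_lit 29) (nat_lit 5) (nat_lit 33) (nat_lit 5) (nat_lit 30) (nat_lit 5) (nat_lit 326) (nat_lit 308) (nat_lit 266))) (XT.nd (nat_lit 78) (nat_lit 0) (nat_lit 0) (XT.lf (nat_lit 0) (nat_lit 1764463640) (nat_lit 152) (nat_lit 3470247125) (nat_lit 228) (nat_lit 12511133664) (nat_lit 27) (nat_lit 5) (nat_lit 29) (nat_lit 5) (nat_lit 30) (nat_lit 5) (nat_lit 327) (nat_lit 308) (nat_lit 265)) (XT.lf (nat_lit 0) (nat_lit 8922476538) (nat_lit 228) (nat_lit 6910158253) (nat_lit 76) (nat_lit 2797348741) (nat_lit 27) (nat_lit 5) (nat_lit 30) (nat_lit 5) (nat_lit 28) (nat_lit 5) (nat_lit 328) (nat_lit 308) (nat_lit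 264))))) (XT.nd (nat_lit 312) (nat_lit 456) (nat_lit 0) (XT.nd (nat_lit 156) (nat_lit 152) (nat_lit 0) (XT.nd (nat_lit 78) (nat_lit 0) (nat_lit 0) (XT.lf (nat_lit 0) (nat_lit 2892205075) (nat_lit 152) (nat_lit 10139498590) (nat_lit 228) (nat_lit 6543087122) (nat_lit 25) (nat_lit 5) (nat_lit 27) (nat_lit 5) (nat_lit 28) (nat_lit 5) (nat_lit 329) (nat_lit 308) (nat_lit 263)) (XT.lf (nat_lit 0) (nat_lit 13823886812) (nat_lit 152) (nat_lit 3802776596) (nat_lit 228) (nat_lit 2956008018) (nat_lit 25) (nat_lit 5) (nat_lit 27) (nat_lit 5) (nat_lit 28) (nat_lit 5) (nat_lit 330) (nat_lit 308) (nat_lit 262))) (XT.nd (nat_lit 78) (nat_lit 0) (nat_lit 0) (XT.lf (nat_lit 0) (nat_lit 1016121643) (nat_lit 152) (nat_lit 17644124238) (nat_lit 76) (nat_lit 2997691138) (nat_lit 23) (nat_lit 5) (nat_lit 25) (nat_lit 5) (nat_lit 24) (nat_lit 5) (nat_lit 331) (nat_lit 308) (nat_lit 261)) (XT.lf (nat_lit 0)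 (nat_lit 5405103702) (nat_lit 152) (nat_lit 6998988203) (nat_lit 76) (nat_lit 10388325332) (nat_lit 23) (nat_lit 5) (nat_lit 25) (nat_lit 5) (nat_lit 24) (nat_lit 5) (nat_lit 332) (nat_lit 308) (nat_lit 260)))) (XT.nd (nat_lit 156) (nat_lit 304) (nat_lit 0) (XT.nd (nat_lit 78) (nat_lit 0) (nat_lit 0) (XT.lf (nat_lit 0) (nat_lit 4688995925) (nat_lit 152) (nat_lit 5541583256) (nat_lit 228) (nat_lit 13780282250) (nat_lit 21) (nat_lit 5) (nat_lit 23) (nat_lit 5) (nat_lit 24) (nat_lit 5) (nat_lit 333) (nat_lit 308) (nat_lit 259)) (XT.lf (nat_lit 0) (nat_lit 15656636708) (nat_lit 228) (nat_lit 7695347681) (nat_lit 76) (nat_lit 1957666165) (nat_lit 21) (nat_lit 5) (nat_lit 24) (nat_lit 5) (nat_lit 22) (nat_lit 4) (nat_lit 334) (nat_lit 308) (nat_lit 258))) (XT.nd (nat_lit 78) (nat_lit 228) (nat_lit 0) (XT.lf (nat_lit 0) (nat_lit 4922884689) (nat_lit 76) (nat_lit 16831446302) (nat_lit 152) (nat_lit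 4939038119) (nat_lit 20) (nat_lit 5) (nat_lit 21) (nat_lit 5) (nat_lit 22) (nat_lit 4) (nat_lit 335) (nat_lit 308) (nat_lit 257)) (XT.nd (nat_lit 78) (nat_lit 152) (nat_lit 0) (XT.lf (nat_lit 0) (nat_lit 335771357) (nat_lit 152) (nat_lit 9232877731) (nat_lit 76) (nat_lit 18603563865) (nat_lit 19) (nat_lit 5) (nat_lit 21) (nat_lit 5) (nat_lit 20) (nat_lit 5) (nat_lit 336) (nat_lit 308) (nat_lit 256)) (XT.lf (nat_lit 0) (nat_lit 4359551904) (nat_lit 152) (nat_lit 1488295631) (nat_lit 228) (nat_lit 23904708560) (nat_lit 17) (nat_lit 5) (nat_lit 19) (nat_lit 5) (nat_lit 20) (nat_lit 5) (nat_lit 337) (nat_lit 308) (nat_lit 255))))))))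
noncomputable def xc122 : XT := (XT.nd (nat_lit 1326) (nat_lit 304) (nat_lit 0) (XT.nd (nat_lit 624) (nat_lit 380) (nat_lit 0) (XT.nd (nat_lit 312) (nat_lit 228) (nat_lit 0) (XT.nd (nat_lit 156) (nat_lit 0) (nat_lit 0) (XT.nd (nat_lit 78) (nat_lit 76) (nat_lit 0) (XT.lf (nat_lit 0) (nat_lit 12211677277) (nat_lit 228) (nat_lit 12093750377) (nat_lit 76) (nat_lit 7121058439) (nat_lit 17) (nat_lit 5) (nat_lit 20) (nat_lit 5) (nat_lit 18) (nat_lit 4) (nat_lit 338) (nat_lit 308) (nat_lit 254)) (XT.lf (nat_lit 0) (nat_lit 2310794743) (nat_lit 76) (nat_lit 16847403589) (nat_lit 152) (nat_lit 14070266106) (nat_lit 16) (nat_lit 5) (nat_lit 17) (nat_lit 5) (nat_lit 18) (nat_lit 4) (nat_lit 339) (nat_lit 308) (nat_lit 253))) (XT.nd (nat_lit 78) (nat_lit 0) (nat_lit 0) (XT.lf (nat_lit 0) (nat_lit 18520799437) (nat_lit 76) (nat_lit 8450354621) (nat_lit 152) (nat_lit 8178609158) (nat_lit 16) (nat_lit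 5) (nat_lit 17) (nat_lit 5) (nat_lit 18) (nat_lit 4) (nat_lit 340) (nat_lit 308) (nat_lit 252)) (XT.lf (nat_lit 0) (nat_lit 35405218371) (nat_lit 152) (nat_lit 1245319860) (nat_lit 0) (nat_lit 574559677) (nat_lit 16) (nat_lit 5) (nat_lit 18) (nat_lit 4) (nat_lit 16) (nat_lit 4) (nat_lit 341) (nat_lit 308) (nat_lit 251)))) (XT.nd (nat_lit 156) (nat_lit 76) (nat_lit 0) (XT.nd (nat_lit 78) (nat_lit 0) (nat_lit 0) (XT.lf (nat_lit 0) (nat_lit 5395057176) (nat_lit 152) (nat_lit 23641441811) (nat_lit 76) (nat_lit 10372263537) (nat_lit 14) (nat_lit 5) (nat_lit 16) (nat_lit 5) (nat_lit 15) (nat_lit 4) (nat_lit 342) (nat_lit 308) (nat_lit 250)) (XT.lf (nat_lit 0) (nat_lit 13106507822) (nat_lit 152) (nat_lit 7631718954) (nat_lit 76) (nat_lit 21023714902) (nat_lit 14) (nat_lit 5) (nat_lit 16) (nat_lit 5) (nat_lit 15) (nat_lit 4) (nat_lit 343) (nat_lit 308) (nat_lit 249))) (XT.nd (nat_lit 78) (nat_lit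 0) (nat_lit 0) (XT.lf (nat_lit 0) (nat_lit 10137216381) (nat_lit 76) (nat_lit 11525445576) (nat_lit 152) (nat_lit 22622503283) (nat_lit 13) (nat_lit 5) (nat_lit 14) (nat_lit 5) (nat_lit 15) (nat_lit 4) (nat_lit 344) (nat_lit 308) (nat_lit 248)) (XT.lf (nat_lit 0) (nat_lit 29733745016) (nat_lit 76) (nat_lit 1362729348) (nat_lit 152) (nat_lit 15898331150) (nat_lit 13) (nat_lit 5) (nat_lit 14) (nat_lit 5) (nat_lit 15) (nat_lit 4) (nat_lit 345) (nat_lit 308) (nat_lit 247))))) (XT.nd (nat_lit 312) (nat_lit 152) (nat_lit 0) (XT.nd (nat_lit 156) (nat_lit 76) (nat_lit 0) (XT.nd (nat_lit 78) (nat_lit 76) (nat_lit 0) (XT.lf (nat_lit 0) (nat_lit 756681910) (nat_lit 76) (nat_lit 40763073190) (nat_lit 76) (nat_lit 8382692047) (nat_lit 12) (nat_lit 4) (nat_lit 13) (nat_lit 5) (nat_lit 13) (nat_lit 4) (nat_lit 346) (nat_lit 308) (nat_lit 246)) (XT.lf (nat_lit 0) (nat_lit 252547142) (nat_lit 152) (nat_lit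 31875564889) (nat_lit 76) (nat_lit 20874704894) (nat_lit 11) (nat_lit 5) (nat_lit 13) (nat_lit 5) (nat_lit 12) (nat_lit 4) (nat_lit 347) (nat_lit 308) (nat_lit 245))) (XT.nd (nat_lit 78) (nat_lit 76) (nat_lit 0) (XT.lf (nat_lit 0) (nat_lit 9112250637) (nat_lit 152) (nat_lit 13466346250) (nat_lit 76) (nat_lit 33756287450) (nat_lit 11) (nat_lit 5) (nat_lit 13) (nat_lit 5) (nat_lit 12) (nat_lit 4) (nat_lit 348) (nat_lit 308) (nat_lit 244)) (XT.lf (nat_lit 0) (nat_lit 6729208556) (nat_lit 76) (nat_lit 12100885662) (nat_lit 152) (nat_lit 41091482057) (nat_lit 10) (nat_lit 5) (nat_lit 11) (nat_lit 5) (nat_lit 12) (nat_lit 4) (nat_lit 349) (nat_lit 308) (nat_lit 243)))) (XT.nd (nat_lit 156) (nat_lit 152) (nat_lit 0) (XT.nd (nat_lit 78) (nat_lit 0) (nat_lit 0) (XT.lf (nat_lit 0) (nat_lit 29283810077) (nat_lit 76) (nat_lit 397659447) (nat_lit 152) (nat_lit 34085253331) (nat_lit 10) (nat_lit 5)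 (nat_lit 11) (nat_lit 5) (nat_lit 12) (nat_lit 4) (nat_lit 350) (nat_lit 308) (nat_lit 242)) (XT.lf (nat_lit 0) (nat_lit 41683946518) (nat_lit 152) (nat_lit 14592568141) (nat_lit 0) (nat_lit 11620334231) (nat_lit 10) (nat_lit 5) (nat_lit 12) (nat_lit 4) (nat_lit 10) (nat_lit 4) (nat_lit 351) (nat_lit 308) (nat_lit 241))) (XT.nd (nat_lit 78) (nat_lit 76) (nat_lit 0) (XT.lf (nat_lit 0) (nat_lit 7219986635) (nat_lit 76) (nat_lit 47600026448) (nat_lit 76) (nat_lit 17523507152) (nat_lit 9) (nat_lit 4) (nat_lit 10) (nat_lit 5) (nat_lit 10) (nat_lit 4) (nat_lit 352) (nat_lit 308) (nat_lit 240)) (XT.nd (nat_lit 78) (nat_lit 76) (nat_lit 0) (XT.lf (nat_lit 0) (nat_lit 31588079310) (nat_lit 76) (nat_lit 37807612073) (nat_lit 76) (nat_lit 7719141843) (nat_lit 9) (nat_lit 4) (nat_lit 10) (nat_lit 5) (nat_lit 10) (nat_lit 4) (nat_lit 353) (nat_lit 308) (nat_lit 239)) (XT.lf (nat_lit 0) (nat_lit 2716272715)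 (nat_lit 152) (nat_lit 24449688663) (nat_lit 76) (nat_lit 55097154194) (nat_lit 8) (nat_lit 5) (nat_lit 10) (nat_lit 5) (nat_lit 9) (nat_lit 4) (nat_lit 354) (nat_lit 308) (nat_lit 238))))))) (XT.nd (nat_lit 624) (nat_lit 152) (nat_lit 0) (XT.nd (nat_lit 312) (nat_lit 76) (nat_lit 0) (XT.nd (nat_lit 156) (nat_lit 0) (nat_lit 0) (XT.nd (nat_lit 78) (nat_lit 76) (nat_lit 0) (XT.lf (nat_lit 0) (nat_lit 13560456348) (nat_lit 152) (nat_lit 1904032705) (nat_lit 76) (nat_lit 72343458876) (nat_lit 8) (nat_lit 5) (nat_lit 10) (nat_lit 5) (nat_lit 9) (nat_lit 4) (nat_lit 355) (nat_lit 308) (nat_lit 237)) (XT.lf (nat_lit 0) (nat_lit 23610559184) (nat_lit 76) (nat_lit 2221088956) (nat_lit 152) (nat_lit 67919965309) (nat_lit 7) (nat_lit 5) (nat_lit 8) (nat_lit 5) (nat_lit 9) (nat_lit 4) (nat_lit 356) (nat_lit 308) (nat_lit 236))) (XT.nd (nat_lit 78) (nat_lit 0) (nat_lit 0) (XT.lf (nat_lit 0) (nat_lit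 39420226349) (nat_lit 152) (nat_lit 49199813941) (nat_lit 0) (nat_lit 11523880755) (nat_lit 7) (nat_lit 5) (nat_lit 9) (nat_lit 4) (nat_lit 7) (nat_lit 4) (nat_lit 357) (nat_lit 308) (nat_lit 235)) (XT.lf (nat_lit 0) (nat_lit 54145907429) (nat_lit 152) (nat_lit 26655677586) (nat_lit 0) (nat_lit 26242030719) (nat_lit 7) (nat_lit 5) (nat_lit 9) (nat_lit 4) (nat_lit 7) (nat_lit 4) (nat_lit 358) (nat_lit 308) (nat_lit 234)))) (XT.nd (nat_lit 156) (nat_lit 0) (nat_lit 0) (XT.nd (nat_lit 78) (nat_lit 76) (nat_lit 0) (XT.lf (nat_lit 0) (nat_lit 70042537432) (nat_lit 152) (nat_lit 2321633076) (nat_lit 0) (nat_lit 42131687467) (nat_lit 7) (nat_lit 5) (nat_lit 9) (nat_lit 4) (nat_lit 7) (nat_lit 4) (nat_lit 359) (nat_lit 308) (nat_lit 233)) (XT.lf (nat_lit 0) (nat_lit 25207502710) (nat_lit 76) (nat_lit 62603056947) (nat_lit 76) (nat_lit 34685750264) (nat_lit 6) (nat_lit 4) (nat_lit 7) (nat_lit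 5) (nat_lit 7) (nat_lit 4) (nat_lit 360) (nat_lit 308) (nat_lit 232))) (XT.nd (nat_lit 78) (nat_lit 0) (nat_lit 0) (XT.lf (nat_lit 0) (nat_lit 55058708362) (nat_lit 76) (nat_lit 51998405307) (nat_lit 76) (nat_lit 24075120181) (nat_lit 6) (nat_lit 4) (nat_lit 7) (nat_lit 5) (nat_lit 7) (nat_lit 4) (nat_lit 361) (nat_lit 308) (nat_lit 231)) (XT.lf (nat_lit 0) (nat_lit 87286626831) (nat_lit 76) (nat_lit 40550850771) (nat_lit 76) (nat_lit 12622030050) (nat_lit 6) (nat_lit 4) (nat_lit 7) (nat_lit 5) (nat_lit 7) (nat_lit 4) (nat_lit 362) (nat_lit 308) (nat_lit 230))))) (XT.nd (nat_lit 312) (nat_lit 0) (nat_lit 0) (XT.nd (nat_lit 156) (nat_lit 76) (nat_lit 0) (XT.nd (nat_lit 78) (nat_lit 76) (nat_lit 0) (XT.lf (nat_lit 0) (nat_lit 122082238373) (nat_lit 76) (nat_lit 28192555978) (nat_lit 76) (nat_lit 258609706) (nat_lit 6) (nat_lit 4) (nat_lit 7) (nat_lit 5) (nat_lit 7) (nat_lit 4) (nat_lit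 363) (nat_lit 308) (nat_lit 229)) (XT.lf (nat_lit 0) (nat_lit 12433670508) (nat_lit 152) (nat_lit 2076657494) (nat_lit 76) (nat_lit 146878110110) (nat_lit 5) (nat_lit 5) (nat_lit 7) (nat_lit 5) (nat_lit 6) (nat_lit 4) (nat_lit 364) (nat_lit 308) (nat_lit 228))) (XT.nd (nat_lit 78) (nat_lit 0) (nat_lit 0) (XT.lf (nat_lit 0) (nat_lit 26814519428) (nat_lit 152) (nat_lit 145300556321) (nat_lit 0) (nat_lit 941291199) (nat_lit 4) (nat_lit 5) (nat_lit 6) (nat_lit 4) (nat_lit 4) (nat_lit 4) (nat_lit 365) (nat_lit 308) (nat_lit 227)) (XT.lf (nat_lit 0) (nat_lit 42776196948) (nat_lit 152) (nat_lit 125947904911) (nat_lit 0) (nat_lit 16899201287) (nat_lit 4) (nat_lit 5) (nat_lit 6) (nat_lit 4) (nat_lit 4) (nat_lit 4) (nat_lit 366) (nat_lit 308) (nat_lit 226)))) (XT.nd (nat_lit 156) (nat_lit 0) (nat_lit 0) (XT.nd (nat_lit 78) (nat_lit 0) (nat_lit 0) (XT.lf (nat_lit 0) (nat_lit 60010377894) (nat_lit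 152) (nat_lit 105055678704) (nat_lit 0) (nat_lit 34129893869) (nat_lit 4) (nat_lit 5) (nat_lit 6) (nat_lit 4) (nat_lit 4) (nat_lit 4) (nat_lit 367) (nat_lit 308) (nat_lit 225)) (XT.lf (nat_lit 0) (nat_lit 78619190746) (nat_lit 152) (nat_lit 82500071916) (nat_lit 0) (nat_lit 52735476755) (nat_lit 4) (nat_lit 5) (nat_lit 6) (nat_lit 4) (nat_lit 4) (nat_lit 4) (nat_lit 368) (nat_lit 308) (nat_lit 224))) (XT.nd (nat_lit 78) (nat_lit 0) (nat_lit 0) (XT.lf (nat_lit 0) (nat_lit 98712909951) (nat_lit 152) (nat_lit 58147421691) (nat_lit 0) (nat_lit 72826205249) (nat_lit 4) (nat_lit 5) (nat_lit 6) (nat_lit 4) (nat_lit 4) (nat_lit 4) (nat_lit 369) (nat_lit 308) (nat_lit 223)) (XT.nd (nat_lit 78) (nat_lit 0) (nat_lit 0) (XT.lf (nat_lit 0) (nat_lit 120410609399) (nat_lit 152) (nat_lit 31853416029) (nat_lit 0) (nat_lit 94521135522) (nat_lit 4) (nat_lit 5) (nat_lit 6) (nat_lit 4) (nat_lit 4) (nat_lit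 4) (nat_lit 370) (nat_lit 308) (nat_lit 222)) (XT.lf (nat_lit 0) (nat_lit 143840868051) (nat_lit 152) (nat_lit 3462238599) (nat_lit 0) (nat_lit 117948830122) (nat_lit 4) (nat_lit 5) (nat_lit 6) (nat_lit 4) (nat_lit 4) (nat_lit 4) (nat_lit 371) (nat_lit 308) (nat_lit 221))))))))
noncomputable def xc123 : XT := (XT.nd (nat_lit 1326) (nat_lit 0) (nat_lit 0) (XT.nd (nat_lit 624) (nat_lit 152) (nat_lit 0) (XT.nd (nat_lit 312) (nat_lit 0) (nat_lit 0) (XT.nd (nat_lit 156) (nat_lit 0) (nat_lit 0) (XT.nd (nat_lit 78) (nat_lit 0) (nat_lit 0) (XT.lf (nat_lit 0) (nat_lit 28626361132) (nat_lit 76) (nat_lit 141204635424) (nat_lit 76) (nat_lit 115310223374) (nat_lit 3) (nat_lit 4) (nat_lit 4) (nat_lit 5) (nat_lit 4) (nat_lit 4) (nat_lit 372) (nat_lit 308) (nat_lit 220)) (XT.lf (nat_lit 0) (nat_lit 63473219829) (nat_lit 76) (nat_lit 134518849316) (nat_lit 76) (nat_lit 108622239005) (nat_lit 3) (nat_lit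 4) (nat_lit 4) (nat_lit 5) (nat_lit 4) (nat_lit 4) (nat_lit 373) (nat_lit 308) (nat_lit 219))) (XT.nd (nat_lit 78) (nat_lit 0) (nat_lit 0) (XT.lf (nat_lit 0) (nat_lit 101102522043) (nat_lit 76) (nat_lit 127300792593) (nat_lit 76) (nat_lit 101402146855) (nat_lit 3) (nat_lit 4) (nat_lit 4) (nat_lit 5) (nat_lit 4) (nat_lit 4) (nat_lit 374) (nat_lit 308) (nat_lit 218)) (XT.lf (nat_lit 0) (nat_lit 141737256234) (nat_lit 76) (nat_lit 119507691584) (nat_lit 76) (nat_lit 93607161192) (nat_lit 3) (nat_lit 4) (nat_lit 4) (nat_lit 5) (nat_lit 4) (nat_lit 4) (nat_lit 375) (nat_lit 308) (nat_lit 217)))) (XT.nd (nat_lit 156) (nat_lit 0) (nat_lit 0) (XT.nd (nat_lit 78) (nat_lit 0) (nat_lit 0) (XT.lf (nat_lit 0) (nat_lit 185618220824) (nat_lit 76) (nat_lit 111093364952) (nat_lit 76) (nat_lit 85191089509) (nat_lit 3) (nat_lit 4) (nat_lit 4) (nat_lit 5) (nat_lit 4) (nat_lit 4) (nat_lit 376) (nat_lit 308)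 (nat_lit 216)) (XT.lf (nat_lit 0) (nat_lit 233005451161) (nat_lit 76) (nat_lit 102007950019) (nat_lit 76) (nat_lit 76104058788) (nat_lit 3) (nat_lit 4) (nat_lit 4) (nat_lit 5) (nat_lit 4) (nat_lit 4) (nat_lit 377) (nat_lit 308) (nat_lit 215))) (XT.nd (nat_lit 78) (nat_lit 0) (nat_lit 0) (XT.lf (nat_lit 0) (nat_lit 284179760460) (nat_lit 76) (nat_lit 92197607289) (nat_lit 76) (nat_lit 66292219959) (nat_lit 3) (nat_lit 4) (nat_lit 4) (nat_lit 5) (nat_lit 4) (nat_lit 4) (nat_lit 378) (nat_lit 308) (nat_lit 214)) (XT.lf (nat_lit 0) (nat_lit 339444403889) (nat_lit 76) (nat_lit 81604201398) (nat_lit 76) (nat_lit 55697428791) (nat_lit 3) (nat_lit 4) (nat_lit 4) (nat_lit 5) (nat_lit 4) (nat_lit 4) (nat_lit 379) (nat_lit 308) (nat_lit 213))))) (XT.nd (nat_lit 312) (nat_lit 152) (nat_lit 0) (XT.nd (nat_lit 156) (nat_lit 0) (nat_lit 0) (XT.nd (nat_lit 78) (nat_lit 0) (nat_lit 0) (XT.lf (nat_lit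 0) (nat_lit 399126875630) (nat_lit 76) (nat_lit 70164956608) (nat_lit 76) (nat_lit 44256901337) (nat_lit 3) (nat_lit 4) (nat_lit 4) (nat_lit 5) (nat_lit 4) (nat_lit 4) (nat_lit 380) (nat_lit 308) (nat_lit 212)) (XT.lf (nat_lit 0) (nat_lit 463580849590) (nat_lit 76) (nat_lit 57812084801) (nat_lit 76) (nat_lit 31902841878) (nat_lit 3) (nat_lit 4) (nat_lit 4) (nat_lit 5) (nat_lit 4) (nat_lit 4) (nat_lit 381) (nat_lit 308) (nat_lit 211))) (XT.nd (nat_lit 78) (nat_lit 0) (nat_lit 0) (XT.lf (nat_lit 0) (nat_lit 533188275245) (nat_lit 76) (nat_lit 44472383774) (nat_lit 76) (nat_lit 18562041173) (nat_lit 3) (nat_lit 4) (nat_lit 4) (nat_lit 5) (nat_lit 4) (nat_lit 4) (nat_lit 382) (nat_lit 308) (nat_lit 210)) (XT.lf (nat_lit 0) (nat_lit 608361641042) (nat_lit 76) (nat_lit 30066803447) (nat_lit 76) (nat_lit 4155442625) (nat_lit 3) (nat_lit 4) (nat_lit 4) (nat_lit 5) (nat_lit 4) (nat_lit 4) (nat_lit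 383) (nat_lit 308) (nat_lit 209)))) (XT.nd (nat_lit 156) (nat_lit 0) (nat_lit 0) (XT.nd (nat_lit 78) (nat_lit 76) (nat_lit 0) (XT.lf (nat_lit 0) (nat_lit 10831935663) (nat_lit 152) (nat_lit 3381877436) (nat_lit 76) (nat_lit 678418318799) (nat_lit 2) (nat_lit 5) (nat_lit 4) (nat_lit 5) (nat_lit 3) (nat_lit 4) (nat_lit 384) (nat_lit 308) (nat_lit 208)) (XT.lf (nat_lit 0) (nat_lit 27639734838) (nat_lit 152) (nat_lit 715322139734) (nat_lit 0) (nat_lit 3646052821) (nat_lit 1) (nat_lit 5) (nat_lit 3) (nat_lit 4) (nat_lit 1) (nat_lit 4) (nat_lit 385) (nat_lit 308) (nat_lit 207))) (XT.nd (nat_lit 78) (nat_lit 0) (nat_lit 0) (XT.lf (nat_lit 0) (nat_lit 46255028715) (nat_lit 152) (nat_lit 736349130252) (nat_lit 0) (nat_lit 22260598277) (nat_lit 1) (nat_lit 5) (nat_lit 3) (nat_lit 4) (nat_lit 1) (nat_lit 4) (nat_lit 386) (nat_lit 308) (nat_lit 206)) (XT.nd (nat_lit 78) (nat_lit 0) (nat_lit 0) (XT.lf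 (nat_lit 0) (nat_lit 66358446629) (nat_lit 152) (nat_lit 759060451956) (nat_lit 0) (nat_lit 42363323207) (nat_lit 1) (nat_lit 5) (nat_lit 3) (nat_lit 4) (nat_lit 1) (nat_lit 4) (nat_lit 387) (nat_lit 308) (nat_lit 205)) (XT.lf (nat_lit 0) (nat_lit 88069119946) (nat_lit 152) (nat_lit 783590690454) (nat_lit 0) (nat_lit 64073354872) (nat_lit 1) (nat_lit 5) (nat_lit 3) (nat_lit 4) (nat_lit 1) (nat_lit 4) (nat_lit 388) (nat_lit 308) (nat_lit 204))))))) (XT.nd (nat_lit 702) (nat_lit 0) (nat_lit 0) (XT.nd (nat_lit 312) (nat_lit 0) (nat_lit 0) (XT.nd (nat_lit 156) (nat_lit 0) (nat_lit 0) (XT.nd (nat_lit 78) (nat_lit 0) (nat_lit 0) (XT.lf (nat_lit 0) (nat_lit 111515704506) (nat_lit 152) (nat_lit 810085210124) (nat_lit 0) (nat_lit 87519345311) (nat_lit 1) (nat_lit 5) (nat_lit 3) (nat_lit 4) (nat_lit 1) (nat_lit 4) (nat_lit 389) (nat_lit 308) (nat_lit 203)) (XT.lf (nat_lit 0) (nat_lit 136837143034)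 (nat_lit 152) (nat_lit 838701015526) (nat_lit 0) (nat_lit 112840233726) (nat_lit 1) (nat_lit 5) (nat_lit 3) (nat_lit 4) (nat_lit 1) (nat_lit 4) (nat_lit 390) (nat_lit 308) (nat_lit 202))) (XT.nd (nat_lit 78) (nat_lit 0) (nat_lit 0) (XT.lf (nat_lit 0) (nat_lit 164183488498) (nat_lit 152) (nat_lit 869607681804) (nat_lit 0) (nat_lit 140186069826) (nat_lit 1) (nat_lit 5) (nat_lit 3) (nat_lit 4) (nat_lit 1) (nat_lit 4) (nat_lit 391) (nat_lit 308) (nat_lit 201)) (XT.lf (nat_lit 0) (nat_lit 193716793315) (nat_lit 152) (nat_lit 902988359572) (nat_lit 0) (nat_lit 169718903011) (nat_lit 1) (nat_lit 5) (nat_lit 3) (nat_lit 4) (nat_lit 1) (nat_lit 4) (nat_lit 392) (nat_lit 308) (nat_lit 200)))) (XT.nd (nat_lit 156) (nat_lit 0) (nat_lit 0) (XT.nd (nat_lit 78) (nat_lit 0) (nat_lit 0) (XT.lf (nat_lit 0) (nat_lit 225612069664) (nat_lit 152) (nat_lit 939040860255) (nat_lit 0) (nat_lit 201613742663) (nat_lit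 1) (nat_lit 5) (nat_lit 3) (nat_lit 4) (nat_lit 1) (nat_lit 4) (nat_lit 393) (nat_lit 308) (nat_lit 199)) (XT.lf (nat_lit 0) (nat_lit 260058326588) (nat_lit 152) (nat_lit 977978828300) (nat_lit 0) (nat_lit 236059595238) (nat_lit 1) (nat_lit 5) (nat_lit 3) (nat_lit 4) (nat_lit 1) (nat_lit 4) (nat_lit 394) (nat_lit 308) (nat_lit 198))) (XT.nd (nat_lit 78) (nat_lit 0) (nat_lit 0) (XT.lf (nat_lit 0) (nat_lit 297259690055) (nat_lit 152) (nat_lit 1020033007222) (nat_lit 0) (nat_lit 273260584307) (nat_lit 1) (nat_lit 5) (nat_lit 3) (nat_lit 4) (nat_lit 1) (nat_lit 4) (nat_lit 395) (nat_lit 308) (nat_lit 197)) (XT.nd (nat_lit 78) (nat_lit 0) (nat_lit 0) (XT.lf (nat_lit 0) (nat_lit 337436612588) (nat_lit 152) (nat_lit 1065452606971) (nat_lit 0) (nat_lit 313437160176) (nat_lit 1) (nat_lit 5) (nat_lit 3) (nat_lit 4) (nat_lit 1) (nat_lit 4) (nat_lit 396) (nat_lit 308) (nat_lit 196)) (XT.lf (nat_lit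 0) (nat_lit 380827179656) (nat_lit 152) (nat_lit 1114506780730) (nat_lit 0) (nat_lit 356827406258) (nat_lit 1) (nat_lit 5) (nat_lit 3) (nat_lit 4) (nat_lit 1) (nat_lit 4) (nat_lit 397) (nat_lit 308) (nat_lit 195)))))) (XT.nd (nat_lit 312) (nat_lit 0) (nat_lit 0) (XT.nd (nat_lit 156) (nat_lit 0) (nat_lit 0) (XT.nd (nat_lit 78) (nat_lit 0) (nat_lit 0) (XT.lf (nat_lit 0) (nat_lit 427688520543) (nat_lit 152) (nat_lit 1167486219898) (nat_lit 0) (nat_lit 403688449937) (nat_lit 1) (nat_lit 5) (nat_lit 3) (nat_lit 4) (nat_lit 1) (nat_lit 4) (nat_lit 398) (nat_lit 308) (nat_lit 194)) (XT.lf (nat_lit 0) (nat_lit 478298332085) (nat_lit 152) (nat_lit 1224704876709) (nat_lit 0) (nat_lit 454297986286) (nat_lit 1) (nat_lit 5) (nat_lit 3) (nat_lit 4) (nat_lit 1) (nat_lit 4) (nat_lit 399) (nat_lit 308) (nat_lit 193))) (XT.nd (nat_lit 78) (nat_lit 0) (nat_lit 0) (XT.lf (nat_lit 0) (nat_lit 532956524277)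 (nat_lit 152) (nat_lit 1286501824684) (nat_lit 0) (nat_lit 508955923669) (nat_lit 1) (nat_lit 5) (nat_lit 3) (nat_lit 4) (nat_lit 1) (nat_lit 4) (nat_lit 400) (nat_lit 308) (nat_lit 192)) (XT.lf (nat_lit 0) (nat_lit 591986997516) (nat_lit 152) (nat_lit 1353243267959) (nat_lit 0) (nat_lit 567986160974) (nat_lit 1) (nat_lit 5) (nat_lit 3) (nat_lit 4) (nat_lit 1) (nat_lit 4) (nat_lit 401) (nat_lit 308) (nat_lit 191)))) (XT.nd (nat_lit 156) (nat_lit 0) (nat_lit 0) (XT.nd (nat_lit 78) (nat_lit 0) (nat_lit 0) (XT.lf (nat_lit 0) (nat_lit 655739562014) (nat_lit 152) (nat_lit 1425324711383) (nat_lit 0) (nat_lit 631738507015) (nat_lit 1) (nat_lit 5) (nat_lit 3) (nat_lit 4) (nat_lit 1) (nat_lit 4) (nat_lit 402) (nat_lit 308) (nat_lit 190)) (XT.lf (nat_lit 0) (nat_lit 724592010746) (nat_lit 152) (nat_lit 1503173304250) (nat_lit 0) (nat_lit 700590753471) (nat_lit 1) (nat_lit 5) (nat_lit 3) (nat_lit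 4) (nat_lit 1) (nat_lit 4) (nat_lit 403) (nat_lit 308) (nat_lit 189))) (XT.nd (nat_lit 78) (nat_lit 0) (nat_lit 0) (XT.lf (nat_lit 0) (nat_lit 798952358224) (nat_lit 152) (nat_lit 1587250371556) (nat_lit 0) (nat_lit 774950913657) (nat_lit 1) (nat_lit 5) (nat_lit 3) (nat_lit 4) (nat_lit 1) (nat_lit 4) (nat_lit 404) (nat_lit 308) (nat_lit 188)) (XT.nd (nat_lit 78) (nat_lit 0) (nat_lit 0) (XT.lf (nat_lit 0) (nat_lit 879261258357) (nat_lit 152) (nat_lit 1678054147774) (nat_lit 0) (nat_lit 855259640372) (nat_lit 1) (nat_lit 5) (nat_lit 3) (nat_lit 4) (nat_lit 1) (nat_lit 4) (nat_lit 405) (nat_lit 308) (nat_lit 187)) (XT.lf (nat_lit 0) (nat_lit 965994615739) (nat_lit 152) (nat_lit 1776122729354) (nat_lit 0) (nat_lit 941992837182) (nat_lit 1) (nat_lit 5) (nat_lit 3) (nat_lit 4) (nat_lit 1) (nat_lit 4) (nat_lit 406) (nat_lit 308) (nat_lit 186))))))))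
noncomputable def xc124 : XT := (XT.nd (nat_lit 40092) (nat_lit 0) (nat_lit 1444) (XT.nd (nat_lit 39390) (nat_lit 0) (nat_lit 3116) (XT.nd (nat_lit 312) (nat_lit 0) (nat_lit 0) (XT.nd (nat_lit 156) (nat_lit 0) (nat_lit 0) (XT.nd (nat_lit 78) (nat_lit 0) (nat_lit 0) (XT.lf (nat_lit 0) (nat_lit 1059666405822) (nat_lit 152) (nat_lit 1882037263447) (nat_lit 0) (nat_lit 1035664478586) (nat_lit 1) (nat_lit 5) (nat_lit 3) (nat_lit 4) (nat_lit 1) (nat_lit 4) (nat_lit 407) (nat_lit 308) (nat_lit 185)) (XT.lf (nat_lit 0) (nat_lit 1160831720696) (nat_lit 152) (nat_lit 1996425391736) (nat_lit 0) (nat_lit 1136829655794) (nat_lit 1) (nat_lit 5) (nat_lit 3) (nat_lit 4) (nat_lit 1) (nat_lit 4) (nat_lit 408) (nat_lit 308) (nat_lit 184))) (XT.nd (nat_lit 78) (nat_lit 0) (nat_lit 0) (XT.lf (nat_lit 0) (nat_lit 1270090058521) (nat_lit 152) (nat_lit 2119964969797) (nat_lit 0) (nat_lit 1246087866152) (nat_lit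 1) (nat_lit 5) (nat_lit 3) (nat_lit 4) (nat_lit 1) (nat_lit 4) (nat_lit 409) (nat_lit 308) (nat_lit 183)) (XT.lf (nat_lit 0) (nat_lit 1388088876115) (nat_lit 152) (nat_lit 2253388084018) (nat_lit 0) (nat_lit 1364086565720) (nat_lit 1) (nat_lit 5) (nat_lit 3) (nat_lit 4) (nat_lit 1) (nat_lit 4) (nat_lit 410) (nat_lit 308) (nat_lit 182)))) (XT.nd (nat_lit 38922) (nat_lit 0) (nat_lit 4180) (XT.nd (nat_lit 78) (nat_lit 0) (nat_lit 0) (XT.lf (nat_lit 0) (nat_lit 1515527425730) (nat_lit 152) (nat_lit 2397485389891) (nat_lit 0) (nat_lit 1491525006052) (nat_lit 1) (nat_lit 5) (nat_lit 3) (nat_lit 4) (nat_lit 1) (nat_lit 4) (nat_lit 411) (nat_lit 308) (nat_lit 181)) (XT.lf (nat_lit 0) (nat_lit 1653160898772) (nat_lit 152) (nat_lit 2553110797377) (nat_lit 0) (nat_lit 1629158377906) (nat_lit 1) (nat_lit 5) (nat_lit 3) (nat_lit 4) (nat_lit 1) (nat_lit 4) (nat_lit 412) (nat_lit 308) (nat_lit 180)))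 (XT.nd (nat_lit 78) (nat_lit 0) (nat_lit 0) (XT.lf (nat_lit 0) (nat_lit 1597285960) (nat_lit 0) (nat_lit 1597285960) (nat_lit 380) (nat_lit 1208369936) (nat_lit 56) (nat_lit 5) (nat_lit 56) (nat_lit 3) (nat_lit 61) (nat_lit 3) (nat_lit 309) (nat_lit 309) (nat_lit 282)) (XT.lf (nat_lit 0) (nat_lit 7525664685) (nat_lit 380) (nat_lit 1488437512) (nat_lit 456) (nat_lit 71107200) (nat_lit 56) (nat_lit 5) (nat_lit 61) (nat_lit 3) (nat_lit 62) (nat_lit 5) (nat_lit 310) (nat_lit 309) (nat_lit 281))))) (XT.nd (nat_lit 312) (nat_lit 608) (nat_lit 0) (XT.nd (nat_lit 156) (nat_lit 0) (nat_lit 76) (XT.nd (nat_lit 78) (nat_lit 456) (nat_lit 0) (XT.lf (nat_lit 76) (nat_lit 2977942935) (nat_lit 0) (nat_lit 5842859669) (nat_lit 456) (nat_lit 560906342) (nat_lit 57) (nat_lit 5) (nat_lit 56) (nat_lit 5) (nat_lit 62) (nat_lit 5) (nat_lit 311) (nat_lit 309) (nat_lit 280)) (XT.lf (nat_lit 0) (nat_lit 449457724)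 (nat_lit 456) (nat_lit 1881521573) (nat_lit 532) (nat_lit 7373543708) (nat_lit 50) (nat_lit 5) (nat_lit 56) (nat_lit 5) (nat_lit 57) (nat_lit 5) (nat_lit 312) (nat_lit 309) (nat_lit 279))) (XT.nd (nat_lit 78) (nat_lit 0) (nat_lit 0) (XT.lf (nat_lit 0) (nat_lit 1544985431) (nat_lit 456) (nat_lit 6999510707) (nat_lit 532) (nat_lit 1504922743) (nat_lit 51) (nat_lit 5) (nat_lit 57) (nat_lit 5) (nat_lit 58) (nat_lit 5) (nat_lit 313) (nat_lit 309) (nat_lit 278)) (XT.lf (nat_lit 0) (nat_lit 2768789307) (nat_lit 456) (nat_lit 2053609898) (nat_lit 532) (nat_lit 5596435443) (nat_lit 51) (nat_lit 5) (nat_lit 57) (nat_lit 5) (nat_lit 58) (nat_lit 5) (nat_lit 314) (nat_lit 309) (nat_lit 277)))) (XT.nd (nat_lit 156) (nat_lit 684) (nat_lit 0) (XT.nd (nat_lit 78) (nat_lit 0) (nat_lit 76) (XT.lf (nat_lit 76) (nat_lit 3405745124) (nat_lit 0) (nat_lit 699353852) (nat_lit 532) (nat_lit 6711702265) (nat_lit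 52) (nat_lit 5) (nat_lit 51) (nat_lit 5) (nat_lit 58) (nat_lit 5) (nat_lit 315) (nat_lit 309) (nat_lit 276)) (XT.lf (nat_lit 0) (nat_lit 5632935775) (nat_lit 456) (nat_lit 1971994265) (nat_lit 76) (nat_lit 3635058743) (nat_lit 52) (nat_lit 5) (nat_lit 58) (nat_lit 5) (nat_lit 53) (nat_lit 5) (nat_lit 316) (nat_lit 309) (nat_lit 275))) (XT.nd (nat_lit 78) (nat_lit 304) (nat_lit 0) (XT.lf (nat_lit 0) (nat_lit 4033202026) (nat_lit 456) (nat_lit 3306388898) (nat_lit 532) (nat_lit 4353055138) (nat_lit 46) (nat_lit 5) (nat_lit 52) (nat_lit 5) (nat_lit 53) (nat_lit 5) (nat_lit 317) (nat_lit 309) (nat_lit 274)) (XT.nd (nat_lit 78) (nat_lit 304) (nat_lit 0) (XT.lf (nat_lit 0) (nat_lit 9214863672) (nat_lit 532) (nat_lit 1635693117) (nat_lit 76) (nat_lit 1328523845) (nat_lit 46) (nat_lit 5) (nat_lit 53) (nat_lit 5) (nat_lit 47) (nat_lit 5) (nat_lit 318) (nat_lit 309) (nat_lit 273)) (XT.lf (nat_lit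 0) (nat_lit 4981492880) (nat_lit 304) (nat_lit 6413086928) (nat_lit 380) (nat_lit 1297618220) (nat_lit 42) (nat_lit 5) (nat_lit 46) (nat_lit 5) (nat_lit 47) (nat_lit 5) (nat_lit 319) (nat_lit 309) (nat_lit 272))))))) (XT.nd (nat_lit 624) (nat_lit 684) (nat_lit 0) (XT.nd (nat_lit 312) (nat_lit 456) (nat_lit 0) (XT.nd (nat_lit 156) (nat_lit 228) (nat_lit 0) (XT.nd (nat_lit 78) (nat_lit 228) (nat_lit 0) (XT.lf (nat_lit 0) (nat_lit 473013616) (nat_lit 380) (nat_lit 1088160467) (nat_lit 76) (nat_lit 11684662078) (nat_lit 41) (nat_lit 5) (nat_lit 46) (nat_lit 5) (nat_lit 42) (nat_lit 5) (nat_lit 320) (nat_lit 309) (nat_lit 271)) (XT.lf (nat_lit 0) (nat_lit 2513485612) (nat_lit 304) (nat_lit 7629798353) (nat_lit 76) (nat_lit 3682018132) (nat_lit 38) (nat_lit 5) (nat_lit 42) (nat_lit 5) (nat_lit 39) (nat_lit 5) (nat_lit 321) (nat_lit 309) (nat_lit 270))) (XT.nd (nat_lit 78) (nat_lit 228) (nat_lit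 0) (XT.lf (nat_lit 0) (nat_lit 4744109154) (nat_lit 304) (nat_lit 417861624) (nat_lit 76) (nat_lit 9287090940) (nat_lit 38) (nat_lit 5) (nat_lit 42) (nat_lit 5) (nat_lit 39) (nat_lit 5) (nat_lit 322) (nat_lit 309) (nat_lit 269)) (XT.lf (nat_lit 0) (nat_lit 7307583303) (nat_lit 304) (nat_lit 7412193957) (nat_lit 76) (nat_lit 390675672) (nat_lit 35) (nat_lit 5) (nat_lit 39) (nat_lit 5) (nat_lit 36) (nat_lit 5) (nat_lit 323) (nat_lit 309) (nat_lit 268)))) (XT.nd (nat_lit 156) (nat_lit 304) (nat_lit 0) (XT.nd (nat_lit 78) (nat_lit 0) (nat_lit 0) (XT.lf (nat_lit 0) (nat_lit 504950147) (nat_lit 152) (nat_lit 9689967334) (nat_lit 228) (nat_lit 5620412139) (nat_lit 33) (nat_lit 5) (nat_lit 35) (nat_lit 5) (nat_lit 36) (nat_lit 5) (nat_lit 324) (nat_lit 309) (nat_lit 267)) (XT.lf (nat_lit 0) (nat_lit 9428730149) (nat_lit 152) (nat_lit 4049749630) (nat_lit 228) (nat_lit 3084968411) (nat_lit 33)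 (nat_lit 5) (nat_lit 35) (nat_lit 5) (nat_lit 36) (nat_lit 5) (nat_lit 325) (nat_lit 309) (nat_lit 266))) (XT.nd (nat_lit 78) (nat_lit 76) (nat_lit 0) (XT.lf (nat_lit 0) (nat_lit 1682779250) (nat_lit 228) (nat_lit 15396630409) (nat_lit 304) (nat_lit 287697772) (nat_lit 30) (nat_lit 5) (nat_lit 33) (nat_lit 5) (nat_lit 34) (nat_lit 5) (nat_lit 326) (nat_lit 309) (nat_lit 265)) (XT.lf (nat_lit 0) (nat_lit 2867611317) (nat_lit 304) (nat_lit 6831973055) (nat_lit 76) (nat_lit 8508593250) (nat_lit 29) (nat_lit 5) (nat_lit 33) (nat_lit 5) (nat_lit 30) (nat_lit 5) (nat_lit 327) (nat_lit 309) (nat_lit 264))))) (XT.nd (nat_lit 312) (nat_lit 380) (nat_lit 0) (XT.nd (nat_lit 156) (nat_lit 152) (nat_lit 0) (XT.nd (nat_lit 78) (nat_lit 0) (nat_lit 0) (XT.lf (nat_lit 0) (nat_lit 2817638889) (nat_lit 152) (nat_lit 3478130360) (nat_lit 228) (nat_lit 12817341214) (nat_lit 27) (nat_lit 5) (nat_lit 29) (nat_lit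 5) (nat_lit 30) (nat_lit 5) (nat_lit 328) (nat_lit 309) (nat_lit 263)) (XT.lf (nat_lit 0) (nat_lit 10236986506) (nat_lit 228) (nat_lit 6575996369) (nat_lit 76) (nat_lit 3258398883) (nat_lit 27) (nat_lit 5) (nat_lit 30) (nat_lit 5) (nat_lit 28) (nat_lit 5) (nat_lit 329) (nat_lit 309) (nat_lit 262))) (XT.nd (nat_lit 78) (nat_lit 0) (nat_lit 0) (XT.lf (nat_lit 0) (nat_lit 3988100974) (nat_lit 152) (nat_lit 10663145370) (nat_lit 228) (nat_lit 6442493575) (nat_lit 25) (nat_lit 5) (nat_lit 27) (nat_lit 5) (nat_lit 28) (nat_lit 5) (nat_lit 330) (nat_lit 309) (nat_lit 261)) (XT.lf (nat_lit 0) (nat_lit 15730278769) (nat_lit 152) (nat_lit 3840782884) (nat_lit 228) (nat_lit 2614673367) (nat_lit 25) (nat_lit 5) (nat_lit 27) (nat_lit 5) (nat_lit 28) (nat_lit 5) (nat_lit 331) (nat_lit 309) (nat_lit 260)))) (XT.nd (nat_lit 156) (nat_lit 228) (nat_lit 0) (XT.nd (nat_lit 78) (nat_lit 0) (nat_lit 0) (XT.lf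 (nat_lit 0) (nat_lit 1631889168) (nat_lit 152) (nat_lit 18210393168) (nat_lit 76) (nat_lit 3504837914) (nat_lit 23) (nat_lit 5) (nat_lit 25) (nat_lit 5) (nat_lit 24) (nat_lit 5) (nat_lit 332) (nat_lit 309) (nat_lit 259)) (XT.lf (nat_lit 0) (nat_lit 6332398844) (nat_lit 152) (nat_lit 6776258177) (nat_lit 76) (nat_lit 11466920511) (nat_lit 23) (nat_lit 5) (nat_lit 25) (nat_lit 5) (nat_lit 24) (nat_lit 5) (nat_lit 333) (nat_lit 309) (nat_lit 258))) (XT.nd (nat_lit 78) (nat_lit 76) (nat_lit 0) (XT.lf (nat_lit 0) (nat_lit 5826950781) (nat_lit 152) (nat_lit 5698649499) (nat_lit 228) (nat_lit 14367409513) (nat_lit 21) (nat_lit 5) (nat_lit 23) (nat_lit 5) (nat_lit 24) (nat_lit 5) (nat_lit 334) (nat_lit 309) (nat_lit 257)) (XT.nd (nat_lit 78) (nat_lit 76) (nat_lit 0) (XT.lf (nat_lit 0) (nat_lit 17356815176) (nat_lit 228) (nat_lit 7575168862) (nat_lit 76) (nat_lit 2366076228) (nat_lit 21) (nat_lit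 5) (nat_lit 24) (nat_lit 5) (nat_lit 22) (nat_lit 4) (nat_lit 335) (nat_lit 309) (nat_lit 256)) (XT.lf (nat_lit 0) (nat_lit 6033894082) (nat_lit 76) (nat_lit 17892520006) (nat_lit 152) (nat_lit 4867375871) (nat_lit 20) (nat_lit 5) (nat_lit 21) (nat_lit 5) (nat_lit 22) (nat_lit 4) (nat_lit 336) (nat_lit 309) (nat_lit 255))))))))
noncomputable def xc125 : XT := (XT.nd (nat_lit 1326) (nat_lit 380) (nat_lit 0) (XT.nd (nat_lit 624) (nat_lit 380) (nat_lit 0) (XT.nd (nat_lit 312) (nat_lit 152) (nat_lit 0) (XT.nd (nat_lit 156) (nat_lit 76) (nat_lit 0) (XT.nd (nat_lit 78) (nat_lit 152) (nat_lit 0) (XT.lf (nat_lit 0) (nat_lit 773220849) (nat_lit 152) (nat_lit 9285395820) (nat_lit 76) (nat_lit 20334089269) (nat_lit 19) (nat_lit 5) (nat_lit 21) (nat_lit 5) (nat_lit 20) (nat_lit 5) (nat_lit 337) (nat_lit 309) (nat_lit 254)) (XT.lf (nat_lit 0) (nat_lit 5377058258) (nat_lit 152) (nat_lit 1334874220)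 (nat_lit 228) (nat_lit 25388722878) (nat_lit 17) (nat_lit 5) (nat_lit 19) (nat_lit 5) (nat_lit 20) (nat_lit 5) (nat_lit 338) (nat_lit 309) (nat_lit 253))) (XT.nd (nat_lit 78) (nat_lit 76) (nat_lit 0) (XT.lf (nat_lit 0) (nat_lit 13561584063) (nat_lit 228) (nat_lit 12418385449) (nat_lit 76) (nat_lit 7930422980) (nat_lit 17) (nat_lit 5) (nat_lit 20) (nat_lit 5) (nat_lit 18) (nat_lit 4) (nat_lit 339) (nat_lit 309) (nat_lit 252)) (XT.lf (nat_lit 0) (nat_lit 3122248219) (nat_lit 76) (nat_lit 17929020485) (nat_lit 152) (nat_lit 14806292802) (nat_lit 16) (nat_lit 5) (nat_lit 17) (nat_lit 5) (nat_lit 18) (nat_lit 4) (nat_lit 340) (nat_lit 309) (nat_lit 251)))) (XT.nd (nat_lit 156) (nat_lit 152) (nat_lit 0) (XT.nd (nat_lit 78) (nat_lit 0) (nat_lit 0) (XT.lf (nat_lit 0) (nat_lit 20582639222) (nat_lit 76) (nat_lit 8879924295) (nat_lit 152) (nat_lit 8472162156) (nat_lit 16) (nat_lit 5) (nat_lit 17)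 (nat_lit 5) (nat_lit 18) (nat_lit 4) (nat_lit 341) (nat_lit 309) (nat_lit 250)) (XT.lf (nat_lit 0) (nat_lit 38552121463) (nat_lit 152) (nat_lit 788216660) (nat_lit 0) (nat_lit 837311334) (nat_lit 16) (nat_lit 5) (nat_lit 18) (nat_lit 4) (nat_lit 16) (nat_lit 4) (nat_lit 342) (nat_lit 309) (nat_lit 249))) (XT.nd (nat_lit 78) (nat_lit 0) (nat_lit 0) (XT.lf (nat_lit 0) (nat_lit 6139066494) (nat_lit 152) (nat_lit 24973417085) (nat_lit 76) (nat_lit 11423732566) (nat_lit 14) (nat_lit 5) (nat_lit 16) (nat_lit 5) (nat_lit 15) (nat_lit 4) (nat_lit 343) (nat_lit 309) (nat_lit 248)) (XT.lf (nat_lit 0) (nat_lit 14444292099) (nat_lit 152) (nat_lit 7724348997) (nat_lit 76) (nat_lit 22910878711) (nat_lit 14) (nat_lit 5) (nat_lit 16) (nat_lit 5) (nat_lit 15) (nat_lit 4) (nat_lit 344) (nat_lit 309) (nat_lit 247))))) (XT.nd (nat_lit 312) (nat_lit 152) (nat_lit 0) (XT.nd (nat_lit 156) (nat_lit 152) (nat_lit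 0) (XT.nd (nat_lit 78) (nat_lit 0) (nat_lit 0) (XT.lf (nat_lit 0) (nat_lit 11452989583) (nat_lit 76) (nat_lit 12222662398) (nat_lit 152) (nat_lit 24129709690) (nat_lit 13) (nat_lit 5) (nat_lit 14) (nat_lit 5) (nat_lit 15) (nat_lit 4) (nat_lit 345) (nat_lit 309) (nat_lit 246)) (XT.lf (nat_lit 0) (nat_lit 32579848220) (nat_lit 76) (nat_lit 1263582118) (nat_lit 152) (nat_lit 16890018145) (nat_lit 13) (nat_lit 5) (nat_lit 14) (nat_lit 5) (nat_lit 15) (nat_lit 4) (nat_lit 346) (nat_lit 309) (nat_lit 245))) (XT.nd (nat_lit 78) (nat_lit 76) (nat_lit 0) (XT.lf (nat_lit 0) (nat_lit 1288318727) (nat_lit 76) (nat_lit 43809017555) (nat_lit 76) (nat_lit 8776639142) (nat_lit 12) (nat_lit 4) (nat_lit 13) (nat_lit 5) (nat_lit 13) (nat_lit 4) (nat_lit 347) (nat_lit 309) (nat_lit 244)) (XT.lf (nat_lit 0) (nat_lit 516110359) (nat_lit 152) (nat_lit 33976428709) (nat_lit 76) (nat_lit 22730873761) (nat_lit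 11) (nat_lit 5) (nat_lit 13) (nat_lit 5) (nat_lit 12) (nat_lit 4) (nat_lit 348) (nat_lit 309) (nat_lit 243)))) (XT.nd (nat_lit 156) (nat_lit 76) (nat_lit 0) (XT.nd (nat_lit 78) (nat_lit 76) (nat_lit 0) (XT.lf (nat_lit 0) (nat_lit 10066563508) (nat_lit 152) (nat_lit 14127745273) (nat_lit 76) (nat_lit 36629190887) (nat_lit 11) (nat_lit 5) (nat_lit 13) (nat_lit 5) (nat_lit 12) (nat_lit 4) (nat_lit 349) (nat_lit 309) (nat_lit 242)) (XT.lf (nat_lit 0) (nat_lit 7672924584) (nat_lit 76) (nat_lit 12881968055) (nat_lit 152) (nat_lit 44142800698) (nat_lit 10) (nat_lit 5) (nat_lit 11) (nat_lit 5) (nat_lit 12) (nat_lit 4) (nat_lit 350) (nat_lit 309) (nat_lit 241))) (XT.nd (nat_lit 78) (nat_lit 76) (nat_lit 0) (XT.lf (nat_lit 0) (nat_lit 32001866127) (nat_lit 76) (nat_lit 256334739) (nat_lit 152) (nat_lit 36593555150) (nat_lit 10) (nat_lit 5) (nat_lit 11) (nat_lit 5) (nat_lit 12) (nat_lit 4) (nat_lit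 351) (nat_lit 309) (nat_lit 240)) (XT.nd (nat_lit 78) (nat_lit 76) (nat_lit 0) (XT.lf (nat_lit 0) (nat_lit 45209752741) (nat_lit 152) (nat_lit 15401184749) (nat_lit 0) (nat_lit 12702253957) (nat_lit 10) (nat_lit 5) (nat_lit 12) (nat_lit 4) (nat_lit 10) (nat_lit 4) (nat_lit 352) (nat_lit 309) (nat_lit 239)) (XT.lf (nat_lit 0) (nat_lit 8147291147) (nat_lit 76) (nat_lit 51243669059) (nat_lit 76) (nat_lit 18725104595) (nat_lit 9) (nat_lit 4) (nat_lit 10) (nat_lit 5) (nat_lit 10) (nat_lit 4) (nat_lit 353) (nat_lit 309) (nat_lit 238))))))) (XT.nd (nat_lit 702) (nat_lit 152) (nat_lit 0) (XT.nd (nat_lit 312) (nat_lit 76) (nat_lit 0) (XT.nd (nat_lit 156) (nat_lit 76) (nat_lit 0) (XT.nd (nat_lit 78) (nat_lit 76) (nat_lit 0) (XT.lf (nat_lit 0) (nat_lit 34438927119) (nat_lit 76) (nat_lit 40680036313) (nat_lit 76) (nat_lit 8151225849) (nat_lit 9) (nat_lit 4) (nat_lit 10) (nat_lit 5) (nat_lit 10) (nat_lit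 4) (nat_lit 354) (nat_lit 309) (nat_lit 237)) (XT.lf (nat_lit 0) (nat_lit 3096695378) (nat_lit 152) (nat_lit 26097171112) (nat_lit 76) (nat_lit 59637161841) (nat_lit 8) (nat_lit 5) (nat_lit 10) (nat_lit 5) (nat_lit 9) (nat_lit 4) (nat_lit 355) (nat_lit 309) (nat_lit 236))) (XT.nd (nat_lit 78) (nat_lit 76) (nat_lit 0) (XT.lf (nat_lit 0) (nat_lit 14796330677) (nat_lit 152) (nat_lit 1770713985) (nat_lit 76) (nat_lit 78253375689) (nat_lit 8) (nat_lit 5) (nat_lit 10) (nat_lit 5) (nat_lit 9) (nat_lit 4) (nat_lit 356) (nat_lit 309) (nat_lit 235)) (XT.lf (nat_lit 0) (nat_lit 25777813829) (nat_lit 76) (nat_lit 2266911761) (nat_lit 152) (nat_lit 73195218854) (nat_lit 7) (nat_lit 5) (nat_lit 8) (nat_lit 5) (nat_lit 9) (nat_lit 4) (nat_lit 357) (nat_lit 309) (nat_lit 234)))) (XT.nd (nat_lit 156) (nat_lit 76) (nat_lit 0) (XT.nd (nat_lit 78) (nat_lit 0) (nat_lit 0) (XT.lf (nat_lit 0) (nat_lit 42712471252)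 (nat_lit 152) (nat_lit 52870024379) (nat_lit 0) (nat_lit 12561780034) (nat_lit 7) (nat_lit 5) (nat_lit 9) (nat_lit 4) (nat_lit 7) (nat_lit 4) (nat_lit 358) (nat_lit 309) (nat_lit 233)) (XT.lf (nat_lit 0) (nat_lit 58605938167) (nat_lit 152) (nat_lit 28542044129) (nat_lit 0) (nat_lit 28448790231) (nat_lit 7) (nat_lit 5) (nat_lit 9) (nat_lit 4) (nat_lit 7) (nat_lit 4) (nat_lit 359) (nat_lit 309) (nat_lit 232))) (XT.nd (nat_lit 78) (nat_lit 76) (nat_lit 0) (XT.lf (nat_lit 0) (nat_lit 75764790560) (nat_lit 152) (nat_lit 2279504775) (nat_lit 0) (nat_lit 45601664181) (nat_lit 7) (nat_lit 5) (nat_lit 9) (nat_lit 4) (nat_lit 7) (nat_lit 4) (nat_lit 360) (nat_lit 309) (nat_lit 231)) (XT.nd (nat_lit 78) (nat_lit 0) (nat_lit 0) (XT.lf (nat_lit 0) (nat_lit 27446193293) (nat_lit 76) (nat_lit 67504598835) (nat_lit 76) (nat_lit 37335936861) (nat_lit 6) (nat_lit 4) (nat_lit 7) (nat_lit 5) (nat_lit 7)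 (nat_lit 4) (nat_lit 361) (nat_lit 309) (nat_lit 230)) (XT.lf (nat_lit 0) (nat_lit 59669044260) (nat_lit 76) (nat_lit 56059478965) (nat_lit 76) (nat_lit 25885691440) (nat_lit 6) (nat_lit 4) (nat_lit 7) (nat_lit 5) (nat_lit 7) (nat_lit 4) (nat_lit 362) (nat_lit 309) (nat_lit 229)))))) (XT.nd (nat_lit 312) (nat_lit 0) (nat_lit 0) (XT.nd (nat_lit 156) (nat_lit 152) (nat_lit 0) (XT.nd (nat_lit 78) (nat_lit 0) (nat_lit 0) (XT.lf (nat_lit 0) (nat_lit 94459963670) (nat_lit 76) (nat_lit 43703438493) (nat_lit 76) (nat_lit 13524905087) (nat_lit 6) (nat_lit 4) (nat_lit 7) (nat_lit 5) (nat_lit 7) (nat_lit 4) (nat_lit 363) (nat_lit 309) (nat_lit 228)) (XT.lf (nat_lit 0) (nat_lit 132025119936) (nat_lit 76) (nat_lit 30363256438) (nat_lit 76) (nat_lit 180328699) (nat_lit 6) (nat_lit 4) (nat_lit 7) (nat_lit 5) (nat_lit 7) (nat_lit 4) (nat_lit 364) (nat_lit 309) (nat_lit 227))) (XT.nd (nat_lit 78) (nat_lit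 76) (nat_lit 0) (XT.lf (nat_lit 0) (nat_lit 13515418699) (nat_lit 152) (nat_lit 2074925671) (nat_lit 76) (nat_lit 158702167192) (nat_lit 5) (nat_lit 5) (nat_lit 7) (nat_lit 5) (nat_lit 6) (nat_lit 4) (nat_lit 365) (nat_lit 309) (nat_lit 226)) (XT.lf (nat_lit 0) (nat_lit 29046123708) (nat_lit 152) (nat_lit 156756090104) (nat_lit 0) (nat_lit 1091712598) (nat_lit 4) (nat_lit 5) (nat_lit 6) (nat_lit 4) (nat_lit 4) (nat_lit 4) (nat_lit 366) (nat_lit 309) (nat_lit 225)))) (XT.nd (nat_lit 156) (nat_lit 0) (nat_lit 0) (XT.nd (nat_lit 78) (nat_lit 0) (nat_lit 0) (XT.lf (nat_lit 0) (nat_lit 46278332265) (nat_lit 152) (nat_lit 135867708856) (nat_lit 0) (nat_lit 18320691188) (nat_lit 4) (nat_lit 5) (nat_lit 6) (nat_lit 4) (nat_lit 4) (nat_lit 4) (nat_lit 367) (nat_lit 309) (nat_lit 224)) (XT.lf (nat_lit 0) (nat_lit 64885318831) (nat_lit 152) (nat_lit 113315662215) (nat_lit 0) (nat_lit 36924687044)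 (nat_lit 4) (nat_lit 5) (nat_lit 6) (nat_lit 4) (nat_lit 4) (nat_lit 4) (nat_lit 368) (nat_lit 309) (nat_lit 223))) (XT.nd (nat_lit 78) (nat_lit 0) (nat_lit 0) (XT.lf (nat_lit 0) (nat_lit 84977347029) (nat_lit 152) (nat_lit 88966308424) (nat_lit 0) (nat_lit 57013946066) (nat_lit 4) (nat_lit 5) (nat_lit 6) (nat_lit 4) (nat_lit 4) (nat_lit 4) (nat_lit 369) (nat_lit 309) (nat_lit 222)) (XT.nd (nat_lit 78) (nat_lit 0) (nat_lit 0) (XT.lf (nat_lit 0) (nat_lit 106673480731) (nat_lit 152) (nat_lit 62675355014) (nat_lit 0) (nat_lit 78707515717) (nat_lit 4) (nat_lit 5) (nat_lit 6) (nat_lit 4) (nat_lit 4) (nat_lit 4) (nat_lit 370) (nat_lit 309) (nat_lit 221)) (XT.lf (nat_lit 0) (nat_lit 130102289618) (nat_lit 152) (nat_lit 34287003745) (nat_lit 0) (nat_lit 102133950482) (nat_lit 4) (nat_lit 5) (nat_lit 6) (nat_lit 4) (nat_lit 4) (nat_lit 4) (nat_lit 371) (nat_lit 309) (nat_lit 220))))))))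
noncomputable def xc126 : XT := (XT.nd (nat_lit 1326) (nat_lit 0) (nat_lit 0) (XT.nd (nat_lit 624) (nat_lit 152) (nat_lit 0) (XT.nd (nat_lit 312) (nat_lit 0) (nat_lit 0) (XT.nd (nat_lit 156) (nat_lit 0) (nat_lit 0) (XT.nd (nat_lit 78) (nat_lit 76) (nat_lit 0) (XT.lf (nat_lit 0) (nat_lit 155402611075) (nat_lit 152) (nat_lit 3633027348) (nat_lit 0) (nat_lit 127432073678) (nat_lit 4) (nat_lit 5) (nat_lit 6) (nat_lit 4) (nat_lit 4) (nat_lit 4) (nat_lit 372) (nat_lit 309) (nat_lit 219)) (XT.lf (nat_lit 0) (nat_lit 31019972000) (nat_lit 76) (nat_lit 152450432007) (nat_lit 76) (nat_lit 124477859183) (nat_lit 3) (nat_lit 4) (nat_lit 4) (nat_lit 5) (nat_lit 4) (nat_lit 4) (nat_lit 373) (nat_lit 309) (nat_lit 218))) (XT.nd (nat_lit 78) (nat_lit 0) (nat_lit 0) (XT.lf (nat_lit 0) (nat_lit 68646912579) (nat_lit 76) (nat_lit 145233529251) (nat_lit 76) (nat_lit 117259071773) (nat_lit 3) (nat_lit 4)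 (nat_lit 4) (nat_lit 5) (nat_lit 4) (nat_lit 4) (nat_lit 374) (nat_lit 309) (nat_lit 217)) (XT.lf (nat_lit 0) (nat_lit 109279460069) (nat_lit 76) (nat_lit 137441496732) (nat_lit 76) (nat_lit 109465294203) (nat_lit 3) (nat_lit 4) (nat_lit 4) (nat_lit 5) (nat_lit 4) (nat_lit 4) (nat_lit 375) (nat_lit 309) (nat_lit 216)))) (XT.nd (nat_lit 156) (nat_lit 0) (nat_lit 0) (XT.nd (nat_lit 78) (nat_lit 0) (nat_lit 0) (XT.lf (nat_lit 0) (nat_lit 153158399938) (nat_lit 76) (nat_lit 129028159440) (nat_lit 76) (nat_lit 101050341124) (nat_lit 3) (nat_lit 4) (nat_lit 4) (nat_lit 5) (nat_lit 4) (nat_lit 4) (nat_lit 376) (nat_lit 309) (nat_lit 215)) (XT.lf (nat_lit 0) (nat_lit 200543755533) (nat_lit 76) (nat_lit 119943660564) (nat_lit 76) (nat_lit 91964346148) (nat_lit 3) (nat_lit 4) (nat_lit 4) (nat_lit 5) (nat_lit 4) (nat_lit 4) (nat_lit 377) (nat_lit 309) (nat_lit 214))) (XT.nd (nat_lit 78) (nat_lit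 0) (nat_lit 0) (XT.lf (nat_lit 0) (nat_lit 251716328960) (nat_lit 76) (nat_lit 110134166035) (nat_lit 76) (nat_lit 82153466342) (nat_lit 3) (nat_lit 4) (nat_lit 4) (nat_lit 5) (nat_lit 4) (nat_lit 4) (nat_lit 378) (nat_lit 309) (nat_lit 213)) (XT.lf (nat_lit 0) (nat_lit 306979365099) (nat_lit 76) (nat_lit 99541545515) (nat_lit 76) (nat_lit 71559563158) (nat_lit 3) (nat_lit 4) (nat_lit 4) (nat_lit 5) (nat_lit 4) (nat_lit 4) (nat_lit 379) (nat_lit 309) (nat_lit 212))))) (XT.nd (nat_lit 312) (nat_lit 152) (nat_lit 0) (XT.nd (nat_lit 156) (nat_lit 0) (nat_lit 0) (XT.nd (nat_lit 78) (nat_lit 0) (nat_lit 0) (XT.lf (nat_lit 0) (nat_lit 366660348609) (nat_lit 76) (nat_lit 88103027920) (nat_lit 76) (nat_lit 60119857911) (nat_lit 3) (nat_lit 4) (nat_lit 4) (nat_lit 5) (nat_lit 4) (nat_lit 4) (nat_lit 380) (nat_lit 309) (nat_lit 211)) (XT.lf (nat_lit 0) (nat_lit 431112944578) (nat_lit 76) (nat_lit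 75750829442) (nat_lit 76) (nat_lit 47766559755) (nat_lit 3) (nat_lit 4) (nat_lit 4) (nat_lit 5) (nat_lit 4) (nat_lit 4) (nat_lit 381) (nat_lit 309) (nat_lit 210))) (XT.nd (nat_lit 78) (nat_lit 0) (nat_lit 0) (XT.lf (nat_lit 0) (nat_lit 500719094315) (nat_lit 76) (nat_lit 62411751868) (nat_lit 76) (nat_lit 34426463961) (nat_lit 3) (nat_lit 4) (nat_lit 4) (nat_lit 5) (nat_lit 4) (nat_lit 4) (nat_lit 382) (nat_lit 309) (nat_lit 209)) (XT.lf (nat_lit 0) (nat_lit 575891278706) (nat_lit 76) (nat_lit 48006748812) (nat_lit 76) (nat_lit 20020518109) (nat_lit 3) (nat_lit 4) (nat_lit 4) (nat_lit 5) (nat_lit 4) (nat_lit 4) (nat_lit 383) (nat_lit 309) (nat_lit 208)))) (XT.nd (nat_lit 156) (nat_lit 76) (nat_lit 0) (XT.nd (nat_lit 78) (nat_lit 76) (nat_lit 0) (XT.lf (nat_lit 0) (nat_lit 657074962549) (nat_lit 76) (nat_lit 32450457293) (nat_lit 76) (nat_lit 4463353630) (nat_lit 3) (nat_lit 4) (nat_lit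 4) (nat_lit 5) (nat_lit 4) (nat_lit 4) (nat_lit 384) (nat_lit 309) (nat_lit 207)) (XT.lf (nat_lit 0) (nat_lit 11720062364) (nat_lit 152) (nat_lit 3610182240) (nat_lit 76) (nat_lit 732710724702) (nat_lit 2) (nat_lit 5) (nat_lit 4) (nat_lit 5) (nat_lit 3) (nat_lit 4) (nat_lit 385) (nat_lit 309) (nat_lit 206))) (XT.nd (nat_lit 78) (nat_lit 0) (nat_lit 0) (XT.lf (nat_lit 0) (nat_lit 29872363930) (nat_lit 152) (nat_lit 772505537130) (nat_lit 0) (nat_lit 3956937651) (nat_lit 1) (nat_lit 5) (nat_lit 3) (nat_lit 4) (nat_lit 1) (nat_lit 4) (nat_lit 386) (nat_lit 309) (nat_lit 205)) (XT.nd (nat_lit 78) (nat_lit 0) (nat_lit 0) (XT.lf (nat_lit 0) (nat_lit 49975292406) (nat_lit 152) (nat_lit 795217825689) (nat_lit 0) (nat_lit 24059224476) (nat_lit 1) (nat_lit 5) (nat_lit 3) (nat_lit 4) (nat_lit 1) (nat_lit 4) (nat_lit 387) (nat_lit 309) (nat_lit 204)) (XT.lf (nat_lit 0) (nat_lit 71685512539) (nat_lit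 152) (nat_lit 819748959423) (nat_lit 0) (nat_lit 45768850487) (nat_lit 1) (nat_lit 5) (nat_lit 3) (nat_lit 4) (nat_lit 1) (nat_lit 4) (nat_lit 388) (nat_lit 309) (nat_lit 203))))))) (XT.nd (nat_lit 624) (nat_lit 0) (nat_lit 0) (XT.nd (nat_lit 312) (nat_lit 0) (nat_lit 0) (XT.nd (nat_lit 156) (nat_lit 0) (nat_lit 0) (XT.nd (nat_lit 78) (nat_lit 0) (nat_lit 0) (XT.lf (nat_lit 0) (nat_lit 95131677485) (nat_lit 152) (nat_lit 846244308016) (nat_lit 0) (nat_lit 69214465320) (nat_lit 1) (nat_lit 5) (nat_lit 3) (nat_lit 4) (nat_lit 1) (nat_lit 4) (nat_lit 389) (nat_lit 309) (nat_lit 202)) (XT.lf (nat_lit 0) (nat_lit 120452727481) (nat_lit 152) (nat_lit 874860880939) (nat_lit 0) (nat_lit 94535005953) (nat_lit 1) (nat_lit 5) (nat_lit 3) (nat_lit 4) (nat_lit 1) (nat_lit 4) (nat_lit 390) (nat_lit 309) (nat_lit 201))) (XT.nd (nat_lit 78) (nat_lit 0) (nat_lit 0) (XT.lf (nat_lit 0) (nat_lit 147798713194)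 (nat_lit 152) (nat_lit 905768257884) (nat_lit 0) (nat_lit 121880520032) (nat_lit 1) (nat_lit 5) (nat_lit 3) (nat_lit 4) (nat_lit 1) (nat_lit 4) (nat_lit 391) (nat_lit 309) (nat_lit 200)) (XT.lf (nat_lit 0) (nat_lit 177331684908) (nat_lit 152) (nat_lit 939149593678) (nat_lit 0) (nat_lit 151413055050) (nat_lit 1) (nat_lit 5) (nat_lit 3) (nat_lit 4) (nat_lit 1) (nat_lit 4) (nat_lit 392) (nat_lit 309) (nat_lit 199)))) (XT.nd (nat_lit 156) (nat_lit 0) (nat_lit 0) (XT.nd (nat_lit 78) (nat_lit 0) (nat_lit 0) (XT.lf (nat_lit 0) (nat_lit 209226652828) (nat_lit 152) (nat_lit 975202703643) (nat_lit 0) (nat_lit 183307618620) (nat_lit 1) (nat_lit 5) (nat_lit 3) (nat_lit 4) (nat_lit 1) (nat_lit 4) (nat_lit 393) (nat_lit 309) (nat_lit 198)) (XT.lf (nat_lit 0) (nat_lit 243672624170) (nat_lit 152) (nat_lit 1014141235839) (nat_lit 0) (nat_lit 217753215564) (nat_lit 1) (nat_lit 5) (nat_lit 3) (nat_lit 4)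 (nat_lit 1) (nat_lit 4) (nat_lit 394) (nat_lit 309) (nat_lit 197))) (XT.nd (nat_lit 78) (nat_lit 0) (nat_lit 0) (XT.lf (nat_lit 0) (nat_lit 280873723208) (nat_lit 152) (nat_lit 1056195937123) (nat_lit 0) (nat_lit 254953967939) (nat_lit 1) (nat_lit 5) (nat_lit 3) (nat_lit 4) (nat_lit 1) (nat_lit 4) (nat_lit 395) (nat_lit 309) (nat_lit 196)) (XT.lf (nat_lit 0) (nat_lit 321050400901) (nat_lit 152) (nat_lit 1101616020540) (nat_lit 0) (nat_lit 295130324646) (nat_lit 1) (nat_lit 5) (nat_lit 3) (nat_lit 4) (nat_lit 1) (nat_lit 4) (nat_lit 396) (nat_lit 309) (nat_lit 195))))) (XT.nd (nat_lit 312) (nat_lit 0) (nat_lit 0) (XT.nd (nat_lit 156) (nat_lit 0) (nat_lit 0) (XT.nd (nat_lit 78) (nat_lit 0) (nat_lit 0) (XT.lf (nat_lit 0) (nat_lit 364440741264) (nat_lit 152) (nat_lit 1150670642140) (nat_lit 0) (nat_lit 338520367800) (nat_lit 1) (nat_lit 5) (nat_lit 3) (nat_lit 4) (nat_lit 1) (nat_lit 4) (nat_lit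 397) (nat_lit 309) (nat_lit 194)) (XT.lf (nat_lit 0) (nat_lit 411301872240) (nat_lit 152) (nat_lit 1203650495976) (nat_lit 0) (nat_lit 385381223583) (nat_lit 1) (nat_lit 5) (nat_lit 3) (nat_lit 4) (nat_lit 1) (nat_lit 4) (nat_lit 398) (nat_lit 309) (nat_lit 193))) (XT.nd (nat_lit 78) (nat_lit 0) (nat_lit 0) (XT.lf (nat_lit 0) (nat_lit 461911489419) (nat_lit 152) (nat_lit 1260869536738) (nat_lit 0) (nat_lit 435990585954) (nat_lit 1) (nat_lit 5) (nat_lit 3) (nat_lit 4) (nat_lit 1) (nat_lit 4) (nat_lit 399) (nat_lit 309) (nat_lit 192)) (XT.lf (nat_lit 0) (nat_lit 516569501646) (nat_lit 152) (nat_lit 1322666840224) (nat_lit 0) (nat_lit 490648362246) (nat_lit 1) (nat_lit 5) (nat_lit 3) (nat_lit 4) (nat_lit 1) (nat_lit 4) (nat_lit 400) (nat_lit 309) (nat_lit 191)))) (XT.nd (nat_lit 156) (nat_lit 0) (nat_lit 0) (XT.nd (nat_lit 78) (nat_lit 0) (nat_lit 0) (XT.lf (nat_lit 0) (nat_lit 575599808250)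 (nat_lit 152) (nat_lit 1389408612675) (nat_lit 0) (nat_lit 549678450393) (nat_lit 1) (nat_lit 5) (nat_lit 3) (nat_lit 4) (nat_lit 1) (nat_lit 4) (nat_lit 401) (nat_lit 309) (nat_lit 190)) (XT.lf (nat_lit 0) (nat_lit 639352218457) (nat_lit 152) (nat_lit 1461490360892) (nat_lit 0) (nat_lit 613430658325) (nat_lit 1) (nat_lit 5) (nat_lit 3) (nat_lit 4) (nat_lit 1) (nat_lit 4) (nat_lit 402) (nat_lit 309) (nat_lit 189))) (XT.nd (nat_lit 78) (nat_lit 0) (nat_lit 0) (XT.lf (nat_lit 0) (nat_lit 708204524327) (nat_lit 152) (nat_lit 1539339235976) (nat_lit 0) (nat_lit 682282776903) (nat_lit 1) (nat_lit 5) (nat_lit 3) (nat_lit 4) (nat_lit 1) (nat_lit 4) (nat_lit 403) (nat_lit 309) (nat_lit 188)) (XT.nd (nat_lit 78) (nat_lit 0) (nat_lit 0) (XT.lf (nat_lit 0) (nat_lit 782564739524) (nat_lit 152) (nat_lit 1623416564593) (nat_lit 0) (nat_lit 756642818682) (nat_lit 1) (nat_lit 5) (nat_lit 3) (nat_lit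 4) (nat_lit 1) (nat_lit 4) (nat_lit 404) (nat_lit 309) (nat_lit 187)) (XT.lf (nat_lit 0) (nat_lit 862873517176) (nat_lit 152) (nat_lit 1714220582764) (nat_lit 0) (nat_lit 836951435761) (nat_lit 1) (nat_lit 5) (nat_lit 3) (nat_lit 4) (nat_lit 1) (nat_lit 4) (nat_lit 405) (nat_lit 309) (nat_lit 186))))))))
noncomputable def xc127 : XT := (XT.nd (nat_lit 40170) (nat_lit 0) (nat_lit 1444) (XT.nd (nat_lit 39468) (nat_lit 0) (nat_lit 3420) (XT.nd (nat_lit 312) (nat_lit 0) (nat_lit 0) (XT.nd (nat_lit 156) (nat_lit 0) (nat_lit 0) (XT.nd (nat_lit 78) (nat_lit 0) (nat_lit 0) (XT.lf (nat_lit 0) (nat_lit 949606761150) (nat_lit 152) (nat_lit 1812289388376) (nat_lit 0) (nat_lit 923684531056) (nat_lit 1) (nat_lit 5) (nat_lit 3) (nat_lit 4) (nat_lit 1) (nat_lit 4) (nat_lit 406) (nat_lit 309) (nat_lit 185)) (XT.lf (nat_lit 0) (nat_lit 1043278446225) (nat_lit 152) (nat_lit 1918204129906) (nat_lit 0) (nat_lit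 1017356078466) (nat_lit 1) (nat_lit 5) (nat_lit 3) (nat_lit 4) (nat_lit 1) (nat_lit 4) (nat_lit 407) (nat_lit 309) (nat_lit 184))) (XT.nd (nat_lit 78) (nat_lit 0) (nat_lit 0) (XT.lf (nat_lit 0) (nat_lit 1144443663868) (nat_lit 152) (nat_lit 2032592450267) (nat_lit 0) (nat_lit 1118521168642) (nat_lit 1) (nat_lit 5) (nat_lit 3) (nat_lit 4) (nat_lit 1) (nat_lit 4) (nat_lit 408) (nat_lit 309) (nat_lit 183)) (XT.lf (nat_lit 0) (nat_lit 1253701911666) (nat_lit 152) (nat_lit 2156132206172) (nat_lit 0) (nat_lit 1227779298414) (nat_lit 1) (nat_lit 5) (nat_lit 3) (nat_lit 4) (nat_lit 1) (nat_lit 4) (nat_lit 409) (nat_lit 309) (nat_lit 182)))) (XT.nd (nat_lit 156) (nat_lit 0) (nat_lit 0) (XT.nd (nat_lit 78) (nat_lit 0) (nat_lit 0) (XT.lf (nat_lit 0) (nat_lit 1371700645901) (nat_lit 152) (nat_lit 2289555485064) (nat_lit 0) (nat_lit 1345777923366) (nat_lit 1) (nat_lit 5) (nat_lit 3) (nat_lit 4) (nat_lit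 1) (nat_lit 4) (nat_lit 410) (nat_lit 309) (nat_lit 181)) (XT.lf (nat_lit 0) (nat_lit 1499139118333) (nat_lit 152) (nat_lit 2433652943409) (nat_lit 0) (nat_lit 1473216294610) (nat_lit 1) (nat_lit 5) (nat_lit 3) (nat_lit 4) (nat_lit 1) (nat_lit 4) (nat_lit 411) (nat_lit 309) (nat_lit 180))) (XT.nd (nat_lit 38922) (nat_lit 0) (nat_lit 4180) (XT.lf (nat_lit 0) (nat_lit 1636772519908) (nat_lit 152) (nat_lit 2589278492073) (nat_lit 0) (nat_lit 1610849602492) (nat_lit 1) (nat_lit 5) (nat_lit 3) (nat_lit 4) (nat_lit 1) (nat_lit 4) (nat_lit 412) (nat_lit 309) (nat_lit 179)) (XT.lf (nat_lit 0) (nat_lit 2154074442) (nat_lit 0) (nat_lit 2154074442) (nat_lit 380) (nat_lit 376012685) (nat_lit 56) (nat_lit 5) (nat_lit 56) (nat_lit 3) (nat_lit 61) (nat_lit 3) (nat_lit 310) (nat_lit 310) (nat_lit 280))))) (XT.nd (nat_lit 312) (nat_lit 228) (nat_lit 0) (XT.nd (nat_lit 156) (nat_lit 0) (nat_lit 76) (XT.nd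 (nat_lit 78) (nat_lit 0) (nat_lit 76) (XT.lf (nat_lit 0) (nat_lit 32310640) (nat_lit 532) (nat_lit 680421048) (nat_lit 532) (nat_lit 8967874123) (nat_lit 49) (nat_lit 3) (nat_lit 56) (nat_lit 3) (nat_lit 56) (nat_lit 5) (nat_lit 311) (nat_lit 310) (nat_lit 279)) (XT.lf (nat_lit 0) (nat_lit 942396969) (nat_lit 456) (nat_lit 5896653500) (nat_lit 532) (nat_lit 3169160643) (nat_lit 50) (nat_lit 5) (nat_lit 56) (nat_lit 5) (nat_lit 57) (nat_lit 5) (nat_lit 312) (nat_lit 310) (nat_lit 278))) (XT.nd (nat_lit 78) (nat_lit 0) (nat_lit 76) (XT.lf (nat_lit 0) (nat_lit 1890851664) (nat_lit 456) (nat_lit 1101631451) (nat_lit 532) (nat_lit 7372475741) (nat_lit 50) (nat_lit 5) (nat_lit 56) (nat_lit 5) (nat_lit 57) (nat_lit 5) (nat_lit 313) (nat_lit 310) (nat_lit 277)) (XT.lf (nat_lit 0) (nat_lit 2981713422) (nat_lit 456) (nat_lit 6533519138) (nat_lit 532) (nat_lit 1229857087) (nat_lit 51) (nat_lit 5)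 (nat_lit 57) (nat_lit 5) (nat_lit 58) (nat_lit 5) (nat_lit 314) (nat_lit 310) (nat_lit 276)))) (XT.nd (nat_lit 156) (nat_lit 380) (nat_lit 0) (XT.nd (nat_lit 78) (nat_lit 0) (nat_lit 0) (XT.lf (nat_lit 0) (nat_lit 4206152781) (nat_lit 456) (nat_lit 1267942741) (nat_lit 532) (nat_lit 5677984098) (nat_lit 51) (nat_lit 5) (nat_lit 57) (nat_lit 5) (nat_lit 58) (nat_lit 5) (nat_lit 315) (nat_lit 310) (nat_lit 275)) (XT.lf (nat_lit 76) (nat_lit 4604111166) (nat_lit 0) (nat_lit 977460402) (nat_lit 532) (nat_lit 6005957326) (nat_lit 52) (nat_lit 5) (nat_lit 51) (nat_lit 5) (nat_lit 58) (nat_lit 5) (nat_lit 316) (nat_lit 310) (nat_lit 274))) (XT.nd (nat_lit 78) (nat_lit 456) (nat_lit 0) (XT.lf (nat_lit 0) (nat_lit 7141646344) (nat_lit 456) (nat_lit 1179878075) (nat_lit 76) (nat_lit 3730451418) (nat_lit 52) (nat_lit 5) (nat_lit 58) (nat_lit 5) (nat_lit 53) (nat_lit 5) (nat_lit 317) (nat_lit 310)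 (nat_lit 273)) (XT.nd (nat_lit 78) (nat_lit 0) (nat_lit 0) (XT.lf (nat_lit 0) (nat_lit 5281686433) (nat_lit 456) (nat_lit 3647037685) (nat_lit 532) (nat_lit 3616800436) (nat_lit 46) (nat_lit 5) (nat_lit 52) (nat_lit 5) (nat_lit 53) (nat_lit 5) (nat_lit 318) (nat_lit 310) (nat_lit 272)) (XT.lf (nat_lit 0) (nat_lit 10878103513) (nat_lit 532) (nat_lit 831185094) (nat_lit 76) (nat_lit 1367834492) (nat_lit 46) (nat_lit 5) (nat_lit 53) (nat_lit 5) (nat_lit 47) (nat_lit 5) (nat_lit 319) (nat_lit 310) (nat_lit 271))))))) (XT.nd (nat_lit 702) (nat_lit 684) (nat_lit 0) (XT.nd (nat_lit 312) (nat_lit 456) (nat_lit 0) (XT.nd (nat_lit 156) (nat_lit 456) (nat_lit 0) (XT.nd (nat_lit 78) (nat_lit 76) (nat_lit 0) (XT.lf (nat_lit 0) (nat_lit 6291695694) (nat_lit 304) (nat_lit 6893830900) (nat_lit 380) (nat_lit 449659875) (nat_lit 42) (nat_lit 5) (nat_lit 46) (nat_lit 5) (nat_lit 47) (nat_lit 5) (nat_lit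 320) (nat_lit 310) (nat_lit 270)) (XT.lf (nat_lit 0) (nat_lit 1348036671) (nat_lit 380) (nat_lit 285231133) (nat_lit 76) (nat_lit 12603514322) (nat_lit 41) (nat_lit 5) (nat_lit 46) (nat_lit 5) (nat_lit 42) (nat_lit 5) (nat_lit 321) (nat_lit 310) (nat_lit 269))) (XT.nd (nat_lit 78) (nat_lit 228) (nat_lit 0) (XT.lf (nat_lit 0) (nat_lit 3512312824) (nat_lit 304) (nat_lit 7309149435) (nat_lit 76) (nat_lit 4044427126) (nat_lit 38) (nat_lit 5) (nat_lit 42) (nat_lit 5) (nat_lit 39) (nat_lit 5) (nat_lit 322) (nat_lit 310) (nat_lit 268)) (XT.lf (nat_lit 0) (nat_lit 432407620) (nat_lit 228) (nat_lit 5440285571) (nat_lit 304) (nat_lit 9670871807) (nat_lit 35) (nat_lit 5) (nat_lit 38) (nat_lit 5) (nat_lit 39) (nat_lit 5) (nat_lit 323) (nat_lit 310) (nat_lit 267)))) (XT.nd (nat_lit 156) (nat_lit 304) (nat_lit 0) (XT.nd (nat_lit 78) (nat_lit 152) (nat_lit 0) (XT.lf (nat_lit 0) (nat_lit 8599611543)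 (nat_lit 304) (nat_lit 7110481438) (nat_lit 76) (nat_lit 551216133) (nat_lit 35) (nat_lit 5) (nat_lit 39) (nat_lit 5) (nat_lit 36) (nat_lit 5) (nat_lit 324) (nat_lit 310) (nat_lit 266)) (XT.lf (nat_lit 0) (nat_lit 1417383864) (nat_lit 152) (nat_lit 10269119520) (nat_lit 228) (nat_lit 5338689569) (nat_lit 33) (nat_lit 5) (nat_lit 35) (nat_lit 5) (nat_lit 36) (nat_lit 5) (nat_lit 325) (nat_lit 310) (nat_lit 265))) (XT.nd (nat_lit 78) (nat_lit 304) (nat_lit 0) (XT.lf (nat_lit 0) (nat_lit 10990470881) (nat_lit 152) (nat_lit 4192206266) (nat_lit 228) (nat_lit 2654584827) (nat_lit 33) (nat_lit 5) (nat_lit 35) (nat_lit 5) (nat_lit 36) (nat_lit 5) (nat_lit 326) (nat_lit 310) (nat_lit 264)) (XT.nd (nat_lit 78) (nat_lit 0) (nat_lit 0) (XT.lf (nat_lit 0) (nat_lit 325177120) (nat_lit 304) (nat_lit 16065206452) (nat_lit 76) (nat_lit 2316043472) (nat_lit 29) (nat_lit 5) (nat_lit 33) (nat_lit 5) (nat_lit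 30) (nat_lit 5) (nat_lit 327) (nat_lit 310) (nat_lit 263)) (XT.lf (nat_lit 0) (nat_lit 3671416115) (nat_lit 304) (nat_lit 6576313015) (nat_lit 76) (nat_lit 9370207521) (nat_lit 29) (nat_lit 5) (nat_lit 33) (nat_lit 5) (nat_lit 30) (nat_lit 5) (nat_lit 328) (nat_lit 310) (nat_lit 262)))))) (XT.nd (nat_lit 312) (nat_lit 380) (nat_lit 0) (XT.nd (nat_lit 156) (nat_lit 152) (nat_lit 0) (XT.nd (nat_lit 78) (nat_lit 0) (nat_lit 0) (XT.lf (nat_lit 0) (nat_lit 3824958571) (nat_lit 152) (nat_lit 3525125186) (nat_lit 228) (nat_lit 13247149686) (nat_lit 27) (nat_lit 5) (nat_lit 29) (nat_lit 5) (nat_lit 30) (nat_lit 5) (nat_lit 329) (nat_lit 310) (nat_lit 261)) (XT.lf (nat_lit 0) (nat_lit 11570959010) (nat_lit 228) (nat_lit 6341638370) (nat_lit 76) (nat_lit 3722484924) (nat_lit 27) (nat_lit 5) (nat_lit 30) (nat_lit 5) (nat_lit 28) (nat_lit 5) (nat_lit 330) (nat_lit 310) (nat_lit 260))) (XT.nd (nat_lit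 78) (nat_lit 0) (nat_lit 0) (XT.lf (nat_lit 0) (nat_lit 5048335173) (nat_lit 152) (nat_lit 11269700851) (nat_lit 228) (nat_lit 6422878900) (nat_lit 25) (nat_lit 5) (nat_lit 27) (nat_lit 5) (nat_lit 28) (nat_lit 5) (nat_lit 331) (nat_lit 310) (nat_lit 259)) (XT.lf (nat_lit 0) (nat_lit 17674984516) (nat_lit 152) (nat_lit 3919808340) (nat_lit 228) (nat_lit 2328463754) (nat_lit 25) (nat_lit 5) (nat_lit 27) (nat_lit 5) (nat_lit 28) (nat_lit 5) (nat_lit 332) (nat_lit 310) (nat_lit 258)))) (XT.nd (nat_lit 156) (nat_lit 228) (nat_lit 0) (XT.nd (nat_lit 78) (nat_lit 0) (nat_lit 0) (XT.lf (nat_lit 0) (nat_lit 2220668861) (nat_lit 152) (nat_lit 18942549545) (nat_lit 76) (nat_lit 4014418607) (nat_lit 23) (nat_lit 5) (nat_lit 25) (nat_lit 5) (nat_lit 24) (nat_lit 5) (nat_lit 333) (nat_lit 310) (nat_lit 257)) (XT.lf (nat_lit 0) (nat_lit 7263276455) (nat_lit 152) (nat_lit 6647363390) (nat_lit 76) (nat_lit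 12596490504) (nat_lit 23) (nat_lit 5) (nat_lit 25) (nat_lit 5) (nat_lit 24) (nat_lit 5) (nat_lit 334) (nat_lit 310) (nat_lit 256))) (XT.nd (nat_lit 78) (nat_lit 76) (nat_lit 0) (XT.lf (nat_lit 0) (nat_lit 6947115059) (nat_lit 152) (nat_lit 5909119291) (nat_lit 228) (nat_lit 15075019594) (nat_lit 21) (nat_lit 5) (nat_lit 23) (nat_lit 5) (nat_lit 24) (nat_lit 5) (nat_lit 335) (nat_lit 310) (nat_lit 255)) (XT.nd (nat_lit 78) (nat_lit 76) (nat_lit 0) (XT.lf (nat_lit 0) (nat_lit 19129145998) (nat_lit 228) (nat_lit 7550346779) (nat_lit 76) (nat_lit 2771237473) (nat_lit 21) (nat_lit 5) (nat_lit 24) (nat_lit 5) (nat_lit 22) (nat_lit 4) (nat_lit 336) (nat_lit 310) (nat_lit 254)) (XT.lf (nat_lit 0) (nat_lit 7131470679) (nat_lit 76) (nat_lit 19079201100) (nat_lit 152) (nat_lit 4856572785) (nat_lit 20) (nat_lit 5) (nat_lit 21) (nat_lit 5) (nat_lit 22) (nat_lit 4) (nat_lit 337) (nat_lit 310) (nat_lit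 253))))))))
noncomputable def xc128 : XT := (XT.nd (nat_lit 1326) (nat_lit 380) (nat_lit 0) (XT.nd (nat_lit 624) (nat_lit 380) (nat_lit 0) (XT.nd (nat_lit 312) (nat_lit 152) (nat_lit 0) (XT.nd (nat_lit 156) (nat_lit 76) (nat_lit 0) (XT.nd (nat_lit 78) (nat_lit 152) (nat_lit 0) (XT.lf (nat_lit 0) (nat_lit 1187091363) (nat_lit 152) (nat_lit 9439996923) (nat_lit 76) (nat_lit 22168498419) (nat_lit 19) (nat_lit 5) (nat_lit 21) (nat_lit 5) (nat_lit 20) (nat_lit 5) (nat_lit 338) (nat_lit 310) (nat_lit 252)) (XT.lf (nat_lit 0) (nat_lit 6380561569) (nat_lit 152) (nat_lit 1208052137) (nat_lit 228) (nat_lit 27052569023) (nat_lit 17) (nat_lit 5) (nat_lit 19) (nat_lit 5) (nat_lit 20) (nat_lit 5) (nat_lit 339) (nat_lit 310) (nat_lit 251))) (XT.nd (nat_lit 78) (nat_lit 76) (nat_lit 0) (XT.lf (nat_lit 0) (nat_lit 14966274680) (nat_lit 228) (nat_lit 12860703199) (nat_lit 76) (nat_lit 8770343672) (nat_lit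 17) (nat_lit 5) (nat_lit 20) (nat_lit 5) (nat_lit 18) (nat_lit 4) (nat_lit 340) (nat_lit 310) (nat_lit 250)) (XT.lf (nat_lit 0) (nat_lit 3909227919) (nat_lit 76) (nat_lit 19135139628) (nat_lit 152) (nat_lit 15656781658) (nat_lit 16) (nat_lit 5) (nat_lit 17) (nat_lit 5) (nat_lit 18) (nat_lit 4) (nat_lit 341) (nat_lit 310) (nat_lit 249)))) (XT.nd (nat_lit 156) (nat_lit 152) (nat_lit 0) (XT.nd (nat_lit 78) (nat_lit 0) (nat_lit 0) (XT.lf (nat_lit 0) (nat_lit 22726657622) (nat_lit 76) (nat_lit 9379019631) (nat_lit 152) (nat_lit 8840662380) (nat_lit 16) (nat_lit 5) (nat_lit 17) (nat_lit 5) (nat_lit 18) (nat_lit 4) (nat_lit 342) (nat_lit 310) (nat_lit 248)) (XT.lf (nat_lit 0) (nat_lit 41905911913) (nat_lit 152) (nat_lit 373968789) (nat_lit 0) (nat_lit 1090156051) (nat_lit 16) (nat_lit 5) (nat_lit 18) (nat_lit 4) (nat_lit 16) (nat_lit 4) (nat_lit 343) (nat_lit 310) (nat_lit 247))) (XT.nd (nat_lit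 78) (nat_lit 0) (nat_lit 0) (XT.lf (nat_lit 0) (nat_lit 6898028528) (nat_lit 152) (nat_lit 26491746495) (nat_lit 76) (nat_lit 12527692853) (nat_lit 14) (nat_lit 5) (nat_lit 16) (nat_lit 5) (nat_lit 15) (nat_lit 4) (nat_lit 344) (nat_lit 310) (nat_lit 246)) (XT.lf (nat_lit 0) (nat_lit 15847832425) (nat_lit 152) (nat_lit 7898274735) (nat_lit 76) (nat_lit 24919732047) (nat_lit 14) (nat_lit 5) (nat_lit 16) (nat_lit 5) (nat_lit 15) (nat_lit 4) (nat_lit 345) (nat_lit 310) (nat_lit 245))))) (XT.nd (nat_lit 312) (nat_lit 152) (nat_lit 0) (XT.nd (nat_lit 156) (nat_lit 152) (nat_lit 0) (XT.nd (nat_lit 78) (nat_lit 0) (nat_lit 0) (XT.lf (nat_lit 0) (nat_lit 12802009864) (nat_lit 76) (nat_lit 13007729485) (nat_lit 152) (nat_lit 25800661005) (nat_lit 13) (nat_lit 5) (nat_lit 14) (nat_lit 5) (nat_lit 15) (nat_lit 4) (nat_lit 346) (nat_lit 310) (nat_lit 244)) (XT.lf (nat_lit 0) (nat_lit 35586959332)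 (nat_lit 76) (nat_lit 1186200257) (nat_lit 152) (nat_lit 18001010838) (nat_lit 13) (nat_lit 5) (nat_lit 14) (nat_lit 5) (nat_lit 15) (nat_lit 4) (nat_lit 347) (nat_lit 310) (nat_lit 243))) (XT.nd (nat_lit 78) (nat_lit 76) (nat_lit 0) (XT.lf (nat_lit 0) (nat_lit 1795278484) (nat_lit 76) (nat_lit 47129324101) (nat_lit 76) (nat_lit 9241571826) (nat_lit 12) (nat_lit 4) (nat_lit 13) (nat_lit 5) (nat_lit 13) (nat_lit 4) (nat_lit 348) (nat_lit 310) (nat_lit 242)) (XT.lf (nat_lit 0) (nat_lit 766040688) (nat_lit 152) (nat_lit 36309442378) (nat_lit 76) (nat_lit 24708973699) (nat_lit 11) (nat_lit 5) (nat_lit 13) (nat_lit 5) (nat_lit 12) (nat_lit 4) (nat_lit 349) (nat_lit 310) (nat_lit 241)))) (XT.nd (nat_lit 156) (nat_lit 76) (nat_lit 0) (XT.nd (nat_lit 78) (nat_lit 76) (nat_lit 0) (XT.lf (nat_lit 0) (nat_lit 11065075163) (nat_lit 152) (nat_lit 14901390240) (nat_lit 76) (nat_lit 39707331748) (nat_lit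 11) (nat_lit 5) (nat_lit 13) (nat_lit 5) (nat_lit 12) (nat_lit 4) (nat_lit 350) (nat_lit 310) (nat_lit 240)) (XT.lf (nat_lit 0) (nat_lit 8634305999) (nat_lit 76) (nat_lit 13752213034) (nat_lit 152) (nat_lit 47471892858) (nat_lit 10) (nat_lit 5) (nat_lit 11) (nat_lit 5) (nat_lit 12) (nat_lit 4) (nat_lit 351) (nat_lit 310) (nat_lit 239))) (XT.nd (nat_lit 78) (nat_lit 76) (nat_lit 0) (XT.lf (nat_lit 0) (nat_lit 34883818610) (nat_lit 76) (nat_lit 128404050) (nat_lit 152) (nat_lit 39333695214) (nat_lit 10) (nat_lit 5) (nat_lit 11) (nat_lit 5) (nat_lit 12) (nat_lit 4) (nat_lit 352) (nat_lit 310) (nat_lit 238)) (XT.nd (nat_lit 78) (nat_lit 76) (nat_lit 0) (XT.lf (nat_lit 0) (nat_lit 48990362264) (nat_lit 152) (nat_lit 16325675925) (nat_lit 0) (nat_lit 13849000964) (nat_lit 10) (nat_lit 5) (nat_lit 12) (nat_lit 4) (nat_lit 10) (nat_lit 4) (nat_lit 353) (nat_lit 310) (nat_lit 237)) (XT.lf (nat_lit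 0) (nat_lit 9098890609) (nat_lit 76) (nat_lit 55202250800) (nat_lit 76) (nat_lit 20051402462) (nat_lit 9) (nat_lit 4) (nat_lit 10) (nat_lit 5) (nat_lit 10) (nat_lit 4) (nat_lit 354) (nat_lit 310) (nat_lit 236))))))) (XT.nd (nat_lit 624) (nat_lit 152) (nat_lit 0) (XT.nd (nat_lit 312) (nat_lit 76) (nat_lit 0) (XT.nd (nat_lit 156) (nat_lit 76) (nat_lit 0) (XT.nd (nat_lit 78) (nat_lit 76) (nat_lit 0) (XT.lf (nat_lit 0) (nat_lit 37471648854) (nat_lit 76) (nat_lit 43803965344) (nat_lit 76) (nat_lit 8644332712) (nat_lit 9) (nat_lit 4) (nat_lit 10) (nat_lit 5) (nat_lit 10) (nat_lit 4) (nat_lit 355) (nat_lit 310) (nat_lit 235)) (XT.lf (nat_lit 0) (nat_lit 3484280843) (nat_lit 152) (nat_lit 27920462082) (nat_lit 76) (nat_lit 64521505254) (nat_lit 8) (nat_lit 5) (nat_lit 10) (nat_lit 5) (nat_lit 9) (nat_lit 4) (nat_lit 356) (nat_lit 310) (nat_lit 234))) (XT.nd (nat_lit 78) (nat_lit 76) (nat_lit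 0) (XT.lf (nat_lit 0) (nat_lit 16109527718) (nat_lit 152) (nat_lit 1667479697) (nat_lit 76) (nat_lit 84618618398) (nat_lit 8) (nat_lit 5) (nat_lit 10) (nat_lit 5) (nat_lit 9) (nat_lit 4) (nat_lit 357) (nat_lit 310) (nat_lit 233)) (XT.lf (nat_lit 0) (nat_lit 28078730559) (nat_lit 76) (nat_lit 2335212309) (nat_lit 152) (nat_lit 78915082179) (nat_lit 7) (nat_lit 5) (nat_lit 8) (nat_lit 5) (nat_lit 9) (nat_lit 4) (nat_lit 358) (nat_lit 310) (nat_lit 232)))) (XT.nd (nat_lit 156) (nat_lit 76) (nat_lit 0) (XT.nd (nat_lit 78) (nat_lit 0) (nat_lit 0) (XT.lf (nat_lit 0) (nat_lit 46248319085) (nat_lit 152) (nat_lit 56871767382) (nat_lit 0) (nat_lit 13666164154) (nat_lit 7) (nat_lit 5) (nat_lit 9) (nat_lit 4) (nat_lit 7) (nat_lit 4) (nat_lit 359) (nat_lit 310) (nat_lit 231)) (XT.lf (nat_lit 0) (nat_lit 63404459640) (nat_lit 152) (nat_lit 30614427152) (nat_lit 0) (nat_lit 30816769113) (nat_lit 7)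 (nat_lit 5) (nat_lit 9) (nat_lit 4) (nat_lit 7) (nat_lit 4) (nat_lit 360) (nat_lit 310) (nat_lit 230))) (XT.nd (nat_lit 78) (nat_lit 76) (nat_lit 0) (XT.lf (nat_lit 0) (nat_lit 81927868638) (nat_lit 152) (nat_lit 2266512835) (nat_lit 0) (nat_lit 49335052560) (nat_lit 7) (nat_lit 5) (nat_lit 9) (nat_lit 4) (nat_lit 7) (nat_lit 4) (nat_lit 361) (nat_lit 310) (nat_lit 229)) (XT.lf (nat_lit 0) (nat_lit 29832295450) (nat_lit 76) (nat_lit 72813486402) (nat_lit 76) (nat_lit 40215924443) (nat_lit 6) (nat_lit 4) (nat_lit 7) (nat_lit 5) (nat_lit 7) (nat_lit 4) (nat_lit 362) (nat_lit 310) (nat_lit 228))))) (XT.nd (nat_lit 312) (nat_lit 76) (nat_lit 0) (XT.nd (nat_lit 156) (nat_lit 76) (nat_lit 0) (XT.nd (nat_lit 78) (nat_lit 0) (nat_lit 0) (XT.lf (nat_lit 0) (nat_lit 64618870294) (nat_lit 76) (nat_lit 60459533264) (nat_lit 76) (nat_lit 27857576972) (nat_lit 6) (nat_lit 4) (nat_lit 7) (nat_lit 5)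 (nat_lit 7) (nat_lit 4) (nat_lit 363) (nat_lit 310) (nat_lit 227)) (XT.lf (nat_lit 0) (nat_lit 102180003814) (nat_lit 76) (nat_lit 47121283925) (nat_lit 76) (nat_lit 14515258806) (nat_lit 6) (nat_lit 4) (nat_lit 7) (nat_lit 5) (nat_lit 7) (nat_lit 4) (nat_lit 364) (nat_lit 310) (nat_lit 226))) (XT.nd (nat_lit 78) (nat_lit 76) (nat_lit 0) (XT.lf (nat_lit 0) (nat_lit 142738280503) (nat_lit 76) (nat_lit 32719696910) (nat_lit 76) (nat_lit 109904357) (nat_lit 6) (nat_lit 4) (nat_lit 7) (nat_lit 5) (nat_lit 7) (nat_lit 4) (nat_lit 365) (nat_lit 310) (nat_lit 225)) (XT.lf (nat_lit 0) (nat_lit 14671287441) (nat_lit 152) (nat_lit 2097003039) (nat_lit 76) (nat_lit 171461619266) (nat_lit 5) (nat_lit 5) (nat_lit 7) (nat_lit 5) (nat_lit 6) (nat_lit 4) (nat_lit 366) (nat_lit 310) (nat_lit 224)))) (XT.nd (nat_lit 156) (nat_lit 0) (nat_lit 0) (XT.nd (nat_lit 78) (nat_lit 0) (nat_lit 0) (XT.lf (nat_lit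 0) (nat_lit 31443924310) (nat_lit 152) (nat_lit 169152106527) (nat_lit 0) (nat_lit 1243451270) (nat_lit 4) (nat_lit 5) (nat_lit 6) (nat_lit 4) (nat_lit 4) (nat_lit 4) (nat_lit 367) (nat_lit 310) (nat_lit 223)) (XT.lf (nat_lit 0) (nat_lit 50049219870) (nat_lit 152) (nat_lit 146603356320) (nat_lit 0) (nat_lit 19845977654) (nat_lit 4) (nat_lit 5) (nat_lit 6) (nat_lit 4) (nat_lit 4) (nat_lit 4) (nat_lit 368) (nat_lit 310) (nat_lit 222))) (XT.nd (nat_lit 78) (nat_lit 0) (nat_lit 0) (XT.lf (nat_lit 0) (nat_lit 70139682322) (nat_lit 152) (nat_lit 122257054781) (nat_lit 0) (nat_lit 39933876055) (nat_lit 4) (nat_lit 5) (nat_lit 6) (nat_lit 4) (nat_lit 4) (nat_lit 4) (nat_lit 369) (nat_lit 310) (nat_lit 221)) (XT.nd (nat_lit 78) (nat_lit 0) (nat_lit 0) (XT.lf (nat_lit 0) (nat_lit 91834366259) (nat_lit 152) (nat_lit 95968927531) (nat_lit 0) (nat_lit 61626185870) (nat_lit 4) (nat_lit 5) (nat_lit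 6) (nat_lit 4) (nat_lit 4) (nat_lit 4) (nat_lit 370) (nat_lit 310) (nat_lit 220)) (XT.lf (nat_lit 0) (nat_lit 115261832770) (nat_lit 152) (nat_lit 67583193076) (nat_lit 0) (nat_lit 85051454120) (nat_lit 4) (nat_lit 5) (nat_lit 6) (nat_lit 4) (nat_lit 4) (nat_lit 4) (nat_lit 371) (nat_lit 310) (nat_lit 219))))))))
noncomputable def xc129 : XT := (XT.nd (nat_lit 1326) (nat_lit 0) (nat_lit 0) (XT.nd (nat_lit 624) (nat_lit 152) (nat_lit 0) (XT.nd (nat_lit 312) (nat_lit 0) (nat_lit 0) (XT.nd (nat_lit 156) (nat_lit 76) (nat_lit 0) (XT.nd (nat_lit 78) (nat_lit 0) (nat_lit 0) (XT.lf (nat_lit 0) (nat_lit 140560911288) (nat_lit 152) (nat_lit 36931639656) (nat_lit 0) (nat_lit 110348497211) (nat_lit 4) (nat_lit 5) (nat_lit 6) (nat_lit 4) (nat_lit 4) (nat_lit 4) (nat_lit 372) (nat_lit 310) (nat_lit 218)) (XT.lf (nat_lit 0) (nat_lit 167881522277) (nat_lit 152) (nat_lit 3832628435) (nat_lit 0) (nat_lit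 137667223546) (nat_lit 4) (nat_lit 5) (nat_lit 6) (nat_lit 4) (nat_lit 4) (nat_lit 4) (nat_lit 373) (nat_lit 310) (nat_lit 217))) (XT.nd (nat_lit 78) (nat_lit 0) (nat_lit 0) (XT.lf (nat_lit 0) (nat_lit 33590306022) (nat_lit 76) (nat_lit 164603107299) (nat_lit 76) (nat_lit 134387063517) (nat_lit 3) (nat_lit 4) (nat_lit 4) (nat_lit 5) (nat_lit 4) (nat_lit 4) (nat_lit 374) (nat_lit 310) (nat_lit 216)) (XT.lf (nat_lit 0) (nat_lit 74220828791) (nat_lit 76) (nat_lit 156812064120) (nat_lit 76) (nat_lit 126594404551) (nat_lit 3) (nat_lit 4) (nat_lit 4) (nat_lit 5) (nat_lit 4) (nat_lit 4) (nat_lit 375) (nat_lit 310) (nat_lit 215)))) (XT.nd (nat_lit 156) (nat_lit 0) (nat_lit 0) (XT.nd (nat_lit 78) (nat_lit 0) (nat_lit 0) (XT.lf (nat_lit 0) (nat_lit 118097893918) (nat_lit 76) (nat_lit 148399642886) (nat_lit 76) (nat_lit 118180487218) (nat_lit 3) (nat_lit 4) (nat_lit 4) (nat_lit 5) (nat_lit 4) (nat_lit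 4) (nat_lit 376) (nat_lit 310) (nat_lit 214)) (XT.lf (nat_lit 0) (nat_lit 165481513640) (nat_lit 76) (nat_lit 139315992210) (nat_lit 76) (nat_lit 109095451264) (nat_lit 3) (nat_lit 4) (nat_lit 4) (nat_lit 5) (nat_lit 4) (nat_lit 4) (nat_lit 377) (nat_lit 310) (nat_lit 213))) (XT.nd (nat_lit 78) (nat_lit 0) (nat_lit 0) (XT.lf (nat_lit 0) (nat_lit 216652479777) (nat_lit 76) (nat_lit 129507283052) (nat_lit 76) (nat_lit 99285459442) (nat_lit 3) (nat_lit 4) (nat_lit 4) (nat_lit 5) (nat_lit 4) (nat_lit 4) (nat_lit 378) (nat_lit 310) (nat_lit 212)) (XT.lf (nat_lit 0) (nat_lit 271914027686) (nat_lit 76) (nat_lit 118915389728) (nat_lit 76) (nat_lit 88692378466) (nat_lit 3) (nat_lit 4) (nat_lit 4) (nat_lit 5) (nat_lit 4) (nat_lit 4) (nat_lit 379) (nat_lit 310) (nat_lit 211))))) (XT.nd (nat_lit 312) (nat_lit 152) (nat_lit 0) (XT.nd (nat_lit 156) (nat_lit 0) (nat_lit 0) (XT.nd (nat_lit 78) (nat_lit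 0) (nat_lit 0) (XT.lf (nat_lit 0) (nat_lit 331593633204) (nat_lit 76) (nat_lit 107477545462) (nat_lit 76) (nat_lit 77253434522) (nat_lit 3) (nat_lit 4) (nat_lit 4) (nat_lit 5) (nat_lit 4) (nat_lit 4) (nat_lit 380) (nat_lit 310) (nat_lit 210)) (XT.lf (nat_lit 0) (nat_lit 396044953255) (nat_lit 76) (nat_lit 95125970437) (nat_lit 76) (nat_lit 64900841277) (nat_lit 3) (nat_lit 4) (nat_lit 4) (nat_lit 5) (nat_lit 4) (nat_lit 4) (nat_lit 381) (nat_lit 310) (nat_lit 209))) (XT.nd (nat_lit 78) (nat_lit 0) (nat_lit 0) (XT.lf (nat_lit 0) (nat_lit 465649921586) (nat_lit 76) (nat_lit 81787470134) (nat_lit 76) (nat_lit 51561398178) (nat_lit 3) (nat_lit 4) (nat_lit 4) (nat_lit 5) (nat_lit 4) (nat_lit 4) (nat_lit 382) (nat_lit 310) (nat_lit 208)) (XT.lf (nat_lit 0) (nat_lit 540821012083) (nat_lit 76) (nat_lit 67383001588) (nat_lit 76) (nat_lit 37156056672) (nat_lit 3) (nat_lit 4) (nat_lit 4) (nat_lit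 5) (nat_lit 4) (nat_lit 4) (nat_lit 383) (nat_lit 310) (nat_lit 207)))) (XT.nd (nat_lit 156) (nat_lit 152) (nat_lit 0) (XT.nd (nat_lit 78) (nat_lit 0) (nat_lit 0) (XT.lf (nat_lit 0) (nat_lit 622003683062) (nat_lit 76) (nat_lit 51827204986) (nat_lit 76) (nat_lit 21599451774) (nat_lit 3) (nat_lit 4) (nat_lit 4) (nat_lit 5) (nat_lit 4) (nat_lit 4) (nat_lit 384) (nat_lit 310) (nat_lit 206)) (XT.lf (nat_lit 0) (nat_lit 709679017015) (nat_lit 76) (nat_lit 35027897829) (nat_lit 76) (nat_lit 4799396195) (nat_lit 3) (nat_lit 4) (nat_lit 4) (nat_lit 5) (nat_lit 4) (nat_lit 4) (nat_lit 385) (nat_lit 310) (nat_lit 205))) (XT.nd (nat_lit 78) (nat_lit 76) (nat_lit 0) (XT.lf (nat_lit 0) (nat_lit 12676161736) (nat_lit 152) (nat_lit 3862778206) (nat_lit 76) (nat_lit 791343821017) (nat_lit 2) (nat_lit 5) (nat_lit 4) (nat_lit 5) (nat_lit 3) (nat_lit 4) (nat_lit 386) (nat_lit 310) (nat_lit 204)) (XT.nd (nat_lit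 78) (nat_lit 0) (nat_lit 0) (XT.lf (nat_lit 0) (nat_lit 32280543224) (nat_lit 152) (nat_lit 834269651412) (nat_lit 0) (nat_lit 4289954086) (nat_lit 1) (nat_lit 5) (nat_lit 3) (nat_lit 4) (nat_lit 1) (nat_lit 4) (nat_lit 387) (nat_lit 310) (nat_lit 203)) (XT.lf (nat_lit 0) (nat_lit 53990343743) (nat_lit 152) (nat_lit 858801614069) (nat_lit 0) (nat_lit 25999204492) (nat_lit 1) (nat_lit 5) (nat_lit 3) (nat_lit 4) (nat_lit 1) (nat_lit 4) (nat_lit 388) (nat_lit 310) (nat_lit 202))))))) (XT.nd (nat_lit 624) (nat_lit 0) (nat_lit 0) (XT.nd (nat_lit 312) (nat_lit 0) (nat_lit 0) (XT.nd (nat_lit 156) (nat_lit 0) (nat_lit 0) (XT.nd (nat_lit 78) (nat_lit 0) (nat_lit 0) (XT.lf (nat_lit 0) (nat_lit 77436120157) (nat_lit 152) (nat_lit 885297730182) (nat_lit 0) (nat_lit 49444471543) (nat_lit 1) (nat_lit 5) (nat_lit 3) (nat_lit 4) (nat_lit 1) (nat_lit 4) (nat_lit 389) (nat_lit 310) (nat_lit 201)) (XT.lf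 (nat_lit 0) (nat_lit 102756810402) (nat_lit 152) (nat_lit 913915013773) (nat_lit 0) (nat_lit 74764690154) (nat_lit 1) (nat_lit 5) (nat_lit 3) (nat_lit 4) (nat_lit 1) (nat_lit 4) (nat_lit 390) (nat_lit 310) (nat_lit 200))) (XT.nd (nat_lit 78) (nat_lit 0) (nat_lit 0) (XT.lf (nat_lit 0) (nat_lit 130102463011) (nat_lit 152) (nat_lit 944823048743) (nat_lit 0) (nat_lit 102109906066) (nat_lit 1) (nat_lit 5) (nat_lit 3) (nat_lit 4) (nat_lit 1) (nat_lit 4) (nat_lit 391) (nat_lit 310) (nat_lit 199)) (XT.lf (nat_lit 0) (nat_lit 159635126296) (nat_lit 152) (nat_lit 978204993820) (nat_lit 0) (nat_lit 131642165003) (nat_lit 1) (nat_lit 5) (nat_lit 3) (nat_lit 4) (nat_lit 1) (nat_lit 4) (nat_lit 392) (nat_lit 310) (nat_lit 198)))) (XT.nd (nat_lit 156) (nat_lit 0) (nat_lit 0) (XT.nd (nat_lit 78) (nat_lit 0) (nat_lit 0) (XT.lf (nat_lit 0) (nat_lit 191529808634) (nat_lit 152) (nat_lit 1014258667936) (nat_lit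 0) (nat_lit 163536472943) (nat_lit 1) (nat_lit 5) (nat_lit 3) (nat_lit 4) (nat_lit 1) (nat_lit 4) (nat_lit 393) (nat_lit 310) (nat_lit 197)) (XT.lf (nat_lit 0) (nat_lit 225975515547) (nat_lit 152) (nat_lit 1053197722493) (nat_lit 0) (nat_lit 197981833192) (nat_lit 1) (nat_lit 5) (nat_lit 3) (nat_lit 4) (nat_lit 1) (nat_lit 4) (nat_lit 394) (nat_lit 310) (nat_lit 196))) (XT.nd (nat_lit 78) (nat_lit 0) (nat_lit 0) (XT.lf (nat_lit 0) (nat_lit 263176369745) (nat_lit 152) (nat_lit 1095252907446) (nat_lit 0) (nat_lit 235182366404) (nat_lit 1) (nat_lit 5) (nat_lit 3) (nat_lit 4) (nat_lit 1) (nat_lit 4) (nat_lit 395) (nat_lit 310) (nat_lit 195)) (XT.lf (nat_lit 0) (nat_lit 303352820733) (nat_lit 152) (nat_lit 1140673438704) (nat_lit 0) (nat_lit 275358520184) (nat_lit 1) (nat_lit 5) (nat_lit 3) (nat_lit 4) (nat_lit 1) (nat_lit 4) (nat_lit 396) (nat_lit 310) (nat_lit 194))))) (XT.nd (nat_lit 312)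 (nat_lit 0) (nat_lit 0) (XT.nd (nat_lit 156) (nat_lit 0) (nat_lit 0) (XT.nd (nat_lit 78) (nat_lit 0) (nat_lit 0) (XT.lf (nat_lit 0) (nat_lit 346742951185) (nat_lit 152) (nat_lit 1189728474971) (nat_lit 0) (nat_lit 318748375442) (nat_lit 1) (nat_lit 5) (nat_lit 3) (nat_lit 4) (nat_lit 1) (nat_lit 4) (nat_lit 397) (nat_lit 310) (nat_lit 193)) (XT.lf (nat_lit 0) (nat_lit 393603887798) (nat_lit 152) (nat_lit 1242708712759) (nat_lit 0) (nat_lit 365609057246) (nat_lit 1) (nat_lit 5) (nat_lit 3) (nat_lit 4) (nat_lit 1) (nat_lit 4) (nat_lit 398) (nat_lit 310) (nat_lit 192))) (XT.nd (nat_lit 78) (nat_lit 0) (nat_lit 0) (XT.lf (nat_lit 0) (nat_lit 444213325012) (nat_lit 152) (nat_lit 1299928109032) (nat_lit 0) (nat_lit 416218258527) (nat_lit 1) (nat_lit 5) (nat_lit 3) (nat_lit 4) (nat_lit 1) (nat_lit 4) (nat_lit 399) (nat_lit 310) (nat_lit 191)) (XT.lf (nat_lit 0) (nat_lit 498871170604) (nat_lit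 152) (nat_lit 1361725741694) (nat_lit 0) (nat_lit 470875885661) (nat_lit 1) (nat_lit 5) (nat_lit 3) (nat_lit 4) (nat_lit 1) (nat_lit 4) (nat_lit 400) (nat_lit 310) (nat_lit 190)))) (XT.nd (nat_lit 156) (nat_lit 0) (nat_lit 0) (XT.nd (nat_lit 78) (nat_lit 0) (nat_lit 0) (XT.lf (nat_lit 0) (nat_lit 557901322917) (nat_lit 152) (nat_lit 1428467818938) (nat_lit 0) (nat_lit 529905835699) (nat_lit 1) (nat_lit 5) (nat_lit 3) (nat_lit 4) (nat_lit 1) (nat_lit 4) (nat_lit 401) (nat_lit 310) (nat_lit 189)) (XT.lf (nat_lit 0) (nat_lit 621653590262) (nat_lit 152) (nat_lit 1500549849371) (nat_lit 0) (nat_lit 593657915752) (nat_lit 1) (nat_lit 5) (nat_lit 3) (nat_lit 4) (nat_lit 1) (nat_lit 4) (nat_lit 402) (nat_lit 310) (nat_lit 188))) (XT.nd (nat_lit 78) (nat_lit 0) (nat_lit 0) (XT.lf (nat_lit 0) (nat_lit 690505763852) (nat_lit 152) (nat_lit 1578398985766) (nat_lit 0) (nat_lit 662509915923) (nat_lit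 1) (nat_lit 5) (nat_lit 3) (nat_lit 4) (nat_lit 1) (nat_lit 4) (nat_lit 403) (nat_lit 310) (nat_lit 187)) (XT.nd (nat_lit 78) (nat_lit 0) (nat_lit 0) (XT.lf (nat_lit 0) (nat_lit 764865856568) (nat_lit 152) (nat_lit 1662476556337) (nat_lit 0) (nat_lit 736869848067) (nat_lit 1) (nat_lit 5) (nat_lit 3) (nat_lit 4) (nat_lit 1) (nat_lit 4) (nat_lit 404) (nat_lit 310) (nat_lit 186)) (XT.lf (nat_lit 0) (nat_lit 845174520811) (nat_lit 152) (nat_lit 1753280798541) (nat_lit 0) (nat_lit 817178363631) (nat_lit 1) (nat_lit 5) (nat_lit 3) (nat_lit 4) (nat_lit 1) (nat_lit 4) (nat_lit 405) (nat_lit 310) (nat_lit 185))))))))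
noncomputable def xc130 : XT := (XT.nd (nat_lit 40248) (nat_lit 0) (nat_lit 1520) (XT.nd (nat_lit 39546) (nat_lit 0) (nat_lit 3420) (XT.nd (nat_lit 312) (nat_lit 0) (nat_lit 0) (XT.nd (nat_lit 156) (nat_lit 0) (nat_lit 0) (XT.nd (nat_lit 78) (nat_lit 0) (nat_lit 0) (XT.lf (nat_lit 0) (nat_lit 931907659777) (nat_lit 152) (nat_lit 1851349811590) (nat_lit 0) (nat_lit 903911364932) (nat_lit 1) (nat_lit 5) (nat_lit 3) (nat_lit 4) (nat_lit 1) (nat_lit 4) (nat_lit 406) (nat_lit 310) (nat_lit 184)) (XT.lf (nat_lit 0) (nat_lit 1025579247622) (nat_lit 152) (nat_lit 1957264745192) (nat_lit 0) (nat_lit 997582825310) (nat_lit 1) (nat_lit 5) (nat_lit 3) (nat_lit 4) (nat_lit 1) (nat_lit 4) (nat_lit 407) (nat_lit 310) (nat_lit 183))) (XT.nd (nat_lit 78) (nat_lit 0) (nat_lit 0) (XT.lf (nat_lit 0) (nat_lit 1126744375238) (nat_lit 152) (nat_lit 2071653243396) (nat_lit 0) (nat_lit 1098747834900) (nat_lit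 1) (nat_lit 5) (nat_lit 3) (nat_lit 4) (nat_lit 1) (nat_lit 4) (nat_lit 408) (nat_lit 310) (nat_lit 182)) (XT.lf (nat_lit 0) (nat_lit 1236002539677) (nat_lit 152) (nat_lit 2195193163971) (nat_lit 0) (nat_lit 1208005890056) (nat_lit 1) (nat_lit 5) (nat_lit 3) (nat_lit 4) (nat_lit 1) (nat_lit 4) (nat_lit 409) (nat_lit 310) (nat_lit 181)))) (XT.nd (nat_lit 156) (nat_lit 0) (nat_lit 0) (XT.nd (nat_lit 78) (nat_lit 0) (nat_lit 0) (XT.lf (nat_lit 0) (nat_lit 1354001196728) (nat_lit 152) (nat_lit 2328616595335) (nat_lit 0) (nat_lit 1326004445919) (nat_lit 1) (nat_lit 5) (nat_lit 3) (nat_lit 4) (nat_lit 1) (nat_lit 4) (nat_lit 410) (nat_lit 310) (nat_lit 180)) (XT.lf (nat_lit 0) (nat_lit 1481439597693) (nat_lit 152) (nat_lit 2472714194859) (nat_lit 0) (nat_lit 1453442753191) (nat_lit 1) (nat_lit 5) (nat_lit 3) (nat_lit 4) (nat_lit 1) (nat_lit 4) (nat_lit 411) (nat_lit 310) (nat_lit 179))) (XT.nd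 (nat_lit 39000) (nat_lit 0) (nat_lit 3648) (XT.lf (nat_lit 0) (nat_lit 1619072933095) (nat_lit 152) (nat_lit 2628339874243) (nat_lit 0) (nat_lit 1591076001841) (nat_lit 1) (nat_lit 5) (nat_lit 3) (nat_lit 4) (nat_lit 1) (nat_lit 4) (nat_lit 412) (nat_lit 310) (nat_lit 178)) (XT.lf (nat_lit 0) (nat_lit 370867835) (nat_lit 532) (nat_lit 2313195538) (nat_lit 532) (nat_lit 2313195538) (nat_lit 49) (nat_lit 3) (nat_lit 56) (nat_lit 3) (nat_lit 56) (nat_lit 5) (nat_lit 311) (nat_lit 311) (nat_lit 278))))) (XT.nd (nat_lit 312) (nat_lit 228) (nat_lit 0) (XT.nd (nat_lit 156) (nat_lit 0) (nat_lit 76) (XT.nd (nat_lit 78) (nat_lit 0) (nat_lit 76) (XT.lf (nat_lit 76) (nat_lit 24777316) (nat_lit 0) (nat_lit 1411912375) (nat_lit 532) (nat_lit 8902730044) (nat_lit 50) (nat_lit 5) (nat_lit 49) (nat_lit 3) (nat_lit 56) (nat_lit 5) (nat_lit 312) (nat_lit 311) (nat_lit 277)) (XT.lf (nat_lit 0) (nat_lit 2319119579)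 (nat_lit 456) (nat_lit 5506893328) (nat_lit 532) (nat_lit 2875516213) (nat_lit 50) (nat_lit 5) (nat_lit 56) (nat_lit 5) (nat_lit 57) (nat_lit 5) (nat_lit 313) (nat_lit 311) (nat_lit 276))) (XT.nd (nat_lit 78) (nat_lit 0) (nat_lit 76) (XT.lf (nat_lit 0) (nat_lit 3247055772) (nat_lit 456) (nat_lit 392083770) (nat_lit 532) (nat_lit 7455628169) (nat_lit 50) (nat_lit 5) (nat_lit 56) (nat_lit 5) (nat_lit 57) (nat_lit 5) (nat_lit 314) (nat_lit 311) (nat_lit 275)) (XT.lf (nat_lit 0) (nat_lit 4346047097) (nat_lit 456) (nat_lit 6176611827) (nat_lit 532) (nat_lit 989202894) (nat_lit 51) (nat_lit 5) (nat_lit 57) (nat_lit 5) (nat_lit 58) (nat_lit 5) (nat_lit 315) (nat_lit 311) (nat_lit 274)))) (XT.nd (nat_lit 156) (nat_lit 380) (nat_lit 0) (XT.nd (nat_lit 78) (nat_lit 0) (nat_lit 0) (XT.lf (nat_lit 0) (nat_lit 5585049264) (nat_lit 456) (nat_lit 554944047) (nat_lit 532) (nat_lit 5818294344) (nat_lit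 51) (nat_lit 5) (nat_lit 57) (nat_lit 5) (nat_lit 58) (nat_lit 5) (nat_lit 316) (nat_lit 311) (nat_lit 273)) (XT.lf (nat_lit 76) (nat_lit 5766255587) (nat_lit 0) (nat_lit 1246122119) (nat_lit 532) (nat_lit 5421035147) (nat_lit 52) (nat_lit 5) (nat_lit 51) (nat_lit 5) (nat_lit 58) (nat_lit 5) (nat_lit 317) (nat_lit 311) (nat_lit 272))) (XT.nd (nat_lit 78) (nat_lit 456) (nat_lit 0) (XT.lf (nat_lit 0) (nat_lit 8620107429) (nat_lit 456) (nat_lit 459902983) (nat_lit 76) (nat_lit 3861353216) (nat_lit 52) (nat_lit 5) (nat_lit 58) (nat_lit 5) (nat_lit 53) (nat_lit 5) (nat_lit 318) (nat_lit 311) (nat_lit 271)) (XT.nd (nat_lit 78) (nat_lit 0) (nat_lit 0) (XT.lf (nat_lit 0) (nat_lit 6497969842) (nat_lit 456) (nat_lit 4004076485) (nat_lit 532) (nat_lit 2976361282) (nat_lit 46) (nat_lit 5) (nat_lit 52) (nat_lit 5) (nat_lit 53) (nat_lit 5) (nat_lit 319) (nat_lit 311) (nat_lit 270)) (XT.lf (nat_lit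 0) (nat_lit 12542291049) (nat_lit 532) (nat_lit 95756486) (nat_lit 76) (nat_lit 1419844191) (nat_lit 46) (nat_lit 5) (nat_lit 53) (nat_lit 5) (nat_lit 47) (nat_lit 5) (nat_lit 320) (nat_lit 311) (nat_lit 269))))))) (XT.nd (nat_lit 624) (nat_lit 608) (nat_lit 0) (XT.nd (nat_lit 312) (nat_lit 456) (nat_lit 0) (XT.nd (nat_lit 156) (nat_lit 228) (nat_lit 0) (XT.nd (nat_lit 78) (nat_lit 228) (nat_lit 0) (XT.lf (nat_lit 0) (nat_lit 313829133) (nat_lit 380) (nat_lit 7095232993) (nat_lit 76) (nat_lit 7254243128) (nat_lit 41) (nat_lit 5) (nat_lit 46) (nat_lit 5) (nat_lit 42) (nat_lit 5) (nat_lit 321) (nat_lit 311) (nat_lit 268)) (XT.lf (nat_lit 0) (nat_lit 478924378) (nat_lit 228) (nat_lit 1706221967) (nat_lit 304) (nat_lit 13130739779) (nat_lit 38) (nat_lit 5) (nat_lit 41) (nat_lit 5) (nat_lit 42) (nat_lit 5) (nat_lit 322) (nat_lit 311) (nat_lit 267))) (XT.nd (nat_lit 78) (nat_lit 228) (nat_lit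 0) (XT.lf (nat_lit 0) (nat_lit 4477238490) (nat_lit 304) (nat_lit 7095670840) (nat_lit 76) (nat_lit 4426149629) (nat_lit 38) (nat_lit 5) (nat_lit 42) (nat_lit 5) (nat_lit 39) (nat_lit 5) (nat_lit 323) (nat_lit 311) (nat_lit 266)) (XT.lf (nat_lit 0) (nat_lit 1245002917) (nat_lit 228) (nat_lit 5749495082) (nat_lit 304) (nat_lit 9739109415) (nat_lit 35) (nat_lit 5) (nat_lit 38) (nat_lit 5) (nat_lit 39) (nat_lit 5) (nat_lit 324) (nat_lit 311) (nat_lit 265)))) (XT.nd (nat_lit 156) (nat_lit 304) (nat_lit 0) (XT.nd (nat_lit 78) (nat_lit 152) (nat_lit 0) (XT.lf (nat_lit 0) (nat_lit 9894080445) (nat_lit 304) (nat_lit 6912269168) (nat_lit 76) (nat_lit 706155680) (nat_lit 35) (nat_lit 5) (nat_lit 39) (nat_lit 5) (nat_lit 36) (nat_lit 5) (nat_lit 325) (nat_lit 311) (nat_lit 264)) (XT.lf (nat_lit 0) (nat_lit 2278406351) (nat_lit 152) (nat_lit 10922571921) (nat_lit 228) (nat_lit 5138765238) (nat_lit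 33) (nat_lit 5) (nat_lit 35) (nat_lit 5) (nat_lit 36) (nat_lit 5) (nat_lit 326) (nat_lit 311) (nat_lit 263))) (XT.nd (nat_lit 78) (nat_lit 304) (nat_lit 0) (XT.lf (nat_lit 0) (nat_lit 12561960198) (nat_lit 152) (nat_lit 4371955767) (nat_lit 228) (nat_lit 2286378005) (nat_lit 33) (nat_lit 5) (nat_lit 35) (nat_lit 5) (nat_lit 36) (nat_lit 5) (nat_lit 327) (nat_lit 311) (nat_lit 262)) (XT.lf (nat_lit 0) (nat_lit 883039338) (nat_lit 304) (nat_lit 16607628631) (nat_lit 76) (nat_lit 2668851774) (nat_lit 29) (nat_lit 5) (nat_lit 33) (nat_lit 5) (nat_lit 30) (nat_lit 5) (nat_lit 328) (nat_lit 311) (nat_lit 261))))) (XT.nd (nat_lit 312) (nat_lit 304) (nat_lit 0) (XT.nd (nat_lit 156) (nat_lit 152) (nat_lit 0) (XT.nd (nat_lit 78) (nat_lit 152) (nat_lit 0) (XT.lf (nat_lit 0) (nat_lit 4457581300) (nat_lit 304) (nat_lit 6414645522) (nat_lit 76) (nat_lit 10274939701) (nat_lit 29) (nat_lit 5) (nat_lit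 33) (nat_lit 5) (nat_lit 30) (nat_lit 5) (nat_lit 329) (nat_lit 311) (nat_lit 260)) (XT.lf (nat_lit 0) (nat_lit 4801315828) (nat_lit 152) (nat_lit 3608870795) (nat_lit 228) (nat_lit 13796308812) (nat_lit 27) (nat_lit 5) (nat_lit 29) (nat_lit 5) (nat_lit 30) (nat_lit 5) (nat_lit 330) (nat_lit 311) (nat_lit 259))) (XT.nd (nat_lit 78) (nat_lit 152) (nat_lit 0) (XT.lf (nat_lit 0) (nat_lit 12938176870) (nat_lit 228) (nat_lit 6197016670) (nat_lit 76) (nat_lit 4194678549) (nat_lit 27) (nat_lit 5) (nat_lit 30) (nat_lit 5) (nat_lit 28) (nat_lit 5) (nat_lit 331) (nat_lit 311) (nat_lit 258)) (XT.lf (nat_lit 0) (nat_lit 6087649622) (nat_lit 152) (nat_lit 11959946203) (nat_lit 228) (nat_lit 6478020803) (nat_lit 25) (nat_lit 5) (nat_lit 27) (nat_lit 5) (nat_lit 28) (nat_lit 5) (nat_lit 332) (nat_lit 311) (nat_lit 257)))) (XT.nd (nat_lit 156) (nat_lit 152) (nat_lit 0) (XT.nd (nat_lit 78) (nat_lit 152)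 (nat_lit 0) (XT.lf (nat_lit 0) (nat_lit 19677360718) (nat_lit 152) (nat_lit 4037716418) (nat_lit 228) (nat_lit 2090029364) (nat_lit 25) (nat_lit 5) (nat_lit 27) (nat_lit 5) (nat_lit 28) (nat_lit 5) (nat_lit 333) (nat_lit 311) (nat_lit 256)) (XT.lf (nat_lit 0) (nat_lit 2791179504) (nat_lit 152) (nat_lit 19836661433) (nat_lit 76) (nat_lit 4532068718) (nat_lit 23) (nat_lit 5) (nat_lit 25) (nat_lit 5) (nat_lit 24) (nat_lit 5) (nat_lit 334) (nat_lit 311) (nat_lit 255))) (XT.nd (nat_lit 78) (nat_lit 152) (nat_lit 0) (XT.lf (nat_lit 0) (nat_lit 8208095176) (nat_lit 152) (nat_lit 6603882021) (nat_lit 76) (nat_lit 13786151061) (nat_lit 23) (nat_lit 5) (nat_lit 25) (nat_lit 5) (nat_lit 24) (nat_lit 5) (nat_lit 335) (nat_lit 311) (nat_lit 254)) (XT.nd (nat_lit 78) (nat_lit 0) (nat_lit 0) (XT.lf (nat_lit 0) (nat_lit 8063590895) (nat_lit 152) (nat_lit 6171438882) (nat_lit 228) (nat_lit 15902263721)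 (nat_lit 21) (nat_lit 5) (nat_lit 23) (nat_lit 5) (nat_lit 24) (nat_lit 5) (nat_lit 336) (nat_lit 311) (nat_lit 253)) (XT.lf (nat_lit 0) (nat_lit 20988511977) (nat_lit 228) (nat_lit 7613534680) (nat_lit 76) (nat_lit 3178014613) (nat_lit 21) (nat_lit 5) (nat_lit 24) (nat_lit 5) (nat_lit 22) (nat_lit 4) (nat_lit 337) (nat_lit 311) (nat_lit 252))))))))
noncomputable def xc131 : XT := (XT.nd (nat_lit 1326) (nat_lit 456) (nat_lit 0) (XT.nd (nat_lit 624) (nat_lit 304) (nat_lit 0) (XT.nd (nat_lit 312) (nat_lit 228) (nat_lit 0) (XT.nd (nat_lit 156) (nat_lit 152) (nat_lit 0) (XT.nd (nat_lit 78) (nat_lit 76) (nat_lit 0) (XT.lf (nat_lit 0) (nat_lit 8229136027) (nat_lit 76) (nat_lit 20395728797) (nat_lit 152) (nat_lit 4901997479) (nat_lit 20) (nat_lit 5) (nat_lit 21) (nat_lit 5) (nat_lit 22) (nat_lit 4) (nat_lit 338) (nat_lit 311) (nat_lit 251)) (XT.lf (nat_lit 0) (nat_lit 1583852950) (nat_lit 152)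 (nat_lit 9690883780) (nat_lit 76) (nat_lit 24120032140) (nat_lit 19) (nat_lit 5) (nat_lit 21) (nat_lit 5) (nat_lit 20) (nat_lit 5) (nat_lit 339) (nat_lit 311) (nat_lit 250))) (XT.nd (nat_lit 78) (nat_lit 0) (nat_lit 0) (XT.lf (nat_lit 0) (nat_lit 7382551976) (nat_lit 152) (nat_lit 1104411653) (nat_lit 228) (nat_lit 28901915418) (nat_lit 17) (nat_lit 5) (nat_lit 19) (nat_lit 5) (nat_lit 20) (nat_lit 5) (nat_lit 340) (nat_lit 311) (nat_lit 249)) (XT.lf (nat_lit 0) (nat_lit 16437722652) (nat_lit 228) (nat_lit 13417034519) (nat_lit 76) (nat_lit 9648143023) (nat_lit 17) (nat_lit 5) (nat_lit 20) (nat_lit 5) (nat_lit 18) (nat_lit 4) (nat_lit 341) (nat_lit 311) (nat_lit 248)))) (XT.nd (nat_lit 156) (nat_lit 152) (nat_lit 0) (XT.nd (nat_lit 78) (nat_lit 0) (nat_lit 0) (XT.lf (nat_lit 0) (nat_lit 4682528432) (nat_lit 76) (nat_lit 20470303940) (nat_lit 152) (nat_lit 16622960534) (nat_lit 16) (nat_lit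 5) (nat_lit 17) (nat_lit 5) (nat_lit 18) (nat_lit 4) (nat_lit 342) (nat_lit 311) (nat_lit 247)) (XT.lf (nat_lit 0) (nat_lit 24971236787) (nat_lit 76) (nat_lit 9948186703) (nat_lit 152) (nat_lit 9282763837) (nat_lit 16) (nat_lit 5) (nat_lit 17) (nat_lit 5) (nat_lit 18) (nat_lit 4) (nat_lit 343) (nat_lit 311) (nat_lit 246))) (XT.nd (nat_lit 78) (nat_lit 76) (nat_lit 0) (XT.lf (nat_lit 0) (nat_lit 5606443) (nat_lit 76) (nat_lit 45484069578) (nat_lit 76) (nat_lit 1331241757) (nat_lit 15) (nat_lit 4) (nat_lit 16) (nat_lit 5) (nat_lit 16) (nat_lit 4) (nat_lit 344) (nat_lit 311) (nat_lit 245)) (XT.lf (nat_lit 0) (nat_lit 7679497623) (nat_lit 152) (nat_lit 28199954565) (nat_lit 76) (nat_lit 13692855540) (nat_lit 14) (nat_lit 5) (nat_lit 16) (nat_lit 5) (nat_lit 15) (nat_lit 4) (nat_lit 345) (nat_lit 311) (nat_lit 244))))) (XT.nd (nat_lit 312) (nat_lit 152) (nat_lit 0) (XT.nd (nat_lit 156) (nat_lit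 76) (nat_lit 0) (XT.nd (nat_lit 78) (nat_lit 76) (nat_lit 0) (XT.lf (nat_lit 0) (nat_lit 17328276439) (nat_lit 152) (nat_lit 8149459260) (nat_lit 76) (nat_lit 27064187702) (nat_lit 14) (nat_lit 5) (nat_lit 16) (nat_lit 5) (nat_lit 15) (nat_lit 4) (nat_lit 346) (nat_lit 311) (nat_lit 243)) (XT.lf (nat_lit 0) (nat_lit 14197210703) (nat_lit 76) (nat_lit 13883099297) (nat_lit 152) (nat_lit 27642298368) (nat_lit 13) (nat_lit 5) (nat_lit 14) (nat_lit 5) (nat_lit 15) (nat_lit 4) (nat_lit 347) (nat_lit 311) (nat_lit 242))) (XT.nd (nat_lit 78) (nat_lit 76) (nat_lit 0) (XT.lf (nat_lit 0) (nat_lit 38777471680) (nat_lit 76) (nat_lit 1128088364) (nat_lit 152) (nat_lit 19235151412) (nat_lit 13) (nat_lit 5) (nat_lit 14) (nat_lit 5) (nat_lit 15) (nat_lit 4) (nat_lit 348) (nat_lit 311) (nat_lit 241)) (XT.lf (nat_lit 0) (nat_lit 2285174991) (nat_lit 76) (nat_lit 50741564012) (nat_lit 76) (nat_lit 9777538135)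 (nat_lit 12) (nat_lit 4) (nat_lit 13) (nat_lit 5) (nat_lit 13) (nat_lit 4) (nat_lit 349) (nat_lit 311) (nat_lit 240)))) (XT.nd (nat_lit 156) (nat_lit 76) (nat_lit 0) (XT.nd (nat_lit 78) (nat_lit 0) (nat_lit 0) (XT.lf (nat_lit 0) (nat_lit 1006200401) (nat_lit 152) (nat_lit 38884036051) (nat_lit 76) (nat_lit 26822548623) (nat_lit 11) (nat_lit 5) (nat_lit 13) (nat_lit 5) (nat_lit 12) (nat_lit 4) (nat_lit 350) (nat_lit 311) (nat_lit 239)) (XT.lf (nat_lit 0) (nat_lit 12115907526) (nat_lit 152) (nat_lit 15787796165) (nat_lit 76) (nat_lit 43010637758) (nat_lit 11) (nat_lit 5) (nat_lit 13) (nat_lit 5) (nat_lit 12) (nat_lit 4) (nat_lit 351) (nat_lit 311) (nat_lit 238))) (XT.nd (nat_lit 78) (nat_lit 0) (nat_lit 0) (XT.lf (nat_lit 0) (nat_lit 9623016398) (nat_lit 76) (nat_lit 14714947976) (nat_lit 152) (nat_lit 51096177298) (nat_lit 10) (nat_lit 5) (nat_lit 11) (nat_lit 5) (nat_lit 12) (nat_lit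 4) (nat_lit 352) (nat_lit 311) (nat_lit 237)) (XT.nd (nat_lit 78) (nat_lit 0) (nat_lit 0) (XT.lf (nat_lit 0) (nat_lit 37950418469) (nat_lit 76) (nat_lit 11415170) (nat_lit 152) (nat_lit 42319773249) (nat_lit 10) (nat_lit 5) (nat_lit 11) (nat_lit 5) (nat_lit 12) (nat_lit 4) (nat_lit 353) (nat_lit 311) (nat_lit 236)) (XT.lf (nat_lit 0) (nat_lit 53050048468) (nat_lit 152) (nat_lit 17368009489) (nat_lit 0) (nat_lit 15068860933) (nat_lit 10) (nat_lit 5) (nat_lit 12) (nat_lit 4) (nat_lit 10) (nat_lit 4) (nat_lit 354) (nat_lit 311) (nat_lit 235))))))) (XT.nd (nat_lit 702) (nat_lit 152) (nat_lit 0) (XT.nd (nat_lit 312) (nat_lit 152) (nat_lit 0) (XT.nd (nat_lit 156) (nat_lit 76) (nat_lit 0) (XT.nd (nat_lit 78) (nat_lit 0) (nat_lit 0) (XT.lf (nat_lit 0) (nat_lit 10083845900) (nat_lit 76) (nat_lit 59497621721) (nat_lit 76) (nat_lit 21508300580) (nat_lit 9) (nat_lit 4) (nat_lit 10) (nat_lit 5) (nat_lit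 10) (nat_lit 4) (nat_lit 355) (nat_lit 311) (nat_lit 234)) (XT.lf (nat_lit 0) (nat_lit 40707384505) (nat_lit 76) (nat_lit 47196422254) (nat_lit 76) (nat_lit 9199569997) (nat_lit 9) (nat_lit 4) (nat_lit 10) (nat_lit 5) (nat_lit 10) (nat_lit 4) (nat_lit 356) (nat_lit 311) (nat_lit 233))) (XT.nd (nat_lit 78) (nat_lit 0) (nat_lit 0) (XT.lf (nat_lit 0) (nat_lit 3882922002) (nat_lit 152) (nat_lit 29927347747) (nat_lit 76) (nat_lit 69780422575) (nat_lit 8) (nat_lit 5) (nat_lit 10) (nat_lit 5) (nat_lit 9) (nat_lit 4) (nat_lit 357) (nat_lit 311) (nat_lit 232)) (XT.lf (nat_lit 0) (nat_lit 17509307243) (nat_lit 152) (nat_lit 1590923163) (nat_lit 76) (nat_lit 91478105001) (nat_lit 8) (nat_lit 5) (nat_lit 10) (nat_lit 5) (nat_lit 9) (nat_lit 4) (nat_lit 358) (nat_lit 311) (nat_lit 231)))) (XT.nd (nat_lit 156) (nat_lit 76) (nat_lit 0) (XT.nd (nat_lit 78) (nat_lit 0) (nat_lit 0) (XT.lf (nat_lit 0) (nat_lit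 30529668600) (nat_lit 76) (nat_lit 2425105088) (nat_lit 152) (nat_lit 85111901422) (nat_lit 7) (nat_lit 5) (nat_lit 8) (nat_lit 5) (nat_lit 9) (nat_lit 4) (nat_lit 359) (nat_lit 311) (nat_lit 230)) (XT.lf (nat_lit 0) (nat_lit 50050079445) (nat_lit 152) (nat_lit 61226156451) (nat_lit 0) (nat_lit 14844712530) (nat_lit 7) (nat_lit 5) (nat_lit 9) (nat_lit 4) (nat_lit 7) (nat_lit 4) (nat_lit 360) (nat_lit 311) (nat_lit 229))) (XT.nd (nat_lit 78) (nat_lit 76) (nat_lit 0) (XT.lf (nat_lit 0) (nat_lit 68571163478) (nat_lit 152) (nat_lit 32882699546) (nat_lit 0) (nat_lit 33361050683) (nat_lit 7) (nat_lit 5) (nat_lit 9) (nat_lit 4) (nat_lit 7) (nat_lit 4) (nat_lit 361) (nat_lit 311) (nat_lit 228)) (XT.nd (nat_lit 78) (nat_lit 76) (nat_lit 0) (XT.lf (nat_lit 0) (nat_lit 88569456525) (nat_lit 152) (nat_lit 2280350733) (nat_lit 0) (nat_lit 53354949395) (nat_lit 7) (nat_lit 5) (nat_lit 9) (nat_lit 4)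 (nat_lit 7) (nat_lit 4) (nat_lit 362) (nat_lit 311) (nat_lit 227)) (XT.lf (nat_lit 0) (nat_lit 32382122135) (nat_lit 76) (nat_lit 78560135667) (nat_lit 76) (nat_lit 43341559710) (nat_lit 6) (nat_lit 4) (nat_lit 7) (nat_lit 5) (nat_lit 7) (nat_lit 4) (nat_lit 363) (nat_lit 311) (nat_lit 226)))))) (XT.nd (nat_lit 312) (nat_lit 76) (nat_lit 0) (XT.nd (nat_lit 156) (nat_lit 76) (nat_lit 0) (XT.nd (nat_lit 78) (nat_lit 0) (nat_lit 0) (XT.lf (nat_lit 0) (nat_lit 69939530890) (nat_lit 76) (nat_lit 65223675881) (nat_lit 76) (nat_lit 30001332492) (nat_lit 6) (nat_lit 4) (nat_lit 7) (nat_lit 5) (nat_lit 7) (nat_lit 4) (nat_lit 364) (nat_lit 311) (nat_lit 225)) (XT.lf (nat_lit 0) (nat_lit 110494358722) (nat_lit 76) (nat_lit 50823745859) (nat_lit 76) (nat_lit 15597914105) (nat_lit 6) (nat_lit 4) (nat_lit 7) (nat_lit 5) (nat_lit 7) (nat_lit 4) (nat_lit 365) (nat_lit 311) (nat_lit 224))) (XT.nd (nat_lit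 78) (nat_lit 76) (nat_lit 0) (XT.lf (nat_lit 0) (nat_lit 154286930539) (nat_lit 76) (nat_lit 35275012680) (nat_lit 76) (nat_lit 45950960) (nat_lit 6) (nat_lit 4) (nat_lit 7) (nat_lit 5) (nat_lit 7) (nat_lit 4) (nat_lit 366) (nat_lit 311) (nat_lit 223)) (XT.lf (nat_lit 0) (nat_lit 15908978129) (nat_lit 152) (nat_lit 2141377920) (nat_lit 76) (nat_lit 185232800092) (nat_lit 5) (nat_lit 5) (nat_lit 7) (nat_lit 5) (nat_lit 6) (nat_lit 4) (nat_lit 367) (nat_lit 311) (nat_lit 222)))) (XT.nd (nat_lit 156) (nat_lit 0) (nat_lit 0) (XT.nd (nat_lit 78) (nat_lit 0) (nat_lit 0) (XT.lf (nat_lit 0) (nat_lit 34022976240) (nat_lit 152) (nat_lit 182560414638) (nat_lit 0) (nat_lit 1398141420) (nat_lit 4) (nat_lit 5) (nat_lit 6) (nat_lit 4) (nat_lit 4) (nat_lit 4) (nat_lit 368) (nat_lit 311) (nat_lit 221)) (XT.lf (nat_lit 0) (nat_lit 54111988927) (nat_lit 152) (nat_lit 158216939258) (nat_lit 0) (nat_lit 21484779985)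 (nat_lit 4) (nat_lit 5) (nat_lit 6) (nat_lit 4) (nat_lit 4) (nat_lit 4) (nat_lit 369) (nat_lit 311) (nat_lit 220))) (XT.nd (nat_lit 78) (nat_lit 0) (nat_lit 0) (XT.lf (nat_lit 0) (nat_lit 75805330488) (nat_lit 152) (nat_lit 131931428823) (nat_lit 0) (nat_lit 43175923286) (nat_lit 4) (nat_lit 5) (nat_lit 6) (nat_lit 4) (nat_lit 4) (nat_lit 4) (nat_lit 370) (nat_lit 311) (nat_lit 219)) (XT.nd (nat_lit 78) (nat_lit 0) (nat_lit 0) (XT.lf (nat_lit 0) (nat_lit 99231554060) (nat_lit 152) (nat_lit 103548117345) (nat_lit 0) (nat_lit 66600111430) (nat_lit 4) (nat_lit 5) (nat_lit 6) (nat_lit 4) (nat_lit 4) (nat_lit 4) (nat_lit 371) (nat_lit 311) (nat_lit 218)) (XT.lf (nat_lit 0) (nat_lit 124529481707) (nat_lit 152) (nat_lit 72898807421) (nat_lit 0) (nat_lit 91896154423) (nat_lit 4) (nat_lit 5) (nat_lit 6) (nat_lit 4) (nat_lit 4) (nat_lit 4) (nat_lit 372) (nat_lit 311) (nat_lit 217))))))))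
noncomputable def xc132 : XT := (XT.nd (nat_lit 1326) (nat_lit 0) (nat_lit 0) (XT.nd (nat_lit 624) (nat_lit 152) (nat_lit 0) (XT.nd (nat_lit 312) (nat_lit 0) (nat_lit 0) (XT.nd (nat_lit 156) (nat_lit 76) (nat_lit 0) (XT.nd (nat_lit 78) (nat_lit 0) (nat_lit 0) (XT.lf (nat_lit 0) (nat_lit 151849027076) (nat_lit 152) (nat_lit 39801873513) (nat_lit 0) (nat_lit 119213954741) (nat_lit 4) (nat_lit 5) (nat_lit 6) (nat_lit 4) (nat_lit 4) (nat_lit 4) (nat_lit 373) (nat_lit 311) (nat_lit 216)) (XT.lf (nat_lit 0) (nat_lit 181352083767) (nat_lit 152) (nat_lit 4061185640) (nat_lit 0) (nat_lit 148715395645) (nat_lit 4) (nat_lit 5) (nat_lit 6) (nat_lit 4) (nat_lit 4) (nat_lit 4) (nat_lit 374) (nat_lit 311) (nat_lit 215))) (XT.nd (nat_lit 78) (nat_lit 0) (nat_lit 0) (XT.lf (nat_lit 0) (nat_lit 36353607547) (nat_lit 76) (nat_lit 177734182299) (nat_lit 76) (nat_lit 145095998077) (nat_lit 3) (nat_lit 4)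 (nat_lit 4) (nat_lit 5) (nat_lit 4) (nat_lit 4) (nat_lit 375) (nat_lit 311) (nat_lit 214)) (XT.lf (nat_lit 0) (nat_lit 80228936801) (nat_lit 76) (nat_lit 169322609265) (nat_lit 76) (nat_lit 136683039766) (nat_lit 3) (nat_lit 4) (nat_lit 4) (nat_lit 5) (nat_lit 4) (nat_lit 4) (nat_lit 376) (nat_lit 311) (nat_lit 213)))) (XT.nd (nat_lit 156) (nat_lit 0) (nat_lit 0) (XT.nd (nat_lit 78) (nat_lit 0) (nat_lit 0) (XT.lf (nat_lit 0) (nat_lit 127610949233) (nat_lit 76) (nat_lit 160239743960) (nat_lit 76) (nat_lit 127598891797) (nat_lit 3) (nat_lit 4) (nat_lit 4) (nat_lit 5) (nat_lit 4) (nat_lit 4) (nat_lit 377) (nat_lit 311) (nat_lit 212)) (XT.lf (nat_lit 0) (nat_lit 178780427140) (nat_lit 76) (nat_lit 150431761997) (nat_lit 76) (nat_lit 117789722183) (nat_lit 3) (nat_lit 4) (nat_lit 4) (nat_lit 5) (nat_lit 4) (nat_lit 4) (nat_lit 378) (nat_lit 311) (nat_lit 211))) (XT.nd (nat_lit 78) (nat_lit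 0) (nat_lit 0) (XT.lf (nat_lit 0) (nat_lit 234040597057) (nat_lit 76) (nat_lit 139840542002) (nat_lit 76) (nat_lit 107197402510) (nat_lit 3) (nat_lit 4) (nat_lit 4) (nat_lit 5) (nat_lit 4) (nat_lit 4) (nat_lit 379) (nat_lit 311) (nat_lit 210)) (XT.lf (nat_lit 0) (nat_lit 293718926658) (nat_lit 76) (nat_lit 128403321189) (nat_lit 76) (nat_lit 95759163477) (nat_lit 3) (nat_lit 4) (nat_lit 4) (nat_lit 5) (nat_lit 4) (nat_lit 4) (nat_lit 380) (nat_lit 311) (nat_lit 209))))) (XT.nd (nat_lit 312) (nat_lit 152) (nat_lit 0) (XT.nd (nat_lit 156) (nat_lit 0) (nat_lit 0) (XT.nd (nat_lit 78) (nat_lit 0) (nat_lit 0) (XT.lf (nat_lit 0) (nat_lit 358169065302) (nat_lit 76) (nat_lit 116052323435) (nat_lit 76) (nat_lit 83407222926) (nat_lit 3) (nat_lit 4) (nat_lit 4) (nat_lit 5) (nat_lit 4) (nat_lit 4) (nat_lit 381) (nat_lit 311) (nat_lit 208)) (XT.lf (nat_lit 0) (nat_lit 427772939739) (nat_lit 76) (nat_lit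 102714357643) (nat_lit 76) (nat_lit 70068384174) (nat_lit 3) (nat_lit 4) (nat_lit 4) (nat_lit 5) (nat_lit 4) (nat_lit 4) (nat_lit 382) (nat_lit 311) (nat_lit 207))) (XT.nd (nat_lit 78) (nat_lit 0) (nat_lit 0) (XT.lf (nat_lit 0) (nat_lit 502943017372) (nat_lit 76) (nat_lit 88310384014) (nat_lit 76) (nat_lit 55663602249) (nat_lit 3) (nat_lit 4) (nat_lit 4) (nat_lit 5) (nat_lit 4) (nat_lit 4) (nat_lit 383) (nat_lit 311) (nat_lit 206)) (XT.lf (nat_lit 0) (nat_lit 584124750512) (nat_lit 76) (nat_lit 72755045668) (nat_lit 76) (nat_lit 40107515481) (nat_lit 3) (nat_lit 4) (nat_lit 4) (nat_lit 5) (nat_lit 4) (nat_lit 4) (nat_lit 384) (nat_lit 311) (nat_lit 205)))) (XT.nd (nat_lit 156) (nat_lit 152) (nat_lit 0) (XT.nd (nat_lit 78) (nat_lit 0) (nat_lit 0) (XT.lf (nat_lit 0) (nat_lit 671799216097) (nat_lit 76) (nat_lit 55956162823) (nat_lit 76) (nat_lit 23307939652) (nat_lit 3) (nat_lit 4) (nat_lit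 4) (nat_lit 5) (nat_lit 4) (nat_lit 4) (nat_lit 385) (nat_lit 311) (nat_lit 204)) (XT.lf (nat_lit 0) (nat_lit 766485966516) (nat_lit 76) (nat_lit 37814186543) (nat_lit 76) (nat_lit 5165321721) (nat_lit 3) (nat_lit 4) (nat_lit 4) (nat_lit 5) (nat_lit 4) (nat_lit 4) (nat_lit 386) (nat_lit 311) (nat_lit 203))) (XT.nd (nat_lit 78) (nat_lit 76) (nat_lit 0) (XT.lf (nat_lit 0) (nat_lit 13706110627) (nat_lit 152) (nat_lit 4140748838) (nat_lit 76) (nat_lit 854665248457) (nat_lit 2) (nat_lit 5) (nat_lit 4) (nat_lit 5) (nat_lit 3) (nat_lit 4) (nat_lit 387) (nat_lit 311) (nat_lit 202)) (XT.nd (nat_lit 78) (nat_lit 0) (nat_lit 0) (XT.lf (nat_lit 0) (nat_lit 34878753297) (nat_lit 152) (nat_lit 900980077530) (nat_lit 0) (nat_lit 4647263430) (nat_lit 1) (nat_lit 5) (nat_lit 3) (nat_lit 4) (nat_lit 1) (nat_lit 4) (nat_lit 388) (nat_lit 311) (nat_lit 201)) (XT.lf (nat_lit 0) (nat_lit 58324169960) (nat_lit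 152) (nat_lit 927476904310) (nat_lit 0) (nat_lit 28092208460) (nat_lit 1) (nat_lit 5) (nat_lit 3) (nat_lit 4) (nat_lit 1) (nat_lit 4) (nat_lit 389) (nat_lit 311) (nat_lit 200))))))) (XT.nd (nat_lit 624) (nat_lit 0) (nat_lit 0) (XT.nd (nat_lit 312) (nat_lit 0) (nat_lit 0) (XT.nd (nat_lit 156) (nat_lit 0) (nat_lit 0) (XT.nd (nat_lit 78) (nat_lit 0) (nat_lit 0) (XT.lf (nat_lit 0) (nat_lit 83644527101) (nat_lit 152) (nat_lit 956094845926) (nat_lit 0) (nat_lit 53412128904) (nat_lit 1) (nat_lit 5) (nat_lit 3) (nat_lit 4) (nat_lit 1) (nat_lit 4) (nat_lit 390) (nat_lit 311) (nat_lit 199)) (XT.lf (nat_lit 0) (nat_lit 110989871281) (nat_lit 152) (nat_lit 987003490180) (nat_lit 0) (nat_lit 80757068735) (nat_lit 1) (nat_lit 5) (nat_lit 3) (nat_lit 4) (nat_lit 1) (nat_lit 4) (nat_lit 391) (nat_lit 311) (nat_lit 198))) (XT.nd (nat_lit 78) (nat_lit 0) (nat_lit 0) (XT.lf (nat_lit 0) (nat_lit 140522248984)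 (nat_lit 152) (nat_lit 1020385999407) (nat_lit 0) (nat_lit 110289072040) (nat_lit 1) (nat_lit 5) (nat_lit 3) (nat_lit 4) (nat_lit 1) (nat_lit 4) (nat_lit 392) (nat_lit 311) (nat_lit 197)) (XT.lf (nat_lit 0) (nat_lit 172416666893) (nat_lit 152) (nat_lit 1056440195884) (nat_lit 0) (nat_lit 142183143285) (nat_lit 1) (nat_lit 5) (nat_lit 3) (nat_lit 4) (nat_lit 1) (nat_lit 4) (nat_lit 393) (nat_lit 311) (nat_lit 196)))) (XT.nd (nat_lit 156) (nat_lit 0) (nat_lit 0) (XT.nd (nat_lit 78) (nat_lit 0) (nat_lit 0) (XT.lf (nat_lit 0) (nat_lit 206862128966) (nat_lit 152) (nat_lit 1095379734110) (nat_lit 0) (nat_lit 176628284373) (nat_lit 1) (nat_lit 5) (nat_lit 3) (nat_lit 4) (nat_lit 1) (nat_lit 4) (nat_lit 394) (nat_lit 311) (nat_lit 195)) (XT.lf (nat_lit 0) (nat_lit 244062756459) (nat_lit 152) (nat_lit 1137435366904) (nat_lit 0) (nat_lit 213828614657) (nat_lit 1) (nat_lit 5) (nat_lit 3) (nat_lit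 4) (nat_lit 1) (nat_lit 4) (nat_lit 395) (nat_lit 311) (nat_lit 194))) (XT.nd (nat_lit 78) (nat_lit 0) (nat_lit 0) (XT.lf (nat_lit 0) (nat_lit 284238997536) (nat_lit 152) (nat_lit 1182856312830) (nat_lit 0) (nat_lit 254004580540) (nat_lit 1) (nat_lit 5) (nat_lit 3) (nat_lit 4) (nat_lit 1) (nat_lit 4) (nat_lit 396) (nat_lit 311) (nat_lit 193)) (XT.lf (nat_lit 0) (nat_lit 327628933625) (nat_lit 152) (nat_lit 1231911733048) (nat_lit 0) (nat_lit 297394261821) (nat_lit 1) (nat_lit 5) (nat_lit 3) (nat_lit 4) (nat_lit 1) (nat_lit 4) (nat_lit 397) (nat_lit 311) (nat_lit 192))))) (XT.nd (nat_lit 312) (nat_lit 0) (nat_lit 0) (XT.nd (nat_lit 156) (nat_lit 0) (nat_lit 0) (XT.nd (nat_lit 78) (nat_lit 0) (nat_lit 0) (XT.lf (nat_lit 0) (nat_lit 374489690273) (nat_lit 152) (nat_lit 1284892326347) (nat_lit 0) (nat_lit 344254782535) (nat_lit 1) (nat_lit 5) (nat_lit 3) (nat_lit 4) (nat_lit 1) (nat_lit 4)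 (nat_lit 398) (nat_lit 311) (nat_lit 191)) (XT.lf (nat_lit 0) (nat_lit 425098960852) (nat_lit 152) (nat_lit 1342112051796) (nat_lit 0) (nat_lit 394863834657) (nat_lit 1) (nat_lit 5) (nat_lit 3) (nat_lit 4) (nat_lit 1) (nat_lit 4) (nat_lit 399) (nat_lit 311) (nat_lit 190))) (XT.nd (nat_lit 78) (nat_lit 0) (nat_lit 0) (XT.lf (nat_lit 0) (nat_lit 479756652153) (nat_lit 152) (nat_lit 1403909989251) (nat_lit 0) (nat_lit 449521323682) (nat_lit 1) (nat_lit 5) (nat_lit 3) (nat_lit 4) (nat_lit 1) (nat_lit 4) (nat_lit 400) (nat_lit 311) (nat_lit 189)) (XT.lf (nat_lit 0) (nat_lit 538786661604) (nat_lit 152) (nat_lit 1470652348712) (nat_lit 0) (nat_lit 508551145841) (nat_lit 1) (nat_lit 5) (nat_lit 3) (nat_lit 4) (nat_lit 1) (nat_lit 4) (nat_lit 401) (nat_lit 311) (nat_lit 188)))) (XT.nd (nat_lit 156) (nat_lit 0) (nat_lit 0) (XT.nd (nat_lit 78) (nat_lit 0) (nat_lit 0) (XT.lf (nat_lit 0) (nat_lit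 602538796668) (nat_lit 152) (nat_lit 1542734640456) (nat_lit 0) (nat_lit 572303107487) (nat_lit 1) (nat_lit 5) (nat_lit 3) (nat_lit 4) (nat_lit 1) (nat_lit 4) (nat_lit 402) (nat_lit 311) (nat_lit 187)) (XT.lf (nat_lit 0) (nat_lit 671390847777) (nat_lit 152) (nat_lit 1620584018805) (nat_lit 0) (nat_lit 641154998023) (nat_lit 1) (nat_lit 5) (nat_lit 3) (nat_lit 4) (nat_lit 1) (nat_lit 4) (nat_lit 403) (nat_lit 311) (nat_lit 186))) (XT.nd (nat_lit 78) (nat_lit 0) (nat_lit 0) (XT.lf (nat_lit 0) (nat_lit 745750827084) (nat_lit 152) (nat_lit 1704661813408) (nat_lit 0) (nat_lit 715514828652) (nat_lit 1) (nat_lit 5) (nat_lit 3) (nat_lit 4) (nat_lit 1) (nat_lit 4) (nat_lit 404) (nat_lit 311) (nat_lit 185)) (XT.nd (nat_lit 78) (nat_lit 0) (nat_lit 0) (XT.lf (nat_lit 0) (nat_lit 826059386319) (nat_lit 152) (nat_lit 1795466263049) (nat_lit 0) (nat_lit 795823250222) (nat_lit 1) (nat_lit 5) (nat_lit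 3) (nat_lit 4) (nat_lit 1) (nat_lit 4) (nat_lit 405) (nat_lit 311) (nat_lit 184)) (XT.lf (nat_lit 0) (nat_lit 912792428056) (nat_lit 152) (nat_lit 1893535468169) (nat_lit 0) (nat_lit 882556164491) (nat_lit 1) (nat_lit 5) (nat_lit 3) (nat_lit 4) (nat_lit 1) (nat_lit 4) (nat_lit 406) (nat_lit 311) (nat_lit 183))))))))
noncomputable def xc133 : XT := (XT.nd (nat_lit 40326) (nat_lit 0) (nat_lit 1444) (XT.nd (nat_lit 39624) (nat_lit 0) (nat_lit 3040) (XT.nd (nat_lit 312) (nat_lit 0) (nat_lit 0) (XT.nd (nat_lit 156) (nat_lit 0) (nat_lit 0) (XT.nd (nat_lit 78) (nat_lit 0) (nat_lit 0) (XT.lf (nat_lit 0) (nat_lit 1006463925874) (nat_lit 152) (nat_lit 1999450579615) (nat_lit 0) (nat_lit 976227544283) (nat_lit 1) (nat_lit 5) (nat_lit 3) (nat_lit 4) (nat_lit 1) (nat_lit 4) (nat_lit 407) (nat_lit 311) (nat_lit 182)) (XT.lf (nat_lit 0) (nat_lit 1107628970131) (nat_lit 152) (nat_lit 2113839242489) (nat_lit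 0) (nat_lit 1077392479257) (nat_lit 1) (nat_lit 5) (nat_lit 3) (nat_lit 4) (nat_lit 1) (nat_lit 4) (nat_lit 408) (nat_lit 311) (nat_lit 181))) (XT.nd (nat_lit 78) (nat_lit 0) (nat_lit 0) (XT.lf (nat_lit 0) (nat_lit 1216887057386) (nat_lit 152) (nat_lit 2237379315537) (nat_lit 0) (nat_lit 1186650465324) (nat_lit 1) (nat_lit 5) (nat_lit 3) (nat_lit 4) (nat_lit 1) (nat_lit 4) (nat_lit 409) (nat_lit 311) (nat_lit 180)) (XT.lf (nat_lit 0) (nat_lit 1334885642970) (nat_lit 152) (nat_lit 2370802888079) (nat_lit 0) (nat_lit 1304648957216) (nat_lit 1) (nat_lit 5) (nat_lit 3) (nat_lit 4) (nat_lit 1) (nat_lit 4) (nat_lit 410) (nat_lit 311) (nat_lit 179)))) (XT.nd (nat_lit 39156) (nat_lit 0) (nat_lit 3648) (XT.nd (nat_lit 78) (nat_lit 0) (nat_lit 0) (XT.lf (nat_lit 0) (nat_lit 1462323977762) (nat_lit 152) (nat_lit 2514900618323) (nat_lit 0) (nat_lit 1432087205255) (nat_lit 1) (nat_lit 5) (nat_lit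 3) (nat_lit 4) (nat_lit 1) (nat_lit 4) (nat_lit 411) (nat_lit 311) (nat_lit 178)) (XT.lf (nat_lit 0) (nat_lit 1599957251893) (nat_lit 152) (nat_lit 2670526418745) (nat_lit 0) (nat_lit 1569720399060) (nat_lit 1) (nat_lit 5) (nat_lit 3) (nat_lit 4) (nat_lit 1) (nat_lit 4) (nat_lit 412) (nat_lit 311) (nat_lit 177))) (XT.nd (nat_lit 78) (nat_lit 0) (nat_lit 0) (XT.lf (nat_lit 0) (nat_lit 1049240182) (nat_lit 532) (nat_lit 2147143501) (nat_lit 532) (nat_lit 2147143501) (nat_lit 49) (nat_lit 3) (nat_lit 56) (nat_lit 3) (nat_lit 56) (nat_lit 5) (nat_lit 312) (nat_lit 312) (nat_lit 276)) (XT.lf (nat_lit 76) (nat_lit 711197256) (nat_lit 0) (nat_lit 2058190057) (nat_lit 532) (nat_lit 8296772031) (nat_lit 50) (nat_lit 5) (nat_lit 49) (nat_lit 3) (nat_lit 56) (nat_lit 5) (nat_lit 313) (nat_lit 312) (nat_lit 275))))) (XT.nd (nat_lit 312) (nat_lit 684) (nat_lit 0) (XT.nd (nat_lit 156) (nat_lit 0) (nat_lit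 76) (XT.nd (nat_lit 78) (nat_lit 0) (nat_lit 0) (XT.lf (nat_lit 0) (nat_lit 3620330604) (nat_lit 456) (nat_lit 5208853872) (nat_lit 532) (nat_lit 2636441185) (nat_lit 50) (nat_lit 5) (nat_lit 56) (nat_lit 5) (nat_lit 57) (nat_lit 5) (nat_lit 314) (nat_lit 312) (nat_lit 274)) (XT.lf (nat_lit 76) (nat_lit 274143794) (nat_lit 0) (nat_lit 4272307992) (nat_lit 532) (nat_lit 7350160826) (nat_lit 51) (nat_lit 5) (nat_lit 50) (nat_lit 5) (nat_lit 57) (nat_lit 5) (nat_lit 315) (nat_lit 312) (nat_lit 273))) (XT.nd (nat_lit 78) (nat_lit 0) (nat_lit 0) (XT.lf (nat_lit 0) (nat_lit 5658919995) (nat_lit 456) (nat_lit 5916635113) (nat_lit 532) (nat_lit 777664606) (nat_lit 51) (nat_lit 5) (nat_lit 57) (nat_lit 5) (nat_lit 58) (nat_lit 5) (nat_lit 316) (nat_lit 312) (nat_lit 272)) (XT.lf (nat_lit 76) (nat_lit 104114646) (nat_lit 0) (nat_lit 6823936158) (nat_lit 532) (nat_lit 5913004131) (nat_lit 52) (nat_lit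 5) (nat_lit 51) (nat_lit 5) (nat_lit 58) (nat_lit 5) (nat_lit 317) (nat_lit 312) (nat_lit 271)))) (XT.nd (nat_lit 156) (nat_lit 380) (nat_lit 0) (XT.nd (nat_lit 78) (nat_lit 380) (nat_lit 0) (XT.lf (nat_lit 76) (nat_lit 6908124903) (nat_lit 0) (nat_lit 1509104828) (nat_lit 532) (nat_lit 4941310238) (nat_lit 52) (nat_lit 5) (nat_lit 51) (nat_lit 5) (nat_lit 58) (nat_lit 5) (nat_lit 318) (nat_lit 312) (nat_lit 270)) (XT.lf (nat_lit 0) (nat_lit 212101997) (nat_lit 456) (nat_lit 9880432314) (nat_lit 532) (nat_lit 3819626862) (nat_lit 46) (nat_lit 5) (nat_lit 52) (nat_lit 5) (nat_lit 53) (nat_lit 5) (nat_lit 319) (nat_lit 312) (nat_lit 269))) (XT.nd (nat_lit 78) (nat_lit 380) (nat_lit 0) (XT.lf (nat_lit 0) (nat_lit 7698318827) (nat_lit 456) (nat_lit 4380366068) (nat_lit 532) (nat_lit 2417330961) (nat_lit 46) (nat_lit 5) (nat_lit 52) (nat_lit 5) (nat_lit 53) (nat_lit 5) (nat_lit 320) (nat_lit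 312) (nat_lit 268)) (XT.nd (nat_lit 78) (nat_lit 76) (nat_lit 0) (XT.lf (nat_lit 0) (nat_lit 614860902) (nat_lit 304) (nat_lit 13626275793) (nat_lit 380) (nat_lit 884132368) (nat_lit 42) (nat_lit 5) (nat_lit 46) (nat_lit 5) (nat_lit 47) (nat_lit 5) (nat_lit 321) (nat_lit 312) (nat_lit 267)) (XT.lf (nat_lit 0) (nat_lit 1003517500) (nat_lit 380) (nat_lit 6956355091) (nat_lit 76) (nat_lit 7821944196) (nat_lit 41) (nat_lit 5) (nat_lit 46) (nat_lit 5) (nat_lit 42) (nat_lit 5) (nat_lit 322) (nat_lit 312) (nat_lit 266))))))) (XT.nd (nat_lit 624) (nat_lit 684) (nat_lit 0) (XT.nd (nat_lit 312) (nat_lit 456) (nat_lit 0) (XT.nd (nat_lit 156) (nat_lit 228) (nat_lit 0) (XT.nd (nat_lit 78) (nat_lit 0) (nat_lit 0) (XT.lf (nat_lit 0) (nat_lit 1205848882) (nat_lit 228) (nat_lit 1786024008) (nat_lit 304) (nat_lit 13497447302) (nat_lit 38) (nat_lit 5) (nat_lit 41) (nat_lit 5) (nat_lit 42) (nat_lit 5) (nat_lit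 323) (nat_lit 312) (nat_lit 265)) (XT.lf (nat_lit 0) (nat_lit 5421786430) (nat_lit 304) (nat_lit 6978987616) (nat_lit 76) (nat_lit 4830111569) (nat_lit 38) (nat_lit 5) (nat_lit 42) (nat_lit 5) (nat_lit 39) (nat_lit 5) (nat_lit 324) (nat_lit 312) (nat_lit 264))) (XT.nd (nat_lit 78) (nat_lit 0) (nat_lit 0) (XT.lf (nat_lit 0) (nat_lit 2011615058) (nat_lit 228) (nat_lit 6101418566) (nat_lit 304) (nat_lit 9913443811) (nat_lit 35) (nat_lit 5) (nat_lit 38) (nat_lit 5) (nat_lit 39) (nat_lit 5) (nat_lit 325) (nat_lit 312) (nat_lit 263)) (XT.lf (nat_lit 0) (nat_lit 11205582858) (nat_lit 304) (nat_lit 6807628286) (nat_lit 76) (nat_lit 857677504) (nat_lit 35) (nat_lit 5) (nat_lit 39) (nat_lit 5) (nat_lit 36) (nat_lit 5) (nat_lit 326) (nat_lit 312) (nat_lit 262)))) (XT.nd (nat_lit 156) (nat_lit 304) (nat_lit 0) (XT.nd (nat_lit 78) (nat_lit 0) (nat_lit 0) (XT.lf (nat_lit 0) (nat_lit 3101652606) (nat_lit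 152) (nat_lit 11652278600) (nat_lit 228) (nat_lit 5012298301) (nat_lit 33) (nat_lit 5) (nat_lit 35) (nat_lit 5) (nat_lit 36) (nat_lit 5) (nat_lit 327) (nat_lit 312) (nat_lit 261)) (XT.lf (nat_lit 0) (nat_lit 14160411223) (nat_lit 152) (nat_lit 4588287159) (nat_lit 228) (nat_lit 1971539954) (nat_lit 33) (nat_lit 5) (nat_lit 35) (nat_lit 5) (nat_lit 36) (nat_lit 5) (nat_lit 328) (nat_lit 312) (nat_lit 260))) (XT.nd (nat_lit 78) (nat_lit 0) (nat_lit 0) (XT.lf (nat_lit 0) (nat_lit 1409656463) (nat_lit 304) (nat_lit 17299412501) (nat_lit 76) (nat_lit 3025985452) (nat_lit 29) (nat_lit 5) (nat_lit 33) (nat_lit 5) (nat_lit 30) (nat_lit 5) (nat_lit 329) (nat_lit 312) (nat_lit 259)) (XT.lf (nat_lit 0) (nat_lit 5236385932) (nat_lit 304) (nat_lit 6338163070) (nat_lit 76) (nat_lit 11229921484) (nat_lit 29) (nat_lit 5) (nat_lit 33) (nat_lit 5) (nat_lit 30) (nat_lit 5) (nat_lit 330) (nat_lit 312) (nat_lit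 258))))) (XT.nd (nat_lit 312) (nat_lit 380) (nat_lit 0) (XT.nd (nat_lit 156) (nat_lit 152) (nat_lit 0) (XT.nd (nat_lit 78) (nat_lit 0) (nat_lit 0) (XT.lf (nat_lit 0) (nat_lit 5760147236) (nat_lit 152) (nat_lit 3727600687) (nat_lit 228) (nat_lit 14462245301) (nat_lit 27) (nat_lit 5) (nat_lit 29) (nat_lit 5) (nat_lit 30) (nat_lit 5) (nat_lit 331) (nat_lit 312) (nat_lit 257)) (XT.lf (nat_lit 0) (nat_lit 14351781378) (nat_lit 228) (nat_lit 6133833587) (nat_lit 76) (nat_lit 4679768291) (nat_lit 27) (nat_lit 5) (nat_lit 30) (nat_lit 5) (nat_lit 28) (nat_lit 5) (nat_lit 332) (nat_lit 312) (nat_lit 256))) (XT.nd (nat_lit 78) (nat_lit 0) (nat_lit 0) (XT.lf (nat_lit 0) (nat_lit 7119455518) (nat_lit 152) (nat_lit 12735559872) (nat_lit 228) (nat_lit 6603011088) (nat_lit 25) (nat_lit 5) (nat_lit 27) (nat_lit 5) (nat_lit 28) (nat_lit 5) (nat_lit 333) (nat_lit 312) (nat_lit 255)) (XT.lf (nat_lit 0)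 (nat_lit 21755988396) (nat_lit 152) (nat_lit 4192972595) (nat_lit 228) (nat_lit 1893110066) (nat_lit 25) (nat_lit 5) (nat_lit 27) (nat_lit 5) (nat_lit 28) (nat_lit 5) (nat_lit 334) (nat_lit 312) (nat_lit 254)))) (XT.nd (nat_lit 156) (nat_lit 228) (nat_lit 0) (XT.nd (nat_lit 78) (nat_lit 0) (nat_lit 0) (XT.lf (nat_lit 0) (nat_lit 3351285535) (nat_lit 152) (nat_lit 20890936533) (nat_lit 76) (nat_lit 5063098397) (nat_lit 23) (nat_lit 5) (nat_lit 25) (nat_lit 5) (nat_lit 24) (nat_lit 5) (nat_lit 335) (nat_lit 312) (nat_lit 253)) (XT.lf (nat_lit 0) (nat_lit 9176605449) (nat_lit 152) (nat_lit 6638990902) (nat_lit 76) (nat_lit 15045028500) (nat_lit 23) (nat_lit 5) (nat_lit 25) (nat_lit 5) (nat_lit 24) (nat_lit 5) (nat_lit 336) (nat_lit 312) (nat_lit 252))) (XT.nd (nat_lit 78) (nat_lit 76) (nat_lit 0) (XT.lf (nat_lit 0) (nat_lit 9189393728) (nat_lit 152) (nat_lit 6484761372) (nat_lit 228) (nat_lit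 16849721361) (nat_lit 21) (nat_lit 5) (nat_lit 23) (nat_lit 5) (nat_lit 24) (nat_lit 5) (nat_lit 337) (nat_lit 312) (nat_lit 251)) (XT.nd (nat_lit 78) (nat_lit 76) (nat_lit 0) (XT.lf (nat_lit 0) (nat_lit 22949686813) (nat_lit 228) (nat_lit 7758934462) (nat_lit 76) (nat_lit 3590930459) (nat_lit 21) (nat_lit 5) (nat_lit 24) (nat_lit 5) (nat_lit 22) (nat_lit 4) (nat_lit 338) (nat_lit 312) (nat_lit 250)) (XT.lf (nat_lit 0) (nat_lit 9339411092) (nat_lit 76) (nat_lit 21847510223) (nat_lit 152) (nat_lit 5000003361) (nat_lit 20) (nat_lit 5) (nat_lit 21) (nat_lit 5) (nat_lit 22) (nat_lit 4) (nat_lit 339) (nat_lit 312) (nat_lit 249))))))))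
noncomputable def xc134 : XT := (XT.nd (nat_lit 1326) (nat_lit 380) (nat_lit 0) (XT.nd (nat_lit 624) (nat_lit 380) (nat_lit 0) (XT.nd (nat_lit 312) (nat_lit 152) (nat_lit 0) (XT.nd (nat_lit 156) (nat_lit 76) (nat_lit 0) (XT.nd (nat_lit 78) (nat_lit 152) (nat_lit 0) (XT.lf (nat_lit 0) (nat_lit 1969301137) (nat_lit 152) (nat_lit 10033787458) (nat_lit 76) (nat_lit 26202287187) (nat_lit 19) (nat_lit 5) (nat_lit 21) (nat_lit 5) (nat_lit 20) (nat_lit 5) (nat_lit 340) (nat_lit 312) (nat_lit 248)) (XT.lf (nat_lit 0) (nat_lit 8394577158) (nat_lit 152) (nat_lit 1021052775) (nat_lit 228) (nat_lit 30944127699) (nat_lit 17) (nat_lit 5) (nat_lit 19) (nat_lit 5) (nat_lit 20) (nat_lit 5) (nat_lit 341) (nat_lit 312) (nat_lit 247))) (XT.nd (nat_lit 78) (nat_lit 76) (nat_lit 0) (XT.lf (nat_lit 0) (nat_lit 17987776471) (nat_lit 228) (nat_lit 14085283309) (nat_lit 76) (nat_lit 10571033436) (nat_lit 17) (nat_lit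 5) (nat_lit 20) (nat_lit 5) (nat_lit 18) (nat_lit 4) (nat_lit 342) (nat_lit 312) (nat_lit 246)) (XT.lf (nat_lit 0) (nat_lit 5451988628) (nat_lit 76) (nat_lit 21940192608) (nat_lit 152) (nat_lit 17707286698) (nat_lit 16) (nat_lit 5) (nat_lit 17) (nat_lit 5) (nat_lit 18) (nat_lit 4) (nat_lit 343) (nat_lit 312) (nat_lit 245)))) (XT.nd (nat_lit 156) (nat_lit 76) (nat_lit 0) (XT.nd (nat_lit 78) (nat_lit 76) (nat_lit 0) (XT.lf (nat_lit 0) (nat_lit 27334544916) (nat_lit 76) (nat_lit 10588730855) (nat_lit 152) (nat_lit 9798060241) (nat_lit 16) (nat_lit 5) (nat_lit 17) (nat_lit 5) (nat_lit 18) (nat_lit 4) (nat_lit 344) (nat_lit 312) (nat_lit 244)) (XT.lf (nat_lit 0) (nat_lit 375362806) (nat_lit 76) (nat_lit 48960548447) (nat_lit 76) (nat_lit 1213927622) (nat_lit 15) (nat_lit 4) (nat_lit 16) (nat_lit 5) (nat_lit 16) (nat_lit 4) (nat_lit 345) (nat_lit 312) (nat_lit 243))) (XT.nd (nat_lit 78) (nat_lit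 0) (nat_lit 0) (XT.lf (nat_lit 0) (nat_lit 8490725414) (nat_lit 152) (nat_lit 30103471807) (nat_lit 76) (nat_lit 14927984994) (nat_lit 14) (nat_lit 5) (nat_lit 16) (nat_lit 5) (nat_lit 15) (nat_lit 4) (nat_lit 346) (nat_lit 312) (nat_lit 242)) (XT.lf (nat_lit 0) (nat_lit 18896823721) (nat_lit 152) (nat_lit 8475046442) (nat_lit 76) (nat_lit 29358675505) (nat_lit 14) (nat_lit 5) (nat_lit 16) (nat_lit 5) (nat_lit 15) (nat_lit 4) (nat_lit 347) (nat_lit 312) (nat_lit 241))))) (XT.nd (nat_lit 312) (nat_lit 152) (nat_lit 0) (XT.nd (nat_lit 156) (nat_lit 152) (nat_lit 0) (XT.nd (nat_lit 78) (nat_lit 0) (nat_lit 0) (XT.lf (nat_lit 0) (nat_lit 15651094597) (nat_lit 76) (nat_lit 14852073246) (nat_lit 152) (nat_lit 29662996781) (nat_lit 13) (nat_lit 5) (nat_lit 14) (nat_lit 5) (nat_lit 15) (nat_lit 4) (nat_lit 348) (nat_lit 312) (nat_lit 240)) (XT.lf (nat_lit 0) (nat_lit 42174212969) (nat_lit 76)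 (nat_lit 1087155808) (nat_lit 152) (nat_lit 20597402916) (nat_lit 13) (nat_lit 5) (nat_lit 14) (nat_lit 5) (nat_lit 15) (nat_lit 4) (nat_lit 349) (nat_lit 312) (nat_lit 239))) (XT.nd (nat_lit 78) (nat_lit 76) (nat_lit 0) (XT.lf (nat_lit 0) (nat_lit 2764863328) (nat_lit 76) (nat_lit 54665338707) (nat_lit 76) (nat_lit 10385393246) (nat_lit 12) (nat_lit 4) (nat_lit 13) (nat_lit 5) (nat_lit 13) (nat_lit 4) (nat_lit 350) (nat_lit 312) (nat_lit 238)) (XT.lf (nat_lit 0) (nat_lit 1240054164) (nat_lit 152) (nat_lit 41711698478) (nat_lit 76) (nat_lit 29085685356) (nat_lit 11) (nat_lit 5) (nat_lit 13) (nat_lit 5) (nat_lit 12) (nat_lit 4) (nat_lit 351) (nat_lit 312) (nat_lit 237)))) (XT.nd (nat_lit 156) (nat_lit 76) (nat_lit 0) (XT.nd (nat_lit 78) (nat_lit 76) (nat_lit 0) (XT.lf (nat_lit 0) (nat_lit 13227178028) (nat_lit 152) (nat_lit 16788726842) (nat_lit 76) (nat_lit 46560130300) (nat_lit 11) (nat_lit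 5) (nat_lit 13) (nat_lit 5) (nat_lit 12) (nat_lit 4) (nat_lit 352) (nat_lit 312) (nat_lit 236)) (XT.lf (nat_lit 0) (nat_lit 10648315460) (nat_lit 76) (nat_lit 15774309366) (nat_lit 152) (nat_lit 55035151498) (nat_lit 10) (nat_lit 5) (nat_lit 11) (nat_lit 5) (nat_lit 12) (nat_lit 4) (nat_lit 353) (nat_lit 312) (nat_lit 235))) (XT.nd (nat_lit 78) (nat_lit 76) (nat_lit 0) (XT.lf (nat_lit 0) (nat_lit 41128536817) (nat_lit 152) (nat_lit 45473201338) (nat_lit 0) (nat_lit 91936379) (nat_lit 10) (nat_lit 5) (nat_lit 12) (nat_lit 4) (nat_lit 10) (nat_lit 4) (nat_lit 354) (nat_lit 312) (nat_lit 234)) (XT.nd (nat_lit 78) (nat_lit 76) (nat_lit 0) (XT.lf (nat_lit 0) (nat_lit 57414471776) (nat_lit 152) (nat_lit 18531352416) (nat_lit 0) (nat_lit 16370340222) (nat_lit 10) (nat_lit 5) (nat_lit 12) (nat_lit 4) (nat_lit 10) (nat_lit 4) (nat_lit 355) (nat_lit 312) (nat_lit 233)) (XT.lf (nat_lit 0) (nat_lit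 11110927408) (nat_lit 76) (nat_lit 64153857091) (nat_lit 76) (nat_lit 23102752282) (nat_lit 9) (nat_lit 4) (nat_lit 10) (nat_lit 5) (nat_lit 10) (nat_lit 4) (nat_lit 356) (nat_lit 312) (nat_lit 232))))))) (XT.nd (nat_lit 624) (nat_lit 152) (nat_lit 0) (XT.nd (nat_lit 312) (nat_lit 76) (nat_lit 0) (XT.nd (nat_lit 156) (nat_lit 76) (nat_lit 0) (XT.nd (nat_lit 78) (nat_lit 76) (nat_lit 0) (XT.lf (nat_lit 0) (nat_lit 44168025114) (nat_lit 76) (nat_lit 50876233842) (nat_lit 76) (nat_lit 9818672315) (nat_lit 9) (nat_lit 4) (nat_lit 10) (nat_lit 5) (nat_lit 10) (nat_lit 4) (nat_lit 357) (nat_lit 312) (nat_lit 231)) (XT.lf (nat_lit 0) (nat_lit 4296349565) (nat_lit 152) (nat_lit 32127132872) (nat_lit 76) (nat_lit 75446187058) (nat_lit 8) (nat_lit 5) (nat_lit 10) (nat_lit 5) (nat_lit 9) (nat_lit 4) (nat_lit 358) (nat_lit 312) (nat_lit 230))) (XT.nd (nat_lit 78) (nat_lit 76) (nat_lit 0) (XT.lf (nat_lit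 0) (nat_lit 19005231270) (nat_lit 152) (nat_lit 1538194522) (nat_lit 76) (nat_lit 98873511435) (nat_lit 8) (nat_lit 5) (nat_lit 10) (nat_lit 5) (nat_lit 9) (nat_lit 4) (nat_lit 359) (nat_lit 312) (nat_lit 229)) (XT.lf (nat_lit 0) (nat_lit 33147487557) (nat_lit 76) (nat_lit 2536016612) (nat_lit 152) (nat_lit 91821070159) (nat_lit 7) (nat_lit 5) (nat_lit 8) (nat_lit 5) (nat_lit 9) (nat_lit 4) (nat_lit 360) (nat_lit 312) (nat_lit 228)))) (XT.nd (nat_lit 156) (nat_lit 76) (nat_lit 0) (XT.nd (nat_lit 78) (nat_lit 0) (nat_lit 0) (XT.lf (nat_lit 0) (nat_lit 54141444197) (nat_lit 152) (nat_lit 65956765838) (nat_lit 0) (nat_lit 16105382163) (nat_lit 7) (nat_lit 5) (nat_lit 9) (nat_lit 4) (nat_lit 7) (nat_lit 4) (nat_lit 361) (nat_lit 312) (nat_lit 227)) (XT.lf (nat_lit 0) (nat_lit 74137743960) (nat_lit 152) (nat_lit 35358238538) (nat_lit 0) (nat_lit 36097613099) (nat_lit 7) (nat_lit 5) (nat_lit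 9) (nat_lit 4) (nat_lit 7) (nat_lit 4) (nat_lit 362) (nat_lit 312) (nat_lit 226))) (XT.nd (nat_lit 78) (nat_lit 76) (nat_lit 0) (XT.lf (nat_lit 0) (nat_lit 95729908791) (nat_lit 152) (nat_lit 2319189004) (nat_lit 0) (nat_lit 57686010497) (nat_lit 7) (nat_lit 5) (nat_lit 9) (nat_lit 4) (nat_lit 7) (nat_lit 4) (nat_lit 363) (nat_lit 312) (nat_lit 225)) (XT.lf (nat_lit 0) (nat_lit 35112646510) (nat_lit 76) (nat_lit 84777705740) (nat_lit 76) (nat_lit 46730319082) (nat_lit 6) (nat_lit 4) (nat_lit 7) (nat_lit 5) (nat_lit 7) (nat_lit 4) (nat_lit 364) (nat_lit 312) (nat_lit 224))))) (XT.nd (nat_lit 312) (nat_lit 76) (nat_lit 0) (XT.nd (nat_lit 156) (nat_lit 76) (nat_lit 0) (XT.nd (nat_lit 78) (nat_lit 0) (nat_lit 0) (XT.lf (nat_lit 0) (nat_lit 75664280957) (nat_lit 76) (nat_lit 70379309970) (nat_lit 76) (nat_lit 32328693345) (nat_lit 6) (nat_lit 4) (nat_lit 7) (nat_lit 5) (nat_lit 7) (nat_lit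 4) (nat_lit 365) (nat_lit 312) (nat_lit 223)) (XT.lf (nat_lit 0) (nat_lit 119453895935) (nat_lit 76) (nat_lit 54831997396) (nat_lit 76) (nat_lit 16778390062) (nat_lit 6) (nat_lit 4) (nat_lit 7) (nat_lit 5) (nat_lit 7) (nat_lit 4) (nat_lit 366) (nat_lit 312) (nat_lit 222))) (XT.nd (nat_lit 78) (nat_lit 0) (nat_lit 0) (XT.lf (nat_lit 0) (nat_lit 12103372) (nat_lit 152) (nat_lit 38031201495) (nat_lit 76) (nat_lit 166728551159) (nat_lit 5) (nat_lit 5) (nat_lit 7) (nat_lit 5) (nat_lit 6) (nat_lit 4) (nat_lit 367) (nat_lit 312) (nat_lit 221)) (XT.lf (nat_lit 0) (nat_lit 17236555513) (nat_lit 152) (nat_lit 2206905093) (nat_lit 76) (nat_lit 200097935831) (nat_lit 5) (nat_lit 5) (nat_lit 7) (nat_lit 5) (nat_lit 6) (nat_lit 4) (nat_lit 368) (nat_lit 312) (nat_lit 220)))) (XT.nd (nat_lit 156) (nat_lit 0) (nat_lit 0) (XT.nd (nat_lit 78) (nat_lit 0) (nat_lit 0) (XT.lf (nat_lit 0) (nat_lit 36799287919)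 (nat_lit 152) (nat_lit 197059057469) (nat_lit 0) (nat_lit 1557329879) (nat_lit 4) (nat_lit 5) (nat_lit 6) (nat_lit 4) (nat_lit 4) (nat_lit 4) (nat_lit 369) (nat_lit 312) (nat_lit 219)) (XT.lf (nat_lit 0) (nat_lit 58491386541) (nat_lit 152) (nat_lit 170775970011) (nat_lit 0) (nat_lit 23247393075) (nat_lit 4) (nat_lit 5) (nat_lit 6) (nat_lit 4) (nat_lit 4) (nat_lit 4) (nat_lit 370) (nat_lit 312) (nat_lit 218))) (XT.nd (nat_lit 78) (nat_lit 0) (nat_lit 0) (XT.lf (nat_lit 0) (nat_lit 81916459243) (nat_lit 152) (nat_lit 142394902029) (nat_lit 0) (nat_lit 46670581122) (nat_lit 4) (nat_lit 5) (nat_lit 6) (nat_lit 4) (nat_lit 4) (nat_lit 4) (nat_lit 371) (nat_lit 312) (nat_lit 217)) (XT.nd (nat_lit 78) (nat_lit 0) (nat_lit 0) (XT.lf (nat_lit 0) (nat_lit 107213321270) (nat_lit 152) (nat_lit 111747669417) (nat_lit 0) (nat_lit 71965698098) (nat_lit 4) (nat_lit 5) (nat_lit 6) (nat_lit 4) (nat_lit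 4) (nat_lit 4) (nat_lit 372) (nat_lit 312) (nat_lit 216)) (XT.lf (nat_lit 0) (nat_lit 134531879952) (nat_lit 152) (nat_lit 78652658946) (nat_lit 0) (nat_lit 99282640993) (nat_lit 4) (nat_lit 5) (nat_lit 6) (nat_lit 4) (nat_lit 4) (nat_lit 4) (nat_lit 373) (nat_lit 312) (nat_lit 215))))))))
noncomputable def xc135 : XT := (XT.nd (nat_lit 1326) (nat_lit 0) (nat_lit 0) (XT.nd (nat_lit 624) (nat_lit 152) (nat_lit 0) (XT.nd (nat_lit 312) (nat_lit 0) (nat_lit 0) (XT.nd (nat_lit 156) (nat_lit 76) (nat_lit 0) (XT.nd (nat_lit 78) (nat_lit 0) (nat_lit 0) (XT.lf (nat_lit 0) (nat_lit 164034023045) (nat_lit 152) (nat_lit 42913752033) (nat_lit 0) (nat_lit 128783287987) (nat_lit 4) (nat_lit 5) (nat_lit 6) (nat_lit 4) (nat_lit 4) (nat_lit 4) (nat_lit 374) (nat_lit 312) (nat_lit 214)) (XT.lf (nat_lit 0) (nat_lit 195894578064) (nat_lit 152) (nat_lit 4319162565) (nat_lit 0) (nat_lit 160642457729) (nat_lit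 4) (nat_lit 5) (nat_lit 6) (nat_lit 4) (nat_lit 4) (nat_lit 4) (nat_lit 375) (nat_lit 312) (nat_lit 213))) (XT.nd (nat_lit 78) (nat_lit 0) (nat_lit 0) (XT.lf (nat_lit 0) (nat_lit 39327119952) (nat_lit 76) (nat_lit 191921046526) (nat_lit 76) (nat_lit 156667643526) (nat_lit 3) (nat_lit 4) (nat_lit 4) (nat_lit 5) (nat_lit 4) (nat_lit 4) (nat_lit 376) (nat_lit 312) (nat_lit 212)) (XT.lf (nat_lit 0) (nat_lit 86707644154) (nat_lit 76) (nat_lit 182838908416) (nat_lit 76) (nat_lit 147584317764) (nat_lit 3) (nat_lit 4) (nat_lit 4) (nat_lit 5) (nat_lit 4) (nat_lit 4) (nat_lit 377) (nat_lit 312) (nat_lit 211)))) (XT.nd (nat_lit 156) (nat_lit 0) (nat_lit 0) (XT.nd (nat_lit 78) (nat_lit 0) (nat_lit 0) (XT.lf (nat_lit 0) (nat_lit 137875744069) (nat_lit 76) (nat_lit 173031599783) (nat_lit 76) (nat_lit 137775909453) (nat_lit 3) (nat_lit 4) (nat_lit 4) (nat_lit 5) (nat_lit 4) (nat_lit 4) (nat_lit 378)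 (nat_lit 312) (nat_lit 210)) (XT.lf (nat_lit 0) (nat_lit 193134638068) (nat_lit 76) (nat_lit 162441003240) (nat_lit 76) (nat_lit 127184294690) (nat_lit 3) (nat_lit 4) (nat_lit 4) (nat_lit 5) (nat_lit 4) (nat_lit 4) (nat_lit 379) (nat_lit 312) (nat_lit 209))) (XT.nd (nat_lit 78) (nat_lit 0) (nat_lit 0) (XT.lf (nat_lit 0) (nat_lit 252811786263) (nat_lit 76) (nat_lit 151004359699) (nat_lit 76) (nat_lit 115746708352) (nat_lit 3) (nat_lit 4) (nat_lit 4) (nat_lit 5) (nat_lit 4) (nat_lit 4) (nat_lit 380) (nat_lit 312) (nat_lit 208)) (XT.lf (nat_lit 0) (nat_lit 317260831014) (nat_lit 76) (nat_lit 138653896455) (nat_lit 76) (nat_lit 103395372149) (nat_lit 3) (nat_lit 4) (nat_lit 4) (nat_lit 5) (nat_lit 4) (nat_lit 4) (nat_lit 381) (nat_lit 312) (nat_lit 207))))) (XT.nd (nat_lit 312) (nat_lit 152) (nat_lit 0) (XT.nd (nat_lit 156) (nat_lit 0) (nat_lit 0) (XT.nd (nat_lit 78) (nat_lit 0) (nat_lit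 0) (XT.lf (nat_lit 0) (nat_lit 386863692586) (nat_lit 76) (nat_lit 125316425579) (nat_lit 76) (nat_lit 90057092977) (nat_lit 3) (nat_lit 4) (nat_lit 4) (nat_lit 5) (nat_lit 4) (nat_lit 4) (nat_lit 382) (nat_lit 312) (nat_lit 206)) (XT.lf (nat_lit 0) (nat_lit 462032832380) (nat_lit 76) (nat_lit 110912910207) (nat_lit 76) (nat_lit 75652829183) (nat_lit 3) (nat_lit 4) (nat_lit 4) (nat_lit 5) (nat_lit 4) (nat_lit 4) (nat_lit 383) (nat_lit 312) (nat_lit 205))) (XT.nd (nat_lit 78) (nat_lit 0) (nat_lit 0) (XT.lf (nat_lit 0) (nat_lit 543213697152) (nat_lit 76) (nat_lit 95357996173) (nat_lit 76) (nat_lit 60097222165) (nat_lit 3) (nat_lit 4) (nat_lit 4) (nat_lit 5) (nat_lit 4) (nat_lit 4) (nat_lit 384) (nat_lit 312) (nat_lit 204)) (XT.lf (nat_lit 0) (nat_lit 630887358693) (nat_lit 76) (nat_lit 78559506209) (nat_lit 76) (nat_lit 43298090550) (nat_lit 3) (nat_lit 4) (nat_lit 4) (nat_lit 5) (nat_lit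 4) (nat_lit 4) (nat_lit 385) (nat_lit 312) (nat_lit 203)))) (XT.nd (nat_lit 156) (nat_lit 152) (nat_lit 0) (XT.nd (nat_lit 78) (nat_lit 0) (nat_lit 0) (XT.lf (nat_lit 0) (nat_lit 725573364626) (nat_lit 76) (nat_lit 60417893707) (nat_lit 76) (nat_lit 25155883926) (nat_lit 3) (nat_lit 4) (nat_lit 4) (nat_lit 5) (nat_lit 4) (nat_lit 4) (nat_lit 386) (nat_lit 312) (nat_lit 202)) (XT.lf (nat_lit 0) (nat_lit 827832817208) (nat_lit 76) (nat_lit 40825652816) (nat_lit 76) (nat_lit 5563092923) (nat_lit 3) (nat_lit 4) (nat_lit 4) (nat_lit 5) (nat_lit 4) (nat_lit 4) (nat_lit 387) (nat_lit 312) (nat_lit 201))) (XT.nd (nat_lit 78) (nat_lit 76) (nat_lit 0) (XT.lf (nat_lit 0) (nat_lit 14816193400) (nat_lit 152) (nat_lit 4445386983) (nat_lit 76) (nat_lit 923050403997) (nat_lit 2) (nat_lit 5) (nat_lit 4) (nat_lit 5) (nat_lit 3) (nat_lit 4) (nat_lit 388) (nat_lit 312) (nat_lit 200)) (XT.nd (nat_lit 78)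 (nat_lit 0) (nat_lit 0) (XT.lf (nat_lit 0) (nat_lit 37682570891) (nat_lit 152) (nat_lit 973031781061) (nat_lit 0) (nat_lit 5031144141) (nat_lit 1) (nat_lit 5) (nat_lit 3) (nat_lit 4) (nat_lit 1) (nat_lit 4) (nat_lit 389) (nat_lit 312) (nat_lit 199)) (XT.lf (nat_lit 0) (nat_lit 63002619604) (nat_lit 152) (nat_lit 1001650331960) (nat_lit 0) (nat_lit 30350788504) (nat_lit 1) (nat_lit 5) (nat_lit 3) (nat_lit 4) (nat_lit 1) (nat_lit 4) (nat_lit 390) (nat_lit 312) (nat_lit 198))))))) (XT.nd (nat_lit 702) (nat_lit 0) (nat_lit 0) (XT.nd (nat_lit 312) (nat_lit 0) (nat_lit 0) (XT.nd (nat_lit 156) (nat_lit 0) (nat_lit 0) (XT.nd (nat_lit 78) (nat_lit 0) (nat_lit 0) (XT.lf (nat_lit 0) (nat_lit 90347678201) (nat_lit 152) (nat_lit 1032559540364) (nat_lit 0) (nat_lit 57695472705) (nat_lit 1) (nat_lit 5) (nat_lit 3) (nat_lit 4) (nat_lit 1) (nat_lit 4) (nat_lit 391) (nat_lit 312) (nat_lit 197)) (XT.lf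 (nat_lit 0) (nat_lit 119879791477) (nat_lit 152) (nat_lit 1065942571953) (nat_lit 0) (nat_lit 87227239316) (nat_lit 1) (nat_lit 5) (nat_lit 3) (nat_lit 4) (nat_lit 1) (nat_lit 4) (nat_lit 392) (nat_lit 312) (nat_lit 196))) (XT.nd (nat_lit 78) (nat_lit 0) (nat_lit 0) (XT.lf (nat_lit 0) (nat_lit 151773964545) (nat_lit 152) (nat_lit 1101997252099) (nat_lit 0) (nat_lit 119121091398) (nat_lit 1) (nat_lit 5) (nat_lit 3) (nat_lit 4) (nat_lit 1) (nat_lit 4) (nat_lit 393) (nat_lit 312) (nat_lit 195)) (XT.lf (nat_lit 0) (nat_lit 186219199913) (nat_lit 152) (nat_lit 1140937238166) (nat_lit 0) (nat_lit 153566029558) (nat_lit 1) (nat_lit 5) (nat_lit 3) (nat_lit 4) (nat_lit 1) (nat_lit 4) (nat_lit 394) (nat_lit 312) (nat_lit 194)))) (XT.nd (nat_lit 156) (nat_lit 0) (nat_lit 0) (XT.nd (nat_lit 78) (nat_lit 0) (nat_lit 0) (XT.lf (nat_lit 0) (nat_lit 223419617495) (nat_lit 152) (nat_lit 1182993285627)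 (nat_lit 0) (nat_lit 190766171946) (nat_lit 1) (nat_lit 5) (nat_lit 3) (nat_lit 4) (nat_lit 1) (nat_lit 4) (nat_lit 395) (nat_lit 312) (nat_lit 193)) (XT.lf (nat_lit 0) (nat_lit 263595664209) (nat_lit 152) (nat_lit 1228414615504) (nat_lit 0) (nat_lit 230941963852) (nat_lit 1) (nat_lit 5) (nat_lit 3) (nat_lit 4) (nat_lit 1) (nat_lit 4) (nat_lit 396) (nat_lit 312) (nat_lit 192))) (XT.nd (nat_lit 78) (nat_lit 0) (nat_lit 0) (XT.lf (nat_lit 0) (nat_lit 306985420332) (nat_lit 152) (nat_lit 1277470391234) (nat_lit 0) (nat_lit 274331484041) (nat_lit 1) (nat_lit 5) (nat_lit 3) (nat_lit 4) (nat_lit 1) (nat_lit 4) (nat_lit 397) (nat_lit 312) (nat_lit 191)) (XT.nd (nat_lit 78) (nat_lit 0) (nat_lit 0) (XT.lf (nat_lit 0) (nat_lit 353846010346) (nat_lit 152) (nat_lit 1330451313709) (nat_lit 0) (nat_lit 321191855597) (nat_lit 1) (nat_lit 5) (nat_lit 3) (nat_lit 4) (nat_lit 1) (nat_lit 4) (nat_lit 398)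 (nat_lit 312) (nat_lit 190)) (XT.lf (nat_lit 0) (nat_lit 404455126634) (nat_lit 152) (nat_lit 1387671343951) (nat_lit 0) (nat_lit 371800769611) (nat_lit 1) (nat_lit 5) (nat_lit 3) (nat_lit 4) (nat_lit 1) (nat_lit 4) (nat_lit 399) (nat_lit 312) (nat_lit 189)))))) (XT.nd (nat_lit 312) (nat_lit 0) (nat_lit 0) (XT.nd (nat_lit 156) (nat_lit 0) (nat_lit 0) (XT.nd (nat_lit 78) (nat_lit 0) (nat_lit 0) (XT.lf (nat_lit 0) (nat_lit 459112675072) (nat_lit 152) (nat_lit 1449469563622) (nat_lit 0) (nat_lit 426458130757) (nat_lit 1) (nat_lit 5) (nat_lit 3) (nat_lit 4) (nat_lit 1) (nat_lit 4) (nat_lit 400) (nat_lit 312) (nat_lit 188)) (XT.lf (nat_lit 0) (nat_lit 518142552243) (nat_lit 152) (nat_lit 1516212184394) (nat_lit 0) (nat_lit 485487834509) (nat_lit 1) (nat_lit 5) (nat_lit 3) (nat_lit 4) (nat_lit 1) (nat_lit 4) (nat_lit 401) (nat_lit 312) (nat_lit 187))) (XT.nd (nat_lit 78) (nat_lit 0) (nat_lit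 0) (XT.lf (nat_lit 0) (nat_lit 581894564827) (nat_lit 152) (nat_lit 1588294718092) (nat_lit 0) (nat_lit 549239686520) (nat_lit 1) (nat_lit 5) (nat_lit 3) (nat_lit 4) (nat_lit 1) (nat_lit 4) (nat_lit 402) (nat_lit 312) (nat_lit 186)) (XT.lf (nat_lit 0) (nat_lit 650746502526) (nat_lit 152) (nat_lit 1666144320473) (nat_lit 0) (nat_lit 618091475541) (nat_lit 1) (nat_lit 5) (nat_lit 3) (nat_lit 4) (nat_lit 1) (nat_lit 4) (nat_lit 403) (nat_lit 312) (nat_lit 185)))) (XT.nd (nat_lit 156) (nat_lit 0) (nat_lit 0) (XT.nd (nat_lit 78) (nat_lit 0) (nat_lit 0) (XT.lf (nat_lit 0) (nat_lit 725106376826) (nat_lit 152) (nat_lit 1750222322514) (nat_lit 0) (nat_lit 692451212176) (nat_lit 1) (nat_lit 5) (nat_lit 3) (nat_lit 4) (nat_lit 1) (nat_lit 4) (nat_lit 404) (nat_lit 312) (nat_lit 184)) (XT.lf (nat_lit 0) (nat_lit 805414838831) (nat_lit 152) (nat_lit 1841026964226) (nat_lit 0) (nat_lit 772759546713)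 (nat_lit 1) (nat_lit 5) (nat_lit 3) (nat_lit 4) (nat_lit 1) (nat_lit 4) (nat_lit 405) (nat_lit 312) (nat_lit 183))) (XT.nd (nat_lit 78) (nat_lit 0) (nat_lit 0) (XT.lf (nat_lit 0) (nat_lit 892147790540) (nat_lit 152) (nat_lit 1939096347190) (nat_lit 0) (nat_lit 859492380396) (nat_lit 1) (nat_lit 5) (nat_lit 3) (nat_lit 4) (nat_lit 1) (nat_lit 4) (nat_lit 406) (nat_lit 312) (nat_lit 182)) (XT.nd (nat_lit 78) (nat_lit 0) (nat_lit 0) (XT.lf (nat_lit 0) (nat_lit 985819204999) (nat_lit 152) (nat_lit 2045011623305) (nat_lit 0) (nat_lit 953163685572) (nat_lit 1) (nat_lit 5) (nat_lit 3) (nat_lit 4) (nat_lit 1) (nat_lit 4) (nat_lit 407) (nat_lit 312) (nat_lit 181)) (XT.lf (nat_lit 0) (nat_lit 1086984172072) (nat_lit 152) (nat_lit 2159400438653) (nat_lit 0) (nat_lit 1054328551457) (nat_lit 1) (nat_lit 5) (nat_lit 3) (nat_lit 4) (nat_lit 1) (nat_lit 4) (nat_lit 408) (nat_lit 312) (nat_lit 180))))))))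
noncomputable def xc136 : XT := (XT.nd (nat_lit 40404) (nat_lit 0) (nat_lit 1216) (XT.nd (nat_lit 39702) (nat_lit 0) (nat_lit 2812) (XT.nd (nat_lit 39390) (nat_lit 0) (nat_lit 3648) (XT.nd (nat_lit 156) (nat_lit 0) (nat_lit 0) (XT.nd (nat_lit 78) (nat_lit 0) (nat_lit 0) (XT.lf (nat_lit 0) (nat_lit 1196242187860) (nat_lit 152) (nat_lit 2282940652879) (nat_lit 0) (nat_lit 1163586473553) (nat_lit 1) (nat_lit 5) (nat_lit 3) (nat_lit 4) (nat_lit 1) (nat_lit 4) (nat_lit 409) (nat_lit 312) (nat_lit 179)) (XT.lf (nat_lit 0) (nat_lit 1314240707272) (nat_lit 152) (nat_lit 2416364356141) (nat_lit 0) (nat_lit 1281584906212) (nat_lit 1) (nat_lit 5) (nat_lit 3) (nat_lit 4) (nat_lit 1) (nat_lit 4) (nat_lit 410) (nat_lit 312) (nat_lit 178))) (XT.nd (nat_lit 78) (nat_lit 0) (nat_lit 0) (XT.lf (nat_lit 0) (nat_lit 1441678980793) (nat_lit 152) (nat_lit 2560462207423) (nat_lit 0) (nat_lit 1409023099407)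 (nat_lit 1) (nat_lit 5) (nat_lit 3) (nat_lit 4) (nat_lit 1) (nat_lit 4) (nat_lit 411) (nat_lit 312) (nat_lit 177)) (XT.lf (nat_lit 0) (nat_lit 1579312198191) (nat_lit 152) (nat_lit 2716088119916) (nat_lit 0) (nat_lit 1546656242429) (nat_lit 1) (nat_lit 5) (nat_lit 3) (nat_lit 4) (nat_lit 1) (nat_lit 4) (nat_lit 412) (nat_lit 312) (nat_lit 176)))) (XT.nd (nat_lit 156) (nat_lit 0) (nat_lit 76) (XT.nd (nat_lit 78) (nat_lit 0) (nat_lit 0) (XT.lf (nat_lit 0) (nat_lit 1689337592) (nat_lit 532) (nat_lit 2017896738) (nat_lit 532) (nat_lit 2017896738) (nat_lit 49) (nat_lit 3) (nat_lit 56) (nat_lit 3) (nat_lit 56) (nat_lit 5) (nat_lit 313) (nat_lit 313) (nat_lit 274)) (XT.lf (nat_lit 76) (nat_lit 1354888094) (nat_lit 0) (nat_lit 2680085224) (nat_lit 532) (nat_lit 7830389980) (nat_lit 50) (nat_lit 5) (nat_lit 49) (nat_lit 3) (nat_lit 56) (nat_lit 5) (nat_lit 314) (nat_lit 313) (nat_lit 273))) (XT.nd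 (nat_lit 78) (nat_lit 0) (nat_lit 0) (XT.lf (nat_lit 0) (nat_lit 4866474077) (nat_lit 456) (nat_lit 4992339511) (nat_lit 532) (nat_lit 2445164843) (nat_lit 50) (nat_lit 5) (nat_lit 56) (nat_lit 5) (nat_lit 57) (nat_lit 5) (nat_lit 315) (nat_lit 313) (nat_lit 272)) (XT.lf (nat_lit 76) (nat_lit 913267014) (nat_lit 0) (nat_lit 4897408302) (nat_lit 532) (nat_lit 6963425788) (nat_lit 51) (nat_lit 5) (nat_lit 50) (nat_lit 5) (nat_lit 57) (nat_lit 5) (nat_lit 316) (nat_lit 313) (nat_lit 271))))) (XT.nd (nat_lit 312) (nat_lit 608) (nat_lit 0) (XT.nd (nat_lit 156) (nat_lit 380) (nat_lit 0) (XT.nd (nat_lit 78) (nat_lit 0) (nat_lit 0) (XT.lf (nat_lit 0) (nat_lit 6939127705) (nat_lit 456) (nat_lit 5743441865) (nat_lit 532) (nat_lit 590671224) (nat_lit 51) (nat_lit 5) (nat_lit 57) (nat_lit 5) (nat_lit 58) (nat_lit 5) (nat_lit 317) (nat_lit 313) (nat_lit 270)) (XT.lf (nat_lit 76) (nat_lit 742600178)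 (nat_lit 0) (nat_lit 7521048217) (nat_lit 532) (nat_lit 5540296571) (nat_lit 52) (nat_lit 5) (nat_lit 51) (nat_lit 5) (nat_lit 58) (nat_lit 5) (nat_lit 318) (nat_lit 313) (nat_lit 269))) (XT.nd (nat_lit 78) (nat_lit 380) (nat_lit 0) (XT.lf (nat_lit 76) (nat_lit 8044253006) (nat_lit 0) (nat_lit 1769830591) (nat_lit 532) (nat_lit 4553515159) (nat_lit 52) (nat_lit 5) (nat_lit 51) (nat_lit 5) (nat_lit 58) (nat_lit 5) (nat_lit 319) (nat_lit 313) (nat_lit 268)) (XT.lf (nat_lit 0) (nat_lit 859173303) (nat_lit 456) (nat_lit 10722684922) (nat_lit 532) (nat_lit 3387105138) (nat_lit 46) (nat_lit 5) (nat_lit 52) (nat_lit 5) (nat_lit 53) (nat_lit 5) (nat_lit 320) (nat_lit 313) (nat_lit 267)))) (XT.nd (nat_lit 156) (nat_lit 304) (nat_lit 0) (XT.nd (nat_lit 78) (nat_lit 304) (nat_lit 0) (XT.lf (nat_lit 0) (nat_lit 8897613172) (nat_lit 456) (nat_lit 4778775004) (nat_lit 532) (nat_lit 1927299037) (nat_lit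 46) (nat_lit 5) (nat_lit 52) (nat_lit 5) (nat_lit 53) (nat_lit 5) (nat_lit 321) (nat_lit 313) (nat_lit 266)) (XT.lf (nat_lit 0) (nat_lit 1284526167) (nat_lit 304) (nat_lit 14694392990) (nat_lit 380) (nat_lit 307105783) (nat_lit 42) (nat_lit 5) (nat_lit 46) (nat_lit 5) (nat_lit 47) (nat_lit 5) (nat_lit 322) (nat_lit 313) (nat_lit 265))) (XT.nd (nat_lit 78) (nat_lit 228) (nat_lit 0) (XT.lf (nat_lit 0) (nat_lit 1653570878) (nat_lit 380) (nat_lit 6907156586) (nat_lit 76) (nat_lit 8436864356) (nat_lit 41) (nat_lit 5) (nat_lit 46) (nat_lit 5) (nat_lit 42) (nat_lit 5) (nat_lit 323) (nat_lit 313) (nat_lit 264)) (XT.nd (nat_lit 78) (nat_lit 0) (nat_lit 0) (XT.lf (nat_lit 0) (nat_lit 1892689352) (nat_lit 228) (nat_lit 1880298490) (nat_lit 304) (nat_lit 13991036246) (nat_lit 38) (nat_lit 5) (nat_lit 41) (nat_lit 5) (nat_lit 42) (nat_lit 5) (nat_lit 324) (nat_lit 313) (nat_lit 263)) (XT.lf (nat_lit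 0) (nat_lit 6358246133) (nat_lit 304) (nat_lit 6950598042) (nat_lit 76) (nat_lit 5259275955) (nat_lit 38) (nat_lit 5) (nat_lit 42) (nat_lit 5) (nat_lit 39) (nat_lit 5) (nat_lit 325) (nat_lit 313) (nat_lit 262))))))) (XT.nd (nat_lit 624) (nat_lit 760) (nat_lit 0) (XT.nd (nat_lit 312) (nat_lit 456) (nat_lit 0) (XT.nd (nat_lit 156) (nat_lit 152) (nat_lit 0) (XT.nd (nat_lit 78) (nat_lit 0) (nat_lit 0) (XT.lf (nat_lit 0) (nat_lit 2744399464) (nat_lit 228) (nat_lit 6496908488) (nat_lit 304) (nat_lit 10188005636) (nat_lit 35) (nat_lit 5) (nat_lit 38) (nat_lit 5) (nat_lit 39) (nat_lit 5) (nat_lit 326) (nat_lit 313) (nat_lit 261)) (XT.lf (nat_lit 0) (nat_lit 12547825077) (nat_lit 304) (nat_lit 6788433324) (nat_lit 76) (nat_lit 1007764072) (nat_lit 35) (nat_lit 5) (nat_lit 39) (nat_lit 5) (nat_lit 36) (nat_lit 5) (nat_lit 327) (nat_lit 313) (nat_lit 260))) (XT.nd (nat_lit 78) (nat_lit 0) (nat_lit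 0) (XT.lf (nat_lit 0) (nat_lit 3899316490) (nat_lit 152) (nat_lit 12460919157) (nat_lit 228) (nat_lit 4952404117) (nat_lit 33) (nat_lit 5) (nat_lit 35) (nat_lit 5) (nat_lit 36) (nat_lit 5) (nat_lit 328) (nat_lit 313) (nat_lit 259)) (XT.lf (nat_lit 0) (nat_lit 15802069747) (nat_lit 152) (nat_lit 4840959640) (nat_lit 228) (nat_lit 1702524216) (nat_lit 33) (nat_lit 5) (nat_lit 35) (nat_lit 5) (nat_lit 36) (nat_lit 5) (nat_lit 329) (nat_lit 313) (nat_lit 258)))) (XT.nd (nat_lit 156) (nat_lit 152) (nat_lit 0) (XT.nd (nat_lit 78) (nat_lit 0) (nat_lit 0) (XT.lf (nat_lit 0) (nat_lit 1913353173) (nat_lit 304) (nat_lit 18137389488) (nat_lit 76) (nat_lit 3391200036) (nat_lit 29) (nat_lit 5) (nat_lit 33) (nat_lit 5) (nat_lit 30) (nat_lit 5) (nat_lit 330) (nat_lit 313) (nat_lit 257)) (XT.lf (nat_lit 0) (nat_lit 6017263651) (nat_lit 304) (nat_lit 6339682771) (nat_lit 76) (nat_lit 12242329784) (nat_lit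 29) (nat_lit 5) (nat_lit 33) (nat_lit 5) (nat_lit 30) (nat_lit 5) (nat_lit 331) (nat_lit 313) (nat_lit 256))) (XT.nd (nat_lit 78) (nat_lit 0) (nat_lit 0) (XT.lf (nat_lit 0) (nat_lit 6713694047) (nat_lit 152) (nat_lit 3880078485) (nat_lit 228) (nat_lit 15243909238) (nat_lit 27) (nat_lit 5) (nat_lit 29) (nat_lit 5) (nat_lit 30) (nat_lit 5) (nat_lit 332) (nat_lit 313) (nat_lit 255)) (XT.lf (nat_lit 0) (nat_lit 15824469806) (nat_lit 228) (nat_lit 6145335526) (nat_lit 76) (nat_lit 5182335161) (nat_lit 27) (nat_lit 5) (nat_lit 30) (nat_lit 5) (nat_lit 28) (nat_lit 5) (nat_lit 333) (nat_lit 313) (nat_lit 254))))) (XT.nd (nat_lit 312) (nat_lit 456) (nat_lit 0) (XT.nd (nat_lit 156) (nat_lit 152) (nat_lit 0) (XT.nd (nat_lit 78) (nat_lit 0) (nat_lit 0) (XT.lf (nat_lit 0) (nat_lit 8156084941) (nat_lit 152) (nat_lit 13599070276) (nat_lit 228) (nat_lit 6794102301) (nat_lit 25) (nat_lit 5) (nat_lit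 27) (nat_lit 5) (nat_lit 28) (nat_lit 5) (nat_lit 334) (nat_lit 313) (nat_lit 253)) (XT.lf (nat_lit 0) (nat_lit 23928942450) (nat_lit 152) (nat_lit 4384582268) (nat_lit 228) (nat_lit 1732383247) (nat_lit 25) (nat_lit 5) (nat_lit 27) (nat_lit 5) (nat_lit 28) (nat_lit 5) (nat_lit 335) (nat_lit 313) (nat_lit 252))) (XT.nd (nat_lit 78) (nat_lit 0) (nat_lit 0) (XT.lf (nat_lit 0) (nat_lit 3908150099) (nat_lit 152) (nat_lit 22105543233) (nat_lit 76) (nat_lit 5612577152) (nat_lit 23) (nat_lit 5) (nat_lit 25) (nat_lit 5) (nat_lit 24) (nat_lit 5) (nat_lit 336) (nat_lit 313) (nat_lit 251)) (XT.lf (nat_lit 0) (nat_lit 10178105849) (nat_lit 152) (nat_lit 6747269228) (nat_lit 76) (nat_lit 16382363079) (nat_lit 23) (nat_lit 5) (nat_lit 25) (nat_lit 5) (nat_lit 24) (nat_lit 5) (nat_lit 337) (nat_lit 313) (nat_lit 250)))) (XT.nd (nat_lit 156) (nat_lit 304) (nat_lit 0) (XT.nd (nat_lit 78) (nat_lit 0) (nat_lit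 0) (XT.lf (nat_lit 0) (nat_lit 10336681339) (nat_lit 152) (nat_lit 6848884686) (nat_lit 228) (nat_lit 17919301043) (nat_lit 21) (nat_lit 5) (nat_lit 23) (nat_lit 5) (nat_lit 24) (nat_lit 5) (nat_lit 338) (nat_lit 313) (nat_lit 249)) (XT.lf (nat_lit 0) (nat_lit 25027511791) (nat_lit 228) (nat_lit 7982115790) (nat_lit 76) (nat_lit 4014242856) (nat_lit 21) (nat_lit 5) (nat_lit 24) (nat_lit 5) (nat_lit 22) (nat_lit 4) (nat_lit 339) (nat_lit 313) (nat_lit 248))) (XT.nd (nat_lit 78) (nat_lit 228) (nat_lit 0) (XT.lf (nat_lit 0) (nat_lit 10474033271) (nat_lit 76) (nat_lit 23441095611) (nat_lit 152) (nat_lit 5147814058) (nat_lit 20) (nat_lit 5) (nat_lit 21) (nat_lit 5) (nat_lit 22) (nat_lit 4) (nat_lit 340) (nat_lit 313) (nat_lit 247)) (XT.nd (nat_lit 78) (nat_lit 152) (nat_lit 0) (XT.lf (nat_lit 0) (nat_lit 2348673032) (nat_lit 152) (nat_lit 10465805421) (nat_lit 76) (nat_lit 28429345056) (nat_lit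 19) (nat_lit 5) (nat_lit 21) (nat_lit 5) (nat_lit 20) (nat_lit 5) (nat_lit 341) (nat_lit 313) (nat_lit 246)) (XT.lf (nat_lit 0) (nat_lit 9427443934) (nat_lit 152) (nat_lit 955521797) (nat_lit 228) (nat_lit 33188227057) (nat_lit 17) (nat_lit 5) (nat_lit 19) (nat_lit 5) (nat_lit 20) (nat_lit 5) (nat_lit 342) (nat_lit 313) (nat_lit 245))))))))
noncomputable def xc137 : XT := (XT.nd (nat_lit 1326) (nat_lit 304) (nat_lit 0) (XT.nd (nat_lit 624) (nat_lit 380) (nat_lit 0) (XT.nd (nat_lit 312) (nat_lit 152) (nat_lit 0) (XT.nd (nat_lit 156) (nat_lit 76) (nat_lit 0) (XT.nd (nat_lit 78) (nat_lit 76) (nat_lit 0) (XT.lf (nat_lit 0) (nat_lit 19628304082) (nat_lit 228) (nat_lit 14864786040) (nat_lit 76) (nat_lit 11546207685) (nat_lit 17) (nat_lit 5) (nat_lit 20) (nat_lit 5) (nat_lit 18) (nat_lit 4) (nat_lit 343) (nat_lit 313) (nat_lit 244)) (XT.lf (nat_lit 0) (nat_lit 6226674743) (nat_lit 76) (nat_lit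 23551601735) (nat_lit 152) (nat_lit 18913383797) (nat_lit 16) (nat_lit 5) (nat_lit 17) (nat_lit 5) (nat_lit 18) (nat_lit 4) (nat_lit 344) (nat_lit 313) (nat_lit 243))) (XT.nd (nat_lit 78) (nat_lit 76) (nat_lit 0) (XT.lf (nat_lit 0) (nat_lit 29834759458) (nat_lit 76) (nat_lit 11302675359) (nat_lit 152) (nat_lit 10387010768) (nat_lit 16) (nat_lit 5) (nat_lit 17) (nat_lit 5) (nat_lit 18) (nat_lit 4) (nat_lit 345) (nat_lit 313) (nat_lit 242)) (XT.lf (nat_lit 0) (nat_lit 722013785) (nat_lit 76) (nat_lit 52738291931) (nat_lit 76) (nat_lit 1119157850) (nat_lit 15) (nat_lit 4) (nat_lit 16) (nat_lit 5) (nat_lit 16) (nat_lit 4) (nat_lit 346) (nat_lit 313) (nat_lit 241)))) (XT.nd (nat_lit 156) (nat_lit 76) (nat_lit 0) (XT.nd (nat_lit 78) (nat_lit 0) (nat_lit 0) (XT.lf (nat_lit 0) (nat_lit 9338766010) (nat_lit 152) (nat_lit 32209555515) (nat_lit 76) (nat_lit 16241994893) (nat_lit 14) (nat_lit 5)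 (nat_lit 16) (nat_lit 5) (nat_lit 15) (nat_lit 4) (nat_lit 347) (nat_lit 313) (nat_lit 240)) (XT.lf (nat_lit 0) (nat_lit 20564849769) (nat_lit 152) (nat_lit 8873240865) (nat_lit 76) (nat_lit 31818268712) (nat_lit 14) (nat_lit 5) (nat_lit 16) (nat_lit 5) (nat_lit 15) (nat_lit 4) (nat_lit 348) (nat_lit 313) (nat_lit 239))) (XT.nd (nat_lit 78) (nat_lit 0) (nat_lit 0) (XT.lf (nat_lit 0) (nat_lit 17175907678) (nat_lit 76) (nat_lit 15918776491) (nat_lit 152) (nat_lit 31872554478) (nat_lit 13) (nat_lit 5) (nat_lit 14) (nat_lit 5) (nat_lit 15) (nat_lit 4) (nat_lit 349) (nat_lit 313) (nat_lit 238)) (XT.lf (nat_lit 0) (nat_lit 45800673629) (nat_lit 76) (nat_lit 1061662889) (nat_lit 152) (nat_lit 22093822885) (nat_lit 13) (nat_lit 5) (nat_lit 14) (nat_lit 5) (nat_lit 15) (nat_lit 4) (nat_lit 350) (nat_lit 313) (nat_lit 237))))) (XT.nd (nat_lit 312) (nat_lit 152) (nat_lit 0) (XT.nd (nat_lit 156)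 (nat_lit 76) (nat_lit 0) (XT.nd (nat_lit 78) (nat_lit 76) (nat_lit 0) (XT.lf (nat_lit 0) (nat_lit 3240574289) (nat_lit 76) (nat_lit 58922353161) (nat_lit 76) (nat_lit 11066749448) (nat_lit 12) (nat_lit 4) (nat_lit 13) (nat_lit 5) (nat_lit 13) (nat_lit 4) (nat_lit 351) (nat_lit 313) (nat_lit 236)) (XT.lf (nat_lit 0) (nat_lit 1470738034) (nat_lit 152) (nat_lit 44805955638) (nat_lit 76) (nat_lit 31513134186) (nat_lit 11) (nat_lit 5) (nat_lit 13) (nat_lit 5) (nat_lit 12) (nat_lit 4) (nat_lit 352) (nat_lit 313) (nat_lit 235))) (XT.nd (nat_lit 78) (nat_lit 76) (nat_lit 0) (XT.lf (nat_lit 0) (nat_lit 14407092582) (nat_lit 152) (nat_lit 17907122473) (nat_lit 76) (nat_lit 50378083318) (nat_lit 11) (nat_lit 5) (nat_lit 13) (nat_lit 5) (nat_lit 12) (nat_lit 4) (nat_lit 353) (nat_lit 313) (nat_lit 234)) (XT.lf (nat_lit 0) (nat_lit 11719194543) (nat_lit 76) (nat_lit 16935230068) (nat_lit 152) (nat_lit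 59310460202) (nat_lit 10) (nat_lit 5) (nat_lit 11) (nat_lit 5) (nat_lit 12) (nat_lit 4) (nat_lit 354) (nat_lit 313) (nat_lit 233)))) (XT.nd (nat_lit 156) (nat_lit 152) (nat_lit 0) (XT.nd (nat_lit 78) (nat_lit 0) (nat_lit 0) (XT.lf (nat_lit 0) (nat_lit 44530319234) (nat_lit 152) (nat_lit 48901707601) (nat_lit 0) (nat_lit 188152785) (nat_lit 10) (nat_lit 5) (nat_lit 12) (nat_lit 4) (nat_lit 10) (nat_lit 4) (nat_lit 355) (nat_lit 313) (nat_lit 232)) (XT.lf (nat_lit 0) (nat_lit 62110869770) (nat_lit 152) (nat_lit 19820018162) (nat_lit 0) (nat_lit 17762246602) (nat_lit 10) (nat_lit 5) (nat_lit 12) (nat_lit 4) (nat_lit 10) (nat_lit 4) (nat_lit 356) (nat_lit 313) (nat_lit 231))) (XT.nd (nat_lit 78) (nat_lit 76) (nat_lit 0) (XT.lf (nat_lit 0) (nat_lit 12188736645) (nat_lit 76) (nat_lit 69197367332) (nat_lit 76) (nat_lit 24842765722) (nat_lit 9) (nat_lit 4) (nat_lit 10) (nat_lit 5) (nat_lit 10)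 (nat_lit 4) (nat_lit 357) (nat_lit 313) (nat_lit 230)) (XT.nd (nat_lit 78) (nat_lit 76) (nat_lit 0) (XT.lf (nat_lit 0) (nat_lit 47876406979) (nat_lit 76) (nat_lit 54864111877) (nat_lit 76) (nat_lit 10503974672) (nat_lit 9) (nat_lit 4) (nat_lit 10) (nat_lit 5) (nat_lit 10) (nat_lit 4) (nat_lit 358) (nat_lit 313) (nat_lit 229)) (XT.lf (nat_lit 0) (nat_lit 4728186648) (nat_lit 152) (nat_lit 34530634526) (nat_lit 76) (nat_lit 81553324647) (nat_lit 8) (nat_lit 5) (nat_lit 10) (nat_lit 5) (nat_lit 9) (nat_lit 4) (nat_lit 359) (nat_lit 313) (nat_lit 228))))))) (XT.nd (nat_lit 624) (nat_lit 152) (nat_lit 0) (XT.nd (nat_lit 312) (nat_lit 76) (nat_lit 0) (XT.nd (nat_lit 156) (nat_lit 0) (nat_lit 0) (XT.nd (nat_lit 78) (nat_lit 76) (nat_lit 0) (XT.lf (nat_lit 0) (nat_lit 20607250806) (nat_lit 152) (nat_lit 1506926957) (nat_lit 76) (nat_lit 106849542927) (nat_lit 8) (nat_lit 5) (nat_lit 10) (nat_lit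 5) (nat_lit 9) (nat_lit 4) (nat_lit 360) (nat_lit 313) (nat_lit 227)) (XT.lf (nat_lit 0) (nat_lit 35949702773) (nat_lit 76) (nat_lit 2667655757) (nat_lit 152) (nat_lit 99081207608) (nat_lit 7) (nat_lit 5) (nat_lit 8) (nat_lit 5) (nat_lit 9) (nat_lit 4) (nat_lit 361) (nat_lit 313) (nat_lit 226))) (XT.nd (nat_lit 78) (nat_lit 0) (nat_lit 0) (XT.lf (nat_lit 0) (nat_lit 58547655477) (nat_lit 152) (nat_lit 71089717317) (nat_lit 0) (nat_lit 17456477886) (nat_lit 7) (nat_lit 5) (nat_lit 9) (nat_lit 4) (nat_lit 7) (nat_lit 4) (nat_lit 362) (nat_lit 313) (nat_lit 225)) (XT.lf (nat_lit 0) (nat_lit 80138111388) (nat_lit 152) (nat_lit 38053944114) (nat_lit 0) (nat_lit 39043445434) (nat_lit 7) (nat_lit 5) (nat_lit 9) (nat_lit 4) (nat_lit 7) (nat_lit 4) (nat_lit 363) (nat_lit 313) (nat_lit 224)))) (XT.nd (nat_lit 156) (nat_lit 0) (nat_lit 0) (XT.nd (nat_lit 78) (nat_lit 76) (nat_lit 0) (XT.lf (nat_lit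 0) (nat_lit 103452512523) (nat_lit 152) (nat_lit 2381619024) (nat_lit 0) (nat_lit 62354616602) (nat_lit 7) (nat_lit 5) (nat_lit 9) (nat_lit 4) (nat_lit 7) (nat_lit 4) (nat_lit 364) (nat_lit 313) (nat_lit 223)) (XT.lf (nat_lit 0) (nat_lit 38041646745) (nat_lit 76) (nat_lit 91502274067) (nat_lit 76) (nat_lit 50401387437) (nat_lit 6) (nat_lit 4) (nat_lit 7) (nat_lit 5) (nat_lit 7) (nat_lit 4) (nat_lit 365) (nat_lit 313) (nat_lit 222))) (XT.nd (nat_lit 78) (nat_lit 0) (nat_lit 0) (XT.lf (nat_lit 0) (nat_lit 81828523910) (nat_lit 76) (nat_lit 75956276868) (nat_lit 76) (nat_lit 34852621061) (nat_lit 6) (nat_lit 4) (nat_lit 7) (nat_lit 5) (nat_lit 7) (nat_lit 4) (nat_lit 366) (nat_lit 313) (nat_lit 221)) (XT.lf (nat_lit 0) (nat_lit 129113078421) (nat_lit 76) (nat_lit 59169133206) (nat_lit 76) (nat_lit 18062913348) (nat_lit 6) (nat_lit 4) (nat_lit 7) (nat_lit 5) (nat_lit 7) (nat_lit 4) (nat_lit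 367) (nat_lit 313) (nat_lit 220))))) (XT.nd (nat_lit 312) (nat_lit 0) (nat_lit 0) (XT.nd (nat_lit 156) (nat_lit 76) (nat_lit 0) (XT.nd (nat_lit 78) (nat_lit 0) (nat_lit 0) (XT.lf (nat_lit 0) (nat_lit 63867136) (nat_lit 152) (nat_lit 40975750336) (nat_lit 76) (nat_lit 180109901670) (nat_lit 5) (nat_lit 5) (nat_lit 7) (nat_lit 5) (nat_lit 6) (nat_lit 4) (nat_lit 368) (nat_lit 313) (nat_lit 219)) (XT.lf (nat_lit 0) (nat_lit 18662512819) (nat_lit 152) (nat_lit 2292765576) (nat_lit 76) (nat_lit 216145647012) (nat_lit 5) (nat_lit 5) (nat_lit 7) (nat_lit 5) (nat_lit 6) (nat_lit 4) (nat_lit 369) (nat_lit 313) (nat_lit 218))) (XT.nd (nat_lit 78) (nat_lit 0) (nat_lit 0) (XT.lf (nat_lit 0) (nat_lit 39789933268) (nat_lit 152) (nat_lit 212732740966) (nat_lit 0) (nat_lit 1722500243) (nat_lit 4) (nat_lit 5) (nat_lit 6) (nat_lit 4) (nat_lit 4) (nat_lit 4) (nat_lit 370) (nat_lit 313) (nat_lit 217)) (XT.lf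 (nat_lit 0) (nat_lit 63213940349) (nat_lit 152) (nat_lit 184353750296) (nat_lit 0) (nat_lit 25144762274) (nat_lit 4) (nat_lit 5) (nat_lit 6) (nat_lit 4) (nat_lit 4) (nat_lit 4) (nat_lit 371) (nat_lit 313) (nat_lit 216)))) (XT.nd (nat_lit 156) (nat_lit 0) (nat_lit 0) (XT.nd (nat_lit 78) (nat_lit 0) (nat_lit 0) (XT.lf (nat_lit 0) (nat_lit 88509815690) (nat_lit 152) (nat_lit 153708441121) (nat_lit 0) (nat_lit 50439021827) (nat_lit 4) (nat_lit 5) (nat_lit 6) (nat_lit 4) (nat_lit 4) (nat_lit 4) (nat_lit 372) (nat_lit 313) (nat_lit 215)) (XT.lf (nat_lit 0) (nat_lit 115827460775) (nat_lit 152) (nat_lit 120615211610) (nat_lit 0) (nat_lit 77755170812) (nat_lit 4) (nat_lit 5) (nat_lit 6) (nat_lit 4) (nat_lit 4) (nat_lit 4) (nat_lit 373) (nat_lit 313) (nat_lit 214))) (XT.nd (nat_lit 78) (nat_lit 0) (nat_lit 0) (XT.lf (nat_lit 0) (nat_lit 145328757944) (nat_lit 152) (nat_lit 84877953734) (nat_lit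 0) (nat_lit 107255082704) (nat_lit 4) (nat_lit 5) (nat_lit 6) (nat_lit 4) (nat_lit 4) (nat_lit 4) (nat_lit 374) (nat_lit 313) (nat_lit 213)) (XT.nd (nat_lit 78) (nat_lit 0) (nat_lit 0) (XT.lf (nat_lit 0) (nat_lit 177188529700) (nat_lit 152) (nat_lit 46284891152) (nat_lit 0) (nat_lit 139113571796) (nat_lit 4) (nat_lit 5) (nat_lit 6) (nat_lit 4) (nat_lit 4) (nat_lit 4) (nat_lit 375) (nat_lit 313) (nat_lit 212)) (XT.lf (nat_lit 0) (nat_lit 211595574690) (nat_lit 152) (nat_lit 4607324234) (nat_lit 0) (nat_lit 173519429134) (nat_lit 4) (nat_lit 5) (nat_lit 6) (nat_lit 4) (nat_lit 4) (nat_lit 4) (nat_lit 376) (nat_lit 313) (nat_lit 211))))))))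
noncomputable def xc138 : XT := (XT.nd (nat_lit 1326) (nat_lit 0) (nat_lit 0) (XT.nd (nat_lit 624) (nat_lit 152) (nat_lit 0) (XT.nd (nat_lit 312) (nat_lit 0) (nat_lit 0) (XT.nd (nat_lit 156) (nat_lit 0) (nat_lit 0) (XT.nd (nat_lit 78) (nat_lit 0) (nat_lit 0) (XT.lf (nat_lit 0) (nat_lit 42529208446) (nat_lit 76) (nat_lit 207247406554) (nat_lit 76) (nat_lit 169170161320) (nat_lit 3) (nat_lit 4) (nat_lit 4) (nat_lit 5) (nat_lit 4) (nat_lit 4) (nat_lit 377) (nat_lit 313) (nat_lit 210)) (XT.lf (nat_lit 0) (nat_lit 93696032443) (nat_lit 76) (nat_lit 197440721373) (nat_lit 76) (nat_lit 159362457919) (nat_lit 3) (nat_lit 4) (nat_lit 4) (nat_lit 5) (nat_lit 4) (nat_lit 4) (nat_lit 378) (nat_lit 313) (nat_lit 209))) (XT.nd (nat_lit 78) (nat_lit 0) (nat_lit 0) (XT.lf (nat_lit 0) (nat_lit 148953745036) (nat_lit 76) (nat_lit 186850702102) (nat_lit 76) (nat_lit 148771495851) (nat_lit 3) (nat_lit 4)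 (nat_lit 4) (nat_lit 5) (nat_lit 4) (nat_lit 4) (nat_lit 379) (nat_lit 313) (nat_lit 208)) (XT.lf (nat_lit 0) (nat_lit 208629799337) (nat_lit 76) (nat_lit 175414593070) (nat_lit 76) (nat_lit 137334513860) (nat_lit 3) (nat_lit 4) (nat_lit 4) (nat_lit 5) (nat_lit 4) (nat_lit 4) (nat_lit 380) (nat_lit 313) (nat_lit 207)))) (XT.nd (nat_lit 156) (nat_lit 0) (nat_lit 0) (XT.nd (nat_lit 78) (nat_lit 0) (nat_lit 0) (XT.lf (nat_lit 0) (nat_lit 273077831223) (nat_lit 76) (nat_lit 163064624744) (nat_lit 76) (nat_lit 124983737238) (nat_lit 3) (nat_lit 4) (nat_lit 4) (nat_lit 5) (nat_lit 4) (nat_lit 4) (nat_lit 381) (nat_lit 313) (nat_lit 206)) (XT.lf (nat_lit 0) (nat_lit 342679754957) (nat_lit 76) (nat_lit 149727612124) (nat_lit 76) (nat_lit 111645976196) (nat_lit 3) (nat_lit 4) (nat_lit 4) (nat_lit 5) (nat_lit 4) (nat_lit 4) (nat_lit 382) (nat_lit 313) (nat_lit 205))) (XT.nd (nat_lit 78) (nat_lit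 0) (nat_lit 0) (XT.lf (nat_lit 0) (nat_lit 417848026383) (nat_lit 76) (nat_lit 135324521064) (nat_lit 76) (nat_lit 97242192152) (nat_lit 3) (nat_lit 4) (nat_lit 4) (nat_lit 5) (nat_lit 4) (nat_lit 4) (nat_lit 383) (nat_lit 313) (nat_lit 204)) (XT.lf (nat_lit 0) (nat_lit 499028087110) (nat_lit 76) (nat_lit 119769999911) (nat_lit 76) (nat_lit 81687029347) (nat_lit 3) (nat_lit 4) (nat_lit 4) (nat_lit 5) (nat_lit 4) (nat_lit 4) (nat_lit 384) (nat_lit 313) (nat_lit 203))))) (XT.nd (nat_lit 312) (nat_lit 152) (nat_lit 0) (XT.nd (nat_lit 156) (nat_lit 0) (nat_lit 0) (XT.nd (nat_lit 78) (nat_lit 0) (nat_lit 0) (XT.lf (nat_lit 0) (nat_lit 586701004165) (nat_lit 76) (nat_lit 102971873725) (nat_lit 76) (nat_lit 64888309040) (nat_lit 3) (nat_lit 4) (nat_lit 4) (nat_lit 5) (nat_lit 4) (nat_lit 4) (nat_lit 385) (nat_lit 313) (nat_lit 202)) (XT.lf (nat_lit 0) (nat_lit 681386320759) (nat_lit 76) (nat_lit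 84830598056) (nat_lit 76) (nat_lit 46746483258) (nat_lit 3) (nat_lit 4) (nat_lit 4) (nat_lit 5) (nat_lit 4) (nat_lit 4) (nat_lit 386) (nat_lit 313) (nat_lit 201))) (XT.nd (nat_lit 78) (nat_lit 0) (nat_lit 0) (XT.lf (nat_lit 0) (nat_lit 783645135065) (nat_lit 76) (nat_lit 65238669046) (nat_lit 76) (nat_lit 27154044885) (nat_lit 3) (nat_lit 4) (nat_lit 4) (nat_lit 5) (nat_lit 4) (nat_lit 4) (nat_lit 387) (nat_lit 313) (nat_lit 200)) (XT.lf (nat_lit 0) (nat_lit 894083425242) (nat_lit 76) (nat_lit 44079986378) (nat_lit 76) (nat_lit 5994890583) (nat_lit 3) (nat_lit 4) (nat_lit 4) (nat_lit 5) (nat_lit 4) (nat_lit 4) (nat_lit 388) (nat_lit 313) (nat_lit 199)))) (XT.nd (nat_lit 156) (nat_lit 0) (nat_lit 0) (XT.nd (nat_lit 78) (nat_lit 76) (nat_lit 0) (XT.lf (nat_lit 0) (nat_lit 16013143470) (nat_lit 152) (nat_lit 4778194072) (nat_lit 76) (nat_lit 996904669225) (nat_lit 2) (nat_lit 5) (nat_lit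 4) (nat_lit 5) (nat_lit 3) (nat_lit 4) (nat_lit 389) (nat_lit 313) (nat_lit 198)) (XT.lf (nat_lit 0) (nat_lit 40708765495) (nat_lit 152) (nat_lit 1050851430310) (nat_lit 0) (nat_lit 5444009161) (nat_lit 1) (nat_lit 5) (nat_lit 3) (nat_lit 4) (nat_lit 1) (nat_lit 4) (nat_lit 390) (nat_lit 313) (nat_lit 197))) (XT.nd (nat_lit 78) (nat_lit 0) (nat_lit 0) (XT.lf (nat_lit 0) (nat_lit 68053559665) (nat_lit 152) (nat_lit 1081761161076) (nat_lit 0) (nat_lit 32788456667) (nat_lit 1) (nat_lit 5) (nat_lit 3) (nat_lit 4) (nat_lit 1) (nat_lit 4) (nat_lit 391) (nat_lit 313) (nat_lit 196)) (XT.nd (nat_lit 78) (nat_lit 0) (nat_lit 0) (XT.lf (nat_lit 0) (nat_lit 97585428099) (nat_lit 152) (nat_lit 1115144676333) (nat_lit 0) (nat_lit 62320004116) (nat_lit 1) (nat_lit 5) (nat_lit 3) (nat_lit 4) (nat_lit 1) (nat_lit 4) (nat_lit 392) (nat_lit 313) (nat_lit 195)) (XT.lf (nat_lit 0) (nat_lit 129479374463) (nat_lit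 152) (nat_lit 1151199804320) (nat_lit 0) (nat_lit 94213653271) (nat_lit 1) (nat_lit 5) (nat_lit 3) (nat_lit 4) (nat_lit 1) (nat_lit 4) (nat_lit 393) (nat_lit 313) (nat_lit 194))))))) (XT.nd (nat_lit 624) (nat_lit 0) (nat_lit 0) (XT.nd (nat_lit 312) (nat_lit 0) (nat_lit 0) (XT.nd (nat_lit 156) (nat_lit 0) (nat_lit 0) (XT.nd (nat_lit 78) (nat_lit 0) (nat_lit 0) (XT.lf (nat_lit 0) (nat_lit 163924399920) (nat_lit 152) (nat_lit 1190140205055) (nat_lit 0) (nat_lit 128658403534) (nat_lit 1) (nat_lit 5) (nat_lit 3) (nat_lit 4) (nat_lit 1) (nat_lit 4) (nat_lit 394) (nat_lit 313) (nat_lit 193)) (XT.lf (nat_lit 0) (nat_lit 201124623139) (nat_lit 152) (nat_lit 1232196636468) (nat_lit 0) (nat_lit 165858371945) (nat_lit 1) (nat_lit 5) (nat_lit 3) (nat_lit 4) (nat_lit 1) (nat_lit 4) (nat_lit 395) (nat_lit 313) (nat_lit 192))) (XT.nd (nat_lit 78) (nat_lit 0) (nat_lit 0) (XT.lf (nat_lit 0) (nat_lit 241300489888)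 (nat_lit 152) (nat_lit 1277618321855) (nat_lit 0) (nat_lit 206034002760) (nat_lit 1) (nat_lit 5) (nat_lit 3) (nat_lit 4) (nat_lit 1) (nat_lit 4) (nat_lit 396) (nat_lit 313) (nat_lit 191)) (XT.lf (nat_lit 0) (nat_lit 284690079376) (nat_lit 152) (nat_lit 1326674426761) (nat_lit 0) (nat_lit 249423373791) (nat_lit 1) (nat_lit 5) (nat_lit 3) (nat_lit 4) (nat_lit 1) (nat_lit 4) (nat_lit 397) (nat_lit 313) (nat_lit 190)))) (XT.nd (nat_lit 156) (nat_lit 0) (nat_lit 0) (XT.nd (nat_lit 78) (nat_lit 0) (nat_lit 0) (XT.lf (nat_lit 0) (nat_lit 331550515099) (nat_lit 152) (nat_lit 1379655654029) (nat_lit 0) (nat_lit 296283607238) (nat_lit 1) (nat_lit 5) (nat_lit 3) (nat_lit 4) (nat_lit 1) (nat_lit 4) (nat_lit 398) (nat_lit 313) (nat_lit 189)) (XT.lf (nat_lit 0) (nat_lit 382159488525) (nat_lit 152) (nat_lit 1436875966488) (nat_lit 0) (nat_lit 346892393372) (nat_lit 1) (nat_lit 5) (nat_lit 3) (nat_lit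 4) (nat_lit 1) (nat_lit 4) (nat_lit 399) (nat_lit 313) (nat_lit 188))) (XT.nd (nat_lit 78) (nat_lit 0) (nat_lit 0) (XT.lf (nat_lit 0) (nat_lit 436816904683) (nat_lit 152) (nat_lit 1498674447470) (nat_lit 0) (nat_lit 401549636112) (nat_lit 1) (nat_lit 5) (nat_lit 3) (nat_lit 4) (nat_lit 1) (nat_lit 4) (nat_lit 400) (nat_lit 313) (nat_lit 187)) (XT.lf (nat_lit 0) (nat_lit 495846659373) (nat_lit 152) (nat_lit 1565417310196) (nat_lit 0) (nat_lit 460579230229) (nat_lit 1) (nat_lit 5) (nat_lit 3) (nat_lit 4) (nat_lit 1) (nat_lit 4) (nat_lit 401) (nat_lit 313) (nat_lit 186))))) (XT.nd (nat_lit 312) (nat_lit 0) (nat_lit 0) (XT.nd (nat_lit 156) (nat_lit 0) (nat_lit 0) (XT.nd (nat_lit 78) (nat_lit 0) (nat_lit 0) (XT.lf (nat_lit 0) (nat_lit 559598558547) (nat_lit 152) (nat_lit 1637500067926) (nat_lit 0) (nat_lit 524330980725) (nat_lit 1) (nat_lit 5) (nat_lit 3) (nat_lit 4) (nat_lit 1) (nat_lit 4)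 (nat_lit 402) (nat_lit 313) (nat_lit 185)) (XT.lf (nat_lit 0) (nat_lit 628450391239) (nat_lit 152) (nat_lit 1715349877744) (nat_lit 0) (nat_lit 593182675752) (nat_lit 1) (nat_lit 5) (nat_lit 3) (nat_lit 4) (nat_lit 1) (nat_lit 4) (nat_lit 403) (nat_lit 313) (nat_lit 184))) (XT.nd (nat_lit 78) (nat_lit 0) (nat_lit 0) (XT.lf (nat_lit 0) (nat_lit 702810168309) (nat_lit 152) (nat_lit 1799428071856) (nat_lit 0) (nat_lit 667542325354) (nat_lit 1) (nat_lit 5) (nat_lit 3) (nat_lit 4) (nat_lit 1) (nat_lit 4) (nat_lit 404) (nat_lit 313) (nat_lit 183)) (XT.lf (nat_lit 0) (nat_lit 783118540287) (nat_lit 152) (nat_lit 1890232891412) (nat_lit 0) (nat_lit 747850579306) (nat_lit 1) (nat_lit 5) (nat_lit 3) (nat_lit 4) (nat_lit 1) (nat_lit 4) (nat_lit 405) (nat_lit 313) (nat_lit 182)))) (XT.nd (nat_lit 156) (nat_lit 0) (nat_lit 0) (XT.nd (nat_lit 78) (nat_lit 0) (nat_lit 0) (XT.lf (nat_lit 0) (nat_lit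 869851408637) (nat_lit 152) (nat_lit 1988302439046) (nat_lit 0) (nat_lit 834583338373) (nat_lit 1) (nat_lit 5) (nat_lit 3) (nat_lit 4) (nat_lit 1) (nat_lit 4) (nat_lit 406) (nat_lit 313) (nat_lit 181)) (XT.lf (nat_lit 0) (nat_lit 963522745912) (nat_lit 152) (nat_lit 2094217867634) (nat_lit 0) (nat_lit 928254574460) (nat_lit 1) (nat_lit 5) (nat_lit 3) (nat_lit 4) (nat_lit 1) (nat_lit 4) (nat_lit 407) (nat_lit 313) (nat_lit 180))) (XT.nd (nat_lit 78) (nat_lit 0) (nat_lit 0) (XT.lf (nat_lit 0) (nat_lit 1064687641518) (nat_lit 152) (nat_lit 2208606824160) (nat_lit 0) (nat_lit 1029419376374) (nat_lit 1) (nat_lit 5) (nat_lit 3) (nat_lit 4) (nat_lit 1) (nat_lit 4) (nat_lit 408) (nat_lit 313) (nat_lit 179)) (XT.nd (nat_lit 78) (nat_lit 0) (nat_lit 0) (XT.lf (nat_lit 0) (nat_lit 1173945591133) (nat_lit 152) (nat_lit 2332147169106) (nat_lit 0) (nat_lit 1138677239237) (nat_lit 1) (nat_lit 5) (nat_lit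 3) (nat_lit 4) (nat_lit 1) (nat_lit 4) (nat_lit 409) (nat_lit 313) (nat_lit 178)) (XT.lf (nat_lit 0) (nat_lit 1291944049274) (nat_lit 152) (nat_lit 2465570993406) (nat_lit 0) (nat_lit 1256675617051) (nat_lit 1) (nat_lit 5) (nat_lit 3) (nat_lit 4) (nat_lit 1) (nat_lit 4) (nat_lit 410) (nat_lit 313) (nat_lit 177))))))))
noncomputable def xc139 : XT := (XT.nd (nat_lit 40482) (nat_lit 0) (nat_lit 1140) (XT.nd (nat_lit 39780) (nat_lit 0) (nat_lit 2584) (XT.nd (nat_lit 39468) (nat_lit 0) (nat_lit 3724) (XT.nd (nat_lit 39312) (nat_lit 0) (nat_lit 3648) (XT.nd (nat_lit 78) (nat_lit 0) (nat_lit 0) (XT.lf (nat_lit 0) (nat_lit 1419382266062) (nat_lit 152) (nat_lit 2609668956759) (nat_lit 0) (nat_lit 1384113759463) (nat_lit 1) (nat_lit 5) (nat_lit 3) (nat_lit 4) (nat_lit 1) (nat_lit 4) (nat_lit 411) (nat_lit 313) (nat_lit 176)) (XT.lf (nat_lit 0) (nat_lit 1557015430930) (nat_lit 152) (nat_lit 2765294973023)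 (nat_lit 0) (nat_lit 1521746855464) (nat_lit 1) (nat_lit 5) (nat_lit 3) (nat_lit 4) (nat_lit 1) (nat_lit 4) (nat_lit 412) (nat_lit 313) (nat_lit 175))) (XT.nd (nat_lit 78) (nat_lit 0) (nat_lit 0) (XT.lf (nat_lit 0) (nat_lit 2301300610) (nat_lit 532) (nat_lit 1921253851) (nat_lit 532) (nat_lit 1921253851) (nat_lit 49) (nat_lit 3) (nat_lit 56) (nat_lit 3) (nat_lit 56) (nat_lit 5) (nat_lit 314) (nat_lit 314) (nat_lit 272)) (XT.lf (nat_lit 76) (nat_lit 1966361324) (nat_lit 0) (nat_lit 3286501612) (nat_lit 532) (nat_lit 7487922161) (nat_lit 50) (nat_lit 5) (nat_lit 49) (nat_lit 3) (nat_lit 56) (nat_lit 5) (nat_lit 315) (nat_lit 314) (nat_lit 271)))) (XT.nd (nat_lit 156) (nat_lit 0) (nat_lit 76) (XT.nd (nat_lit 78) (nat_lit 0) (nat_lit 0) (XT.lf (nat_lit 0) (nat_lit 6075851182) (nat_lit 456) (nat_lit 4848840295) (nat_lit 532) (nat_lit 2295963527) (nat_lit 50) (nat_lit 5) (nat_lit 56) (nat_lit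 5) (nat_lit 57) (nat_lit 5) (nat_lit 316) (nat_lit 314) (nat_lit 270)) (XT.lf (nat_lit 76) (nat_lit 1515470793) (nat_lit 0) (nat_lit 5532098490) (nat_lit 532) (nat_lit 6684810632) (nat_lit 51) (nat_lit 5) (nat_lit 50) (nat_lit 5) (nat_lit 57) (nat_lit 5) (nat_lit 317) (nat_lit 314) (nat_lit 269))) (XT.nd (nat_lit 78) (nat_lit 0) (nat_lit 0) (XT.lf (nat_lit 0) (nat_lit 8203700746) (nat_lit 456) (nat_lit 5648627042) (nat_lit 532) (nat_lit 424270472) (nat_lit 51) (nat_lit 5) (nat_lit 57) (nat_lit 5) (nat_lit 58) (nat_lit 5) (nat_lit 318) (nat_lit 314) (nat_lit 268)) (XT.lf (nat_lit 76) (nat_lit 1342265702) (nat_lit 0) (nat_lit 8252359275) (nat_lit 532) (nat_lit 5258427799) (nat_lit 52) (nat_lit 5) (nat_lit 51) (nat_lit 5) (nat_lit 58) (nat_lit 5) (nat_lit 319) (nat_lit 314) (nat_lit 267))))) (XT.nd (nat_lit 312) (nat_lit 456) (nat_lit 0) (XT.nd (nat_lit 156) (nat_lit 380) (nat_lit 0) (XT.nd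 (nat_lit 78) (nat_lit 380) (nat_lit 0) (XT.lf (nat_lit 76) (nat_lit 9188031681) (nat_lit 0) (nat_lit 2031442224) (nat_lit 532) (nat_lit 4246414430) (nat_lit 52) (nat_lit 5) (nat_lit 51) (nat_lit 5) (nat_lit 58) (nat_lit 5) (nat_lit 320) (nat_lit 314) (nat_lit 266)) (XT.lf (nat_lit 0) (nat_lit 1468119056) (nat_lit 456) (nat_lit 11624925318) (nat_lit 532) (nat_lit 3025278733) (nat_lit 46) (nat_lit 5) (nat_lit 52) (nat_lit 5) (nat_lit 53) (nat_lit 5) (nat_lit 321) (nat_lit 314) (nat_lit 265))) (XT.nd (nat_lit 78) (nat_lit 380) (nat_lit 0) (XT.lf (nat_lit 0) (nat_lit 10109618418) (nat_lit 456) (nat_lit 5202211822) (nat_lit 532) (nat_lit 1495561835) (nat_lit 46) (nat_lit 5) (nat_lit 52) (nat_lit 5) (nat_lit 53) (nat_lit 5) (nat_lit 322) (nat_lit 314) (nat_lit 264)) (XT.lf (nat_lit 0) (nat_lit 212484089) (nat_lit 380) (nat_lit 15632802169) (nat_lit 76) (nat_lit 1700952977) (nat_lit 41) (nat_lit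 5) (nat_lit 46) (nat_lit 5) (nat_lit 42) (nat_lit 5) (nat_lit 323) (nat_lit 314) (nat_lit 263)))) (XT.nd (nat_lit 156) (nat_lit 228) (nat_lit 0) (XT.nd (nat_lit 78) (nat_lit 228) (nat_lit 0) (XT.lf (nat_lit 0) (nat_lit 2274344184) (nat_lit 380) (nat_lit 6940433064) (nat_lit 76) (nat_lit 9102523916) (nat_lit 41) (nat_lit 5) (nat_lit 46) (nat_lit 5) (nat_lit 42) (nat_lit 5) (nat_lit 324) (nat_lit 314) (nat_lit 262)) (XT.lf (nat_lit 0) (nat_lit 2550253815) (nat_lit 228) (nat_lit 1989049325) (nat_lit 304) (nat_lit 14607741264) (nat_lit 38) (nat_lit 5) (nat_lit 41) (nat_lit 5) (nat_lit 42) (nat_lit 5) (nat_lit 325) (nat_lit 314) (nat_lit 261))) (XT.nd (nat_lit 78) (nat_lit 228) (nat_lit 0) (XT.lf (nat_lit 0) (nat_lit 7297904441) (nat_lit 304) (nat_lit 7003637841) (nat_lit 76) (nat_lit 5716673948) (nat_lit 38) (nat_lit 5) (nat_lit 42) (nat_lit 5) (nat_lit 39) (nat_lit 5) (nat_lit 326) (nat_lit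 314) (nat_lit 260)) (XT.nd (nat_lit 78) (nat_lit 0) (nat_lit 0) (XT.lf (nat_lit 0) (nat_lit 3454225084) (nat_lit 228) (nat_lit 6937251392) (nat_lit 304) (nat_lit 10558504180) (nat_lit 35) (nat_lit 5) (nat_lit 38) (nat_lit 5) (nat_lit 39) (nat_lit 5) (nat_lit 327) (nat_lit 314) (nat_lit 259)) (XT.lf (nat_lit 0) (nat_lit 13933848949) (nat_lit 304) (nat_lit 6848135883) (nat_lit 76) (nat_lit 1158234621) (nat_lit 35) (nat_lit 5) (nat_lit 39) (nat_lit 5) (nat_lit 36) (nat_lit 5) (nat_lit 328) (nat_lit 314) (nat_lit 258))))))) (XT.nd (nat_lit 702) (nat_lit 532) (nat_lit 0) (XT.nd (nat_lit 312) (nat_lit 456) (nat_lit 0) (XT.nd (nat_lit 156) (nat_lit 304) (nat_lit 0) (XT.nd (nat_lit 78) (nat_lit 0) (nat_lit 0) (XT.lf (nat_lit 0) (nat_lit 4682396648) (nat_lit 152) (nat_lit 13351875568) (nat_lit 228) (nat_lit 4953467804) (nat_lit 33) (nat_lit 5) (nat_lit 35) (nat_lit 5) (nat_lit 36) (nat_lit 5)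 (nat_lit 329) (nat_lit 314) (nat_lit 257)) (XT.lf (nat_lit 0) (nat_lit 17502471288) (nat_lit 152) (nat_lit 5130165002) (nat_lit 228) (nat_lit 1472866299) (nat_lit 33) (nat_lit 5) (nat_lit 35) (nat_lit 5) (nat_lit 36) (nat_lit 5) (nat_lit 330) (nat_lit 314) (nat_lit 256))) (XT.nd (nat_lit 78) (nat_lit 0) (nat_lit 0) (XT.lf (nat_lit 0) (nat_lit 2401575912) (nat_lit 304) (nat_lit 19120294217) (nat_lit 76) (nat_lit 3768065095) (nat_lit 29) (nat_lit 5) (nat_lit 33) (nat_lit 5) (nat_lit 30) (nat_lit 5) (nat_lit 331) (nat_lit 314) (nat_lit 255)) (XT.lf (nat_lit 0) (nat_lit 6808972971) (nat_lit 304) (nat_lit 6413444031) (nat_lit 76) (nat_lit 13319465293) (nat_lit 29) (nat_lit 5) (nat_lit 33) (nat_lit 5) (nat_lit 30) (nat_lit 5) (nat_lit 332) (nat_lit 314) (nat_lit 254)))) (XT.nd (nat_lit 156) (nat_lit 304) (nat_lit 0) (XT.nd (nat_lit 78) (nat_lit 0) (nat_lit 0) (XT.lf (nat_lit 0) (nat_lit 7673230443)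 (nat_lit 152) (nat_lit 4065544557) (nat_lit 228) (nat_lit 16141649270) (nat_lit 27) (nat_lit 5) (nat_lit 29) (nat_lit 5) (nat_lit 30) (nat_lit 5) (nat_lit 333) (nat_lit 314) (nat_lit 253)) (XT.lf (nat_lit 0) (nat_lit 17368673205) (nat_lit 228) (nat_lit 6226121535) (nat_lit 76) (nat_lit 5706820300) (nat_lit 27) (nat_lit 5) (nat_lit 30) (nat_lit 5) (nat_lit 28) (nat_lit 5) (nat_lit 334) (nat_lit 314) (nat_lit 252))) (XT.nd (nat_lit 78) (nat_lit 152) (nat_lit 0) (XT.lf (nat_lit 0) (nat_lit 9209011536) (nat_lit 152) (nat_lit 14553821699) (nat_lit 228) (nat_lit 7048578982) (nat_lit 25) (nat_lit 5) (nat_lit 27) (nat_lit 5) (nat_lit 28) (nat_lit 5) (nat_lit 335) (nat_lit 314) (nat_lit 251)) (XT.nd (nat_lit 78) (nat_lit 152) (nat_lit 0) (XT.lf (nat_lit 0) (nat_lit 26214035438) (nat_lit 152) (nat_lit 4612039406) (nat_lit 228) (nat_lit 1603333626) (nat_lit 25) (nat_lit 5) (nat_lit 27) (nat_lit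 5) (nat_lit 28) (nat_lit 5) (nat_lit 336) (nat_lit 314) (nat_lit 250)) (XT.lf (nat_lit 0) (nat_lit 4468368740) (nat_lit 152) (nat_lit 23482467297) (nat_lit 76) (nat_lit 6185409528) (nat_lit 23) (nat_lit 5) (nat_lit 25) (nat_lit 5) (nat_lit 24) (nat_lit 5) (nat_lit 337) (nat_lit 314) (nat_lit 249)))))) (XT.nd (nat_lit 312) (nat_lit 304) (nat_lit 0) (XT.nd (nat_lit 156) (nat_lit 76) (nat_lit 0) (XT.nd (nat_lit 78) (nat_lit 152) (nat_lit 0) (XT.lf (nat_lit 0) (nat_lit 11221582680) (nat_lit 152) (nat_lit 6924532808) (nat_lit 76) (nat_lit 17807606017) (nat_lit 23) (nat_lit 5) (nat_lit 25) (nat_lit 5) (nat_lit 24) (nat_lit 5) (nat_lit 338) (nat_lit 314) (nat_lit 248)) (XT.lf (nat_lit 0) (nat_lit 11516956135) (nat_lit 152) (nat_lit 7264201500) (nat_lit 228) (nat_lit 19114163691) (nat_lit 21) (nat_lit 5) (nat_lit 23) (nat_lit 5) (nat_lit 24) (nat_lit 5) (nat_lit 339) (nat_lit 314) (nat_lit 247)))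 (XT.nd (nat_lit 78) (nat_lit 76) (nat_lit 0) (XT.lf (nat_lit 0) (nat_lit 27237060157) (nat_lit 228) (nat_lit 8279864212) (nat_lit 76) (nat_lit 4452012909) (nat_lit 21) (nat_lit 5) (nat_lit 24) (nat_lit 5) (nat_lit 22) (nat_lit 4) (nat_lit 340) (nat_lit 314) (nat_lit 246)) (XT.lf (nat_lit 0) (nat_lit 11644148398) (nat_lit 76) (nat_lit 25184168384) (nat_lit 152) (nat_lit 5343427273) (nat_lit 20) (nat_lit 5) (nat_lit 21) (nat_lit 5) (nat_lit 22) (nat_lit 4) (nat_lit 341) (nat_lit 314) (nat_lit 245)))) (XT.nd (nat_lit 156) (nat_lit 76) (nat_lit 0) (XT.nd (nat_lit 78) (nat_lit 152) (nat_lit 0) (XT.lf (nat_lit 0) (nat_lit 2726748462) (nat_lit 152) (nat_lit 10985267184) (nat_lit 76) (nat_lit 30815896788) (nat_lit 19) (nat_lit 5) (nat_lit 21) (nat_lit 5) (nat_lit 20) (nat_lit 5) (nat_lit 342) (nat_lit 314) (nat_lit 244)) (XT.lf (nat_lit 0) (nat_lit 10491396481) (nat_lit 152) (nat_lit 905750235)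 (nat_lit 228) (nat_lit 35644870563) (nat_lit 17) (nat_lit 5) (nat_lit 19) (nat_lit 5) (nat_lit 20) (nat_lit 5) (nat_lit 343) (nat_lit 314) (nat_lit 243))) (XT.nd (nat_lit 78) (nat_lit 76) (nat_lit 0) (XT.lf (nat_lit 0) (nat_lit 21371326889) (nat_lit 228) (nat_lit 15756198060) (nat_lit 76) (nat_lit 12580922453) (nat_lit 17) (nat_lit 5) (nat_lit 20) (nat_lit 5) (nat_lit 18) (nat_lit 4) (nat_lit 344) (nat_lit 314) (nat_lit 242)) (XT.nd (nat_lit 78) (nat_lit 0) (nat_lit 0) (XT.lf (nat_lit 0) (nat_lit 7015041082) (nat_lit 76) (nat_lit 25312439166) (nat_lit 152) (nat_lit 20245996823) (nat_lit 16) (nat_lit 5) (nat_lit 17) (nat_lit 5) (nat_lit 18) (nat_lit 4) (nat_lit 345) (nat_lit 314) (nat_lit 241)) (XT.lf (nat_lit 0) (nat_lit 32490273881) (nat_lit 76) (nat_lit 12092731325) (nat_lit 152) (nat_lit 11050881187) (nat_lit 16) (nat_lit 5) (nat_lit 17) (nat_lit 5) (nat_lit 18) (nat_lit 4) (nat_lit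 346) (nat_lit 314) (nat_lit 240))))))))
noncomputable def xc140 : XT := (XT.nd (nat_lit 1326) (nat_lit 304) (nat_lit 0) (XT.nd (nat_lit 624) (nat_lit 304) (nat_lit 0) (XT.nd (nat_lit 312) (nat_lit 152) (nat_lit 0) (XT.nd (nat_lit 156) (nat_lit 76) (nat_lit 0) (XT.nd (nat_lit 78) (nat_lit 76) (nat_lit 0) (XT.lf (nat_lit 0) (nat_lit 1051227180) (nat_lit 76) (nat_lit 56838099119) (nat_lit 76) (nat_lit 1044180892) (nat_lit 15) (nat_lit 4) (nat_lit 16) (nat_lit 5) (nat_lit 16) (nat_lit 4) (nat_lit 347) (nat_lit 314) (nat_lit 239)) (XT.lf (nat_lit 0) (nat_lit 10230571133) (nat_lit 152) (nat_lit 34527237278) (nat_lit 76) (nat_lit 17644038897) (nat_lit 14) (nat_lit 5) (nat_lit 16) (nat_lit 5) (nat_lit 15) (nat_lit 4) (nat_lit 348) (nat_lit 314) (nat_lit 238))) (XT.nd (nat_lit 78) (nat_lit 76) (nat_lit 0) (XT.lf (nat_lit 0) (nat_lit 22344022791) (nat_lit 152) (nat_lit 9343208765) (nat_lit 76)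 (nat_lit 34458808369) (nat_lit 14) (nat_lit 5) (nat_lit 16) (nat_lit 5) (nat_lit 15) (nat_lit 4) (nat_lit 349) (nat_lit 314) (nat_lit 237)) (XT.lf (nat_lit 0) (nat_lit 18783798462) (nat_lit 76) (nat_lit 17088143995) (nat_lit 152) (nat_lit 34282199333) (nat_lit 13) (nat_lit 5) (nat_lit 14) (nat_lit 5) (nat_lit 15) (nat_lit 4) (nat_lit 350) (nat_lit 314) (nat_lit 236)))) (XT.nd (nat_lit 156) (nat_lit 76) (nat_lit 0) (XT.nd (nat_lit 78) (nat_lit 76) (nat_lit 0) (XT.lf (nat_lit 0) (nat_lit 49681225825) (nat_lit 76) (nat_lit 1050174980) (nat_lit 152) (nat_lit 23731551398) (nat_lit 13) (nat_lit 5) (nat_lit 14) (nat_lit 5) (nat_lit 15) (nat_lit 4) (nat_lit 351) (nat_lit 314) (nat_lit 235)) (XT.lf (nat_lit 0) (nat_lit 3718031733) (nat_lit 76) (nat_lit 63536507805) (nat_lit 76) (nat_lit 11823938464) (nat_lit 12) (nat_lit 4) (nat_lit 13) (nat_lit 5) (nat_lit 13) (nat_lit 4) (nat_lit 352) (nat_lit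 314) (nat_lit 234))) (XT.nd (nat_lit 78) (nat_lit 0) (nat_lit 0) (XT.lf (nat_lit 0) (nat_lit 1701119587) (nat_lit 152) (nat_lit 48182374203) (nat_lit 76) (nat_lit 34120428063) (nat_lit 11) (nat_lit 5) (nat_lit 13) (nat_lit 5) (nat_lit 12) (nat_lit 4) (nat_lit 353) (nat_lit 314) (nat_lit 233)) (XT.lf (nat_lit 0) (nat_lit 15664032683) (nat_lit 152) (nat_lit 19147046080) (nat_lit 76) (nat_lit 54488184744) (nat_lit 11) (nat_lit 5) (nat_lit 13) (nat_lit 5) (nat_lit 12) (nat_lit 4) (nat_lit 354) (nat_lit 314) (nat_lit 232))))) (XT.nd (nat_lit 312) (nat_lit 152) (nat_lit 0) (XT.nd (nat_lit 156) (nat_lit 76) (nat_lit 0) (XT.nd (nat_lit 78) (nat_lit 0) (nat_lit 0) (XT.lf (nat_lit 0) (nat_lit 12844499178) (nat_lit 76) (nat_lit 18203436636) (nat_lit 152) (nat_lit 63945983391) (nat_lit 10) (nat_lit 5) (nat_lit 11) (nat_lit 5) (nat_lit 12) (nat_lit 4) (nat_lit 355) (nat_lit 314) (nat_lit 231)) (XT.lf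 (nat_lit 0) (nat_lit 48188337598) (nat_lit 152) (nat_lit 52634360460) (nat_lit 0) (nat_lit 279389417) (nat_lit 10) (nat_lit 5) (nat_lit 12) (nat_lit 4) (nat_lit 10) (nat_lit 4) (nat_lit 356) (nat_lit 314) (nat_lit 230))) (XT.nd (nat_lit 78) (nat_lit 76) (nat_lit 0) (XT.lf (nat_lit 0) (nat_lit 67168251227) (nat_lit 152) (nat_lit 21239430959) (nat_lit 0) (nat_lit 19253767451) (nat_lit 10) (nat_lit 5) (nat_lit 12) (nat_lit 4) (nat_lit 10) (nat_lit 4) (nat_lit 357) (nat_lit 314) (nat_lit 229)) (XT.lf (nat_lit 0) (nat_lit 13325816925) (nat_lit 76) (nat_lit 74657026466) (nat_lit 76) (nat_lit 26737417139) (nat_lit 9) (nat_lit 4) (nat_lit 10) (nat_lit 5) (nat_lit 10) (nat_lit 4) (nat_lit 358) (nat_lit 314) (nat_lit 228)))) (XT.nd (nat_lit 156) (nat_lit 76) (nat_lit 0) (XT.nd (nat_lit 78) (nat_lit 76) (nat_lit 0) (XT.lf (nat_lit 0) (nat_lit 51856502267) (nat_lit 76) (nat_lit 59182749853) (nat_lit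 76) (nat_lit 11258394645) (nat_lit 9) (nat_lit 4) (nat_lit 10) (nat_lit 5) (nat_lit 10) (nat_lit 4) (nat_lit 359) (nat_lit 314) (nat_lit 227)) (XT.lf (nat_lit 0) (nat_lit 5181998094) (nat_lit 152) (nat_lit 37150193504) (nat_lit 76) (nat_lit 88138841154) (nat_lit 8) (nat_lit 5) (nat_lit 10) (nat_lit 5) (nat_lit 9) (nat_lit 4) (nat_lit 360) (nat_lit 314) (nat_lit 226))) (XT.nd (nat_lit 78) (nat_lit 76) (nat_lit 0) (XT.lf (nat_lit 0) (nat_lit 22325790606) (nat_lit 152) (nat_lit 1495173907) (nat_lit 76) (nat_lit 115454219820) (nat_lit 8) (nat_lit 5) (nat_lit 10) (nat_lit 5) (nat_lit 9) (nat_lit 4) (nat_lit 361) (nat_lit 314) (nat_lit 225)) (XT.nd (nat_lit 78) (nat_lit 0) (nat_lit 0) (XT.lf (nat_lit 0) (nat_lit 38954636652) (nat_lit 76) (nat_lit 2819989527) (nat_lit 152) (nat_lit 106934360456) (nat_lit 7) (nat_lit 5) (nat_lit 8) (nat_lit 5) (nat_lit 9) (nat_lit 4) (nat_lit 362) (nat_lit 314)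 (nat_lit 224)) (XT.lf (nat_lit 0) (nat_lit 63295678944) (nat_lit 152) (nat_lit 76653789603) (nat_lit 0) (nat_lit 18906721383) (nat_lit 7) (nat_lit 5) (nat_lit 9) (nat_lit 4) (nat_lit 7) (nat_lit 4) (nat_lit 363) (nat_lit 314) (nat_lit 223))))))) (XT.nd (nat_lit 624) (nat_lit 76) (nat_lit 0) (XT.nd (nat_lit 312) (nat_lit 152) (nat_lit 0) (XT.nd (nat_lit 156) (nat_lit 76) (nat_lit 0) (XT.nd (nat_lit 78) (nat_lit 0) (nat_lit 0) (XT.lf (nat_lit 0) (nat_lit 86608614956) (nat_lit 152) (nat_lit 40984273439) (nat_lit 0) (nat_lit 42216666685) (nat_lit 7) (nat_lit 5) (nat_lit 9) (nat_lit 4) (nat_lit 7) (nat_lit 4) (nat_lit 364) (nat_lit 314) (nat_lit 222)) (XT.lf (nat_lit 0) (nat_lit 111783764132) (nat_lit 152) (nat_lit 2466605766) (nat_lit 0) (nat_lit 67389046686) (nat_lit 7) (nat_lit 5) (nat_lit 9) (nat_lit 4) (nat_lit 7) (nat_lit 4) (nat_lit 365) (nat_lit 314) (nat_lit 221))) (XT.nd (nat_lit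 78) (nat_lit 0) (nat_lit 0) (XT.lf (nat_lit 0) (nat_lit 41187849297) (nat_lit 76) (nat_lit 98773032011) (nat_lit 76) (nat_lit 54375750513) (nat_lit 6) (nat_lit 4) (nat_lit 7) (nat_lit 5) (nat_lit 7) (nat_lit 4) (nat_lit 366) (nat_lit 314) (nat_lit 220)) (XT.lf (nat_lit 0) (nat_lit 88470056574) (nat_lit 76) (nat_lit 81987016071) (nat_lit 76) (nat_lit 37587360452) (nat_lit 6) (nat_lit 4) (nat_lit 7) (nat_lit 5) (nat_lit 7) (nat_lit 4) (nat_lit 367) (nat_lit 314) (nat_lit 219)))) (XT.nd (nat_lit 156) (nat_lit 76) (nat_lit 0) (XT.nd (nat_lit 78) (nat_lit 76) (nat_lit 0) (XT.lf (nat_lit 0) (nat_lit 139530319835) (nat_lit 76) (nat_lit 63860290765) (nat_lit 76) (nat_lit 19458436884) (nat_lit 6) (nat_lit 4) (nat_lit 7) (nat_lit 5) (nat_lit 7) (nat_lit 4) (nat_lit 368) (nat_lit 314) (nat_lit 218)) (XT.lf (nat_lit 0) (nat_lit 112525455) (nat_lit 152) (nat_lit 44169836359) (nat_lit 76) (nat_lit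 194555616317) (nat_lit 5) (nat_lit 5) (nat_lit 7) (nat_lit 5) (nat_lit 6) (nat_lit 4) (nat_lit 369) (nat_lit 314) (nat_lit 217))) (XT.nd (nat_lit 78) (nat_lit 76) (nat_lit 0) (XT.lf (nat_lit 0) (nat_lit 20195836945) (nat_lit 152) (nat_lit 2398433114) (nat_lit 76) (nat_lit 233471486284) (nat_lit 5) (nat_lit 5) (nat_lit 7) (nat_lit 5) (nat_lit 6) (nat_lit 4) (nat_lit 370) (nat_lit 314) (nat_lit 216)) (XT.lf (nat_lit 0) (nat_lit 43013167638) (nat_lit 152) (nat_lit 229673307174) (nat_lit 0) (nat_lit 1895094478) (nat_lit 4) (nat_lit 5) (nat_lit 6) (nat_lit 4) (nat_lit 4) (nat_lit 4) (nat_lit 371) (nat_lit 314) (nat_lit 215))))) (XT.nd (nat_lit 312) (nat_lit 76) (nat_lit 0) (XT.nd (nat_lit 156) (nat_lit 0) (nat_lit 0) (XT.nd (nat_lit 78) (nat_lit 0) (nat_lit 0) (XT.lf (nat_lit 0) (nat_lit 68308129381) (nat_lit 152) (nat_lit 199029778959) (nat_lit 0) (nat_lit 27188560122) (nat_lit 4) (nat_lit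 5) (nat_lit 6) (nat_lit 4) (nat_lit 4) (nat_lit 4) (nat_lit 372) (nat_lit 314) (nat_lit 214)) (XT.lf (nat_lit 0) (nat_lit 95624928542) (nat_lit 152) (nat_lit 165938198485) (nat_lit 0) (nat_lit 54503974005) (nat_lit 4) (nat_lit 5) (nat_lit 6) (nat_lit 4) (nat_lit 4) (nat_lit 4) (nat_lit 373) (nat_lit 314) (nat_lit 213))) (XT.nd (nat_lit 78) (nat_lit 0) (nat_lit 0) (XT.lf (nat_lit 0) (nat_lit 125125442448) (nat_lit 152) (nat_lit 130202467495) (nat_lit 0) (nat_lit 84003205247) (nat_lit 4) (nat_lit 5) (nat_lit 6) (nat_lit 4) (nat_lit 4) (nat_lit 4) (nat_lit 374) (nat_lit 314) (nat_lit 212)) (XT.lf (nat_lit 0) (nat_lit 156984488960) (nat_lit 152) (nat_lit 91610818697) (nat_lit 0) (nat_lit 115861064108) (nat_lit 4) (nat_lit 5) (nat_lit 6) (nat_lit 4) (nat_lit 4) (nat_lit 4) (nat_lit 375) (nat_lit 314) (nat_lit 211)))) (XT.nd (nat_lit 156) (nat_lit 76) (nat_lit 0) (XT.nd (nat_lit 78) (nat_lit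 0) (nat_lit 0) (XT.lf (nat_lit 0) (nat_lit 191390862429) (nat_lit 152) (nat_lit 49934560837) (nat_lit 0) (nat_lit 150266337898) (nat_lit 4) (nat_lit 5) (nat_lit 6) (nat_lit 4) (nat_lit 4) (nat_lit 4) (nat_lit 376) (nat_lit 314) (nat_lit 210)) (XT.lf (nat_lit 0) (nat_lit 228548452473) (nat_lit 152) (nat_lit 4926723499) (nat_lit 0) (nat_lit 187422909723) (nat_lit 4) (nat_lit 5) (nat_lit 6) (nat_lit 4) (nat_lit 4) (nat_lit 4) (nat_lit 377) (nat_lit 314) (nat_lit 209))) (XT.nd (nat_lit 78) (nat_lit 0) (nat_lit 0) (XT.lf (nat_lit 0) (nat_lit 45979486563) (nat_lit 76) (nat_lit 223803773414) (nat_lit 76) (nat_lit 182677287867) (nat_lit 3) (nat_lit 4) (nat_lit 4) (nat_lit 5) (nat_lit 4) (nat_lit 4) (nat_lit 378) (nat_lit 314) (nat_lit 208)) (XT.nd (nat_lit 78) (nat_lit 0) (nat_lit 0) (XT.lf (nat_lit 0) (nat_lit 101236105262) (nat_lit 76) (nat_lit 213214288653) (nat_lit 76) (nat_lit 172086930147)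 (nat_lit 3) (nat_lit 4) (nat_lit 4) (nat_lit 5) (nat_lit 4) (nat_lit 4) (nat_lit 379) (nat_lit 314) (nat_lit 207)) (XT.lf (nat_lit 0) (nat_lit 160911146698) (nat_lit 76) (nat_lit 201778674539) (nat_lit 76) (nat_lit 160650507736) (nat_lit 3) (nat_lit 4) (nat_lit 4) (nat_lit 5) (nat_lit 4) (nat_lit 4) (nat_lit 380) (nat_lit 314) (nat_lit 206))))))))
noncomputable def xc141 : XT := (XT.nd (nat_lit 1326) (nat_lit 0) (nat_lit 0) (XT.nd (nat_lit 624) (nat_lit 152) (nat_lit 0) (XT.nd (nat_lit 312) (nat_lit 0) (nat_lit 0) (XT.nd (nat_lit 156) (nat_lit 0) (nat_lit 0) (XT.nd (nat_lit 78) (nat_lit 0) (nat_lit 0) (XT.lf (nat_lit 0) (nat_lit 225358240746) (nat_lit 76) (nat_lit 189429164469) (nat_lit 76) (nat_lit 148300249244) (nat_lit 3) (nat_lit 4) (nat_lit 4) (nat_lit 5) (nat_lit 4) (nat_lit 4) (nat_lit 381) (nat_lit 314) (nat_lit 205)) (XT.lf (nat_lit 0) (nat_lit 294959296112) (nat_lit 76) (nat_lit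 176092576161) (nat_lit 76) (nat_lit 134962967953) (nat_lit 3) (nat_lit 4) (nat_lit 4) (nat_lit 5) (nat_lit 4) (nat_lit 4) (nat_lit 382) (nat_lit 314) (nat_lit 204))) (XT.nd (nat_lit 78) (nat_lit 0) (nat_lit 0) (XT.lf (nat_lit 0) (nat_lit 370126763493) (nat_lit 76) (nat_lit 161689877981) (nat_lit 76) (nat_lit 120559628122) (nat_lit 3) (nat_lit 4) (nat_lit 4) (nat_lit 5) (nat_lit 4) (nat_lit 4) (nat_lit 383) (nat_lit 314) (nat_lit 203)) (XT.lf (nat_lit 0) (nat_lit 451306079734) (nat_lit 76) (nat_lit 146135720607) (nat_lit 76) (nat_lit 105004876626) (nat_lit 3) (nat_lit 4) (nat_lit 4) (nat_lit 5) (nat_lit 4) (nat_lit 4) (nat_lit 384) (nat_lit 314) (nat_lit 202)))) (XT.nd (nat_lit 156) (nat_lit 0) (nat_lit 0) (XT.nd (nat_lit 78) (nat_lit 0) (nat_lit 0) (XT.lf (nat_lit 0) (nat_lit 538978307450) (nat_lit 76) (nat_lit 129337931254) (nat_lit 76) (nat_lit 88206537160) (nat_lit 3) (nat_lit 4) (nat_lit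 4) (nat_lit 5) (nat_lit 4) (nat_lit 4) (nat_lit 385) (nat_lit 314) (nat_lit 201)) (XT.lf (nat_lit 0) (nat_lit 633662985767) (nat_lit 76) (nat_lit 111196967466) (nat_lit 76) (nat_lit 70065064008) (nat_lit 3) (nat_lit 4) (nat_lit 4) (nat_lit 5) (nat_lit 4) (nat_lit 4) (nat_lit 386) (nat_lit 314) (nat_lit 200))) (XT.nd (nat_lit 78) (nat_lit 0) (nat_lit 0) (XT.lf (nat_lit 0) (nat_lit 735921209076) (nat_lit 76) (nat_lit 91605327236) (nat_lit 76) (nat_lit 50472952145) (nat_lit 3) (nat_lit 4) (nat_lit 4) (nat_lit 5) (nat_lit 4) (nat_lit 4) (nat_lit 387) (nat_lit 314) (nat_lit 199)) (XT.lf (nat_lit 0) (nat_lit 846358952034) (nat_lit 76) (nat_lit 70446911955) (nat_lit 76) (nat_lit 29314100168) (nat_lit 3) (nat_lit 4) (nat_lit 4) (nat_lit 5) (nat_lit 4) (nat_lit 4) (nat_lit 388) (nat_lit 314) (nat_lit 198))))) (XT.nd (nat_lit 312) (nat_lit 0) (nat_lit 0) (XT.nd (nat_lit 156) (nat_lit 76) (nat_lit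 0) (XT.nd (nat_lit 78) (nat_lit 76) (nat_lit 0) (XT.lf (nat_lit 0) (nat_lit 965630660523) (nat_lit 76) (nat_lit 47596338422) (nat_lit 76) (nat_lit 6463122285) (nat_lit 3) (nat_lit 4) (nat_lit 4) (nat_lit 5) (nat_lit 4) (nat_lit 4) (nat_lit 389) (nat_lit 314) (nat_lit 197)) (XT.lf (nat_lit 0) (nat_lit 17304186887) (nat_lit 152) (nat_lit 5140881807) (nat_lit 76) (nat_lit 1076665815832) (nat_lit 2) (nat_lit 5) (nat_lit 4) (nat_lit 5) (nat_lit 3) (nat_lit 4) (nat_lit 390) (nat_lit 314) (nat_lit 196))) (XT.nd (nat_lit 78) (nat_lit 0) (nat_lit 0) (XT.lf (nat_lit 0) (nat_lit 43975402377) (nat_lit 152) (nat_lit 1134899917475) (nat_lit 0) (nat_lit 5888423489) (nat_lit 1) (nat_lit 5) (nat_lit 3) (nat_lit 4) (nat_lit 1) (nat_lit 4) (nat_lit 391) (nat_lit 314) (nat_lit 195)) (XT.lf (nat_lit 0) (nat_lit 73507044107) (nat_lit 152) (nat_lit 1168283880573) (nat_lit 0) (nat_lit 35419768010) (nat_lit 1)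 (nat_lit 5) (nat_lit 3) (nat_lit 4) (nat_lit 1) (nat_lit 4) (nat_lit 392) (nat_lit 314) (nat_lit 194)))) (XT.nd (nat_lit 156) (nat_lit 0) (nat_lit 0) (XT.nd (nat_lit 78) (nat_lit 0) (nat_lit 0) (XT.lf (nat_lit 0) (nat_lit 105400780559) (nat_lit 152) (nat_lit 1204339423228) (nat_lit 0) (nat_lit 67313229269) (nat_lit 1) (nat_lit 5) (nat_lit 3) (nat_lit 4) (nat_lit 1) (nat_lit 4) (nat_lit 393) (nat_lit 314) (nat_lit 193)) (XT.lf (nat_lit 0) (nat_lit 139845611653) (nat_lit 152) (nat_lit 1243280207914) (nat_lit 0) (nat_lit 101757805554) (nat_lit 1) (nat_lit 5) (nat_lit 3) (nat_lit 4) (nat_lit 1) (nat_lit 4) (nat_lit 394) (nat_lit 314) (nat_lit 192))) (XT.nd (nat_lit 78) (nat_lit 0) (nat_lit 0) (XT.lf (nat_lit 0) (nat_lit 177045654907) (nat_lit 152) (nat_lit 1285336994837) (nat_lit 0) (nat_lit 138957612874) (nat_lit 1) (nat_lit 5) (nat_lit 3) (nat_lit 4) (nat_lit 1) (nat_lit 4) (nat_lit 395)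 (nat_lit 314) (nat_lit 191)) (XT.nd (nat_lit 78) (nat_lit 0) (nat_lit 0) (XT.lf (nat_lit 0) (nat_lit 217221355021) (nat_lit 152) (nat_lit 1330759009402) (nat_lit 0) (nat_lit 179133094531) (nat_lit 1) (nat_lit 5) (nat_lit 3) (nat_lit 4) (nat_lit 1) (nat_lit 4) (nat_lit 396) (nat_lit 314) (nat_lit 190)) (XT.lf (nat_lit 0) (nat_lit 260610790218) (nat_lit 152) (nat_lit 1379815419101) (nat_lit 0) (nat_lit 222522327453) (nat_lit 1) (nat_lit 5) (nat_lit 3) (nat_lit 4) (nat_lit 1) (nat_lit 4) (nat_lit 397) (nat_lit 314) (nat_lit 189))))))) (XT.nd (nat_lit 702) (nat_lit 0) (nat_lit 0) (XT.nd (nat_lit 312) (nat_lit 0) (nat_lit 0) (XT.nd (nat_lit 156) (nat_lit 0) (nat_lit 0) (XT.nd (nat_lit 78) (nat_lit 0) (nat_lit 0) (XT.lf (nat_lit 0) (nat_lit 307471083078) (nat_lit 152) (nat_lit 1432796928585) (nat_lit 0) (nat_lit 269382433021) (nat_lit 1) (nat_lit 5) (nat_lit 3) (nat_lit 4) (nat_lit 1) (nat_lit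 4) (nat_lit 398) (nat_lit 314) (nat_lit 188)) (XT.lf (nat_lit 0) (nat_lit 358079924225) (nat_lit 152) (nat_lit 1490017502354) (nat_lit 0) (nat_lit 319991100749) (nat_lit 1) (nat_lit 5) (nat_lit 3) (nat_lit 4) (nat_lit 1) (nat_lit 4) (nat_lit 399) (nat_lit 314) (nat_lit 187))) (XT.nd (nat_lit 78) (nat_lit 0) (nat_lit 0) (XT.lf (nat_lit 0) (nat_lit 412737217901) (nat_lit 152) (nat_lit 1551816225290) (nat_lit 0) (nat_lit 374648233853) (nat_lit 1) (nat_lit 5) (nat_lit 3) (nat_lit 4) (nat_lit 1) (nat_lit 4) (nat_lit 400) (nat_lit 314) (nat_lit 186)) (XT.lf (nat_lit 0) (nat_lit 471766859182) (nat_lit 152) (nat_lit 1618559312048) (nat_lit 0) (nat_lit 433677726456) (nat_lit 1) (nat_lit 5) (nat_lit 3) (nat_lit 4) (nat_lit 1) (nat_lit 4) (nat_lit 401) (nat_lit 314) (nat_lit 185)))) (XT.nd (nat_lit 156) (nat_lit 0) (nat_lit 0) (XT.nd (nat_lit 78) (nat_lit 0) (nat_lit 0) (XT.lf (nat_lit 0) (nat_lit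 535518653349) (nat_lit 152) (nat_lit 1690642277216) (nat_lit 0) (nat_lit 497429382957) (nat_lit 1) (nat_lit 5) (nat_lit 3) (nat_lit 4) (nat_lit 1) (nat_lit 4) (nat_lit 402) (nat_lit 314) (nat_lit 184)) (XT.lf (nat_lit 0) (nat_lit 604370388811) (nat_lit 152) (nat_lit 1768492279105) (nat_lit 0) (nat_lit 566280990952) (nat_lit 1) (nat_lit 5) (nat_lit 3) (nat_lit 4) (nat_lit 1) (nat_lit 4) (nat_lit 403) (nat_lit 314) (nat_lit 183))) (XT.nd (nat_lit 78) (nat_lit 0) (nat_lit 0) (XT.lf (nat_lit 0) (nat_lit 678730075853) (nat_lit 152) (nat_lit 1852570651061) (nat_lit 0) (nat_lit 640640559968) (nat_lit 1) (nat_lit 5) (nat_lit 3) (nat_lit 4) (nat_lit 1) (nat_lit 4) (nat_lit 404) (nat_lit 314) (nat_lit 182)) (XT.nd (nat_lit 78) (nat_lit 0) (nat_lit 0) (XT.lf (nat_lit 0) (nat_lit 759038364472) (nat_lit 152) (nat_lit 1943375635287) (nat_lit 0) (nat_lit 720948739304) (nat_lit 1) (nat_lit 5) (nat_lit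 3) (nat_lit 4) (nat_lit 1) (nat_lit 4) (nat_lit 405) (nat_lit 314) (nat_lit 181)) (XT.lf (nat_lit 0) (nat_lit 845771155638) (nat_lit 152) (nat_lit 2041445335394) (nat_lit 0) (nat_lit 807681429282) (nat_lit 1) (nat_lit 5) (nat_lit 3) (nat_lit 4) (nat_lit 1) (nat_lit 4) (nat_lit 406) (nat_lit 314) (nat_lit 180)))))) (XT.nd (nat_lit 312) (nat_lit 0) (nat_lit 0) (XT.nd (nat_lit 156) (nat_lit 0) (nat_lit 0) (XT.nd (nat_lit 78) (nat_lit 0) (nat_lit 0) (XT.lf (nat_lit 0) (nat_lit 939442421447) (nat_lit 152) (nat_lit 2147360905160) (nat_lit 0) (nat_lit 901352601398) (nat_lit 1) (nat_lit 5) (nat_lit 3) (nat_lit 4) (nat_lit 1) (nat_lit 4) (nat_lit 407) (nat_lit 314) (nat_lit 179)) (XT.lf (nat_lit 0) (nat_lit 1040607250880) (nat_lit 152) (nat_lit 2261749992406) (nat_lit 0) (nat_lit 1002517344079) (nat_lit 1) (nat_lit 5) (nat_lit 3) (nat_lit 4) (nat_lit 1) (nat_lit 4) (nat_lit 408) (nat_lit 314)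 (nat_lit 178))) (XT.nd (nat_lit 78) (nat_lit 0) (nat_lit 0) (XT.lf (nat_lit 0) (nat_lit 1149865139224) (nat_lit 152) (nat_lit 2385290458390) (nat_lit 0) (nat_lit 1111775152097) (nat_lit 1) (nat_lit 5) (nat_lit 3) (nat_lit 4) (nat_lit 1) (nat_lit 4) (nat_lit 409) (nat_lit 314) (nat_lit 177)) (XT.lf (nat_lit 0) (nat_lit 1267863540632) (nat_lit 152) (nat_lit 2518714394762) (nat_lit 0) (nat_lit 1229773479129) (nat_lit 1) (nat_lit 5) (nat_lit 3) (nat_lit 4) (nat_lit 1) (nat_lit 4) (nat_lit 410) (nat_lit 314) (nat_lit 176)))) (XT.nd (nat_lit 39468) (nat_lit 0) (nat_lit 3648) (XT.nd (nat_lit 39390) (nat_lit 0) (nat_lit 3648) (XT.lf (nat_lit 0) (nat_lit 1395301704890) (nat_lit 152) (nat_lit 2662812461885) (nat_lit 0) (nat_lit 1357211574520) (nat_lit 1) (nat_lit 5) (nat_lit 3) (nat_lit 4) (nat_lit 1) (nat_lit 4) (nat_lit 411) (nat_lit 314) (nat_lit 175)) (XT.lf (nat_lit 0) (nat_lit 2894197536)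 (nat_lit 532) (nat_lit 1853696764) (nat_lit 532) (nat_lit 1853696764) (nat_lit 49) (nat_lit 3) (nat_lit 56) (nat_lit 3) (nat_lit 56) (nat_lit 5) (nat_lit 315) (nat_lit 315) (nat_lit 270))) (XT.nd (nat_lit 78) (nat_lit 0) (nat_lit 76) (XT.lf (nat_lit 76) (nat_lit 2554982114) (nat_lit 0) (nat_lit 3885506763) (nat_lit 532) (nat_lit 7256281193) (nat_lit 50) (nat_lit 5) (nat_lit 49) (nat_lit 3) (nat_lit 56) (nat_lit 5) (nat_lit 316) (nat_lit 315) (nat_lit 269)) (XT.nd (nat_lit 78) (nat_lit 0) (nat_lit 0) (XT.lf (nat_lit 0) (nat_lit 7264987845) (nat_lit 456) (nat_lit 4771309952) (nat_lit 532) (nat_lit 2184017750) (nat_lit 50) (nat_lit 5) (nat_lit 56) (nat_lit 5) (nat_lit 57) (nat_lit 5) (nat_lit 317) (nat_lit 315) (nat_lit 268)) (XT.lf (nat_lit 76) (nat_lit 2090362793) (nat_lit 0) (nat_lit 6182911846) (nat_lit 532) (nat_lit 6503126674) (nat_lit 51) (nat_lit 5) (nat_lit 50) (nat_lit 5) (nat_lit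 57) (nat_lit 5) (nat_lit 318) (nat_lit 315) (nat_lit 267))))))))
noncomputable def xc142 : XT := (XT.nd (nat_lit 1326) (nat_lit 1064) (nat_lit 0) (XT.nd (nat_lit 624) (nat_lit 836) (nat_lit 0) (XT.nd (nat_lit 312) (nat_lit 608) (nat_lit 0) (XT.nd (nat_lit 156) (nat_lit 380) (nat_lit 0) (XT.nd (nat_lit 78) (nat_lit 0) (nat_lit 0) (XT.lf (nat_lit 0) (nat_lit 9468229680) (nat_lit 456) (nat_lit 5625302723) (nat_lit 532) (nat_lit 275037856) (nat_lit 51) (nat_lit 5) (nat_lit 57) (nat_lit 5) (nat_lit 58) (nat_lit 5) (nat_lit 319) (nat_lit 315) (nat_lit 266)) (XT.lf (nat_lit 76) (nat_lit 1912830694) (nat_lit 0) (nat_lit 9023682448) (nat_lit 532) (nat_lit 5057452077) (nat_lit 52) (nat_lit 5) (nat_lit 51) (nat_lit 5) (nat_lit 58) (nat_lit 5) (nat_lit 320) (nat_lit 315) (nat_lit 265))) (XT.nd (nat_lit 78) (nat_lit 380) (nat_lit 0) (XT.lf (nat_lit 76) (nat_lit 10351948046) (nat_lit 0) (nat_lit 2296859853)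 (nat_lit 532) (nat_lit 4010525781) (nat_lit 52) (nat_lit 5) (nat_lit 51) (nat_lit 5) (nat_lit 58) (nat_lit 5) (nat_lit 321) (nat_lit 315) (nat_lit 264)) (XT.lf (nat_lit 0) (nat_lit 2048713203) (nat_lit 456) (nat_lit 12593007137) (nat_lit 532) (nat_lit 2724781471) (nat_lit 46) (nat_lit 5) (nat_lit 52) (nat_lit 5) (nat_lit 53) (nat_lit 5) (nat_lit 322) (nat_lit 315) (nat_lit 263)))) (XT.nd (nat_lit 156) (nat_lit 228) (nat_lit 0) (XT.nd (nat_lit 78) (nat_lit 380) (nat_lit 0) (XT.lf (nat_lit 0) (nat_lit 11347225506) (nat_lit 456) (nat_lit 5653655243) (nat_lit 532) (nat_lit 1112873855) (nat_lit 46) (nat_lit 5) (nat_lit 52) (nat_lit 5) (nat_lit 53) (nat_lit 5) (nat_lit 323) (nat_lit 315) (nat_lit 262)) (XT.lf (nat_lit 0) (nat_lit 681786182) (nat_lit 380) (nat_lit 16402596668) (nat_lit 76) (nat_lit 1828427745) (nat_lit 41) (nat_lit 5) (nat_lit 46) (nat_lit 5) (nat_lit 42) (nat_lit 5) (nat_lit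 324) (nat_lit 315) (nat_lit 261))) (XT.nd (nat_lit 78) (nat_lit 228) (nat_lit 0) (XT.lf (nat_lit 0) (nat_lit 2875091132) (nat_lit 380) (nat_lit 7050455046) (nat_lit 76) (nat_lit 9822761504) (nat_lit 41) (nat_lit 5) (nat_lit 46) (nat_lit 5) (nat_lit 42) (nat_lit 5) (nat_lit 325) (nat_lit 315) (nat_lit 260)) (XT.lf (nat_lit 0) (nat_lit 3188215575) (nat_lit 228) (nat_lit 2112445353) (nat_lit 304) (nat_lit 15345481037) (nat_lit 38) (nat_lit 5) (nat_lit 41) (nat_lit 5) (nat_lit 42) (nat_lit 5) (nat_lit 326) (nat_lit 315) (nat_lit 259))))) (XT.nd (nat_lit 312) (nat_lit 456) (nat_lit 0) (XT.nd (nat_lit 156) (nat_lit 152) (nat_lit 0) (XT.nd (nat_lit 78) (nat_lit 228) (nat_lit 0) (XT.lf (nat_lit 0) (nat_lit 8251248643) (nat_lit 304) (nat_lit 7132680545) (nat_lit 76) (nat_lit 6205434405) (nat_lit 38) (nat_lit 5) (nat_lit 42) (nat_lit 5) (nat_lit 39) (nat_lit 5) (nat_lit 327) (nat_lit 315) (nat_lit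 258)) (XT.lf (nat_lit 0) (nat_lit 4150893736) (nat_lit 228) (nat_lit 7424150419) (nat_lit 304) (nat_lit 11022061481) (nat_lit 35) (nat_lit 5) (nat_lit 38) (nat_lit 5) (nat_lit 39) (nat_lit 5) (nat_lit 328) (nat_lit 315) (nat_lit 257))) (XT.nd (nat_lit 78) (nat_lit 152) (nat_lit 0) (XT.lf (nat_lit 0) (nat_lit 15376229932) (nat_lit 304) (nat_lit 6981573081) (nat_lit 76) (nat_lit 1310778013) (nat_lit 35) (nat_lit 5) (nat_lit 39) (nat_lit 5) (nat_lit 36) (nat_lit 5) (nat_lit 329) (nat_lit 315) (nat_lit 256)) (XT.lf (nat_lit 0) (nat_lit 5460910566) (nat_lit 152) (nat_lit 14329218753) (nat_lit 228) (nat_lit 5010986104) (nat_lit 33) (nat_lit 5) (nat_lit 35) (nat_lit 5) (nat_lit 36) (nat_lit 5) (nat_lit 330) (nat_lit 315) (nat_lit 255)))) (XT.nd (nat_lit 156) (nat_lit 152) (nat_lit 0) (XT.nd (nat_lit 78) (nat_lit 304) (nat_lit 0) (XT.lf (nat_lit 0) (nat_lit 19276671016) (nat_lit 152) (nat_lit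 5456497776) (nat_lit 228) (nat_lit 1277029748) (nat_lit 33) (nat_lit 5) (nat_lit 35) (nat_lit 5) (nat_lit 36) (nat_lit 5) (nat_lit 331) (nat_lit 315) (nat_lit 254)) (XT.lf (nat_lit 0) (nat_lit 2881042937) (nat_lit 304) (nat_lit 20248609086) (nat_lit 76) (nat_lit 4160018753) (nat_lit 29) (nat_lit 5) (nat_lit 33) (nat_lit 5) (nat_lit 30) (nat_lit 5) (nat_lit 332) (nat_lit 315) (nat_lit 253))) (XT.nd (nat_lit 78) (nat_lit 152) (nat_lit 0) (XT.lf (nat_lit 0) (nat_lit 7619747245) (nat_lit 304) (nat_lit 6554937454) (nat_lit 76) (nat_lit 14468826637) (nat_lit 29) (nat_lit 5) (nat_lit 33) (nat_lit 5) (nat_lit 30) (nat_lit 5) (nat_lit 333) (nat_lit 315) (nat_lit 252)) (XT.nd (nat_lit 78) (nat_lit 0) (nat_lit 0) (XT.lf (nat_lit 0) (nat_lit 8649263836) (nat_lit 152) (nat_lit 4283672032) (nat_lit 228) (nat_lit 17157112977) (nat_lit 27) (nat_lit 5) (nat_lit 29) (nat_lit 5) (nat_lit 30) (nat_lit 5)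 (nat_lit 334) (nat_lit 315) (nat_lit 251)) (XT.lf (nat_lit 0) (nat_lit 18996718000) (nat_lit 228) (nat_lit 6371981463) (nat_lit 76) (nat_lit 6257586024) (nat_lit 27) (nat_lit 5) (nat_lit 30) (nat_lit 5) (nat_lit 28) (nat_lit 5) (nat_lit 335) (nat_lit 315) (nat_lit 250))))))) (XT.nd (nat_lit 624) (nat_lit 456) (nat_lit 0) (XT.nd (nat_lit 312) (nat_lit 304) (nat_lit 0) (XT.nd (nat_lit 156) (nat_lit 152) (nat_lit 0) (XT.nd (nat_lit 78) (nat_lit 0) (nat_lit 0) (XT.lf (nat_lit 0) (nat_lit 10289045044) (nat_lit 152) (nat_lit 15603952024) (nat_lit 228) (nat_lit 7364650225) (nat_lit 25) (nat_lit 5) (nat_lit 27) (nat_lit 5) (nat_lit 28) (nat_lit 5) (nat_lit 336) (nat_lit 315) (nat_lit 249)) (XT.lf (nat_lit 0) (nat_lit 28629040297) (nat_lit 152) (nat_lit 4875284585) (nat_lit 228) (nat_lit 1502141913) (nat_lit 25) (nat_lit 5) (nat_lit 27) (nat_lit 5) (nat_lit 28) (nat_lit 5) (nat_lit 337) (nat_lit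 315) (nat_lit 248))) (XT.nd (nat_lit 78) (nat_lit 0) (nat_lit 0) (XT.lf (nat_lit 0) (nat_lit 5038086724) (nat_lit 152) (nat_lit 25025399904) (nat_lit 76) (nat_lit 6786403301) (nat_lit 23) (nat_lit 5) (nat_lit 25) (nat_lit 5) (nat_lit 24) (nat_lit 5) (nat_lit 338) (nat_lit 315) (nat_lit 247)) (XT.lf (nat_lit 0) (nat_lit 12315835670) (nat_lit 152) (nat_lit 7167694713) (nat_lit 76) (nat_lit 19330511731) (nat_lit 23) (nat_lit 5) (nat_lit 25) (nat_lit 5) (nat_lit 24) (nat_lit 5) (nat_lit 339) (nat_lit 315) (nat_lit 246)))) (XT.nd (nat_lit 156) (nat_lit 152) (nat_lit 0) (XT.nd (nat_lit 78) (nat_lit 0) (nat_lit 0) (XT.lf (nat_lit 0) (nat_lit 12741244972) (nat_lit 152) (nat_lit 7731659669) (nat_lit 228) (nat_lit 20438665926) (nat_lit 21) (nat_lit 5) (nat_lit 23) (nat_lit 5) (nat_lit 24) (nat_lit 5) (nat_lit 340) (nat_lit 315) (nat_lit 245)) (XT.lf (nat_lit 0) (nat_lit 29593791963) (nat_lit 228)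 (nat_lit 8650054411) (nat_lit 76) (nat_lit 4908165903) (nat_lit 21) (nat_lit 5) (nat_lit 24) (nat_lit 5) (nat_lit 22) (nat_lit 4) (nat_lit 341) (nat_lit 315) (nat_lit 244))) (XT.nd (nat_lit 78) (nat_lit 76) (nat_lit 0) (XT.lf (nat_lit 0) (nat_lit 12860481766) (nat_lit 76) (nat_lit 27085548910) (nat_lit 152) (nat_lit 5585534591) (nat_lit 20) (nat_lit 5) (nat_lit 21) (nat_lit 5) (nat_lit 22) (nat_lit 4) (nat_lit 342) (nat_lit 315) (nat_lit 243)) (XT.lf (nat_lit 0) (nat_lit 3107938397) (nat_lit 152) (nat_lit 11591623993) (nat_lit 76) (nat_lit 33377365485) (nat_lit 19) (nat_lit 5) (nat_lit 21) (nat_lit 5) (nat_lit 20) (nat_lit 5) (nat_lit 343) (nat_lit 315) (nat_lit 242))))) (XT.nd (nat_lit 312) (nat_lit 228) (nat_lit 0) (XT.nd (nat_lit 156) (nat_lit 76) (nat_lit 0) (XT.nd (nat_lit 78) (nat_lit 0) (nat_lit 0) (XT.lf (nat_lit 0) (nat_lit 11596274929) (nat_lit 152) (nat_lit 870002687) (nat_lit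 228) (nat_lit 38326351618) (nat_lit 17) (nat_lit 5) (nat_lit 19) (nat_lit 5) (nat_lit 20) (nat_lit 5) (nat_lit 344) (nat_lit 315) (nat_lit 241)) (XT.lf (nat_lit 0) (nat_lit 23229145593) (nat_lit 228) (nat_lit 16761403385) (nat_lit 76) (nat_lit 13682576422) (nat_lit 17) (nat_lit 5) (nat_lit 20) (nat_lit 5) (nat_lit 18) (nat_lit 4) (nat_lit 345) (nat_lit 315) (nat_lit 240))) (XT.nd (nat_lit 78) (nat_lit 0) (nat_lit 0) (XT.lf (nat_lit 0) (nat_lit 7825071838) (nat_lit 76) (nat_lit 27231732389) (nat_lit 152) (nat_lit 21710963196) (nat_lit 16) (nat_lit 5) (nat_lit 17) (nat_lit 5) (nat_lit 18) (nat_lit 4) (nat_lit 346) (nat_lit 315) (nat_lit 239)) (XT.lf (nat_lit 0) (nat_lit 35319891596) (nat_lit 76) (nat_lit 12962277692) (nat_lit 152) (nat_lit 11791698559) (nat_lit 16) (nat_lit 5) (nat_lit 17) (nat_lit 5) (nat_lit 18) (nat_lit 4) (nat_lit 347) (nat_lit 315) (nat_lit 238)))) (XT.nd (nat_lit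 156) (nat_lit 76) (nat_lit 0) (XT.nd (nat_lit 78) (nat_lit 76) (nat_lit 0) (XT.lf (nat_lit 0) (nat_lit 1368051943) (nat_lit 76) (nat_lit 61282904108) (nat_lit 76) (nat_lit 986674909) (nat_lit 15) (nat_lit 4) (nat_lit 16) (nat_lit 5) (nat_lit 16) (nat_lit 4) (nat_lit 348) (nat_lit 315) (nat_lit 237)) (XT.lf (nat_lit 0) (nat_lit 11173077046) (nat_lit 152) (nat_lit 37067294622) (nat_lit 76) (nat_lit 19143597342) (nat_lit 14) (nat_lit 5) (nat_lit 16) (nat_lit 5) (nat_lit 15) (nat_lit 4) (nat_lit 349) (nat_lit 315) (nat_lit 236))) (XT.nd (nat_lit 78) (nat_lit 76) (nat_lit 0) (XT.lf (nat_lit 0) (nat_lit 24246415190) (nat_lit 152) (nat_lit 9884997283) (nat_lit 76) (nat_lit 37297027236) (nat_lit 14) (nat_lit 5) (nat_lit 16) (nat_lit 5) (nat_lit 15) (nat_lit 4) (nat_lit 350) (nat_lit 315) (nat_lit 235)) (XT.nd (nat_lit 78) (nat_lit 0) (nat_lit 0) (XT.lf (nat_lit 0) (nat_lit 20486963733) (nat_lit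 76) (nat_lit 18365916867) (nat_lit 152) (nat_lit 36904611096) (nat_lit 13) (nat_lit 5) (nat_lit 14) (nat_lit 5) (nat_lit 15) (nat_lit 4) (nat_lit 351) (nat_lit 315) (nat_lit 234)) (XT.lf (nat_lit 0) (nat_lit 53841336293) (nat_lit 76) (nat_lit 1051523564) (nat_lit 152) (nat_lit 25518812377) (nat_lit 13) (nat_lit 5) (nat_lit 14) (nat_lit 5) (nat_lit 15) (nat_lit 4) (nat_lit 352) (nat_lit 315) (nat_lit 233))))))))
noncomputable def xc143 : XT := (XT.nd (nat_lit 1326) (nat_lit 228) (nat_lit 0) (XT.nd (nat_lit 624) (nat_lit 228) (nat_lit 0) (XT.nd (nat_lit 312) (nat_lit 76) (nat_lit 0) (XT.nd (nat_lit 156) (nat_lit 76) (nat_lit 0) (XT.nd (nat_lit 78) (nat_lit 76) (nat_lit 0) (XT.lf (nat_lit 0) (nat_lit 4202555463) (nat_lit 76) (nat_lit 68534008668) (nat_lit 76) (nat_lit 12659984765) (nat_lit 12) (nat_lit 4) (nat_lit 13) (nat_lit 5) (nat_lit 13) (nat_lit 4) (nat_lit 353) (nat_lit 315) (nat_lit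 232)) (XT.lf (nat_lit 0) (nat_lit 1933850539) (nat_lit 152) (nat_lit 51858588037) (nat_lit 76) (nat_lit 36924001902) (nat_lit 11) (nat_lit 5) (nat_lit 13) (nat_lit 5) (nat_lit 12) (nat_lit 4) (nat_lit 354) (nat_lit 315) (nat_lit 231))) (XT.nd (nat_lit 78) (nat_lit 76) (nat_lit 0) (XT.lf (nat_lit 0) (nat_lit 17006638061) (nat_lit 152) (nat_lit 20513646708) (nat_lit 76) (nat_lit 58915702111) (nat_lit 11) (nat_lit 5) (nat_lit 13) (nat_lit 5) (nat_lit 12) (nat_lit 4) (nat_lit 355) (nat_lit 315) (nat_lit 230)) (XT.lf (nat_lit 0) (nat_lit 14033040827) (nat_lit 76) (nat_lit 19585455877) (nat_lit 152) (nat_lit 68967943245) (nat_lit 10) (nat_lit 5) (nat_lit 11) (nat_lit 5) (nat_lit 12) (nat_lit 4) (nat_lit 356) (nat_lit 315) (nat_lit 229)))) (XT.nd (nat_lit 156) (nat_lit 76) (nat_lit 0) (XT.nd (nat_lit 78) (nat_lit 0) (nat_lit 0) (XT.lf (nat_lit 0) (nat_lit 52125360047) (nat_lit 152) (nat_lit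 56691230912) (nat_lit 0) (nat_lit 367056422) (nat_lit 10) (nat_lit 5) (nat_lit 12) (nat_lit 4) (nat_lit 10) (nat_lit 4) (nat_lit 357) (nat_lit 315) (nat_lit 228)) (XT.lf (nat_lit 0) (nat_lit 72617595992) (nat_lit 152) (nat_lit 22796105449) (nat_lit 0) (nat_lit 20854546487) (nat_lit 10) (nat_lit 5) (nat_lit 12) (nat_lit 4) (nat_lit 10) (nat_lit 4) (nat_lit 358) (nat_lit 315) (nat_lit 227))) (XT.nd (nat_lit 78) (nat_lit 0) (nat_lit 0) (XT.lf (nat_lit 0) (nat_lit 14530755176) (nat_lit 76) (nat_lit 80564319163) (nat_lit 76) (nat_lit 28796875324) (nat_lit 9) (nat_lit 4) (nat_lit 10) (nat_lit 5) (nat_lit 10) (nat_lit 4) (nat_lit 359) (nat_lit 315) (nat_lit 226)) (XT.lf (nat_lit 0) (nat_lit 56133608465) (nat_lit 76) (nat_lit 63856935192) (nat_lit 76) (nat_lit 12085422526) (nat_lit 9) (nat_lit 4) (nat_lit 10) (nat_lit 5) (nat_lit 10) (nat_lit 4) (nat_lit 360) (nat_lit 315) (nat_lit 225))))) (XT.nd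 (nat_lit 312) (nat_lit 76) (nat_lit 0) (XT.nd (nat_lit 156) (nat_lit 76) (nat_lit 0) (XT.nd (nat_lit 78) (nat_lit 0) (nat_lit 0) (XT.lf (nat_lit 0) (nat_lit 5661335474) (nat_lit 152) (nat_lit 39999702312) (nat_lit 76) (nat_lit 95242460907) (nat_lit 8) (nat_lit 5) (nat_lit 10) (nat_lit 5) (nat_lit 9) (nat_lit 4) (nat_lit 361) (nat_lit 315) (nat_lit 224)) (XT.lf (nat_lit 0) (nat_lit 24171833051) (nat_lit 152) (nat_lit 1501355715) (nat_lit 76) (nat_lit 124739180055) (nat_lit 8) (nat_lit 5) (nat_lit 10) (nat_lit 5) (nat_lit 9) (nat_lit 4) (nat_lit 362) (nat_lit 315) (nat_lit 223))) (XT.nd (nat_lit 78) (nat_lit 0) (nat_lit 0) (XT.lf (nat_lit 0) (nat_lit 42181567991) (nat_lit 76) (nat_lit 2993223557) (nat_lit 152) (nat_lit 115426228838) (nat_lit 7) (nat_lit 5) (nat_lit 8) (nat_lit 5) (nat_lit 9) (nat_lit 4) (nat_lit 363) (nat_lit 315) (nat_lit 222)) (XT.lf (nat_lit 0) (nat_lit 68414383867)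 (nat_lit 152) (nat_lit 82680549991) (nat_lit 0) (nat_lit 20465319849) (nat_lit 7) (nat_lit 5) (nat_lit 9) (nat_lit 4) (nat_lit 7) (nat_lit 4) (nat_lit 364) (nat_lit 315) (nat_lit 221)))) (XT.nd (nat_lit 156) (nat_lit 76) (nat_lit 0) (XT.nd (nat_lit 78) (nat_lit 0) (nat_lit 0) (XT.lf (nat_lit 0) (nat_lit 93588276937) (nat_lit 152) (nat_lit 44165290518) (nat_lit 0) (nat_lit 45636648868) (nat_lit 7) (nat_lit 5) (nat_lit 9) (nat_lit 4) (nat_lit 7) (nat_lit 4) (nat_lit 365) (nat_lit 315) (nat_lit 220)) (XT.lf (nat_lit 0) (nat_lit 120773662286) (nat_lit 152) (nat_lit 2573448304) (nat_lit 0) (nat_lit 72819660095) (nat_lit 7) (nat_lit 5) (nat_lit 9) (nat_lit 4) (nat_lit 7) (nat_lit 4) (nat_lit 366) (nat_lit 315) (nat_lit 219))) (XT.nd (nat_lit 78) (nat_lit 0) (nat_lit 0) (XT.lf (nat_lit 0) (nat_lit 44571072381) (nat_lit 76) (nat_lit 106632501474) (nat_lit 76) (nat_lit 58676301022) (nat_lit 6)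 (nat_lit 4) (nat_lit 7) (nat_lit 5) (nat_lit 7) (nat_lit 4) (nat_lit 367) (nat_lit 315) (nat_lit 218)) (XT.nd (nat_lit 78) (nat_lit 0) (nat_lit 0) (XT.lf (nat_lit 0) (nat_lit 95629323267) (nat_lit 76) (nat_lit 88506743007) (nat_lit 76) (nat_lit 40548507128) (nat_lit 6) (nat_lit 4) (nat_lit 7) (nat_lit 5) (nat_lit 7) (nat_lit 4) (nat_lit 368) (nat_lit 315) (nat_lit 217)) (XT.lf (nat_lit 0) (nat_lit 150768358540) (nat_lit 76) (nat_lit 68932785924) (nat_lit 76) (nat_lit 20972665391) (nat_lit 6) (nat_lit 4) (nat_lit 7) (nat_lit 5) (nat_lit 7) (nat_lit 4) (nat_lit 369) (nat_lit 315) (nat_lit 216))))))) (XT.nd (nat_lit 702) (nat_lit 76) (nat_lit 0) (XT.nd (nat_lit 312) (nat_lit 0) (nat_lit 0) (XT.nd (nat_lit 156) (nat_lit 76) (nat_lit 0) (XT.nd (nat_lit 78) (nat_lit 0) (nat_lit 0) (XT.lf (nat_lit 0) (nat_lit 158863696) (nat_lit 152) (nat_lit 47631429094) (nat_lit 76) (nat_lit 210151720725)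 (nat_lit 5) (nat_lit 5) (nat_lit 7) (nat_lit 5) (nat_lit 6) (nat_lit 4) (nat_lit 370) (nat_lit 315) (nat_lit 215)) (XT.lf (nat_lit 0) (nat_lit 21846074461) (nat_lit 152) (nat_lit 2523646492) (nat_lit 76) (nat_lit 252178515468) (nat_lit 5) (nat_lit 5) (nat_lit 7) (nat_lit 5) (nat_lit 6) (nat_lit 4) (nat_lit 371) (nat_lit 315) (nat_lit 214))) (XT.nd (nat_lit 78) (nat_lit 0) (nat_lit 0) (XT.lf (nat_lit 0) (nat_lit 46488548645) (nat_lit 152) (nat_lit 247980253821) (nat_lit 0) (nat_lit 2076532468) (nat_lit 4) (nat_lit 5) (nat_lit 6) (nat_lit 4) (nat_lit 4) (nat_lit 4) (nat_lit 372) (nat_lit 315) (nat_lit 213)) (XT.lf (nat_lit 0) (nat_lit 73804564543) (nat_lit 152) (nat_lit 214890200233) (nat_lit 0) (nat_lit 29391265702) (nat_lit 4) (nat_lit 5) (nat_lit 6) (nat_lit 4) (nat_lit 4) (nat_lit 4) (nat_lit 373) (nat_lit 315) (nat_lit 212)))) (XT.nd (nat_lit 156) (nat_lit 0) (nat_lit 0) (XT.nd (nat_lit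 78) (nat_lit 0) (nat_lit 0) (XT.lf (nat_lit 0) (nat_lit 103304353206) (nat_lit 152) (nat_lit 179155883027) (nat_lit 0) (nat_lit 58889866713) (nat_lit 4) (nat_lit 5) (nat_lit 6) (nat_lit 4) (nat_lit 4) (nat_lit 4) (nat_lit 374) (nat_lit 315) (nat_lit 211)) (XT.lf (nat_lit 0) (nat_lit 135162728196) (nat_lit 152) (nat_lit 140565543287) (nat_lit 0) (nat_lit 90747142026) (nat_lit 4) (nat_lit 5) (nat_lit 6) (nat_lit 4) (nat_lit 4) (nat_lit 4) (nat_lit 375) (nat_lit 315) (nat_lit 210))) (XT.nd (nat_lit 78) (nat_lit 0) (nat_lit 0) (XT.lf (nat_lit 0) (nat_lit 169568479885) (nat_lit 152) (nat_lit 98890497519) (nat_lit 0) (nat_lit 125151875494) (nat_lit 4) (nat_lit 5) (nat_lit 6) (nat_lit 4) (nat_lit 4) (nat_lit 4) (nat_lit 376) (nat_lit 315) (nat_lit 209)) (XT.nd (nat_lit 78) (nat_lit 0) (nat_lit 0) (XT.lf (nat_lit 0) (nat_lit 206725494208) (nat_lit 152) (nat_lit 53883782487) (nat_lit 0) (nat_lit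 162307947021) (nat_lit 4) (nat_lit 5) (nat_lit 6) (nat_lit 4) (nat_lit 4) (nat_lit 4) (nat_lit 377) (nat_lit 315) (nat_lit 208)) (XT.lf (nat_lit 0) (nat_lit 246853960880) (nat_lit 152) (nat_lit 5278691734) (nat_lit 0) (nat_lit 202435540733) (nat_lit 4) (nat_lit 5) (nat_lit 6) (nat_lit 4) (nat_lit 4) (nat_lit 4) (nat_lit 378) (nat_lit 315) (nat_lit 207)))))) (XT.nd (nat_lit 312) (nat_lit 0) (nat_lit 0) (XT.nd (nat_lit 156) (nat_lit 0) (nat_lit 0) (XT.nd (nat_lit 78) (nat_lit 0) (nat_lit 0) (XT.lf (nat_lit 0) (nat_lit 49698947547) (nat_lit 76) (nat_lit 241687991556) (nat_lit 76) (nat_lit 197268763114) (nat_lit 3) (nat_lit 4) (nat_lit 4) (nat_lit 5) (nat_lit 4) (nat_lit 4) (nat_lit 379) (nat_lit 315) (nat_lit 206)) (XT.lf (nat_lit 0) (nat_lit 109373051145) (nat_lit 76) (nat_lit 230252835699) (nat_lit 76) (nat_lit 185832858834) (nat_lit 3) (nat_lit 4) (nat_lit 4) (nat_lit 5) (nat_lit 4) (nat_lit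 4) (nat_lit 380) (nat_lit 315) (nat_lit 205))) (XT.nd (nat_lit 78) (nat_lit 0) (nat_lit 0) (XT.lf (nat_lit 0) (nat_lit 173819276825) (nat_lit 76) (nat_lit 217903749940) (nat_lit 76) (nat_lit 173483080091) (nat_lit 3) (nat_lit 4) (nat_lit 4) (nat_lit 5) (nat_lit 4) (nat_lit 4) (nat_lit 381) (nat_lit 315) (nat_lit 204)) (XT.lf (nat_lit 0) (nat_lit 243419528146) (nat_lit 76) (nat_lit 204567554513) (nat_lit 76) (nat_lit 160146243013) (nat_lit 3) (nat_lit 4) (nat_lit 4) (nat_lit 5) (nat_lit 4) (nat_lit 4) (nat_lit 382) (nat_lit 315) (nat_lit 203)))) (XT.nd (nat_lit 156) (nat_lit 0) (nat_lit 0) (XT.nd (nat_lit 78) (nat_lit 0) (nat_lit 0) (XT.lf (nat_lit 0) (nat_lit 318586251041) (nat_lit 76) (nat_lit 190165220112) (nat_lit 76) (nat_lit 145743314491) (nat_lit 3) (nat_lit 4) (nat_lit 4) (nat_lit 5) (nat_lit 4) (nat_lit 4) (nat_lit 383) (nat_lit 315) (nat_lit 202)) (XT.lf (nat_lit 0) (nat_lit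 399764877943) (nat_lit 76) (nat_lit 174611399570) (nat_lit 76) (nat_lit 130188943836) (nat_lit 3) (nat_lit 4) (nat_lit 4) (nat_lit 5) (nat_lit 4) (nat_lit 4) (nat_lit 384) (nat_lit 315) (nat_lit 201))) (XT.nd (nat_lit 78) (nat_lit 0) (nat_lit 0) (XT.lf (nat_lit 0) (nat_lit 487436467382) (nat_lit 76) (nat_lit 157813922098) (nat_lit 76) (nat_lit 113390957001) (nat_lit 3) (nat_lit 4) (nat_lit 4) (nat_lit 5) (nat_lit 4) (nat_lit 4) (nat_lit 385) (nat_lit 315) (nat_lit 200)) (XT.nd (nat_lit 78) (nat_lit 0) (nat_lit 0) (XT.lf (nat_lit 0) (nat_lit 582120554703) (nat_lit 76) (nat_lit 139673247090) (nat_lit 76) (nat_lit 95249810359) (nat_lit 3) (nat_lit 4) (nat_lit 4) (nat_lit 5) (nat_lit 4) (nat_lit 4) (nat_lit 386) (nat_lit 315) (nat_lit 199)) (XT.lf (nat_lit 0) (nat_lit 684378230792) (nat_lit 76) (nat_lit 120081874248) (nat_lit 76) (nat_lit 75658000820) (nat_lit 3) (nat_lit 4) (nat_lit 4) (nat_lit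 5) (nat_lit 4) (nat_lit 4) (nat_lit 387) (nat_lit 315) (nat_lit 198))))))))
noncomputable def xc144 : XT := (XT.nd (nat_lit 1326) (nat_lit 0) (nat_lit 0) (XT.nd (nat_lit 624) (nat_lit 0) (nat_lit 0) (XT.nd (nat_lit 312) (nat_lit 76) (nat_lit 0) (XT.nd (nat_lit 156) (nat_lit 76) (nat_lit 0) (XT.nd (nat_lit 78) (nat_lit 0) (nat_lit 0) (XT.lf (nat_lit 0) (nat_lit 794815467065) (nat_lit 76) (nat_lit 98923706549) (nat_lit 76) (nat_lit 54499428772) (nat_lit 3) (nat_lit 4) (nat_lit 4) (nat_lit 5) (nat_lit 4) (nat_lit 4) (nat_lit 388) (nat_lit 315) (nat_lit 197)) (XT.lf (nat_lit 0) (nat_lit 914086706402) (nat_lit 76) (nat_lit 76073362258) (nat_lit 76) (nat_lit 31648710084) (nat_lit 3) (nat_lit 4) (nat_lit 4) (nat_lit 5) (nat_lit 4) (nat_lit 4) (nat_lit 389) (nat_lit 315) (nat_lit 196))) (XT.nd (nat_lit 78) (nat_lit 76) (nat_lit 0) (XT.lf (nat_lit 0) (nat_lit 1042898741334) (nat_lit 76) (nat_lit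 51395431928) (nat_lit 76) (nat_lit 6970433089) (nat_lit 3) (nat_lit 4) (nat_lit 4) (nat_lit 5) (nat_lit 4) (nat_lit 4) (nat_lit 390) (nat_lit 315) (nat_lit 195)) (XT.lf (nat_lit 0) (nat_lit 18697088316) (nat_lit 152) (nat_lit 5535376126) (nat_lit 76) (nat_lit 1162806602592) (nat_lit 2) (nat_lit 5) (nat_lit 4) (nat_lit 5) (nat_lit 3) (nat_lit 4) (nat_lit 391) (nat_lit 315) (nat_lit 194)))) (XT.nd (nat_lit 156) (nat_lit 0) (nat_lit 0) (XT.nd (nat_lit 78) (nat_lit 0) (nat_lit 0) (XT.lf (nat_lit 0) (nat_lit 47501952778) (nat_lit 152) (nat_lit 1225675083661) (nat_lit 0) (nat_lit 6367122192) (nat_lit 1) (nat_lit 5) (nat_lit 3) (nat_lit 4) (nat_lit 1) (nat_lit 4) (nat_lit 392) (nat_lit 315) (nat_lit 193)) (XT.lf (nat_lit 0) (nat_lit 79395494868) (nat_lit 152) (nat_lit 1261731010267) (nat_lit 0) (nat_lit 38260409473) (nat_lit 1) (nat_lit 5) (nat_lit 3) (nat_lit 4) (nat_lit 1) (nat_lit 4) (nat_lit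 393) (nat_lit 315) (nat_lit 192))) (XT.nd (nat_lit 78) (nat_lit 0) (nat_lit 0) (XT.lf (nat_lit 0) (nat_lit 113840145997) (nat_lit 152) (nat_lit 1300672150464) (nat_lit 0) (nat_lit 72704824668) (nat_lit 1) (nat_lit 5) (nat_lit 3) (nat_lit 4) (nat_lit 1) (nat_lit 4) (nat_lit 394) (nat_lit 315) (nat_lit 191)) (XT.lf (nat_lit 0) (nat_lit 151040022616) (nat_lit 152) (nat_lit 1342729266564) (nat_lit 0) (nat_lit 109904482830) (nat_lit 1) (nat_lit 5) (nat_lit 3) (nat_lit 4) (nat_lit 1) (nat_lit 4) (nat_lit 395) (nat_lit 315) (nat_lit 190))))) (XT.nd (nat_lit 312) (nat_lit 0) (nat_lit 0) (XT.nd (nat_lit 156) (nat_lit 0) (nat_lit 0) (XT.nd (nat_lit 78) (nat_lit 0) (nat_lit 0) (XT.lf (nat_lit 0) (nat_lit 191215568439) (nat_lit 152) (nat_lit 1388151585921) (nat_lit 0) (nat_lit 150079826377) (nat_lit 1) (nat_lit 5) (nat_lit 3) (nat_lit 4) (nat_lit 1) (nat_lit 4) (nat_lit 396) (nat_lit 315) (nat_lit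 189)) (XT.lf (nat_lit 0) (nat_lit 234604860774) (nat_lit 152) (nat_lit 1437208277836) (nat_lit 0) (nat_lit 193468931421) (nat_lit 1) (nat_lit 5) (nat_lit 3) (nat_lit 4) (nat_lit 1) (nat_lit 4) (nat_lit 397) (nat_lit 315) (nat_lit 188))) (XT.nd (nat_lit 78) (nat_lit 0) (nat_lit 0) (XT.lf (nat_lit 0) (nat_lit 281465021354) (nat_lit 152) (nat_lit 1490190048631) (nat_lit 0) (nat_lit 240328918582) (nat_lit 1) (nat_lit 5) (nat_lit 3) (nat_lit 4) (nat_lit 1) (nat_lit 4) (nat_lit 398) (nat_lit 315) (nat_lit 187)) (XT.lf (nat_lit 0) (nat_lit 332073740019) (nat_lit 152) (nat_lit 1547410864355) (nat_lit 0) (nat_lit 290937476675) (nat_lit 1) (nat_lit 5) (nat_lit 3) (nat_lit 4) (nat_lit 1) (nat_lit 4) (nat_lit 399) (nat_lit 315) (nat_lit 186)))) (XT.nd (nat_lit 156) (nat_lit 0) (nat_lit 0) (XT.nd (nat_lit 78) (nat_lit 0) (nat_lit 0) (XT.lf (nat_lit 0) (nat_lit 386730920287) (nat_lit 152) (nat_lit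 1609209811323) (nat_lit 0) (nat_lit 345594508264) (nat_lit 1) (nat_lit 5) (nat_lit 3) (nat_lit 4) (nat_lit 1) (nat_lit 4) (nat_lit 400) (nat_lit 315) (nat_lit 185)) (XT.lf (nat_lit 0) (nat_lit 445760456560) (nat_lit 152) (nat_lit 1675953105518) (nat_lit 0) (nat_lit 404623906872) (nat_lit 1) (nat_lit 5) (nat_lit 3) (nat_lit 4) (nat_lit 1) (nat_lit 4) (nat_lit 401) (nat_lit 315) (nat_lit 184))) (XT.nd (nat_lit 78) (nat_lit 0) (nat_lit 0) (XT.lf (nat_lit 0) (nat_lit 509512153497) (nat_lit 152) (nat_lit 1748036262757) (nat_lit 0) (nat_lit 468375476341) (nat_lit 1) (nat_lit 5) (nat_lit 3) (nat_lit 4) (nat_lit 1) (nat_lit 4) (nat_lit 402) (nat_lit 315) (nat_lit 183)) (XT.nd (nat_lit 78) (nat_lit 0) (nat_lit 0) (XT.lf (nat_lit 0) (nat_lit 578363798932) (nat_lit 152) (nat_lit 1825886442490) (nat_lit 0) (nat_lit 537227003750) (nat_lit 1) (nat_lit 5) (nat_lit 3) (nat_lit 4) (nat_lit 1) (nat_lit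 4) (nat_lit 403) (nat_lit 315) (nat_lit 182)) (XT.lf (nat_lit 0) (nat_lit 652723402615) (nat_lit 152) (nat_lit 1909964979116) (nat_lit 0) (nat_lit 611586498151) (nat_lit 1) (nat_lit 5) (nat_lit 3) (nat_lit 4) (nat_lit 1) (nat_lit 4) (nat_lit 404) (nat_lit 315) (nat_lit 181))))))) (XT.nd (nat_lit 40014) (nat_lit 0) (nat_lit 3040) (XT.nd (nat_lit 312) (nat_lit 0) (nat_lit 0) (XT.nd (nat_lit 156) (nat_lit 0) (nat_lit 0) (XT.nd (nat_lit 78) (nat_lit 0) (nat_lit 0) (XT.lf (nat_lit 0) (nat_lit 733031614050) (nat_lit 152) (nat_lit 2000770115815) (nat_lit 0) (nat_lit 691894608398) (nat_lit 1) (nat_lit 5) (nat_lit 3) (nat_lit 4) (nat_lit 1) (nat_lit 4) (nat_lit 405) (nat_lit 315) (nat_lit 180)) (XT.lf (nat_lit 0) (nat_lit 819764333749) (nat_lit 152) (nat_lit 2098839957100) (nat_lit 0) (nat_lit 778627234404) (nat_lit 1) (nat_lit 5) (nat_lit 3) (nat_lit 4) (nat_lit 1) (nat_lit 4) (nat_lit 406) (nat_lit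 315) (nat_lit 179))) (XT.nd (nat_lit 78) (nat_lit 0) (nat_lit 0) (XT.lf (nat_lit 0) (nat_lit 913435533385) (nat_lit 152) (nat_lit 2204755657586) (nat_lit 0) (nat_lit 872298347287) (nat_lit 1) (nat_lit 5) (nat_lit 3) (nat_lit 4) (nat_lit 1) (nat_lit 4) (nat_lit 407) (nat_lit 315) (nat_lit 178)) (XT.lf (nat_lit 0) (nat_lit 1014600301547) (nat_lit 152) (nat_lit 2319144865870) (nat_lit 0) (nat_lit 973463035123) (nat_lit 1) (nat_lit 5) (nat_lit 3) (nat_lit 4) (nat_lit 1) (nat_lit 4) (nat_lit 408) (nat_lit 315) (nat_lit 177)))) (XT.nd (nat_lit 156) (nat_lit 0) (nat_lit 0) (XT.nd (nat_lit 78) (nat_lit 0) (nat_lit 0) (XT.lf (nat_lit 0) (nat_lit 1123858133159) (nat_lit 152) (nat_lit 2442685443926) (nat_lit 0) (nat_lit 1082720792359) (nat_lit 1) (nat_lit 5) (nat_lit 3) (nat_lit 4) (nat_lit 1) (nat_lit 4) (nat_lit 409) (nat_lit 315) (nat_lit 176)) (XT.lf (nat_lit 0) (nat_lit 1241856482036) (nat_lit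 152) (nat_lit 2576109484068) (nat_lit 0) (nat_lit 1200719072370) (nat_lit 1) (nat_lit 5) (nat_lit 3) (nat_lit 4) (nat_lit 1) (nat_lit 4) (nat_lit 410) (nat_lit 315) (nat_lit 175))) (XT.nd (nat_lit 39468) (nat_lit 0) (nat_lit 3648) (XT.lf (nat_lit 0) (nat_lit 1369294597655) (nat_lit 152) (nat_lit 2720207647275) (nat_lit 0) (nat_lit 1328157124223) (nat_lit 1) (nat_lit 5) (nat_lit 3) (nat_lit 4) (nat_lit 1) (nat_lit 4) (nat_lit 411) (nat_lit 315) (nat_lit 174)) (XT.lf (nat_lit 0) (nat_lit 3476207341) (nat_lit 532) (nat_lit 1812299951) (nat_lit 532) (nat_lit 1812299951) (nat_lit 49) (nat_lit 3) (nat_lit 56) (nat_lit 3) (nat_lit 56) (nat_lit 5) (nat_lit 316) (nat_lit 316) (nat_lit 268))))) (XT.nd (nat_lit 312) (nat_lit 608) (nat_lit 0) (XT.nd (nat_lit 156) (nat_lit 0) (nat_lit 76) (XT.nd (nat_lit 78) (nat_lit 0) (nat_lit 76) (XT.lf (nat_lit 76) (nat_lit 3129161106) (nat_lit 0) (nat_lit 4484486040)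 (nat_lit 532) (nat_lit 7124613986) (nat_lit 50) (nat_lit 5) (nat_lit 49) (nat_lit 3) (nat_lit 56) (nat_lit 5) (nat_lit 317) (nat_lit 316) (nat_lit 267)) (XT.lf (nat_lit 0) (nat_lit 8448954849) (nat_lit 456) (nat_lit 4753977055) (nat_lit 532) (nat_lit 2105290217) (nat_lit 50) (nat_lit 5) (nat_lit 56) (nat_lit 5) (nat_lit 57) (nat_lit 5) (nat_lit 318) (nat_lit 316) (nat_lit 266))) (XT.nd (nat_lit 78) (nat_lit 0) (nat_lit 76) (XT.lf (nat_lit 76) (nat_lit 2646527291) (nat_lit 0) (nat_lit 6856081724) (nat_lit 532) (nat_lit 6409120285) (nat_lit 51) (nat_lit 5) (nat_lit 50) (nat_lit 5) (nat_lit 57) (nat_lit 5) (nat_lit 319) (nat_lit 316) (nat_lit 265)) (XT.lf (nat_lit 0) (nat_lit 10747149710) (nat_lit 456) (nat_lit 5667907117) (nat_lit 532) (nat_lit 139998486) (nat_lit 51) (nat_lit 5) (nat_lit 57) (nat_lit 5) (nat_lit 58) (nat_lit 5) (nat_lit 320) (nat_lit 316) (nat_lit 264)))) (XT.nd (nat_lit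 156) (nat_lit 760) (nat_lit 0) (XT.nd (nat_lit 78) (nat_lit 0) (nat_lit 0) (XT.lf (nat_lit 76) (nat_lit 2462962548) (nat_lit 0) (nat_lit 9840856905) (nat_lit 532) (nat_lit 4929083611) (nat_lit 52) (nat_lit 5) (nat_lit 51) (nat_lit 5) (nat_lit 58) (nat_lit 5) (nat_lit 321) (nat_lit 316) (nat_lit 263)) (XT.lf (nat_lit 76) (nat_lit 11547794073) (nat_lit 0) (nat_lit 2568830735) (nat_lit 532) (nat_lit 3837882074) (nat_lit 52) (nat_lit 5) (nat_lit 51) (nat_lit 5) (nat_lit 58) (nat_lit 5) (nat_lit 322) (nat_lit 316) (nat_lit 262))) (XT.nd (nat_lit 78) (nat_lit 380) (nat_lit 0) (XT.lf (nat_lit 0) (nat_lit 2609682124) (nat_lit 456) (nat_lit 13633101852) (nat_lit 532) (nat_lit 2477640908) (nat_lit 46) (nat_lit 5) (nat_lit 52) (nat_lit 5) (nat_lit 53) (nat_lit 5) (nat_lit 323) (nat_lit 316) (nat_lit 261)) (XT.nd (nat_lit 78) (nat_lit 380) (nat_lit 0) (XT.lf (nat_lit 0) (nat_lit 12622662680) (nat_lit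 456) (nat_lit 6136182981) (nat_lit 532) (nat_lit 771234244) (nat_lit 46) (nat_lit 5) (nat_lit 52) (nat_lit 5) (nat_lit 53) (nat_lit 5) (nat_lit 324) (nat_lit 316) (nat_lit 260)) (XT.lf (nat_lit 0) (nat_lit 1124106312) (nat_lit 380) (nat_lit 17302570454) (nat_lit 76) (nat_lit 1967327590) (nat_lit 41) (nat_lit 5) (nat_lit 46) (nat_lit 5) (nat_lit 42) (nat_lit 5) (nat_lit 325) (nat_lit 316) (nat_lit 259))))))))
noncomputable def xc145 : XT := (XT.nd (nat_lit 1326) (nat_lit 836) (nat_lit 0) (XT.nd (nat_lit 624) (nat_lit 608) (nat_lit 0) (XT.nd (nat_lit 312) (nat_lit 456) (nat_lit 0) (XT.nd (nat_lit 156) (nat_lit 228) (nat_lit 0) (XT.nd (nat_lit 78) (nat_lit 228) (nat_lit 0) (XT.lf (nat_lit 0) (nat_lit 3464151418) (nat_lit 380) (nat_lit 7232793352) (nat_lit 76) (nat_lit 10601754300) (nat_lit 41) (nat_lit 5) (nat_lit 46) (nat_lit 5) (nat_lit 42) (nat_lit 5) (nat_lit 326) (nat_lit 316) (nat_lit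 258)) (XT.lf (nat_lit 0) (nat_lit 3815307677) (nat_lit 228) (nat_lit 2250810049) (nat_lit 304) (nat_lit 16203709773) (nat_lit 38) (nat_lit 5) (nat_lit 41) (nat_lit 5) (nat_lit 42) (nat_lit 5) (nat_lit 327) (nat_lit 316) (nat_lit 257))) (XT.nd (nat_lit 78) (nat_lit 228) (nat_lit 0) (XT.lf (nat_lit 0) (nat_lit 9228145385) (nat_lit 304) (nat_lit 7333569060) (nat_lit 76) (nat_lit 6728812350) (nat_lit 38) (nat_lit 5) (nat_lit 42) (nat_lit 5) (nat_lit 39) (nat_lit 5) (nat_lit 328) (nat_lit 316) (nat_lit 256)) (XT.lf (nat_lit 0) (nat_lit 4843331013) (nat_lit 228) (nat_lit 7959713897) (nat_lit 304) (nat_lit 11577074827) (nat_lit 35) (nat_lit 5) (nat_lit 38) (nat_lit 5) (nat_lit 39) (nat_lit 5) (nat_lit 329) (nat_lit 316) (nat_lit 255)))) (XT.nd (nat_lit 156) (nat_lit 304) (nat_lit 0) (XT.nd (nat_lit 78) (nat_lit 152) (nat_lit 0) (XT.lf (nat_lit 0) (nat_lit 16887255167) (nat_lit 304) (nat_lit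 7184805999) (nat_lit 76) (nat_lit 1466981666) (nat_lit 35) (nat_lit 5) (nat_lit 39) (nat_lit 5) (nat_lit 36) (nat_lit 5) (nat_lit 330) (nat_lit 316) (nat_lit 254)) (XT.lf (nat_lit 0) (nat_lit 6244081583) (nat_lit 152) (nat_lit 15397704007) (nat_lit 228) (nat_lit 5121433645) (nat_lit 33) (nat_lit 5) (nat_lit 35) (nat_lit 5) (nat_lit 36) (nat_lit 5) (nat_lit 331) (nat_lit 316) (nat_lit 253))) (XT.nd (nat_lit 78) (nat_lit 304) (nat_lit 0) (XT.lf (nat_lit 0) (nat_lit 21139451152) (nat_lit 152) (nat_lit 5820932185) (nat_lit 228) (nat_lit 1110274213) (nat_lit 33) (nat_lit 5) (nat_lit 35) (nat_lit 5) (nat_lit 36) (nat_lit 5) (nat_lit 332) (nat_lit 316) (nat_lit 252)) (XT.lf (nat_lit 0) (nat_lit 3357874924) (nat_lit 304) (nat_lit 21524440313) (nat_lit 76) (nat_lit 4570416661) (nat_lit 29) (nat_lit 5) (nat_lit 33) (nat_lit 5) (nat_lit 30) (nat_lit 5) (nat_lit 333) (nat_lit 316) (nat_lit 251)))))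 (XT.nd (nat_lit 312) (nat_lit 304) (nat_lit 0) (XT.nd (nat_lit 156) (nat_lit 152) (nat_lit 0) (XT.nd (nat_lit 78) (nat_lit 152) (nat_lit 0) (XT.lf (nat_lit 0) (nat_lit 8457427537) (nat_lit 304) (nat_lit 6760760691) (nat_lit 76) (nat_lit 15698181294) (nat_lit 29) (nat_lit 5) (nat_lit 33) (nat_lit 5) (nat_lit 30) (nat_lit 5) (nat_lit 334) (nat_lit 316) (nat_lit 250)) (XT.lf (nat_lit 0) (nat_lit 9651711595) (nat_lit 152) (nat_lit 4534531013) (nat_lit 228) (nat_lit 18293169469) (nat_lit 27) (nat_lit 5) (nat_lit 29) (nat_lit 5) (nat_lit 30) (nat_lit 5) (nat_lit 335) (nat_lit 316) (nat_lit 249))) (XT.nd (nat_lit 78) (nat_lit 152) (nat_lit 0) (XT.lf (nat_lit 0) (nat_lit 20720974420) (nat_lit 228) (nat_lit 6579759703) (nat_lit 76) (nat_lit 6838971456) (nat_lit 27) (nat_lit 5) (nat_lit 30) (nat_lit 5) (nat_lit 28) (nat_lit 5) (nat_lit 336) (nat_lit 316) (nat_lit 248)) (XT.lf (nat_lit 0) (nat_lit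 11406503854) (nat_lit 152) (nat_lit 16754381174) (nat_lit 228) (nat_lit 7741360759) (nat_lit 25) (nat_lit 5) (nat_lit 27) (nat_lit 5) (nat_lit 28) (nat_lit 5) (nat_lit 337) (nat_lit 316) (nat_lit 247)))) (XT.nd (nat_lit 156) (nat_lit 152) (nat_lit 0) (XT.nd (nat_lit 78) (nat_lit 152) (nat_lit 0) (XT.lf (nat_lit 0) (nat_lit 31191896119) (nat_lit 152) (nat_lit 5174671230) (nat_lit 228) (nat_lit 1425589670) (nat_lit 25) (nat_lit 5) (nat_lit 27) (nat_lit 5) (nat_lit 28) (nat_lit 5) (nat_lit 338) (nat_lit 316) (nat_lit 246)) (XT.lf (nat_lit 0) (nat_lit 5623102528) (nat_lit 152) (nat_lit 26739653453) (nat_lit 76) (nat_lit 7420331521) (nat_lit 23) (nat_lit 5) (nat_lit 25) (nat_lit 5) (nat_lit 24) (nat_lit 5) (nat_lit 339) (nat_lit 316) (nat_lit 245))) (XT.nd (nat_lit 78) (nat_lit 152) (nat_lit 0) (XT.lf (nat_lit 0) (nat_lit 13469592214) (nat_lit 152) (nat_lit 7474648769) (nat_lit 76) (nat_lit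 20961226702) (nat_lit 23) (nat_lit 5) (nat_lit 25) (nat_lit 5) (nat_lit 24) (nat_lit 5) (nat_lit 340) (nat_lit 316) (nat_lit 244)) (XT.nd (nat_lit 78) (nat_lit 0) (nat_lit 0) (XT.lf (nat_lit 0) (nat_lit 14020260231) (nat_lit 152) (nat_lit 8252731923) (nat_lit 228) (nat_lit 21898321220) (nat_lit 21) (nat_lit 5) (nat_lit 23) (nat_lit 5) (nat_lit 24) (nat_lit 5) (nat_lit 341) (nat_lit 316) (nat_lit 243)) (XT.lf (nat_lit 0) (nat_lit 32113701865) (nat_lit 228) (nat_lit 9091545271) (nat_lit 76) (nat_lit 5386546166) (nat_lit 21) (nat_lit 5) (nat_lit 24) (nat_lit 5) (nat_lit 22) (nat_lit 4) (nat_lit 342) (nat_lit 316) (nat_lit 242))))))) (XT.nd (nat_lit 624) (nat_lit 304) (nat_lit 0) (XT.nd (nat_lit 312) (nat_lit 228) (nat_lit 0) (XT.nd (nat_lit 156) (nat_lit 152) (nat_lit 0) (XT.nd (nat_lit 78) (nat_lit 76) (nat_lit 0) (XT.lf (nat_lit 0) (nat_lit 14133491687) (nat_lit 76) (nat_lit 29155210942)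 (nat_lit 152) (nat_lit 5873455150) (nat_lit 20) (nat_lit 5) (nat_lit 21) (nat_lit 5) (nat_lit 22) (nat_lit 4) (nat_lit 343) (nat_lit 316) (nat_lit 241)) (XT.lf (nat_lit 0) (nat_lit 3496362613) (nat_lit 152) (nat_lit 12285359462) (nat_lit 76) (nat_lit 36130028106) (nat_lit 19) (nat_lit 5) (nat_lit 21) (nat_lit 5) (nat_lit 20) (nat_lit 5) (nat_lit 344) (nat_lit 316) (nat_lit 240))) (XT.nd (nat_lit 78) (nat_lit 0) (nat_lit 0) (XT.lf (nat_lit 0) (nat_lit 12751657590) (nat_lit 152) (nat_lit 846832354) (nat_lit 228) (nat_lit 41246619050) (nat_lit 17) (nat_lit 5) (nat_lit 19) (nat_lit 5) (nat_lit 20) (nat_lit 5) (nat_lit 345) (nat_lit 316) (nat_lit 239)) (XT.lf (nat_lit 0) (nat_lit 25214459882) (nat_lit 228) (nat_lit 17883445183) (nat_lit 76) (nat_lit 14858784192) (nat_lit 17) (nat_lit 5) (nat_lit 20) (nat_lit 5) (nat_lit 18) (nat_lit 4) (nat_lit 346) (nat_lit 316) (nat_lit 238)))) (XT.nd (nat_lit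 156) (nat_lit 152) (nat_lit 0) (XT.nd (nat_lit 78) (nat_lit 0) (nat_lit 0) (XT.lf (nat_lit 0) (nat_lit 8664407034) (nat_lit 76) (nat_lit 29319648629) (nat_lit 152) (nat_lit 23315198471) (nat_lit 16) (nat_lit 5) (nat_lit 17) (nat_lit 5) (nat_lit 18) (nat_lit 4) (nat_lit 347) (nat_lit 316) (nat_lit 237)) (XT.lf (nat_lit 0) (nat_lit 38343010191) (nat_lit 76) (nat_lit 13915350324) (nat_lit 152) (nat_lit 12612217980) (nat_lit 16) (nat_lit 5) (nat_lit 17) (nat_lit 5) (nat_lit 18) (nat_lit 4) (nat_lit 348) (nat_lit 316) (nat_lit 236))) (XT.nd (nat_lit 78) (nat_lit 76) (nat_lit 0) (XT.lf (nat_lit 0) (nat_lit 1677021637) (nat_lit 76) (nat_lit 66097879594) (nat_lit 76) (nat_lit 944689445) (nat_lit 15) (nat_lit 4) (nat_lit 16) (nat_lit 5) (nat_lit 16) (nat_lit 4) (nat_lit 349) (nat_lit 316) (nat_lit 235)) (XT.lf (nat_lit 0) (nat_lit 12173284854) (nat_lit 152) (nat_lit 39842244689) (nat_lit 76) (nat_lit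 20750561239) (nat_lit 14) (nat_lit 5) (nat_lit 16) (nat_lit 5) (nat_lit 15) (nat_lit 4) (nat_lit 350) (nat_lit 316) (nat_lit 234))))) (XT.nd (nat_lit 312) (nat_lit 152) (nat_lit 0) (XT.nd (nat_lit 156) (nat_lit 76) (nat_lit 0) (XT.nd (nat_lit 78) (nat_lit 76) (nat_lit 0) (XT.lf (nat_lit 0) (nat_lit 26284611409) (nat_lit 152) (nat_lit 10499469748) (nat_lit 76) (nat_lit 40350674701) (nat_lit 14) (nat_lit 5) (nat_lit 16) (nat_lit 5) (nat_lit 15) (nat_lit 4) (nat_lit 351) (nat_lit 316) (nat_lit 233)) (XT.lf (nat_lit 0) (nat_lit 22297784167) (nat_lit 76) (nat_lit 19758648165) (nat_lit 152) (nat_lit 39753958564) (nat_lit 13) (nat_lit 5) (nat_lit 14) (nat_lit 5) (nat_lit 15) (nat_lit 4) (nat_lit 352) (nat_lit 316) (nat_lit 232))) (XT.nd (nat_lit 78) (nat_lit 76) (nat_lit 0) (XT.lf (nat_lit 0) (nat_lit 58307775914) (nat_lit 76) (nat_lit 1064773179) (nat_lit 152) (nat_lit 27464927164) (nat_lit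 13) (nat_lit 5) (nat_lit 14) (nat_lit 5) (nat_lit 15) (nat_lit 4) (nat_lit 353) (nat_lit 316) (nat_lit 231)) (XT.lf (nat_lit 0) (nat_lit 4699151867) (nat_lit 76) (nat_lit 73943495683) (nat_lit 76) (nat_lit 13578588779) (nat_lit 12) (nat_lit 4) (nat_lit 13) (nat_lit 5) (nat_lit 13) (nat_lit 4) (nat_lit 354) (nat_lit 316) (nat_lit 230)))) (XT.nd (nat_lit 156) (nat_lit 76) (nat_lit 0) (XT.nd (nat_lit 78) (nat_lit 0) (nat_lit 0) (XT.lf (nat_lit 0) (nat_lit 2171412992) (nat_lit 152) (nat_lit 55854346322) (nat_lit 76) (nat_lit 39941313338) (nat_lit 11) (nat_lit 5) (nat_lit 13) (nat_lit 5) (nat_lit 12) (nat_lit 4) (nat_lit 355) (nat_lit 316) (nat_lit 229)) (XT.lf (nat_lit 0) (nat_lit 18443886153) (nat_lit 152) (nat_lit 22013137743) (nat_lit 76) (nat_lit 63687653913) (nat_lit 11) (nat_lit 5) (nat_lit 13) (nat_lit 5) (nat_lit 12) (nat_lit 4) (nat_lit 356) (nat_lit 316) (nat_lit 228))) (XT.nd (nat_lit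 78) (nat_lit 0) (nat_lit 0) (XT.lf (nat_lit 0) (nat_lit 15293699967) (nat_lit 76) (nat_lit 21088630061) (nat_lit 152) (nat_lit 74405029925) (nat_lit 10) (nat_lit 5) (nat_lit 11) (nat_lit 5) (nat_lit 12) (nat_lit 4) (nat_lit 357) (nat_lit 316) (nat_lit 227)) (XT.nd (nat_lit 78) (nat_lit 0) (nat_lit 0) (XT.lf (nat_lit 0) (nat_lit 56365652431) (nat_lit 152) (nat_lit 61094603472) (nat_lit 0) (nat_lit 452418752) (nat_lit 10) (nat_lit 5) (nat_lit 12) (nat_lit 4) (nat_lit 10) (nat_lit 4) (nat_lit 358) (nat_lit 316) (nat_lit 226)) (XT.lf (nat_lit 0) (nat_lit 78492062542) (nat_lit 152) (nat_lit 24497640262) (nat_lit 0) (nat_lit 22574760035) (nat_lit 10) (nat_lit 5) (nat_lit 12) (nat_lit 4) (nat_lit 10) (nat_lit 4) (nat_lit 359) (nat_lit 316) (nat_lit 225))))))))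
noncomputable def xc146 : XT := (XT.nd (nat_lit 1326) (nat_lit 228) (nat_lit 0) (XT.nd (nat_lit 624) (nat_lit 228) (nat_lit 0) (XT.nd (nat_lit 312) (nat_lit 76) (nat_lit 0) (XT.nd (nat_lit 156) (nat_lit 76) (nat_lit 0) (XT.nd (nat_lit 78) (nat_lit 0) (nat_lit 0) (XT.lf (nat_lit 0) (nat_lit 15812276717) (nat_lit 76) (nat_lit 86953506688) (nat_lit 76) (nat_lit 31032436748) (nat_lit 9) (nat_lit 4) (nat_lit 10) (nat_lit 5) (nat_lit 10) (nat_lit 4) (nat_lit 360) (nat_lit 316) (nat_lit 224)) (XT.lf (nat_lit 0) (nat_lit 60734538926) (nat_lit 76) (nat_lit 68913677037) (nat_lit 76) (nat_lit 12989118733) (nat_lit 9) (nat_lit 4) (nat_lit 10) (nat_lit 5) (nat_lit 10) (nat_lit 4) (nat_lit 361) (nat_lit 316) (nat_lit 223))) (XT.nd (nat_lit 78) (nat_lit 0) (nat_lit 0) (XT.lf (nat_lit 0) (nat_lit 6169778605) (nat_lit 152) (nat_lit 43094648770) (nat_lit 76) (nat_lit 102906878752) (nat_lit 8) (nat_lit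 5) (nat_lit 10) (nat_lit 5) (nat_lit 9) (nat_lit 4) (nat_lit 362) (nat_lit 316) (nat_lit 222)) (XT.lf (nat_lit 0) (nat_lit 26157002189) (nat_lit 152) (nat_lit 1524214425) (nat_lit 76) (nat_lit 134760000544) (nat_lit 8) (nat_lit 5) (nat_lit 10) (nat_lit 5) (nat_lit 9) (nat_lit 4) (nat_lit 363) (nat_lit 316) (nat_lit 221)))) (XT.nd (nat_lit 156) (nat_lit 0) (nat_lit 0) (XT.nd (nat_lit 78) (nat_lit 0) (nat_lit 0) (XT.lf (nat_lit 0) (nat_lit 45650881158) (nat_lit 76) (nat_lit 3187786781) (nat_lit 152) (nat_lit 124606417291) (nat_lit 7) (nat_lit 5) (nat_lit 8) (nat_lit 5) (nat_lit 9) (nat_lit 4) (nat_lit 364) (nat_lit 316) (nat_lit 220)) (XT.lf (nat_lit 0) (nat_lit 73934731600) (nat_lit 152) (nat_lit 89204508067) (nat_lit 0) (nat_lit 22142035111) (nat_lit 7) (nat_lit 5) (nat_lit 9) (nat_lit 4) (nat_lit 7) (nat_lit 4) (nat_lit 365) (nat_lit 316) (nat_lit 219))) (XT.nd (nat_lit 78) (nat_lit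 0) (nat_lit 0) (XT.lf (nat_lit 0) (nat_lit 101119040040) (nat_lit 152) (nat_lit 47614730497) (nat_lit 0) (nat_lit 49324145290) (nat_lit 7) (nat_lit 5) (nat_lit 9) (nat_lit 4) (nat_lit 7) (nat_lit 4) (nat_lit 366) (nat_lit 316) (nat_lit 218)) (XT.lf (nat_lit 0) (nat_lit 130476019109) (nat_lit 152) (nat_lit 2701747073) (nat_lit 0) (nat_lit 78679088933) (nat_lit 7) (nat_lit 5) (nat_lit 9) (nat_lit 4) (nat_lit 7) (nat_lit 4) (nat_lit 367) (nat_lit 316) (nat_lit 217))))) (XT.nd (nat_lit 312) (nat_lit 76) (nat_lit 0) (XT.nd (nat_lit 156) (nat_lit 76) (nat_lit 0) (XT.nd (nat_lit 78) (nat_lit 0) (nat_lit 0) (XT.lf (nat_lit 0) (nat_lit 48212371289) (nat_lit 76) (nat_lit 115126773491) (nat_lit 76) (nat_lit 63327958660) (nat_lit 6) (nat_lit 4) (nat_lit 7) (nat_lit 5) (nat_lit 7) (nat_lit 4) (nat_lit 368) (nat_lit 316) (nat_lit 216)) (XT.lf (nat_lit 0) (nat_lit 103349681275) (nat_lit 76) (nat_lit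 95553645317) (nat_lit 76) (nat_lit 43753085436) (nat_lit 6) (nat_lit 4) (nat_lit 7) (nat_lit 5) (nat_lit 7) (nat_lit 4) (nat_lit 369) (nat_lit 316) (nat_lit 215))) (XT.nd (nat_lit 78) (nat_lit 76) (nat_lit 0) (XT.lf (nat_lit 0) (nat_lit 162894653284) (nat_lit 76) (nat_lit 74416263307) (nat_lit 76) (nat_lit 22614087638) (nat_lit 6) (nat_lit 4) (nat_lit 7) (nat_lit 5) (nat_lit 7) (nat_lit 4) (nat_lit 370) (nat_lit 316) (nat_lit 214)) (XT.lf (nat_lit 0) (nat_lit 203582570) (nat_lit 152) (nat_lit 51380220022) (nat_lit 76) (nat_lit 226990997532) (nat_lit 5) (nat_lit 5) (nat_lit 7) (nat_lit 5) (nat_lit 6) (nat_lit 4) (nat_lit 371) (nat_lit 316) (nat_lit 213)))) (XT.nd (nat_lit 156) (nat_lit 0) (nat_lit 0) (XT.nd (nat_lit 78) (nat_lit 76) (nat_lit 0) (XT.lf (nat_lit 0) (nat_lit 23623399100) (nat_lit 152) (nat_lit 2668386915) (nat_lit 76) (nat_lit 272377925547) (nat_lit 5) (nat_lit 5) (nat_lit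 7) (nat_lit 5) (nat_lit 6) (nat_lit 4) (nat_lit 372) (nat_lit 316) (nat_lit 212)) (XT.lf (nat_lit 0) (nat_lit 50237062917) (nat_lit 152) (nat_lit 267761302790) (nat_lit 0) (nat_lit 2268229853) (nat_lit 4) (nat_lit 5) (nat_lit 6) (nat_lit 4) (nat_lit 4) (nat_lit 4) (nat_lit 373) (nat_lit 316) (nat_lit 211))) (XT.nd (nat_lit 78) (nat_lit 0) (nat_lit 0) (XT.lf (nat_lit 0) (nat_lit 79736180059) (nat_lit 152) (nat_lit 232028294644) (nat_lit 0) (nat_lit 31766247317) (nat_lit 4) (nat_lit 5) (nat_lit 6) (nat_lit 4) (nat_lit 4) (nat_lit 4) (nat_lit 374) (nat_lit 316) (nat_lit 210)) (XT.nd (nat_lit 78) (nat_lit 0) (nat_lit 0) (XT.lf (nat_lit 0) (nat_lit 111593933270) (nat_lit 152) (nat_lit 193439166995) (nat_lit 0) (nat_lit 63622982308) (nat_lit 4) (nat_lit 5) (nat_lit 6) (nat_lit 4) (nat_lit 4) (nat_lit 4) (nat_lit 375) (nat_lit 316) (nat_lit 209)) (XT.lf (nat_lit 0) (nat_lit 145999109237) (nat_lit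 152) (nat_lit 151765243534) (nat_lit 0) (nat_lit 98027215479) (nat_lit 4) (nat_lit 5) (nat_lit 6) (nat_lit 4) (nat_lit 4) (nat_lit 4) (nat_lit 376) (nat_lit 316) (nat_lit 208))))))) (XT.nd (nat_lit 624) (nat_lit 152) (nat_lit 0) (XT.nd (nat_lit 312) (nat_lit 0) (nat_lit 0) (XT.nd (nat_lit 156) (nat_lit 76) (nat_lit 0) (XT.nd (nat_lit 78) (nat_lit 0) (nat_lit 0) (XT.lf (nat_lit 0) (nat_lit 183155590484) (nat_lit 152) (nat_lit 106759567676) (nat_lit 0) (nat_lit 135182823766) (nat_lit 4) (nat_lit 5) (nat_lit 6) (nat_lit 4) (nat_lit 4) (nat_lit 4) (nat_lit 377) (nat_lit 316) (nat_lit 207)) (XT.lf (nat_lit 0) (nat_lit 223283563567) (nat_lit 152) (nat_lit 58155439119) (nat_lit 0) (nat_lit 175309988553) (nat_lit 4) (nat_lit 5) (nat_lit 6) (nat_lit 4) (nat_lit 4) (nat_lit 4) (nat_lit 378) (nat_lit 316) (nat_lit 206))) (XT.nd (nat_lit 78) (nat_lit 76) (nat_lit 0) (XT.lf (nat_lit 0) (nat_lit 266620823882)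 (nat_lit 152) (nat_lit 5664833399) (nat_lit 0) (nat_lit 218646500446) (nat_lit 4) (nat_lit 5) (nat_lit 6) (nat_lit 4) (nat_lit 4) (nat_lit 4) (nat_lit 379) (nat_lit 316) (nat_lit 205)) (XT.lf (nat_lit 0) (nat_lit 53710101742) (nat_lit 76) (nat_lit 261005812319) (nat_lit 76) (nat_lit 213030795899) (nat_lit 3) (nat_lit 4) (nat_lit 4) (nat_lit 5) (nat_lit 4) (nat_lit 4) (nat_lit 380) (nat_lit 316) (nat_lit 204)))) (XT.nd (nat_lit 156) (nat_lit 0) (nat_lit 0) (XT.nd (nat_lit 78) (nat_lit 0) (nat_lit 0) (XT.lf (nat_lit 0) (nat_lit 118155523377) (nat_lit 76) (nat_lit 248657119441) (nat_lit 76) (nat_lit 200681461370) (nat_lit 3) (nat_lit 4) (nat_lit 4) (nat_lit 5) (nat_lit 4) (nat_lit 4) (nat_lit 381) (nat_lit 316) (nat_lit 203)) (XT.lf (nat_lit 0) (nat_lit 187755030211) (nat_lit 76) (nat_lit 235321287793) (nat_lit 76) (nat_lit 187345035600) (nat_lit 3) (nat_lit 4) (nat_lit 4) (nat_lit 5) (nat_lit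 4) (nat_lit 4) (nat_lit 382) (nat_lit 316) (nat_lit 202))) (XT.nd (nat_lit 78) (nat_lit 0) (nat_lit 0) (XT.lf (nat_lit 0) (nat_lit 262921063768) (nat_lit 76) (nat_lit 220919290225) (nat_lit 76) (nat_lit 172942487919) (nat_lit 3) (nat_lit 4) (nat_lit 4) (nat_lit 5) (nat_lit 4) (nat_lit 4) (nat_lit 383) (nat_lit 316) (nat_lit 201)) (XT.lf (nat_lit 0) (nat_lit 344099052394) (nat_lit 76) (nat_lit 205365781564) (nat_lit 76) (nat_lit 157388469895) (nat_lit 3) (nat_lit 4) (nat_lit 4) (nat_lit 5) (nat_lit 4) (nat_lit 4) (nat_lit 384) (nat_lit 316) (nat_lit 200))))) (XT.nd (nat_lit 312) (nat_lit 152) (nat_lit 0) (XT.nd (nat_lit 156) (nat_lit 0) (nat_lit 0) (XT.nd (nat_lit 78) (nat_lit 0) (nat_lit 0) (XT.lf (nat_lit 0) (nat_lit 431770050835) (nat_lit 76) (nat_lit 188568592872) (nat_lit 76) (nat_lit 140590809569) (nat_lit 3) (nat_lit 4) (nat_lit 4) (nat_lit 5) (nat_lit 4) (nat_lit 4) (nat_lit 385)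 (nat_lit 316) (nat_lit 199)) (XT.lf (nat_lit 0) (nat_lit 526453590936) (nat_lit 76) (nat_lit 170428185252) (nat_lit 76) (nat_lit 122449965252) (nat_lit 3) (nat_lit 4) (nat_lit 4) (nat_lit 5) (nat_lit 4) (nat_lit 4) (nat_lit 386) (nat_lit 316) (nat_lit 198))) (XT.nd (nat_lit 78) (nat_lit 0) (nat_lit 0) (XT.lf (nat_lit 0) (nat_lit 628710760341) (nat_lit 76) (nat_lit 150837059992) (nat_lit 76) (nat_lit 102858435643) (nat_lit 3) (nat_lit 4) (nat_lit 4) (nat_lit 5) (nat_lit 4) (nat_lit 4) (nat_lit 387) (nat_lit 316) (nat_lit 197)) (XT.lf (nat_lit 0) (nat_lit 739147527462) (nat_lit 76) (nat_lit 129679121535) (nat_lit 76) (nat_lit 81700122789) (nat_lit 3) (nat_lit 4) (nat_lit 4) (nat_lit 5) (nat_lit 4) (nat_lit 4) (nat_lit 388) (nat_lit 316) (nat_lit 196)))) (XT.nd (nat_lit 156) (nat_lit 152) (nat_lit 0) (XT.nd (nat_lit 78) (nat_lit 0) (nat_lit 0) (XT.lf (nat_lit 0) (nat_lit 858418332399) (nat_lit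 76) (nat_lit 106828989505) (nat_lit 76) (nat_lit 58849644095) (nat_lit 3) (nat_lit 4) (nat_lit 4) (nat_lit 5) (nat_lit 4) (nat_lit 4) (nat_lit 389) (nat_lit 316) (nat_lit 195)) (XT.lf (nat_lit 0) (nat_lit 987229965108) (nat_lit 76) (nat_lit 82151255713) (nat_lit 76) (nat_lit 34171589317) (nat_lit 3) (nat_lit 4) (nat_lit 4) (nat_lit 5) (nat_lit 4) (nat_lit 4) (nat_lit 390) (nat_lit 316) (nat_lit 194))) (XT.nd (nat_lit 78) (nat_lit 152) (nat_lit 0) (XT.lf (nat_lit 0) (nat_lit 1126345753782) (nat_lit 76) (nat_lit 55499681736) (nat_lit 76) (nat_lit 7519718131) (nat_lit 3) (nat_lit 4) (nat_lit 4) (nat_lit 5) (nat_lit 4) (nat_lit 4) (nat_lit 391) (nat_lit 316) (nat_lit 193)) (XT.nd (nat_lit 78) (nat_lit 76) (nat_lit 0) (XT.lf (nat_lit 0) (nat_lit 20200199755) (nat_lit 152) (nat_lit 5963823306) (nat_lit 76) (nat_lit 1255837579267) (nat_lit 2) (nat_lit 5) (nat_lit 4) (nat_lit 5) (nat_lit 3) (nat_lit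 4) (nat_lit 392) (nat_lit 316) (nat_lit 192)) (XT.lf (nat_lit 0) (nat_lit 51309411994) (nat_lit 152) (nat_lit 1323714663732) (nat_lit 0) (nat_lit 6883029025) (nat_lit 1) (nat_lit 5) (nat_lit 3) (nat_lit 4) (nat_lit 1) (nat_lit 4) (nat_lit 393) (nat_lit 316) (nat_lit 191))))))))
noncomputable def xc147 : XT := (XT.nd (nat_lit 1326) (nat_lit 0) (nat_lit 0) (XT.nd (nat_lit 624) (nat_lit 0) (nat_lit 0) (XT.nd (nat_lit 312) (nat_lit 0) (nat_lit 0) (XT.nd (nat_lit 156) (nat_lit 0) (nat_lit 0) (XT.nd (nat_lit 78) (nat_lit 0) (nat_lit 0) (XT.lf (nat_lit 0) (nat_lit 85753896488) (nat_lit 152) (nat_lit 1362656133105) (nat_lit 0) (nat_lit 41327295062) (nat_lit 1) (nat_lit 5) (nat_lit 3) (nat_lit 4) (nat_lit 1) (nat_lit 4) (nat_lit 394) (nat_lit 316) (nat_lit 190)) (XT.lf (nat_lit 0) (nat_lit 122953618816) (nat_lit 152) (nat_lit 1404713553998) (nat_lit 0) (nat_lit 78526815115) (nat_lit 1) (nat_lit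 5) (nat_lit 3) (nat_lit 4) (nat_lit 1) (nat_lit 4) (nat_lit 395) (nat_lit 316) (nat_lit 189))) (XT.nd (nat_lit 78) (nat_lit 0) (nat_lit 0) (XT.lf (nat_lit 0) (nat_lit 163129021777) (nat_lit 152) (nat_lit 1450136155571) (nat_lit 0) (nat_lit 118702030783) (nat_lit 1) (nat_lit 5) (nat_lit 3) (nat_lit 4) (nat_lit 1) (nat_lit 4) (nat_lit 396) (nat_lit 316) (nat_lit 188)) (XT.lf (nat_lit 0) (nat_lit 206518181832) (nat_lit 152) (nat_lit 1499193108797) (nat_lit 0) (nat_lit 162091017420) (nat_lit 1) (nat_lit 5) (nat_lit 3) (nat_lit 4) (nat_lit 1) (nat_lit 4) (nat_lit 397) (nat_lit 316) (nat_lit 187)))) (XT.nd (nat_lit 156) (nat_lit 0) (nat_lit 0) (XT.nd (nat_lit 78) (nat_lit 0) (nat_lit 0) (XT.lf (nat_lit 0) (nat_lit 253378219931) (nat_lit 152) (nat_lit 1552175121546) (nat_lit 0) (nat_lit 208950894946) (nat_lit 1) (nat_lit 5) (nat_lit 3) (nat_lit 4) (nat_lit 1) (nat_lit 4) (nat_lit 398) (nat_lit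 316) (nat_lit 186)) (XT.lf (nat_lit 0) (nat_lit 303986825187) (nat_lit 152) (nat_lit 1609396161302) (nat_lit 0) (nat_lit 259559351524) (nat_lit 1) (nat_lit 5) (nat_lit 3) (nat_lit 4) (nat_lit 1) (nat_lit 4) (nat_lit 399) (nat_lit 316) (nat_lit 185))) (XT.nd (nat_lit 78) (nat_lit 0) (nat_lit 0) (XT.lf (nat_lit 0) (nat_lit 358643900447) (nat_lit 152) (nat_lit 1671195315708) (nat_lit 0) (nat_lit 314216289119) (nat_lit 1) (nat_lit 5) (nat_lit 3) (nat_lit 4) (nat_lit 1) (nat_lit 4) (nat_lit 400) (nat_lit 316) (nat_lit 184)) (XT.lf (nat_lit 0) (nat_lit 417673339490) (nat_lit 152) (nat_lit 1737938801974) (nat_lit 0) (nat_lit 373245600694) (nat_lit 1) (nat_lit 5) (nat_lit 3) (nat_lit 4) (nat_lit 1) (nat_lit 4) (nat_lit 401) (nat_lit 316) (nat_lit 183))))) (XT.nd (nat_lit 312) (nat_lit 0) (nat_lit 0) (XT.nd (nat_lit 156) (nat_lit 0) (nat_lit 0) (XT.nd (nat_lit 78) (nat_lit 0) (nat_lit 0) (XT.lf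 (nat_lit 0) (nat_lit 481424946400) (nat_lit 152) (nat_lit 1810022137057) (nat_lit 0) (nat_lit 436997089578) (nat_lit 1) (nat_lit 5) (nat_lit 3) (nat_lit 4) (nat_lit 1) (nat_lit 4) (nat_lit 402) (nat_lit 316) (nat_lit 182)) (XT.lf (nat_lit 0) (nat_lit 550276508476) (nat_lit 152) (nat_lit 1887872481460) (nat_lit 0) (nat_lit 505848542371) (nat_lit 1) (nat_lit 5) (nat_lit 3) (nat_lit 4) (nat_lit 1) (nat_lit 4) (nat_lit 403) (nat_lit 316) (nat_lit 181))) (XT.nd (nat_lit 78) (nat_lit 0) (nat_lit 0) (XT.lf (nat_lit 0) (nat_lit 624636034975) (nat_lit 152) (nat_lit 1971951170559) (nat_lit 0) (nat_lit 580207967682) (nat_lit 1) (nat_lit 5) (nat_lit 3) (nat_lit 4) (nat_lit 1) (nat_lit 4) (nat_lit 404) (nat_lit 316) (nat_lit 180)) (XT.lf (nat_lit 0) (nat_lit 704944174943) (nat_lit 152) (nat_lit 2062756448435) (nat_lit 0) (nat_lit 660516013958) (nat_lit 1) (nat_lit 5) (nat_lit 3) (nat_lit 4) (nat_lit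 1) (nat_lit 4) (nat_lit 405) (nat_lit 316) (nat_lit 179)))) (XT.nd (nat_lit 156) (nat_lit 0) (nat_lit 0) (XT.nd (nat_lit 78) (nat_lit 0) (nat_lit 0) (XT.lf (nat_lit 0) (nat_lit 791676828470) (nat_lit 152) (nat_lit 2160826420441) (nat_lit 0) (nat_lit 747248580732) (nat_lit 1) (nat_lit 5) (nat_lit 3) (nat_lit 4) (nat_lit 1) (nat_lit 4) (nat_lit 406) (nat_lit 316) (nat_lit 178)) (XT.lf (nat_lit 0) (nat_lit 885347966834) (nat_lit 152) (nat_lit 2266742241965) (nat_lit 0) (nat_lit 840919638770) (nat_lit 1) (nat_lit 5) (nat_lit 3) (nat_lit 4) (nat_lit 1) (nat_lit 4) (nat_lit 407) (nat_lit 316) (nat_lit 177))) (XT.nd (nat_lit 78) (nat_lit 0) (nat_lit 0) (XT.lf (nat_lit 0) (nat_lit 986512678264) (nat_lit 152) (nat_lit 2381131562320) (nat_lit 0) (nat_lit 942084275824) (nat_lit 1) (nat_lit 5) (nat_lit 3) (nat_lit 4) (nat_lit 1) (nat_lit 4) (nat_lit 408) (nat_lit 316) (nat_lit 176)) (XT.nd (nat_lit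 78) (nat_lit 0) (nat_lit 0) (XT.lf (nat_lit 0) (nat_lit 1095770457345) (nat_lit 152) (nat_lit 2504672244146) (nat_lit 0) (nat_lit 1051341986038) (nat_lit 1) (nat_lit 5) (nat_lit 3) (nat_lit 4) (nat_lit 1) (nat_lit 4) (nat_lit 409) (nat_lit 316) (nat_lit 175)) (XT.lf (nat_lit 0) (nat_lit 1213768757584) (nat_lit 152) (nat_lit 2638096380372) (nat_lit 0) (nat_lit 1169340222511) (nat_lit 1) (nat_lit 5) (nat_lit 3) (nat_lit 4) (nat_lit 1) (nat_lit 4) (nat_lit 410) (nat_lit 316) (nat_lit 174))))))) (XT.nd (nat_lit 40170) (nat_lit 0) (nat_lit 2432) (XT.nd (nat_lit 39780) (nat_lit 0) (nat_lit 3420) (XT.nd (nat_lit 39624) (nat_lit 0) (nat_lit 3648) (XT.nd (nat_lit 39546) (nat_lit 0) (nat_lit 3648) (XT.lf (nat_lit 0) (nat_lit 1341206828166) (nat_lit 152) (nat_lit 2782194632545) (nat_lit 0) (nat_lit 1296778234052) (nat_lit 1) (nat_lit 5) (nat_lit 3) (nat_lit 4) (nat_lit 1) (nat_lit 4) (nat_lit 411)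 (nat_lit 316) (nat_lit 173)) (XT.lf (nat_lit 0) (nat_lit 4054778896) (nat_lit 532) (nat_lit 1794653156) (nat_lit 532) (nat_lit 1794653156) (nat_lit 49) (nat_lit 3) (nat_lit 56) (nat_lit 3) (nat_lit 56) (nat_lit 5) (nat_lit 317) (nat_lit 317) (nat_lit 266))) (XT.nd (nat_lit 78) (nat_lit 0) (nat_lit 76) (XT.lf (nat_lit 76) (nat_lit 3696521105) (nat_lit 0) (nat_lit 5090277448) (nat_lit 532) (nat_lit 7084012373) (nat_lit 50) (nat_lit 5) (nat_lit 49) (nat_lit 3) (nat_lit 56) (nat_lit 5) (nat_lit 318) (nat_lit 317) (nat_lit 265)) (XT.lf (nat_lit 0) (nat_lit 9641647624) (nat_lit 456) (nat_lit 4792184713) (nat_lit 532) (nat_lit 2056421807) (nat_lit 50) (nat_lit 5) (nat_lit 56) (nat_lit 5) (nat_lit 57) (nat_lit 5) (nat_lit 319) (nat_lit 317) (nat_lit 264)))) (XT.nd (nat_lit 156) (nat_lit 304) (nat_lit 0) (XT.nd (nat_lit 78) (nat_lit 0) (nat_lit 76) (XT.lf (nat_lit 76) (nat_lit 3191698954) (nat_lit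 0) (nat_lit 7557634904) (nat_lit 532) (nat_lit 6395223945) (nat_lit 51) (nat_lit 5) (nat_lit 50) (nat_lit 5) (nat_lit 57) (nat_lit 5) (nat_lit 320) (nat_lit 317) (nat_lit 263)) (XT.lf (nat_lit 0) (nat_lit 12053991006) (nat_lit 456) (nat_lit 5772042855) (nat_lit 532) (nat_lit 16559820) (nat_lit 51) (nat_lit 5) (nat_lit 57) (nat_lit 5) (nat_lit 58) (nat_lit 5) (nat_lit 321) (nat_lit 317) (nat_lit 262))) (XT.nd (nat_lit 78) (nat_lit 380) (nat_lit 0) (XT.lf (nat_lit 76) (nat_lit 3000453425) (nat_lit 0) (nat_lit 10709812582) (nat_lit 532) (nat_lit 4866479031) (nat_lit 52) (nat_lit 5) (nat_lit 51) (nat_lit 5) (nat_lit 58) (nat_lit 5) (nat_lit 322) (nat_lit 317) (nat_lit 261)) (XT.nd (nat_lit 78) (nat_lit 380) (nat_lit 0) (XT.lf (nat_lit 76) (nat_lit 12786852666) (nat_lit 0) (nat_lit 2849973420) (nat_lit 532) (nat_lit 3721828131) (nat_lit 52) (nat_lit 5) (nat_lit 51) (nat_lit 5) (nat_lit 58)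 (nat_lit 5) (nat_lit 323) (nat_lit 317) (nat_lit 260)) (XT.lf (nat_lit 0) (nat_lit 3158881817) (nat_lit 456) (nat_lit 14751745665) (nat_lit 532) (nat_lit 2277084108) (nat_lit 46) (nat_lit 5) (nat_lit 52) (nat_lit 5) (nat_lit 53) (nat_lit 5) (nat_lit 324) (nat_lit 317) (nat_lit 259)))))) (XT.nd (nat_lit 312) (nat_lit 380) (nat_lit 0) (XT.nd (nat_lit 156) (nat_lit 228) (nat_lit 0) (XT.nd (nat_lit 78) (nat_lit 380) (nat_lit 0) (XT.lf (nat_lit 0) (nat_lit 13947684142) (nat_lit 456) (nat_lit 6652999532) (nat_lit 532) (nat_lit 463703287) (nat_lit 46) (nat_lit 5) (nat_lit 52) (nat_lit 5) (nat_lit 53) (nat_lit 5) (nat_lit 325) (nat_lit 317) (nat_lit 258)) (XT.lf (nat_lit 0) (nat_lit 1546491293) (nat_lit 380) (nat_lit 18333351925) (nat_lit 76) (nat_lit 2118391459) (nat_lit 41) (nat_lit 5) (nat_lit 46) (nat_lit 5) (nat_lit 42) (nat_lit 5) (nat_lit 326) (nat_lit 317) (nat_lit 257))) (XT.nd (nat_lit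 78) (nat_lit 228) (nat_lit 0) (XT.lf (nat_lit 0) (nat_lit 4049113603) (nat_lit 380) (nat_lit 7484172222) (nat_lit 76) (nat_lit 11444040628) (nat_lit 41) (nat_lit 5) (nat_lit 46) (nat_lit 5) (nat_lit 42) (nat_lit 5) (nat_lit 327) (nat_lit 317) (nat_lit 256)) (XT.lf (nat_lit 0) (nat_lit 4439492216) (nat_lit 228) (nat_lit 2404613766) (nat_lit 304) (nat_lit 17183297239) (nat_lit 38) (nat_lit 5) (nat_lit 41) (nat_lit 5) (nat_lit 42) (nat_lit 5) (nat_lit 328) (nat_lit 317) (nat_lit 255)))) (XT.nd (nat_lit 156) (nat_lit 152) (nat_lit 0) (XT.nd (nat_lit 78) (nat_lit 228) (nat_lit 0) (XT.lf (nat_lit 0) (nat_lit 10237999254) (nat_lit 304) (nat_lit 7603274193) (nat_lit 76) (nat_lit 7290216783) (nat_lit 38) (nat_lit 5) (nat_lit 42) (nat_lit 5) (nat_lit 39) (nat_lit 5) (nat_lit 329) (nat_lit 317) (nat_lit 254)) (XT.lf (nat_lit 0) (nat_lit 5539753066) (nat_lit 228) (nat_lit 8546449380) (nat_lit 304)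 (nat_lit 12223104006) (nat_lit 35) (nat_lit 5) (nat_lit 38) (nat_lit 5) (nat_lit 39) (nat_lit 5) (nat_lit 330) (nat_lit 317) (nat_lit 253))) (XT.nd (nat_lit 78) (nat_lit 152) (nat_lit 0) (XT.lf (nat_lit 0) (nat_lit 18479085067) (nat_lit 304) (nat_lit 7454984059) (nat_lit 76) (nat_lit 1628357184) (nat_lit 35) (nat_lit 5) (nat_lit 39) (nat_lit 5) (nat_lit 36) (nat_lit 5) (nat_lit 331) (nat_lit 317) (nat_lit 252)) (XT.nd (nat_lit 78) (nat_lit 0) (nat_lit 0) (XT.lf (nat_lit 0) (nat_lit 7040502975) (nat_lit 152) (nat_lit 16562774574) (nat_lit 228) (nat_lit 5282150267) (nat_lit 33) (nat_lit 5) (nat_lit 35) (nat_lit 5) (nat_lit 36) (nat_lit 5) (nat_lit 332) (nat_lit 317) (nat_lit 251)) (XT.lf (nat_lit 0) (nat_lit 23105509897) (nat_lit 152) (nat_lit 6224805137) (nat_lit 228) (nat_lit 968542382) (nat_lit 33) (nat_lit 5) (nat_lit 35) (nat_lit 5) (nat_lit 36) (nat_lit 5) (nat_lit 333) (nat_lit 317)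 (nat_lit 250))))))))
noncomputable def xc148 : XT := (XT.nd (nat_lit 1326) (nat_lit 608) (nat_lit 0) (XT.nd (nat_lit 624) (nat_lit 608) (nat_lit 0) (XT.nd (nat_lit 312) (nat_lit 304) (nat_lit 0) (XT.nd (nat_lit 156) (nat_lit 152) (nat_lit 0) (XT.nd (nat_lit 78) (nat_lit 0) (nat_lit 0) (XT.lf (nat_lit 0) (nat_lit 3837709096) (nat_lit 304) (nat_lit 22951421687) (nat_lit 76) (nat_lit 5002576407) (nat_lit 29) (nat_lit 5) (nat_lit 33) (nat_lit 5) (nat_lit 30) (nat_lit 5) (nat_lit 334) (nat_lit 317) (nat_lit 249)) (XT.lf (nat_lit 0) (nat_lit 9329581163) (nat_lit 304) (nat_lit 7028497610) (nat_lit 76) (nat_lit 17015634328) (nat_lit 29) (nat_lit 5) (nat_lit 33) (nat_lit 5) (nat_lit 30) (nat_lit 5) (nat_lit 335) (nat_lit 317) (nat_lit 248))) (XT.nd (nat_lit 78) (nat_lit 0) (nat_lit 0) (XT.lf (nat_lit 0) (nat_lit 10690057929) (nat_lit 152) (nat_lit 4818559971) (nat_lit 228) (nat_lit 19553851640)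 (nat_lit 27) (nat_lit 5) (nat_lit 29) (nat_lit 5) (nat_lit 30) (nat_lit 5) (nat_lit 336) (nat_lit 317) (nat_lit 247)) (XT.lf (nat_lit 0) (nat_lit 22553994435) (nat_lit 228) (nat_lit 6847241065) (nat_lit 76) (nat_lit 7455343760) (nat_lit 27) (nat_lit 5) (nat_lit 30) (nat_lit 5) (nat_lit 28) (nat_lit 5) (nat_lit 337) (nat_lit 317) (nat_lit 246)))) (XT.nd (nat_lit 156) (nat_lit 152) (nat_lit 0) (XT.nd (nat_lit 78) (nat_lit 0) (nat_lit 0) (XT.lf (nat_lit 0) (nat_lit 12571369162) (nat_lit 152) (nat_lit 18010809333) (nat_lit 228) (nat_lit 8178518142) (nat_lit 25) (nat_lit 5) (nat_lit 27) (nat_lit 5) (nat_lit 28) (nat_lit 5) (nat_lit 338) (nat_lit 317) (nat_lit 245)) (XT.lf (nat_lit 0) (nat_lit 33920900585) (nat_lit 152) (nat_lit 5510939062) (nat_lit 228) (nat_lit 1370978067) (nat_lit 25) (nat_lit 5) (nat_lit 27) (nat_lit 5) (nat_lit 28) (nat_lit 5) (nat_lit 339) (nat_lit 317) (nat_lit 244)))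 (XT.nd (nat_lit 78) (nat_lit 0) (nat_lit 0) (XT.lf (nat_lit 0) (nat_lit 6228959703) (nat_lit 152) (nat_lit 28632102098) (nat_lit 76) (nat_lit 8091989554) (nat_lit 23) (nat_lit 5) (nat_lit 25) (nat_lit 5) (nat_lit 24) (nat_lit 5) (nat_lit 340) (nat_lit 317) (nat_lit 243)) (XT.lf (nat_lit 0) (nat_lit 14691612344) (nat_lit 152) (nat_lit 7844172863) (nat_lit 76) (nat_lit 22710376239) (nat_lit 23) (nat_lit 5) (nat_lit 25) (nat_lit 5) (nat_lit 24) (nat_lit 5) (nat_lit 341) (nat_lit 317) (nat_lit 242))))) (XT.nd (nat_lit 312) (nat_lit 304) (nat_lit 0) (XT.nd (nat_lit 156) (nat_lit 152) (nat_lit 0) (XT.nd (nat_lit 78) (nat_lit 0) (nat_lit 0) (XT.lf (nat_lit 0) (nat_lit 15364545367) (nat_lit 152) (nat_lit 8829393790) (nat_lit 228) (nat_lit 23499777126) (nat_lit 21) (nat_lit 5) (nat_lit 23) (nat_lit 5) (nat_lit 24) (nat_lit 5) (nat_lit 342) (nat_lit 317) (nat_lit 241)) (XT.lf (nat_lit 0) (nat_lit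 34813462062) (nat_lit 228) (nat_lit 9604093951) (nat_lit 76) (nat_lit 5890966936) (nat_lit 21) (nat_lit 5) (nat_lit 24) (nat_lit 5) (nat_lit 22) (nat_lit 4) (nat_lit 343) (nat_lit 317) (nat_lit 240))) (XT.nd (nat_lit 78) (nat_lit 76) (nat_lit 0) (XT.lf (nat_lit 0) (nat_lit 15473508624) (nat_lit 76) (nat_lit 31404310019) (nat_lit 152) (nat_lit 6207081383) (nat_lit 20) (nat_lit 5) (nat_lit 21) (nat_lit 5) (nat_lit 22) (nat_lit 4) (nat_lit 344) (nat_lit 317) (nat_lit 239)) (XT.lf (nat_lit 0) (nat_lit 3895918282) (nat_lit 152) (nat_lit 13067918629) (nat_lit 76) (nat_lit 39091137988) (nat_lit 19) (nat_lit 5) (nat_lit 21) (nat_lit 5) (nat_lit 20) (nat_lit 5) (nat_lit 345) (nat_lit 317) (nat_lit 238)))) (XT.nd (nat_lit 156) (nat_lit 152) (nat_lit 0) (XT.nd (nat_lit 78) (nat_lit 0) (nat_lit 0) (XT.lf (nat_lit 0) (nat_lit 13966989671) (nat_lit 152) (nat_lit 835043150) (nat_lit 228) (nat_lit 44421313683)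 (nat_lit 17) (nat_lit 5) (nat_lit 19) (nat_lit 5) (nat_lit 20) (nat_lit 5) (nat_lit 346) (nat_lit 317) (nat_lit 237)) (XT.lf (nat_lit 0) (nat_lit 27340483820) (nat_lit 228) (nat_lit 19126474644) (nat_lit 76) (nat_lit 16117447196) (nat_lit 17) (nat_lit 5) (nat_lit 20) (nat_lit 5) (nat_lit 18) (nat_lit 4) (nat_lit 347) (nat_lit 317) (nat_lit 236))) (XT.nd (nat_lit 78) (nat_lit 76) (nat_lit 0) (XT.lf (nat_lit 0) (nat_lit 9540455215) (nat_lit 76) (nat_lit 31587526460) (nat_lit 152) (nat_lit 25066695401) (nat_lit 16) (nat_lit 5) (nat_lit 17) (nat_lit 5) (nat_lit 18) (nat_lit 4) (nat_lit 348) (nat_lit 317) (nat_lit 235)) (XT.nd (nat_lit 78) (nat_lit 76) (nat_lit 0) (XT.lf (nat_lit 0) (nat_lit 41579798801) (nat_lit 76) (nat_lit 14956639406) (nat_lit 152) (nat_lit 13515900096) (nat_lit 16) (nat_lit 5) (nat_lit 17) (nat_lit 5) (nat_lit 18) (nat_lit 4) (nat_lit 349) (nat_lit 317) (nat_lit 234))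 (XT.lf (nat_lit 0) (nat_lit 1982244359) (nat_lit 76) (nat_lit 71310558348) (nat_lit 76) (nat_lit 916595656) (nat_lit 15) (nat_lit 4) (nat_lit 16) (nat_lit 5) (nat_lit 16) (nat_lit 4) (nat_lit 350) (nat_lit 317) (nat_lit 233))))))) (XT.nd (nat_lit 624) (nat_lit 228) (nat_lit 0) (XT.nd (nat_lit 312) (nat_lit 228) (nat_lit 0) (XT.nd (nat_lit 156) (nat_lit 76) (nat_lit 0) (XT.nd (nat_lit 78) (nat_lit 0) (nat_lit 0) (XT.lf (nat_lit 0) (nat_lit 13238335609) (nat_lit 152) (nat_lit 42866358229) (nat_lit 76) (nat_lit 22475314736) (nat_lit 14) (nat_lit 5) (nat_lit 16) (nat_lit 5) (nat_lit 15) (nat_lit 4) (nat_lit 351) (nat_lit 317) (nat_lit 232)) (XT.lf (nat_lit 0) (nat_lit 28471813624) (nat_lit 152) (nat_lit 11188255074) (nat_lit 76) (nat_lit 43638644046) (nat_lit 14) (nat_lit 5) (nat_lit 16) (nat_lit 5) (nat_lit 15) (nat_lit 4) (nat_lit 352) (nat_lit 317) (nat_lit 231))) (XT.nd (nat_lit 78) (nat_lit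 0) (nat_lit 0) (XT.lf (nat_lit 0) (nat_lit 24228952009) (nat_lit 76) (nat_lit 21273717547) (nat_lit 152) (nat_lit 42845950988) (nat_lit 13) (nat_lit 5) (nat_lit 14) (nat_lit 5) (nat_lit 15) (nat_lit 4) (nat_lit 353) (nat_lit 317) (nat_lit 230)) (XT.lf (nat_lit 0) (nat_lit 63108828643) (nat_lit 76) (nat_lit 1089193486) (nat_lit 152) (nat_lit 29580339613) (nat_lit 13) (nat_lit 5) (nat_lit 14) (nat_lit 5) (nat_lit 15) (nat_lit 4) (nat_lit 354) (nat_lit 317) (nat_lit 229)))) (XT.nd (nat_lit 156) (nat_lit 76) (nat_lit 0) (XT.nd (nat_lit 78) (nat_lit 76) (nat_lit 0) (XT.lf (nat_lit 0) (nat_lit 5212594277) (nat_lit 76) (nat_lit 79796189264) (nat_lit 76) (nat_lit 14584119051) (nat_lit 12) (nat_lit 4) (nat_lit 13) (nat_lit 5) (nat_lit 13) (nat_lit 4) (nat_lit 355) (nat_lit 317) (nat_lit 228)) (XT.lf (nat_lit 0) (nat_lit 2416160334) (nat_lit 152) (nat_lit 60191582267) (nat_lit 76) (nat_lit 43190966214)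 (nat_lit 11) (nat_lit 5) (nat_lit 13) (nat_lit 5) (nat_lit 12) (nat_lit 4) (nat_lit 356) (nat_lit 317) (nat_lit 227))) (XT.nd (nat_lit 78) (nat_lit 76) (nat_lit 0) (XT.lf (nat_lit 0) (nat_lit 19985169547) (nat_lit 152) (nat_lit 23652788984) (nat_lit 76) (nat_lit 68832988271) (nat_lit 11) (nat_lit 5) (nat_lit 13) (nat_lit 5) (nat_lit 12) (nat_lit 4) (nat_lit 357) (nat_lit 317) (nat_lit 226)) (XT.lf (nat_lit 0) (nat_lit 16635522331) (nat_lit 76) (nat_lit 22721140317) (nat_lit 152) (nat_lit 80288546192) (nat_lit 10) (nat_lit 5) (nat_lit 11) (nat_lit 5) (nat_lit 12) (nat_lit 4) (nat_lit 358) (nat_lit 317) (nat_lit 225))))) (XT.nd (nat_lit 312) (nat_lit 152) (nat_lit 0) (XT.nd (nat_lit 156) (nat_lit 76) (nat_lit 0) (XT.nd (nat_lit 78) (nat_lit 0) (nat_lit 0) (XT.lf (nat_lit 0) (nat_lit 60935144321) (nat_lit 152) (nat_lit 65869066543) (nat_lit 0) (nat_lit 536621353) (nat_lit 10) (nat_lit 5)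 (nat_lit 12) (nat_lit 4) (nat_lit 10) (nat_lit 4) (nat_lit 359) (nat_lit 317) (nat_lit 224)) (XT.lf (nat_lit 0) (nat_lit 84827205042) (nat_lit 152) (nat_lit 26352724440) (nat_lit 0) (nat_lit 24425193709) (nat_lit 10) (nat_lit 5) (nat_lit 12) (nat_lit 4) (nat_lit 10) (nat_lit 4) (nat_lit 360) (nat_lit 317) (nat_lit 223))) (XT.nd (nat_lit 78) (nat_lit 0) (nat_lit 0) (XT.lf (nat_lit 0) (nat_lit 17179334580) (nat_lit 76) (nat_lit 93861812250) (nat_lit 76) (nat_lit 33456570952) (nat_lit 9) (nat_lit 4) (nat_lit 10) (nat_lit 5) (nat_lit 10) (nat_lit 4) (nat_lit 361) (nat_lit 317) (nat_lit 222)) (XT.lf (nat_lit 0) (nat_lit 65687816601) (nat_lit 76) (nat_lit 74382349929) (nat_lit 76) (nat_lit 13974117921) (nat_lit 9) (nat_lit 4) (nat_lit 10) (nat_lit 5) (nat_lit 10) (nat_lit 4) (nat_lit 362) (nat_lit 317) (nat_lit 221)))) (XT.nd (nat_lit 156) (nat_lit 76) (nat_lit 0) (XT.nd (nat_lit 78) (nat_lit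 0) (nat_lit 0) (XT.lf (nat_lit 0) (nat_lit 6710974314) (nat_lit 152) (nat_lit 46452174610) (nat_lit 76) (nat_lit 111178027279) (nat_lit 8) (nat_lit 5) (nat_lit 10) (nat_lit 5) (nat_lit 9) (nat_lit 4) (nat_lit 363) (nat_lit 317) (nat_lit 220)) (XT.lf (nat_lit 0) (nat_lit 28293648864) (nat_lit 152) (nat_lit 1562775596) (nat_lit 76) (nat_lit 145576539687) (nat_lit 8) (nat_lit 5) (nat_lit 10) (nat_lit 5) (nat_lit 9) (nat_lit 4) (nat_lit 364) (nat_lit 317) (nat_lit 219))) (XT.nd (nat_lit 78) (nat_lit 0) (nat_lit 0) (XT.lf (nat_lit 0) (nat_lit 49384216849) (nat_lit 76) (nat_lit 3404319788) (nat_lit 152) (nat_lit 134528711664) (nat_lit 7) (nat_lit 5) (nat_lit 8) (nat_lit 5) (nat_lit 9) (nat_lit 4) (nat_lit 365) (nat_lit 317) (nat_lit 218)) (XT.nd (nat_lit 78) (nat_lit 0) (nat_lit 0) (XT.lf (nat_lit 0) (nat_lit 79889973968) (nat_lit 152) (nat_lit 96263291617) (nat_lit 0) (nat_lit 23947253951)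 (nat_lit 7) (nat_lit 5) (nat_lit 9) (nat_lit 4) (nat_lit 7) (nat_lit 4) (nat_lit 366) (nat_lit 317) (nat_lit 217)) (XT.lf (nat_lit 0) (nat_lit 109246029762) (nat_lit 152) (nat_lit 51352078293) (nat_lit 0) (nat_lit 53301425090) (nat_lit 7) (nat_lit 5) (nat_lit 9) (nat_lit 4) (nat_lit 7) (nat_lit 4) (nat_lit 367) (nat_lit 317) (nat_lit 216))))))))
noncomputable def xc149 : XT := (XT.nd (nat_lit 1326) (nat_lit 152) (nat_lit 0) (XT.nd (nat_lit 624) (nat_lit 76) (nat_lit 0) (XT.nd (nat_lit 312) (nat_lit 152) (nat_lit 0) (XT.nd (nat_lit 156) (nat_lit 0) (nat_lit 0) (XT.nd (nat_lit 78) (nat_lit 76) (nat_lit 0) (XT.lf (nat_lit 0) (nat_lit 140948791859) (nat_lit 152) (nat_lit 2851376984) (nat_lit 0) (nat_lit 85002442137) (nat_lit 7) (nat_lit 5) (nat_lit 9) (nat_lit 4) (nat_lit 7) (nat_lit 4) (nat_lit 368) (nat_lit 317) (nat_lit 215)) (XT.lf (nat_lit 0) (nat_lit 52134187053) (nat_lit 76) (nat_lit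 124305769878) (nat_lit 76) (nat_lit 68357804369) (nat_lit 6) (nat_lit 4) (nat_lit 7) (nat_lit 5) (nat_lit 7) (nat_lit 4) (nat_lit 369) (nat_lit 317) (nat_lit 214))) (XT.nd (nat_lit 78) (nat_lit 0) (nat_lit 0) (XT.lf (nat_lit 0) (nat_lit 111677679907) (nat_lit 76) (nat_lit 103169098524) (nat_lit 76) (nat_lit 47219636915) (nat_lit 6) (nat_lit 4) (nat_lit 7) (nat_lit 5) (nat_lit 7) (nat_lit 4) (nat_lit 370) (nat_lit 317) (nat_lit 213)) (XT.lf (nat_lit 0) (nat_lit 175981803446) (nat_lit 76) (nat_lit 80342862132) (nat_lit 76) (nat_lit 24392015246) (nat_lit 6) (nat_lit 4) (nat_lit 7) (nat_lit 5) (nat_lit 7) (nat_lit 4) (nat_lit 371) (nat_lit 317) (nat_lit 212)))) (XT.nd (nat_lit 156) (nat_lit 76) (nat_lit 0) (XT.nd (nat_lit 78) (nat_lit 0) (nat_lit 0) (XT.lf (nat_lit 0) (nat_lit 247312400) (nat_lit 152) (nat_lit 55437719757) (nat_lit 76) (nat_lit 245173544781) (nat_lit 5) (nat_lit 5) (nat_lit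 7) (nat_lit 5) (nat_lit 6) (nat_lit 4) (nat_lit 372) (nat_lit 317) (nat_lit 211)) (XT.lf (nat_lit 0) (nat_lit 25538681422) (nat_lit 152) (nat_lit 2832859843) (nat_lit 76) (nat_lit 294189703523) (nat_lit 5) (nat_lit 5) (nat_lit 7) (nat_lit 5) (nat_lit 6) (nat_lit 4) (nat_lit 373) (nat_lit 317) (nat_lit 210))) (XT.nd (nat_lit 78) (nat_lit 0) (nat_lit 0) (XT.lf (nat_lit 0) (nat_lit 54281259759) (nat_lit 152) (nat_lit 289133020340) (nat_lit 0) (nat_lit 2471614499) (nat_lit 4) (nat_lit 5) (nat_lit 6) (nat_lit 4) (nat_lit 4) (nat_lit 4) (nat_lit 374) (nat_lit 317) (nat_lit 209)) (XT.lf (nat_lit 0) (nat_lit 86138437248) (nat_lit 152) (nat_lit 250545014999) (nat_lit 0) (nat_lit 34327849193) (nat_lit 4) (nat_lit 5) (nat_lit 6) (nat_lit 4) (nat_lit 4) (nat_lit 4) (nat_lit 375) (nat_lit 317) (nat_lit 208))))) (XT.nd (nat_lit 312) (nat_lit 76) (nat_lit 0) (XT.nd (nat_lit 156) (nat_lit 0) (nat_lit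 0) (XT.nd (nat_lit 78) (nat_lit 0) (nat_lit 0) (XT.lf (nat_lit 0) (nat_lit 120543080140) (nat_lit 152) (nat_lit 208872130710) (nat_lit 0) (nat_lit 68731619125) (nat_lit 4) (nat_lit 5) (nat_lit 6) (nat_lit 4) (nat_lit 4) (nat_lit 4) (nat_lit 376) (nat_lit 317) (nat_lit 207)) (XT.lf (nat_lit 0) (nat_lit 157699067799) (nat_lit 152) (nat_lit 163867417049) (nat_lit 0) (nat_lit 105886798487) (nat_lit 4) (nat_lit 5) (nat_lit 6) (nat_lit 4) (nat_lit 4) (nat_lit 4) (nat_lit 377) (nat_lit 317) (nat_lit 206))) (XT.nd (nat_lit 78) (nat_lit 0) (nat_lit 0) (XT.lf (nat_lit 0) (nat_lit 197826583855) (nat_lit 152) (nat_lit 115264179416) (nat_lit 0) (nat_lit 146013566122) (nat_lit 4) (nat_lit 5) (nat_lit 6) (nat_lit 4) (nat_lit 4) (nat_lit 4) (nat_lit 378) (nat_lit 317) (nat_lit 205)) (XT.lf (nat_lit 0) (nat_lit 241163420997) (nat_lit 152) (nat_lit 62774398625) (nat_lit 0) (nat_lit 189349710280) (nat_lit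 4) (nat_lit 5) (nat_lit 6) (nat_lit 4) (nat_lit 4) (nat_lit 4) (nat_lit 379) (nat_lit 317) (nat_lit 204)))) (XT.nd (nat_lit 156) (nat_lit 0) (nat_lit 0) (XT.nd (nat_lit 78) (nat_lit 76) (nat_lit 0) (XT.lf (nat_lit 0) (nat_lit 287966390112) (nat_lit 152) (nat_lit 6087024123) (nat_lit 0) (nat_lit 236152037743) (nat_lit 4) (nat_lit 5) (nat_lit 6) (nat_lit 4) (nat_lit 4) (nat_lit 4) (nat_lit 380) (nat_lit 317) (nat_lit 203)) (XT.lf (nat_lit 0) (nat_lit 58037121122) (nat_lit 76) (nat_lit 281871515163) (nat_lit 76) (nat_lit 230056568673) (nat_lit 3) (nat_lit 4) (nat_lit 4) (nat_lit 5) (nat_lit 4) (nat_lit 4) (nat_lit 381) (nat_lit 317) (nat_lit 202))) (XT.nd (nat_lit 78) (nat_lit 0) (nat_lit 0) (XT.lf (nat_lit 0) (nat_lit 127635938618) (nat_lit 76) (nat_lit 268536020347) (nat_lit 76) (nat_lit 216720523744) (nat_lit 3) (nat_lit 4) (nat_lit 4) (nat_lit 5) (nat_lit 4) (nat_lit 4) (nat_lit 382)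 (nat_lit 317) (nat_lit 201)) (XT.nd (nat_lit 78) (nat_lit 0) (nat_lit 0) (XT.lf (nat_lit 0) (nat_lit 202801333897) (nat_lit 76) (nat_lit 254134334660) (nat_lit 76) (nat_lit 202318328693) (nat_lit 3) (nat_lit 4) (nat_lit 4) (nat_lit 5) (nat_lit 4) (nat_lit 4) (nat_lit 383) (nat_lit 317) (nat_lit 200)) (XT.lf (nat_lit 0) (nat_lit 283978731526) (nat_lit 76) (nat_lit 238581114779) (nat_lit 76) (nat_lit 186764637179) (nat_lit 3) (nat_lit 4) (nat_lit 4) (nat_lit 5) (nat_lit 4) (nat_lit 4) (nat_lit 384) (nat_lit 317) (nat_lit 199))))))) (XT.nd (nat_lit 624) (nat_lit 152) (nat_lit 0) (XT.nd (nat_lit 312) (nat_lit 0) (nat_lit 0) (XT.nd (nat_lit 156) (nat_lit 0) (nat_lit 0) (XT.nd (nat_lit 78) (nat_lit 0) (nat_lit 0) (XT.lf (nat_lit 0) (nat_lit 371649182749) (nat_lit 76) (nat_lit 221784193474) (nat_lit 76) (nat_lit 169967279178) (nat_lit 3) (nat_lit 4) (nat_lit 4) (nat_lit 5) (nat_lit 4) (nat_lit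 4) (nat_lit 385) (nat_lit 317) (nat_lit 198)) (XT.lf (nat_lit 0) (nat_lit 466332216165) (nat_lit 76) (nat_lit 203644033436) (nat_lit 76) (nat_lit 151826714790) (nat_lit 3) (nat_lit 4) (nat_lit 4) (nat_lit 5) (nat_lit 4) (nat_lit 4) (nat_lit 386) (nat_lit 317) (nat_lit 197))) (XT.nd (nat_lit 78) (nat_lit 0) (nat_lit 0) (XT.lf (nat_lit 0) (nat_lit 568588916417) (nat_lit 76) (nat_lit 184053137418) (nat_lit 76) (nat_lit 132235444375) (nat_lit 3) (nat_lit 4) (nat_lit 4) (nat_lit 5) (nat_lit 4) (nat_lit 4) (nat_lit 387) (nat_lit 317) (nat_lit 196)) (XT.lf (nat_lit 0) (nat_lit 679025249137) (nat_lit 76) (nat_lit 162895411223) (nat_lit 76) (nat_lit 111077371515) (nat_lit 3) (nat_lit 4) (nat_lit 4) (nat_lit 5) (nat_lit 4) (nat_lit 4) (nat_lit 388) (nat_lit 317) (nat_lit 195)))) (XT.nd (nat_lit 156) (nat_lit 0) (nat_lit 0) (XT.nd (nat_lit 78) (nat_lit 0) (nat_lit 0) (XT.lf (nat_lit 0) (nat_lit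 798295651852) (nat_lit 76) (nat_lit 140045475732) (nat_lit 76) (nat_lit 88227115039) (nat_lit 3) (nat_lit 4) (nat_lit 4) (nat_lit 5) (nat_lit 4) (nat_lit 4) (nat_lit 389) (nat_lit 317) (nat_lit 194)) (XT.lf (nat_lit 0) (nat_lit 927106912132) (nat_lit 76) (nat_lit 115367923920) (nat_lit 76) (nat_lit 63549266018) (nat_lit 3) (nat_lit 4) (nat_lit 4) (nat_lit 5) (nat_lit 4) (nat_lit 4) (nat_lit 390) (nat_lit 317) (nat_lit 193))) (XT.nd (nat_lit 78) (nat_lit 0) (nat_lit 0) (XT.lf (nat_lit 0) (nat_lit 1066222355966) (nat_lit 76) (nat_lit 88716518442) (nat_lit 76) (nat_lit 36897585347) (nat_lit 3) (nat_lit 4) (nat_lit 4) (nat_lit 5) (nat_lit 4) (nat_lit 4) (nat_lit 391) (nat_lit 317) (nat_lit 192)) (XT.lf (nat_lit 0) (nat_lit 1216466371168) (nat_lit 76) (nat_lit 59933325045) (nat_lit 76) (nat_lit 8114137142) (nat_lit 3) (nat_lit 4) (nat_lit 4) (nat_lit 5) (nat_lit 4) (nat_lit 4) (nat_lit 392)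 (nat_lit 317) (nat_lit 191))))) (XT.nd (nat_lit 312) (nat_lit 0) (nat_lit 0) (XT.nd (nat_lit 156) (nat_lit 0) (nat_lit 0) (XT.nd (nat_lit 78) (nat_lit 76) (nat_lit 0) (XT.lf (nat_lit 0) (nat_lit 21822512352) (nat_lit 152) (nat_lit 6428598144) (nat_lit 76) (nat_lit 1356310114131) (nat_lit 2) (nat_lit 5) (nat_lit 4) (nat_lit 5) (nat_lit 3) (nat_lit 4) (nat_lit 393) (nat_lit 317) (nat_lit 190)) (XT.lf (nat_lit 0) (nat_lit 55420426093) (nat_lit 152) (nat_lit 1429599468327) (nat_lit 0) (nat_lit 7439275820) (nat_lit 1) (nat_lit 5) (nat_lit 3) (nat_lit 4) (nat_lit 1) (nat_lit 4) (nat_lit 394) (nat_lit 317) (nat_lit 189))) (XT.nd (nat_lit 78) (nat_lit 0) (nat_lit 0) (XT.lf (nat_lit 0) (nat_lit 92620005559) (nat_lit 152) (nat_lit 1471657171436) (nat_lit 0) (nat_lit 44638667994) (nat_lit 1) (nat_lit 5) (nat_lit 3) (nat_lit 4) (nat_lit 1) (nat_lit 4) (nat_lit 395) (nat_lit 317) (nat_lit 188)) (XT.lf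 (nat_lit 0) (nat_lit 132795276240) (nat_lit 152) (nat_lit 1517080034320) (nat_lit 0) (nat_lit 84813765256) (nat_lit 1) (nat_lit 5) (nat_lit 3) (nat_lit 4) (nat_lit 1) (nat_lit 4) (nat_lit 396) (nat_lit 317) (nat_lit 187)))) (XT.nd (nat_lit 156) (nat_lit 0) (nat_lit 0) (XT.nd (nat_lit 78) (nat_lit 0) (nat_lit 0) (XT.lf (nat_lit 0) (nat_lit 176184313814) (nat_lit 152) (nat_lit 1566137229500) (nat_lit 0) (nat_lit 128202642257) (nat_lit 1) (nat_lit 5) (nat_lit 3) (nat_lit 4) (nat_lit 1) (nat_lit 4) (nat_lit 397) (nat_lit 317) (nat_lit 186)) (XT.lf (nat_lit 0) (nat_lit 223044238503) (nat_lit 152) (nat_lit 1619119466282) (nat_lit 0) (nat_lit 175062418269) (nat_lit 1) (nat_lit 5) (nat_lit 3) (nat_lit 4) (nat_lit 1) (nat_lit 4) (nat_lit 398) (nat_lit 317) (nat_lit 185))) (XT.nd (nat_lit 78) (nat_lit 0) (nat_lit 0) (XT.lf (nat_lit 0) (nat_lit 273652738752) (nat_lit 152) (nat_lit 1676340713475)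 (nat_lit 0) (nat_lit 225670780852) (nat_lit 1) (nat_lit 5) (nat_lit 3) (nat_lit 4) (nat_lit 1) (nat_lit 4) (nat_lit 399) (nat_lit 317) (nat_lit 184)) (XT.nd (nat_lit 78) (nat_lit 0) (nat_lit 0) (XT.lf (nat_lit 0) (nat_lit 328309716782) (nat_lit 152) (nat_lit 1738140059952) (nat_lit 0) (nat_lit 280327631415) (nat_lit 1) (nat_lit 5) (nat_lit 3) (nat_lit 4) (nat_lit 1) (nat_lit 4) (nat_lit 400) (nat_lit 317) (nat_lit 183)) (XT.lf (nat_lit 0) (nat_lit 387339065798) (nat_lit 152) (nat_lit 1804883724062) (nat_lit 0) (nat_lit 339356862405) (nat_lit 1) (nat_lit 5) (nat_lit 3) (nat_lit 4) (nat_lit 1) (nat_lit 4) (nat_lit 401) (nat_lit 317) (nat_lit 182))))))))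
noncomputable def xc150 : XT := (XT.nd (nat_lit 40872) (nat_lit 0) (nat_lit 1672) (XT.nd (nat_lit 624) (nat_lit 0) (nat_lit 0) (XT.nd (nat_lit 312) (nat_lit 0) (nat_lit 0) (XT.nd (nat_lit 156) (nat_lit 0) (nat_lit 0) (XT.nd (nat_lit 78) (nat_lit 0) (nat_lit 0) (XT.lf (nat_lit 0) (nat_lit 451090589348) (nat_lit 152) (nat_lit 1876967223815) (nat_lit 0) (nat_lit 403108276672) (nat_lit 1) (nat_lit 5) (nat_lit 3) (nat_lit 4) (nat_lit 1) (nat_lit 4) (nat_lit 402) (nat_lit 317) (nat_lit 181)) (XT.lf (nat_lit 0) (nat_lit 519942074240) (nat_lit 152) (nat_lit 1954817720690) (nat_lit 0) (nat_lit 471959660376) (nat_lit 1) (nat_lit 5) (nat_lit 3) (nat_lit 4) (nat_lit 1) (nat_lit 4) (nat_lit 403) (nat_lit 317) (nat_lit 180))) (XT.nd (nat_lit 78) (nat_lit 0) (nat_lit 0) (XT.lf (nat_lit 0) (nat_lit 594301529273) (nat_lit 152) (nat_lit 2038896550967) (nat_lit 0) (nat_lit 546319021716) (nat_lit 1) (nat_lit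 5) (nat_lit 3) (nat_lit 4) (nat_lit 1) (nat_lit 4) (nat_lit 404) (nat_lit 317) (nat_lit 179)) (XT.lf (nat_lit 0) (nat_lit 674609603068) (nat_lit 152) (nat_lit 2129701959564) (nat_lit 0) (nat_lit 626627008759) (nat_lit 1) (nat_lit 5) (nat_lit 3) (nat_lit 4) (nat_lit 1) (nat_lit 4) (nat_lit 405) (nat_lit 317) (nat_lit 178)))) (XT.nd (nat_lit 156) (nat_lit 0) (nat_lit 0) (XT.nd (nat_lit 78) (nat_lit 0) (nat_lit 0) (XT.lf (nat_lit 0) (nat_lit 761342195324) (nat_lit 152) (nat_lit 2227772052607) (nat_lit 0) (nat_lit 713359520688) (nat_lit 1) (nat_lit 5) (nat_lit 3) (nat_lit 4) (nat_lit 1) (nat_lit 4) (nat_lit 406) (nat_lit 317) (nat_lit 177)) (XT.lf (nat_lit 0) (nat_lit 855013276955) (nat_lit 152) (nat_lit 2333687986203) (nat_lit 0) (nat_lit 807030527944) (nat_lit 1) (nat_lit 5) (nat_lit 3) (nat_lit 4) (nat_lit 1) (nat_lit 4) (nat_lit 407) (nat_lit 317) (nat_lit 176))) (XT.nd (nat_lit 78) (nat_lit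 0) (nat_lit 0) (XT.lf (nat_lit 0) (nat_lit 956177935855) (nat_lit 152) (nat_lit 2448077410329) (nat_lit 0) (nat_lit 908195117976) (nat_lit 1) (nat_lit 5) (nat_lit 3) (nat_lit 4) (nat_lit 1) (nat_lit 4) (nat_lit 408) (nat_lit 317) (nat_lit 175)) (XT.lf (nat_lit 0) (nat_lit 1065435666297) (nat_lit 152) (nat_lit 2571618188238) (nat_lit 0) (nat_lit 1017452784653) (nat_lit 1) (nat_lit 5) (nat_lit 3) (nat_lit 4) (nat_lit 1) (nat_lit 4) (nat_lit 409) (nat_lit 317) (nat_lit 174))))) (XT.nd (nat_lit 39858) (nat_lit 0) (nat_lit 3724) (XT.nd (nat_lit 39702) (nat_lit 0) (nat_lit 3648) (XT.nd (nat_lit 78) (nat_lit 0) (nat_lit 0) (XT.lf (nat_lit 0) (nat_lit 1183433921500) (nat_lit 152) (nat_lit 2705042413430) (nat_lit 0) (nat_lit 1135450980814) (nat_lit 1) (nat_lit 5) (nat_lit 3) (nat_lit 4) (nat_lit 1) (nat_lit 4) (nat_lit 410) (nat_lit 317) (nat_lit 173)) (XT.lf (nat_lit 0) (nat_lit 1310871950382)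 (nat_lit 152) (nat_lit 2849140747979) (nat_lit 0) (nat_lit 1262888955027) (nat_lit 1) (nat_lit 5) (nat_lit 3) (nat_lit 4) (nat_lit 1) (nat_lit 4) (nat_lit 411) (nat_lit 317) (nat_lit 172))) (XT.nd (nat_lit 78) (nat_lit 0) (nat_lit 0) (XT.lf (nat_lit 0) (nat_lit 4636770062) (nat_lit 532) (nat_lit 1798795718) (nat_lit 532) (nat_lit 1798795718) (nat_lit 49) (nat_lit 3) (nat_lit 56) (nat_lit 3) (nat_lit 56) (nat_lit 5) (nat_lit 318) (nat_lit 318) (nat_lit 264)) (XT.lf (nat_lit 76) (nat_lit 4264042443) (nat_lit 0) (nat_lit 5709290217) (nat_lit 532) (nat_lit 7127267371) (nat_lit 50) (nat_lit 5) (nat_lit 49) (nat_lit 3) (nat_lit 56) (nat_lit 5) (nat_lit 319) (nat_lit 318) (nat_lit 263)))) (XT.nd (nat_lit 156) (nat_lit 0) (nat_lit 0) (XT.nd (nat_lit 78) (nat_lit 0) (nat_lit 0) (XT.lf (nat_lit 0) (nat_lit 10856031891) (nat_lit 456) (nat_lit 4882254873) (nat_lit 532) (nat_lit 2034643005) (nat_lit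 50) (nat_lit 5) (nat_lit 56) (nat_lit 5) (nat_lit 57) (nat_lit 5) (nat_lit 320) (nat_lit 318) (nat_lit 262)) (XT.lf (nat_lit 76) (nat_lit 3732914055) (nat_lit 0) (nat_lit 8293475670) (nat_lit 532) (nat_lit 6455344979) (nat_lit 51) (nat_lit 5) (nat_lit 50) (nat_lit 5) (nat_lit 57) (nat_lit 5) (nat_lit 321) (nat_lit 318) (nat_lit 261))) (XT.nd (nat_lit 78) (nat_lit 0) (nat_lit 76) (XT.lf (nat_lit 76) (nat_lit 13301386839) (nat_lit 0) (nat_lit 102682856) (nat_lit 532) (nat_lit 5834127218) (nat_lit 51) (nat_lit 5) (nat_lit 50) (nat_lit 5) (nat_lit 57) (nat_lit 5) (nat_lit 322) (nat_lit 318) (nat_lit 260)) (XT.nd (nat_lit 78) (nat_lit 0) (nat_lit 0) (XT.lf (nat_lit 76) (nat_lit 3532374021) (nat_lit 0) (nat_lit 11636631132) (nat_lit 532) (nat_lit 4864052438) (nat_lit 52) (nat_lit 5) (nat_lit 51) (nat_lit 5) (nat_lit 58) (nat_lit 5) (nat_lit 323) (nat_lit 318) (nat_lit 259)) (XT.lf (nat_lit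 76) (nat_lit 14080064141) (nat_lit 0) (nat_lit 3142817167) (nat_lit 532) (nat_lit 3656847609) (nat_lit 52) (nat_lit 5) (nat_lit 51) (nat_lit 5) (nat_lit 58) (nat_lit 5) (nat_lit 324) (nat_lit 318) (nat_lit 258))))))) (XT.nd (nat_lit 624) (nat_lit 912) (nat_lit 0) (XT.nd (nat_lit 312) (nat_lit 456) (nat_lit 0) (XT.nd (nat_lit 156) (nat_lit 380) (nat_lit 0) (XT.nd (nat_lit 78) (nat_lit 0) (nat_lit 0) (XT.lf (nat_lit 0) (nat_lit 3703452037) (nat_lit 456) (nat_lit 15955887089) (nat_lit 532) (nat_lit 2117371488) (nat_lit 46) (nat_lit 5) (nat_lit 52) (nat_lit 5) (nat_lit 53) (nat_lit 5) (nat_lit 325) (nat_lit 318) (nat_lit 257)) (XT.lf (nat_lit 0) (nat_lit 15333739313) (nat_lit 456) (nat_lit 7207463356) (nat_lit 532) (nat_lit 184244597) (nat_lit 46) (nat_lit 5) (nat_lit 52) (nat_lit 5) (nat_lit 53) (nat_lit 5) (nat_lit 326) (nat_lit 318) (nat_lit 256))) (XT.nd (nat_lit 78) (nat_lit 0) (nat_lit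 0) (XT.lf (nat_lit 0) (nat_lit 1955238441) (nat_lit 380) (nat_lit 19497015822) (nat_lit 76) (nat_lit 2282442390) (nat_lit 41) (nat_lit 5) (nat_lit 46) (nat_lit 5) (nat_lit 42) (nat_lit 5) (nat_lit 327) (nat_lit 318) (nat_lit 255)) (XT.lf (nat_lit 0) (nat_lit 4636957361) (nat_lit 380) (nat_lit 7802346503) (nat_lit 76) (nat_lit 12354545002) (nat_lit 41) (nat_lit 5) (nat_lit 46) (nat_lit 5) (nat_lit 42) (nat_lit 5) (nat_lit 328) (nat_lit 318) (nat_lit 254)))) (XT.nd (nat_lit 156) (nat_lit 228) (nat_lit 0) (XT.nd (nat_lit 78) (nat_lit 0) (nat_lit 0) (XT.lf (nat_lit 0) (nat_lit 5068108318) (nat_lit 228) (nat_lit 2574468219) (nat_lit 304) (nat_lit 18286433827) (nat_lit 38) (nat_lit 5) (nat_lit 41) (nat_lit 5) (nat_lit 42) (nat_lit 5) (nat_lit 329) (nat_lit 318) (nat_lit 253)) (XT.lf (nat_lit 0) (nat_lit 11289894337) (nat_lit 304) (nat_lit 7939776533) (nat_lit 76) (nat_lit 7893238177) (nat_lit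 38) (nat_lit 5) (nat_lit 42) (nat_lit 5) (nat_lit 39) (nat_lit 5) (nat_lit 330) (nat_lit 318) (nat_lit 252))) (XT.nd (nat_lit 78) (nat_lit 0) (nat_lit 0) (XT.lf (nat_lit 0) (nat_lit 6247812917) (nat_lit 228) (nat_lit 9187262699) (nat_lit 304) (nat_lit 12960780166) (nat_lit 35) (nat_lit 5) (nat_lit 38) (nat_lit 5) (nat_lit 39) (nat_lit 5) (nat_lit 331) (nat_lit 318) (nat_lit 251)) (XT.lf (nat_lit 0) (nat_lit 20163901487) (nat_lit 304) (nat_lit 7790231874) (nat_lit 76) (nat_lit 1796363229) (nat_lit 35) (nat_lit 5) (nat_lit 39) (nat_lit 5) (nat_lit 36) (nat_lit 5) (nat_lit 332) (nat_lit 318) (nat_lit 250))))) (XT.nd (nat_lit 312) (nat_lit 456) (nat_lit 0) (XT.nd (nat_lit 156) (nat_lit 304) (nat_lit 0) (XT.nd (nat_lit 78) (nat_lit 0) (nat_lit 0) (XT.lf (nat_lit 0) (nat_lit 7858282707) (nat_lit 152) (nat_lit 17830572815) (nat_lit 228) (nat_lit 5491246578) (nat_lit 33) (nat_lit 5) (nat_lit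 35) (nat_lit 5) (nat_lit 36) (nat_lit 5) (nat_lit 333) (nat_lit 318) (nat_lit 249)) (XT.lf (nat_lit 0) (nat_lit 25189635406) (nat_lit 152) (nat_lit 6669804617) (nat_lit 228) (nat_lit 848363078) (nat_lit 33) (nat_lit 5) (nat_lit 35) (nat_lit 5) (nat_lit 36) (nat_lit 5) (nat_lit 334) (nat_lit 318) (nat_lit 248))) (XT.nd (nat_lit 78) (nat_lit 0) (nat_lit 0) (XT.lf (nat_lit 0) (nat_lit 4325799364) (nat_lit 304) (nat_lit 24534642888) (nat_lit 76) (nat_lit 5459818196) (nat_lit 29) (nat_lit 5) (nat_lit 33) (nat_lit 5) (nat_lit 30) (nat_lit 5) (nat_lit 335) (nat_lit 318) (nat_lit 247)) (XT.lf (nat_lit 0) (nat_lit 10243608342) (nat_lit 304) (nat_lit 7356617666) (nat_lit 76) (nat_lit 18429695886) (nat_lit 29) (nat_lit 5) (nat_lit 33) (nat_lit 5) (nat_lit 30) (nat_lit 5) (nat_lit 336) (nat_lit 318) (nat_lit 246)))) (XT.nd (nat_lit 156) (nat_lit 304) (nat_lit 0) (XT.nd (nat_lit 78) (nat_lit 0) (nat_lit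 0) (XT.lf (nat_lit 0) (nat_lit 11773494221) (nat_lit 152) (nat_lit 5136543463) (nat_lit 228) (nat_lit 20944315989) (nat_lit 27) (nat_lit 5) (nat_lit 29) (nat_lit 5) (nat_lit 30) (nat_lit 5) (nat_lit 337) (nat_lit 318) (nat_lit 245)) (XT.lf (nat_lit 0) (nat_lit 24508641546) (nat_lit 228) (nat_lit 7173055832) (nat_lit 76) (nat_lit 8111145906) (nat_lit 27) (nat_lit 5) (nat_lit 30) (nat_lit 5) (nat_lit 28) (nat_lit 5) (nat_lit 338) (nat_lit 318) (nat_lit 244))) (XT.nd (nat_lit 78) (nat_lit 152) (nat_lit 0) (XT.lf (nat_lit 0) (nat_lit 13793423858) (nat_lit 152) (nat_lit 19379724204) (nat_lit 228) (nat_lit 8676634060) (nat_lit 25) (nat_lit 5) (nat_lit 27) (nat_lit 5) (nat_lit 28) (nat_lit 5) (nat_lit 339) (nat_lit 318) (nat_lit 243)) (XT.nd (nat_lit 78) (nat_lit 152) (nat_lit 0) (XT.lf (nat_lit 0) (nat_lit 36834892228) (nat_lit 152) (nat_lit 5885193932) (nat_lit 228) (nat_lit 1336058597) (nat_lit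 25) (nat_lit 5) (nat_lit 27) (nat_lit 5) (nat_lit 28) (nat_lit 5) (nat_lit 340) (nat_lit 318) (nat_lit 242)) (XT.lf (nat_lit 0) (nat_lit 6861029028) (nat_lit 152) (nat_lit 30711144519) (nat_lit 76) (nat_lit 8806248163) (nat_lit 23) (nat_lit 5) (nat_lit 25) (nat_lit 5) (nat_lit 24) (nat_lit 5) (nat_lit 341) (nat_lit 318) (nat_lit 241))))))))
noncomputable def xc151 : XT := (XT.nd (nat_lit 1326) (nat_lit 532) (nat_lit 0) (XT.nd (nat_lit 624) (nat_lit 380) (nat_lit 0) (XT.nd (nat_lit 312) (nat_lit 304) (nat_lit 0) (XT.nd (nat_lit 156) (nat_lit 76) (nat_lit 0) (XT.nd (nat_lit 78) (nat_lit 152) (nat_lit 0) (XT.lf (nat_lit 0) (nat_lit 15990786284) (nat_lit 152) (nat_lit 8275849520) (nat_lit 76) (nat_lit 24589150268) (nat_lit 23) (nat_lit 5) (nat_lit 25) (nat_lit 5) (nat_lit 24) (nat_lit 5) (nat_lit 342) (nat_lit 318) (nat_lit 240)) (XT.lf (nat_lit 0) (nat_lit 16784607760) (nat_lit 152) (nat_lit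 9464108902) (nat_lit 228) (nat_lit 25250807144) (nat_lit 21) (nat_lit 5) (nat_lit 23) (nat_lit 5) (nat_lit 24) (nat_lit 5) (nat_lit 343) (nat_lit 318) (nat_lit 239))) (XT.nd (nat_lit 78) (nat_lit 76) (nat_lit 0) (XT.lf (nat_lit 0) (nat_lit 37710562387) (nat_lit 228) (nat_lit 10188286571) (nat_lit 76) (nat_lit 6425256189) (nat_lit 21) (nat_lit 5) (nat_lit 24) (nat_lit 5) (nat_lit 22) (nat_lit 4) (nat_lit 344) (nat_lit 318) (nat_lit 238)) (XT.lf (nat_lit 0) (nat_lit 16890862567) (nat_lit 76) (nat_lit 33845223237) (nat_lit 152) (nat_lit 6586835326) (nat_lit 20) (nat_lit 5) (nat_lit 21) (nat_lit 5) (nat_lit 22) (nat_lit 4) (nat_lit 345) (nat_lit 318) (nat_lit 237)))) (XT.nd (nat_lit 156) (nat_lit 76) (nat_lit 0) (XT.nd (nat_lit 78) (nat_lit 152) (nat_lit 0) (XT.lf (nat_lit 0) (nat_lit 4310340939) (nat_lit 152) (nat_lit 13941653226) (nat_lit 76) (nat_lit 42279049425) (nat_lit 19) (nat_lit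 5) (nat_lit 21) (nat_lit 5) (nat_lit 20) (nat_lit 5) (nat_lit 346) (nat_lit 318) (nat_lit 236)) (XT.lf (nat_lit 0) (nat_lit 15251700931) (nat_lit 152) (nat_lit 833657480) (nat_lit 228) (nat_lit 47867821512) (nat_lit 17) (nat_lit 5) (nat_lit 19) (nat_lit 5) (nat_lit 20) (nat_lit 5) (nat_lit 347) (nat_lit 318) (nat_lit 235))) (XT.nd (nat_lit 78) (nat_lit 76) (nat_lit 0) (XT.lf (nat_lit 0) (nat_lit 29621058557) (nat_lit 228) (nat_lit 20495716283) (nat_lit 76) (nat_lit 17466822625) (nat_lit 17) (nat_lit 5) (nat_lit 20) (nat_lit 5) (nat_lit 18) (nat_lit 4) (nat_lit 348) (nat_lit 318) (nat_lit 234)) (XT.lf (nat_lit 0) (nat_lit 10460495145) (nat_lit 76) (nat_lit 34047918444) (nat_lit 152) (nat_lit 26974535364) (nat_lit 16) (nat_lit 5) (nat_lit 17) (nat_lit 5) (nat_lit 18) (nat_lit 4) (nat_lit 349) (nat_lit 318) (nat_lit 233))))) (XT.nd (nat_lit 312) (nat_lit 228) (nat_lit 0) (XT.nd (nat_lit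 156) (nat_lit 76) (nat_lit 0) (XT.nd (nat_lit 78) (nat_lit 76) (nat_lit 0) (XT.lf (nat_lit 0) (nat_lit 45051371144) (nat_lit 76) (nat_lit 16091494509) (nat_lit 152) (nat_lit 14506898336) (nat_lit 16) (nat_lit 5) (nat_lit 17) (nat_lit 5) (nat_lit 18) (nat_lit 4) (nat_lit 350) (nat_lit 318) (nat_lit 232)) (XT.lf (nat_lit 0) (nat_lit 2287481135) (nat_lit 76) (nat_lit 76950972620) (nat_lit 76) (nat_lit 901043898) (nat_lit 15) (nat_lit 4) (nat_lit 16) (nat_lit 5) (nat_lit 16) (nat_lit 4) (nat_lit 351) (nat_lit 318) (nat_lit 231))) (XT.nd (nat_lit 78) (nat_lit 0) (nat_lit 0) (XT.lf (nat_lit 0) (nat_lit 14375581442) (nat_lit 152) (nat_lit 46155692578) (nat_lit 76) (nat_lit 24328817108) (nat_lit 14) (nat_lit 5) (nat_lit 16) (nat_lit 5) (nat_lit 15) (nat_lit 4) (nat_lit 352) (nat_lit 318) (nat_lit 230)) (XT.lf (nat_lit 0) (nat_lit 30821946662) (nat_lit 152) (nat_lit 11953709637) (nat_lit 76) (nat_lit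 47181103341) (nat_lit 14) (nat_lit 5) (nat_lit 16) (nat_lit 5) (nat_lit 15) (nat_lit 4) (nat_lit 353) (nat_lit 318) (nat_lit 229)))) (XT.nd (nat_lit 156) (nat_lit 152) (nat_lit 0) (XT.nd (nat_lit 78) (nat_lit 0) (nat_lit 0) (XT.lf (nat_lit 0) (nat_lit 26293592851) (nat_lit 76) (nat_lit 22919354259) (nat_lit 152) (nat_lit 46197903248) (nat_lit 13) (nat_lit 5) (nat_lit 14) (nat_lit 5) (nat_lit 15) (nat_lit 4) (nat_lit 354) (nat_lit 318) (nat_lit 228)) (XT.lf (nat_lit 0) (nat_lit 68274502233) (nat_lit 76) (nat_lit 1124235731) (nat_lit 152) (nat_lit 31876652136) (nat_lit 13) (nat_lit 5) (nat_lit 14) (nat_lit 5) (nat_lit 15) (nat_lit 4) (nat_lit 355) (nat_lit 318) (nat_lit 227))) (XT.nd (nat_lit 78) (nat_lit 76) (nat_lit 0) (XT.lf (nat_lit 0) (nat_lit 5747494703) (nat_lit 76) (nat_lit 86126055465) (nat_lit 76) (nat_lit 15681612609) (nat_lit 12) (nat_lit 4) (nat_lit 13) (nat_lit 5) (nat_lit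 13) (nat_lit 4) (nat_lit 356) (nat_lit 318) (nat_lit 226)) (XT.nd (nat_lit 78) (nat_lit 0) (nat_lit 0) (XT.lf (nat_lit 0) (nat_lit 2670353626) (nat_lit 152) (nat_lit 64894501647) (nat_lit 76) (nat_lit 46692837997) (nat_lit 11) (nat_lit 5) (nat_lit 13) (nat_lit 5) (nat_lit 12) (nat_lit 4) (nat_lit 357) (nat_lit 318) (nat_lit 225)) (XT.lf (nat_lit 0) (nat_lit 21640372431) (nat_lit 152) (nat_lit 25440931360) (nat_lit 76) (nat_lit 74382770376) (nat_lit 11) (nat_lit 5) (nat_lit 13) (nat_lit 5) (nat_lit 12) (nat_lit 4) (nat_lit 358) (nat_lit 318) (nat_lit 224))))))) (XT.nd (nat_lit 702) (nat_lit 228) (nat_lit 0) (XT.nd (nat_lit 312) (nat_lit 152) (nat_lit 0) (XT.nd (nat_lit 156) (nat_lit 76) (nat_lit 0) (XT.nd (nat_lit 78) (nat_lit 0) (nat_lit 0) (XT.lf (nat_lit 0) (nat_lit 18067809904) (nat_lit 76) (nat_lit 24492037862) (nat_lit 152) (nat_lit 86652571135) (nat_lit 10) (nat_lit 5) (nat_lit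 11) (nat_lit 5) (nat_lit 12) (nat_lit 4) (nat_lit 359) (nat_lit 318) (nat_lit 223)) (XT.lf (nat_lit 0) (nat_lit 65861601696) (nat_lit 152) (nat_lit 71041622382) (nat_lit 0) (nat_lit 620711127) (nat_lit 10) (nat_lit 5) (nat_lit 12) (nat_lit 4) (nat_lit 10) (nat_lit 4) (nat_lit 360) (nat_lit 318) (nat_lit 222))) (XT.nd (nat_lit 78) (nat_lit 76) (nat_lit 0) (XT.lf (nat_lit 0) (nat_lit 91661201657) (nat_lit 152) (nat_lit 28371155835) (nat_lit 0) (nat_lit 26417320378) (nat_lit 10) (nat_lit 5) (nat_lit 12) (nat_lit 4) (nat_lit 10) (nat_lit 4) (nat_lit 361) (nat_lit 318) (nat_lit 221)) (XT.lf (nat_lit 0) (nat_lit 18641194829) (nat_lit 76) (nat_lit 101329626424) (nat_lit 76) (nat_lit 36082975969) (nat_lit 9) (nat_lit 4) (nat_lit 10) (nat_lit 5) (nat_lit 10) (nat_lit 4) (nat_lit 362) (nat_lit 318) (nat_lit 220)))) (XT.nd (nat_lit 156) (nat_lit 76) (nat_lit 0) (XT.nd (nat_lit 78) (nat_lit 76) (nat_lit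 0) (XT.lf (nat_lit 0) (nat_lit 71023872931) (nat_lit 76) (nat_lit 80294853843) (nat_lit 76) (nat_lit 15045639337) (nat_lit 9) (nat_lit 4) (nat_lit 10) (nat_lit 5) (nat_lit 10) (nat_lit 4) (nat_lit 363) (nat_lit 318) (nat_lit 219)) (XT.lf (nat_lit 0) (nat_lit 7288673092) (nat_lit 152) (nat_lit 50091148594) (nat_lit 76) (nat_lit 120105361219) (nat_lit 8) (nat_lit 5) (nat_lit 10) (nat_lit 5) (nat_lit 9) (nat_lit 4) (nat_lit 364) (nat_lit 318) (nat_lit 218))) (XT.nd (nat_lit 78) (nat_lit 76) (nat_lit 0) (XT.lf (nat_lit 0) (nat_lit 30594937842) (nat_lit 152) (nat_lit 1616316177) (nat_lit 76) (nat_lit 157253303379) (nat_lit 8) (nat_lit 5) (nat_lit 10) (nat_lit 5) (nat_lit 9) (nat_lit 4) (nat_lit 365) (nat_lit 318) (nat_lit 217)) (XT.nd (nat_lit 78) (nat_lit 0) (nat_lit 0) (XT.lf (nat_lit 0) (nat_lit 53404626007) (nat_lit 76) (nat_lit 3643666455) (nat_lit 152) (nat_lit 145251383245) (nat_lit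 7) (nat_lit 5) (nat_lit 8) (nat_lit 5) (nat_lit 9) (nat_lit 4) (nat_lit 366) (nat_lit 318) (nat_lit 216)) (XT.lf (nat_lit 0) (nat_lit 86315863106) (nat_lit 152) (nat_lit 103897845092) (nat_lit 0) (nat_lit 25892060356) (nat_lit 7) (nat_lit 5) (nat_lit 9) (nat_lit 4) (nat_lit 7) (nat_lit 4) (nat_lit 367) (nat_lit 318) (nat_lit 215)))))) (XT.nd (nat_lit 312) (nat_lit 152) (nat_lit 0) (XT.nd (nat_lit 156) (nat_lit 76) (nat_lit 0) (XT.nd (nat_lit 78) (nat_lit 0) (nat_lit 0) (XT.lf (nat_lit 0) (nat_lit 118017833644) (nat_lit 152) (nat_lit 55398661358) (nat_lit 0) (nat_lit 57592415106) (nat_lit 7) (nat_lit 5) (nat_lit 9) (nat_lit 4) (nat_lit 7) (nat_lit 4) (nat_lit 368) (nat_lit 318) (nat_lit 214)) (XT.lf (nat_lit 0) (nat_lit 152254437338) (nat_lit 152) (nat_lit 3022465663) (nat_lit 0) (nat_lit 91827522701) (nat_lit 7) (nat_lit 5) (nat_lit 9) (nat_lit 4) (nat_lit 7) (nat_lit 4) (nat_lit 369)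 (nat_lit 318) (nat_lit 213))) (XT.nd (nat_lit 78) (nat_lit 0) (nat_lit 0) (XT.lf (nat_lit 0) (nat_lit 56360499916) (nat_lit 76) (nat_lit 134223529229) (nat_lit 76) (nat_lit 73795229315) (nat_lit 6) (nat_lit 4) (nat_lit 7) (nat_lit 5) (nat_lit 7) (nat_lit 4) (nat_lit 370) (nat_lit 318) (nat_lit 212)) (XT.lf (nat_lit 0) (nat_lit 120663355317) (nat_lit 76) (nat_lit 111397902110) (nat_lit 76) (nat_lit 50968319532) (nat_lit 6) (nat_lit 4) (nat_lit 7) (nat_lit 5) (nat_lit 7) (nat_lit 4) (nat_lit 371) (nat_lit 318) (nat_lit 211)))) (XT.nd (nat_lit 156) (nat_lit 76) (nat_lit 0) (XT.nd (nat_lit 78) (nat_lit 76) (nat_lit 0) (XT.lf (nat_lit 0) (nat_lit 190107996811) (nat_lit 76) (nat_lit 86747398236) (nat_lit 76) (nat_lit 26316628006) (nat_lit 6) (nat_lit 4) (nat_lit 7) (nat_lit 5) (nat_lit 7) (nat_lit 4) (nat_lit 372) (nat_lit 318) (nat_lit 210)) (XT.lf (nat_lit 0) (nat_lit 290625534) (nat_lit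 152) (nat_lit 59827368796) (nat_lit 76) (nat_lit 264807376448) (nat_lit 5) (nat_lit 5) (nat_lit 7) (nat_lit 5) (nat_lit 6) (nat_lit 4) (nat_lit 373) (nat_lit 318) (nat_lit 209))) (XT.nd (nat_lit 78) (nat_lit 76) (nat_lit 0) (XT.lf (nat_lit 0) (nat_lit 27603561252) (nat_lit 152) (nat_lit 3017480722) (nat_lit 76) (nat_lit 317743350253) (nat_lit 5) (nat_lit 5) (nat_lit 7) (nat_lit 5) (nat_lit 6) (nat_lit 4) (nat_lit 374) (nat_lit 318) (nat_lit 208)) (XT.nd (nat_lit 78) (nat_lit 0) (nat_lit 0) (XT.lf (nat_lit 0) (nat_lit 58645392748) (nat_lit 152) (nat_lit 312221492322) (nat_lit 0) (nat_lit 2688141892) (nat_lit 4) (nat_lit 5) (nat_lit 6) (nat_lit 4) (nat_lit 4) (nat_lit 4) (nat_lit 375) (nat_lit 318) (nat_lit 207)) (XT.lf (nat_lit 0) (nat_lit 93049542051) (nat_lit 152) (nat_lit 270549570231) (nat_lit 0) (nat_lit 37091482899) (nat_lit 4) (nat_lit 5) (nat_lit 6) (nat_lit 4) (nat_lit 4) (nat_lit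 4) (nat_lit 376) (nat_lit 318) (nat_lit 206))))))))
noncomputable def xc152 : XT := (XT.nd (nat_lit 1326) (nat_lit 152) (nat_lit 0) (XT.nd (nat_lit 624) (nat_lit 0) (nat_lit 0) (XT.nd (nat_lit 312) (nat_lit 76) (nat_lit 0) (XT.nd (nat_lit 156) (nat_lit 0) (nat_lit 0) (XT.nd (nat_lit 78) (nat_lit 0) (nat_lit 0) (XT.lf (nat_lit 0) (nat_lit 130205072683) (nat_lit 152) (nat_lit 225545747493) (nat_lit 0) (nat_lit 74246265109) (nat_lit 4) (nat_lit 5) (nat_lit 6) (nat_lit 4) (nat_lit 4) (nat_lit 4) (nat_lit 377) (nat_lit 318) (nat_lit 205)) (XT.lf (nat_lit 0) (nat_lit 170332165567) (nat_lit 152) (nat_lit 176943334789) (nat_lit 0) (nat_lit 114372665009) (nat_lit 4) (nat_lit 5) (nat_lit 6) (nat_lit 4) (nat_lit 4) (nat_lit 4) (nat_lit 378) (nat_lit 318) (nat_lit 204))) (XT.nd (nat_lit 78) (nat_lit 0) (nat_lit 0) (XT.lf (nat_lit 0) (nat_lit 213668610883) (nat_lit 152) (nat_lit 124454317821) (nat_lit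 0) (nat_lit 157708468673) (nat_lit 4) (nat_lit 5) (nat_lit 6) (nat_lit 4) (nat_lit 4) (nat_lit 4) (nat_lit 379) (nat_lit 318) (nat_lit 203)) (XT.lf (nat_lit 0) (nat_lit 260471217195) (nat_lit 152) (nat_lit 67767650563) (nat_lit 0) (nat_lit 204510480864) (nat_lit 4) (nat_lit 5) (nat_lit 6) (nat_lit 4) (nat_lit 4) (nat_lit 4) (nat_lit 380) (nat_lit 318) (nat_lit 202)))) (XT.nd (nat_lit 156) (nat_lit 0) (nat_lit 0) (XT.nd (nat_lit 78) (nat_lit 76) (nat_lit 0) (XT.lf (nat_lit 0) (nat_lit 311017333281) (nat_lit 152) (nat_lit 6547412023) (nat_lit 0) (nat_lit 255056046837) (nat_lit 4) (nat_lit 5) (nat_lit 6) (nat_lit 4) (nat_lit 4) (nat_lit 4) (nat_lit 381) (nat_lit 318) (nat_lit 201)) (XT.lf (nat_lit 0) (nat_lit 62705992081) (nat_lit 76) (nat_lit 304408580219) (nat_lit 76) (nat_lit 248446784411) (nat_lit 3) (nat_lit 4) (nat_lit 4) (nat_lit 5) (nat_lit 4) (nat_lit 4) (nat_lit 382) (nat_lit 318)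 (nat_lit 200))) (XT.nd (nat_lit 78) (nat_lit 0) (nat_lit 0) (XT.lf (nat_lit 0) (nat_lit 137870796364) (nat_lit 76) (nat_lit 290007183311) (nat_lit 76) (nat_lit 234044915870) (nat_lit 3) (nat_lit 4) (nat_lit 4) (nat_lit 5) (nat_lit 4) (nat_lit 4) (nat_lit 383) (nat_lit 318) (nat_lit 199)) (XT.lf (nat_lit 0) (nat_lit 219047646773) (nat_lit 76) (nat_lit 274454230818) (nat_lit 76) (nat_lit 218491526680) (nat_lit 3) (nat_lit 4) (nat_lit 4) (nat_lit 5) (nat_lit 4) (nat_lit 4) (nat_lit 384) (nat_lit 318) (nat_lit 198))))) (XT.nd (nat_lit 312) (nat_lit 0) (nat_lit 0) (XT.nd (nat_lit 156) (nat_lit 0) (nat_lit 0) (XT.nd (nat_lit 78) (nat_lit 0) (nat_lit 0) (XT.lf (nat_lit 0) (nat_lit 306717591311) (nat_lit 76) (nat_lit 257657557095) (nat_lit 76) (nat_lit 201694448609) (nat_lit 3) (nat_lit 4) (nat_lit 4) (nat_lit 5) (nat_lit 4) (nat_lit 4) (nat_lit 385) (nat_lit 318) (nat_lit 197)) (XT.lf (nat_lit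 0) (nat_lit 401400155575) (nat_lit 76) (nat_lit 239517626299) (nat_lit 76) (nat_lit 183554143415) (nat_lit 3) (nat_lit 4) (nat_lit 4) (nat_lit 5) (nat_lit 4) (nat_lit 4) (nat_lit 386) (nat_lit 318) (nat_lit 196))) (XT.nd (nat_lit 78) (nat_lit 0) (nat_lit 0) (XT.lf (nat_lit 0) (nat_lit 503656421427) (nat_lit 76) (nat_lit 219926942543) (nat_lit 76) (nat_lit 163963112994) (nat_lit 3) (nat_lit 4) (nat_lit 4) (nat_lit 5) (nat_lit 4) (nat_lit 4) (nat_lit 387) (nat_lit 318) (nat_lit 195)) (XT.lf (nat_lit 0) (nat_lit 614092351924) (nat_lit 76) (nat_lit 198769412886) (nat_lit 76) (nat_lit 142805262352) (nat_lit 3) (nat_lit 4) (nat_lit 4) (nat_lit 5) (nat_lit 4) (nat_lit 4) (nat_lit 388) (nat_lit 318) (nat_lit 194)))) (XT.nd (nat_lit 156) (nat_lit 0) (nat_lit 0) (XT.nd (nat_lit 78) (nat_lit 0) (nat_lit 0) (XT.lf (nat_lit 0) (nat_lit 733362382210) (nat_lit 76) (nat_lit 175919659375) (nat_lit 76)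 (nat_lit 119955211632) (nat_lit 3) (nat_lit 4) (nat_lit 4) (nat_lit 5) (nat_lit 4) (nat_lit 4) (nat_lit 389) (nat_lit 318) (nat_lit 193)) (XT.lf (nat_lit 0) (nat_lit 862173297650) (nat_lit 76) (nat_lit 151242276063) (nat_lit 76) (nat_lit 95277553127) (nat_lit 3) (nat_lit 4) (nat_lit 4) (nat_lit 5) (nat_lit 4) (nat_lit 4) (nat_lit 390) (nat_lit 318) (nat_lit 192))) (XT.nd (nat_lit 78) (nat_lit 0) (nat_lit 0) (XT.lf (nat_lit 0) (nat_lit 1001288422186) (nat_lit 76) (nat_lit 124591026604) (nat_lit 76) (nat_lit 68626048859) (nat_lit 3) (nat_lit 4) (nat_lit 4) (nat_lit 5) (nat_lit 4) (nat_lit 4) (nat_lit 391) (nat_lit 318) (nat_lit 191)) (XT.nd (nat_lit 78) (nat_lit 0) (nat_lit 0) (XT.lf (nat_lit 0) (nat_lit 1151532141743) (nat_lit 76) (nat_lit 95807977668) (nat_lit 76) (nat_lit 39842763990) (nat_lit 3) (nat_lit 4) (nat_lit 4) (nat_lit 5) (nat_lit 4) (nat_lit 4) (nat_lit 392) (nat_lit 318)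 (nat_lit 190)) (XT.lf (nat_lit 0) (nat_lit 1313794789472) (nat_lit 76) (nat_lit 64722563040) (nat_lit 76) (nat_lit 8757130905) (nat_lit 3) (nat_lit 4) (nat_lit 4) (nat_lit 5) (nat_lit 4) (nat_lit 4) (nat_lit 393) (nat_lit 318) (nat_lit 189))))))) (XT.nd (nat_lit 624) (nat_lit 0) (nat_lit 0) (XT.nd (nat_lit 312) (nat_lit 0) (nat_lit 0) (XT.nd (nat_lit 156) (nat_lit 0) (nat_lit 0) (XT.nd (nat_lit 78) (nat_lit 76) (nat_lit 0) (XT.lf (nat_lit 0) (nat_lit 23573711674) (nat_lit 152) (nat_lit 6932314127) (nat_lit 76) (nat_lit 1464819663077) (nat_lit 2) (nat_lit 5) (nat_lit 4) (nat_lit 5) (nat_lit 3) (nat_lit 4) (nat_lit 394) (nat_lit 318) (nat_lit 188)) (XT.lf (nat_lit 0) (nat_lit 59859428099) (nat_lit 152) (nat_lit 1543956821796) (nat_lit 0) (nat_lit 8039222818) (nat_lit 1) (nat_lit 5) (nat_lit 3) (nat_lit 4) (nat_lit 1) (nat_lit 4) (nat_lit 395) (nat_lit 318) (nat_lit 187))) (XT.nd (nat_lit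 78) (nat_lit 0) (nat_lit 0) (XT.lf (nat_lit 0) (nat_lit 100034576298) (nat_lit 152) (nat_lit 1589379926634) (nat_lit 0) (nat_lit 48214210445) (nat_lit 1) (nat_lit 5) (nat_lit 3) (nat_lit 4) (nat_lit 1) (nat_lit 4) (nat_lit 396) (nat_lit 318) (nat_lit 186)) (XT.lf (nat_lit 0) (nat_lit 143423500463) (nat_lit 152) (nat_lit 1638437345847) (nat_lit 0) (nat_lit 91602985932) (nat_lit 1) (nat_lit 5) (nat_lit 3) (nat_lit 4) (nat_lit 1) (nat_lit 4) (nat_lit 397) (nat_lit 318) (nat_lit 185)))) (XT.nd (nat_lit 156) (nat_lit 0) (nat_lit 0) (XT.nd (nat_lit 78) (nat_lit 0) (nat_lit 0) (XT.lf (nat_lit 0) (nat_lit 190283320145) (nat_lit 152) (nat_lit 1691419790065) (nat_lit 0) (nat_lit 138462667948) (nat_lit 1) (nat_lit 5) (nat_lit 3) (nat_lit 4) (nat_lit 1) (nat_lit 4) (nat_lit 398) (nat_lit 318) (nat_lit 184)) (XT.lf (nat_lit 0) (nat_lit 240891723164) (nat_lit 152) (nat_lit 1748641229329) (nat_lit 0)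 (nat_lit 189070943499) (nat_lit 1) (nat_lit 5) (nat_lit 3) (nat_lit 4) (nat_lit 1) (nat_lit 4) (nat_lit 399) (nat_lit 318) (nat_lit 183))) (XT.nd (nat_lit 78) (nat_lit 0) (nat_lit 0) (XT.lf (nat_lit 0) (nat_lit 295548611167) (nat_lit 152) (nat_lit 1810440753650) (nat_lit 0) (nat_lit 243727713476) (nat_lit 1) (nat_lit 5) (nat_lit 3) (nat_lit 4) (nat_lit 1) (nat_lit 4) (nat_lit 400) (nat_lit 318) (nat_lit 182)) (XT.lf (nat_lit 0) (nat_lit 354577876824) (nat_lit 152) (nat_lit 1877184582430) (nat_lit 0) (nat_lit 302756869850) (nat_lit 1) (nat_lit 5) (nat_lit 3) (nat_lit 4) (nat_lit 1) (nat_lit 4) (nat_lit 401) (nat_lit 318) (nat_lit 181))))) (XT.nd (nat_lit 312) (nat_lit 0) (nat_lit 0) (XT.nd (nat_lit 156) (nat_lit 0) (nat_lit 0) (XT.nd (nat_lit 78) (nat_lit 0) (nat_lit 0) (XT.lf (nat_lit 0) (nat_lit 418329323190) (nat_lit 152) (nat_lit 1949268234656) (nat_lit 0) (nat_lit 366508215029) (nat_lit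 1) (nat_lit 5) (nat_lit 3) (nat_lit 4) (nat_lit 1) (nat_lit 4) (nat_lit 402) (nat_lit 318) (nat_lit 180)) (XT.lf (nat_lit 0) (nat_lit 487180736615) (nat_lit 152) (nat_lit 2027118872710) (nat_lit 0) (nat_lit 435359534762) (nat_lit 1) (nat_lit 5) (nat_lit 3) (nat_lit 4) (nat_lit 1) (nat_lit 4) (nat_lit 403) (nat_lit 318) (nat_lit 179))) (XT.nd (nat_lit 78) (nat_lit 0) (nat_lit 0) (XT.lf (nat_lit 0) (nat_lit 561540125475) (nat_lit 152) (nat_lit 2111197833707) (nat_lit 0) (nat_lit 509718836869) (nat_lit 1) (nat_lit 5) (nat_lit 3) (nat_lit 4) (nat_lit 1) (nat_lit 4) (nat_lit 404) (nat_lit 318) (nat_lit 178)) (XT.lf (nat_lit 0) (nat_lit 641848137999) (nat_lit 152) (nat_lit 2202003363342) (nat_lit 0) (nat_lit 590026769067) (nat_lit 1) (nat_lit 5) (nat_lit 3) (nat_lit 4) (nat_lit 1) (nat_lit 4) (nat_lit 405) (nat_lit 318) (nat_lit 177)))) (XT.nd (nat_lit 156) (nat_lit 0) (nat_lit 0) (XT.nd (nat_lit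 78) (nat_lit 0) (nat_lit 0) (XT.lf (nat_lit 0) (nat_lit 728580673522) (nat_lit 152) (nat_lit 2300073568457) (nat_lit 0) (nat_lit 676759230213) (nat_lit 1) (nat_lit 5) (nat_lit 3) (nat_lit 4) (nat_lit 1) (nat_lit 4) (nat_lit 406) (nat_lit 318) (nat_lit 176)) (XT.lf (nat_lit 0) (nat_lit 822251702624) (nat_lit 152) (nat_lit 2405989605823) (nat_lit 0) (nat_lit 770430190448) (nat_lit 1) (nat_lit 5) (nat_lit 3) (nat_lit 4) (nat_lit 1) (nat_lit 4) (nat_lit 407) (nat_lit 318) (nat_lit 175))) (XT.nd (nat_lit 78) (nat_lit 0) (nat_lit 0) (XT.lf (nat_lit 0) (nat_lit 923416312884) (nat_lit 152) (nat_lit 2520379126032) (nat_lit 0) (nat_lit 871594736943) (nat_lit 1) (nat_lit 5) (nat_lit 3) (nat_lit 4) (nat_lit 1) (nat_lit 4) (nat_lit 408) (nat_lit 318) (nat_lit 174)) (XT.nd (nat_lit 78) (nat_lit 0) (nat_lit 0) (XT.lf (nat_lit 0) (nat_lit 1032673998290) (nat_lit 152) (nat_lit 2643919992907) (nat_lit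 0) (nat_lit 980852363307) (nat_lit 1) (nat_lit 5) (nat_lit 3) (nat_lit 4) (nat_lit 1) (nat_lit 4) (nat_lit 409) (nat_lit 318) (nat_lit 173)) (XT.lf (nat_lit 0) (nat_lit 1150672211793) (nat_lit 152) (nat_lit 2777344300475) (nat_lit 0) (nat_lit 1098850522141) (nat_lit 1) (nat_lit 5) (nat_lit 3) (nat_lit 4) (nat_lit 1) (nat_lit 4) (nat_lit 410) (nat_lit 318) (nat_lit 172))))))))
noncomputable def xc153 : XT := (XT.nd (nat_lit 40950) (nat_lit 0) (nat_lit 1140) (XT.nd (nat_lit 40248) (nat_lit 0) (nat_lit 2432) (XT.nd (nat_lit 39936) (nat_lit 0) (nat_lit 3724) (XT.nd (nat_lit 39780) (nat_lit 0) (nat_lit 3648) (XT.nd (nat_lit 39702) (nat_lit 0) (nat_lit 3648) (XT.lf (nat_lit 0) (nat_lit 1278110202064) (nat_lit 152) (nat_lit 2921442711298) (nat_lit 0) (nat_lit 1226288461793) (nat_lit 1) (nat_lit 5) (nat_lit 3) (nat_lit 4) (nat_lit 1) (nat_lit 4) (nat_lit 411) (nat_lit 318) (nat_lit 171)) (XT.lf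 (nat_lit 0) (nat_lit 5228569739) (nat_lit 532) (nat_lit 1823160890) (nat_lit 532) (nat_lit 1823160890) (nat_lit 49) (nat_lit 3) (nat_lit 56) (nat_lit 3) (nat_lit 56) (nat_lit 5) (nat_lit 319) (nat_lit 319) (nat_lit 262))) (XT.nd (nat_lit 78) (nat_lit 0) (nat_lit 76) (XT.lf (nat_lit 76) (nat_lit 4838190229) (nat_lit 0) (nat_lit 6347609714) (nat_lit 532) (nat_lit 7248661046) (nat_lit 50) (nat_lit 5) (nat_lit 49) (nat_lit 3) (nat_lit 56) (nat_lit 5) (nat_lit 320) (nat_lit 319) (nat_lit 261)) (XT.lf (nat_lit 0) (nat_lit 12104360513) (nat_lit 456) (nat_lit 5021373828) (nat_lit 532) (nat_lit 2037698613) (nat_lit 50) (nat_lit 5) (nat_lit 56) (nat_lit 5) (nat_lit 57) (nat_lit 5) (nat_lit 321) (nat_lit 319) (nat_lit 260)))) (XT.nd (nat_lit 156) (nat_lit 0) (nat_lit 76) (XT.nd (nat_lit 78) (nat_lit 0) (nat_lit 0) (XT.lf (nat_lit 76) (nat_lit 4276642501) (nat_lit 0) (nat_lit 9069462275) (nat_lit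 532) (nat_lit 6584686773) (nat_lit 51) (nat_lit 5) (nat_lit 50) (nat_lit 5) (nat_lit 57) (nat_lit 5) (nat_lit 322) (nat_lit 319) (nat_lit 259)) (XT.lf (nat_lit 76) (nat_lit 14592437899) (nat_lit 0) (nat_lit 215072069) (nat_lit 532) (nat_lit 5942444614) (nat_lit 51) (nat_lit 5) (nat_lit 50) (nat_lit 5) (nat_lit 57) (nat_lit 5) (nat_lit 323) (nat_lit 319) (nat_lit 258))) (XT.nd (nat_lit 78) (nat_lit 0) (nat_lit 0) (XT.lf (nat_lit 76) (nat_lit 4065207703) (nat_lit 0) (nat_lit 12627604098) (nat_lit 532) (nat_lit 4917318510) (nat_lit 52) (nat_lit 5) (nat_lit 51) (nat_lit 5) (nat_lit 58) (nat_lit 5) (nat_lit 324) (nat_lit 319) (nat_lit 257)) (XT.lf (nat_lit 76) (nat_lit 15438176458) (nat_lit 0) (nat_lit 3449837425) (nat_lit 532) (nat_lit 3638415674) (nat_lit 52) (nat_lit 5) (nat_lit 51) (nat_lit 5) (nat_lit 58) (nat_lit 5) (nat_lit 325) (nat_lit 319) (nat_lit 256))))) (XT.nd (nat_lit 312) (nat_lit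 608) (nat_lit 0) (XT.nd (nat_lit 156) (nat_lit 304) (nat_lit 0) (XT.nd (nat_lit 78) (nat_lit 76) (nat_lit 0) (XT.lf (nat_lit 0) (nat_lit 4249950829) (nat_lit 456) (nat_lit 17252935706) (nat_lit 532) (nat_lit 1993654769) (nat_lit 46) (nat_lit 5) (nat_lit 52) (nat_lit 5) (nat_lit 53) (nat_lit 5) (nat_lit 326) (nat_lit 319) (nat_lit 255)) (XT.lf (nat_lit 0) (nat_lit 68788409) (nat_lit 532) (nat_lit 7732444598) (nat_lit 76) (nat_lit 16721456871) (nat_lit 45) (nat_lit 5) (nat_lit 52) (nat_lit 5) (nat_lit 46) (nat_lit 5) (nat_lit 327) (nat_lit 319) (nat_lit 254))) (XT.nd (nat_lit 78) (nat_lit 0) (nat_lit 0) (XT.lf (nat_lit 0) (nat_lit 2356022951) (nat_lit 380) (nat_lit 20796999776) (nat_lit 76) (nat_lit 2460390675) (nat_lit 41) (nat_lit 5) (nat_lit 46) (nat_lit 5) (nat_lit 42) (nat_lit 5) (nat_lit 328) (nat_lit 319) (nat_lit 253)) (XT.lf (nat_lit 0) (nat_lit 5234178242) (nat_lit 380) (nat_lit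 8185999674) (nat_lit 76) (nat_lit 13338605726) (nat_lit 41) (nat_lit 5) (nat_lit 46) (nat_lit 5) (nat_lit 42) (nat_lit 5) (nat_lit 329) (nat_lit 319) (nat_lit 252)))) (XT.nd (nat_lit 156) (nat_lit 380) (nat_lit 0) (XT.nd (nat_lit 78) (nat_lit 0) (nat_lit 0) (XT.lf (nat_lit 0) (nat_lit 5708002050) (nat_lit 228) (nat_lit 2761122994) (nat_lit 304) (nat_lit 19516557731) (nat_lit 38) (nat_lit 5) (nat_lit 41) (nat_lit 5) (nat_lit 42) (nat_lit 5) (nat_lit 330) (nat_lit 319) (nat_lit 251)) (XT.lf (nat_lit 0) (nat_lit 12392721638) (nat_lit 304) (nat_lit 8341968605) (nat_lit 76) (nat_lit 8541676013) (nat_lit 38) (nat_lit 5) (nat_lit 42) (nat_lit 5) (nat_lit 39) (nat_lit 5) (nat_lit 331) (nat_lit 319) (nat_lit 250))) (XT.nd (nat_lit 78) (nat_lit 152) (nat_lit 0) (XT.lf (nat_lit 0) (nat_lit 6974729518) (nat_lit 228) (nat_lit 9885461624) (nat_lit 304) (nat_lit 13791733663) (nat_lit 35) (nat_lit 5)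 (nat_lit 38) (nat_lit 5) (nat_lit 39) (nat_lit 5) (nat_lit 332) (nat_lit 319) (nat_lit 249)) (XT.nd (nat_lit 78) (nat_lit 152) (nat_lit 0) (XT.lf (nat_lit 0) (nat_lit 21954045168) (nat_lit 304) (nat_lit 8189555612) (nat_lit 76) (nat_lit 1972426085) (nat_lit 35) (nat_lit 5) (nat_lit 39) (nat_lit 5) (nat_lit 36) (nat_lit 5) (nat_lit 333) (nat_lit 319) (nat_lit 248)) (XT.lf (nat_lit 0) (nat_lit 8705171912) (nat_lit 152) (nat_lit 19207958519) (nat_lit 228) (nat_lit 5747525290) (nat_lit 33) (nat_lit 5) (nat_lit 35) (nat_lit 5) (nat_lit 36) (nat_lit 5) (nat_lit 334) (nat_lit 319) (nat_lit 247))))))) (XT.nd (nat_lit 624) (nat_lit 532) (nat_lit 0) (XT.nd (nat_lit 312) (nat_lit 304) (nat_lit 0) (XT.nd (nat_lit 156) (nat_lit 152) (nat_lit 0) (XT.nd (nat_lit 78) (nat_lit 304) (nat_lit 0) (XT.lf (nat_lit 0) (nat_lit 27406867895) (nat_lit 152) (nat_lit 7157962948) (nat_lit 228) (nat_lit 746768222)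 (nat_lit 33) (nat_lit 5) (nat_lit 35) (nat_lit 5) (nat_lit 36) (nat_lit 5) (nat_lit 335) (nat_lit 319) (nat_lit 246)) (XT.lf (nat_lit 0) (nat_lit 4827104688) (nat_lit 304) (nat_lit 26280599733) (nat_lit 76) (nat_lit 5945502551) (nat_lit 29) (nat_lit 5) (nat_lit 33) (nat_lit 5) (nat_lit 30) (nat_lit 5) (nat_lit 336) (nat_lit 319) (nat_lit 245))) (XT.nd (nat_lit 78) (nat_lit 152) (nat_lit 0) (XT.lf (nat_lit 0) (nat_lit 11206839023) (nat_lit 304) (nat_lit 7744392832) (nat_lit 76) (nat_lit 19949348316) (nat_lit 29) (nat_lit 5) (nat_lit 33) (nat_lit 5) (nat_lit 30) (nat_lit 5) (nat_lit 337) (nat_lit 319) (nat_lit 244)) (XT.lf (nat_lit 0) (nat_lit 12911045620) (nat_lit 152) (nat_lit 5489595450) (nat_lit 228) (nat_lit 22470818245) (nat_lit 27) (nat_lit 5) (nat_lit 29) (nat_lit 5) (nat_lit 30) (nat_lit 5) (nat_lit 338) (nat_lit 319) (nat_lit 243)))) (XT.nd (nat_lit 156) (nat_lit 152) (nat_lit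 0) (XT.nd (nat_lit 78) (nat_lit 152) (nat_lit 0) (XT.lf (nat_lit 0) (nat_lit 26598214519) (nat_lit 228) (nat_lit 7556601500) (nat_lit 76) (nat_lit 8810941768) (nat_lit 27) (nat_lit 5) (nat_lit 30) (nat_lit 5) (nat_lit 28) (nat_lit 5) (nat_lit 339) (nat_lit 319) (nat_lit 242)) (XT.lf (nat_lit 0) (nat_lit 15082378874) (nat_lit 152) (nat_lit 20868416718) (nat_lit 228) (nat_lit 9236878010) (nat_lit 25) (nat_lit 5) (nat_lit 27) (nat_lit 5) (nat_lit 28) (nat_lit 5) (nat_lit 340) (nat_lit 319) (nat_lit 241))) (XT.nd (nat_lit 78) (nat_lit 152) (nat_lit 0) (XT.lf (nat_lit 0) (nat_lit 39953425373) (nat_lit 152) (nat_lit 6298893315) (nat_lit 228) (nat_lit 1318974049) (nat_lit 25) (nat_lit 5) (nat_lit 27) (nat_lit 5) (nat_lit 28) (nat_lit 5) (nat_lit 341) (nat_lit 319) (nat_lit 240)) (XT.lf (nat_lit 0) (nat_lit 7524582603) (nat_lit 152) (nat_lit 32986686846) (nat_lit 76) (nat_lit 9568103507) (nat_lit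 23) (nat_lit 5) (nat_lit 25) (nat_lit 5) (nat_lit 24) (nat_lit 5) (nat_lit 342) (nat_lit 319) (nat_lit 239))))) (XT.nd (nat_lit 312) (nat_lit 304) (nat_lit 0) (XT.nd (nat_lit 156) (nat_lit 76) (nat_lit 0) (XT.nd (nat_lit 78) (nat_lit 152) (nat_lit 0) (XT.lf (nat_lit 0) (nat_lit 17376226272) (nat_lit 152) (nat_lit 8770001523) (nat_lit 76) (nat_lit 26609389226) (nat_lit 23) (nat_lit 5) (nat_lit 25) (nat_lit 5) (nat_lit 24) (nat_lit 5) (nat_lit 343) (nat_lit 319) (nat_lit 238)) (XT.lf (nat_lit 0) (nat_lit 18291041302) (nat_lit 152) (nat_lit 10159820955) (nat_lit 228) (nat_lit 27160316029) (nat_lit 21) (nat_lit 5) (nat_lit 23) (nat_lit 5) (nat_lit 24) (nat_lit 5) (nat_lit 344) (nat_lit 319) (nat_lit 237))) (XT.nd (nat_lit 78) (nat_lit 76) (nat_lit 0) (XT.lf (nat_lit 0) (nat_lit 40823449354) (nat_lit 228) (nat_lit 10845483502) (nat_lit 76) (nat_lit 6993299229) (nat_lit 21) (nat_lit 5) (nat_lit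 24) (nat_lit 5) (nat_lit 22) (nat_lit 4) (nat_lit 345) (nat_lit 319) (nat_lit 236)) (XT.lf (nat_lit 0) (nat_lit 18396000959) (nat_lit 76) (nat_lit 36491600027) (nat_lit 152) (nat_lit 7013634204) (nat_lit 20) (nat_lit 5) (nat_lit 21) (nat_lit 5) (nat_lit 22) (nat_lit 4) (nat_lit 346) (nat_lit 319) (nat_lit 235)))) (XT.nd (nat_lit 156) (nat_lit 76) (nat_lit 0) (XT.nd (nat_lit 78) (nat_lit 152) (nat_lit 0) (XT.lf (nat_lit 0) (nat_lit 4743259087) (nat_lit 152) (nat_lit 14909781357) (nat_lit 76) (nat_lit 45713345600) (nat_lit 19) (nat_lit 5) (nat_lit 21) (nat_lit 5) (nat_lit 20) (nat_lit 5) (nat_lit 347) (nat_lit 319) (nat_lit 234)) (XT.lf (nat_lit 0) (nat_lit 16615314446) (nat_lit 152) (nat_lit 841888897) (nat_lit 228) (nat_lit 51605342855) (nat_lit 17) (nat_lit 5) (nat_lit 19) (nat_lit 5) (nat_lit 20) (nat_lit 5) (nat_lit 348) (nat_lit 319) (nat_lit 233))) (XT.nd (nat_lit 78) (nat_lit 76)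 (nat_lit 0) (XT.lf (nat_lit 0) (nat_lit 32070763846) (nat_lit 228) (nat_lit 21997448062) (nat_lit 76) (nat_lit 18915591321) (nat_lit 17) (nat_lit 5) (nat_lit 20) (nat_lit 5) (nat_lit 18) (nat_lit 4) (nat_lit 349) (nat_lit 319) (nat_lit 232)) (XT.nd (nat_lit 78) (nat_lit 0) (nat_lit 0) (XT.lf (nat_lit 0) (nat_lit 11431768496) (nat_lit 76) (nat_lit 36714644466) (nat_lit 152) (nat_lit 29048911372) (nat_lit 16) (nat_lit 5) (nat_lit 17) (nat_lit 5) (nat_lit 18) (nat_lit 4) (nat_lit 350) (nat_lit 319) (nat_lit 231)) (XT.lf (nat_lit 0) (nat_lit 48779956519) (nat_lit 76) (nat_lit 17325936798) (nat_lit 152) (nat_lit 15590054998) (nat_lit 16) (nat_lit 5) (nat_lit 17) (nat_lit 5) (nat_lit 18) (nat_lit 4) (nat_lit 351) (nat_lit 319) (nat_lit 230))))))))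
noncomputable def xc154 : XT := (XT.nd (nat_lit 1326) (nat_lit 304) (nat_lit 0) (XT.nd (nat_lit 624) (nat_lit 304) (nat_lit 0) (XT.nd (nat_lit 312) (nat_lit 152) (nat_lit 0) (XT.nd (nat_lit 156) (nat_lit 76) (nat_lit 0) (XT.nd (nat_lit 78) (nat_lit 76) (nat_lit 0) (XT.lf (nat_lit 0) (nat_lit 2596214560) (nat_lit 76) (nat_lit 83051811751) (nat_lit 76) (nat_lit 896927641) (nat_lit 15) (nat_lit 4) (nat_lit 16) (nat_lit 5) (nat_lit 16) (nat_lit 4) (nat_lit 352) (nat_lit 319) (nat_lit 229)) (XT.lf (nat_lit 0) (nat_lit 15592653835) (nat_lit 152) (nat_lit 49728142575) (nat_lit 76) (nat_lit 26322685229) (nat_lit 14) (nat_lit 5) (nat_lit 16) (nat_lit 5) (nat_lit 15) (nat_lit 4) (nat_lit 353) (nat_lit 319) (nat_lit 228))) (XT.nd (nat_lit 78) (nat_lit 76) (nat_lit 0) (XT.lf (nat_lit 0) (nat_lit 33349763393) (nat_lit 152) (nat_lit 12798890288) (nat_lit 76) (nat_lit 50999631193) (nat_lit 14) (nat_lit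 5) (nat_lit 16) (nat_lit 5) (nat_lit 15) (nat_lit 4) (nat_lit 354) (nat_lit 319) (nat_lit 227)) (XT.lf (nat_lit 0) (nat_lit 28505383333) (nat_lit 76) (nat_lit 24704668124) (nat_lit 152) (nat_lit 49828814538) (nat_lit 13) (nat_lit 5) (nat_lit 14) (nat_lit 5) (nat_lit 15) (nat_lit 4) (nat_lit 355) (nat_lit 319) (nat_lit 226)))) (XT.nd (nat_lit 156) (nat_lit 76) (nat_lit 0) (XT.nd (nat_lit 78) (nat_lit 76) (nat_lit 0) (XT.lf (nat_lit 0) (nat_lit 73836743016) (nat_lit 76) (nat_lit 1169513038) (nat_lit 152) (nat_lit 34366672298) (nat_lit 13) (nat_lit 5) (nat_lit 14) (nat_lit 5) (nat_lit 15) (nat_lit 4) (nat_lit 356) (nat_lit 319) (nat_lit 225)) (XT.lf (nat_lit 0) (nat_lit 6308368426) (nat_lit 76) (nat_lit 92969990263) (nat_lit 76) (nat_lit 16876782937) (nat_lit 12) (nat_lit 4) (nat_lit 13) (nat_lit 5) (nat_lit 13) (nat_lit 4) (nat_lit 357) (nat_lit 319) (nat_lit 224))) (XT.nd (nat_lit 78)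 (nat_lit 0) (nat_lit 0) (XT.lf (nat_lit 0) (nat_lit 2936194249) (nat_lit 152) (nat_lit 69989690720) (nat_lit 76) (nat_lit 50468212299) (nat_lit 11) (nat_lit 5) (nat_lit 13) (nat_lit 5) (nat_lit 12) (nat_lit 4) (nat_lit 358) (nat_lit 319) (nat_lit 223)) (XT.lf (nat_lit 0) (nat_lit 23419946978) (nat_lit 152) (nat_lit 27386973408) (nat_lit 76) (nat_lit 80370380211) (nat_lit 11) (nat_lit 5) (nat_lit 13) (nat_lit 5) (nat_lit 12) (nat_lit 4) (nat_lit 359) (nat_lit 319) (nat_lit 222))))) (XT.nd (nat_lit 312) (nat_lit 152) (nat_lit 0) (XT.nd (nat_lit 156) (nat_lit 76) (nat_lit 0) (XT.nd (nat_lit 78) (nat_lit 0) (nat_lit 0) (XT.lf (nat_lit 0) (nat_lit 19600208108) (nat_lit 76) (nat_lit 26411282852) (nat_lit 152) (nat_lit 93534143466) (nat_lit 10) (nat_lit 5) (nat_lit 11) (nat_lit 5) (nat_lit 12) (nat_lit 4) (nat_lit 360) (nat_lit 319) (nat_lit 221)) (XT.lf (nat_lit 0) (nat_lit 71174807806) (nat_lit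 152) (nat_lit 76641816470) (nat_lit 0) (nat_lit 705656139) (nat_lit 10) (nat_lit 5) (nat_lit 12) (nat_lit 4) (nat_lit 10) (nat_lit 4) (nat_lit 361) (nat_lit 319) (nat_lit 220))) (XT.nd (nat_lit 78) (nat_lit 76) (nat_lit 0) (XT.lf (nat_lit 0) (nat_lit 99035095914) (nat_lit 152) (nat_lit 30563870799) (nat_lit 0) (nat_lit 28563380196) (nat_lit 10) (nat_lit 5) (nat_lit 12) (nat_lit 4) (nat_lit 10) (nat_lit 4) (nat_lit 362) (nat_lit 319) (nat_lit 219)) (XT.lf (nat_lit 0) (nat_lit 20207519121) (nat_lit 76) (nat_lit 109400733501) (nat_lit 76) (nat_lit 38926643661) (nat_lit 9) (nat_lit 4) (nat_lit 10) (nat_lit 5) (nat_lit 10) (nat_lit 4) (nat_lit 363) (nat_lit 319) (nat_lit 218)))) (XT.nd (nat_lit 156) (nat_lit 76) (nat_lit 0) (XT.nd (nat_lit 78) (nat_lit 76) (nat_lit 0) (XT.lf (nat_lit 0) (nat_lit 76775253789) (nat_lit 76) (nat_lit 86685791191) (nat_lit 76) (nat_lit 16209503090) (nat_lit 9)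 (nat_lit 4) (nat_lit 10) (nat_lit 5) (nat_lit 10) (nat_lit 4) (nat_lit 364) (nat_lit 319) (nat_lit 217)) (XT.lf (nat_lit 0) (nat_lit 7906764225) (nat_lit 152) (nat_lit 54032253938) (nat_lit 76) (nat_lit 129742160966) (nat_lit 8) (nat_lit 5) (nat_lit 10) (nat_lit 5) (nat_lit 9) (nat_lit 4) (nat_lit 365) (nat_lit 319) (nat_lit 216))) (XT.nd (nat_lit 78) (nat_lit 76) (nat_lit 0) (XT.lf (nat_lit 0) (nat_lit 33074937763) (nat_lit 152) (nat_lit 1684337634) (nat_lit 76) (nat_lit 169859836954) (nat_lit 8) (nat_lit 5) (nat_lit 10) (nat_lit 5) (nat_lit 9) (nat_lit 4) (nat_lit 366) (nat_lit 319) (nat_lit 215)) (XT.nd (nat_lit 78) (nat_lit 0) (nat_lit 0) (XT.lf (nat_lit 0) (nat_lit 57736728435) (nat_lit 76) (nat_lit 3906868520) (nat_lit 152) (nat_lit 156837521552) (nat_lit 7) (nat_lit 5) (nat_lit 8) (nat_lit 5) (nat_lit 9) (nat_lit 4) (nat_lit 367) (nat_lit 319) (nat_lit 214)) (XT.lf (nat_lit 0)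 (nat_lit 93250874285) (nat_lit 152) (nat_lit 112152651219) (nat_lit 0) (nat_lit 27988310378) (nat_lit 7) (nat_lit 5) (nat_lit 9) (nat_lit 4) (nat_lit 7) (nat_lit 4) (nat_lit 368) (nat_lit 319) (nat_lit 213))))))) (XT.nd (nat_lit 624) (nat_lit 76) (nat_lit 0) (XT.nd (nat_lit 312) (nat_lit 152) (nat_lit 0) (XT.nd (nat_lit 156) (nat_lit 76) (nat_lit 0) (XT.nd (nat_lit 78) (nat_lit 0) (nat_lit 0) (XT.lf (nat_lit 0) (nat_lit 127486799345) (nat_lit 152) (nat_lit 59777756600) (nat_lit 0) (nat_lit 62222850160) (nat_lit 7) (nat_lit 5) (nat_lit 9) (nat_lit 4) (nat_lit 7) (nat_lit 4) (nat_lit 369) (nat_lit 319) (nat_lit 212)) (XT.lf (nat_lit 0) (nat_lit 164460291408) (nat_lit 152) (nat_lit 3215376187) (nat_lit 0) (nat_lit 99195059559) (nat_lit 7) (nat_lit 5) (nat_lit 9) (nat_lit 4) (nat_lit 7) (nat_lit 4) (nat_lit 370) (nat_lit 319) (nat_lit 211))) (XT.nd (nat_lit 78) (nat_lit 0) (nat_lit 0) (XT.lf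 (nat_lit 0) (nat_lit 60916989000) (nat_lit 76) (nat_lit 144938518702) (nat_lit 76) (nat_lit 79672099201) (nat_lit 6) (nat_lit 4) (nat_lit 7) (nat_lit 5) (nat_lit 7) (nat_lit 4) (nat_lit 371) (nat_lit 319) (nat_lit 210)) (XT.lf (nat_lit 0) (nat_lit 130360543270) (nat_lit 76) (nat_lit 120288537181) (nat_lit 76) (nat_lit 55021018002) (nat_lit 6) (nat_lit 4) (nat_lit 7) (nat_lit 5) (nat_lit 7) (nat_lit 4) (nat_lit 372) (nat_lit 319) (nat_lit 209)))) (XT.nd (nat_lit 156) (nat_lit 76) (nat_lit 0) (XT.nd (nat_lit 78) (nat_lit 76) (nat_lit 0) (XT.lf (nat_lit 0) (nat_lit 205357487971) (nat_lit 76) (nat_lit 93667563152) (nat_lit 76) (nat_lit 28399025754) (nat_lit 6) (nat_lit 4) (nat_lit 7) (nat_lit 5) (nat_lit 7) (nat_lit 4) (nat_lit 373) (nat_lit 319) (nat_lit 208)) (XT.lf (nat_lit 0) (nat_lit 334047166) (nat_lit 152) (nat_lit 64574662087) (nat_lit 76) (nat_lit 286009068832) (nat_lit 5) (nat_lit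 5) (nat_lit 7) (nat_lit 5) (nat_lit 6) (nat_lit 4) (nat_lit 374) (nat_lit 319) (nat_lit 207))) (XT.nd (nat_lit 78) (nat_lit 76) (nat_lit 0) (XT.lf (nat_lit 0) (nat_lit 29830523550) (nat_lit 152) (nat_lit 3222864169) (nat_lit 76) (nat_lit 343178653706) (nat_lit 5) (nat_lit 5) (nat_lit 7) (nat_lit 5) (nat_lit 6) (nat_lit 4) (nat_lit 375) (nat_lit 319) (nat_lit 206)) (XT.lf (nat_lit 0) (nat_lit 63355570300) (nat_lit 152) (nat_lit 337163058034) (nat_lit 0) (nat_lit 2919309697) (nat_lit 4) (nat_lit 5) (nat_lit 6) (nat_lit 4) (nat_lit 4) (nat_lit 4) (nat_lit 376) (nat_lit 319) (nat_lit 205))))) (XT.nd (nat_lit 312) (nat_lit 76) (nat_lit 0) (XT.nd (nat_lit 156) (nat_lit 0) (nat_lit 0) (XT.nd (nat_lit 78) (nat_lit 0) (nat_lit 0) (XT.lf (nat_lit 0) (nat_lit 100510677759) (nat_lit 152) (nat_lit 292160060226) (nat_lit 0) (nat_lit 40073724173) (nat_lit 4) (nat_lit 5) (nat_lit 6) (nat_lit 4) (nat_lit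 4) (nat_lit 4) (nat_lit 377) (nat_lit 319) (nat_lit 204)) (XT.lf (nat_lit 0) (nat_lit 140637378817) (nat_lit 152) (nat_lit 243558411345) (nat_lit 0) (nat_lit 80199783579) (nat_lit 4) (nat_lit 5) (nat_lit 6) (nat_lit 4) (nat_lit 4) (nat_lit 4) (nat_lit 378) (nat_lit 319) (nat_lit 203))) (XT.nd (nat_lit 78) (nat_lit 0) (nat_lit 0) (XT.lf (nat_lit 0) (nat_lit 183973461330) (nat_lit 152) (nat_lit 191070101621) (nat_lit 0) (nat_lit 123535271971) (nat_lit 4) (nat_lit 5) (nat_lit 6) (nat_lit 4) (nat_lit 4) (nat_lit 4) (nat_lit 379) (nat_lit 319) (nat_lit 202)) (XT.lf (nat_lit 0) (nat_lit 230775731714) (nat_lit 152) (nat_lit 134384089218) (nat_lit 0) (nat_lit 170336992242) (nat_lit 4) (nat_lit 5) (nat_lit 6) (nat_lit 4) (nat_lit 4) (nat_lit 4) (nat_lit 380) (nat_lit 319) (nat_lit 201)))) (XT.nd (nat_lit 156) (nat_lit 76) (nat_lit 0) (XT.nd (nat_lit 78) (nat_lit 0) (nat_lit 0) (XT.lf (nat_lit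 0) (nat_lit 281321536756) (nat_lit 152) (nat_lit 73164457025) (nat_lit 0) (nat_lit 220882287921) (nat_lit 4) (nat_lit 5) (nat_lit 6) (nat_lit 4) (nat_lit 4) (nat_lit 4) (nat_lit 381) (nat_lit 319) (nat_lit 200)) (XT.lf (nat_lit 0) (nat_lit 335910407153) (nat_lit 152) (nat_lit 7048422038) (nat_lit 0) (nat_lit 275470686684) (nat_lit 4) (nat_lit 5) (nat_lit 6) (nat_lit 4) (nat_lit 4) (nat_lit 4) (nat_lit 382) (nat_lit 319) (nat_lit 199))) (XT.nd (nat_lit 78) (nat_lit 0) (nat_lit 0) (XT.lf (nat_lit 0) (nat_lit 67744677611) (nat_lit 76) (nat_lit 328750416021) (nat_lit 76) (nat_lit 268310258856) (nat_lit 3) (nat_lit 4) (nat_lit 4) (nat_lit 5) (nat_lit 4) (nat_lit 4) (nat_lit 383) (nat_lit 319) (nat_lit 198)) (XT.nd (nat_lit 78) (nat_lit 0) (nat_lit 0) (XT.lf (nat_lit 0) (nat_lit 148921021335) (nat_lit 76) (nat_lit 313197711110) (nat_lit 76) (nat_lit 252757149595) (nat_lit 3) (nat_lit 4) (nat_lit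 4) (nat_lit 5) (nat_lit 4) (nat_lit 4) (nat_lit 384) (nat_lit 319) (nat_lit 197)) (XT.lf (nat_lit 0) (nat_lit 236590496721) (nat_lit 76) (nat_lit 296401266630) (nat_lit 76) (nat_lit 235960330718) (nat_lit 3) (nat_lit 4) (nat_lit 4) (nat_lit 5) (nat_lit 4) (nat_lit 4) (nat_lit 385) (nat_lit 319) (nat_lit 196))))))))
noncomputable def xc155 : XT := (XT.nd (nat_lit 1326) (nat_lit 0) (nat_lit 0) (XT.nd (nat_lit 624) (nat_lit 152) (nat_lit 0) (XT.nd (nat_lit 312) (nat_lit 0) (nat_lit 0) (XT.nd (nat_lit 156) (nat_lit 0) (nat_lit 0) (XT.nd (nat_lit 78) (nat_lit 0) (nat_lit 0) (XT.lf (nat_lit 0) (nat_lit 331272626584) (nat_lit 76) (nat_lit 278261548095) (nat_lit 76) (nat_lit 217820265518) (nat_lit 3) (nat_lit 4) (nat_lit 4) (nat_lit 5) (nat_lit 4) (nat_lit 4) (nat_lit 386) (nat_lit 319) (nat_lit 195)) (XT.lf (nat_lit 0) (nat_lit 433528490214) (nat_lit 76) (nat_lit 258671060877) (nat_lit 76) (nat_lit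 198229457315) (nat_lit 3) (nat_lit 4) (nat_lit 4) (nat_lit 5) (nat_lit 4) (nat_lit 4) (nat_lit 387) (nat_lit 319) (nat_lit 194))) (XT.nd (nat_lit 78) (nat_lit 0) (nat_lit 0) (XT.lf (nat_lit 0) (nat_lit 543964048283) (nat_lit 76) (nat_lit 237513713200) (nat_lit 76) (nat_lit 177071812429) (nat_lit 3) (nat_lit 4) (nat_lit 4) (nat_lit 5) (nat_lit 4) (nat_lit 4) (nat_lit 388) (nat_lit 319) (nat_lit 193)) (XT.lf (nat_lit 0) (nat_lit 663233733728) (nat_lit 76) (nat_lit 214664128189) (nat_lit 76) (nat_lit 154221952225) (nat_lit 3) (nat_lit 4) (nat_lit 4) (nat_lit 5) (nat_lit 4) (nat_lit 4) (nat_lit 389) (nat_lit 319) (nat_lit 192)))) (XT.nd (nat_lit 156) (nat_lit 0) (nat_lit 0) (XT.nd (nat_lit 78) (nat_lit 0) (nat_lit 0) (XT.lf (nat_lit 0) (nat_lit 792044329870) (nat_lit 76) (nat_lit 189986900895) (nat_lit 76) (nat_lit 129544470122) (nat_lit 3) (nat_lit 4) (nat_lit 4) (nat_lit 5) (nat_lit 4)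 (nat_lit 4) (nat_lit 390) (nat_lit 319) (nat_lit 191)) (XT.lf (nat_lit 0) (nat_lit 931159158761) (nat_lit 76) (nat_lit 163335795898) (nat_lit 76) (nat_lit 102893129191) (nat_lit 3) (nat_lit 4) (nat_lit 4) (nat_lit 5) (nat_lit 4) (nat_lit 4) (nat_lit 391) (nat_lit 319) (nat_lit 190))) (XT.nd (nat_lit 78) (nat_lit 0) (nat_lit 0) (XT.lf (nat_lit 0) (nat_lit 1081402604571) (nat_lit 76) (nat_lit 134552880723) (nat_lit 76) (nat_lit 74109995559) (nat_lit 3) (nat_lit 4) (nat_lit 4) (nat_lit 5) (nat_lit 4) (nat_lit 4) (nat_lit 392) (nat_lit 319) (nat_lit 189)) (XT.lf (nat_lit 0) (nat_lit 1243664998832) (nat_lit 76) (nat_lit 103467589948) (nat_lit 76) (nat_lit 43024502508) (nat_lit 3) (nat_lit 4) (nat_lit 4) (nat_lit 5) (nat_lit 4) (nat_lit 4) (nat_lit 393) (nat_lit 319) (nat_lit 188))))) (XT.nd (nat_lit 312) (nat_lit 0) (nat_lit 0) (XT.nd (nat_lit 156) (nat_lit 76) (nat_lit 0) (XT.nd (nat_lit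 78) (nat_lit 76) (nat_lit 0) (XT.lf (nat_lit 0) (nat_lit 1418907896473) (nat_lit 76) (nat_lit 69895714441) (nat_lit 76) (nat_lit 9452439710) (nat_lit 3) (nat_lit 4) (nat_lit 4) (nat_lit 5) (nat_lit 4) (nat_lit 4) (nat_lit 394) (nat_lit 319) (nat_lit 187)) (XT.lf (nat_lit 0) (nat_lit 25464236810) (nat_lit 152) (nat_lit 7477835584) (nat_lit 76) (nat_lit 1582009299752) (nat_lit 2) (nat_lit 5) (nat_lit 4) (nat_lit 5) (nat_lit 3) (nat_lit 4) (nat_lit 395) (nat_lit 319) (nat_lit 186))) (XT.nd (nat_lit 78) (nat_lit 0) (nat_lit 0) (XT.lf (nat_lit 0) (nat_lit 64652784471) (nat_lit 152) (nat_lit 1667464276320) (nat_lit 0) (nat_lit 8686480099) (nat_lit 1) (nat_lit 5) (nat_lit 3) (nat_lit 4) (nat_lit 1) (nat_lit 4) (nat_lit 396) (nat_lit 319) (nat_lit 185)) (XT.lf (nat_lit 0) (nat_lit 108041603628) (nat_lit 152) (nat_lit 1716521902970) (nat_lit 0) (nat_lit 52075161591) (nat_lit 1) (nat_lit 5) (nat_lit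 3) (nat_lit 4) (nat_lit 1) (nat_lit 4) (nat_lit 397) (nat_lit 319) (nat_lit 184)))) (XT.nd (nat_lit 156) (nat_lit 0) (nat_lit 0) (XT.nd (nat_lit 78) (nat_lit 0) (nat_lit 0) (XT.lf (nat_lit 0) (nat_lit 154901326080) (nat_lit 152) (nat_lit 1769504539259) (nat_lit 0) (nat_lit 98934756575) (nat_lit 1) (nat_lit 5) (nat_lit 3) (nat_lit 4) (nat_lit 1) (nat_lit 4) (nat_lit 398) (nat_lit 319) (nat_lit 183)) (XT.lf (nat_lit 0) (nat_lit 205509639072) (nat_lit 152) (nat_lit 1826726156368) (nat_lit 0) (nat_lit 149542951541) (nat_lit 1) (nat_lit 5) (nat_lit 3) (nat_lit 4) (nat_lit 1) (nat_lit 4) (nat_lit 399) (nat_lit 319) (nat_lit 182))) (XT.nd (nat_lit 78) (nat_lit 0) (nat_lit 0) (XT.lf (nat_lit 0) (nat_lit 260166443716) (nat_lit 152) (nat_lit 1888525845358) (nat_lit 0) (nat_lit 204199646902) (nat_lit 1) (nat_lit 5) (nat_lit 3) (nat_lit 4) (nat_lit 1) (nat_lit 4) (nat_lit 400) (nat_lit 319) (nat_lit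 181)) (XT.nd (nat_lit 78) (nat_lit 0) (nat_lit 0) (XT.lf (nat_lit 0) (nat_lit 319195632189) (nat_lit 152) (nat_lit 1955269826611) (nat_lit 0) (nat_lit 263228734187) (nat_lit 1) (nat_lit 5) (nat_lit 3) (nat_lit 4) (nat_lit 1) (nat_lit 4) (nat_lit 401) (nat_lit 319) (nat_lit 180)) (XT.lf (nat_lit 0) (nat_lit 382947007089) (nat_lit 152) (nat_lit 2027353620015) (nat_lit 0) (nat_lit 326980015394) (nat_lit 1) (nat_lit 5) (nat_lit 3) (nat_lit 4) (nat_lit 1) (nat_lit 4) (nat_lit 402) (nat_lit 319) (nat_lit 179))))))) (XT.nd (nat_lit 40404) (nat_lit 0) (nat_lit 3344) (XT.nd (nat_lit 312) (nat_lit 0) (nat_lit 0) (XT.nd (nat_lit 156) (nat_lit 0) (nat_lit 0) (XT.nd (nat_lit 78) (nat_lit 0) (nat_lit 0) (XT.lf (nat_lit 0) (nat_lit 451798354341) (nat_lit 152) (nat_lit 2105204388789) (nat_lit 0) (nat_lit 395831275894) (nat_lit 1) (nat_lit 5) (nat_lit 3) (nat_lit 4) (nat_lit 1) (nat_lit 4) (nat_lit 403)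 (nat_lit 319) (nat_lit 178)) (XT.lf (nat_lit 0) (nat_lit 526157681929) (nat_lit 152) (nat_lit 2189283470824) (nat_lit 0) (nat_lit 470190523156) (nat_lit 1) (nat_lit 5) (nat_lit 3) (nat_lit 4) (nat_lit 1) (nat_lit 4) (nat_lit 404) (nat_lit 319) (nat_lit 177))) (XT.nd (nat_lit 78) (nat_lit 0) (nat_lit 0) (XT.lf (nat_lit 0) (nat_lit 606465637721) (nat_lit 152) (nat_lit 2280089112530) (nat_lit 0) (nat_lit 550498404572) (nat_lit 1) (nat_lit 5) (nat_lit 3) (nat_lit 4) (nat_lit 1) (nat_lit 4) (nat_lit 405) (nat_lit 319) (nat_lit 176)) (XT.lf (nat_lit 0) (nat_lit 693198120714) (nat_lit 152) (nat_lit 2378159421415) (nat_lit 0) (nat_lit 637230818697) (nat_lit 1) (nat_lit 5) (nat_lit 3) (nat_lit 4) (nat_lit 1) (nat_lit 4) (nat_lit 406) (nat_lit 319) (nat_lit 175)))) (XT.nd (nat_lit 156) (nat_lit 0) (nat_lit 0) (XT.nd (nat_lit 78) (nat_lit 0) (nat_lit 0) (XT.lf (nat_lit 0) (nat_lit 786869101176)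 (nat_lit 152) (nat_lit 2484075554865) (nat_lit 0) (nat_lit 730901735394) (nat_lit 1) (nat_lit 5) (nat_lit 3) (nat_lit 4) (nat_lit 1) (nat_lit 4) (nat_lit 407) (nat_lit 319) (nat_lit 174)) (XT.lf (nat_lit 0) (nat_lit 888033666401) (nat_lit 152) (nat_lit 2598465164040) (nat_lit 0) (nat_lit 832066241576) (nat_lit 1) (nat_lit 5) (nat_lit 3) (nat_lit 4) (nat_lit 1) (nat_lit 4) (nat_lit 408) (nat_lit 319) (nat_lit 173))) (XT.nd (nat_lit 78) (nat_lit 0) (nat_lit 0) (XT.lf (nat_lit 0) (nat_lit 997291310107) (nat_lit 152) (nat_lit 2722006113292) (nat_lit 0) (nat_lit 941323830614) (nat_lit 1) (nat_lit 5) (nat_lit 3) (nat_lit 4) (nat_lit 1) (nat_lit 4) (nat_lit 409) (nat_lit 319) (nat_lit 172)) (XT.nd (nat_lit 78) (nat_lit 0) (nat_lit 0) (XT.lf (nat_lit 0) (nat_lit 1115289484998) (nat_lit 152) (nat_lit 2855430497134) (nat_lit 0) (nat_lit 1059321954886) (nat_lit 1) (nat_lit 5) (nat_lit 3) (nat_lit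 4) (nat_lit 1) (nat_lit 4) (nat_lit 410) (nat_lit 319) (nat_lit 171)) (XT.lf (nat_lit 0) (nat_lit 1242727439518) (nat_lit 152) (nat_lit 2999528978581) (nat_lit 0) (nat_lit 1186759862536) (nat_lit 1) (nat_lit 5) (nat_lit 3) (nat_lit 4) (nat_lit 1) (nat_lit 4) (nat_lit 411) (nat_lit 319) (nat_lit 170)))))) (XT.nd (nat_lit 312) (nat_lit 304) (nat_lit 0) (XT.nd (nat_lit 156) (nat_lit 0) (nat_lit 76) (XT.nd (nat_lit 78) (nat_lit 0) (nat_lit 0) (XT.lf (nat_lit 0) (nat_lit 5836205516) (nat_lit 532) (nat_lit 1866528776) (nat_lit 532) (nat_lit 1866528776) (nat_lit 49) (nat_lit 3) (nat_lit 56) (nat_lit 3) (nat_lit 56) (nat_lit 5) (nat_lit 320) (nat_lit 320) (nat_lit 260)) (XT.lf (nat_lit 76) (nat_lit 5425026304) (nat_lit 0) (nat_lit 7011090885) (nat_lit 532) (nat_lit 7443790799) (nat_lit 50) (nat_lit 5) (nat_lit 49) (nat_lit 3) (nat_lit 56) (nat_lit 5) (nat_lit 321) (nat_lit 320) (nat_lit 259)))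 (XT.nd (nat_lit 78) (nat_lit 0) (nat_lit 0) (XT.lf (nat_lit 0) (nat_lit 13398366137) (nat_lit 456) (nat_lit 5207496085) (nat_lit 532) (nat_lit 2063783919) (nat_lit 50) (nat_lit 5) (nat_lit 56) (nat_lit 5) (nat_lit 57) (nat_lit 5) (nat_lit 322) (nat_lit 320) (nat_lit 258)) (XT.lf (nat_lit 76) (nat_lit 4828903636) (nat_lit 0) (nat_lit 9891477206) (nat_lit 532) (nat_lit 6779598028) (nat_lit 51) (nat_lit 5) (nat_lit 50) (nat_lit 5) (nat_lit 57) (nat_lit 5) (nat_lit 323) (nat_lit 320) (nat_lit 257)))) (XT.nd (nat_lit 156) (nat_lit 380) (nat_lit 0) (XT.nd (nat_lit 78) (nat_lit 0) (nat_lit 76) (XT.lf (nat_lit 76) (nat_lit 15954397500) (nat_lit 0) (nat_lit 321590750) (nat_lit 532) (nat_lit 6110558992) (nat_lit 51) (nat_lit 5) (nat_lit 50) (nat_lit 5) (nat_lit 57) (nat_lit 5) (nat_lit 324) (nat_lit 320) (nat_lit 256)) (XT.lf (nat_lit 76) (nat_lit 4604968010) (nat_lit 0) (nat_lit 13689289170) (nat_lit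 532) (nat_lit 5022759784) (nat_lit 52) (nat_lit 5) (nat_lit 51) (nat_lit 5) (nat_lit 58) (nat_lit 5) (nat_lit 325) (nat_lit 320) (nat_lit 255))) (XT.nd (nat_lit 78) (nat_lit 456) (nat_lit 0) (XT.lf (nat_lit 76) (nat_lit 16871882140) (nat_lit 0) (nat_lit 3773488072) (nat_lit 532) (nat_lit 3662873921) (nat_lit 52) (nat_lit 5) (nat_lit 51) (nat_lit 5) (nat_lit 58) (nat_lit 5) (nat_lit 326) (nat_lit 320) (nat_lit 254)) (XT.nd (nat_lit 78) (nat_lit 76) (nat_lit 0) (XT.lf (nat_lit 0) (nat_lit 4804472468) (nat_lit 456) (nat_lit 18650812581) (nat_lit 532) (nat_lit 1901855623) (nat_lit 46) (nat_lit 5) (nat_lit 52) (nat_lit 5) (nat_lit 53) (nat_lit 5) (nat_lit 327) (nat_lit 320) (nat_lit 253)) (XT.lf (nat_lit 0) (nat_lit 295329359) (nat_lit 532) (nat_lit 8140293923) (nat_lit 76) (nat_lit 18030726766) (nat_lit 45) (nat_lit 5) (nat_lit 52) (nat_lit 5) (nat_lit 46) (nat_lit 5) (nat_lit 328) (nat_lit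 320) (nat_lit 252))))))))
noncomputable def xc156 : XT := (XT.nd (nat_lit 1326) (nat_lit 836) (nat_lit 0) (XT.nd (nat_lit 624) (nat_lit 912) (nat_lit 0) (XT.nd (nat_lit 312) (nat_lit 380) (nat_lit 0) (XT.nd (nat_lit 156) (nat_lit 228) (nat_lit 0) (XT.nd (nat_lit 78) (nat_lit 0) (nat_lit 0) (XT.lf (nat_lit 0) (nat_lit 2754008761) (nat_lit 380) (nat_lit 22238042584) (nat_lit 76) (nat_lit 2653237783) (nat_lit 41) (nat_lit 5) (nat_lit 46) (nat_lit 5) (nat_lit 42) (nat_lit 5) (nat_lit 329) (nat_lit 320) (nat_lit 251)) (XT.lf (nat_lit 0) (nat_lit 5846897662) (nat_lit 380) (nat_lit 8634660042) (nat_lit 76) (nat_lit 14402005160) (nat_lit 41) (nat_lit 5) (nat_lit 46) (nat_lit 5) (nat_lit 42) (nat_lit 5) (nat_lit 330) (nat_lit 320) (nat_lit 250))) (XT.nd (nat_lit 78) (nat_lit 0) (nat_lit 0) (XT.lf (nat_lit 0) (nat_lit 6365641070) (nat_lit 228) (nat_lit 2965463894) (nat_lit 304) (nat_lit 20878301758)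 (nat_lit 38) (nat_lit 5) (nat_lit 41) (nat_lit 5) (nat_lit 42) (nat_lit 5) (nat_lit 331) (nat_lit 320) (nat_lit 249)) (XT.lf (nat_lit 0) (nat_lit 13555294850) (nat_lit 304) (nat_lit 8809574679) (nat_lit 76) (nat_lit 9239566663) (nat_lit 38) (nat_lit 5) (nat_lit 42) (nat_lit 5) (nat_lit 39) (nat_lit 5) (nat_lit 332) (nat_lit 320) (nat_lit 248)))) (XT.nd (nat_lit 156) (nat_lit 152) (nat_lit 0) (XT.nd (nat_lit 78) (nat_lit 0) (nat_lit 0) (XT.lf (nat_lit 0) (nat_lit 7727402297) (nat_lit 228) (nat_lit 10644763840) (nat_lit 304) (nat_lit 14718538649) (nat_lit 35) (nat_lit 5) (nat_lit 38) (nat_lit 5) (nat_lit 39) (nat_lit 5) (nat_lit 333) (nat_lit 320) (nat_lit 247)) (XT.lf (nat_lit 0) (nat_lit 23862144813) (nat_lit 304) (nat_lit 8652766347) (nat_lit 76) (nat_lit 2157958339) (nat_lit 35) (nat_lit 5) (nat_lit 39) (nat_lit 5) (nat_lit 36) (nat_lit 5) (nat_lit 334) (nat_lit 320) (nat_lit 246)))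 (XT.nd (nat_lit 78) (nat_lit 0) (nat_lit 0) (XT.lf (nat_lit 0) (nat_lit 9588679792) (nat_lit 152) (nat_lit 20702534054) (nat_lit 228) (nat_lit 6050416293) (nat_lit 33) (nat_lit 5) (nat_lit 35) (nat_lit 5) (nat_lit 36) (nat_lit 5) (nat_lit 335) (nat_lit 320) (nat_lit 245)) (XT.lf (nat_lit 0) (nat_lit 29772652629) (nat_lit 152) (nat_lit 7691654478) (nat_lit 228) (nat_lit 661221698) (nat_lit 33) (nat_lit 5) (nat_lit 35) (nat_lit 5) (nat_lit 36) (nat_lit 5) (nat_lit 336) (nat_lit 320) (nat_lit 244))))) (XT.nd (nat_lit 312) (nat_lit 456) (nat_lit 0) (XT.nd (nat_lit 156) (nat_lit 152) (nat_lit 0) (XT.nd (nat_lit 78) (nat_lit 0) (nat_lit 0) (XT.lf (nat_lit 0) (nat_lit 5346367521) (nat_lit 304) (nat_lit 28197164150) (nat_lit 76) (nat_lit 6463065680) (nat_lit 29) (nat_lit 5) (nat_lit 33) (nat_lit 5) (nat_lit 30) (nat_lit 5) (nat_lit 337) (nat_lit 320) (nat_lit 243)) (XT.lf (nat_lit 0) (nat_lit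 12226621754) (nat_lit 304) (nat_lit 8191829850) (nat_lit 76) (nat_lit 21584113704) (nat_lit 29) (nat_lit 5) (nat_lit 33) (nat_lit 5) (nat_lit 30) (nat_lit 5) (nat_lit 338) (nat_lit 320) (nat_lit 242))) (XT.nd (nat_lit 78) (nat_lit 0) (nat_lit 0) (XT.lf (nat_lit 0) (nat_lit 14111686352) (nat_lit 152) (nat_lit 5879147611) (nat_lit 228) (nat_lit 24140703335) (nat_lit 27) (nat_lit 5) (nat_lit 29) (nat_lit 5) (nat_lit 30) (nat_lit 5) (nat_lit 339) (nat_lit 320) (nat_lit 241)) (XT.lf (nat_lit 0) (nat_lit 28836566921) (nat_lit 228) (nat_lit 7997979072) (nat_lit 76) (nat_lit 9559459246) (nat_lit 27) (nat_lit 5) (nat_lit 30) (nat_lit 5) (nat_lit 28) (nat_lit 5) (nat_lit 340) (nat_lit 320) (nat_lit 240)))) (XT.nd (nat_lit 156) (nat_lit 304) (nat_lit 0) (XT.nd (nat_lit 78) (nat_lit 0) (nat_lit 0) (XT.lf (nat_lit 0) (nat_lit 16447989338) (nat_lit 152) (nat_lit 22485004749) (nat_lit 228) (nat_lit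 9861041922) (nat_lit 25) (nat_lit 5) (nat_lit 27) (nat_lit 5) (nat_lit 28) (nat_lit 5) (nat_lit 341) (nat_lit 320) (nat_lit 239)) (XT.lf (nat_lit 0) (nat_lit 43296940286) (nat_lit 152) (nat_lit 6753836904) (nat_lit 228) (nat_lit 1318208335) (nat_lit 25) (nat_lit 5) (nat_lit 27) (nat_lit 5) (nat_lit 28) (nat_lit 5) (nat_lit 342) (nat_lit 320) (nat_lit 238))) (XT.nd (nat_lit 78) (nat_lit 152) (nat_lit 0) (XT.lf (nat_lit 0) (nat_lit 8224861327) (nat_lit 152) (nat_lit 35470144055) (nat_lit 76) (nat_lit 10382724877) (nat_lit 23) (nat_lit 5) (nat_lit 25) (nat_lit 5) (nat_lit 24) (nat_lit 5) (nat_lit 343) (nat_lit 320) (nat_lit 237)) (XT.nd (nat_lit 78) (nat_lit 152) (nat_lit 0) (XT.lf (nat_lit 0) (nat_lit 18857354111) (nat_lit 152) (nat_lit 9327640776) (nat_lit 76) (nat_lit 28783671002) (nat_lit 23) (nat_lit 5) (nat_lit 25) (nat_lit 5) (nat_lit 24) (nat_lit 5) (nat_lit 344) (nat_lit 320) (nat_lit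 236)) (XT.lf (nat_lit 0) (nat_lit 19894640896) (nat_lit 152) (nat_lit 10919951745) (nat_lit 228) (nat_lit 29238357629) (nat_lit 21) (nat_lit 5) (nat_lit 23) (nat_lit 5) (nat_lit 24) (nat_lit 5) (nat_lit 345) (nat_lit 320) (nat_lit 235))))))) (XT.nd (nat_lit 624) (nat_lit 380) (nat_lit 0) (XT.nd (nat_lit 312) (nat_lit 152) (nat_lit 0) (XT.nd (nat_lit 156) (nat_lit 228) (nat_lit 0) (XT.nd (nat_lit 78) (nat_lit 76) (nat_lit 0) (XT.lf (nat_lit 0) (nat_lit 44171665816) (nat_lit 228) (nat_lit 11577777537) (nat_lit 76) (nat_lit 7599078793) (nat_lit 21) (nat_lit 5) (nat_lit 24) (nat_lit 5) (nat_lit 22) (nat_lit 4) (nat_lit 346) (nat_lit 320) (nat_lit 234)) (XT.lf (nat_lit 0) (nat_lit 19999599234) (nat_lit 76) (nat_lit 39358423683) (nat_lit 152) (nat_lit 7488864216) (nat_lit 20) (nat_lit 5) (nat_lit 21) (nat_lit 5) (nat_lit 22) (nat_lit 4) (nat_lit 347) (nat_lit 320) (nat_lit 233))) (XT.nd (nat_lit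 78) (nat_lit 152) (nat_lit 0) (XT.lf (nat_lit 0) (nat_lit 5198243539) (nat_lit 152) (nat_lit 15976360052) (nat_lit 76) (nat_lit 49414971051) (nat_lit 19) (nat_lit 5) (nat_lit 21) (nat_lit 5) (nat_lit 20) (nat_lit 5) (nat_lit 348) (nat_lit 320) (nat_lit 232)) (XT.lf (nat_lit 0) (nat_lit 18067548382) (nat_lit 152) (nat_lit 859118969) (nat_lit 228) (nat_lit 55654977092) (nat_lit 17) (nat_lit 5) (nat_lit 19) (nat_lit 5) (nat_lit 20) (nat_lit 5) (nat_lit 349) (nat_lit 320) (nat_lit 231)))) (XT.nd (nat_lit 156) (nat_lit 76) (nat_lit 0) (XT.nd (nat_lit 78) (nat_lit 76) (nat_lit 0) (XT.lf (nat_lit 0) (nat_lit 34705029723) (nat_lit 228) (nat_lit 23638995000) (nat_lit 76) (nat_lit 20472925463) (nat_lit 17) (nat_lit 5) (nat_lit 20) (nat_lit 5) (nat_lit 18) (nat_lit 4) (nat_lit 350) (nat_lit 320) (nat_lit 230)) (XT.lf (nat_lit 0) (nat_lit 12461565239) (nat_lit 76) (nat_lit 39602855587) (nat_lit 152)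 (nat_lit 31301162055) (nat_lit 16) (nat_lit 5) (nat_lit 17) (nat_lit 5) (nat_lit 18) (nat_lit 4) (nat_lit 351) (nat_lit 320) (nat_lit 229))) (XT.nd (nat_lit 78) (nat_lit 76) (nat_lit 0) (XT.lf (nat_lit 0) (nat_lit 52789070877) (nat_lit 76) (nat_lit 18666678005) (nat_lit 152) (nat_lit 16770905484) (nat_lit 16) (nat_lit 5) (nat_lit 17) (nat_lit 5) (nat_lit 18) (nat_lit 4) (nat_lit 352) (nat_lit 320) (nat_lit 228)) (XT.lf (nat_lit 0) (nat_lit 2911709165) (nat_lit 76) (nat_lit 89648598426) (nat_lit 76) (nat_lit 903352832) (nat_lit 15) (nat_lit 4) (nat_lit 16) (nat_lit 5) (nat_lit 16) (nat_lit 4) (nat_lit 353) (nat_lit 320) (nat_lit 227))))) (XT.nd (nat_lit 312) (nat_lit 228) (nat_lit 0) (XT.nd (nat_lit 156) (nat_lit 76) (nat_lit 0) (XT.nd (nat_lit 78) (nat_lit 0) (nat_lit 0) (XT.lf (nat_lit 0) (nat_lit 16897530029) (nat_lit 152) (nat_lit 53603508684) (nat_lit 76) (nat_lit 28469277440) (nat_lit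 14) (nat_lit 5) (nat_lit 16) (nat_lit 5) (nat_lit 15) (nat_lit 4) (nat_lit 354) (nat_lit 320) (nat_lit 226)) (XT.lf (nat_lit 0) (nat_lit 36070951767) (nat_lit 152) (nat_lit 13727537348) (nat_lit 76) (nat_lit 55117358534) (nat_lit 14) (nat_lit 5) (nat_lit 16) (nat_lit 5) (nat_lit 15) (nat_lit 4) (nat_lit 355) (nat_lit 320) (nat_lit 225))) (XT.nd (nat_lit 78) (nat_lit 0) (nat_lit 0) (XT.lf (nat_lit 0) (nat_lit 30878666412) (nat_lit 76) (nat_lit 26639688285) (nat_lit 152) (nat_lit 53759460434) (nat_lit 13) (nat_lit 5) (nat_lit 14) (nat_lit 5) (nat_lit 15) (nat_lit 4) (nat_lit 356) (nat_lit 320) (nat_lit 224)) (XT.lf (nat_lit 0) (nat_lit 79829656913) (nat_lit 76) (nat_lit 1224784000) (nat_lit 152) (nat_lit 37064469723) (nat_lit 13) (nat_lit 5) (nat_lit 14) (nat_lit 5) (nat_lit 15) (nat_lit 4) (nat_lit 357) (nat_lit 320) (nat_lit 223)))) (XT.nd (nat_lit 156) (nat_lit 76) (nat_lit 0) (XT.nd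 (nat_lit 78) (nat_lit 76) (nat_lit 0) (XT.lf (nat_lit 0) (nat_lit 6899692689) (nat_lit 76) (nat_lit 100368023607) (nat_lit 76) (nat_lit 18176035070) (nat_lit 12) (nat_lit 4) (nat_lit 13) (nat_lit 5) (nat_lit 13) (nat_lit 4) (nat_lit 358) (nat_lit 320) (nat_lit 222)) (XT.lf (nat_lit 0) (nat_lit 3215853449) (nat_lit 152) (nat_lit 75506243329) (nat_lit 76) (nat_lit 54539917621) (nat_lit 11) (nat_lit 5) (nat_lit 13) (nat_lit 5) (nat_lit 12) (nat_lit 4) (nat_lit 359) (nat_lit 320) (nat_lit 221))) (XT.nd (nat_lit 78) (nat_lit 76) (nat_lit 0) (XT.lf (nat_lit 0) (nat_lit 25334990569) (nat_lit 152) (nat_lit 29501428828) (nat_lit 76) (nat_lit 86831722053) (nat_lit 11) (nat_lit 5) (nat_lit 13) (nat_lit 5) (nat_lit 12) (nat_lit 4) (nat_lit 360) (nat_lit 320) (nat_lit 220)) (XT.nd (nat_lit 78) (nat_lit 0) (nat_lit 0) (XT.lf (nat_lit 0) (nat_lit 21242790439) (nat_lit 76) (nat_lit 28489790728) (nat_lit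 152) (nat_lit 100973464997) (nat_lit 10) (nat_lit 5) (nat_lit 11) (nat_lit 5) (nat_lit 12) (nat_lit 4) (nat_lit 361) (nat_lit 320) (nat_lit 219)) (XT.lf (nat_lit 0) (nat_lit 76906753657) (nat_lit 152) (nat_lit 82701886321) (nat_lit 0) (nat_lit 792362508) (nat_lit 10) (nat_lit 5) (nat_lit 12) (nat_lit 4) (nat_lit 10) (nat_lit 4) (nat_lit 362) (nat_lit 320) (nat_lit 218))))))))
noncomputable def xc157 : XT := (XT.nd (nat_lit 1326) (nat_lit 228) (nat_lit 0) (XT.nd (nat_lit 624) (nat_lit 228) (nat_lit 0) (XT.nd (nat_lit 312) (nat_lit 76) (nat_lit 0) (XT.nd (nat_lit 156) (nat_lit 76) (nat_lit 0) (XT.nd (nat_lit 78) (nat_lit 76) (nat_lit 0) (XT.lf (nat_lit 0) (nat_lit 106993052871) (nat_lit 152) (nat_lit 32942984661) (nat_lit 0) (nat_lit 30876463461) (nat_lit 10) (nat_lit 5) (nat_lit 12) (nat_lit 4) (nat_lit 10) (nat_lit 4) (nat_lit 363) (nat_lit 320) (nat_lit 217)) (XT.lf (nat_lit 0) (nat_lit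 21888445672) (nat_lit 76) (nat_lit 118122559810) (nat_lit 76) (nat_lit 42003934973) (nat_lit 9) (nat_lit 4) (nat_lit 10) (nat_lit 5) (nat_lit 10) (nat_lit 4) (nat_lit 364) (nat_lit 320) (nat_lit 216))) (XT.nd (nat_lit 78) (nat_lit 76) (nat_lit 0) (XT.lf (nat_lit 0) (nat_lit 82976834298) (nat_lit 76) (nat_lit 93592661550) (nat_lit 76) (nat_lit 17472152059) (nat_lit 9) (nat_lit 4) (nat_lit 10) (nat_lit 5) (nat_lit 10) (nat_lit 4) (nat_lit 365) (nat_lit 320) (nat_lit 215)) (XT.lf (nat_lit 0) (nat_lit 8569309894) (nat_lit 152) (nat_lit 58298089960) (nat_lit 76) (nat_lit 140145857273) (nat_lit 8) (nat_lit 5) (nat_lit 10) (nat_lit 5) (nat_lit 9) (nat_lit 4) (nat_lit 366) (nat_lit 320) (nat_lit 214)))) (XT.nd (nat_lit 156) (nat_lit 0) (nat_lit 0) (XT.nd (nat_lit 78) (nat_lit 76) (nat_lit 0) (XT.lf (nat_lit 0) (nat_lit 35748714757) (nat_lit 152) (nat_lit 1766543633) (nat_lit 76) (nat_lit 183471145605)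 (nat_lit 8) (nat_lit 5) (nat_lit 10) (nat_lit 5) (nat_lit 9) (nat_lit 4) (nat_lit 367) (nat_lit 320) (nat_lit 213)) (XT.lf (nat_lit 0) (nat_lit 62406877570) (nat_lit 76) (nat_lit 4195162813) (nat_lit 152) (nat_lit 169355397460) (nat_lit 7) (nat_lit 5) (nat_lit 8) (nat_lit 5) (nat_lit 9) (nat_lit 4) (nat_lit 368) (nat_lit 320) (nat_lit 212))) (XT.nd (nat_lit 78) (nat_lit 0) (nat_lit 0) (XT.lf (nat_lit 0) (nat_lit 100736443311) (nat_lit 152) (nat_lit 121075976588) (nat_lit 0) (nat_lit 30248710250) (nat_lit 7) (nat_lit 5) (nat_lit 9) (nat_lit 4) (nat_lit 7) (nat_lit 4) (nat_lit 369) (nat_lit 320) (nat_lit 211)) (XT.lf (nat_lit 0) (nat_lit 137709353554) (nat_lit 152) (nat_lit 64514711638) (nat_lit 0) (nat_lit 67220432841) (nat_lit 7) (nat_lit 5) (nat_lit 9) (nat_lit 4) (nat_lit 7) (nat_lit 4) (nat_lit 370) (nat_lit 320) (nat_lit 210))))) (XT.nd (nat_lit 312) (nat_lit 152) (nat_lit 0) (XT.nd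 (nat_lit 156) (nat_lit 0) (nat_lit 0) (XT.nd (nat_lit 78) (nat_lit 76) (nat_lit 0) (XT.lf (nat_lit 0) (nat_lit 177638976075) (nat_lit 152) (nat_lit 3430693792) (nat_lit 0) (nat_lit 107148955684) (nat_lit 7) (nat_lit 5) (nat_lit 9) (nat_lit 4) (nat_lit 7) (nat_lit 4) (nat_lit 371) (nat_lit 320) (nat_lit 209)) (XT.lf (nat_lit 0) (nat_lit 65831199534) (nat_lit 76) (nat_lit 156513973255) (nat_lit 76) (nat_lit 86022934644) (nat_lit 6) (nat_lit 4) (nat_lit 7) (nat_lit 5) (nat_lit 7) (nat_lit 4) (nat_lit 372) (nat_lit 320) (nat_lit 208))) (XT.nd (nat_lit 78) (nat_lit 0) (nat_lit 0) (XT.lf (nat_lit 0) (nat_lit 140827212116) (nat_lit 76) (nat_lit 129893447060) (nat_lit 76) (nat_lit 59401465653) (nat_lit 6) (nat_lit 4) (nat_lit 7) (nat_lit 5) (nat_lit 7) (nat_lit 4) (nat_lit 373) (nat_lit 320) (nat_lit 207)) (XT.lf (nat_lit 0) (nat_lit 221821110512) (nat_lit 76) (nat_lit 101144141264) (nat_lit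 76) (nat_lit 30651286898) (nat_lit 6) (nat_lit 4) (nat_lit 7) (nat_lit 5) (nat_lit 7) (nat_lit 4) (nat_lit 374) (nat_lit 320) (nat_lit 206)))) (XT.nd (nat_lit 156) (nat_lit 76) (nat_lit 0) (XT.nd (nat_lit 78) (nat_lit 0) (nat_lit 0) (XT.lf (nat_lit 0) (nat_lit 378064827) (nat_lit 152) (nat_lit 69707287822) (nat_lit 76) (nat_lit 308904456776) (nat_lit 5) (nat_lit 5) (nat_lit 7) (nat_lit 5) (nat_lit 6) (nat_lit 4) (nat_lit 375) (nat_lit 320) (nat_lit 205)) (XT.lf (nat_lit 0) (nat_lit 32232978292) (nat_lit 152) (nat_lit 3449816235) (nat_lit 76) (nat_lit 370646522334) (nat_lit 5) (nat_lit 5) (nat_lit 7) (nat_lit 5) (nat_lit 6) (nat_lit 4) (nat_lit 376) (nat_lit 320) (nat_lit 204))) (XT.nd (nat_lit 78) (nat_lit 0) (nat_lit 0) (XT.lf (nat_lit 0) (nat_lit 68439916243) (nat_lit 152) (nat_lit 364105106729) (nat_lit 0) (nat_lit 3166671735) (nat_lit 4) (nat_lit 5) (nat_lit 6) (nat_lit 4) (nat_lit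 4) (nat_lit 4) (nat_lit 377) (nat_lit 320) (nat_lit 203)) (XT.nd (nat_lit 78) (nat_lit 0) (nat_lit 0) (XT.lf (nat_lit 0) (nat_lit 108566254498) (nat_lit 152) (nat_lit 315504165092) (nat_lit 0) (nat_lit 43292415868) (nat_lit 4) (nat_lit 5) (nat_lit 6) (nat_lit 4) (nat_lit 4) (nat_lit 4) (nat_lit 378) (nat_lit 320) (nat_lit 202)) (XT.lf (nat_lit 0) (nat_lit 151902001083) (nat_lit 152) (nat_lit 263016510223) (nat_lit 0) (nat_lit 86627612341) (nat_lit 4) (nat_lit 5) (nat_lit 6) (nat_lit 4) (nat_lit 4) (nat_lit 4) (nat_lit 379) (nat_lit 320) (nat_lit 201))))))) (XT.nd (nat_lit 702) (nat_lit 152) (nat_lit 0) (XT.nd (nat_lit 312) (nat_lit 76) (nat_lit 0) (XT.nd (nat_lit 156) (nat_lit 0) (nat_lit 0) (XT.nd (nat_lit 78) (nat_lit 0) (nat_lit 0) (XT.lf (nat_lit 0) (nat_lit 198703960422) (nat_lit 152) (nat_lit 206331104168) (nat_lit 0) (nat_lit 133429062316) (nat_lit 4) (nat_lit 5) (nat_lit 6) (nat_lit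 4) (nat_lit 4) (nat_lit 4) (nat_lit 380) (nat_lit 320) (nat_lit 200)) (XT.lf (nat_lit 0) (nat_lit 249249477460) (nat_lit 152) (nat_lit 145112033408) (nat_lit 0) (nat_lit 183974107721) (nat_lit 4) (nat_lit 5) (nat_lit 6) (nat_lit 4) (nat_lit 4) (nat_lit 4) (nat_lit 381) (nat_lit 320) (nat_lit 199))) (XT.nd (nat_lit 78) (nat_lit 0) (nat_lit 0) (XT.lf (nat_lit 0) (nat_lit 303838081186) (nat_lit 152) (nat_lit 78996518266) (nat_lit 0) (nat_lit 238562274750) (nat_lit 4) (nat_lit 5) (nat_lit 6) (nat_lit 4) (nat_lit 4) (nat_lit 4) (nat_lit 382) (nat_lit 320) (nat_lit 198)) (XT.lf (nat_lit 0) (nat_lit 362793259623) (nat_lit 152) (nat_lit 7592763096) (nat_lit 0) (nat_lit 297517048838) (nat_lit 4) (nat_lit 5) (nat_lit 6) (nat_lit 4) (nat_lit 4) (nat_lit 4) (nat_lit 383) (nat_lit 320) (nat_lit 197)))) (XT.nd (nat_lit 156) (nat_lit 0) (nat_lit 0) (XT.nd (nat_lit 78) (nat_lit 0) (nat_lit 0) (XT.lf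 (nat_lit 0) (nat_lit 73183290026) (nat_lit 76) (nat_lit 355041146650) (nat_lit 76) (nat_lit 289764561467) (nat_lit 3) (nat_lit 4) (nat_lit 4) (nat_lit 5) (nat_lit 4) (nat_lit 4) (nat_lit 384) (nat_lit 320) (nat_lit 196)) (XT.lf (nat_lit 0) (nat_lit 160852331011) (nat_lit 76) (nat_lit 338244914431) (nat_lit 76) (nat_lit 272967982584) (nat_lit 3) (nat_lit 4) (nat_lit 4) (nat_lit 5) (nat_lit 4) (nat_lit 4) (nat_lit 385) (nat_lit 320) (nat_lit 195))) (XT.nd (nat_lit 78) (nat_lit 0) (nat_lit 0) (XT.lf (nat_lit 0) (nat_lit 255534058652) (nat_lit 76) (nat_lit 320105392434) (nat_lit 76) (nat_lit 254828139602) (nat_lit 3) (nat_lit 4) (nat_lit 4) (nat_lit 5) (nat_lit 4) (nat_lit 4) (nat_lit 386) (nat_lit 320) (nat_lit 194)) (XT.nd (nat_lit 78) (nat_lit 0) (nat_lit 0) (XT.lf (nat_lit 0) (nat_lit 357789549853) (nat_lit 76) (nat_lit 300515087197) (nat_lit 76) (nat_lit 235237537155) (nat_lit 3) (nat_lit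 4) (nat_lit 4) (nat_lit 5) (nat_lit 4) (nat_lit 4) (nat_lit 387) (nat_lit 320) (nat_lit 193)) (XT.lf (nat_lit 0) (nat_lit 468224763081) (nat_lit 76) (nat_lit 279357908019) (nat_lit 76) (nat_lit 214080082785) (nat_lit 3) (nat_lit 4) (nat_lit 4) (nat_lit 5) (nat_lit 4) (nat_lit 4) (nat_lit 388) (nat_lit 320) (nat_lit 192)))))) (XT.nd (nat_lit 312) (nat_lit 152) (nat_lit 0) (XT.nd (nat_lit 156) (nat_lit 0) (nat_lit 0) (XT.nd (nat_lit 78) (nat_lit 0) (nat_lit 0) (XT.lf (nat_lit 0) (nat_lit 587494129228) (nat_lit 76) (nat_lit 256508479027) (nat_lit 76) (nat_lit 191230398984) (nat_lit 3) (nat_lit 4) (nat_lit 4) (nat_lit 5) (nat_lit 4) (nat_lit 4) (nat_lit 389) (nat_lit 320) (nat_lit 191)) (XT.lf (nat_lit 0) (nat_lit 716304429725) (nat_lit 76) (nat_lit 231831396194) (nat_lit 76) (nat_lit 166553080217) (nat_lit 3) (nat_lit 4) (nat_lit 4) (nat_lit 5) (nat_lit 4) (nat_lit 4) (nat_lit 390) (nat_lit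 320) (nat_lit 190))) (XT.nd (nat_lit 78) (nat_lit 0) (nat_lit 0) (XT.lf (nat_lit 0) (nat_lit 855418984870) (nat_lit 76) (nat_lit 205180424958) (nat_lit 76) (nat_lit 139901890524) (nat_lit 3) (nat_lit 4) (nat_lit 4) (nat_lit 5) (nat_lit 4) (nat_lit 4) (nat_lit 391) (nat_lit 320) (nat_lit 189)) (XT.lf (nat_lit 0) (nat_lit 1005662177212) (nat_lit 76) (nat_lit 176397633636) (nat_lit 76) (nat_lit 111118896926) (nat_lit 3) (nat_lit 4) (nat_lit 4) (nat_lit 5) (nat_lit 4) (nat_lit 4) (nat_lit 392) (nat_lit 320) (nat_lit 188)))) (XT.nd (nat_lit 156) (nat_lit 152) (nat_lit 0) (XT.nd (nat_lit 78) (nat_lit 0) (nat_lit 0) (XT.lf (nat_lit 0) (nat_lit 1167924336780) (nat_lit 76) (nat_lit 145312457538) (nat_lit 76) (nat_lit 80033533537) (nat_lit 3) (nat_lit 4) (nat_lit 4) (nat_lit 5) (nat_lit 4) (nat_lit 4) (nat_lit 393) (nat_lit 320) (nat_lit 187)) (XT.lf (nat_lit 0) (nat_lit 1343167017112) (nat_lit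 76) (nat_lit 111740688215) (nat_lit 76) (nat_lit 46461590795) (nat_lit 3) (nat_lit 4) (nat_lit 4) (nat_lit 5) (nat_lit 4) (nat_lit 4) (nat_lit 394) (nat_lit 320) (nat_lit 186))) (XT.nd (nat_lit 78) (nat_lit 152) (nat_lit 0) (XT.lf (nat_lit 0) (nat_lit 1532428693351) (nat_lit 76) (nat_lit 75483381848) (nat_lit 76) (nat_lit 10204123855) (nat_lit 3) (nat_lit 4) (nat_lit 4) (nat_lit 5) (nat_lit 4) (nat_lit 4) (nat_lit 395) (nat_lit 320) (nat_lit 185)) (XT.nd (nat_lit 78) (nat_lit 76) (nat_lit 0) (XT.lf (nat_lit 0) (nat_lit 27505343691) (nat_lit 152) (nat_lit 8068291792) (nat_lit 76) (nat_lit 1708573527639) (nat_lit 2) (nat_lit 5) (nat_lit 4) (nat_lit 5) (nat_lit 3) (nat_lit 4) (nat_lit 396) (nat_lit 320) (nat_lit 184)) (XT.lf (nat_lit 0) (nat_lit 69828952809) (nat_lit 152) (nat_lit 1800853624171) (nat_lit 0) (nat_lit 9384930275) (nat_lit 1) (nat_lit 5) (nat_lit 3) (nat_lit 4) (nat_lit 1)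 (nat_lit 4) (nat_lit 397) (nat_lit 320) (nat_lit 183))))))))
noncomputable def xc158 : XT := (XT.nd (nat_lit 41106) (nat_lit 0) (nat_lit 1976) (XT.nd (nat_lit 624) (nat_lit 0) (nat_lit 0) (XT.nd (nat_lit 312) (nat_lit 0) (nat_lit 0) (XT.nd (nat_lit 156) (nat_lit 0) (nat_lit 0) (XT.nd (nat_lit 78) (nat_lit 0) (nat_lit 0) (XT.lf (nat_lit 0) (nat_lit 116688585234) (nat_lit 152) (nat_lit 1853836438304) (nat_lit 0) (nat_lit 56244444674) (nat_lit 1) (nat_lit 5) (nat_lit 3) (nat_lit 4) (nat_lit 1) (nat_lit 4) (nat_lit 398) (nat_lit 320) (nat_lit 182)) (XT.lf (nat_lit 0) (nat_lit 167296814866) (nat_lit 152) (nat_lit 1911058220083) (nat_lit 0) (nat_lit 106852565024) (nat_lit 1) (nat_lit 5) (nat_lit 3) (nat_lit 4) (nat_lit 1) (nat_lit 4) (nat_lit 399) (nat_lit 320) (nat_lit 181))) (XT.nd (nat_lit 78) (nat_lit 0) (nat_lit 0) (XT.lf (nat_lit 0) (nat_lit 221953542326) (nat_lit 152) (nat_lit 1972858061546)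 (nat_lit 0) (nat_lit 161509191296) (nat_lit 1) (nat_lit 5) (nat_lit 3) (nat_lit 4) (nat_lit 1) (nat_lit 4) (nat_lit 400) (nat_lit 320) (nat_lit 180)) (XT.lf (nat_lit 0) (nat_lit 280982659332) (nat_lit 152) (nat_lit 2039602183977) (nat_lit 0) (nat_lit 220538214609) (nat_lit 1) (nat_lit 5) (nat_lit 3) (nat_lit 4) (nat_lit 1) (nat_lit 4) (nat_lit 401) (nat_lit 320) (nat_lit 179)))) (XT.nd (nat_lit 156) (nat_lit 0) (nat_lit 0) (XT.nd (nat_lit 78) (nat_lit 0) (nat_lit 0) (XT.lf (nat_lit 0) (nat_lit 344733968059) (nat_lit 152) (nat_lit 2111686108101) (nat_lit 0) (nat_lit 284289436584) (nat_lit 1) (nat_lit 5) (nat_lit 3) (nat_lit 4) (nat_lit 1) (nat_lit 4) (nat_lit 402) (nat_lit 320) (nat_lit 178)) (XT.lf (nat_lit 0) (nat_lit 413585254040) (nat_lit 152) (nat_lit 2189536997913) (nat_lit 0) (nat_lit 353140642239) (nat_lit 1) (nat_lit 5) (nat_lit 3) (nat_lit 4) (nat_lit 1) (nat_lit 4) (nat_lit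 403) (nat_lit 320) (nat_lit 177))) (XT.nd (nat_lit 78) (nat_lit 0) (nat_lit 0) (XT.lf (nat_lit 0) (nat_lit 487944524896) (nat_lit 152) (nat_lit 2273616192019) (nat_lit 0) (nat_lit 427499838719) (nat_lit 1) (nat_lit 5) (nat_lit 3) (nat_lit 4) (nat_lit 1) (nat_lit 4) (nat_lit 404) (nat_lit 320) (nat_lit 176)) (XT.lf (nat_lit 0) (nat_lit 568252428158) (nat_lit 152) (nat_lit 2364421937496) (nat_lit 0) (nat_lit 507807673113) (nat_lit 1) (nat_lit 5) (nat_lit 3) (nat_lit 4) (nat_lit 1) (nat_lit 4) (nat_lit 405) (nat_lit 320) (nat_lit 175))))) (XT.nd (nat_lit 312) (nat_lit 0) (nat_lit 0) (XT.nd (nat_lit 156) (nat_lit 0) (nat_lit 0) (XT.nd (nat_lit 78) (nat_lit 0) (nat_lit 0) (XT.lf (nat_lit 0) (nat_lit 654984862511) (nat_lit 152) (nat_lit 2462492342465) (nat_lit 0) (nat_lit 594540043701) (nat_lit 1) (nat_lit 5) (nat_lit 3) (nat_lit 4) (nat_lit 1) (nat_lit 4) (nat_lit 406) (nat_lit 320) (nat_lit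 174)) (XT.lf (nat_lit 0) (nat_lit 748655797938) (nat_lit 152) (nat_lit 2568408564881) (nat_lit 0) (nat_lit 688210920085) (nat_lit 1) (nat_lit 5) (nat_lit 3) (nat_lit 4) (nat_lit 1) (nat_lit 4) (nat_lit 407) (nat_lit 320) (nat_lit 173))) (XT.nd (nat_lit 78) (nat_lit 0) (nat_lit 0) (XT.lf (nat_lit 0) (nat_lit 849820321462) (nat_lit 152) (nat_lit 2682798256432) (nat_lit 0) (nat_lit 789375388941) (nat_lit 1) (nat_lit 5) (nat_lit 3) (nat_lit 4) (nat_lit 1) (nat_lit 4) (nat_lit 408) (nat_lit 320) (nat_lit 172)) (XT.lf (nat_lit 0) (nat_lit 959077926557) (nat_lit 152) (nat_lit 2806339281958) (nat_lit 0) (nat_lit 898632943416) (nat_lit 1) (nat_lit 5) (nat_lit 3) (nat_lit 4) (nat_lit 1) (nat_lit 4) (nat_lit 409) (nat_lit 320) (nat_lit 171)))) (XT.nd (nat_lit 39936) (nat_lit 0) (nat_lit 3648) (XT.nd (nat_lit 78) (nat_lit 0) (nat_lit 0) (XT.lf (nat_lit 0) (nat_lit 1077076065697) (nat_lit 152) (nat_lit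 2939763736424) (nat_lit 0) (nat_lit 1016631035687) (nat_lit 1) (nat_lit 5) (nat_lit 3) (nat_lit 4) (nat_lit 1) (nat_lit 4) (nat_lit 410) (nat_lit 320) (nat_lit 170)) (XT.lf (nat_lit 0) (nat_lit 1204513987114) (nat_lit 152) (nat_lit 3083862283264) (nat_lit 0) (nat_lit 1144068913706) (nat_lit 1) (nat_lit 5) (nat_lit 3) (nat_lit 4) (nat_lit 1) (nat_lit 4) (nat_lit 411) (nat_lit 320) (nat_lit 169))) (XT.nd (nat_lit 78) (nat_lit 0) (nat_lit 0) (XT.lf (nat_lit 0) (nat_lit 6465439233) (nat_lit 532) (nat_lit 1927986723) (nat_lit 532) (nat_lit 1927986723) (nat_lit 49) (nat_lit 3) (nat_lit 56) (nat_lit 3) (nat_lit 56) (nat_lit 5) (nat_lit 321) (nat_lit 321) (nat_lit 258)) (XT.nd (nat_lit 78) (nat_lit 0) (nat_lit 76) (XT.lf (nat_lit 76) (nat_lit 6030308292) (nat_lit 0) (nat_lit 7705442142) (nat_lit 532) (nat_lit 7709421694) (nat_lit 50) (nat_lit 5) (nat_lit 49) (nat_lit 3) (nat_lit 56) (nat_lit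 5) (nat_lit 322) (nat_lit 321) (nat_lit 257)) (XT.lf (nat_lit 0) (nat_lit 14749433630) (nat_lit 456) (nat_lit 5439264110) (nat_lit 532) (nat_lit 2111490727) (nat_lit 50) (nat_lit 5) (nat_lit 56) (nat_lit 5) (nat_lit 57) (nat_lit 5) (nat_lit 323) (nat_lit 321) (nat_lit 256))))))) (XT.nd (nat_lit 624) (nat_lit 1064) (nat_lit 0) (XT.nd (nat_lit 312) (nat_lit 684) (nat_lit 0) (XT.nd (nat_lit 156) (nat_lit 0) (nat_lit 76) (XT.nd (nat_lit 78) (nat_lit 0) (nat_lit 0) (XT.lf (nat_lit 76) (nat_lit 5395368306) (nat_lit 0) (nat_lit 10765492526) (nat_lit 532) (nat_lit 7037446249) (nat_lit 51) (nat_lit 5) (nat_lit 50) (nat_lit 5) (nat_lit 57) (nat_lit 5) (nat_lit 324) (nat_lit 321) (nat_lit 255)) (XT.lf (nat_lit 76) (nat_lit 17397557058) (nat_lit 0) (nat_lit 423889440) (nat_lit 532) (nat_lit 6335959618) (nat_lit 51) (nat_lit 5) (nat_lit 50) (nat_lit 5) (nat_lit 57) (nat_lit 5) (nat_lit 325) (nat_lit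 321) (nat_lit 254))) (XT.nd (nat_lit 78) (nat_lit 0) (nat_lit 0) (XT.lf (nat_lit 76) (nat_lit 5157302085) (nat_lit 0) (nat_lit 14828565315) (nat_lit 532) (nat_lit 5177714820) (nat_lit 52) (nat_lit 5) (nat_lit 51) (nat_lit 5) (nat_lit 58) (nat_lit 5) (nat_lit 326) (nat_lit 321) (nat_lit 253)) (XT.lf (nat_lit 76) (nat_lit 18391944410) (nat_lit 0) (nat_lit 4116231017) (nat_lit 532) (nat_lit 3727324439) (nat_lit 52) (nat_lit 5) (nat_lit 51) (nat_lit 5) (nat_lit 58) (nat_lit 5) (nat_lit 327) (nat_lit 321) (nat_lit 252)))) (XT.nd (nat_lit 156) (nat_lit 304) (nat_lit 0) (XT.nd (nat_lit 78) (nat_lit 76) (nat_lit 0) (XT.lf (nat_lit 0) (nat_lit 5372751368) (nat_lit 456) (nat_lit 20158002774) (nat_lit 532) (nat_lit 1838562091) (nat_lit 46) (nat_lit 5) (nat_lit 52) (nat_lit 5) (nat_lit 53) (nat_lit 5) (nat_lit 328) (nat_lit 321) (nat_lit 251)) (XT.lf (nat_lit 0) (nat_lit 508460061) (nat_lit 532)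 (nat_lit 8610836501) (nat_lit 76) (nat_lit 19448796486) (nat_lit 45) (nat_lit 5) (nat_lit 52) (nat_lit 5) (nat_lit 46) (nat_lit 5) (nat_lit 329) (nat_lit 321) (nat_lit 250))) (XT.nd (nat_lit 78) (nat_lit 0) (nat_lit 0) (XT.lf (nat_lit 0) (nat_lit 3153945352) (nat_lit 380) (nat_lit 23826141911) (nat_lit 76) (nat_lit 2862081044) (nat_lit 41) (nat_lit 5) (nat_lit 46) (nat_lit 5) (nat_lit 42) (nat_lit 5) (nat_lit 330) (nat_lit 321) (nat_lit 249)) (XT.lf (nat_lit 0) (nat_lit 6480960485) (nat_lit 380) (nat_lit 9148632772) (nat_lit 76) (nat_lit 15551002830) (nat_lit 41) (nat_lit 5) (nat_lit 46) (nat_lit 5) (nat_lit 42) (nat_lit 5) (nat_lit 331) (nat_lit 321) (nat_lit 248))))) (XT.nd (nat_lit 312) (nat_lit 608) (nat_lit 0) (XT.nd (nat_lit 156) (nat_lit 228) (nat_lit 0) (XT.nd (nat_lit 78) (nat_lit 0) (nat_lit 0) (XT.lf (nat_lit 0) (nat_lit 7047216479) (nat_lit 228) (nat_lit 3188512957) (nat_lit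 304) (nat_lit 22377457710) (nat_lit 38) (nat_lit 5) (nat_lit 41) (nat_lit 5) (nat_lit 42) (nat_lit 5) (nat_lit 332) (nat_lit 321) (nat_lit 247)) (XT.lf (nat_lit 0) (nat_lit 14786456676) (nat_lit 304) (nat_lit 9343086010) (nat_lit 76) (nat_lit 9991211907) (nat_lit 38) (nat_lit 5) (nat_lit 42) (nat_lit 5) (nat_lit 39) (nat_lit 5) (nat_lit 333) (nat_lit 321) (nat_lit 246))) (XT.nd (nat_lit 78) (nat_lit 0) (nat_lit 0) (XT.lf (nat_lit 0) (nat_lit 8512513563) (nat_lit 228) (nat_lit 11469309012) (nat_lit 304) (nat_lit 15744672540) (nat_lit 35) (nat_lit 5) (nat_lit 38) (nat_lit 5) (nat_lit 39) (nat_lit 5) (nat_lit 334) (nat_lit 321) (nat_lit 245)) (XT.lf (nat_lit 0) (nat_lit 25901239881) (nat_lit 304) (nat_lit 9180418283) (nat_lit 76) (nat_lit 2354376014) (nat_lit 35) (nat_lit 5) (nat_lit 39) (nat_lit 5) (nat_lit 36) (nat_lit 5) (nat_lit 335) (nat_lit 321) (nat_lit 244)))) (XT.nd (nat_lit 156)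 (nat_lit 456) (nat_lit 0) (XT.nd (nat_lit 78) (nat_lit 0) (nat_lit 0) (XT.lf (nat_lit 0) (nat_lit 10516177233) (nat_lit 152) (nat_lit 22322676125) (nat_lit 228) (nat_lit 6399923687) (nat_lit 33) (nat_lit 5) (nat_lit 35) (nat_lit 5) (nat_lit 36) (nat_lit 5) (nat_lit 336) (nat_lit 321) (nat_lit 243)) (XT.lf (nat_lit 0) (nat_lit 32302986189) (nat_lit 152) (nat_lit 8273597342) (nat_lit 228) (nat_lit 589558407) (nat_lit 33) (nat_lit 5) (nat_lit 35) (nat_lit 5) (nat_lit 36) (nat_lit 5) (nat_lit 337) (nat_lit 321) (nat_lit 242))) (XT.nd (nat_lit 78) (nat_lit 152) (nat_lit 0) (XT.lf (nat_lit 0) (nat_lit 5888183968) (nat_lit 304) (nat_lit 30293572089) (nat_lit 76) (nat_lit 7016053086) (nat_lit 29) (nat_lit 5) (nat_lit 33) (nat_lit 5) (nat_lit 30) (nat_lit 5) (nat_lit 338) (nat_lit 321) (nat_lit 241)) (XT.nd (nat_lit 78) (nat_lit 152) (nat_lit 0) (XT.lf (nat_lit 0) (nat_lit 13310406166) (nat_lit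 304) (nat_lit 8699615873) (nat_lit 76) (nat_lit 23344122570) (nat_lit 29) (nat_lit 5) (nat_lit 33) (nat_lit 5) (nat_lit 30) (nat_lit 5) (nat_lit 339) (nat_lit 321) (nat_lit 240)) (XT.lf (nat_lit 0) (nat_lit 15384445919) (nat_lit 152) (nat_lit 6306942147) (nat_lit 228) (nat_lit 25962408531) (nat_lit 27) (nat_lit 5) (nat_lit 29) (nat_lit 5) (nat_lit 30) (nat_lit 5) (nat_lit 340) (nat_lit 321) (nat_lit 239))))))))
noncomputable def xc159 : XT := (XT.nd (nat_lit 1326) (nat_lit 532) (nat_lit 0) (XT.nd (nat_lit 624) (nat_lit 532) (nat_lit 0) (XT.nd (nat_lit 312) (nat_lit 228) (nat_lit 0) (XT.nd (nat_lit 156) (nat_lit 152) (nat_lit 0) (XT.nd (nat_lit 78) (nat_lit 152) (nat_lit 0) (XT.lf (nat_lit 0) (nat_lit 31238224135) (nat_lit 228) (nat_lit 8497942100) (nat_lit 76) (nat_lit 10361632084) (nat_lit 27) (nat_lit 5) (nat_lit 30) (nat_lit 5) (nat_lit 28) (nat_lit 5) (nat_lit 341) (nat_lit 321) (nat_lit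 238)) (XT.lf (nat_lit 0) (nat_lit 17900162636) (nat_lit 152) (nat_lit 24238464502) (nat_lit 228) (nat_lit 10551514500) (nat_lit 25) (nat_lit 5) (nat_lit 27) (nat_lit 5) (nat_lit 28) (nat_lit 5) (nat_lit 342) (nat_lit 321) (nat_lit 237))) (XT.nd (nat_lit 78) (nat_lit 152) (nat_lit 0) (XT.lf (nat_lit 0) (nat_lit 46886930834) (nat_lit 152) (nat_lit 7252161795) (nat_lit 228) (nat_lit 1332543913) (nat_lit 25) (nat_lit 5) (nat_lit 27) (nat_lit 5) (nat_lit 28) (nat_lit 5) (nat_lit 343) (nat_lit 321) (nat_lit 236)) (XT.lf (nat_lit 0) (nat_lit 8967137027) (nat_lit 152) (nat_lit 38174458479) (nat_lit 76) (nat_lit 11255500865) (nat_lit 23) (nat_lit 5) (nat_lit 25) (nat_lit 5) (nat_lit 24) (nat_lit 5) (nat_lit 344) (nat_lit 321) (nat_lit 235)))) (XT.nd (nat_lit 156) (nat_lit 76) (nat_lit 0) (XT.nd (nat_lit 78) (nat_lit 152) (nat_lit 0) (XT.lf (nat_lit 0) (nat_lit 20443985768) (nat_lit 152) (nat_lit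 9950428797) (nat_lit 76) (nat_lit 31125399865) (nat_lit 23) (nat_lit 5) (nat_lit 25) (nat_lit 5) (nat_lit 24) (nat_lit 5) (nat_lit 345) (nat_lit 321) (nat_lit 234)) (XT.lf (nat_lit 0) (nat_lit 21606510770) (nat_lit 152) (nat_lit 11748404807) (nat_lit 228) (nat_lit 31496164509) (nat_lit 21) (nat_lit 5) (nat_lit 23) (nat_lit 5) (nat_lit 24) (nat_lit 5) (nat_lit 346) (nat_lit 321) (nat_lit 233))) (XT.nd (nat_lit 78) (nat_lit 76) (nat_lit 0) (XT.lf (nat_lit 0) (nat_lit 47775992800) (nat_lit 228) (nat_lit 12387963522) (nat_lit 76) (nat_lit 8246713281) (nat_lit 21) (nat_lit 5) (nat_lit 24) (nat_lit 5) (nat_lit 22) (nat_lit 4) (nat_lit 347) (nat_lit 321) (nat_lit 232)) (XT.lf (nat_lit 0) (nat_lit 21712665766) (nat_lit 76) (nat_lit 42462083564) (nat_lit 152) (nat_lit 8014361621) (nat_lit 20) (nat_lit 5) (nat_lit 21) (nat_lit 5) (nat_lit 22) (nat_lit 4) (nat_lit 348) (nat_lit 321) (nat_lit 231)))))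 (XT.nd (nat_lit 312) (nat_lit 228) (nat_lit 0) (XT.nd (nat_lit 156) (nat_lit 76) (nat_lit 0) (XT.nd (nat_lit 78) (nat_lit 152) (nat_lit 0) (XT.lf (nat_lit 0) (nat_lit 5678852444) (nat_lit 152) (nat_lit 17146269429) (nat_lit 76) (nat_lit 53406369869) (nat_lit 19) (nat_lit 5) (nat_lit 21) (nat_lit 5) (nat_lit 20) (nat_lit 5) (nat_lit 349) (nat_lit 321) (nat_lit 230)) (XT.lf (nat_lit 0) (nat_lit 19618412454) (nat_lit 152) (nat_lit 884877772) (nat_lit 228) (nat_lit 60039822798) (nat_lit 17) (nat_lit 5) (nat_lit 19) (nat_lit 5) (nat_lit 20) (nat_lit 5) (nat_lit 350) (nat_lit 321) (nat_lit 229))) (XT.nd (nat_lit 78) (nat_lit 76) (nat_lit 0) (XT.lf (nat_lit 0) (nat_lit 37540249633) (nat_lit 228) (nat_lit 25428735222) (nat_lit 76) (nat_lit 22148556856) (nat_lit 17) (nat_lit 5) (nat_lit 20) (nat_lit 5) (nat_lit 18) (nat_lit 4) (nat_lit 351) (nat_lit 321) (nat_lit 228)) (XT.lf (nat_lit 0) (nat_lit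 13557303270) (nat_lit 76) (nat_lit 42729108352) (nat_lit 152) (nat_lit 33743816210) (nat_lit 16) (nat_lit 5) (nat_lit 17) (nat_lit 5) (nat_lit 18) (nat_lit 4) (nat_lit 352) (nat_lit 321) (nat_lit 227)))) (XT.nd (nat_lit 156) (nat_lit 152) (nat_lit 0) (XT.nd (nat_lit 78) (nat_lit 76) (nat_lit 0) (XT.lf (nat_lit 0) (nat_lit 57103689892) (nat_lit 76) (nat_lit 20121145872) (nat_lit 152) (nat_lit 18055690137) (nat_lit 16) (nat_lit 5) (nat_lit 17) (nat_lit 5) (nat_lit 18) (nat_lit 4) (nat_lit 353) (nat_lit 321) (nat_lit 226)) (XT.lf (nat_lit 0) (nat_lit 3237064828) (nat_lit 76) (nat_lit 96779884222) (nat_lit 76) (nat_lit 919611953) (nat_lit 15) (nat_lit 4) (nat_lit 16) (nat_lit 5) (nat_lit 16) (nat_lit 4) (nat_lit 354) (nat_lit 321) (nat_lit 225))) (XT.nd (nat_lit 78) (nat_lit 76) (nat_lit 0) (XT.lf (nat_lit 0) (nat_lit 18298598452) (nat_lit 152) (nat_lit 57803581821) (nat_lit 76) (nat_lit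 30781779678) (nat_lit 14) (nat_lit 5) (nat_lit 16) (nat_lit 5) (nat_lit 15) (nat_lit 4) (nat_lit 355) (nat_lit 321) (nat_lit 224)) (XT.nd (nat_lit 78) (nat_lit 76) (nat_lit 0) (XT.lf (nat_lit 0) (nat_lit 39002244595) (nat_lit 152) (nat_lit 14744066671) (nat_lit 76) (nat_lit 59559117627) (nat_lit 14) (nat_lit 5) (nat_lit 16) (nat_lit 5) (nat_lit 15) (nat_lit 4) (nat_lit 356) (nat_lit 321) (nat_lit 223)) (XT.lf (nat_lit 0) (nat_lit 33428565703) (nat_lit 76) (nat_lit 28735409569) (nat_lit 152) (nat_lit 58012498419) (nat_lit 13) (nat_lit 5) (nat_lit 14) (nat_lit 5) (nat_lit 15) (nat_lit 4) (nat_lit 357) (nat_lit 321) (nat_lit 222))))))) (XT.nd (nat_lit 702) (nat_lit 228) (nat_lit 0) (XT.nd (nat_lit 312) (nat_lit 152) (nat_lit 0) (XT.nd (nat_lit 156) (nat_lit 76) (nat_lit 0) (XT.nd (nat_lit 78) (nat_lit 76) (nat_lit 0) (XT.lf (nat_lit 0) (nat_lit 86289738705) (nat_lit 76) (nat_lit 1289939146)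 (nat_lit 152) (nat_lit 39985443180) (nat_lit 13) (nat_lit 5) (nat_lit 14) (nat_lit 5) (nat_lit 15) (nat_lit 4) (nat_lit 358) (nat_lit 321) (nat_lit 221)) (XT.lf (nat_lit 0) (nat_lit 7525960619) (nat_lit 76) (nat_lit 108363544133) (nat_lit 76) (nat_lit 19586487473) (nat_lit 12) (nat_lit 4) (nat_lit 13) (nat_lit 5) (nat_lit 13) (nat_lit 4) (nat_lit 359) (nat_lit 321) (nat_lit 220))) (XT.nd (nat_lit 78) (nat_lit 0) (nat_lit 0) (XT.lf (nat_lit 0) (nat_lit 3511499348) (nat_lit 152) (nat_lit 81475907190) (nat_lit 76) (nat_lit 58932473461) (nat_lit 11) (nat_lit 5) (nat_lit 13) (nat_lit 5) (nat_lit 12) (nat_lit 4) (nat_lit 360) (nat_lit 321) (nat_lit 219)) (XT.lf (nat_lit 0) (nat_lit 27397324651) (nat_lit 152) (nat_lit 31795954611) (nat_lit 76) (nat_lit 93805447252) (nat_lit 11) (nat_lit 5) (nat_lit 13) (nat_lit 5) (nat_lit 12) (nat_lit 4) (nat_lit 361) (nat_lit 321) (nat_lit 218)))) (XT.nd (nat_lit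 156) (nat_lit 76) (nat_lit 0) (XT.nd (nat_lit 78) (nat_lit 0) (nat_lit 0) (XT.lf (nat_lit 0) (nat_lit 23006141728) (nat_lit 76) (nat_lit 30739486030) (nat_lit 152) (nat_lit 109014125166) (nat_lit 10) (nat_lit 5) (nat_lit 11) (nat_lit 5) (nat_lit 12) (nat_lit 4) (nat_lit 362) (nat_lit 321) (nat_lit 217)) (XT.lf (nat_lit 0) (nat_lit 83091839582) (nat_lit 152) (nat_lit 89256930003) (nat_lit 0) (nat_lit 881689332) (nat_lit 10) (nat_lit 5) (nat_lit 12) (nat_lit 4) (nat_lit 10) (nat_lit 4) (nat_lit 363) (nat_lit 321) (nat_lit 216))) (XT.nd (nat_lit 78) (nat_lit 76) (nat_lit 0) (XT.lf (nat_lit 0) (nat_lit 115582631946) (nat_lit 152) (nat_lit 35521842671) (nat_lit 0) (nat_lit 33370597041) (nat_lit 10) (nat_lit 5) (nat_lit 12) (nat_lit 4) (nat_lit 10) (nat_lit 4) (nat_lit 364) (nat_lit 321) (nat_lit 215)) (XT.nd (nat_lit 78) (nat_lit 0) (nat_lit 0) (XT.lf (nat_lit 0) (nat_lit 23694669665) (nat_lit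 76) (nat_lit 127546445210) (nat_lit 76) (nat_lit 45332665255) (nat_lit 9) (nat_lit 4) (nat_lit 10) (nat_lit 5) (nat_lit 10) (nat_lit 4) (nat_lit 365) (nat_lit 321) (nat_lit 214)) (XT.lf (nat_lit 0) (nat_lit 89666044318) (nat_lit 76) (nat_lit 101056075044) (nat_lit 76) (nat_lit 18840679301) (nat_lit 9) (nat_lit 4) (nat_lit 10) (nat_lit 5) (nat_lit 10) (nat_lit 4) (nat_lit 366) (nat_lit 321) (nat_lit 213)))))) (XT.nd (nat_lit 312) (nat_lit 76) (nat_lit 0) (XT.nd (nat_lit 156) (nat_lit 76) (nat_lit 0) (XT.nd (nat_lit 78) (nat_lit 0) (nat_lit 0) (XT.lf (nat_lit 0) (nat_lit 9280578735) (nat_lit 152) (nat_lit 62913288071) (nat_lit 76) (nat_lit 151378379276) (nat_lit 8) (nat_lit 5) (nat_lit 10) (nat_lit 5) (nat_lit 9) (nat_lit 4) (nat_lit 367) (nat_lit 321) (nat_lit 212)) (XT.lf (nat_lit 0) (nat_lit 38632430502) (nat_lit 152) (nat_lit 1862821674) (nat_lit 76) (nat_lit 198168145976) (nat_lit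 8) (nat_lit 5) (nat_lit 10) (nat_lit 5) (nat_lit 9) (nat_lit 4) (nat_lit 368) (nat_lit 321) (nat_lit 211))) (XT.nd (nat_lit 78) (nat_lit 0) (nat_lit 0) (XT.lf (nat_lit 0) (nat_lit 67443332834) (nat_lit 76) (nat_lit 4509980924) (nat_lit 152) (nat_lit 182878858563) (nat_lit 7) (nat_lit 5) (nat_lit 8) (nat_lit 5) (nat_lit 9) (nat_lit 4) (nat_lit 369) (nat_lit 321) (nat_lit 210)) (XT.lf (nat_lit 0) (nat_lit 108817220130) (nat_lit 152) (nat_lit 130720142224) (nat_lit 0) (nat_lit 32686898430) (nat_lit 7) (nat_lit 5) (nat_lit 9) (nat_lit 4) (nat_lit 7) (nat_lit 4) (nat_lit 370) (nat_lit 321) (nat_lit 209)))) (XT.nd (nat_lit 156) (nat_lit 76) (nat_lit 0) (XT.nd (nat_lit 78) (nat_lit 0) (nat_lit 0) (XT.lf (nat_lit 0) (nat_lit 148746343833) (nat_lit 152) (nat_lit 69637080708) (nat_lit 0) (nat_lit 72615003913) (nat_lit 7) (nat_lit 5) (nat_lit 9) (nat_lit 4) (nat_lit 7) (nat_lit 4) (nat_lit 371)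 (nat_lit 321) (nat_lit 208)) (XT.lf (nat_lit 0) (nat_lit 191868836748) (nat_lit 152) (nat_lit 3669216090) (nat_lit 0) (nat_lit 115736554032) (nat_lit 7) (nat_lit 5) (nat_lit 9) (nat_lit 4) (nat_lit 7) (nat_lit 4) (nat_lit 372) (nat_lit 321) (nat_lit 207))) (XT.nd (nat_lit 78) (nat_lit 0) (nat_lit 0) (XT.lf (nat_lit 0) (nat_lit 71132719001) (nat_lit 76) (nat_lit 169018264175) (nat_lit 76) (nat_lit 92885108499) (nat_lit 6) (nat_lit 4) (nat_lit 7) (nat_lit 5) (nat_lit 7) (nat_lit 4) (nat_lit 373) (nat_lit 321) (nat_lit 206)) (XT.nd (nat_lit 78) (nat_lit 0) (nat_lit 0) (XT.lf (nat_lit 0) (nat_lit 152125818255) (nat_lit 76) (nat_lit 140269342325) (nat_lit 76) (nat_lit 64135378353) (nat_lit 6) (nat_lit 4) (nat_lit 7) (nat_lit 5) (nat_lit 7) (nat_lit 4) (nat_lit 374) (nat_lit 321) (nat_lit 205)) (XT.lf (nat_lit 0) (nat_lit 239596826363) (nat_lit 76) (nat_lit 109221246177) (nat_lit 76) (nat_lit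 33086533783) (nat_lit 6) (nat_lit 4) (nat_lit 7) (nat_lit 5) (nat_lit 7) (nat_lit 4) (nat_lit 375) (nat_lit 321) (nat_lit 204))))))))
noncomputable def xc160 : XT := (XT.nd (nat_lit 1326) (nat_lit 152) (nat_lit 0) (XT.nd (nat_lit 624) (nat_lit 76) (nat_lit 0) (XT.nd (nat_lit 312) (nat_lit 0) (nat_lit 0) (XT.nd (nat_lit 156) (nat_lit 76) (nat_lit 0) (XT.nd (nat_lit 78) (nat_lit 0) (nat_lit 0) (XT.lf (nat_lit 0) (nat_lit 423136733) (nat_lit 152) (nat_lit 75255280971) (nat_lit 76) (nat_lit 333629383995) (nat_lit 5) (nat_lit 5) (nat_lit 7) (nat_lit 5) (nat_lit 6) (nat_lit 4) (nat_lit 376) (nat_lit 321) (nat_lit 203)) (XT.lf (nat_lit 0) (nat_lit 34825345001) (nat_lit 152) (nat_lit 3699329426) (nat_lit 76) (nat_lit 400309883637) (nat_lit 5) (nat_lit 5) (nat_lit 7) (nat_lit 5) (nat_lit 6) (nat_lit 4) (nat_lit 377) (nat_lit 321) (nat_lit 202))) (XT.nd (nat_lit 78) (nat_lit 0) (nat_lit 0) (XT.lf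 (nat_lit 0) (nat_lit 73928741503) (nat_lit 152) (nat_lit 393206941238) (nat_lit 0) (nat_lit 3431851548) (nat_lit 4) (nat_lit 5) (nat_lit 6) (nat_lit 4) (nat_lit 4) (nat_lit 4) (nat_lit 378) (nat_lit 321) (nat_lit 201)) (XT.lf (nat_lit 0) (nat_lit 117264177043) (nat_lit 152) (nat_lit 340719892717) (nat_lit 0) (nat_lit 46766777725) (nat_lit 4) (nat_lit 5) (nat_lit 6) (nat_lit 4) (nat_lit 4) (nat_lit 4) (nat_lit 379) (nat_lit 321) (nat_lit 200)))) (XT.nd (nat_lit 156) (nat_lit 0) (nat_lit 0) (XT.nd (nat_lit 78) (nat_lit 0) (nat_lit 0) (XT.lf (nat_lit 0) (nat_lit 164065848379) (nat_lit 152) (nat_lit 284035048094) (nat_lit 0) (nat_lit 93567977428) (nat_lit 4) (nat_lit 5) (nat_lit 6) (nat_lit 4) (nat_lit 4) (nat_lit 4) (nat_lit 380) (nat_lit 321) (nat_lit 199)) (XT.lf (nat_lit 0) (nat_lit 214611098746) (nat_lit 152) (nat_lit 222816497180) (nat_lit 0) (nat_lit 144112791098) (nat_lit 4) (nat_lit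 5) (nat_lit 6) (nat_lit 4) (nat_lit 4) (nat_lit 4) (nat_lit 381) (nat_lit 321) (nat_lit 198))) (XT.nd (nat_lit 78) (nat_lit 0) (nat_lit 0) (XT.lf (nat_lit 0) (nat_lit 269199455555) (nat_lit 152) (nat_lit 156701463376) (nat_lit 0) (nat_lit 198700743558) (nat_lit 4) (nat_lit 5) (nat_lit 6) (nat_lit 4) (nat_lit 4) (nat_lit 4) (nat_lit 382) (nat_lit 321) (nat_lit 197)) (XT.lf (nat_lit 0) (nat_lit 328154405365) (nat_lit 152) (nat_lit 85298153890) (nat_lit 0) (nat_lit 257655318970) (nat_lit 4) (nat_lit 5) (nat_lit 6) (nat_lit 4) (nat_lit 4) (nat_lit 4) (nat_lit 383) (nat_lit 321) (nat_lit 196))))) (XT.nd (nat_lit 312) (nat_lit 0) (nat_lit 0) (XT.nd (nat_lit 156) (nat_lit 0) (nat_lit 0) (XT.nd (nat_lit 78) (nat_lit 76) (nat_lit 0) (XT.lf (nat_lit 0) (nat_lit 391825310841) (nat_lit 152) (nat_lit 8183437998) (nat_lit 0) (nat_lit 321325877781) (nat_lit 4) (nat_lit 5) (nat_lit 6) (nat_lit 4) (nat_lit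 4) (nat_lit 4) (nat_lit 384) (nat_lit 321) (nat_lit 195)) (XT.lf (nat_lit 0) (nat_lit 79054275421) (nat_lit 76) (nat_lit 383436462856) (nat_lit 76) (nat_lit 312936708811) (nat_lit 3) (nat_lit 4) (nat_lit 4) (nat_lit 5) (nat_lit 4) (nat_lit 4) (nat_lit 385) (nat_lit 321) (nat_lit 194))) (XT.nd (nat_lit 78) (nat_lit 0) (nat_lit 0) (XT.lf (nat_lit 0) (nat_lit 173735630633) (nat_lit 76) (nat_lit 365297122839) (nat_lit 76) (nat_lit 294797071586) (nat_lit 3) (nat_lit 4) (nat_lit 4) (nat_lit 5) (nat_lit 4) (nat_lit 4) (nat_lit 386) (nat_lit 321) (nat_lit 193)) (XT.lf (nat_lit 0) (nat_lit 275990776994) (nat_lit 76) (nat_lit 345706986101) (nat_lit 76) (nat_lit 275206659655) (nat_lit 3) (nat_lit 4) (nat_lit 4) (nat_lit 5) (nat_lit 4) (nat_lit 4) (nat_lit 387) (nat_lit 321) (nat_lit 192)))) (XT.nd (nat_lit 156) (nat_lit 0) (nat_lit 0) (XT.nd (nat_lit 78) (nat_lit 0) (nat_lit 0) (XT.lf (nat_lit 0)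 (nat_lit 386425670924) (nat_lit 76) (nat_lit 324549962943) (nat_lit 76) (nat_lit 254049381687) (nat_lit 3) (nat_lit 4) (nat_lit 4) (nat_lit 5) (nat_lit 4) (nat_lit 4) (nat_lit 388) (nat_lit 321) (nat_lit 191)) (XT.lf (nat_lit 0) (nat_lit 505694741426) (nat_lit 76) (nat_lit 301700678411) (nat_lit 76) (nat_lit 231199861222) (nat_lit 3) (nat_lit 4) (nat_lit 4) (nat_lit 5) (nat_lit 4) (nat_lit 4) (nat_lit 389) (nat_lit 321) (nat_lit 190))) (XT.nd (nat_lit 78) (nat_lit 0) (nat_lit 0) (XT.lf (nat_lit 0) (nat_lit 634504768177) (nat_lit 76) (nat_lit 277023729340) (nat_lit 76) (nat_lit 206522693694) (nat_lit 3) (nat_lit 4) (nat_lit 4) (nat_lit 5) (nat_lit 4) (nat_lit 4) (nat_lit 390) (nat_lit 321) (nat_lit 189)) (XT.nd (nat_lit 78) (nat_lit 0) (nat_lit 0) (XT.lf (nat_lit 0) (nat_lit 773619069854) (nat_lit 76) (nat_lit 250372881956) (nat_lit 76) (nat_lit 179871644034) (nat_lit 3) (nat_lit 4) (nat_lit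 4) (nat_lit 5) (nat_lit 4) (nat_lit 4) (nat_lit 391) (nat_lit 321) (nat_lit 188)) (XT.lf (nat_lit 0) (nat_lit 923862027503) (nat_lit 76) (nat_lit 221590205312) (nat_lit 76) (nat_lit 151088780098) (nat_lit 3) (nat_lit 4) (nat_lit 4) (nat_lit 5) (nat_lit 4) (nat_lit 4) (nat_lit 392) (nat_lit 321) (nat_lit 187))))))) (XT.nd (nat_lit 624) (nat_lit 0) (nat_lit 0) (XT.nd (nat_lit 312) (nat_lit 152) (nat_lit 0) (XT.nd (nat_lit 156) (nat_lit 0) (nat_lit 0) (XT.nd (nat_lit 78) (nat_lit 0) (nat_lit 0) (XT.lf (nat_lit 0) (nat_lit 1086123969762) (nat_lit 76) (nat_lit 190505135398) (nat_lit 76) (nat_lit 120003536766) (nat_lit 3) (nat_lit 4) (nat_lit 4) (nat_lit 5) (nat_lit 4) (nat_lit 4) (nat_lit 393) (nat_lit 321) (nat_lit 186)) (XT.lf (nat_lit 0) (nat_lit 1261366448883) (nat_lit 76) (nat_lit 156933464393) (nat_lit 76) (nat_lit 86431705188) (nat_lit 3) (nat_lit 4) (nat_lit 4) (nat_lit 5) (nat_lit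 4) (nat_lit 4) (nat_lit 394) (nat_lit 321) (nat_lit 185))) (XT.nd (nat_lit 78) (nat_lit 0) (nat_lit 0) (XT.lf (nat_lit 0) (nat_lit 1450627938815) (nat_lit 76) (nat_lit 120676249061) (nat_lit 76) (nat_lit 50174341178) (nat_lit 3) (nat_lit 4) (nat_lit 4) (nat_lit 5) (nat_lit 4) (nat_lit 4) (nat_lit 395) (nat_lit 321) (nat_lit 184)) (XT.lf (nat_lit 0) (nat_lit 1655029989128) (nat_lit 76) (nat_lit 81518631829) (nat_lit 76) (nat_lit 11016586281) (nat_lit 3) (nat_lit 4) (nat_lit 4) (nat_lit 5) (nat_lit 4) (nat_lit 4) (nat_lit 396) (nat_lit 321) (nat_lit 183)))) (XT.nd (nat_lit 156) (nat_lit 0) (nat_lit 0) (XT.nd (nat_lit 78) (nat_lit 76) (nat_lit 0) (XT.lf (nat_lit 0) (nat_lit 29709173052) (nat_lit 152) (nat_lit 8707093066) (nat_lit 76) (nat_lit 1845262396738) (nat_lit 2) (nat_lit 5) (nat_lit 4) (nat_lit 5) (nat_lit 3) (nat_lit 4) (nat_lit 397) (nat_lit 321) (nat_lit 182)) (XT.lf (nat_lit 0)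 (nat_lit 75418651733) (nat_lit 152) (nat_lit 1944915231787) (nat_lit 0) (nat_lit 10138752620) (nat_lit 1) (nat_lit 5) (nat_lit 3) (nat_lit 4) (nat_lit 1) (nat_lit 4) (nat_lit 398) (nat_lit 321) (nat_lit 181))) (XT.nd (nat_lit 78) (nat_lit 0) (nat_lit 0) (XT.lf (nat_lit 0) (nat_lit 126026804181) (nat_lit 152) (nat_lit 2002137166038) (nat_lit 0) (nat_lit 60746803880) (nat_lit 1) (nat_lit 5) (nat_lit 3) (nat_lit 4) (nat_lit 1) (nat_lit 4) (nat_lit 399) (nat_lit 321) (nat_lit 180)) (XT.lf (nat_lit 0) (nat_lit 180683460174) (nat_lit 152) (nat_lit 2063937148679) (nat_lit 0) (nat_lit 115403366181) (nat_lit 1) (nat_lit 5) (nat_lit 3) (nat_lit 4) (nat_lit 1) (nat_lit 4) (nat_lit 400) (nat_lit 321) (nat_lit 179))))) (XT.nd (nat_lit 312) (nat_lit 0) (nat_lit 0) (XT.nd (nat_lit 156) (nat_lit 0) (nat_lit 0) (XT.nd (nat_lit 78) (nat_lit 0) (nat_lit 0) (XT.lf (nat_lit 0) (nat_lit 239712511008) (nat_lit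 152) (nat_lit 2130681401831) (nat_lit 0) (nat_lit 174432330262) (nat_lit 1) (nat_lit 5) (nat_lit 3) (nat_lit 4) (nat_lit 1) (nat_lit 4) (nat_lit 401) (nat_lit 321) (nat_lit 178)) (XT.lf (nat_lit 0) (nat_lit 303463758464) (nat_lit 152) (nat_lit 2202765446992) (nat_lit 0) (nat_lit 238183497392) (nat_lit 1) (nat_lit 5) (nat_lit 3) (nat_lit 4) (nat_lit 1) (nat_lit 4) (nat_lit 402) (nat_lit 321) (nat_lit 177))) (XT.nd (nat_lit 78) (nat_lit 0) (nat_lit 0) (XT.lf (nat_lit 0) (nat_lit 372314987712) (nat_lit 152) (nat_lit 2280616448876) (nat_lit 0) (nat_lit 307034652264) (nat_lit 1) (nat_lit 5) (nat_lit 3) (nat_lit 4) (nat_lit 1) (nat_lit 4) (nat_lit 403) (nat_lit 321) (nat_lit 176)) (XT.lf (nat_lit 0) (nat_lit 446674206038) (nat_lit 152) (nat_lit 2364695746753) (nat_lit 0) (nat_lit 381393801723) (nat_lit 1) (nat_lit 5) (nat_lit 3) (nat_lit 4) (nat_lit 1) (nat_lit 4) (nat_lit 404) (nat_lit 321)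 (nat_lit 175)))) (XT.nd (nat_lit 156) (nat_lit 0) (nat_lit 0) (XT.nd (nat_lit 78) (nat_lit 0) (nat_lit 0) (XT.lf (nat_lit 0) (nat_lit 526982060660) (nat_lit 152) (nat_lit 2455501588313) (nat_lit 0) (nat_lit 461701592580) (nat_lit 1) (nat_lit 5) (nat_lit 3) (nat_lit 4) (nat_lit 1) (nat_lit 4) (nat_lit 405) (nat_lit 321) (nat_lit 174)) (XT.lf (nat_lit 0) (nat_lit 613714449978) (nat_lit 152) (nat_lit 2553572082248) (nat_lit 0) (nat_lit 548433922855) (nat_lit 1) (nat_lit 5) (nat_lit 3) (nat_lit 4) (nat_lit 1) (nat_lit 4) (nat_lit 406) (nat_lit 321) (nat_lit 173))) (XT.nd (nat_lit 78) (nat_lit 0) (nat_lit 0) (XT.lf (nat_lit 0) (nat_lit 707385343704) (nat_lit 152) (nat_lit 2659488387040) (nat_lit 0) (nat_lit 642104761912) (nat_lit 1) (nat_lit 5) (nat_lit 3) (nat_lit 4) (nat_lit 1) (nat_lit 4) (nat_lit 407) (nat_lit 321) (nat_lit 172)) (XT.nd (nat_lit 78) (nat_lit 0) (nat_lit 0) (XT.lf (nat_lit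 0) (nat_lit 808549828617) (nat_lit 152) (nat_lit 2773878154865) (nat_lit 0) (nat_lit 743269196206) (nat_lit 1) (nat_lit 5) (nat_lit 3) (nat_lit 4) (nat_lit 1) (nat_lit 4) (nat_lit 408) (nat_lit 321) (nat_lit 171)) (XT.lf (nat_lit 0) (nat_lit 917807397961) (nat_lit 152) (nat_lit 2897419251015) (nat_lit 0) (nat_lit 852526718680) (nat_lit 1) (nat_lit 5) (nat_lit 3) (nat_lit 4) (nat_lit 1) (nat_lit 4) (nat_lit 409) (nat_lit 321) (nat_lit 170))))))))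
noncomputable def xc161 : XT := (XT.nd (nat_lit 41184) (nat_lit 0) (nat_lit 1140) (XT.nd (nat_lit 40482) (nat_lit 0) (nat_lit 2584) (XT.nd (nat_lit 40170) (nat_lit 0) (nat_lit 3724) (XT.nd (nat_lit 40014) (nat_lit 0) (nat_lit 3648) (XT.nd (nat_lit 78) (nat_lit 0) (nat_lit 0) (XT.lf (nat_lit 0) (nat_lit 1035805503998) (nat_lit 152) (nat_lit 3030843770874) (nat_lit 0) (nat_lit 970524781319) (nat_lit 1) (nat_lit 5) (nat_lit 3) (nat_lit 4) (nat_lit 1) (nat_lit 4) (nat_lit 410) (nat_lit 321) (nat_lit 169)) (XT.lf (nat_lit 0) (nat_lit 1163243394764) (nat_lit 152) (nat_lit 3174942378264) (nat_lit 0) (nat_lit 1097962631903) (nat_lit 1) (nat_lit 5) (nat_lit 3) (nat_lit 4) (nat_lit 1) (nat_lit 4) (nat_lit 411) (nat_lit 321) (nat_lit 168))) (XT.nd (nat_lit 78) (nat_lit 0) (nat_lit 0) (XT.lf (nat_lit 0) (nat_lit 7121852421) (nat_lit 532) (nat_lit 2006896137) (nat_lit 532) (nat_lit 2006896137) (nat_lit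 49) (nat_lit 3) (nat_lit 56) (nat_lit 3) (nat_lit 56) (nat_lit 5) (nat_lit 322) (nat_lit 322) (nat_lit 256)) (XT.lf (nat_lit 76) (nat_lit 6659577848) (nat_lit 0) (nat_lit 8436301370) (nat_lit 532) (nat_lit 8043363042) (nat_lit 50) (nat_lit 5) (nat_lit 49) (nat_lit 3) (nat_lit 56) (nat_lit 5) (nat_lit 323) (nat_lit 322) (nat_lit 255)))) (XT.nd (nat_lit 156) (nat_lit 0) (nat_lit 0) (XT.nd (nat_lit 78) (nat_lit 0) (nat_lit 0) (XT.lf (nat_lit 0) (nat_lit 16168755777) (nat_lit 456) (nat_lit 5715941881) (nat_lit 532) (nat_lit 2179761919) (nat_lit 50) (nat_lit 5) (nat_lit 56) (nat_lit 5) (nat_lit 57) (nat_lit 5) (nat_lit 324) (nat_lit 322) (nat_lit 254)) (XT.lf (nat_lit 76) (nat_lit 5981449398) (nat_lit 0) (nat_lit 11697631400) (nat_lit 532) (nat_lit 7356512232) (nat_lit 51) (nat_lit 5) (nat_lit 50) (nat_lit 5) (nat_lit 57) (nat_lit 5) (nat_lit 325) (nat_lit 322) (nat_lit 253))) (XT.nd (nat_lit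 78) (nat_lit 0) (nat_lit 76) (XT.lf (nat_lit 76) (nat_lit 18932372389) (nat_lit 0) (nat_lit 523448254) (nat_lit 532) (nat_lit 6616975538) (nat_lit 51) (nat_lit 5) (nat_lit 50) (nat_lit 5) (nat_lit 57) (nat_lit 5) (nat_lit 326) (nat_lit 322) (nat_lit 252)) (XT.lf (nat_lit 76) (nat_lit 5727582270) (nat_lit 0) (nat_lit 16052687485) (nat_lit 532) (nat_lit 5380284417) (nat_lit 52) (nat_lit 5) (nat_lit 51) (nat_lit 5) (nat_lit 58) (nat_lit 5) (nat_lit 327) (nat_lit 322) (nat_lit 251))))) (XT.nd (nat_lit 312) (nat_lit 456) (nat_lit 0) (XT.nd (nat_lit 156) (nat_lit 380) (nat_lit 0) (XT.nd (nat_lit 78) (nat_lit 380) (nat_lit 0) (XT.lf (nat_lit 76) (nat_lit 20009314793) (nat_lit 0) (nat_lit 4480563706) (nat_lit 532) (nat_lit 3829540406) (nat_lit 52) (nat_lit 5) (nat_lit 51) (nat_lit 5) (nat_lit 58) (nat_lit 5) (nat_lit 328) (nat_lit 322) (nat_lit 250)) (XT.lf (nat_lit 0) (nat_lit 5960254178) (nat_lit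 456) (nat_lit 21783610406) (nat_lit 532) (nat_lit 1800940283) (nat_lit 46) (nat_lit 5) (nat_lit 52) (nat_lit 5) (nat_lit 53) (nat_lit 5) (nat_lit 329) (nat_lit 322) (nat_lit 249))) (XT.nd (nat_lit 78) (nat_lit 304) (nat_lit 0) (XT.lf (nat_lit 0) (nat_lit 711606304) (nat_lit 532) (nat_lit 9144798641) (nat_lit 76) (nat_lit 20983791064) (nat_lit 45) (nat_lit 5) (nat_lit 52) (nat_lit 5) (nat_lit 46) (nat_lit 5) (nat_lit 330) (nat_lit 322) (nat_lit 248)) (XT.lf (nat_lit 0) (nat_lit 3560252656) (nat_lit 380) (nat_lit 25568529492) (nat_lit 76) (nat_lit 3088119061) (nat_lit 41) (nat_lit 5) (nat_lit 46) (nat_lit 5) (nat_lit 42) (nat_lit 5) (nat_lit 331) (nat_lit 322) (nat_lit 247)))) (XT.nd (nat_lit 156) (nat_lit 228) (nat_lit 0) (XT.nd (nat_lit 78) (nat_lit 228) (nat_lit 0) (XT.lf (nat_lit 0) (nat_lit 7142022208) (nat_lit 380) (nat_lit 9728945827) (nat_lit 76) (nat_lit 16792371514) (nat_lit 41)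 (nat_lit 5) (nat_lit 46) (nat_lit 5) (nat_lit 42) (nat_lit 5) (nat_lit 332) (nat_lit 322) (nat_lit 246)) (XT.lf (nat_lit 0) (nat_lit 7758733957) (nat_lit 228) (nat_lit 3431430030) (nat_lit 304) (nat_lit 24020956634) (nat_lit 38) (nat_lit 5) (nat_lit 41) (nat_lit 5) (nat_lit 42) (nat_lit 5) (nat_lit 333) (nat_lit 322) (nat_lit 245))) (XT.nd (nat_lit 78) (nat_lit 228) (nat_lit 0) (XT.lf (nat_lit 0) (nat_lit 16095177598) (nat_lit 304) (nat_lit 9943709638) (nat_lit 76) (nat_lit 10801208373) (nat_lit 38) (nat_lit 5) (nat_lit 42) (nat_lit 5) (nat_lit 39) (nat_lit 5) (nat_lit 334) (nat_lit 322) (nat_lit 244)) (XT.nd (nat_lit 78) (nat_lit 0) (nat_lit 0) (XT.lf (nat_lit 0) (nat_lit 9336620857) (nat_lit 228) (nat_lit 12363674777) (nat_lit 304) (nat_lit 16874488798) (nat_lit 35) (nat_lit 5) (nat_lit 38) (nat_lit 5) (nat_lit 39) (nat_lit 5) (nat_lit 335) (nat_lit 322) (nat_lit 243)) (XT.lf (nat_lit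 0) (nat_lit 28084898985) (nat_lit 304) (nat_lit 9773760036) (nat_lit 76) (nat_lit 2563114475) (nat_lit 35) (nat_lit 5) (nat_lit 39) (nat_lit 5) (nat_lit 36) (nat_lit 5) (nat_lit 336) (nat_lit 322) (nat_lit 242))))))) (XT.nd (nat_lit 624) (nat_lit 684) (nat_lit 0) (XT.nd (nat_lit 312) (nat_lit 304) (nat_lit 0) (XT.nd (nat_lit 156) (nat_lit 304) (nat_lit 0) (XT.nd (nat_lit 78) (nat_lit 0) (nat_lit 0) (XT.lf (nat_lit 0) (nat_lit 11494991180) (nat_lit 152) (nat_lit 24077574017) (nat_lit 228) (nat_lit 6796583298) (nat_lit 33) (nat_lit 5) (nat_lit 35) (nat_lit 5) (nat_lit 36) (nat_lit 5) (nat_lit 337) (nat_lit 322) (nat_lit 241)) (XT.lf (nat_lit 0) (nat_lit 35014558203) (nat_lit 152) (nat_lit 8906859020) (nat_lit 228) (nat_lit 529932076) (nat_lit 33) (nat_lit 5) (nat_lit 35) (nat_lit 5) (nat_lit 36) (nat_lit 5) (nat_lit 338) (nat_lit 322) (nat_lit 240))) (XT.nd (nat_lit 78) (nat_lit 0) (nat_lit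 0) (XT.lf (nat_lit 0) (nat_lit 6457067085) (nat_lit 304) (nat_lit 32580427889) (nat_lit 76) (nat_lit 7608151934) (nat_lit 29) (nat_lit 5) (nat_lit 33) (nat_lit 5) (nat_lit 30) (nat_lit 5) (nat_lit 339) (nat_lit 322) (nat_lit 239)) (XT.lf (nat_lit 0) (nat_lit 14465820511) (nat_lit 304) (nat_lit 9269075914) (nat_lit 76) (nat_lit 25240184414) (nat_lit 29) (nat_lit 5) (nat_lit 33) (nat_lit 5) (nat_lit 30) (nat_lit 5) (nat_lit 340) (nat_lit 322) (nat_lit 238)))) (XT.nd (nat_lit 156) (nat_lit 152) (nat_lit 0) (XT.nd (nat_lit 78) (nat_lit 0) (nat_lit 0) (XT.lf (nat_lit 0) (nat_lit 16738508056) (nat_lit 152) (nat_lit 6775028663) (nat_lit 228) (nat_lit 27945478827) (nat_lit 27) (nat_lit 5) (nat_lit 29) (nat_lit 5) (nat_lit 30) (nat_lit 5) (nat_lit 341) (nat_lit 322) (nat_lit 237)) (XT.lf (nat_lit 0) (nat_lit 33818499367) (nat_lit 228) (nat_lit 9057856946) (nat_lit 76) (nat_lit 11222640924) (nat_lit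 27) (nat_lit 5) (nat_lit 30) (nat_lit 5) (nat_lit 28) (nat_lit 5) (nat_lit 342) (nat_lit 322) (nat_lit 236))) (XT.nd (nat_lit 78) (nat_lit 0) (nat_lit 0) (XT.lf (nat_lit 0) (nat_lit 19449060207) (nat_lit 152) (nat_lit 26138669383) (nat_lit 228) (nat_lit 11311264281) (nat_lit 25) (nat_lit 5) (nat_lit 27) (nat_lit 5) (nat_lit 28) (nat_lit 5) (nat_lit 343) (nat_lit 322) (nat_lit 235)) (XT.lf (nat_lit 0) (nat_lit 50746111745) (nat_lit 152) (nat_lit 7796341887) (nat_lit 228) (nat_lit 1361025779) (nat_lit 25) (nat_lit 5) (nat_lit 27) (nat_lit 5) (nat_lit 28) (nat_lit 5) (nat_lit 344) (nat_lit 322) (nat_lit 234))))) (XT.nd (nat_lit 312) (nat_lit 380) (nat_lit 0) (XT.nd (nat_lit 156) (nat_lit 152) (nat_lit 0) (XT.nd (nat_lit 78) (nat_lit 0) (nat_lit 0) (XT.lf (nat_lit 0) (nat_lit 9756770329) (nat_lit 152) (nat_lit 41114134378) (nat_lit 76) (nat_lit 12192084623) (nat_lit 23) (nat_lit 5) (nat_lit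 25) (nat_lit 5) (nat_lit 24) (nat_lit 5) (nat_lit 345) (nat_lit 322) (nat_lit 233)) (XT.lf (nat_lit 0) (nat_lit 22146414204) (nat_lit 152) (nat_lit 10640647564) (nat_lit 76) (nat_lit 33648898232) (nat_lit 23) (nat_lit 5) (nat_lit 25) (nat_lit 5) (nat_lit 24) (nat_lit 5) (nat_lit 346) (nat_lit 322) (nat_lit 232))) (XT.nd (nat_lit 78) (nat_lit 0) (nat_lit 0) (XT.lf (nat_lit 0) (nat_lit 23438168294) (nat_lit 152) (nat_lit 12649574278) (nat_lit 228) (nat_lit 33946188834) (nat_lit 21) (nat_lit 5) (nat_lit 23) (nat_lit 5) (nat_lit 24) (nat_lit 5) (nat_lit 347) (nat_lit 322) (nat_lit 231)) (XT.lf (nat_lit 0) (nat_lit 51658594960) (nat_lit 228) (nat_lit 13279518249) (nat_lit 76) (nat_lit 8940493710) (nat_lit 21) (nat_lit 5) (nat_lit 24) (nat_lit 5) (nat_lit 22) (nat_lit 4) (nat_lit 348) (nat_lit 322) (nat_lit 230)))) (XT.nd (nat_lit 156) (nat_lit 228) (nat_lit 0) (XT.nd (nat_lit 78) (nat_lit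 76) (nat_lit 0) (XT.lf (nat_lit 0) (nat_lit 23546642841) (nat_lit 76) (nat_lit 45820457987) (nat_lit 152) (nat_lit 8592400355) (nat_lit 20) (nat_lit 5) (nat_lit 21) (nat_lit 5) (nat_lit 22) (nat_lit 4) (nat_lit 349) (nat_lit 322) (nat_lit 229)) (XT.lf (nat_lit 0) (nat_lit 6188672832) (nat_lit 152) (nat_lit 18425207413) (nat_lit 76) (nat_lit 57711630774) (nat_lit 19) (nat_lit 5) (nat_lit 21) (nat_lit 5) (nat_lit 20) (nat_lit 5) (nat_lit 350) (nat_lit 322) (nat_lit 228))) (XT.nd (nat_lit 78) (nat_lit 76) (nat_lit 0) (XT.lf (nat_lit 0) (nat_lit 21278300576) (nat_lit 152) (nat_lit 918827533) (nat_lit 228) (nat_lit 64785093275) (nat_lit 17) (nat_lit 5) (nat_lit 19) (nat_lit 5) (nat_lit 20) (nat_lit 5) (nat_lit 351) (nat_lit 322) (nat_lit 227)) (XT.nd (nat_lit 78) (nat_lit 76) (nat_lit 0) (XT.lf (nat_lit 0) (nat_lit 40593896158) (nat_lit 228) (nat_lit 27376117564) (nat_lit 76) (nat_lit 23952846545)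 (nat_lit 17) (nat_lit 5) (nat_lit 20) (nat_lit 5) (nat_lit 18) (nat_lit 4) (nat_lit 352) (nat_lit 322) (nat_lit 226)) (XT.lf (nat_lit 0) (nat_lit 14726603590) (nat_lit 76) (nat_lit 46111449637) (nat_lit 152) (nat_lit 36390647631) (nat_lit 16) (nat_lit 5) (nat_lit 17) (nat_lit 5) (nat_lit 18) (nat_lit 4) (nat_lit 353) (nat_lit 322) (nat_lit 225))))))))
noncomputable def xc162 : XT := (XT.nd (nat_lit 1326) (nat_lit 304) (nat_lit 0) (XT.nd (nat_lit 624) (nat_lit 304) (nat_lit 0) (XT.nd (nat_lit 312) (nat_lit 228) (nat_lit 0) (XT.nd (nat_lit 156) (nat_lit 76) (nat_lit 0) (XT.nd (nat_lit 78) (nat_lit 76) (nat_lit 0) (XT.lf (nat_lit 0) (nat_lit 61750425879) (nat_lit 76) (nat_lit 21697515892) (nat_lit 152) (nat_lit 19451373240) (nat_lit 16) (nat_lit 5) (nat_lit 17) (nat_lit 5) (nat_lit 18) (nat_lit 4) (nat_lit 354) (nat_lit 322) (nat_lit 224)) (XT.lf (nat_lit 0) (nat_lit 3575264351) (nat_lit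 76) (nat_lit 104487465222) (nat_lit 76) (nat_lit 945162130) (nat_lit 15) (nat_lit 4) (nat_lit 16) (nat_lit 5) (nat_lit 16) (nat_lit 4) (nat_lit 355) (nat_lit 322) (nat_lit 223))) (XT.nd (nat_lit 78) (nat_lit 0) (nat_lit 0) (XT.lf (nat_lit 0) (nat_lit 19804724001) (nat_lit 152) (nat_lit 62352244602) (nat_lit 76) (nat_lit 33274294653) (nat_lit 14) (nat_lit 5) (nat_lit 16) (nat_lit 5) (nat_lit 15) (nat_lit 4) (nat_lit 356) (nat_lit 322) (nat_lit 222)) (XT.lf (nat_lit 0) (nat_lit 42161533119) (nat_lit 152) (nat_lit 15853570001) (nat_lit 76) (nat_lit 64351599445) (nat_lit 14) (nat_lit 5) (nat_lit 16) (nat_lit 5) (nat_lit 15) (nat_lit 4) (nat_lit 357) (nat_lit 322) (nat_lit 221)))) (XT.nd (nat_lit 156) (nat_lit 152) (nat_lit 0) (XT.nd (nat_lit 78) (nat_lit 0) (nat_lit 0) (XT.lf (nat_lit 0) (nat_lit 36171100254) (nat_lit 76) (nat_lit 31003846433) (nat_lit 152) (nat_lit 62612587069) (nat_lit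 13) (nat_lit 5) (nat_lit 14) (nat_lit 5) (nat_lit 15) (nat_lit 4) (nat_lit 358) (nat_lit 322) (nat_lit 220)) (XT.lf (nat_lit 0) (nat_lit 93256111593) (nat_lit 76) (nat_lit 1364989925) (nat_lit 152) (nat_lit 43146397872) (nat_lit 13) (nat_lit 5) (nat_lit 14) (nat_lit 5) (nat_lit 15) (nat_lit 4) (nat_lit 359) (nat_lit 322) (nat_lit 219))) (XT.nd (nat_lit 78) (nat_lit 76) (nat_lit 0) (XT.lf (nat_lit 0) (nat_lit 8191731326) (nat_lit 76) (nat_lit 117003545563) (nat_lit 76) (nat_lit 21116000433) (nat_lit 12) (nat_lit 4) (nat_lit 13) (nat_lit 5) (nat_lit 13) (nat_lit 4) (nat_lit 360) (nat_lit 322) (nat_lit 218)) (XT.lf (nat_lit 0) (nat_lit 3825321922) (nat_lit 152) (nat_lit 87933249652) (nat_lit 76) (nat_lit 63672244889) (nat_lit 11) (nat_lit 5) (nat_lit 13) (nat_lit 5) (nat_lit 12) (nat_lit 4) (nat_lit 361) (nat_lit 322) (nat_lit 217))))) (XT.nd (nat_lit 312) (nat_lit 228) (nat_lit 0) (XT.nd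 (nat_lit 156) (nat_lit 0) (nat_lit 0) (XT.nd (nat_lit 78) (nat_lit 76) (nat_lit 0) (XT.lf (nat_lit 0) (nat_lit 29619576018) (nat_lit 152) (nat_lit 34283399394) (nat_lit 76) (nat_lit 101333191876) (nat_lit 11) (nat_lit 5) (nat_lit 13) (nat_lit 5) (nat_lit 12) (nat_lit 4) (nat_lit 362) (nat_lit 322) (nat_lit 216)) (XT.lf (nat_lit 0) (nat_lit 24901441068) (nat_lit 76) (nat_lit 33173363743) (nat_lit 152) (nat_lit 117703347573) (nat_lit 10) (nat_lit 5) (nat_lit 11) (nat_lit 5) (nat_lit 12) (nat_lit 4) (nat_lit 363) (nat_lit 322) (nat_lit 215))) (XT.nd (nat_lit 78) (nat_lit 0) (nat_lit 0) (XT.lf (nat_lit 0) (nat_lit 89767089384) (nat_lit 152) (nat_lit 96345094808) (nat_lit 0) (nat_lit 974461981) (nat_lit 10) (nat_lit 5) (nat_lit 12) (nat_lit 4) (nat_lit 10) (nat_lit 4) (nat_lit 364) (nat_lit 322) (nat_lit 214)) (XT.lf (nat_lit 0) (nat_lit 124855078275) (nat_lit 152) (nat_lit 38315081201) (nat_lit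 0) (nat_lit 36060835085) (nat_lit 10) (nat_lit 5) (nat_lit 12) (nat_lit 4) (nat_lit 10) (nat_lit 4) (nat_lit 365) (nat_lit 322) (nat_lit 213)))) (XT.nd (nat_lit 156) (nat_lit 152) (nat_lit 0) (XT.nd (nat_lit 78) (nat_lit 0) (nat_lit 0) (XT.lf (nat_lit 0) (nat_lit 25637524049) (nat_lit 76) (nat_lit 137727939132) (nat_lit 76) (nat_lit 48932199843) (nat_lit 9) (nat_lit 4) (nat_lit 10) (nat_lit 5) (nat_lit 10) (nat_lit 4) (nat_lit 366) (nat_lit 322) (nat_lit 212)) (XT.lf (nat_lit 0) (nat_lit 96883106392) (nat_lit 76) (nat_lit 109119985404) (nat_lit 76) (nat_lit 20322860837) (nat_lit 9) (nat_lit 4) (nat_lit 10) (nat_lit 5) (nat_lit 10) (nat_lit 4) (nat_lit 367) (nat_lit 322) (nat_lit 211))) (XT.nd (nat_lit 78) (nat_lit 76) (nat_lit 0) (XT.lf (nat_lit 0) (nat_lit 10045079260) (nat_lit 152) (nat_lit 67904642368) (nat_lit 76) (nat_lit 163506528065) (nat_lit 8) (nat_lit 5) (nat_lit 10) (nat_lit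 5) (nat_lit 9) (nat_lit 4) (nat_lit 368) (nat_lit 322) (nat_lit 210)) (XT.nd (nat_lit 78) (nat_lit 76) (nat_lit 0) (XT.lf (nat_lit 0) (nat_lit 41743445522) (nat_lit 152) (nat_lit 1973228195) (nat_lit 76) (nat_lit 214038151772) (nat_lit 8) (nat_lit 5) (nat_lit 10) (nat_lit 5) (nat_lit 9) (nat_lit 4) (nat_lit 369) (nat_lit 322) (nat_lit 209)) (XT.lf (nat_lit 0) (nat_lit 72876440971) (nat_lit 76) (nat_lit 4852951110) (nat_lit 152) (nat_lit 197487758903) (nat_lit 7) (nat_lit 5) (nat_lit 8) (nat_lit 5) (nat_lit 9) (nat_lit 4) (nat_lit 370) (nat_lit 322) (nat_lit 208))))))) (XT.nd (nat_lit 624) (nat_lit 152) (nat_lit 0) (XT.nd (nat_lit 312) (nat_lit 76) (nat_lit 0) (XT.nd (nat_lit 156) (nat_lit 76) (nat_lit 0) (XT.nd (nat_lit 78) (nat_lit 0) (nat_lit 0) (XT.lf (nat_lit 0) (nat_lit 117541340327) (nat_lit 152) (nat_lit 141141820397) (nat_lit 0) (nat_lit 35317532197) (nat_lit 7) (nat_lit 5) (nat_lit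 9) (nat_lit 4) (nat_lit 7) (nat_lit 4) (nat_lit 371) (nat_lit 322) (nat_lit 207)) (XT.lf (nat_lit 0) (nat_lit 160663405587) (nat_lit 152) (nat_lit 75174775678) (nat_lit 0) (nat_lit 78438724497) (nat_lit 7) (nat_lit 5) (nat_lit 9) (nat_lit 4) (nat_lit 7) (nat_lit 4) (nat_lit 372) (nat_lit 322) (nat_lit 206))) (XT.nd (nat_lit 78) (nat_lit 76) (nat_lit 0) (XT.lf (nat_lit 0) (nat_lit 207234412436) (nat_lit 152) (nat_lit 3931946445) (nat_lit 0) (nat_lit 125008923050) (nat_lit 7) (nat_lit 5) (nat_lit 9) (nat_lit 4) (nat_lit 7) (nat_lit 4) (nat_lit 373) (nat_lit 322) (nat_lit 205)) (XT.lf (nat_lit 0) (nat_lit 76853363530) (nat_lit 76) (nat_lit 182525298920) (nat_lit 76) (nat_lit 100299061112) (nat_lit 6) (nat_lit 4) (nat_lit 7) (nat_lit 5) (nat_lit 7) (nat_lit 4) (nat_lit 374) (nat_lit 322) (nat_lit 204)))) (XT.nd (nat_lit 156) (nat_lit 76) (nat_lit 0) (XT.nd (nat_lit 78) (nat_lit 0) (nat_lit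 0) (XT.lf (nat_lit 0) (nat_lit 164323686502) (nat_lit 76) (nat_lit 151477531943) (nat_lit 76) (nat_lit 69250601152) (nat_lit 6) (nat_lit 4) (nat_lit 7) (nat_lit 5) (nat_lit 7) (nat_lit 4) (nat_lit 375) (nat_lit 322) (nat_lit 203)) (XT.lf (nat_lit 0) (nat_lit 258790315792) (nat_lit 76) (nat_lit 117946577568) (nat_lit 76) (nat_lit 35719005125) (nat_lit 6) (nat_lit 4) (nat_lit 7) (nat_lit 5) (nat_lit 7) (nat_lit 4) (nat_lit 376) (nat_lit 322) (nat_lit 202))) (XT.nd (nat_lit 78) (nat_lit 0) (nat_lit 0) (XT.lf (nat_lit 0) (nat_lit 469699195) (nat_lit 152) (nat_lit 81251192237) (nat_lit 76) (nat_lit 360330512044) (nat_lit 5) (nat_lit 5) (nat_lit 7) (nat_lit 5) (nat_lit 6) (nat_lit 4) (nat_lit 377) (nat_lit 322) (nat_lit 201)) (XT.lf (nat_lit 0) (nat_lit 37623142530) (nat_lit 152) (nat_lit 3972580214) (nat_lit 76) (nat_lit 432344653336) (nat_lit 5) (nat_lit 5) (nat_lit 7) (nat_lit 5) (nat_lit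 6) (nat_lit 4) (nat_lit 378) (nat_lit 322) (nat_lit 200))))) (XT.nd (nat_lit 312) (nat_lit 76) (nat_lit 0) (XT.nd (nat_lit 156) (nat_lit 0) (nat_lit 0) (XT.nd (nat_lit 78) (nat_lit 0) (nat_lit 0) (XT.lf (nat_lit 0) (nat_lit 79854728032) (nat_lit 152) (nat_lit 424640713590) (nat_lit 0) (nat_lit 3716555772) (nat_lit 4) (nat_lit 5) (nat_lit 6) (nat_lit 4) (nat_lit 4) (nat_lit 4) (nat_lit 379) (nat_lit 322) (nat_lit 199)) (XT.lf (nat_lit 0) (nat_lit 126656132697) (nat_lit 152) (nat_lit 367956388813) (nat_lit 0) (nat_lit 50517523740) (nat_lit 4) (nat_lit 5) (nat_lit 6) (nat_lit 4) (nat_lit 4) (nat_lit 4) (nat_lit 380) (nat_lit 322) (nat_lit 198))) (XT.nd (nat_lit 78) (nat_lit 0) (nat_lit 0) (XT.lf (nat_lit 0) (nat_lit 177201136147) (nat_lit 152) (nat_lit 306738319237) (nat_lit 0) (nat_lit 101062122841) (nat_lit 4) (nat_lit 5) (nat_lit 6) (nat_lit 4) (nat_lit 4) (nat_lit 4) (nat_lit 381) (nat_lit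 322) (nat_lit 197)) (XT.lf (nat_lit 0) (nat_lit 231789264329) (nat_lit 152) (nat_lit 240623731117) (nat_lit 0) (nat_lit 155649876625) (nat_lit 4) (nat_lit 5) (nat_lit 6) (nat_lit 4) (nat_lit 4) (nat_lit 4) (nat_lit 382) (nat_lit 322) (nat_lit 196)))) (XT.nd (nat_lit 156) (nat_lit 76) (nat_lit 0) (XT.nd (nat_lit 78) (nat_lit 0) (nat_lit 0) (XT.lf (nat_lit 0) (nat_lit 290744002447) (nat_lit 152) (nat_lit 169220834300) (nat_lit 0) (nat_lit 214604268079) (nat_lit 4) (nat_lit 5) (nat_lit 6) (nat_lit 4) (nat_lit 4) (nat_lit 4) (nat_lit 383) (nat_lit 322) (nat_lit 195)) (XT.lf (nat_lit 0) (nat_lit 354414711912) (nat_lit 152) (nat_lit 92106500510) (nat_lit 0) (nat_lit 278274656559) (nat_lit 4) (nat_lit 5) (nat_lit 6) (nat_lit 4) (nat_lit 4) (nat_lit 4) (nat_lit 384) (nat_lit 322) (nat_lit 194))) (XT.nd (nat_lit 78) (nat_lit 76) (nat_lit 0) (XT.lf (nat_lit 0) (nat_lit 423178700632) (nat_lit 152)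 (nat_lit 8823755917) (nat_lit 0) (nat_lit 347038348070) (nat_lit 4) (nat_lit 5) (nat_lit 6) (nat_lit 4) (nat_lit 4) (nat_lit 4) (nat_lit 385) (nat_lit 322) (nat_lit 193)) (XT.nd (nat_lit 78) (nat_lit 0) (nat_lit 0) (XT.lf (nat_lit 0) (nat_lit 85392611104) (nat_lit 76) (nat_lit 414104542156) (nat_lit 76) (nat_lit 337963914401) (nat_lit 3) (nat_lit 4) (nat_lit 4) (nat_lit 5) (nat_lit 4) (nat_lit 4) (nat_lit 386) (nat_lit 322) (nat_lit 192)) (XT.lf (nat_lit 0) (nat_lit 187647438167) (nat_lit 76) (nat_lit 394514561437) (nat_lit 76) (nat_lit 318373678873) (nat_lit 3) (nat_lit 4) (nat_lit 4) (nat_lit 5) (nat_lit 4) (nat_lit 4) (nat_lit 387) (nat_lit 322) (nat_lit 191))))))))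
noncomputable def xc163 : XT := (XT.nd (nat_lit 1326) (nat_lit 0) (nat_lit 0) (XT.nd (nat_lit 624) (nat_lit 152) (nat_lit 0) (XT.nd (nat_lit 312) (nat_lit 0) (nat_lit 0) (XT.nd (nat_lit 156) (nat_lit 0) (nat_lit 0) (XT.nd (nat_lit 78) (nat_lit 0) (nat_lit 0) (XT.lf (nat_lit 0) (nat_lit 298082036452) (nat_lit 76) (nat_lit 373357682740) (nat_lit 76) (nat_lit 297216564242) (nat_lit 3) (nat_lit 4) (nat_lit 4) (nat_lit 5) (nat_lit 4) (nat_lit 4) (nat_lit 388) (nat_lit 322) (nat_lit 190)) (XT.lf (nat_lit 0) (nat_lit 417350833208) (nat_lit 76) (nat_lit 350508531969) (nat_lit 76) (nat_lit 274367195014) (nat_lit 3) (nat_lit 4) (nat_lit 4) (nat_lit 5) (nat_lit 4) (nat_lit 4) (nat_lit 389) (nat_lit 322) (nat_lit 189))) (XT.nd (nat_lit 78) (nat_lit 0) (nat_lit 0) (XT.lf (nat_lit 0) (nat_lit 546160606491) (nat_lit 76) (nat_lit 325831706750) (nat_lit 76) (nat_lit 249690167520) (nat_lit 3) (nat_lit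 4) (nat_lit 4) (nat_lit 5) (nat_lit 4) (nat_lit 4) (nat_lit 390) (nat_lit 322) (nat_lit 188)) (XT.lf (nat_lit 0) (nat_lit 685274673474) (nat_lit 76) (nat_lit 299180974044) (nat_lit 76) (nat_lit 223039247522) (nat_lit 3) (nat_lit 4) (nat_lit 4) (nat_lit 5) (nat_lit 4) (nat_lit 4) (nat_lit 391) (nat_lit 322) (nat_lit 187)))) (XT.nd (nat_lit 156) (nat_lit 0) (nat_lit 0) (XT.nd (nat_lit 78) (nat_lit 0) (nat_lit 0) (XT.lf (nat_lit 0) (nat_lit 835517413815) (nat_lit 76) (nat_lit 270398403584) (nat_lit 76) (nat_lit 194256503643) (nat_lit 3) (nat_lit 4) (nat_lit 4) (nat_lit 5) (nat_lit 4) (nat_lit 4) (nat_lit 392) (nat_lit 322) (nat_lit 186)) (XT.lf (nat_lit 0) (nat_lit 997779154863) (nat_lit 76) (nat_lit 239313431988) (nat_lit 76) (nat_lit 163171371475) (nat_lit 3) (nat_lit 4) (nat_lit 4) (nat_lit 5) (nat_lit 4) (nat_lit 4) (nat_lit 393) (nat_lit 322) (nat_lit 185))) (XT.nd (nat_lit 78) (nat_lit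 0) (nat_lit 0) (XT.lf (nat_lit 0) (nat_lit 1173021447677) (nat_lit 76) (nat_lit 205741852018) (nat_lit 76) (nat_lit 129599642826) (nat_lit 3) (nat_lit 4) (nat_lit 4) (nat_lit 5) (nat_lit 4) (nat_lit 4) (nat_lit 394) (nat_lit 322) (nat_lit 184)) (XT.lf (nat_lit 0) (nat_lit 1362282765102) (nat_lit 76) (nat_lit 169484720978) (nat_lit 76) (nat_lit 93342374121) (nat_lit 3) (nat_lit 4) (nat_lit 4) (nat_lit 5) (nat_lit 4) (nat_lit 4) (nat_lit 395) (nat_lit 322) (nat_lit 183))))) (XT.nd (nat_lit 312) (nat_lit 0) (nat_lit 0) (XT.nd (nat_lit 156) (nat_lit 152) (nat_lit 0) (XT.nd (nat_lit 78) (nat_lit 0) (nat_lit 0) (XT.lf (nat_lit 0) (nat_lit 1566684655687) (nat_lit 76) (nat_lit 130327181795) (nat_lit 76) (nat_lit 54184707469) (nat_lit 3) (nat_lit 4) (nat_lit 4) (nat_lit 5) (nat_lit 4) (nat_lit 4) (nat_lit 396) (nat_lit 322) (nat_lit 182)) (XT.lf (nat_lit 0) (nat_lit 1787438389895) (nat_lit 76)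 (nat_lit 88037189791) (nat_lit 76) (nat_lit 11894597440) (nat_lit 3) (nat_lit 4) (nat_lit 4) (nat_lit 5) (nat_lit 4) (nat_lit 4) (nat_lit 397) (nat_lit 322) (nat_lit 181))) (XT.nd (nat_lit 78) (nat_lit 76) (nat_lit 0) (XT.lf (nat_lit 0) (nat_lit 32088823448) (nat_lit 152) (nat_lit 9397948860) (nat_lit 76) (nat_lit 1992885949253) (nat_lit 2) (nat_lit 5) (nat_lit 4) (nat_lit 5) (nat_lit 3) (nat_lit 4) (nat_lit 398) (nat_lit 322) (nat_lit 180)) (XT.lf (nat_lit 0) (nat_lit 81455043990) (nat_lit 152) (nat_lit 2100502721320) (nat_lit 0) (nat_lit 10952448785) (nat_lit 1) (nat_lit 5) (nat_lit 3) (nat_lit 4) (nat_lit 1) (nat_lit 4) (nat_lit 399) (nat_lit 322) (nat_lit 179)))) (XT.nd (nat_lit 156) (nat_lit 0) (nat_lit 0) (XT.nd (nat_lit 78) (nat_lit 0) (nat_lit 0) (XT.lf (nat_lit 0) (nat_lit 136111633811) (nat_lit 152) (nat_lit 2162302834682) (nat_lit 0) (nat_lit 65608951853) (nat_lit 1) (nat_lit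 5) (nat_lit 3) (nat_lit 4) (nat_lit 1) (nat_lit 4) (nat_lit 400) (nat_lit 322) (nat_lit 178)) (XT.lf (nat_lit 0) (nat_lit 195140623373) (nat_lit 152) (nat_lit 2229047208871) (nat_lit 0) (nat_lit 124637861089) (nat_lit 1) (nat_lit 5) (nat_lit 3) (nat_lit 4) (nat_lit 1) (nat_lit 4) (nat_lit 401) (nat_lit 322) (nat_lit 177))) (XT.nd (nat_lit 78) (nat_lit 0) (nat_lit 0) (XT.lf (nat_lit 0) (nat_lit 258891814096) (nat_lit 152) (nat_lit 2301131366104) (nat_lit 0) (nat_lit 188388977436) (nat_lit 1) (nat_lit 5) (nat_lit 3) (nat_lit 4) (nat_lit 1) (nat_lit 4) (nat_lit 402) (nat_lit 322) (nat_lit 176)) (XT.nd (nat_lit 78) (nat_lit 0) (nat_lit 0) (XT.lf (nat_lit 0) (nat_lit 327742990815) (nat_lit 152) (nat_lit 2378982471758) (nat_lit 0) (nat_lit 257240085288) (nat_lit 1) (nat_lit 5) (nat_lit 3) (nat_lit 4) (nat_lit 1) (nat_lit 4) (nat_lit 403) (nat_lit 322) (nat_lit 175)) (XT.lf (nat_lit 0) (nat_lit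 402102160501) (nat_lit 152) (nat_lit 2463061865718) (nat_lit 0) (nat_lit 331599191209) (nat_lit 1) (nat_lit 5) (nat_lit 3) (nat_lit 4) (nat_lit 1) (nat_lit 4) (nat_lit 404) (nat_lit 322) (nat_lit 174))))))) (XT.nd (nat_lit 40716) (nat_lit 0) (nat_lit 2812) (XT.nd (nat_lit 312) (nat_lit 0) (nat_lit 0) (XT.nd (nat_lit 156) (nat_lit 0) (nat_lit 0) (XT.nd (nat_lit 78) (nat_lit 0) (nat_lit 0) (XT.lf (nat_lit 0) (nat_lit 482409970088) (nat_lit 152) (nat_lit 2553867796245) (nat_lit 0) (nat_lit 411906941753) (nat_lit 1) (nat_lit 5) (nat_lit 3) (nat_lit 4) (nat_lit 1) (nat_lit 4) (nat_lit 405) (nat_lit 322) (nat_lit 173)) (XT.lf (nat_lit 0) (nat_lit 569142317705) (nat_lit 152) (nat_lit 2651938372556) (nat_lit 0) (nat_lit 498639234701) (nat_lit 1) (nat_lit 5) (nat_lit 3) (nat_lit 4) (nat_lit 1) (nat_lit 4) (nat_lit 406) (nat_lit 322) (nat_lit 172))) (XT.nd (nat_lit 78) (nat_lit 0) (nat_lit 0) (XT.lf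 (nat_lit 0) (nat_lit 662813172820) (nat_lit 152) (nat_lit 2757854753622) (nat_lit 0) (nat_lit 592310039197) (nat_lit 1) (nat_lit 5) (nat_lit 3) (nat_lit 4) (nat_lit 1) (nat_lit 4) (nat_lit 407) (nat_lit 322) (nat_lit 171)) (XT.lf (nat_lit 0) (nat_lit 763977621982) (nat_lit 152) (nat_lit 2872244592071) (nat_lit 0) (nat_lit 693474441489) (nat_lit 1) (nat_lit 5) (nat_lit 3) (nat_lit 4) (nat_lit 1) (nat_lit 4) (nat_lit 408) (nat_lit 322) (nat_lit 170)))) (XT.nd (nat_lit 40170) (nat_lit 0) (nat_lit 3648) (XT.nd (nat_lit 78) (nat_lit 0) (nat_lit 0) (XT.lf (nat_lit 0) (nat_lit 873235158223) (nat_lit 152) (nat_lit 2995785753614) (nat_lit 0) (nat_lit 802731934332) (nat_lit 1) (nat_lit 5) (nat_lit 3) (nat_lit 4) (nat_lit 1) (nat_lit 4) (nat_lit 409) (nat_lit 322) (nat_lit 169)) (XT.lf (nat_lit 0) (nat_lit 991233233609) (nat_lit 152) (nat_lit 3129210334022) (nat_lit 0) (nat_lit 920729969535) (nat_lit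 1) (nat_lit 5) (nat_lit 3) (nat_lit 4) (nat_lit 1) (nat_lit 4) (nat_lit 410) (nat_lit 322) (nat_lit 168))) (XT.nd (nat_lit 78) (nat_lit 0) (nat_lit 0) (XT.lf (nat_lit 0) (nat_lit 7810923358) (nat_lit 532) (nat_lit 2102864904) (nat_lit 532) (nat_lit 2102864904) (nat_lit 49) (nat_lit 3) (nat_lit 56) (nat_lit 3) (nat_lit 56) (nat_lit 5) (nat_lit 323) (nat_lit 323) (nat_lit 254)) (XT.nd (nat_lit 78) (nat_lit 0) (nat_lit 76) (XT.lf (nat_lit 76) (nat_lit 7318239904) (nat_lit 0) (nat_lit 9209305494) (nat_lit 532) (nat_lit 8444366047) (nat_lit 50) (nat_lit 5) (nat_lit 49) (nat_lit 3) (nat_lit 56) (nat_lit 5) (nat_lit 324) (nat_lit 323) (nat_lit 253)) (XT.lf (nat_lit 0) (nat_lit 17667475252) (nat_lit 456) (nat_lit 6037360443) (nat_lit 532) (nat_lit 2267853378) (nat_lit 50) (nat_lit 5) (nat_lit 56) (nat_lit 5) (nat_lit 57) (nat_lit 5) (nat_lit 325) (nat_lit 323) (nat_lit 252)))))) (XT.nd (nat_lit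 312) (nat_lit 912) (nat_lit 0) (XT.nd (nat_lit 156) (nat_lit 0) (nat_lit 76) (XT.nd (nat_lit 78) (nat_lit 0) (nat_lit 0) (XT.lf (nat_lit 76) (nat_lit 6592382727) (nat_lit 0) (nat_lit 12694226781) (nat_lit 532) (nat_lit 7735902795) (nat_lit 51) (nat_lit 5) (nat_lit 50) (nat_lit 5) (nat_lit 57) (nat_lit 5) (nat_lit 326) (nat_lit 323) (nat_lit 251)) (XT.lf (nat_lit 76) (nat_lit 20569570862) (nat_lit 0) (nat_lit 621606401) (nat_lit 532) (nat_lit 6952694308) (nat_lit 51) (nat_lit 5) (nat_lit 50) (nat_lit 5) (nat_lit 57) (nat_lit 5) (nat_lit 327) (nat_lit 323) (nat_lit 250))) (XT.nd (nat_lit 78) (nat_lit 0) (nat_lit 0) (XT.lf (nat_lit 76) (nat_lit 6320987768) (nat_lit 0) (nat_lit 17369341565) (nat_lit 532) (nat_lit 5629253477) (nat_lit 52) (nat_lit 5) (nat_lit 51) (nat_lit 5) (nat_lit 58) (nat_lit 5) (nat_lit 328) (nat_lit 323) (nat_lit 249)) (XT.lf (nat_lit 76) (nat_lit 21735244159) (nat_lit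 0) (nat_lit 4869044989) (nat_lit 532) (nat_lit 3967890959) (nat_lit 52) (nat_lit 5) (nat_lit 51) (nat_lit 5) (nat_lit 58) (nat_lit 5) (nat_lit 329) (nat_lit 323) (nat_lit 248)))) (XT.nd (nat_lit 156) (nat_lit 532) (nat_lit 0) (XT.nd (nat_lit 78) (nat_lit 76) (nat_lit 0) (XT.lf (nat_lit 0) (nat_lit 6572262013) (nat_lit 456) (nat_lit 23537416702) (nat_lit 532) (nat_lit 1786659218) (nat_lit 46) (nat_lit 5) (nat_lit 52) (nat_lit 5) (nat_lit 53) (nat_lit 5) (nat_lit 330) (nat_lit 323) (nat_lit 247)) (XT.lf (nat_lit 0) (nat_lit 907826166) (nat_lit 532) (nat_lit 9743576651) (nat_lit 76) (nat_lit 22644568131) (nat_lit 45) (nat_lit 5) (nat_lit 52) (nat_lit 5) (nat_lit 46) (nat_lit 5) (nat_lit 331) (nat_lit 323) (nat_lit 246))) (XT.nd (nat_lit 78) (nat_lit 228) (nat_lit 0) (XT.lf (nat_lit 0) (nat_lit 3977095909) (nat_lit 380) (nat_lit 27473662252) (nat_lit 76) (nat_lit 3332657899) (nat_lit 41)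 (nat_lit 5) (nat_lit 46) (nat_lit 5) (nat_lit 42) (nat_lit 5) (nat_lit 332) (nat_lit 323) (nat_lit 245)) (XT.nd (nat_lit 78) (nat_lit 228) (nat_lit 0) (XT.lf (nat_lit 0) (nat_lit 7835627541) (nat_lit 380) (nat_lit 10377308161) (nat_lit 76) (nat_lit 18133436525) (nat_lit 41) (nat_lit 5) (nat_lit 46) (nat_lit 5) (nat_lit 42) (nat_lit 5) (nat_lit 333) (nat_lit 323) (nat_lit 244)) (XT.lf (nat_lit 0) (nat_lit 8506096048) (nat_lit 228) (nat_lit 3695515793) (nat_lit 304) (nat_lit 25816863538) (nat_lit 38) (nat_lit 5) (nat_lit 41) (nat_lit 5) (nat_lit 42) (nat_lit 5) (nat_lit 334) (nat_lit 323) (nat_lit 243))))))))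
noncomputable def xc164 : XT := (XT.nd (nat_lit 1326) (nat_lit 760) (nat_lit 0) (XT.nd (nat_lit 624) (nat_lit 608) (nat_lit 0) (XT.nd (nat_lit 312) (nat_lit 456) (nat_lit 0) (XT.nd (nat_lit 156) (nat_lit 152) (nat_lit 0) (XT.nd (nat_lit 78) (nat_lit 228) (nat_lit 0) (XT.lf (nat_lit 0) (nat_lit 17490648792) (nat_lit 304) (nat_lit 10613329134) (nat_lit 76) (nat_lit 11674478150) (nat_lit 38) (nat_lit 5) (nat_lit 42) (nat_lit 5) (nat_lit 39) (nat_lit 5) (nat_lit 335) (nat_lit 323) (nat_lit 242)) (XT.lf (nat_lit 0) (nat_lit 10206241034) (nat_lit 228) (nat_lit 13332896539) (nat_lit 304) (nat_lit 18113201721) (nat_lit 35) (nat_lit 5) (nat_lit 38) (nat_lit 5) (nat_lit 39) (nat_lit 5) (nat_lit 336) (nat_lit 323) (nat_lit 241))) (XT.nd (nat_lit 78) (nat_lit 152) (nat_lit 0) (XT.lf (nat_lit 0) (nat_lit 30427335549) (nat_lit 304) (nat_lit 10434697438) (nat_lit 76) (nat_lit 2785643384) (nat_lit 35)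 (nat_lit 5) (nat_lit 39) (nat_lit 5) (nat_lit 36) (nat_lit 5) (nat_lit 337) (nat_lit 323) (nat_lit 240)) (XT.lf (nat_lit 0) (nat_lit 12532491511) (nat_lit 152) (nat_lit 25977274281) (nat_lit 228) (nat_lit 7241429403) (nat_lit 33) (nat_lit 5) (nat_lit 35) (nat_lit 5) (nat_lit 36) (nat_lit 5) (nat_lit 338) (nat_lit 323) (nat_lit 239)))) (XT.nd (nat_lit 156) (nat_lit 152) (nat_lit 0) (XT.nd (nat_lit 78) (nat_lit 304) (nat_lit 0) (XT.lf (nat_lit 0) (nat_lit 37924890485) (nat_lit 152) (nat_lit 9594865467) (nat_lit 228) (nat_lit 480770569) (nat_lit 33) (nat_lit 5) (nat_lit 35) (nat_lit 5) (nat_lit 36) (nat_lit 5) (nat_lit 339) (nat_lit 323) (nat_lit 238)) (XT.lf (nat_lit 0) (nat_lit 7057504537) (nat_lit 304) (nat_lit 35069723945) (nat_lit 76) (nat_lit 8243222642) (nat_lit 29) (nat_lit 5) (nat_lit 33) (nat_lit 5) (nat_lit 30) (nat_lit 5) (nat_lit 340) (nat_lit 323) (nat_lit 237))) (XT.nd (nat_lit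 78) (nat_lit 152) (nat_lit 0) (XT.lf (nat_lit 0) (nat_lit 15700745489) (nat_lit 304) (nat_lit 9902140715) (nat_lit 76) (nat_lit 27283860791) (nat_lit 29) (nat_lit 5) (nat_lit 33) (nat_lit 5) (nat_lit 30) (nat_lit 5) (nat_lit 341) (nat_lit 323) (nat_lit 236)) (XT.lf (nat_lit 0) (nat_lit 18183304118) (nat_lit 152) (nat_lit 7285764791) (nat_lit 228) (nat_lit 30100593826) (nat_lit 27) (nat_lit 5) (nat_lit 29) (nat_lit 5) (nat_lit 30) (nat_lit 5) (nat_lit 342) (nat_lit 323) (nat_lit 235))))) (XT.nd (nat_lit 312) (nat_lit 304) (nat_lit 0) (XT.nd (nat_lit 156) (nat_lit 152) (nat_lit 0) (XT.nd (nat_lit 78) (nat_lit 152) (nat_lit 0) (XT.lf (nat_lit 0) (nat_lit 36593610061) (nat_lit 228) (nat_lit 9679672982) (nat_lit 76) (nat_lit 12147954148) (nat_lit 27) (nat_lit 5) (nat_lit 30) (nat_lit 5) (nat_lit 28) (nat_lit 5) (nat_lit 343) (nat_lit 323) (nat_lit 234)) (XT.lf (nat_lit 0) (nat_lit 21105194695)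 (nat_lit 152) (nat_lit 28196436220) (nat_lit 228) (nat_lit 12143830566) (nat_lit 25) (nat_lit 5) (nat_lit 27) (nat_lit 5) (nat_lit 28) (nat_lit 5) (nat_lit 344) (nat_lit 323) (nat_lit 233))) (XT.nd (nat_lit 78) (nat_lit 152) (nat_lit 0) (XT.lf (nat_lit 0) (nat_lit 54898587417) (nat_lit 152) (nat_lit 8389191170) (nat_lit 228) (nat_lit 1402931121) (nat_lit 25) (nat_lit 5) (nat_lit 27) (nat_lit 5) (nat_lit 28) (nat_lit 5) (nat_lit 345) (nat_lit 323) (nat_lit 232)) (XT.lf (nat_lit 0) (nat_lit 10599265265) (nat_lit 152) (nat_lit 44305287780) (nat_lit 76) (nat_lit 13198438779) (nat_lit 23) (nat_lit 5) (nat_lit 25) (nat_lit 5) (nat_lit 24) (nat_lit 5) (nat_lit 346) (nat_lit 323) (nat_lit 231)))) (XT.nd (nat_lit 156) (nat_lit 152) (nat_lit 0) (XT.nd (nat_lit 78) (nat_lit 152) (nat_lit 0) (XT.lf (nat_lit 0) (nat_lit 23975491516) (nat_lit 152) (nat_lit 11401179602) (nat_lit 76) (nat_lit 36369502116)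 (nat_lit 23) (nat_lit 5) (nat_lit 25) (nat_lit 5) (nat_lit 24) (nat_lit 5) (nat_lit 347) (nat_lit 323) (nat_lit 230)) (XT.lf (nat_lit 0) (nat_lit 25401644822) (nat_lit 152) (nat_lit 13628358710) (nat_lit 228) (nat_lit 36602154144) (nat_lit 21) (nat_lit 5) (nat_lit 23) (nat_lit 5) (nat_lit 24) (nat_lit 5) (nat_lit 348) (nat_lit 323) (nat_lit 229))) (XT.nd (nat_lit 78) (nat_lit 152) (nat_lit 0) (XT.lf (nat_lit 0) (nat_lit 55843171048) (nat_lit 228) (nat_lit 14256589624) (nat_lit 76) (nat_lit 9684919908) (nat_lit 21) (nat_lit 5) (nat_lit 24) (nat_lit 5) (nat_lit 22) (nat_lit 4) (nat_lit 349) (nat_lit 323) (nat_lit 228)) (XT.nd (nat_lit 78) (nat_lit 76) (nat_lit 0) (XT.lf (nat_lit 0) (nat_lit 25513505111) (nat_lit 76) (nat_lit 49453007982) (nat_lit 152) (nat_lit 9225685563) (nat_lit 20) (nat_lit 5) (nat_lit 21) (nat_lit 5) (nat_lit 22) (nat_lit 4) (nat_lit 350) (nat_lit 323) (nat_lit 227))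 (XT.lf (nat_lit 0) (nat_lit 6731359416) (nat_lit 152) (nat_lit 19819694196) (nat_lit 76) (nat_lit 62356640210) (nat_lit 19) (nat_lit 5) (nat_lit 21) (nat_lit 5) (nat_lit 20) (nat_lit 5) (nat_lit 351) (nat_lit 323) (nat_lit 226))))))) (XT.nd (nat_lit 624) (nat_lit 304) (nat_lit 0) (XT.nd (nat_lit 312) (nat_lit 228) (nat_lit 0) (XT.nd (nat_lit 156) (nat_lit 76) (nat_lit 0) (XT.nd (nat_lit 78) (nat_lit 0) (nat_lit 0) (XT.lf (nat_lit 0) (nat_lit 23058081018) (nat_lit 152) (nat_lit 960748979) (nat_lit 228) (nat_lit 69918247661) (nat_lit 17) (nat_lit 5) (nat_lit 19) (nat_lit 5) (nat_lit 20) (nat_lit 5) (nat_lit 352) (nat_lit 323) (nat_lit 225)) (XT.lf (nat_lit 0) (nat_lit 43884640493) (nat_lit 228) (nat_lit 29491690100) (nat_lit 76) (nat_lit 25896856454) (nat_lit 17) (nat_lit 5) (nat_lit 20) (nat_lit 5) (nat_lit 18) (nat_lit 4) (nat_lit 353) (nat_lit 323) (nat_lit 224))) (XT.nd (nat_lit 78)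 (nat_lit 0) (nat_lit 0) (XT.lf (nat_lit 0) (nat_lit 15977362244) (nat_lit 76) (nat_lit 49769512229) (nat_lit 152) (nat_lit 39256740082) (nat_lit 16) (nat_lit 5) (nat_lit 17) (nat_lit 5) (nat_lit 18) (nat_lit 4) (nat_lit 354) (nat_lit 323) (nat_lit 223)) (XT.lf (nat_lit 0) (nat_lit 66757710288) (nat_lit 76) (nat_lit 23404749219) (nat_lit 152) (nat_lit 20965668879) (nat_lit 16) (nat_lit 5) (nat_lit 17) (nat_lit 5) (nat_lit 18) (nat_lit 4) (nat_lit 355) (nat_lit 323) (nat_lit 222)))) (XT.nd (nat_lit 156) (nat_lit 76) (nat_lit 0) (XT.nd (nat_lit 78) (nat_lit 76) (nat_lit 0) (XT.lf (nat_lit 0) (nat_lit 3929216172) (nat_lit 76) (nat_lit 112816618700) (nat_lit 76) (nat_lit 979606736) (nat_lit 15) (nat_lit 4) (nat_lit 16) (nat_lit 5) (nat_lit 16) (nat_lit 4) (nat_lit 356) (nat_lit 323) (nat_lit 221)) (XT.lf (nat_lit 0) (nat_lit 21425313917) (nat_lit 152) (nat_lit 67275588982) (nat_lit 76) (nat_lit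 35961934900) (nat_lit 14) (nat_lit 5) (nat_lit 16) (nat_lit 5) (nat_lit 15) (nat_lit 4) (nat_lit 357) (nat_lit 323) (nat_lit 220))) (XT.nd (nat_lit 78) (nat_lit 76) (nat_lit 0) (XT.lf (nat_lit 0) (nat_lit 45567985394) (nat_lit 152) (nat_lit 17061823019) (nat_lit 76) (nat_lit 69523520618) (nat_lit 14) (nat_lit 5) (nat_lit 16) (nat_lit 5) (nat_lit 15) (nat_lit 4) (nat_lit 358) (nat_lit 323) (nat_lit 219)) (XT.lf (nat_lit 0) (nat_lit 39123301044) (nat_lit 76) (nat_lit 33458094561) (nat_lit 152) (nat_lit 67586519255) (nat_lit 13) (nat_lit 5) (nat_lit 14) (nat_lit 5) (nat_lit 15) (nat_lit 4) (nat_lit 359) (nat_lit 323) (nat_lit 218))))) (XT.nd (nat_lit 312) (nat_lit 152) (nat_lit 0) (XT.nd (nat_lit 156) (nat_lit 76) (nat_lit 0) (XT.nd (nat_lit 78) (nat_lit 76) (nat_lit 0) (XT.lf (nat_lit 0) (nat_lit 100770779011) (nat_lit 76) (nat_lit 1450059872) (nat_lit 152) (nat_lit 46565633054) (nat_lit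 13) (nat_lit 5) (nat_lit 14) (nat_lit 5) (nat_lit 15) (nat_lit 4) (nat_lit 360) (nat_lit 323) (nat_lit 217)) (XT.lf (nat_lit 0) (nat_lit 8901677048) (nat_lit 76) (nat_lit 126338895994) (nat_lit 76) (nat_lit 22773210819) (nat_lit 12) (nat_lit 4) (nat_lit 13) (nat_lit 5) (nat_lit 13) (nat_lit 4) (nat_lit 361) (nat_lit 323) (nat_lit 216))) (XT.nd (nat_lit 78) (nat_lit 0) (nat_lit 0) (XT.lf (nat_lit 0) (nat_lit 4159556375) (nat_lit 152) (nat_lit 94915843340) (nat_lit 76) (nat_lit 68787606742) (nat_lit 11) (nat_lit 5) (nat_lit 13) (nat_lit 5) (nat_lit 12) (nat_lit 4) (nat_lit 362) (nat_lit 323) (nat_lit 215)) (XT.lf (nat_lit 0) (nat_lit 32015261265) (nat_lit 152) (nat_lit 36977861823) (nat_lit 76) (nat_lit 109459830803) (nat_lit 11) (nat_lit 5) (nat_lit 13) (nat_lit 5) (nat_lit 12) (nat_lit 4) (nat_lit 363) (nat_lit 323) (nat_lit 214)))) (XT.nd (nat_lit 156) (nat_lit 76) (nat_lit 0) (XT.nd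 (nat_lit 78) (nat_lit 0) (nat_lit 0) (XT.lf (nat_lit 0) (nat_lit 26940545382) (nat_lit 76) (nat_lit 35805558314) (nat_lit 152) (nat_lit 127092259750) (nat_lit 10) (nat_lit 5) (nat_lit 11) (nat_lit 5) (nat_lit 12) (nat_lit 4) (nat_lit 364) (nat_lit 323) (nat_lit 213)) (XT.lf (nat_lit 0) (nat_lit 96972378546) (nat_lit 152) (nat_lit 104007786759) (nat_lit 0) (nat_lit 1071484015) (nat_lit 10) (nat_lit 5) (nat_lit 12) (nat_lit 4) (nat_lit 10) (nat_lit 4) (nat_lit 365) (nat_lit 323) (nat_lit 212))) (XT.nd (nat_lit 78) (nat_lit 76) (nat_lit 0) (XT.lf (nat_lit 0) (nat_lit 134865634548) (nat_lit 152) (nat_lit 41338699147) (nat_lit 0) (nat_lit 38963354739) (nat_lit 10) (nat_lit 5) (nat_lit 12) (nat_lit 4) (nat_lit 10) (nat_lit 4) (nat_lit 366) (nat_lit 323) (nat_lit 211)) (XT.nd (nat_lit 78) (nat_lit 0) (nat_lit 0) (XT.lf (nat_lit 0) (nat_lit 27729061648) (nat_lit 76) (nat_lit 148727122741) (nat_lit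 76) (nat_lit 52823560268) (nat_lit 9) (nat_lit 4) (nat_lit 10) (nat_lit 5) (nat_lit 10) (nat_lit 4) (nat_lit 367) (nat_lit 323) (nat_lit 210)) (XT.lf (nat_lit 0) (nat_lit 104671287936) (nat_lit 76) (nat_lit 117831943938) (nat_lit 76) (nat_lit 21927193813) (nat_lit 9) (nat_lit 4) (nat_lit 10) (nat_lit 5) (nat_lit 10) (nat_lit 4) (nat_lit 368) (nat_lit 323) (nat_lit 209))))))))
noncomputable def xc165 : XT := (XT.nd (nat_lit 1326) (nat_lit 228) (nat_lit 0) (XT.nd (nat_lit 624) (nat_lit 152) (nat_lit 0) (XT.nd (nat_lit 312) (nat_lit 76) (nat_lit 0) (XT.nd (nat_lit 156) (nat_lit 76) (nat_lit 0) (XT.nd (nat_lit 78) (nat_lit 0) (nat_lit 0) (XT.lf (nat_lit 0) (nat_lit 10867593545) (nat_lit 152) (nat_lit 73301255227) (nat_lit 76) (nat_lit 176602378198) (nat_lit 8) (nat_lit 5) (nat_lit 10) (nat_lit 5) (nat_lit 9) (nat_lit 4) (nat_lit 369) (nat_lit 323) (nat_lit 208)) (XT.lf (nat_lit 0) (nat_lit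 45100428520) (nat_lit 152) (nat_lit 2097976701) (nat_lit 76) (nat_lit 231175396402) (nat_lit 8) (nat_lit 5) (nat_lit 10) (nat_lit 5) (nat_lit 9) (nat_lit 4) (nat_lit 370) (nat_lit 323) (nat_lit 207))) (XT.nd (nat_lit 78) (nat_lit 0) (nat_lit 0) (XT.lf (nat_lit 0) (nat_lit 78738827778) (nat_lit 76) (nat_lit 5225902316) (nat_lit 152) (nat_lit 213268425411) (nat_lit 7) (nat_lit 5) (nat_lit 8) (nat_lit 5) (nat_lit 9) (nat_lit 4) (nat_lit 371) (nat_lit 323) (nat_lit 206)) (XT.lf (nat_lit 0) (nat_lit 126960716301) (nat_lit 152) (nat_lit 152402359097) (nat_lit 0) (nat_lit 38156379468) (nat_lit 7) (nat_lit 5) (nat_lit 9) (nat_lit 4) (nat_lit 7) (nat_lit 4) (nat_lit 372) (nat_lit 323) (nat_lit 205)))) (XT.nd (nat_lit 156) (nat_lit 76) (nat_lit 0) (XT.nd (nat_lit 78) (nat_lit 0) (nat_lit 0) (XT.lf (nat_lit 0) (nat_lit 173531356504) (nat_lit 152) (nat_lit 81160232796) (nat_lit 0) (nat_lit 84726271249)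 (nat_lit 7) (nat_lit 5) (nat_lit 9) (nat_lit 4) (nat_lit 7) (nat_lit 4) (nat_lit 373) (nat_lit 323) (nat_lit 204)) (XT.lf (nat_lit 0) (nat_lit 223826941792) (nat_lit 152) (nat_lit 4220090183) (nat_lit 0) (nat_lit 135021163553) (nat_lit 7) (nat_lit 5) (nat_lit 9) (nat_lit 4) (nat_lit 7) (nat_lit 4) (nat_lit 374) (nat_lit 323) (nat_lit 203))) (XT.nd (nat_lit 78) (nat_lit 0) (nat_lit 0) (XT.lf (nat_lit 0) (nat_lit 83027375933) (nat_lit 76) (nat_lit 197114954530) (nat_lit 76) (nat_lit 108308534641) (nat_lit 6) (nat_lit 4) (nat_lit 7) (nat_lit 5) (nat_lit 7) (nat_lit 4) (nat_lit 375) (nat_lit 323) (nat_lit 202)) (XT.lf (nat_lit 0) (nat_lit 177493417831) (nat_lit 76) (nat_lit 163584282366) (nat_lit 76) (nat_lit 74777268355) (nat_lit 6) (nat_lit 4) (nat_lit 7) (nat_lit 5) (nat_lit 7) (nat_lit 4) (nat_lit 376) (nat_lit 323) (nat_lit 201))))) (XT.nd (nat_lit 312) (nat_lit 0) (nat_lit 0) (XT.nd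 (nat_lit 156) (nat_lit 76) (nat_lit 0) (XT.nd (nat_lit 78) (nat_lit 76) (nat_lit 0) (XT.lf (nat_lit 0) (nat_lit 279515611804) (nat_lit 76) (nat_lit 127371699946) (nat_lit 76) (nat_lit 38564135822) (nat_lit 6) (nat_lit 4) (nat_lit 7) (nat_lit 5) (nat_lit 7) (nat_lit 4) (nat_lit 377) (nat_lit 323) (nat_lit 200)) (XT.lf (nat_lit 0) (nat_lit 518173213) (nat_lit 152) (nat_lit 87730273203) (nat_lit 76) (nat_lit 389166192831) (nat_lit 5) (nat_lit 5) (nat_lit 7) (nat_lit 5) (nat_lit 6) (nat_lit 4) (nat_lit 378) (nat_lit 323) (nat_lit 199))) (XT.nd (nat_lit 78) (nat_lit 76) (nat_lit 0) (XT.lf (nat_lit 0) (nat_lit 40643084749) (nat_lit 152) (nat_lit 4270928841) (nat_lit 76) (nat_lit 466940780995) (nat_lit 5) (nat_lit 5) (nat_lit 7) (nat_lit 5) (nat_lit 6) (nat_lit 4) (nat_lit 379) (nat_lit 323) (nat_lit 198)) (XT.lf (nat_lit 0) (nat_lit 86253126173) (nat_lit 152) (nat_lit 458592437972) (nat_lit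 0) (nat_lit 4022587453) (nat_lit 4) (nat_lit 5) (nat_lit 6) (nat_lit 4) (nat_lit 4) (nat_lit 4) (nat_lit 380) (nat_lit 323) (nat_lit 197)))) (XT.nd (nat_lit 156) (nat_lit 0) (nat_lit 0) (XT.nd (nat_lit 78) (nat_lit 0) (nat_lit 0) (XT.lf (nat_lit 0) (nat_lit 136797900996) (nat_lit 152) (nat_lit 397374814080) (nat_lit 0) (nat_lit 54566987878) (nat_lit 4) (nat_lit 5) (nat_lit 6) (nat_lit 4) (nat_lit 4) (nat_lit 4) (nat_lit 381) (nat_lit 323) (nat_lit 196)) (XT.lf (nat_lit 0) (nat_lit 191385817486) (nat_lit 152) (nat_lit 331260638630) (nat_lit 0) (nat_lit 109154557705) (nat_lit 4) (nat_lit 5) (nat_lit 6) (nat_lit 4) (nat_lit 4) (nat_lit 4) (nat_lit 382) (nat_lit 323) (nat_lit 195))) (XT.nd (nat_lit 78) (nat_lit 0) (nat_lit 0) (XT.lf (nat_lit 0) (nat_lit 250340359594) (nat_lit 152) (nat_lit 259858123915) (nat_lit 0) (nat_lit 168108778826) (nat_lit 4) (nat_lit 5) (nat_lit 6) (nat_lit 4) (nat_lit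 4) (nat_lit 4) (nat_lit 383) (nat_lit 323) (nat_lit 194)) (XT.nd (nat_lit 78) (nat_lit 0) (nat_lit 0) (XT.lf (nat_lit 0) (nat_lit 314010887567) (nat_lit 152) (nat_lit 182744143923) (nat_lit 0) (nat_lit 231779009591) (nat_lit 4) (nat_lit 5) (nat_lit 6) (nat_lit 4) (nat_lit 4) (nat_lit 4) (nat_lit 384) (nat_lit 323) (nat_lit 193)) (XT.lf (nat_lit 0) (nat_lit 382774708239) (nat_lit 152) (nat_lit 99461726920) (nat_lit 0) (nat_lit 300542555070) (nat_lit 4) (nat_lit 5) (nat_lit 6) (nat_lit 4) (nat_lit 4) (nat_lit 4) (nat_lit 385) (nat_lit 323) (nat_lit 192))))))) (XT.nd (nat_lit 624) (nat_lit 152) (nat_lit 0) (XT.nd (nat_lit 312) (nat_lit 0) (nat_lit 0) (XT.nd (nat_lit 156) (nat_lit 0) (nat_lit 0) (XT.nd (nat_lit 78) (nat_lit 76) (nat_lit 0) (XT.lf (nat_lit 0) (nat_lit 457039310918) (nat_lit 152) (nat_lit 9517347473) (nat_lit 0) (nat_lit 374806902940) (nat_lit 4) (nat_lit 5) (nat_lit 6) (nat_lit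 4) (nat_lit 4) (nat_lit 4) (nat_lit 386) (nat_lit 323) (nat_lit 191)) (XT.lf (nat_lit 0) (nat_lit 92236017292) (nat_lit 76) (nat_lit 447227043279) (nat_lit 76) (nat_lit 364994399367) (nat_lit 3) (nat_lit 4) (nat_lit 4) (nat_lit 5) (nat_lit 4) (nat_lit 4) (nat_lit 387) (nat_lit 323) (nat_lit 190))) (XT.nd (nat_lit 78) (nat_lit 0) (nat_lit 0) (XT.lf (nat_lit 0) (nat_lit 202670341831) (nat_lit 76) (nat_lit 426070298343) (nat_lit 76) (nat_lit 343837435974) (nat_lit 3) (nat_lit 4) (nat_lit 4) (nat_lit 5) (nat_lit 4) (nat_lit 4) (nat_lit 388) (nat_lit 323) (nat_lit 189)) (XT.lf (nat_lit 0) (nat_lit 321938885119) (nat_lit 76) (nat_lit 403221271425) (nat_lit 76) (nat_lit 320988206780) (nat_lit 3) (nat_lit 4) (nat_lit 4) (nat_lit 5) (nat_lit 4) (nat_lit 4) (nat_lit 389) (nat_lit 323) (nat_lit 188)))) (XT.nd (nat_lit 156) (nat_lit 0) (nat_lit 0) (XT.nd (nat_lit 78) (nat_lit 0) (nat_lit 0) (XT.lf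 (nat_lit 0) (nat_lit 450748423708) (nat_lit 76) (nat_lit 378544560884) (nat_lit 76) (nat_lit 296311308948) (nat_lit 3) (nat_lit 4) (nat_lit 4) (nat_lit 5) (nat_lit 4) (nat_lit 4) (nat_lit 390) (nat_lit 323) (nat_lit 187)) (XT.lf (nat_lit 0) (nat_lit 589862273383) (nat_lit 76) (nat_lit 351893934362) (nat_lit 76) (nat_lit 269660509007) (nat_lit 3) (nat_lit 4) (nat_lit 4) (nat_lit 5) (nat_lit 4) (nat_lit 4) (nat_lit 391) (nat_lit 323) (nat_lit 186))) (XT.nd (nat_lit 78) (nat_lit 0) (nat_lit 0) (XT.lf (nat_lit 0) (nat_lit 740104812512) (nat_lit 76) (nat_lit 323111462220) (nat_lit 76) (nat_lit 240877876292) (nat_lit 3) (nat_lit 4) (nat_lit 4) (nat_lit 5) (nat_lit 4) (nat_lit 4) (nat_lit 392) (nat_lit 323) (nat_lit 185)) (XT.lf (nat_lit 0) (nat_lit 902366367254) (nat_lit 76) (nat_lit 292026581659) (nat_lit 76) (nat_lit 209792847053) (nat_lit 3) (nat_lit 4) (nat_lit 4) (nat_lit 5) (nat_lit 4)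 (nat_lit 4) (nat_lit 393) (nat_lit 323) (nat_lit 184))))) (XT.nd (nat_lit 312) (nat_lit 152) (nat_lit 0) (XT.nd (nat_lit 156) (nat_lit 0) (nat_lit 0) (XT.nd (nat_lit 78) (nat_lit 0) (nat_lit 0) (XT.lf (nat_lit 0) (nat_lit 1077608487561) (nat_lit 76) (nat_lit 258455085981) (nat_lit 76) (nat_lit 176221213710) (nat_lit 3) (nat_lit 4) (nat_lit 4) (nat_lit 5) (nat_lit 4) (nat_lit 4) (nat_lit 394) (nat_lit 323) (nat_lit 183)) (XT.lf (nat_lit 0) (nat_lit 1266869645258) (nat_lit 76) (nat_lit 222198032989) (nat_lit 76) (nat_lit 139964033250) (nat_lit 3) (nat_lit 4) (nat_lit 4) (nat_lit 5) (nat_lit 4) (nat_lit 4) (nat_lit 395) (nat_lit 323) (nat_lit 182))) (XT.nd (nat_lit 78) (nat_lit 0) (nat_lit 0) (XT.lf (nat_lit 0) (nat_lit 1471271387947) (nat_lit 76) (nat_lit 183040566072) (nat_lit 76) (nat_lit 100806448308) (nat_lit 3) (nat_lit 4) (nat_lit 4) (nat_lit 5) (nat_lit 4) (nat_lit 4) (nat_lit 396)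 (nat_lit 323) (nat_lit 181)) (XT.lf (nat_lit 0) (nat_lit 1692024985213) (nat_lit 76) (nat_lit 140750640982) (nat_lit 76) (nat_lit 58516413935) (nat_lit 3) (nat_lit 4) (nat_lit 4) (nat_lit 5) (nat_lit 4) (nat_lit 4) (nat_lit 397) (nat_lit 323) (nat_lit 180)))) (XT.nd (nat_lit 156) (nat_lit 76) (nat_lit 0) (XT.nd (nat_lit 78) (nat_lit 76) (nat_lit 0) (XT.lf (nat_lit 0) (nat_lit 1930438606522) (nat_lit 76) (nat_lit 95077650756) (nat_lit 76) (nat_lit 12843322521) (nat_lit 3) (nat_lit 4) (nat_lit 4) (nat_lit 5) (nat_lit 4) (nat_lit 4) (nat_lit 398) (nat_lit 323) (nat_lit 179)) (XT.lf (nat_lit 0) (nat_lit 34658429797) (nat_lit 152) (nat_lit 10144887948) (nat_lit 76) (nat_lit 2152319020645) (nat_lit 2) (nat_lit 5) (nat_lit 4) (nat_lit 5) (nat_lit 3) (nat_lit 4) (nat_lit 399) (nat_lit 323) (nat_lit 178))) (XT.nd (nat_lit 78) (nat_lit 0) (nat_lit 0) (XT.lf (nat_lit 0) (nat_lit 87973933894) (nat_lit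 152) (nat_lit 2268538027323) (nat_lit 0) (nat_lit 11830870301) (nat_lit 1) (nat_lit 5) (nat_lit 3) (nat_lit 4) (nat_lit 1) (nat_lit 4) (nat_lit 400) (nat_lit 323) (nat_lit 177)) (XT.nd (nat_lit 78) (nat_lit 0) (nat_lit 0) (XT.lf (nat_lit 0) (nat_lit 147002866724) (nat_lit 152) (nat_lit 2335282513584) (nat_lit 0) (nat_lit 70859728755) (nat_lit 1) (nat_lit 5) (nat_lit 3) (nat_lit 4) (nat_lit 1) (nat_lit 4) (nat_lit 401) (nat_lit 323) (nat_lit 176)) (XT.lf (nat_lit 0) (nat_lit 210754004917) (nat_lit 152) (nat_lit 2407366774587) (nat_lit 0) (nat_lit 134610798081) (nat_lit 1) (nat_lit 5) (nat_lit 3) (nat_lit 4) (nat_lit 1) (nat_lit 4) (nat_lit 402) (nat_lit 323) (nat_lit 175))))))))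
noncomputable def xc166 : XT := (XT.nd (nat_lit 41418) (nat_lit 0) (nat_lit 1520) (XT.nd (nat_lit 40716) (nat_lit 0) (nat_lit 3344) (XT.nd (nat_lit 312) (nat_lit 0) (nat_lit 0) (XT.nd (nat_lit 156) (nat_lit 0) (nat_lit 0) (XT.nd (nat_lit 78) (nat_lit 0) (nat_lit 0) (XT.lf (nat_lit 0) (nat_lit 279605132996) (nat_lit 152) (nat_lit 2485217976325) (nat_lit 0) (nat_lit 203461862395) (nat_lit 1) (nat_lit 5) (nat_lit 3) (nat_lit 4) (nat_lit 1) (nat_lit 4) (nat_lit 403) (nat_lit 323) (nat_lit 174)) (XT.lf (nat_lit 0) (nat_lit 353964257647) (nat_lit 152) (nat_lit 2569297459251) (nat_lit 0) (nat_lit 277820928003) (nat_lit 1) (nat_lit 5) (nat_lit 3) (nat_lit 4) (nat_lit 1) (nat_lit 4) (nat_lit 404) (nat_lit 323) (nat_lit 173))) (XT.nd (nat_lit 78) (nat_lit 0) (nat_lit 0) (XT.lf (nat_lit 0) (nat_lit 434272025533) (nat_lit 152) (nat_lit 2660103472153) (nat_lit 0) (nat_lit 358128641221) (nat_lit 1)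 (nat_lit 5) (nat_lit 3) (nat_lit 4) (nat_lit 1) (nat_lit 4) (nat_lit 405) (nat_lit 323) (nat_lit 172)) (XT.lf (nat_lit 0) (nat_lit 521004334539) (nat_lit 152) (nat_lit 2758174124739) (nat_lit 0) (nat_lit 444860899607) (nat_lit 1) (nat_lit 5) (nat_lit 3) (nat_lit 4) (nat_lit 1) (nat_lit 4) (nat_lit 406) (nat_lit 323) (nat_lit 171)))) (XT.nd (nat_lit 156) (nat_lit 0) (nat_lit 0) (XT.nd (nat_lit 78) (nat_lit 0) (nat_lit 0) (XT.lf (nat_lit 0) (nat_lit 614675153903) (nat_lit 152) (nat_lit 2864090576429) (nat_lit 0) (nat_lit 538531672101) (nat_lit 1) (nat_lit 5) (nat_lit 3) (nat_lit 4) (nat_lit 1) (nat_lit 4) (nat_lit 407) (nat_lit 323) (nat_lit 170)) (XT.lf (nat_lit 0) (nat_lit 715839569962) (nat_lit 152) (nat_lit 2978480480271) (nat_lit 0) (nat_lit 639696044763) (nat_lit 1) (nat_lit 5) (nat_lit 3) (nat_lit 4) (nat_lit 1) (nat_lit 4) (nat_lit 408) (nat_lit 323) (nat_lit 169))) (XT.nd (nat_lit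 78) (nat_lit 0) (nat_lit 0) (XT.lf (nat_lit 0) (nat_lit 825097075552) (nat_lit 152) (nat_lit 3102021702363) (nat_lit 0) (nat_lit 748953510169) (nat_lit 1) (nat_lit 5) (nat_lit 3) (nat_lit 4) (nat_lit 1) (nat_lit 4) (nat_lit 409) (nat_lit 323) (nat_lit 168)) (XT.lf (nat_lit 0) (nat_lit 943095122558) (nat_lit 152) (nat_lit 3235446338835) (nat_lit 0) (nat_lit 866951519969) (nat_lit 1) (nat_lit 5) (nat_lit 3) (nat_lit 4) (nat_lit 1) (nat_lit 4) (nat_lit 410) (nat_lit 323) (nat_lit 167))))) (XT.nd (nat_lit 312) (nat_lit 304) (nat_lit 0) (XT.nd (nat_lit 156) (nat_lit 0) (nat_lit 76) (XT.nd (nat_lit 78) (nat_lit 0) (nat_lit 0) (XT.lf (nat_lit 0) (nat_lit 8538097247) (nat_lit 532) (nat_lit 2215724648) (nat_lit 532) (nat_lit 2215724648) (nat_lit 49) (nat_lit 3) (nat_lit 56) (nat_lit 3) (nat_lit 56) (nat_lit 5) (nat_lit 324) (nat_lit 324) (nat_lit 252)) (XT.lf (nat_lit 76) (nat_lit 8011634477)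 (nat_lit 0) (nat_lit 10030154884) (nat_lit 532) (nat_lit 8912039784) (nat_lit 50) (nat_lit 5) (nat_lit 49) (nat_lit 3) (nat_lit 56) (nat_lit 5) (nat_lit 325) (nat_lit 324) (nat_lit 251))) (XT.nd (nat_lit 78) (nat_lit 0) (nat_lit 0) (XT.lf (nat_lit 0) (nat_lit 19256815499) (nat_lit 456) (nat_lit 6403873979) (nat_lit 532) (nat_lit 2375302315) (nat_lit 50) (nat_lit 5) (nat_lit 56) (nat_lit 5) (nat_lit 57) (nat_lit 5) (nat_lit 326) (nat_lit 324) (nat_lit 250)) (XT.lf (nat_lit 76) (nat_lit 7233299902) (nat_lit 0) (nat_lit 13761878152) (nat_lit 532) (nat_lit 8175479395) (nat_lit 51) (nat_lit 5) (nat_lit 50) (nat_lit 5) (nat_lit 57) (nat_lit 5) (nat_lit 327) (nat_lit 324) (nat_lit 249)))) (XT.nd (nat_lit 156) (nat_lit 380) (nat_lit 0) (XT.nd (nat_lit 78) (nat_lit 0) (nat_lit 76) (XT.lf (nat_lit 76) (nat_lit 22320253714) (nat_lit 0) (nat_lit 719587902) (nat_lit 532) (nat_lit 7342895386) (nat_lit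 51) (nat_lit 5) (nat_lit 50) (nat_lit 5) (nat_lit 57) (nat_lit 5) (nat_lit 328) (nat_lit 324) (nat_lit 248)) (XT.lf (nat_lit 76) (nat_lit 6942578070) (nat_lit 0) (nat_lit 18786700173) (nat_lit 532) (nat_lit 5924026459) (nat_lit 52) (nat_lit 5) (nat_lit 51) (nat_lit 5) (nat_lit 58) (nat_lit 5) (nat_lit 329) (nat_lit 324) (nat_lit 247))) (XT.nd (nat_lit 78) (nat_lit 456) (nat_lit 0) (XT.lf (nat_lit 76) (nat_lit 23581388952) (nat_lit 0) (nat_lit 5284319776) (nat_lit 532) (nat_lit 4141278443) (nat_lit 52) (nat_lit 5) (nat_lit 51) (nat_lit 5) (nat_lit 58) (nat_lit 5) (nat_lit 330) (nat_lit 324) (nat_lit 246)) (XT.nd (nat_lit 78) (nat_lit 76) (nat_lit 0) (XT.lf (nat_lit 0) (nat_lit 7213944466) (nat_lit 456) (nat_lit 25429941472) (nat_lit 532) (nat_lit 1793826962) (nat_lit 46) (nat_lit 5) (nat_lit 52) (nat_lit 5) (nat_lit 53) (nat_lit 5) (nat_lit 331) (nat_lit 324) (nat_lit 245)) (XT.lf (nat_lit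 0) (nat_lit 1099872147) (nat_lit 532) (nat_lit 10409203146) (nat_lit 76) (nat_lit 24440764740) (nat_lit 45) (nat_lit 5) (nat_lit 52) (nat_lit 5) (nat_lit 46) (nat_lit 5) (nat_lit 332) (nat_lit 324) (nat_lit 244))))))) (XT.nd (nat_lit 624) (nat_lit 912) (nat_lit 0) (XT.nd (nat_lit 312) (nat_lit 380) (nat_lit 0) (XT.nd (nat_lit 156) (nat_lit 228) (nat_lit 0) (XT.nd (nat_lit 78) (nat_lit 0) (nat_lit 0) (XT.lf (nat_lit 0) (nat_lit 4408452060) (nat_lit 380) (nat_lit 29551228073) (nat_lit 76) (nat_lit 3597118021) (nat_lit 41) (nat_lit 5) (nat_lit 46) (nat_lit 5) (nat_lit 42) (nat_lit 5) (nat_lit 333) (nat_lit 324) (nat_lit 243)) (XT.lf (nat_lit 0) (nat_lit 8567281891) (nat_lit 380) (nat_lit 11096078778) (nat_lit 76) (nat_lit 19582118382) (nat_lit 41) (nat_lit 5) (nat_lit 46) (nat_lit 5) (nat_lit 42) (nat_lit 5) (nat_lit 334) (nat_lit 324) (nat_lit 242))) (XT.nd (nat_lit 78) (nat_lit 0) (nat_lit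 0) (XT.lf (nat_lit 0) (nat_lit 9295177160) (nat_lit 228) (nat_lit 3982216180) (nat_lit 304) (nat_lit 27774385437) (nat_lit 38) (nat_lit 5) (nat_lit 41) (nat_lit 5) (nat_lit 42) (nat_lit 5) (nat_lit 335) (nat_lit 324) (nat_lit 241)) (XT.lf (nat_lit 0) (nat_lit 18982370676) (nat_lit 304) (nat_lit 11354475991) (nat_lit 76) (nat_lit 12616300863) (nat_lit 38) (nat_lit 5) (nat_lit 42) (nat_lit 5) (nat_lit 39) (nat_lit 5) (nat_lit 336) (nat_lit 324) (nat_lit 240)))) (XT.nd (nat_lit 156) (nat_lit 152) (nat_lit 0) (XT.nd (nat_lit 78) (nat_lit 0) (nat_lit 0) (XT.lf (nat_lit 0) (nat_lit 11127927652) (nat_lit 228) (nat_lit 14382491038) (nat_lit 304) (nat_lit 19466882190) (nat_lit 35) (nat_lit 5) (nat_lit 38) (nat_lit 5) (nat_lit 39) (nat_lit 5) (nat_lit 337) (nat_lit 324) (nat_lit 239)) (XT.lf (nat_lit 0) (nat_lit 32943522260) (nat_lit 304) (nat_lit 11165766614) (nat_lit 76) (nat_lit 3023480923)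 (nat_lit 35) (nat_lit 5) (nat_lit 39) (nat_lit 5) (nat_lit 36) (nat_lit 5) (nat_lit 338) (nat_lit 324) (nat_lit 238))) (XT.nd (nat_lit 78) (nat_lit 0) (nat_lit 0) (XT.lf (nat_lit 0) (nat_lit 13636171967) (nat_lit 152) (nat_lit 28032731895) (nat_lit 228) (nat_lit 7735969613) (nat_lit 33) (nat_lit 5) (nat_lit 35) (nat_lit 5) (nat_lit 36) (nat_lit 5) (nat_lit 339) (nat_lit 324) (nat_lit 237)) (XT.lf (nat_lit 0) (nat_lit 41052475367) (nat_lit 152) (nat_lit 10341413659) (nat_lit 228) (nat_lit 440737639) (nat_lit 33) (nat_lit 5) (nat_lit 35) (nat_lit 5) (nat_lit 36) (nat_lit 5) (nat_lit 340) (nat_lit 324) (nat_lit 236))))) (XT.nd (nat_lit 312) (nat_lit 456) (nat_lit 0) (XT.nd (nat_lit 156) (nat_lit 152) (nat_lit 0) (XT.nd (nat_lit 78) (nat_lit 0) (nat_lit 0) (XT.lf (nat_lit 0) (nat_lit 7694011694) (nat_lit 304) (nat_lit 37774874756) (nat_lit 76) (nat_lit 8925330106) (nat_lit 29) (nat_lit 5)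 (nat_lit 33) (nat_lit 5) (nat_lit 30) (nat_lit 5) (nat_lit 341) (nat_lit 324) (nat_lit 235)) (XT.lf (nat_lit 0) (nat_lit 17023385493) (nat_lit 304) (nat_lit 10601323912) (nat_lit 76) (nat_lit 29487541554) (nat_lit 29) (nat_lit 5) (nat_lit 33) (nat_lit 5) (nat_lit 30) (nat_lit 5) (nat_lit 342) (nat_lit 324) (nat_lit 234))) (XT.nd (nat_lit 78) (nat_lit 0) (nat_lit 0) (XT.lf (nat_lit 0) (nat_lit 19728602379) (nat_lit 152) (nat_lit 7841820277) (nat_lit 228) (nat_lit 32439605574) (nat_lit 27) (nat_lit 5) (nat_lit 29) (nat_lit 5) (nat_lit 30) (nat_lit 5) (nat_lit 343) (nat_lit 324) (nat_lit 233)) (XT.lf (nat_lit 0) (nat_lit 39580796007) (nat_lit 228) (nat_lit 10365901656) (nat_lit 76) (nat_lit 13143368968) (nat_lit 27) (nat_lit 5) (nat_lit 30) (nat_lit 5) (nat_lit 28) (nat_lit 5) (nat_lit 344) (nat_lit 324) (nat_lit 232)))) (XT.nd (nat_lit 156) (nat_lit 304) (nat_lit 0) (XT.nd (nat_lit 78)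 (nat_lit 0) (nat_lit 0) (XT.lf (nat_lit 0) (nat_lit 22879523911) (nat_lit 152) (nat_lit 30423578832) (nat_lit 228) (nat_lit 13053321529) (nat_lit 25) (nat_lit 5) (nat_lit 27) (nat_lit 5) (nat_lit 28) (nat_lit 5) (nat_lit 345) (nat_lit 324) (nat_lit 231)) (XT.lf (nat_lit 0) (nat_lit 59370024078) (nat_lit 152) (nat_lit 9033870643) (nat_lit 228) (nat_lit 1457743868) (nat_lit 25) (nat_lit 5) (nat_lit 27) (nat_lit 5) (nat_lit 28) (nat_lit 5) (nat_lit 346) (nat_lit 324) (nat_lit 230))) (XT.nd (nat_lit 78) (nat_lit 152) (nat_lit 0) (XT.lf (nat_lit 0) (nat_lit 11500321464) (nat_lit 152) (nat_lit 47765711018) (nat_lit 76) (nat_lit 14280880572) (nat_lit 23) (nat_lit 5) (nat_lit 25) (nat_lit 5) (nat_lit 24) (nat_lit 5) (nat_lit 347) (nat_lit 324) (nat_lit 229)) (XT.nd (nat_lit 78) (nat_lit 152) (nat_lit 0) (XT.lf (nat_lit 0) (nat_lit 25942711371) (nat_lit 152) (nat_lit 12235496392) (nat_lit 76)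 (nat_lit 39303661072) (nat_lit 23) (nat_lit 5) (nat_lit 25) (nat_lit 5) (nat_lit 24) (nat_lit 5) (nat_lit 348) (nat_lit 324) (nat_lit 228)) (XT.lf (nat_lit 0) (nat_lit 27509584933) (nat_lit 152) (nat_lit 14690179610) (nat_lit 228) (nat_lit 39479117801) (nat_lit 21) (nat_lit 5) (nat_lit 23) (nat_lit 5) (nat_lit 24) (nat_lit 5) (nat_lit 349) (nat_lit 324) (nat_lit 227))))))))
noncomputable def xc167 : XT := (XT.nd (nat_lit 1326) (nat_lit 456) (nat_lit 0) (XT.nd (nat_lit 624) (nat_lit 380) (nat_lit 0) (XT.nd (nat_lit 312) (nat_lit 152) (nat_lit 0) (XT.nd (nat_lit 156) (nat_lit 228) (nat_lit 0) (XT.nd (nat_lit 78) (nat_lit 76) (nat_lit 0) (XT.lf (nat_lit 0) (nat_lit 60355110750) (nat_lit 228) (nat_lit 15323994294) (nat_lit 76) (nat_lit 10484736392) (nat_lit 21) (nat_lit 5) (nat_lit 24) (nat_lit 5) (nat_lit 22) (nat_lit 4) (nat_lit 350) (nat_lit 324) (nat_lit 226)) (XT.lf (nat_lit 0) (nat_lit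 27625856818) (nat_lit 76) (nat_lit 53380882156) (nat_lit 152) (nat_lit 9917352530) (nat_lit 20) (nat_lit 5) (nat_lit 21) (nat_lit 5) (nat_lit 22) (nat_lit 4) (nat_lit 351) (nat_lit 324) (nat_lit 225))) (XT.nd (nat_lit 78) (nat_lit 152) (nat_lit 0) (XT.lf (nat_lit 0) (nat_lit 7310671288) (nat_lit 152) (nat_lit 21337085739) (nat_lit 76) (nat_lit 67369244621) (nat_lit 19) (nat_lit 5) (nat_lit 21) (nat_lit 5) (nat_lit 20) (nat_lit 5) (nat_lit 352) (nat_lit 324) (nat_lit 224)) (XT.lf (nat_lit 0) (nat_lit 24969185316) (nat_lit 152) (nat_lit 1010530058) (nat_lit 228) (nat_lit 75469137965) (nat_lit 17) (nat_lit 5) (nat_lit 19) (nat_lit 5) (nat_lit 20) (nat_lit 5) (nat_lit 353) (nat_lit 324) (nat_lit 223)))) (XT.nd (nat_lit 156) (nat_lit 76) (nat_lit 0) (XT.nd (nat_lit 78) (nat_lit 76) (nat_lit 0) (XT.lf (nat_lit 0) (nat_lit 47432476755) (nat_lit 228) (nat_lit 31787139103) (nat_lit 76) (nat_lit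 27992423716) (nat_lit 17) (nat_lit 5) (nat_lit 20) (nat_lit 5) (nat_lit 18) (nat_lit 4) (nat_lit 354) (nat_lit 324) (nat_lit 222)) (XT.lf (nat_lit 0) (nat_lit 17317820056) (nat_lit 76) (nat_lit 53724621406) (nat_lit 152) (nat_lit 42358562418) (nat_lit 16) (nat_lit 5) (nat_lit 17) (nat_lit 5) (nat_lit 18) (nat_lit 4) (nat_lit 355) (nat_lit 324) (nat_lit 221))) (XT.nd (nat_lit 78) (nat_lit 76) (nat_lit 0) (XT.lf (nat_lit 0) (nat_lit 72155983438) (nat_lit 76) (nat_lit 25252636749) (nat_lit 152) (nat_lit 22607073434) (nat_lit 16) (nat_lit 5) (nat_lit 17) (nat_lit 5) (nat_lit 18) (nat_lit 4) (nat_lit 356) (nat_lit 324) (nat_lit 220)) (XT.lf (nat_lit 0) (nat_lit 4301793069) (nat_lit 76) (nat_lit 121816361999) (nat_lit 76) (nat_lit 1022680038) (nat_lit 15) (nat_lit 4) (nat_lit 16) (nat_lit 5) (nat_lit 16) (nat_lit 4) (nat_lit 357) (nat_lit 324) (nat_lit 219))))) (XT.nd (nat_lit 312) (nat_lit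 228) (nat_lit 0) (XT.nd (nat_lit 156) (nat_lit 76) (nat_lit 0) (XT.nd (nat_lit 78) (nat_lit 0) (nat_lit 0) (XT.lf (nat_lit 0) (nat_lit 23170384980) (nat_lit 152) (nat_lit 72602050376) (nat_lit 76) (nat_lit 38860920449) (nat_lit 14) (nat_lit 5) (nat_lit 16) (nat_lit 5) (nat_lit 15) (nat_lit 4) (nat_lit 358) (nat_lit 324) (nat_lit 218)) (XT.lf (nat_lit 0) (nat_lit 49242170476) (nat_lit 152) (nat_lit 18375300597) (nat_lit 76) (nat_lit 75105801117) (nat_lit 14) (nat_lit 5) (nat_lit 16) (nat_lit 5) (nat_lit 15) (nat_lit 4) (nat_lit 359) (nat_lit 324) (nat_lit 217))) (XT.nd (nat_lit 78) (nat_lit 0) (nat_lit 0) (XT.lf (nat_lit 0) (nat_lit 42303330397) (nat_lit 76) (nat_lit 36112400231) (nat_lit 152) (nat_lit 72963369825) (nat_lit 13) (nat_lit 5) (nat_lit 14) (nat_lit 5) (nat_lit 15) (nat_lit 4) (nat_lit 360) (nat_lit 324) (nat_lit 216)) (XT.lf (nat_lit 0) (nat_lit 108878890656) (nat_lit 76)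 (nat_lit 1545377722) (nat_lit 152) (nat_lit 50263040208) (nat_lit 13) (nat_lit 5) (nat_lit 14) (nat_lit 5) (nat_lit 15) (nat_lit 4) (nat_lit 361) (nat_lit 324) (nat_lit 215)))) (XT.nd (nat_lit 156) (nat_lit 76) (nat_lit 0) (XT.nd (nat_lit 78) (nat_lit 76) (nat_lit 0) (XT.lf (nat_lit 0) (nat_lit 9660628099) (nat_lit 76) (nat_lit 136424631461) (nat_lit 76) (nat_lit 24567573130) (nat_lit 12) (nat_lit 4) (nat_lit 13) (nat_lit 5) (nat_lit 13) (nat_lit 4) (nat_lit 362) (nat_lit 324) (nat_lit 214)) (XT.lf (nat_lit 0) (nat_lit 4516505298) (nat_lit 152) (nat_lit 102464472361) (nat_lit 76) (nat_lit 74309118593) (nat_lit 11) (nat_lit 5) (nat_lit 13) (nat_lit 5) (nat_lit 12) (nat_lit 4) (nat_lit 363) (nat_lit 324) (nat_lit 213))) (XT.nd (nat_lit 78) (nat_lit 76) (nat_lit 0) (XT.lf (nat_lit 0) (nat_lit 34598875141) (nat_lit 152) (nat_lit 39894758874) (nat_lit 76) (nat_lit 118233749963) (nat_lit 11)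 (nat_lit 5) (nat_lit 13) (nat_lit 5) (nat_lit 12) (nat_lit 4) (nat_lit 364) (nat_lit 324) (nat_lit 212)) (XT.nd (nat_lit 78) (nat_lit 0) (nat_lit 0) (XT.lf (nat_lit 0) (nat_lit 29136074530) (nat_lit 76) (nat_lit 38651420565) (nat_lit 152) (nat_lit 137236187487) (nat_lit 10) (nat_lit 5) (nat_lit 11) (nat_lit 5) (nat_lit 12) (nat_lit 4) (nat_lit 365) (nat_lit 324) (nat_lit 211)) (XT.lf (nat_lit 0) (nat_lit 104750678099) (nat_lit 152) (nat_lit 112289901784) (nat_lit 0) (nat_lit 1173547964) (nat_lit 10) (nat_lit 5) (nat_lit 12) (nat_lit 4) (nat_lit 10) (nat_lit 4) (nat_lit 366) (nat_lit 324) (nat_lit 210))))))) (XT.nd (nat_lit 702) (nat_lit 228) (nat_lit 0) (XT.nd (nat_lit 312) (nat_lit 76) (nat_lit 0) (XT.nd (nat_lit 156) (nat_lit 76) (nat_lit 0) (XT.nd (nat_lit 78) (nat_lit 76) (nat_lit 0) (XT.lf (nat_lit 0) (nat_lit 145673875376) (nat_lit 152) (nat_lit 44610139601) (nat_lit 0) (nat_lit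 42095557589) (nat_lit 10) (nat_lit 5) (nat_lit 12) (nat_lit 4) (nat_lit 10) (nat_lit 4) (nat_lit 367) (nat_lit 324) (nat_lit 209)) (XT.lf (nat_lit 0) (nat_lit 29982139388) (nat_lit 76) (nat_lit 160608958951) (nat_lit 76) (nat_lit 57029541486) (nat_lit 9) (nat_lit 4) (nat_lit 10) (nat_lit 5) (nat_lit 10) (nat_lit 4) (nat_lit 368) (nat_lit 324) (nat_lit 208))) (XT.nd (nat_lit 78) (nat_lit 76) (nat_lit 0) (XT.lf (nat_lit 0) (nat_lit 113077169497) (nat_lit 76) (nat_lit 127243375741) (nat_lit 76) (nat_lit 23662940056) (nat_lit 9) (nat_lit 4) (nat_lit 10) (nat_lit 5) (nat_lit 10) (nat_lit 4) (nat_lit 369) (nat_lit 324) (nat_lit 207)) (XT.lf (nat_lit 0) (nat_lit 11753211544) (nat_lit 152) (nat_lit 79134698469) (nat_lit 76) (nat_lit 190743709646) (nat_lit 8) (nat_lit 5) (nat_lit 10) (nat_lit 5) (nat_lit 9) (nat_lit 4) (nat_lit 370) (nat_lit 324) (nat_lit 206)))) (XT.nd (nat_lit 156) (nat_lit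 0) (nat_lit 0) (XT.nd (nat_lit 78) (nat_lit 76) (nat_lit 0) (XT.lf (nat_lit 0) (nat_lit 48723472537) (nat_lit 152) (nat_lit 2237428563) (nat_lit 76) (nat_lit 249681595885) (nat_lit 8) (nat_lit 5) (nat_lit 10) (nat_lit 5) (nat_lit 9) (nat_lit 4) (nat_lit 371) (nat_lit 324) (nat_lit 205)) (XT.lf (nat_lit 0) (nat_lit 85065601634) (nat_lit 76) (nat_lit 5630870178) (nat_lit 152) (nat_lit 230314163671) (nat_lit 7) (nat_lit 5) (nat_lit 8) (nat_lit 5) (nat_lit 9) (nat_lit 4) (nat_lit 372) (nat_lit 324) (nat_lit 204))) (XT.nd (nat_lit 78) (nat_lit 0) (nat_lit 0) (XT.lf (nat_lit 0) (nat_lit 137131349966) (nat_lit 152) (nat_lit 164568135847) (nat_lit 0) (nat_lit 41220416485) (nat_lit 7) (nat_lit 5) (nat_lit 9) (nat_lit 4) (nat_lit 7) (nat_lit 4) (nat_lit 373) (nat_lit 324) (nat_lit 203)) (XT.nd (nat_lit 78) (nat_lit 0) (nat_lit 0) (XT.lf (nat_lit 0) (nat_lit 187426620914) (nat_lit 152) (nat_lit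 87628595884) (nat_lit 0) (nat_lit 91515045782) (nat_lit 7) (nat_lit 5) (nat_lit 9) (nat_lit 4) (nat_lit 7) (nat_lit 4) (nat_lit 374) (nat_lit 324) (nat_lit 202)) (XT.lf (nat_lit 0) (nat_lit 241744908144) (nat_lit 152) (nat_lit 4535053383) (nat_lit 0) (nat_lit 145832738890) (nat_lit 7) (nat_lit 5) (nat_lit 9) (nat_lit 4) (nat_lit 7) (nat_lit 4) (nat_lit 375) (nat_lit 324) (nat_lit 201)))))) (XT.nd (nat_lit 312) (nat_lit 76) (nat_lit 0) (XT.nd (nat_lit 156) (nat_lit 76) (nat_lit 0) (XT.nd (nat_lit 78) (nat_lit 0) (nat_lit 0) (XT.lf (nat_lit 0) (nat_lit 89691636756) (nat_lit 76) (nat_lit 212873547066) (nat_lit 76) (nat_lit 116960827700) (nat_lit 6) (nat_lit 4) (nat_lit 7) (nat_lit 5) (nat_lit 7) (nat_lit 4) (nat_lit 376) (nat_lit 324) (nat_lit 200)) (XT.lf (nat_lit 0) (nat_lit 191713327135) (nat_lit 76) (nat_lit 176661206597) (nat_lit 76) (nat_lit 80747977867) (nat_lit 6) (nat_lit 4) (nat_lit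 7) (nat_lit 5) (nat_lit 7) (nat_lit 4) (nat_lit 377) (nat_lit 324) (nat_lit 199))) (XT.nd (nat_lit 78) (nat_lit 76) (nat_lit 0) (XT.lf (nat_lit 0) (nat_lit 301895782858) (nat_lit 76) (nat_lit 137552344870) (nat_lit 76) (nat_lit 41638644507) (nat_lit 6) (nat_lit 4) (nat_lit 7) (nat_lit 5) (nat_lit 7) (nat_lit 4) (nat_lit 378) (nat_lit 324) (nat_lit 198)) (XT.lf (nat_lit 0) (nat_lit 568970419) (nat_lit 152) (nat_lit 94730678588) (nat_lit 76) (nat_lit 420307409916) (nat_lit 5) (nat_lit 5) (nat_lit 7) (nat_lit 5) (nat_lit 6) (nat_lit 4) (nat_lit 379) (nat_lit 324) (nat_lit 197)))) (XT.nd (nat_lit 156) (nat_lit 0) (nat_lit 0) (XT.nd (nat_lit 78) (nat_lit 76) (nat_lit 0) (XT.lf (nat_lit 0) (nat_lit 43903182778) (nat_lit 152) (nat_lit 4595921230) (nat_lit 76) (nat_lit 504303378344) (nat_lit 5) (nat_lit 5) (nat_lit 7) (nat_lit 5) (nat_lit 6) (nat_lit 4) (nat_lit 380) (nat_lit 324) (nat_lit 196))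 (XT.lf (nat_lit 0) (nat_lit 93161966714) (nat_lit 152) (nat_lit 495263086864) (nat_lit 0) (nat_lit 4351859485) (nat_lit 4) (nat_lit 5) (nat_lit 6) (nat_lit 4) (nat_lit 4) (nat_lit 4) (nat_lit 381) (nat_lit 324) (nat_lit 195))) (XT.nd (nat_lit 78) (nat_lit 0) (nat_lit 0) (XT.lf (nat_lit 0) (nat_lit 147749687194) (nat_lit 152) (nat_lit 429149293516) (nat_lit 0) (nat_lit 58939258980) (nat_lit 4) (nat_lit 5) (nat_lit 6) (nat_lit 4) (nat_lit 4) (nat_lit 4) (nat_lit 382) (nat_lit 324) (nat_lit 194)) (XT.nd (nat_lit 78) (nat_lit 0) (nat_lit 0) (XT.lf (nat_lit 0) (nat_lit 206704047810) (nat_lit 152) (nat_lit 357747132599) (nat_lit 0) (nat_lit 117893322387) (nat_lit 4) (nat_lit 5) (nat_lit 6) (nat_lit 4) (nat_lit 4) (nat_lit 4) (nat_lit 383) (nat_lit 324) (nat_lit 193)) (XT.lf (nat_lit 0) (nat_lit 270374407735) (nat_lit 152) (nat_lit 280633480197) (nat_lit 0) (nat_lit 181563407119) (nat_lit 4)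 (nat_lit 5) (nat_lit 6) (nat_lit 4) (nat_lit 4) (nat_lit 4) (nat_lit 384) (nat_lit 324) (nat_lit 192))))))))
noncomputable def xc168 : XT := (XT.nd (nat_lit 1326) (nat_lit 0) (nat_lit 0) (XT.nd (nat_lit 624) (nat_lit 152) (nat_lit 0) (XT.nd (nat_lit 312) (nat_lit 0) (nat_lit 0) (XT.nd (nat_lit 156) (nat_lit 76) (nat_lit 0) (XT.nd (nat_lit 78) (nat_lit 0) (nat_lit 0) (XT.lf (nat_lit 0) (nat_lit 339138072808) (nat_lit 152) (nat_lit 197351366519) (nat_lit 0) (nat_lit 250326817383) (nat_lit 4) (nat_lit 5) (nat_lit 6) (nat_lit 4) (nat_lit 4) (nat_lit 4) (nat_lit 385) (nat_lit 324) (nat_lit 191)) (XT.lf (nat_lit 0) (nat_lit 413402531413) (nat_lit 152) (nat_lit 107407267928) (nat_lit 0) (nat_lit 324591040054) (nat_lit 4) (nat_lit 5) (nat_lit 6) (nat_lit 4) (nat_lit 4) (nat_lit 4) (nat_lit 386) (nat_lit 324) (nat_lit 190))) (XT.nd (nat_lit 78) (nat_lit 76) (nat_lit 0) (XT.lf (nat_lit 0) (nat_lit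 493607869231) (nat_lit 152) (nat_lit 10268182358) (nat_lit 0) (nat_lit 404796159415) (nat_lit 4) (nat_lit 5) (nat_lit 6) (nat_lit 4) (nat_lit 4) (nat_lit 4) (nat_lit 387) (nat_lit 324) (nat_lit 189)) (XT.lf (nat_lit 0) (nat_lit 99625184426) (nat_lit 76) (nat_lit 483000180808) (nat_lit 76) (nat_lit 394188268716) (nat_lit 3) (nat_lit 4) (nat_lit 4) (nat_lit 5) (nat_lit 4) (nat_lit 4) (nat_lit 388) (nat_lit 324) (nat_lit 188)))) (XT.nd (nat_lit 156) (nat_lit 0) (nat_lit 0) (XT.nd (nat_lit 78) (nat_lit 0) (nat_lit 0) (XT.lf (nat_lit 0) (nat_lit 218893493020) (nat_lit 76) (nat_lit 460151268568) (nat_lit 76) (nat_lit 371339169184) (nat_lit 3) (nat_lit 4) (nat_lit 4) (nat_lit 5) (nat_lit 4) (nat_lit 4) (nat_lit 389) (nat_lit 324) (nat_lit 187)) (XT.lf (nat_lit 0) (nat_lit 347702814301) (nat_lit 76) (nat_lit 435474664210) (nat_lit 76) (nat_lit 346662391409) (nat_lit 3) (nat_lit 4) (nat_lit 4)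 (nat_lit 5) (nat_lit 4) (nat_lit 4) (nat_lit 390) (nat_lit 324) (nat_lit 186))) (XT.nd (nat_lit 78) (nat_lit 0) (nat_lit 0) (XT.lf (nat_lit 0) (nat_lit 486816462765) (nat_lit 76) (nat_lit 408824136006) (nat_lit 76) (nat_lit 320011702632) (nat_lit 3) (nat_lit 4) (nat_lit 4) (nat_lit 5) (nat_lit 4) (nat_lit 4) (nat_lit 391) (nat_lit 324) (nat_lit 185)) (XT.lf (nat_lit 0) (nat_lit 637058815587) (nat_lit 76) (nat_lit 380041754899) (nat_lit 76) (nat_lit 291229172846) (nat_lit 3) (nat_lit 4) (nat_lit 4) (nat_lit 5) (nat_lit 4) (nat_lit 4) (nat_lit 392) (nat_lit 324) (nat_lit 184))))) (XT.nd (nat_lit 312) (nat_lit 152) (nat_lit 0) (XT.nd (nat_lit 156) (nat_lit 0) (nat_lit 0) (XT.nd (nat_lit 78) (nat_lit 0) (nat_lit 0) (XT.lf (nat_lit 0) (nat_lit 799320197822) (nat_lit 76) (nat_lit 348956958631) (nat_lit 76) (nat_lit 260144238913) (nat_lit 3) (nat_lit 4) (nat_lit 4) (nat_lit 5) (nat_lit 4) (nat_lit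 4) (nat_lit 393) (nat_lit 324) (nat_lit 183)) (XT.lf (nat_lit 0) (nat_lit 974562158402) (nat_lit 76) (nat_lit 315385541001) (nat_lit 76) (nat_lit 226572693815) (nat_lit 3) (nat_lit 4) (nat_lit 4) (nat_lit 5) (nat_lit 4) (nat_lit 4) (nat_lit 394) (nat_lit 324) (nat_lit 182))) (XT.nd (nat_lit 78) (nat_lit 0) (nat_lit 0) (XT.lf (nat_lit 0) (nat_lit 1163823168203) (nat_lit 76) (nat_lit 279128560275) (nat_lit 76) (nat_lit 190315595064) (nat_lit 3) (nat_lit 4) (nat_lit 4) (nat_lit 5) (nat_lit 4) (nat_lit 4) (nat_lit 395) (nat_lit 324) (nat_lit 181)) (XT.lf (nat_lit 0) (nat_lit 1368224773950) (nat_lit 76) (nat_lit 239971160272) (nat_lit 76) (nat_lit 151158085778) (nat_lit 3) (nat_lit 4) (nat_lit 4) (nat_lit 5) (nat_lit 4) (nat_lit 4) (nat_lit 396) (nat_lit 324) (nat_lit 180)))) (XT.nd (nat_lit 156) (nat_lit 152) (nat_lit 0) (XT.nd (nat_lit 78) (nat_lit 0) (nat_lit 0) (XT.lf (nat_lit 0) (nat_lit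 1588978244419) (nat_lit 76) (nat_lit 197681297139) (nat_lit 76) (nat_lit 108868121457) (nat_lit 3) (nat_lit 4) (nat_lit 4) (nat_lit 5) (nat_lit 4) (nat_lit 4) (nat_lit 397) (nat_lit 324) (nat_lit 179)) (XT.lf (nat_lit 0) (nat_lit 1827391748323) (nat_lit 76) (nat_lit 152008364281) (nat_lit 76) (nat_lit 63195094906) (nat_lit 3) (nat_lit 4) (nat_lit 4) (nat_lit 5) (nat_lit 4) (nat_lit 4) (nat_lit 398) (nat_lit 324) (nat_lit 178))) (XT.nd (nat_lit 78) (nat_lit 152) (nat_lit 0) (XT.lf (nat_lit 0) (nat_lit 2084878106426) (nat_lit 76) (nat_lit 102681707280) (nat_lit 76) (nat_lit 13868351152) (nat_lit 3) (nat_lit 4) (nat_lit 4) (nat_lit 5) (nat_lit 4) (nat_lit 4) (nat_lit 399) (nat_lit 324) (nat_lit 177)) (XT.nd (nat_lit 78) (nat_lit 76) (nat_lit 0) (XT.lf (nat_lit 0) (nat_lit 37433247934) (nat_lit 152) (nat_lit 10952280749) (nat_lit 76) (nat_lit 2324506424543) (nat_lit 2) (nat_lit 5) (nat_lit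 4) (nat_lit 5) (nat_lit 3) (nat_lit 4) (nat_lit 400) (nat_lit 324) (nat_lit 176)) (XT.lf (nat_lit 0) (nat_lit 95013980280) (nat_lit 152) (nat_lit 2450016858515) (nat_lit 0) (nat_lit 12779248030) (nat_lit 1) (nat_lit 5) (nat_lit 3) (nat_lit 4) (nat_lit 1) (nat_lit 4) (nat_lit 401) (nat_lit 324) (nat_lit 175))))))) (XT.nd (nat_lit 624) (nat_lit 0) (nat_lit 0) (XT.nd (nat_lit 312) (nat_lit 0) (nat_lit 0) (XT.nd (nat_lit 156) (nat_lit 0) (nat_lit 0) (XT.nd (nat_lit 78) (nat_lit 0) (nat_lit 0) (XT.lf (nat_lit 0) (nat_lit 158765069834) (nat_lit 152) (nat_lit 2522101215602) (nat_lit 0) (nat_lit 76530273819) (nat_lit 1) (nat_lit 5) (nat_lit 3) (nat_lit 4) (nat_lit 1) (nat_lit 4) (nat_lit 402) (nat_lit 324) (nat_lit 174)) (XT.lf (nat_lit 0) (nat_lit 227616152877) (nat_lit 152) (nat_lit 2599952506306) (nat_lit 0) (nat_lit 145381297820) (nat_lit 1) (nat_lit 5) (nat_lit 3) (nat_lit 4) (nat_lit 1)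 (nat_lit 4) (nat_lit 403) (nat_lit 324) (nat_lit 173))) (XT.nd (nat_lit 78) (nat_lit 0) (nat_lit 0) (XT.lf (nat_lit 0) (nat_lit 301975235828) (nat_lit 152) (nat_lit 2684032071608) (nat_lit 0) (nat_lit 219740326101) (nat_lit 1) (nat_lit 5) (nat_lit 3) (nat_lit 4) (nat_lit 1) (nat_lit 4) (nat_lit 404) (nat_lit 324) (nat_lit 172)) (XT.lf (nat_lit 0) (nat_lit 382282965103) (nat_lit 152) (nat_lit 2774838160785) (nat_lit 0) (nat_lit 300048004757) (nat_lit 1) (nat_lit 5) (nat_lit 3) (nat_lit 4) (nat_lit 1) (nat_lit 4) (nat_lit 405) (nat_lit 324) (nat_lit 171)))) (XT.nd (nat_lit 156) (nat_lit 0) (nat_lit 0) (XT.nd (nat_lit 78) (nat_lit 0) (nat_lit 0) (XT.lf (nat_lit 0) (nat_lit 469015238358) (nat_lit 152) (nat_lit 2872908883994) (nat_lit 0) (nat_lit 386780231142) (nat_lit 1) (nat_lit 5) (nat_lit 3) (nat_lit 4) (nat_lit 1) (nat_lit 4) (nat_lit 406) (nat_lit 324) (nat_lit 170)) (XT.lf (nat_lit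 0) (nat_lit 562686024619) (nat_lit 152) (nat_lit 2978825401077) (nat_lit 0) (nat_lit 480450974005) (nat_lit 1) (nat_lit 5) (nat_lit 3) (nat_lit 4) (nat_lit 1) (nat_lit 4) (nat_lit 407) (nat_lit 324) (nat_lit 169))) (XT.nd (nat_lit 78) (nat_lit 0) (nat_lit 0) (XT.lf (nat_lit 0) (nat_lit 663850410027) (nat_lit 152) (nat_lit 3093215365469) (nat_lit 0) (nat_lit 581615319230) (nat_lit 1) (nat_lit 5) (nat_lit 3) (nat_lit 4) (nat_lit 1) (nat_lit 4) (nat_lit 408) (nat_lit 324) (nat_lit 168)) (XT.lf (nat_lit 0) (nat_lit 773107887236) (nat_lit 152) (nat_lit 3216756643624) (nat_lit 0) (nat_lit 690872759233) (nat_lit 1) (nat_lit 5) (nat_lit 3) (nat_lit 4) (nat_lit 1) (nat_lit 4) (nat_lit 409) (nat_lit 324) (nat_lit 167))))) (XT.nd (nat_lit 40482) (nat_lit 0) (nat_lit 3420) (XT.nd (nat_lit 40326) (nat_lit 0) (nat_lit 3648) (XT.nd (nat_lit 40248) (nat_lit 0) (nat_lit 3648) (XT.lf (nat_lit 0) (nat_lit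 891105907964) (nat_lit 152) (nat_lit 3350181332007) (nat_lit 0) (nat_lit 808870745510) (nat_lit 1) (nat_lit 5) (nat_lit 3) (nat_lit 4) (nat_lit 1) (nat_lit 4) (nat_lit 410) (nat_lit 324) (nat_lit 166)) (XT.lf (nat_lit 0) (nat_lit 9308850806) (nat_lit 532) (nat_lit 2345512242) (nat_lit 532) (nat_lit 2345512242) (nat_lit 49) (nat_lit 3) (nat_lit 56) (nat_lit 3) (nat_lit 56) (nat_lit 5) (nat_lit 325) (nat_lit 325) (nat_lit 250))) (XT.nd (nat_lit 78) (nat_lit 0) (nat_lit 76) (XT.lf (nat_lit 76) (nat_lit 8745102427) (nat_lit 0) (nat_lit 10904673714) (nat_lit 532) (nat_lit 9446783190) (nat_lit 50) (nat_lit 5) (nat_lit 49) (nat_lit 3) (nat_lit 56) (nat_lit 5) (nat_lit 326) (nat_lit 325) (nat_lit 249)) (XT.lf (nat_lit 0) (nat_lit 20948202840) (nat_lit 456) (nat_lit 6816325102) (nat_lit 532) (nat_lit 2501901145) (nat_lit 50) (nat_lit 5) (nat_lit 56) (nat_lit 5) (nat_lit 57) (nat_lit 5) (nat_lit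 327) (nat_lit 325) (nat_lit 248)))) (XT.nd (nat_lit 156) (nat_lit 304) (nat_lit 0) (XT.nd (nat_lit 78) (nat_lit 0) (nat_lit 0) (XT.lf (nat_lit 76) (nat_lit 7909294619) (nat_lit 0) (nat_lit 14907507098) (nat_lit 532) (nat_lit 8675800648) (nat_lit 51) (nat_lit 5) (nat_lit 50) (nat_lit 5) (nat_lit 57) (nat_lit 5) (nat_lit 328) (nat_lit 325) (nat_lit 247)) (XT.lf (nat_lit 76) (nat_lit 24195995053) (nat_lit 0) (nat_lit 818524095) (nat_lit 532) (nat_lit 7787996370) (nat_lit 51) (nat_lit 5) (nat_lit 50) (nat_lit 5) (nat_lit 57) (nat_lit 5) (nat_lit 329) (nat_lit 325) (nat_lit 246))) (XT.nd (nat_lit 78) (nat_lit 380) (nat_lit 0) (XT.lf (nat_lit 76) (nat_lit 7597359556) (nat_lit 0) (nat_lit 20313479880) (nat_lit 532) (nat_lit 6264574694) (nat_lit 52) (nat_lit 5) (nat_lit 51) (nat_lit 5) (nat_lit 58) (nat_lit 5) (nat_lit 330) (nat_lit 325) (nat_lit 245)) (XT.nd (nat_lit 78) (nat_lit 380) (nat_lit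 0) (XT.lf (nat_lit 76) (nat_lit 25559914179) (nat_lit 0) (nat_lit 5729142852) (nat_lit 532) (nat_lit 4349086384) (nat_lit 52) (nat_lit 5) (nat_lit 51) (nat_lit 5) (nat_lit 58) (nat_lit 5) (nat_lit 331) (nat_lit 325) (nat_lit 244)) (XT.lf (nat_lit 0) (nat_lit 7890426872) (nat_lit 456) (nat_lit 27472508457) (nat_lit 532) (nat_lit 1820936519) (nat_lit 46) (nat_lit 5) (nat_lit 52) (nat_lit 5) (nat_lit 53) (nat_lit 5) (nat_lit 332) (nat_lit 325) (nat_lit 243))))))))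
noncomputable def xc169 : XT := (XT.nd (nat_lit 1326) (nat_lit 988) (nat_lit 0) (XT.nd (nat_lit 624) (nat_lit 760) (nat_lit 0) (XT.nd (nat_lit 312) (nat_lit 380) (nat_lit 0) (XT.nd (nat_lit 156) (nat_lit 228) (nat_lit 0) (XT.nd (nat_lit 78) (nat_lit 304) (nat_lit 0) (XT.lf (nat_lit 0) (nat_lit 1290245224) (nat_lit 532) (nat_lit 11144323110) (nat_lit 76) (nat_lit 26382849613) (nat_lit 45) (nat_lit 5) (nat_lit 52) (nat_lit 5) (nat_lit 46) (nat_lit 5) (nat_lit 333) (nat_lit 325) (nat_lit 242)) (XT.lf (nat_lit 0) (nat_lit 4858169102) (nat_lit 380) (nat_lit 31812165174) (nat_lit 76) (nat_lit 3883042033) (nat_lit 41) (nat_lit 5) (nat_lit 46) (nat_lit 5) (nat_lit 42) (nat_lit 5) (nat_lit 334) (nat_lit 325) (nat_lit 241))) (XT.nd (nat_lit 78) (nat_lit 228) (nat_lit 0) (XT.lf (nat_lit 0) (nat_lit 9342517106) (nat_lit 380) (nat_lit 11888245501) (nat_lit 76) (nat_lit 21146979122) (nat_lit 41) (nat_lit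 5) (nat_lit 46) (nat_lit 5) (nat_lit 42) (nat_lit 5) (nat_lit 335) (nat_lit 325) (nat_lit 240)) (XT.lf (nat_lit 0) (nat_lit 10131892694) (nat_lit 228) (nat_lit 4293128113) (nat_lit 304) (nat_lit 29903891842) (nat_lit 38) (nat_lit 5) (nat_lit 41) (nat_lit 5) (nat_lit 42) (nat_lit 5) (nat_lit 336) (nat_lit 325) (nat_lit 239)))) (XT.nd (nat_lit 156) (nat_lit 152) (nat_lit 0) (XT.nd (nat_lit 78) (nat_lit 228) (nat_lit 0) (XT.lf (nat_lit 0) (nat_lit 20580238435) (nat_lit 304) (nat_lit 12170310515) (nat_lit 76) (nat_lit 13632347440) (nat_lit 38) (nat_lit 5) (nat_lit 42) (nat_lit 5) (nat_lit 39) (nat_lit 5) (nat_lit 337) (nat_lit 325) (nat_lit 238)) (XT.lf (nat_lit 0) (nat_lit 12108343051) (nat_lit 228) (nat_lit 15518483646) (nat_lit 304) (nat_lit 20942463501) (nat_lit 35) (nat_lit 5) (nat_lit 38) (nat_lit 5) (nat_lit 39) (nat_lit 5) (nat_lit 338) (nat_lit 325) (nat_lit 237))) (XT.nd (nat_lit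 78) (nat_lit 152) (nat_lit 0) (XT.lf (nat_lit 0) (nat_lit 35649305710) (nat_lit 304) (nat_lit 11970116233) (nat_lit 76) (nat_lit 3278207536) (nat_lit 35) (nat_lit 5) (nat_lit 39) (nat_lit 5) (nat_lit 36) (nat_lit 5) (nat_lit 339) (nat_lit 325) (nat_lit 236)) (XT.lf (nat_lit 0) (nat_lit 14813726505) (nat_lit 152) (nat_lit 30255867998) (nat_lit 228) (nat_lit 8282167019) (nat_lit 33) (nat_lit 5) (nat_lit 35) (nat_lit 5) (nat_lit 36) (nat_lit 5) (nat_lit 340) (nat_lit 325) (nat_lit 235))))) (XT.nd (nat_lit 312) (nat_lit 304) (nat_lit 0) (XT.nd (nat_lit 156) (nat_lit 152) (nat_lit 0) (XT.nd (nat_lit 78) (nat_lit 304) (nat_lit 0) (XT.lf (nat_lit 0) (nat_lit 44416914861) (nat_lit 152) (nat_lit 11150687447) (nat_lit 228) (nat_lit 408700203) (nat_lit 33) (nat_lit 5) (nat_lit 35) (nat_lit 5) (nat_lit 36) (nat_lit 5) (nat_lit 341) (nat_lit 325) (nat_lit 234)) (XT.lf (nat_lit 0) (nat_lit 8371181115)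 (nat_lit 304) (nat_lit 40710764681) (nat_lit 76) (nat_lit 9658774940) (nat_lit 29) (nat_lit 5) (nat_lit 33) (nat_lit 5) (nat_lit 30) (nat_lit 5) (nat_lit 342) (nat_lit 325) (nat_lit 233))) (XT.nd (nat_lit 78) (nat_lit 152) (nat_lit 0) (XT.lf (nat_lit 0) (nat_lit 18442338265) (nat_lit 304) (nat_lit 11369707552) (nat_lit 76) (nat_lit 31864524902) (nat_lit 29) (nat_lit 5) (nat_lit 33) (nat_lit 5) (nat_lit 30) (nat_lit 5) (nat_lit 343) (nat_lit 325) (nat_lit 232)) (XT.lf (nat_lit 0) (nat_lit 21384594558) (nat_lit 152) (nat_lit 8446184334) (nat_lit 228) (nat_lit 34975586985) (nat_lit 27) (nat_lit 5) (nat_lit 29) (nat_lit 5) (nat_lit 30) (nat_lit 5) (nat_lit 344) (nat_lit 325) (nat_lit 231)))) (XT.nd (nat_lit 156) (nat_lit 152) (nat_lit 0) (XT.nd (nat_lit 78) (nat_lit 152) (nat_lit 0) (XT.lf (nat_lit 0) (nat_lit 42798440363) (nat_lit 228) (nat_lit 11119603517) (nat_lit 76) (nat_lit 14215053240)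 (nat_lit 27) (nat_lit 5) (nat_lit 30) (nat_lit 5) (nat_lit 28) (nat_lit 5) (nat_lit 345) (nat_lit 325) (nat_lit 230)) (XT.lf (nat_lit 0) (nat_lit 24783542924) (nat_lit 152) (nat_lit 32832969009) (nat_lit 228) (nat_lit 14044418971) (nat_lit 25) (nat_lit 5) (nat_lit 27) (nat_lit 5) (nat_lit 28) (nat_lit 5) (nat_lit 346) (nat_lit 325) (nat_lit 229))) (XT.nd (nat_lit 78) (nat_lit 152) (nat_lit 0) (XT.lf (nat_lit 0) (nat_lit 64187827023) (nat_lit 152) (nat_lit 9733898693) (nat_lit 228) (nat_lit 1525133489) (nat_lit 25) (nat_lit 5) (nat_lit 27) (nat_lit 5) (nat_lit 28) (nat_lit 5) (nat_lit 347) (nat_lit 325) (nat_lit 228)) (XT.nd (nat_lit 78) (nat_lit 0) (nat_lit 0) (XT.lf (nat_lit 0) (nat_lit 12465884713) (nat_lit 152) (nat_lit 51514951623) (nat_lit 76) (nat_lit 15446127672) (nat_lit 23) (nat_lit 5) (nat_lit 25) (nat_lit 5) (nat_lit 24) (nat_lit 5) (nat_lit 348) (nat_lit 325) (nat_lit 227))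 (XT.lf (nat_lit 0) (nat_lit 28060292663) (nat_lit 152) (nat_lit 13147654366) (nat_lit 76) (nat_lit 42469043453) (nat_lit 23) (nat_lit 5) (nat_lit 25) (nat_lit 5) (nat_lit 24) (nat_lit 5) (nat_lit 349) (nat_lit 325) (nat_lit 226))))))) (XT.nd (nat_lit 624) (nat_lit 456) (nat_lit 0) (XT.nd (nat_lit 312) (nat_lit 228) (nat_lit 0) (XT.nd (nat_lit 156) (nat_lit 152) (nat_lit 0) (XT.nd (nat_lit 78) (nat_lit 0) (nat_lit 0) (XT.lf (nat_lit 0) (nat_lit 29775345320) (nat_lit 152) (nat_lit 15841004579) (nat_lit 228) (nat_lit 42593544041) (nat_lit 21) (nat_lit 5) (nat_lit 23) (nat_lit 5) (nat_lit 24) (nat_lit 5) (nat_lit 350) (nat_lit 325) (nat_lit 225)) (XT.lf (nat_lit 0) (nat_lit 65221659200) (nat_lit 228) (nat_lit 16487223079) (nat_lit 76) (nat_lit 11344968399) (nat_lit 21) (nat_lit 5) (nat_lit 24) (nat_lit 5) (nat_lit 22) (nat_lit 4) (nat_lit 351) (nat_lit 325) (nat_lit 224))) (XT.nd (nat_lit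 78) (nat_lit 76) (nat_lit 0) (XT.lf (nat_lit 0) (nat_lit 29897029014) (nat_lit 76) (nat_lit 57627033058) (nat_lit 152) (nat_lit 10670970604) (nat_lit 20) (nat_lit 5) (nat_lit 21) (nat_lit 5) (nat_lit 22) (nat_lit 4) (nat_lit 352) (nat_lit 325) (nat_lit 223)) (XT.lf (nat_lit 0) (nat_lit 7930507089) (nat_lit 152) (nat_lit 22985595814) (nat_lit 76) (nat_lit 72779423075) (nat_lit 19) (nat_lit 5) (nat_lit 21) (nat_lit 5) (nat_lit 20) (nat_lit 5) (nat_lit 353) (nat_lit 325) (nat_lit 222)))) (XT.nd (nat_lit 156) (nat_lit 76) (nat_lit 0) (XT.nd (nat_lit 78) (nat_lit 0) (nat_lit 0) (XT.lf (nat_lit 0) (nat_lit 27023697007) (nat_lit 152) (nat_lit 1068156724) (nat_lit 228) (nat_lit 81470172509) (nat_lit 17) (nat_lit 5) (nat_lit 19) (nat_lit 5) (nat_lit 20) (nat_lit 5) (nat_lit 354) (nat_lit 325) (nat_lit 221)) (XT.lf (nat_lit 0) (nat_lit 51258852178) (nat_lit 228) (nat_lit 34275338107) (nat_lit 76)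 (nat_lit 30252238348) (nat_lit 17) (nat_lit 5) (nat_lit 20) (nat_lit 5) (nat_lit 18) (nat_lit 4) (nat_lit 355) (nat_lit 325) (nat_lit 220))) (XT.nd (nat_lit 78) (nat_lit 0) (nat_lit 0) (XT.lf (nat_lit 0) (nat_lit 18756631148) (nat_lit 76) (nat_lit 57999912964) (nat_lit 152) (nat_lit 45714053934) (nat_lit 16) (nat_lit 5) (nat_lit 17) (nat_lit 5) (nat_lit 18) (nat_lit 4) (nat_lit 356) (nat_lit 325) (nat_lit 219)) (XT.lf (nat_lit 0) (nat_lit 77977893119) (nat_lit 76) (nat_lit 27251849397) (nat_lit 152) (nat_lit 24384904608) (nat_lit 16) (nat_lit 5) (nat_lit 17) (nat_lit 5) (nat_lit 18) (nat_lit 4) (nat_lit 357) (nat_lit 325) (nat_lit 218))))) (XT.nd (nat_lit 312) (nat_lit 228) (nat_lit 0) (XT.nd (nat_lit 156) (nat_lit 76) (nat_lit 0) (XT.nd (nat_lit 78) (nat_lit 76) (nat_lit 0) (XT.lf (nat_lit 0) (nat_lit 4695867587) (nat_lit 76) (nat_lit 131539734919) (nat_lit 76) (nat_lit 1074234464) (nat_lit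 15) (nat_lit 4) (nat_lit 16) (nat_lit 5) (nat_lit 16) (nat_lit 4) (nat_lit 358) (nat_lit 325) (nat_lit 217)) (XT.lf (nat_lit 0) (nat_lit 25050632677) (nat_lit 152) (nat_lit 78362558607) (nat_lit 76) (nat_lit 41988681908) (nat_lit 14) (nat_lit 5) (nat_lit 16) (nat_lit 5) (nat_lit 15) (nat_lit 4) (nat_lit 359) (nat_lit 325) (nat_lit 216))) (XT.nd (nat_lit 78) (nat_lit 76) (nat_lit 0) (XT.lf (nat_lit 0) (nat_lit 53206189390) (nat_lit 152) (nat_lit 19801198905) (nat_lit 76) (nat_lit 81131753931) (nat_lit 14) (nat_lit 5) (nat_lit 16) (nat_lit 5) (nat_lit 15) (nat_lit 4) (nat_lit 360) (nat_lit 325) (nat_lit 215)) (XT.lf (nat_lit 0) (nat_lit 45730605461) (nat_lit 76) (nat_lit 38982237675) (nat_lit 152) (nat_lit 78774658401) (nat_lit 13) (nat_lit 5) (nat_lit 14) (nat_lit 5) (nat_lit 15) (nat_lit 4) (nat_lit 361) (nat_lit 325) (nat_lit 214)))) (XT.nd (nat_lit 156) (nat_lit 152) (nat_lit 0) (XT.nd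 (nat_lit 78) (nat_lit 76) (nat_lit 0) (XT.lf (nat_lit 0) (nat_lit 117629024716) (nat_lit 76) (nat_lit 1651272223) (nat_lit 152) (nat_lit 54260212119) (nat_lit 13) (nat_lit 5) (nat_lit 14) (nat_lit 5) (nat_lit 15) (nat_lit 4) (nat_lit 362) (nat_lit 325) (nat_lit 213)) (XT.lf (nat_lit 0) (nat_lit 10473616281) (nat_lit 76) (nat_lit 147320275322) (nat_lit 76) (nat_lit 26509406831) (nat_lit 12) (nat_lit 4) (nat_lit 13) (nat_lit 5) (nat_lit 13) (nat_lit 4) (nat_lit 363) (nat_lit 325) (nat_lit 212))) (XT.nd (nat_lit 78) (nat_lit 76) (nat_lit 0) (XT.lf (nat_lit 0) (nat_lit 4898559957) (nat_lit 152) (nat_lit 110623359877) (nat_lit 76) (nat_lit 80269711688) (nat_lit 11) (nat_lit 5) (nat_lit 13) (nat_lit 5) (nat_lit 12) (nat_lit 4) (nat_lit 364) (nat_lit 325) (nat_lit 211)) (XT.nd (nat_lit 78) (nat_lit 76) (nat_lit 0) (XT.lf (nat_lit 0) (nat_lit 37385983519) (nat_lit 152) (nat_lit 43050904146) (nat_lit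 76) (nat_lit 127707138485) (nat_lit 11) (nat_lit 5) (nat_lit 13) (nat_lit 5) (nat_lit 12) (nat_lit 4) (nat_lit 365) (nat_lit 325) (nat_lit 210)) (XT.lf (nat_lit 0) (nat_lit 31501498831) (nat_lit 76) (nat_lit 41727602784) (nat_lit 152) (nat_lit 148194975282) (nat_lit 10) (nat_lit 5) (nat_lit 11) (nat_lit 5) (nat_lit 12) (nat_lit 4) (nat_lit 366) (nat_lit 325) (nat_lit 209))))))))
noncomputable def xc170 : XT := (XT.nd (nat_lit 1326) (nat_lit 76) (nat_lit 0) (XT.nd (nat_lit 624) (nat_lit 228) (nat_lit 0) (XT.nd (nat_lit 312) (nat_lit 152) (nat_lit 0) (XT.nd (nat_lit 156) (nat_lit 76) (nat_lit 0) (XT.nd (nat_lit 78) (nat_lit 0) (nat_lit 0) (XT.lf (nat_lit 0) (nat_lit 113148315740) (nat_lit 152) (nat_lit 121240079595) (nat_lit 0) (nat_lit 1281445200) (nat_lit 10) (nat_lit 5) (nat_lit 12) (nat_lit 4) (nat_lit 10) (nat_lit 4) (nat_lit 367) (nat_lit 325) (nat_lit 208)) (XT.lf (nat_lit 0) (nat_lit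 157344066325) (nat_lit 152) (nat_lit 48148381943) (nat_lit 0) (nat_lit 45476177565) (nat_lit 10) (nat_lit 5) (nat_lit 12) (nat_lit 4) (nat_lit 10) (nat_lit 4) (nat_lit 368) (nat_lit 325) (nat_lit 207))) (XT.nd (nat_lit 78) (nat_lit 0) (nat_lit 0) (XT.lf (nat_lit 0) (nat_lit 32410505471) (nat_lit 76) (nat_lit 173443672230) (nat_lit 76) (nat_lit 61574840673) (nat_lit 9) (nat_lit 4) (nat_lit 10) (nat_lit 5) (nat_lit 10) (nat_lit 4) (nat_lit 369) (nat_lit 325) (nat_lit 206)) (XT.lf (nat_lit 0) (nat_lit 122150930956) (nat_lit 76) (nat_lit 137409879655) (nat_lit 76) (nat_lit 25540175139) (nat_lit 9) (nat_lit 4) (nat_lit 10) (nat_lit 5) (nat_lit 10) (nat_lit 4) (nat_lit 370) (nat_lit 325) (nat_lit 205)))) (XT.nd (nat_lit 156) (nat_lit 76) (nat_lit 0) (XT.nd (nat_lit 78) (nat_lit 0) (nat_lit 0) (XT.lf (nat_lit 0) (nat_lit 12707366371) (nat_lit 152) (nat_lit 85439190759) (nat_lit 76) (nat_lit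 206014472872) (nat_lit 8) (nat_lit 5) (nat_lit 10) (nat_lit 5) (nat_lit 9) (nat_lit 4) (nat_lit 371) (nat_lit 325) (nat_lit 204)) (XT.lf (nat_lit 0) (nat_lit 52634218769) (nat_lit 152) (nat_lit 2392086193) (nat_lit 76) (nat_lit 269666555458) (nat_lit 8) (nat_lit 5) (nat_lit 10) (nat_lit 5) (nat_lit 9) (nat_lit 4) (nat_lit 372) (nat_lit 325) (nat_lit 203))) (XT.nd (nat_lit 78) (nat_lit 0) (nat_lit 0) (XT.lf (nat_lit 0) (nat_lit 91894570302) (nat_lit 76) (nat_lit 6070104947) (nat_lit 152) (nat_lit 248725805876) (nat_lit 7) (nat_lit 5) (nat_lit 8) (nat_lit 5) (nat_lit 9) (nat_lit 4) (nat_lit 373) (nat_lit 325) (nat_lit 202)) (XT.lf (nat_lit 0) (nat_lit 148113668973) (nat_lit 152) (nat_lit 177710942700) (nat_lit 0) (nat_lit 44527932057) (nat_lit 7) (nat_lit 5) (nat_lit 9) (nat_lit 4) (nat_lit 7) (nat_lit 4) (nat_lit 374) (nat_lit 325) (nat_lit 201))))) (XT.nd (nat_lit 312) (nat_lit 152) (nat_lit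 0) (XT.nd (nat_lit 156) (nat_lit 76) (nat_lit 0) (XT.nd (nat_lit 78) (nat_lit 0) (nat_lit 0) (XT.lf (nat_lit 0) (nat_lit 202431686707) (nat_lit 152) (nat_lit 94617916875) (nat_lit 0) (nat_lit 98845399679) (nat_lit 7) (nat_lit 5) (nat_lit 9) (nat_lit 4) (nat_lit 7) (nat_lit 4) (nat_lit 375) (nat_lit 325) (nat_lit 200)) (XT.lf (nat_lit 0) (nat_lit 261094626833) (nat_lit 152) (nat_lit 4878444061) (nat_lit 0) (nat_lit 157507830440) (nat_lit 7) (nat_lit 5) (nat_lit 9) (nat_lit 4) (nat_lit 7) (nat_lit 4) (nat_lit 376) (nat_lit 325) (nat_lit 199))) (XT.nd (nat_lit 78) (nat_lit 0) (nat_lit 0) (XT.lf (nat_lit 0) (nat_lit 96885889806) (nat_lit 76) (nat_lit 229894339759) (nat_lit 76) (nat_lit 126307071734) (nat_lit 6) (nat_lit 4) (nat_lit 7) (nat_lit 5) (nat_lit 7) (nat_lit 4) (nat_lit 377) (nat_lit 325) (nat_lit 198)) (XT.lf (nat_lit 0) (nat_lit 207067913777) (nat_lit 76) (nat_lit 190785685466)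 (nat_lit 76) (nat_lit 87197980743) (nat_lit 6) (nat_lit 4) (nat_lit 7) (nat_lit 5) (nat_lit 7) (nat_lit 4) (nat_lit 378) (nat_lit 325) (nat_lit 197)))) (XT.nd (nat_lit 156) (nat_lit 76) (nat_lit 0) (XT.nd (nat_lit 78) (nat_lit 76) (nat_lit 0) (XT.lf (nat_lit 0) (nat_lit 326063668145) (nat_lit 76) (nat_lit 148548738331) (nat_lit 76) (nat_lit 44960629259) (nat_lit 6) (nat_lit 4) (nat_lit 7) (nat_lit 5) (nat_lit 7) (nat_lit 4) (nat_lit 379) (nat_lit 325) (nat_lit 196)) (XT.lf (nat_lit 0) (nat_lit 622498468) (nat_lit 152) (nat_lit 102293686654) (nat_lit 76) (nat_lit 453938794255) (nat_lit 5) (nat_lit 5) (nat_lit 7) (nat_lit 5) (nat_lit 6) (nat_lit 4) (nat_lit 380) (nat_lit 325) (nat_lit 195))) (XT.nd (nat_lit 78) (nat_lit 76) (nat_lit 0) (XT.lf (nat_lit 0) (nat_lit 47422854452) (nat_lit 152) (nat_lit 4949292872) (nat_lit 76) (nat_lit 544653937080) (nat_lit 5) (nat_lit 5) (nat_lit 7) (nat_lit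 5) (nat_lit 6) (nat_lit 4) (nat_lit 381) (nat_lit 325) (nat_lit 194)) (XT.nd (nat_lit 78) (nat_lit 0) (nat_lit 0) (XT.lf (nat_lit 0) (nat_lit 100622288976) (nat_lit 152) (nat_lit 534869776692) (nat_lit 0) (nat_lit 4706408310) (nat_lit 4) (nat_lit 5) (nat_lit 6) (nat_lit 4) (nat_lit 4) (nat_lit 4) (nat_lit 382) (nat_lit 325) (nat_lit 193)) (XT.lf (nat_lit 0) (nat_lit 159576481544) (nat_lit 152) (nat_lit 463467943366) (nat_lit 0) (nat_lit 63660325685) (nat_lit 4) (nat_lit 5) (nat_lit 6) (nat_lit 4) (nat_lit 4) (nat_lit 4) (nat_lit 383) (nat_lit 325) (nat_lit 192))))))) (XT.nd (nat_lit 624) (nat_lit 0) (nat_lit 0) (XT.nd (nat_lit 312) (nat_lit 76) (nat_lit 0) (XT.nd (nat_lit 156) (nat_lit 0) (nat_lit 0) (XT.nd (nat_lit 78) (nat_lit 0) (nat_lit 0) (XT.lf (nat_lit 0) (nat_lit 223246685870) (nat_lit 152) (nat_lit 386354594289) (nat_lit 0) (nat_lit 127330275202) (nat_lit 4) (nat_lit 5) (nat_lit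 6) (nat_lit 4) (nat_lit 4) (nat_lit 4) (nat_lit 384) (nat_lit 325) (nat_lit 191)) (XT.lf (nat_lit 0) (nat_lit 292010206869) (nat_lit 152) (nat_lit 303072761468) (nat_lit 0) (nat_lit 196093560267) (nat_lit 4) (nat_lit 5) (nat_lit 6) (nat_lit 4) (nat_lit 4) (nat_lit 4) (nat_lit 385) (nat_lit 325) (nat_lit 190))) (XT.nd (nat_lit 78) (nat_lit 0) (nat_lit 0) (XT.lf (nat_lit 0) (nat_lit 366274532072) (nat_lit 152) (nat_lit 213128922928) (nat_lit 0) (nat_lit 270357667013) (nat_lit 4) (nat_lit 5) (nat_lit 6) (nat_lit 4) (nat_lit 4) (nat_lit 4) (nat_lit 386) (nat_lit 325) (nat_lit 189)) (XT.lf (nat_lit 0) (nat_lit 446479746370) (nat_lit 152) (nat_lit 115990078147) (nat_lit 0) (nat_lit 350562679036) (nat_lit 4) (nat_lit 5) (nat_lit 6) (nat_lit 4) (nat_lit 4) (nat_lit 4) (nat_lit 387) (nat_lit 325) (nat_lit 188)))) (XT.nd (nat_lit 156) (nat_lit 0) (nat_lit 0) (XT.nd (nat_lit 78) (nat_lit 76) (nat_lit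 0) (XT.lf (nat_lit 0) (nat_lit 533101139921) (nat_lit 152) (nat_lit 11080589525) (nat_lit 0) (nat_lit 437183885295) (nat_lit 4) (nat_lit 5) (nat_lit 6) (nat_lit 4) (nat_lit 4) (nat_lit 4) (nat_lit 388) (nat_lit 325) (nat_lit 187)) (XT.lf (nat_lit 0) (nat_lit 107604017553) (nat_lit 76) (nat_lit 521635886344) (nat_lit 76) (nat_lit 425718458299) (nat_lit 3) (nat_lit 4) (nat_lit 4) (nat_lit 5) (nat_lit 4) (nat_lit 4) (nat_lit 389) (nat_lit 325) (nat_lit 186))) (XT.nd (nat_lit 78) (nat_lit 0) (nat_lit 0) (XT.lf (nat_lit 0) (nat_lit 236413137622) (nat_lit 76) (nat_lit 496959380305) (nat_lit 76) (nat_lit 401041791688) (nat_lit 3) (nat_lit 4) (nat_lit 4) (nat_lit 5) (nat_lit 4) (nat_lit 4) (nat_lit 390) (nat_lit 325) (nat_lit 185)) (XT.lf (nat_lit 0) (nat_lit 375526599779) (nat_lit 76) (nat_lit 470308943136) (nat_lit 76) (nat_lit 374391205840) (nat_lit 3) (nat_lit 4) (nat_lit 4) (nat_lit 5) (nat_lit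 4) (nat_lit 4) (nat_lit 391) (nat_lit 325) (nat_lit 184))))) (XT.nd (nat_lit 312) (nat_lit 0) (nat_lit 0) (XT.nd (nat_lit 156) (nat_lit 0) (nat_lit 0) (XT.nd (nat_lit 78) (nat_lit 0) (nat_lit 0) (XT.lf (nat_lit 0) (nat_lit 525768780095) (nat_lit 76) (nat_lit 441526646321) (nat_lit 76) (nat_lit 345608771360) (nat_lit 3) (nat_lit 4) (nat_lit 4) (nat_lit 5) (nat_lit 4) (nat_lit 4) (nat_lit 392) (nat_lit 325) (nat_lit 183)) (XT.lf (nat_lit 0) (nat_lit 688030002602) (nat_lit 76) (nat_lit 410441928100) (nat_lit 76) (nat_lit 314523925672) (nat_lit 3) (nat_lit 4) (nat_lit 4) (nat_lit 5) (nat_lit 4) (nat_lit 4) (nat_lit 393) (nat_lit 325) (nat_lit 182))) (XT.nd (nat_lit 78) (nat_lit 0) (nat_lit 0) (XT.lf (nat_lit 0) (nat_lit 863271815285) (nat_lit 76) (nat_lit 376870582737) (nat_lit 76) (nat_lit 280952462283) (nat_lit 3) (nat_lit 4) (nat_lit 4) (nat_lit 5) (nat_lit 4) (nat_lit 4) (nat_lit 394)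 (nat_lit 325) (nat_lit 181)) (XT.lf (nat_lit 0) (nat_lit 1052532688145) (nat_lit 76) (nat_lit 340613668925) (nat_lit 76) (nat_lit 244695439188) (nat_lit 3) (nat_lit 4) (nat_lit 4) (nat_lit 5) (nat_lit 4) (nat_lit 4) (nat_lit 395) (nat_lit 325) (nat_lit 180)))) (XT.nd (nat_lit 156) (nat_lit 0) (nat_lit 0) (XT.nd (nat_lit 78) (nat_lit 0) (nat_lit 0) (XT.lf (nat_lit 0) (nat_lit 1256934167095) (nat_lit 76) (nat_lit 301456330879) (nat_lit 76) (nat_lit 205537999954) (nat_lit 3) (nat_lit 4) (nat_lit 4) (nat_lit 5) (nat_lit 4) (nat_lit 4) (nat_lit 396) (nat_lit 325) (nat_lit 179)) (XT.lf (nat_lit 0) (nat_lit 1477687520159) (nat_lit 76) (nat_lit 259166525114) (nat_lit 76) (nat_lit 163248100496) (nat_lit 3) (nat_lit 4) (nat_lit 4) (nat_lit 5) (nat_lit 4) (nat_lit 4) (nat_lit 397) (nat_lit 325) (nat_lit 178))) (XT.nd (nat_lit 78) (nat_lit 0) (nat_lit 0) (XT.lf (nat_lit 0) (nat_lit 1716100915355)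 (nat_lit 76) (nat_lit 213493645374) (nat_lit 76) (nat_lit 117575134004) (nat_lit 3) (nat_lit 4) (nat_lit 4) (nat_lit 5) (nat_lit 4) (nat_lit 4) (nat_lit 398) (nat_lit 325) (nat_lit 177)) (XT.nd (nat_lit 78) (nat_lit 0) (nat_lit 0) (XT.lf (nat_lit 0) (nat_lit 1973587172802) (nat_lit 76) (nat_lit 164167037556) (nat_lit 76) (nat_lit 68248445860) (nat_lit 3) (nat_lit 4) (nat_lit 4) (nat_lit 5) (nat_lit 4) (nat_lit 4) (nat_lit 399) (nat_lit 325) (nat_lit 176)) (XT.lf (nat_lit 0) (nat_lit 2251672136989) (nat_lit 76) (nat_lit 110894395836) (nat_lit 76) (nat_lit 14975729764) (nat_lit 3) (nat_lit 4) (nat_lit 4) (nat_lit 5) (nat_lit 4) (nat_lit 4) (nat_lit 400) (nat_lit 325) (nat_lit 175))))))))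
noncomputable def xc171 : XT := (XT.nd (nat_lit 41574) (nat_lit 0) (nat_lit 1672) (XT.nd (nat_lit 624) (nat_lit 0) (nat_lit 0) (XT.nd (nat_lit 312) (nat_lit 0) (nat_lit 0) (XT.nd (nat_lit 156) (nat_lit 0) (nat_lit 0) (XT.nd (nat_lit 78) (nat_lit 76) (nat_lit 0) (XT.lf (nat_lit 0) (nat_lit 40429745691) (nat_lit 152) (nat_lit 11824863900) (nat_lit 76) (nat_lit 2510468552229) (nat_lit 2) (nat_lit 5) (nat_lit 4) (nat_lit 5) (nat_lit 3) (nat_lit 4) (nat_lit 401) (nat_lit 325) (nat_lit 174)) (XT.lf (nat_lit 0) (nat_lit 102616926270) (nat_lit 152) (nat_lit 2646014596948) (nat_lit 0) (nat_lit 13803223765) (nat_lit 1) (nat_lit 5) (nat_lit 3) (nat_lit 4) (nat_lit 1) (nat_lit 4) (nat_lit 402) (nat_lit 325) (nat_lit 173))) (XT.nd (nat_lit 78) (nat_lit 0) (nat_lit 0) (XT.lf (nat_lit 0) (nat_lit 171467967613) (nat_lit 152) (nat_lit 2723865970028) (nat_lit 0) (nat_lit 82654210439) (nat_lit 1) (nat_lit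 5) (nat_lit 3) (nat_lit 4) (nat_lit 1) (nat_lit 4) (nat_lit 403) (nat_lit 325) (nat_lit 172)) (XT.lf (nat_lit 0) (nat_lit 245827011952) (nat_lit 152) (nat_lit 2807945611605) (nat_lit 0) (nat_lit 157013204159) (nat_lit 1) (nat_lit 5) (nat_lit 3) (nat_lit 4) (nat_lit 1) (nat_lit 4) (nat_lit 404) (nat_lit 325) (nat_lit 171)))) (XT.nd (nat_lit 156) (nat_lit 0) (nat_lit 0) (XT.nd (nat_lit 78) (nat_lit 0) (nat_lit 0) (XT.lf (nat_lit 0) (nat_lit 326134705476) (nat_lit 152) (nat_lit 2898751771406) (nat_lit 0) (nat_lit 237320850814) (nat_lit 1) (nat_lit 5) (nat_lit 3) (nat_lit 4) (nat_lit 1) (nat_lit 4) (nat_lit 405) (nat_lit 325) (nat_lit 170)) (XT.lf (nat_lit 0) (nat_lit 412866945627) (nat_lit 152) (nat_lit 2996822560008) (nat_lit 0) (nat_lit 324053047568) (nat_lit 1) (nat_lit 5) (nat_lit 3) (nat_lit 4) (nat_lit 1) (nat_lit 4) (nat_lit 406) (nat_lit 325) (nat_lit 169))) (XT.nd (nat_lit 78) (nat_lit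 0) (nat_lit 0) (XT.lf (nat_lit 0) (nat_lit 506537701238) (nat_lit 152) (nat_lit 3102739137640) (nat_lit 0) (nat_lit 417723762995) (nat_lit 1) (nat_lit 5) (nat_lit 3) (nat_lit 4) (nat_lit 1) (nat_lit 4) (nat_lit 407) (nat_lit 325) (nat_lit 168)) (XT.lf (nat_lit 0) (nat_lit 607702058265) (nat_lit 152) (nat_lit 3217129158095) (nat_lit 0) (nat_lit 518888082816) (nat_lit 1) (nat_lit 5) (nat_lit 3) (nat_lit 4) (nat_lit 1) (nat_lit 4) (nat_lit 408) (nat_lit 325) (nat_lit 167))))) (XT.nd (nat_lit 40560) (nat_lit 0) (nat_lit 3724) (XT.nd (nat_lit 40404) (nat_lit 0) (nat_lit 3648) (XT.nd (nat_lit 78) (nat_lit 0) (nat_lit 0) (XT.lf (nat_lit 0) (nat_lit 716959509197) (nat_lit 152) (nat_lit 3340670488161) (nat_lit 0) (nat_lit 628145499296) (nat_lit 1) (nat_lit 5) (nat_lit 3) (nat_lit 4) (nat_lit 1) (nat_lit 4) (nat_lit 409) (nat_lit 325) (nat_lit 166)) (XT.lf (nat_lit 0) (nat_lit 834957505593) (nat_lit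 152) (nat_lit 3474095224610) (nat_lit 0) (nat_lit 746143463794) (nat_lit 1) (nat_lit 5) (nat_lit 3) (nat_lit 4) (nat_lit 1) (nat_lit 4) (nat_lit 410) (nat_lit 325) (nat_lit 165))) (XT.nd (nat_lit 78) (nat_lit 0) (nat_lit 0) (XT.lf (nat_lit 0) (nat_lit 10128752439) (nat_lit 532) (nat_lit 2492455024) (nat_lit 532) (nat_lit 2492455024) (nat_lit 49) (nat_lit 3) (nat_lit 56) (nat_lit 3) (nat_lit 56) (nat_lit 5) (nat_lit 326) (nat_lit 326) (nat_lit 248)) (XT.lf (nat_lit 76) (nat_lit 9524046347) (nat_lit 0) (nat_lit 11838867260) (nat_lit 532) (nat_lit 10049731112) (nat_lit 50) (nat_lit 5) (nat_lit 49) (nat_lit 3) (nat_lit 56) (nat_lit 5) (nat_lit 327) (nat_lit 326) (nat_lit 247)))) (XT.nd (nat_lit 156) (nat_lit 0) (nat_lit 0) (XT.nd (nat_lit 78) (nat_lit 0) (nat_lit 0) (XT.lf (nat_lit 0) (nat_lit 22753381857) (nat_lit 456) (nat_lit 7276018288) (nat_lit 532) (nat_lit 2647676218) (nat_lit 50)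 (nat_lit 5) (nat_lit 56) (nat_lit 5) (nat_lit 57) (nat_lit 5) (nat_lit 328) (nat_lit 326) (nat_lit 246)) (XT.lf (nat_lit 76) (nat_lit 8625483597) (nat_lit 0) (nat_lit 16138412444) (nat_lit 532) (nat_lit 9238077064) (nat_lit 51) (nat_lit 5) (nat_lit 50) (nat_lit 5) (nat_lit 57) (nat_lit 5) (nat_lit 329) (nat_lit 326) (nat_lit 245))) (XT.nd (nat_lit 78) (nat_lit 0) (nat_lit 76) (XT.lf (nat_lit 76) (nat_lit 26208938924) (nat_lit 0) (nat_lit 919473410) (nat_lit 532) (nat_lit 8289010491) (nat_lit 51) (nat_lit 5) (nat_lit 50) (nat_lit 5) (nat_lit 57) (nat_lit 5) (nat_lit 330) (nat_lit 326) (nat_lit 244)) (XT.nd (nat_lit 78) (nat_lit 0) (nat_lit 0) (XT.lf (nat_lit 76) (nat_lit 8290346572) (nat_lit 0) (nat_lit 21959000394) (nat_lit 532) (nat_lit 6651394064) (nat_lit 52) (nat_lit 5) (nat_lit 51) (nat_lit 5) (nat_lit 58) (nat_lit 5) (nat_lit 331) (nat_lit 326) (nat_lit 243)) (XT.lf (nat_lit 76)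 (nat_lit 27683594583) (nat_lit 0) (nat_lit 6206402172) (nat_lit 532) (nat_lit 4591136807) (nat_lit 52) (nat_lit 5) (nat_lit 51) (nat_lit 5) (nat_lit 58) (nat_lit 5) (nat_lit 332) (nat_lit 326) (nat_lit 242))))))) (XT.nd (nat_lit 702) (nat_lit 760) (nat_lit 0) (XT.nd (nat_lit 312) (nat_lit 608) (nat_lit 0) (XT.nd (nat_lit 156) (nat_lit 304) (nat_lit 0) (XT.nd (nat_lit 78) (nat_lit 76) (nat_lit 0) (XT.lf (nat_lit 0) (nat_lit 8606852078) (nat_lit 456) (nat_lit 29677315022) (nat_lit 532) (nat_lit 1866820118) (nat_lit 46) (nat_lit 5) (nat_lit 52) (nat_lit 5) (nat_lit 53) (nat_lit 5) (nat_lit 333) (nat_lit 326) (nat_lit 241)) (XT.lf (nat_lit 0) (nat_lit 1481242024) (nat_lit 532) (nat_lit 11952178726) (nat_lit 76) (nat_lit 28482181025) (nat_lit 45) (nat_lit 5) (nat_lit 52) (nat_lit 5) (nat_lit 46) (nat_lit 5) (nat_lit 334) (nat_lit 326) (nat_lit 240))) (XT.nd (nat_lit 78) (nat_lit 0) (nat_lit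 0) (XT.lf (nat_lit 0) (nat_lit 5330019540) (nat_lit 380) (nat_lit 34268694334) (nat_lit 76) (nat_lit 4192103237) (nat_lit 41) (nat_lit 5) (nat_lit 46) (nat_lit 5) (nat_lit 42) (nat_lit 5) (nat_lit 335) (nat_lit 326) (nat_lit 239)) (XT.lf (nat_lit 0) (nat_lit 10166952651) (nat_lit 380) (nat_lit 12757412499) (nat_lit 76) (nat_lit 22837272489) (nat_lit 41) (nat_lit 5) (nat_lit 46) (nat_lit 5) (nat_lit 42) (nat_lit 5) (nat_lit 336) (nat_lit 326) (nat_lit 238)))) (XT.nd (nat_lit 156) (nat_lit 380) (nat_lit 0) (XT.nd (nat_lit 78) (nat_lit 0) (nat_lit 0) (XT.lf (nat_lit 0) (nat_lit 11022263521) (nat_lit 228) (nat_lit 4630006551) (nat_lit 304) (nat_lit 32216946991) (nat_lit 38) (nat_lit 5) (nat_lit 41) (nat_lit 5) (nat_lit 42) (nat_lit 5) (nat_lit 337) (nat_lit 326) (nat_lit 237)) (XT.lf (nat_lit 0) (nat_lit 22294625706) (nat_lit 304) (nat_lit 13064611321) (nat_lit 76) (nat_lit 14728715849) (nat_lit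 38) (nat_lit 5) (nat_lit 42) (nat_lit 5) (nat_lit 39) (nat_lit 5) (nat_lit 338) (nat_lit 326) (nat_lit 236))) (XT.nd (nat_lit 78) (nat_lit 152) (nat_lit 0) (XT.lf (nat_lit 0) (nat_lit 13154326327) (nat_lit 228) (nat_lit 16747439469) (nat_lit 304) (nat_lit 22547756617) (nat_lit 35) (nat_lit 5) (nat_lit 38) (nat_lit 5) (nat_lit 39) (nat_lit 5) (nat_lit 339) (nat_lit 326) (nat_lit 235)) (XT.nd (nat_lit 78) (nat_lit 152) (nat_lit 0) (XT.lf (nat_lit 0) (nat_lit 38561522517) (nat_lit 304) (nat_lit 12851498071) (nat_lit 76) (nat_lit 3551479346) (nat_lit 35) (nat_lit 5) (nat_lit 39) (nat_lit 5) (nat_lit 36) (nat_lit 5) (nat_lit 340) (nat_lit 326) (nat_lit 234)) (XT.lf (nat_lit 0) (nat_lit 16073122277) (nat_lit 152) (nat_lit 32659634378) (nat_lit 228) (nat_lit 8882428856) (nat_lit 33) (nat_lit 5) (nat_lit 35) (nat_lit 5) (nat_lit 36) (nat_lit 5) (nat_lit 341) (nat_lit 326) (nat_lit 233)))))) (XT.nd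 (nat_lit 312) (nat_lit 304) (nat_lit 0) (XT.nd (nat_lit 156) (nat_lit 152) (nat_lit 0) (XT.nd (nat_lit 78) (nat_lit 304) (nat_lit 0) (XT.lf (nat_lit 0) (nat_lit 48039062172) (nat_lit 152) (nat_lit 12027276647) (nat_lit 228) (nat_lit 383700362) (nat_lit 33) (nat_lit 5) (nat_lit 35) (nat_lit 5) (nat_lit 36) (nat_lit 5) (nat_lit 342) (nat_lit 326) (nat_lit 232)) (XT.lf (nat_lit 0) (nat_lit 9093729245) (nat_lit 304) (nat_lit 43893808936) (nat_lit 76) (nat_lit 10448125105) (nat_lit 29) (nat_lit 5) (nat_lit 33) (nat_lit 5) (nat_lit 30) (nat_lit 5) (nat_lit 343) (nat_lit 326) (nat_lit 231))) (XT.nd (nat_lit 78) (nat_lit 152) (nat_lit 0) (XT.lf (nat_lit 0) (nat_lit 19966663882) (nat_lit 304) (nat_lit 12210935156) (nat_lit 76) (nat_lit 34429101867) (nat_lit 29) (nat_lit 5) (nat_lit 33) (nat_lit 5) (nat_lit 30) (nat_lit 5) (nat_lit 344) (nat_lit 326) (nat_lit 230)) (XT.lf (nat_lit 0) (nat_lit 23161980768)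 (nat_lit 152) (nat_lit 9102176093) (nat_lit 228) (nat_lit 37722890601) (nat_lit 27) (nat_lit 5) (nat_lit 29) (nat_lit 5) (nat_lit 30) (nat_lit 5) (nat_lit 345) (nat_lit 326) (nat_lit 229)))) (XT.nd (nat_lit 156) (nat_lit 152) (nat_lit 0) (XT.nd (nat_lit 78) (nat_lit 152) (nat_lit 0) (XT.lf (nat_lit 0) (nat_lit 46266194773) (nat_lit 228) (nat_lit 11944382472) (nat_lit 76) (nat_lit 15369588392) (nat_lit 27) (nat_lit 5) (nat_lit 30) (nat_lit 5) (nat_lit 28) (nat_lit 5) (nat_lit 346) (nat_lit 326) (nat_lit 228)) (XT.lf (nat_lit 0) (nat_lit 26829375449) (nat_lit 152) (nat_lit 35438605047) (nat_lit 228) (nat_lit 15122389258) (nat_lit 25) (nat_lit 5) (nat_lit 27) (nat_lit 5) (nat_lit 28) (nat_lit 5) (nat_lit 347) (nat_lit 326) (nat_lit 227))) (XT.nd (nat_lit 78) (nat_lit 152) (nat_lit 0) (XT.lf (nat_lit 0) (nat_lit 69381324565) (nat_lit 152) (nat_lit 10493164771) (nat_lit 228) (nat_lit 1604937473)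 (nat_lit 25) (nat_lit 5) (nat_lit 27) (nat_lit 5) (nat_lit 28) (nat_lit 5) (nat_lit 348) (nat_lit 326) (nat_lit 226)) (XT.nd (nat_lit 78) (nat_lit 0) (nat_lit 0) (XT.lf (nat_lit 0) (nat_lit 13502196584) (nat_lit 152) (nat_lit 55574405404) (nat_lit 76) (nat_lit 16701345196) (nat_lit 23) (nat_lit 5) (nat_lit 25) (nat_lit 5) (nat_lit 24) (nat_lit 5) (nat_lit 349) (nat_lit 326) (nat_lit 225)) (XT.lf (nat_lit 0) (nat_lit 30341265237) (nat_lit 152) (nat_lit 14142297874) (nat_lit 76) (nat_lit 45884647772) (nat_lit 23) (nat_lit 5) (nat_lit 25) (nat_lit 5) (nat_lit 24) (nat_lit 5) (nat_lit 350) (nat_lit 326) (nat_lit 224))))))))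
noncomputable def xc172 : XT := (XT.nd (nat_lit 1326) (nat_lit 456) (nat_lit 0) (XT.nd (nat_lit 624) (nat_lit 456) (nat_lit 0) (XT.nd (nat_lit 312) (nat_lit 228) (nat_lit 0) (XT.nd (nat_lit 156) (nat_lit 152) (nat_lit 0) (XT.nd (nat_lit 78) (nat_lit 0) (nat_lit 0) (XT.lf (nat_lit 0) (nat_lit 32213094475) (nat_lit 152) (nat_lit 17087374965) (nat_lit 228) (nat_lit 45963387660) (nat_lit 21) (nat_lit 5) (nat_lit 23) (nat_lit 5) (nat_lit 24) (nat_lit 5) (nat_lit 351) (nat_lit 326) (nat_lit 223)) (XT.lf (nat_lit 0) (nat_lit 70472090487) (nat_lit 228) (nat_lit 17752453704) (nat_lit 76) (nat_lit 12270958444) (nat_lit 21) (nat_lit 5) (nat_lit 24) (nat_lit 5) (nat_lit 22) (nat_lit 4) (nat_lit 352) (nat_lit 326) (nat_lit 222))) (XT.nd (nat_lit 78) (nat_lit 76) (nat_lit 0) (XT.lf (nat_lit 0) (nat_lit 32341177866) (nat_lit 76) (nat_lit 62216345504) (nat_lit 152) (nat_lit 11490551778) (nat_lit 20)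 (nat_lit 5) (nat_lit 21) (nat_lit 5) (nat_lit 22) (nat_lit 4) (nat_lit 353) (nat_lit 326) (nat_lit 221)) (XT.lf (nat_lit 0) (nat_lit 8594939166) (nat_lit 152) (nat_lit 24774326209) (nat_lit 76) (nat_lit 78619471437) (nat_lit 19) (nat_lit 5) (nat_lit 21) (nat_lit 5) (nat_lit 20) (nat_lit 5) (nat_lit 354) (nat_lit 326) (nat_lit 220)))) (XT.nd (nat_lit 156) (nat_lit 76) (nat_lit 0) (XT.nd (nat_lit 78) (nat_lit 0) (nat_lit 0) (XT.lf (nat_lit 0) (nat_lit 29234441247) (nat_lit 152) (nat_lit 1133705507) (nat_lit 228) (nat_lit 87956496450) (nat_lit 17) (nat_lit 5) (nat_lit 19) (nat_lit 5) (nat_lit 20) (nat_lit 5) (nat_lit 355) (nat_lit 326) (nat_lit 219)) (XT.lf (nat_lit 0) (nat_lit 55386804250) (nat_lit 228) (nat_lit 36970406888) (nat_lit 76) (nat_lit 32689924906) (nat_lit 17) (nat_lit 5) (nat_lit 20) (nat_lit 5) (nat_lit 18) (nat_lit 4) (nat_lit 356) (nat_lit 326) (nat_lit 218))) (XT.nd (nat_lit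 78) (nat_lit 0) (nat_lit 0) (XT.lf (nat_lit 0) (nat_lit 20302931091) (nat_lit 76) (nat_lit 62620463138) (nat_lit 152) (nat_lit 49342720193) (nat_lit 16) (nat_lit 5) (nat_lit 17) (nat_lit 5) (nat_lit 18) (nat_lit 4) (nat_lit 357) (nat_lit 326) (nat_lit 217)) (XT.lf (nat_lit 0) (nat_lit 84258503690) (nat_lit 76) (nat_lit 29413994698) (nat_lit 152) (nat_lit 26309346924) (nat_lit 16) (nat_lit 5) (nat_lit 17) (nat_lit 5) (nat_lit 18) (nat_lit 4) (nat_lit 358) (nat_lit 326) (nat_lit 216))))) (XT.nd (nat_lit 312) (nat_lit 228) (nat_lit 0) (XT.nd (nat_lit 156) (nat_lit 76) (nat_lit 0) (XT.nd (nat_lit 78) (nat_lit 76) (nat_lit 0) (XT.lf (nat_lit 0) (nat_lit 5114344840) (nat_lit 76) (nat_lit 142044107095) (nat_lit 76) (nat_lit 1134230169) (nat_lit 15) (nat_lit 4) (nat_lit 16) (nat_lit 5) (nat_lit 16) (nat_lit 4) (nat_lit 359) (nat_lit 326) (nat_lit 215)) (XT.lf (nat_lit 0) (nat_lit 27077502991)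 (nat_lit 152) (nat_lit 84590706129) (nat_lit 76) (nat_lit 45363969725) (nat_lit 14) (nat_lit 5) (nat_lit 16) (nat_lit 5) (nat_lit 15) (nat_lit 4) (nat_lit 360) (nat_lit 326) (nat_lit 214))) (XT.nd (nat_lit 78) (nat_lit 76) (nat_lit 0) (XT.lf (nat_lit 0) (nat_lit 57483813893) (nat_lit 152) (nat_lit 21347464107) (nat_lit 76) (nat_lit 87637288009) (nat_lit 14) (nat_lit 5) (nat_lit 16) (nat_lit 5) (nat_lit 15) (nat_lit 4) (nat_lit 361) (nat_lit 326) (nat_lit 213)) (XT.lf (nat_lit 0) (nat_lit 49425926869) (nat_lit 76) (nat_lit 42084394730) (nat_lit 152) (nat_lit 85054528012) (nat_lit 13) (nat_lit 5) (nat_lit 14) (nat_lit 5) (nat_lit 15) (nat_lit 4) (nat_lit 362) (nat_lit 326) (nat_lit 212)))) (XT.nd (nat_lit 156) (nat_lit 152) (nat_lit 0) (XT.nd (nat_lit 78) (nat_lit 76) (nat_lit 0) (XT.lf (nat_lit 0) (nat_lit 127073488333) (nat_lit 76) (nat_lit 1768168483) (nat_lit 152) (nat_lit 58580563291)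 (nat_lit 13) (nat_lit 5) (nat_lit 14) (nat_lit 5) (nat_lit 15) (nat_lit 4) (nat_lit 363) (nat_lit 326) (nat_lit 211)) (XT.lf (nat_lit 0) (nat_lit 11345917392) (nat_lit 76) (nat_lit 159090185193) (nat_lit 76) (nat_lit 28609950060) (nat_lit 12) (nat_lit 4) (nat_lit 13) (nat_lit 5) (nat_lit 13) (nat_lit 4) (nat_lit 364) (nat_lit 326) (nat_lit 210))) (XT.nd (nat_lit 78) (nat_lit 76) (nat_lit 0) (XT.lf (nat_lit 0) (nat_lit 5308221019) (nat_lit 152) (nat_lit 119440418076) (nat_lit 76) (nat_lit 86704889110) (nat_lit 11) (nat_lit 5) (nat_lit 13) (nat_lit 5) (nat_lit 12) (nat_lit 4) (nat_lit 365) (nat_lit 326) (nat_lit 209)) (XT.nd (nat_lit 78) (nat_lit 76) (nat_lit 0) (XT.lf (nat_lit 0) (nat_lit 40393321706) (nat_lit 152) (nat_lit 46464596301) (nat_lit 76) (nat_lit 137936302607) (nat_lit 11) (nat_lit 5) (nat_lit 13) (nat_lit 5) (nat_lit 12) (nat_lit 4) (nat_lit 366) (nat_lit 326) (nat_lit 208))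 (XT.lf (nat_lit 0) (nat_lit 34051229796) (nat_lit 76) (nat_lit 45052152378) (nat_lit 152) (nat_lit 160033334618) (nat_lit 10) (nat_lit 5) (nat_lit 11) (nat_lit 5) (nat_lit 12) (nat_lit 4) (nat_lit 367) (nat_lit 326) (nat_lit 207))))))) (XT.nd (nat_lit 624) (nat_lit 228) (nat_lit 0) (XT.nd (nat_lit 312) (nat_lit 152) (nat_lit 0) (XT.nd (nat_lit 156) (nat_lit 76) (nat_lit 0) (XT.nd (nat_lit 78) (nat_lit 0) (nat_lit 0) (XT.lf (nat_lit 0) (nat_lit 122215255925) (nat_lit 152) (nat_lit 130910981494) (nat_lit 0) (nat_lit 1395975047) (nat_lit 10) (nat_lit 5) (nat_lit 12) (nat_lit 4) (nat_lit 10) (nat_lit 4) (nat_lit 368) (nat_lit 326) (nat_lit 206)) (XT.lf (nat_lit 0) (nat_lit 169945549895) (nat_lit 152) (nat_lit 51974044658) (nat_lit 0) (nat_lit 49125396058) (nat_lit 10) (nat_lit 5) (nat_lit 12) (nat_lit 4) (nat_lit 10) (nat_lit 4) (nat_lit 369) (nat_lit 326) (nat_lit 205))) (XT.nd (nat_lit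 78) (nat_lit 0) (nat_lit 0) (XT.lf (nat_lit 0) (nat_lit 35028890260) (nat_lit 76) (nat_lit 187307160318) (nat_lit 76) (nat_lit 66486198185) (nat_lit 9) (nat_lit 4) (nat_lit 10) (nat_lit 5) (nat_lit 10) (nat_lit 4) (nat_lit 370) (nat_lit 326) (nat_lit 204)) (XT.lf (nat_lit 0) (nat_lit 131946657610) (nat_lit 76) (nat_lit 148391553647) (nat_lit 76) (nat_lit 27569843092) (nat_lit 9) (nat_lit 4) (nat_lit 10) (nat_lit 5) (nat_lit 10) (nat_lit 4) (nat_lit 371) (nat_lit 326) (nat_lit 203)))) (XT.nd (nat_lit 156) (nat_lit 76) (nat_lit 0) (XT.nd (nat_lit 78) (nat_lit 0) (nat_lit 0) (XT.lf (nat_lit 0) (nat_lit 13735870893) (nat_lit 152) (nat_lit 92251792081) (nat_lit 76) (nat_lit 222505289871) (nat_lit 8) (nat_lit 5) (nat_lit 10) (nat_lit 5) (nat_lit 9) (nat_lit 4) (nat_lit 372) (nat_lit 326) (nat_lit 202)) (XT.lf (nat_lit 0) (nat_lit 56855988874) (nat_lit 152) (nat_lit 2562588330) (nat_lit 76)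 (nat_lit 291248823569) (nat_lit 8) (nat_lit 5) (nat_lit 10) (nat_lit 5) (nat_lit 9) (nat_lit 4) (nat_lit 373) (nat_lit 326) (nat_lit 201))) (XT.nd (nat_lit 78) (nat_lit 0) (nat_lit 0) (XT.lf (nat_lit 0) (nat_lit 99266472463) (nat_lit 76) (nat_lit 6546081274) (nat_lit 152) (nat_lit 268612304084) (nat_lit 7) (nat_lit 5) (nat_lit 8) (nat_lit 5) (nat_lit 9) (nat_lit 4) (nat_lit 374) (nat_lit 326) (nat_lit 200)) (XT.lf (nat_lit 0) (nat_lit 159972888527) (nat_lit 152) (nat_lit 191908404524) (nat_lit 0) (nat_lit 48098639060) (nat_lit 7) (nat_lit 5) (nat_lit 9) (nat_lit 4) (nat_lit 7) (nat_lit 4) (nat_lit 375) (nat_lit 326) (nat_lit 199))))) (XT.nd (nat_lit 312) (nat_lit 152) (nat_lit 0) (XT.nd (nat_lit 156) (nat_lit 76) (nat_lit 0) (XT.nd (nat_lit 78) (nat_lit 0) (nat_lit 0) (XT.lf (nat_lit 0) (nat_lit 218635597604) (nat_lit 152) (nat_lit 102169374676) (nat_lit 0) (nat_lit 106760876504) (nat_lit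 7) (nat_lit 5) (nat_lit 9) (nat_lit 4) (nat_lit 7) (nat_lit 4) (nat_lit 376) (nat_lit 326) (nat_lit 198)) (XT.lf (nat_lit 0) (nat_lit 281990878424) (nat_lit 152) (nat_lit 5252075559) (nat_lit 0) (nat_lit 170115720626) (nat_lit 7) (nat_lit 5) (nat_lit 9) (nat_lit 4) (nat_lit 7) (nat_lit 4) (nat_lit 377) (nat_lit 326) (nat_lit 197))) (XT.nd (nat_lit 78) (nat_lit 0) (nat_lit 0) (XT.lf (nat_lit 0) (nat_lit 104652983650) (nat_lit 76) (nat_lit 248278092811) (nat_lit 76) (nat_lit 136402530665) (nat_lit 6) (nat_lit 4) (nat_lit 7) (nat_lit 5) (nat_lit 7) (nat_lit 4) (nat_lit 378) (nat_lit 326) (nat_lit 196)) (XT.lf (nat_lit 0) (nat_lit 223648367860) (nat_lit 76) (nat_lit 206041323517) (nat_lit 76) (nat_lit 94165386973) (nat_lit 6) (nat_lit 4) (nat_lit 7) (nat_lit 5) (nat_lit 7) (nat_lit 4) (nat_lit 379) (nat_lit 326) (nat_lit 195)))) (XT.nd (nat_lit 156) (nat_lit 76) (nat_lit 0) (XT.nd (nat_lit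 78) (nat_lit 76) (nat_lit 0) (XT.lf (nat_lit 0) (nat_lit 352162669912) (nat_lit 76) (nat_lit 160425955188) (nat_lit 76) (nat_lit 48549671979) (nat_lit 6) (nat_lit 4) (nat_lit 7) (nat_lit 5) (nat_lit 7) (nat_lit 4) (nat_lit 380) (nat_lit 326) (nat_lit 194)) (XT.lf (nat_lit 0) (nat_lit 679165986) (nat_lit 152) (nat_lit 110463938941) (nat_lit 76) (nat_lit 490259720452) (nat_lit 5) (nat_lit 5) (nat_lit 7) (nat_lit 5) (nat_lit 6) (nat_lit 4) (nat_lit 381) (nat_lit 326) (nat_lit 193))) (XT.nd (nat_lit 78) (nat_lit 76) (nat_lit 0) (XT.lf (nat_lit 0) (nat_lit 51223041734) (nat_lit 152) (nat_lit 5332974594) (nat_lit 76) (nat_lit 588231643394) (nat_lit 5) (nat_lit 5) (nat_lit 7) (nat_lit 5) (nat_lit 6) (nat_lit 4) (nat_lit 382) (nat_lit 326) (nat_lit 192)) (XT.nd (nat_lit 78) (nat_lit 0) (nat_lit 0) (XT.lf (nat_lit 0) (nat_lit 108678386329) (nat_lit 152) (nat_lit 577647049910) (nat_lit 0) (nat_lit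 5088408000) (nat_lit 4) (nat_lit 5) (nat_lit 6) (nat_lit 4) (nat_lit 4) (nat_lit 4) (nat_lit 383) (nat_lit 326) (nat_lit 191)) (XT.lf (nat_lit 0) (nat_lit 172348446581) (nat_lit 152) (nat_lit 500533981690) (nat_lit 0) (nat_lit 68758232318) (nat_lit 4) (nat_lit 5) (nat_lit 6) (nat_lit 4) (nat_lit 4) (nat_lit 4) (nat_lit 384) (nat_lit 326) (nat_lit 190))))))))
noncomputable def xc173 : XT := (XT.nd (nat_lit 1326) (nat_lit 152) (nat_lit 0) (XT.nd (nat_lit 624) (nat_lit 0) (nat_lit 0) (XT.nd (nat_lit 312) (nat_lit 76) (nat_lit 0) (XT.nd (nat_lit 156) (nat_lit 0) (nat_lit 0) (XT.nd (nat_lit 78) (nat_lit 0) (nat_lit 0) (XT.lf (nat_lit 0) (nat_lit 241111834179) (nat_lit 152) (nat_lit 417252408920) (nat_lit 0) (nat_lit 137521401458) (nat_lit 4) (nat_lit 5) (nat_lit 6) (nat_lit 4) (nat_lit 4) (nat_lit 4) (nat_lit 385) (nat_lit 326) (nat_lit 189)) (XT.lf (nat_lit 0) (nat_lit 315376035862) (nat_lit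 152) (nat_lit 327308811170) (nat_lit 0) (nat_lit 211785400866) (nat_lit 4) (nat_lit 5) (nat_lit 6) (nat_lit 4) (nat_lit 4) (nat_lit 4) (nat_lit 386) (nat_lit 326) (nat_lit 188))) (XT.nd (nat_lit 78) (nat_lit 0) (nat_lit 0) (XT.lf (nat_lit 0) (nat_lit 395581135789) (nat_lit 152) (nat_lit 230170189341) (nat_lit 0) (nat_lit 291990313501) (nat_lit 4) (nat_lit 5) (nat_lit 6) (nat_lit 4) (nat_lit 4) (nat_lit 4) (nat_lit 387) (nat_lit 326) (nat_lit 187)) (XT.lf (nat_lit 0) (nat_lit 482202423442) (nat_lit 152) (nat_lit 125260907156) (nat_lit 0) (nat_lit 378611427735) (nat_lit 4) (nat_lit 5) (nat_lit 6) (nat_lit 4) (nat_lit 4) (nat_lit 4) (nat_lit 388) (nat_lit 326) (nat_lit 186)))) (XT.nd (nat_lit 156) (nat_lit 0) (nat_lit 0) (XT.nd (nat_lit 78) (nat_lit 76) (nat_lit 0) (XT.lf (nat_lit 0) (nat_lit 575753210154) (nat_lit 152) (nat_lit 11959279981) (nat_lit 0) (nat_lit 472162053875) (nat_lit 4)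 (nat_lit 5) (nat_lit 6) (nat_lit 4) (nat_lit 4) (nat_lit 4) (nat_lit 389) (nat_lit 326) (nat_lit 185)) (XT.lf (nat_lit 0) (nat_lit 116219899291) (nat_lit 76) (nat_lit 563363063040) (nat_lit 76) (nat_lit 459771758082) (nat_lit 3) (nat_lit 4) (nat_lit 4) (nat_lit 5) (nat_lit 4) (nat_lit 4) (nat_lit 390) (nat_lit 326) (nat_lit 184))) (XT.nd (nat_lit 78) (nat_lit 0) (nat_lit 0) (XT.lf (nat_lit 0) (nat_lit 255333188941) (nat_lit 76) (nat_lit 536712710163) (nat_lit 76) (nat_lit 433121267540) (nat_lit 3) (nat_lit 4) (nat_lit 4) (nat_lit 5) (nat_lit 4) (nat_lit 4) (nat_lit 391) (nat_lit 326) (nat_lit 183)) (XT.lf (nat_lit 0) (nat_lit 405575209529) (nat_lit 76) (nat_lit 507930491396) (nat_lit 76) (nat_lit 404338921305) (nat_lit 3) (nat_lit 4) (nat_lit 4) (nat_lit 5) (nat_lit 4) (nat_lit 4) (nat_lit 392) (nat_lit 326) (nat_lit 182))))) (XT.nd (nat_lit 312) (nat_lit 0) (nat_lit 0) (XT.nd (nat_lit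 156) (nat_lit 0) (nat_lit 0) (XT.nd (nat_lit 78) (nat_lit 0) (nat_lit 0) (XT.lf (nat_lit 0) (nat_lit 567836284139) (nat_lit 76) (nat_lit 476845845442) (nat_lit 76) (nat_lit 373254157326) (nat_lit 3) (nat_lit 4) (nat_lit 4) (nat_lit 5) (nat_lit 4) (nat_lit 4) (nat_lit 393) (nat_lit 326) (nat_lit 181)) (XT.lf (nat_lit 0) (nat_lit 743077959881) (nat_lit 76) (nat_lit 443274566992) (nat_lit 76) (nat_lit 339682769593) (nat_lit 3) (nat_lit 4) (nat_lit 4) (nat_lit 5) (nat_lit 4) (nat_lit 4) (nat_lit 394) (nat_lit 326) (nat_lit 180))) (XT.nd (nat_lit 78) (nat_lit 0) (nat_lit 0) (XT.lf (nat_lit 0) (nat_lit 932338705944) (nat_lit 76) (nat_lit 407017715138) (nat_lit 76) (nat_lit 303425816551) (nat_lit 3) (nat_lit 4) (nat_lit 4) (nat_lit 5) (nat_lit 4) (nat_lit 4) (nat_lit 395) (nat_lit 326) (nat_lit 179)) (XT.lf (nat_lit 0) (nat_lit 1136740067489) (nat_lit 76) (nat_lit 367860434459) (nat_lit 76)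 (nat_lit 264268442180) (nat_lit 3) (nat_lit 4) (nat_lit 4) (nat_lit 5) (nat_lit 4) (nat_lit 4) (nat_lit 396) (nat_lit 326) (nat_lit 178)))) (XT.nd (nat_lit 156) (nat_lit 0) (nat_lit 0) (XT.nd (nat_lit 78) (nat_lit 0) (nat_lit 0) (XT.lf (nat_lit 0) (nat_lit 1357493311844) (nat_lit 76) (nat_lit 325570681812) (nat_lit 76) (nat_lit 221978602780) (nat_lit 3) (nat_lit 4) (nat_lit 4) (nat_lit 5) (nat_lit 4) (nat_lit 4) (nat_lit 397) (nat_lit 326) (nat_lit 177)) (XT.lf (nat_lit 0) (nat_lit 1595906606384) (nat_lit 76) (nat_lit 279897851256) (nat_lit 76) (nat_lit 176305691897) (nat_lit 3) (nat_lit 4) (nat_lit 4) (nat_lit 5) (nat_lit 4) (nat_lit 4) (nat_lit 398) (nat_lit 326) (nat_lit 176))) (XT.nd (nat_lit 78) (nat_lit 0) (nat_lit 0) (XT.lf (nat_lit 0) (nat_lit 1853392770632) (nat_lit 76) (nat_lit 230571288978) (nat_lit 76) (nat_lit 126979055244) (nat_lit 3) (nat_lit 4) (nat_lit 4) (nat_lit 5)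 (nat_lit 4) (nat_lit 4) (nat_lit 399) (nat_lit 326) (nat_lit 175)) (XT.nd (nat_lit 78) (nat_lit 0) (nat_lit 0) (XT.lf (nat_lit 0) (nat_lit 2131477648523) (nat_lit 76) (nat_lit 177298689426) (nat_lit 76) (nat_lit 73706386824) (nat_lit 3) (nat_lit 4) (nat_lit 4) (nat_lit 5) (nat_lit 4) (nat_lit 4) (nat_lit 400) (nat_lit 326) (nat_lit 174)) (XT.lf (nat_lit 0) (nat_lit 2431809150446) (nat_lit 76) (nat_lit 119764363119) (nat_lit 76) (nat_lit 16171996752) (nat_lit 3) (nat_lit 4) (nat_lit 4) (nat_lit 5) (nat_lit 4) (nat_lit 4) (nat_lit 401) (nat_lit 326) (nat_lit 173))))))) (XT.nd (nat_lit 41028) (nat_lit 0) (nat_lit 3344) (XT.nd (nat_lit 312) (nat_lit 0) (nat_lit 0) (XT.nd (nat_lit 156) (nat_lit 0) (nat_lit 0) (XT.nd (nat_lit 78) (nat_lit 76) (nat_lit 0) (XT.lf (nat_lit 0) (nat_lit 43665701069) (nat_lit 152) (nat_lit 12767767185) (nat_lit 76) (nat_lit 2711307419915) (nat_lit 2) (nat_lit 5)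 (nat_lit 4) (nat_lit 5) (nat_lit 3) (nat_lit 4) (nat_lit 402) (nat_lit 326) (nat_lit 172)) (XT.lf (nat_lit 0) (nat_lit 110827847215) (nat_lit 152) (nat_lit 2857692669498) (nat_lit 0) (nat_lit 14908884180) (nat_lit 1) (nat_lit 5) (nat_lit 3) (nat_lit 4) (nat_lit 1) (nat_lit 4) (nat_lit 403) (nat_lit 326) (nat_lit 171))) (XT.nd (nat_lit 78) (nat_lit 0) (nat_lit 0) (XT.lf (nat_lit 0) (nat_lit 185186855803) (nat_lit 152) (nat_lit 2941772381699) (nat_lit 0) (nat_lit 89267845899) (nat_lit 1) (nat_lit 5) (nat_lit 3) (nat_lit 4) (nat_lit 1) (nat_lit 4) (nat_lit 404) (nat_lit 326) (nat_lit 170)) (XT.lf (nat_lit 0) (nat_lit 265494516224) (nat_lit 152) (nat_lit 3032578606893) (nat_lit 0) (nat_lit 169575462922) (nat_lit 1) (nat_lit 5) (nat_lit 3) (nat_lit 4) (nat_lit 1) (nat_lit 4) (nat_lit 405) (nat_lit 326) (nat_lit 169)))) (XT.nd (nat_lit 156) (nat_lit 0) (nat_lit 0) (XT.nd (nat_lit 78) (nat_lit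 0) (nat_lit 0) (XT.lf (nat_lit 0) (nat_lit 352226725725) (nat_lit 152) (nat_lit 3130649456044) (nat_lit 0) (nat_lit 256307632240) (nat_lit 1) (nat_lit 5) (nat_lit 3) (nat_lit 4) (nat_lit 1) (nat_lit 4) (nat_lit 406) (nat_lit 326) (nat_lit 168)) (XT.lf (nat_lit 0) (nat_lit 445897452955) (nat_lit 152) (nat_lit 3236566089740) (nat_lit 0) (nat_lit 349978322263) (nat_lit 1) (nat_lit 5) (nat_lit 3) (nat_lit 4) (nat_lit 1) (nat_lit 4) (nat_lit 407) (nat_lit 326) (nat_lit 167))) (XT.nd (nat_lit 78) (nat_lit 0) (nat_lit 0) (XT.lf (nat_lit 0) (nat_lit 547061783704) (nat_lit 152) (nat_lit 3350956162106) (nat_lit 0) (nat_lit 451142618562) (nat_lit 1) (nat_lit 5) (nat_lit 3) (nat_lit 4) (nat_lit 1) (nat_lit 4) (nat_lit 408) (nat_lit 326) (nat_lit 166)) (XT.nd (nat_lit 78) (nat_lit 0) (nat_lit 0) (XT.lf (nat_lit 0) (nat_lit 656319210304) (nat_lit 152) (nat_lit 3474497540238) (nat_lit 0) (nat_lit 560400013263)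 (nat_lit 1) (nat_lit 5) (nat_lit 3) (nat_lit 4) (nat_lit 1) (nat_lit 4) (nat_lit 409) (nat_lit 326) (nat_lit 165)) (XT.lf (nat_lit 0) (nat_lit 774317184171) (nat_lit 152) (nat_lit 3607922321191) (nat_lit 0) (nat_lit 678397957593) (nat_lit 1) (nat_lit 5) (nat_lit 3) (nat_lit 4) (nat_lit 1) (nat_lit 4) (nat_lit 410) (nat_lit 326) (nat_lit 164)))))) (XT.nd (nat_lit 312) (nat_lit 304) (nat_lit 0) (XT.nd (nat_lit 156) (nat_lit 0) (nat_lit 76) (XT.nd (nat_lit 78) (nat_lit 0) (nat_lit 0) (XT.lf (nat_lit 0) (nat_lit 11003519000) (nat_lit 532) (nat_lit 2656959281) (nat_lit 532) (nat_lit 2656959281) (nat_lit 49) (nat_lit 3) (nat_lit 56) (nat_lit 3) (nat_lit 56) (nat_lit 5) (nat_lit 327) (nat_lit 327) (nat_lit 246)) (XT.lf (nat_lit 76) (nat_lit 10353987654) (nat_lit 0) (nat_lit 12838977026) (nat_lit 532) (nat_lit 10722712745) (nat_lit 50) (nat_lit 5) (nat_lit 49) (nat_lit 3) (nat_lit 56) (nat_lit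 5) (nat_lit 328) (nat_lit 327) (nat_lit 245))) (XT.nd (nat_lit 78) (nat_lit 0) (nat_lit 0) (XT.lf (nat_lit 0) (nat_lit 24684525852) (nat_lit 456) (nat_lit 7784700555) (nat_lit 532) (nat_lit 2812870787) (nat_lit 50) (nat_lit 5) (nat_lit 56) (nat_lit 5) (nat_lit 57) (nat_lit 5) (nat_lit 329) (nat_lit 327) (nat_lit 244)) (XT.lf (nat_lit 76) (nat_lit 9387063273) (nat_lit 0) (nat_lit 17462325613) (nat_lit 532) (nat_lit 9864136573) (nat_lit 51) (nat_lit 5) (nat_lit 50) (nat_lit 5) (nat_lit 57) (nat_lit 5) (nat_lit 330) (nat_lit 327) (nat_lit 243)))) (XT.nd (nat_lit 156) (nat_lit 380) (nat_lit 0) (XT.nd (nat_lit 78) (nat_lit 0) (nat_lit 76) (XT.lf (nat_lit 76) (nat_lit 28371895694) (nat_lit 0) (nat_lit 1023438851) (nat_lit 532) (nat_lit 8847514056) (nat_lit 51) (nat_lit 5) (nat_lit 50) (nat_lit 5) (nat_lit 57) (nat_lit 5) (nat_lit 331) (nat_lit 327) (nat_lit 242)) (XT.lf (nat_lit 76) (nat_lit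 9026618066) (nat_lit 0) (nat_lit 23733246252) (nat_lit 532) (nat_lit 7085471804) (nat_lit 52) (nat_lit 5) (nat_lit 51) (nat_lit 5) (nat_lit 58) (nat_lit 5) (nat_lit 332) (nat_lit 327) (nat_lit 241))) (XT.nd (nat_lit 78) (nat_lit 456) (nat_lit 0) (XT.lf (nat_lit 76) (nat_lit 29965915269) (nat_lit 0) (nat_lit 6719141963) (nat_lit 532) (nat_lit 4867655729) (nat_lit 52) (nat_lit 5) (nat_lit 51) (nat_lit 5) (nat_lit 58) (nat_lit 5) (nat_lit 333) (nat_lit 327) (nat_lit 240)) (XT.nd (nat_lit 78) (nat_lit 76) (nat_lit 0) (XT.lf (nat_lit 0) (nat_lit 9368437845) (nat_lit 456) (nat_lit 32057506644) (nat_lit 532) (nat_lit 1930610752) (nat_lit 46) (nat_lit 5) (nat_lit 52) (nat_lit 5) (nat_lit 53) (nat_lit 5) (nat_lit 334) (nat_lit 327) (nat_lit 239)) (XT.lf (nat_lit 0) (nat_lit 1674996172) (nat_lit 532) (nat_lit 12836602139) (nat_lit 76) (nat_lit 30751070529) (nat_lit 45) (nat_lit 5) (nat_lit 52)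 (nat_lit 5) (nat_lit 46) (nat_lit 5) (nat_lit 335) (nat_lit 327) (nat_lit 238))))))))
noncomputable def xc174 : XT := (XT.nd (nat_lit 1326) (nat_lit 836) (nat_lit 0) (XT.nd (nat_lit 624) (nat_lit 912) (nat_lit 0) (XT.nd (nat_lit 312) (nat_lit 380) (nat_lit 0) (XT.nd (nat_lit 156) (nat_lit 228) (nat_lit 0) (XT.nd (nat_lit 78) (nat_lit 0) (nat_lit 0) (XT.lf (nat_lit 0) (nat_lit 5827749045) (nat_lit 380) (nat_lit 36934363359) (nat_lit 76) (nat_lit 4526115049) (nat_lit 41) (nat_lit 5) (nat_lit 46) (nat_lit 5) (nat_lit 42) (nat_lit 5) (nat_lit 336) (nat_lit 327) (nat_lit 237)) (XT.lf (nat_lit 0) (nat_lit 11046353253) (nat_lit 380) (nat_lit 13707795757) (nat_lit 76) (nat_lit 24662998320) (nat_lit 41) (nat_lit 5) (nat_lit 46) (nat_lit 5) (nat_lit 42) (nat_lit 5) (nat_lit 337) (nat_lit 327) (nat_lit 236))) (XT.nd (nat_lit 78) (nat_lit 0) (nat_lit 0) (XT.lf (nat_lit 0) (nat_lit 11972476883) (nat_lit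 228) (nat_lit 4994772806) (nat_lit 304) (nat_lit 34726353334) (nat_lit 38) (nat_lit 5) (nat_lit 41) (nat_lit 5) (nat_lit 42) (nat_lit 5) (nat_lit 338) (nat_lit 327) (nat_lit 235)) (XT.lf (nat_lit 0) (nat_lit 24136467536) (nat_lit 304) (nat_lit 14041772652) (nat_lit 76) (nat_lit 15911969062) (nat_lit 38) (nat_lit 5) (nat_lit 42) (nat_lit 5) (nat_lit 39) (nat_lit 5) (nat_lit 339) (nat_lit 327) (nat_lit 234)))) (XT.nd (nat_lit 156) (nat_lit 152) (nat_lit 0) (XT.nd (nat_lit 78) (nat_lit 0) (nat_lit 0) (XT.lf (nat_lit 0) (nat_lit 14272958297) (nat_lit 228) (nat_lit 18076498285) (nat_lit 304) (nat_lit 24291474297) (nat_lit 35) (nat_lit 5) (nat_lit 38) (nat_lit 5) (nat_lit 39) (nat_lit 5) (nat_lit 340) (nat_lit 327) (nat_lit 233)) (XT.lf (nat_lit 0) (nat_lit 41698118144) (nat_lit 304) (nat_lit 13814265155) (nat_lit 76) (nat_lit 3845041459) (nat_lit 35) (nat_lit 5) (nat_lit 39) (nat_lit 5) (nat_lit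 36) (nat_lit 5) (nat_lit 341) (nat_lit 327) (nat_lit 232))) (XT.nd (nat_lit 78) (nat_lit 0) (nat_lit 0) (XT.lf (nat_lit 0) (nat_lit 17422670321) (nat_lit 152) (nat_lit 35258084946) (nat_lit 228) (nat_lit 9539601075) (nat_lit 33) (nat_lit 5) (nat_lit 35) (nat_lit 5) (nat_lit 36) (nat_lit 5) (nat_lit 342) (nat_lit 327) (nat_lit 231)) (XT.lf (nat_lit 0) (nat_lit 51941167017) (nat_lit 152) (nat_lit 12976199351) (nat_lit 228) (nat_lit 364931494) (nat_lit 33) (nat_lit 5) (nat_lit 35) (nat_lit 5) (nat_lit 36) (nat_lit 5) (nat_lit 343) (nat_lit 327) (nat_lit 230))))) (XT.nd (nat_lit 312) (nat_lit 456) (nat_lit 0) (XT.nd (nat_lit 156) (nat_lit 152) (nat_lit 0) (XT.nd (nat_lit 78) (nat_lit 0) (nat_lit 0) (XT.lf (nat_lit 0) (nat_lit 9866541062) (nat_lit 304) (nat_lit 47342027540) (nat_lit 76) (nat_lit 11298248236) (nat_lit 29) (nat_lit 5) (nat_lit 33) (nat_lit 5) (nat_lit 30) (nat_lit 5) (nat_lit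 344) (nat_lit 327) (nat_lit 229)) (XT.lf (nat_lit 0) (nat_lit 21605953916) (nat_lit 304) (nat_lit 13129211718) (nat_lit 76) (nat_lit 37196645870) (nat_lit 29) (nat_lit 5) (nat_lit 33) (nat_lit 5) (nat_lit 30) (nat_lit 5) (nat_lit 345) (nat_lit 327) (nat_lit 228))) (XT.nd (nat_lit 78) (nat_lit 0) (nat_lit 0) (XT.lf (nat_lit 0) (nat_lit 25072053980) (nat_lit 152) (nat_lit 9813458044) (nat_lit 228) (nat_lit 40697217612) (nat_lit 27) (nat_lit 5) (nat_lit 29) (nat_lit 5) (nat_lit 30) (nat_lit 5) (nat_lit 346) (nat_lit 327) (nat_lit 227)) (XT.lf (nat_lit 0) (nat_lit 50005109680) (nat_lit 228) (nat_lit 12844386664) (nat_lit 76) (nat_lit 16614013911) (nat_lit 27) (nat_lit 5) (nat_lit 30) (nat_lit 5) (nat_lit 28) (nat_lit 5) (nat_lit 347) (nat_lit 327) (nat_lit 226)))) (XT.nd (nat_lit 156) (nat_lit 304) (nat_lit 0) (XT.nd (nat_lit 78) (nat_lit 0) (nat_lit 0) (XT.lf (nat_lit 0) (nat_lit 29029865652)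 (nat_lit 152) (nat_lit 38255688064) (nat_lit 228) (nat_lit 16293100126) (nat_lit 25) (nat_lit 5) (nat_lit 27) (nat_lit 5) (nat_lit 28) (nat_lit 5) (nat_lit 348) (nat_lit 327) (nat_lit 225)) (XT.lf (nat_lit 0) (nat_lit 74981960315) (nat_lit 152) (nat_lit 11315946299) (nat_lit 228) (nat_lit 1697147033) (nat_lit 25) (nat_lit 5) (nat_lit 27) (nat_lit 5) (nat_lit 28) (nat_lit 5) (nat_lit 349) (nat_lit 327) (nat_lit 224))) (XT.nd (nat_lit 78) (nat_lit 152) (nat_lit 0) (XT.lf (nat_lit 0) (nat_lit 14615843756) (nat_lit 152) (nat_lit 59967423723) (nat_lit 76) (nat_lit 18054194333) (nat_lit 23) (nat_lit 5) (nat_lit 25) (nat_lit 5) (nat_lit 24) (nat_lit 5) (nat_lit 350) (nat_lit 327) (nat_lit 223)) (XT.nd (nat_lit 78) (nat_lit 152) (nat_lit 0) (XT.lf (nat_lit 0) (nat_lit 32799558535) (nat_lit 152) (nat_lit 15224668637) (nat_lit 76) (nat_lit 49570921002) (nat_lit 23) (nat_lit 5) (nat_lit 25) (nat_lit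 5) (nat_lit 24) (nat_lit 5) (nat_lit 351) (nat_lit 327) (nat_lit 222)) (XT.lf (nat_lit 0) (nat_lit 34837914263) (nat_lit 152) (nat_lit 18436438025) (nat_lit 228) (nat_lit 49608188522) (nat_lit 21) (nat_lit 5) (nat_lit 23) (nat_lit 5) (nat_lit 24) (nat_lit 5) (nat_lit 352) (nat_lit 327) (nat_lit 221))))))) (XT.nd (nat_lit 624) (nat_lit 380) (nat_lit 0) (XT.nd (nat_lit 312) (nat_lit 152) (nat_lit 0) (XT.nd (nat_lit 156) (nat_lit 228) (nat_lit 0) (XT.nd (nat_lit 78) (nat_lit 76) (nat_lit 0) (XT.lf (nat_lit 0) (nat_lit 76137891463) (nat_lit 228) (nat_lit 19126570422) (nat_lit 76) (nat_lit 13268403785) (nat_lit 21) (nat_lit 5) (nat_lit 24) (nat_lit 5) (nat_lit 22) (nat_lit 4) (nat_lit 353) (nat_lit 327) (nat_lit 220)) (XT.lf (nat_lit 0) (nat_lit 34973385103) (nat_lit 76) (nat_lit 67175777460) (nat_lit 152) (nat_lit 12380563688) (nat_lit 20) (nat_lit 5) (nat_lit 21) (nat_lit 5) (nat_lit 22)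 (nat_lit 4) (nat_lit 354) (nat_lit 327) (nat_lit 219))) (XT.nd (nat_lit 78) (nat_lit 152) (nat_lit 0) (XT.lf (nat_lit 0) (nat_lit 9308247186) (nat_lit 152) (nat_lit 26713304824) (nat_lit 76) (nat_lit 84924199348) (nat_lit 19) (nat_lit 5) (nat_lit 21) (nat_lit 5) (nat_lit 20) (nat_lit 5) (nat_lit 355) (nat_lit 327) (nat_lit 218)) (XT.lf (nat_lit 0) (nat_lit 31615076244) (nat_lit 152) (nat_lit 1207337686) (nat_lit 228) (nat_lit 94966190154) (nat_lit 17) (nat_lit 5) (nat_lit 19) (nat_lit 5) (nat_lit 20) (nat_lit 5) (nat_lit 356) (nat_lit 327) (nat_lit 217)))) (XT.nd (nat_lit 156) (nat_lit 76) (nat_lit 0) (XT.nd (nat_lit 78) (nat_lit 76) (nat_lit 0) (XT.lf (nat_lit 0) (nat_lit 59841105842) (nat_lit 228) (nat_lit 39887780294) (nat_lit 76) (nat_lit 35320128748) (nat_lit 17) (nat_lit 5) (nat_lit 20) (nat_lit 5) (nat_lit 18) (nat_lit 4) (nat_lit 357) (nat_lit 327) (nat_lit 216)) (XT.lf (nat_lit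 0) (nat_lit 21966405505) (nat_lit 76) (nat_lit 67613431068) (nat_lit 152) (nat_lit 53265739612) (nat_lit 16) (nat_lit 5) (nat_lit 17) (nat_lit 5) (nat_lit 18) (nat_lit 4) (nat_lit 358) (nat_lit 327) (nat_lit 215))) (XT.nd (nat_lit 78) (nat_lit 76) (nat_lit 0) (XT.lf (nat_lit 0) (nat_lit 91035517251) (nat_lit 76) (nat_lit 31751679902) (nat_lit 152) (nat_lit 28391503756) (nat_lit 16) (nat_lit 5) (nat_lit 17) (nat_lit 5) (nat_lit 18) (nat_lit 4) (nat_lit 359) (nat_lit 327) (nat_lit 214)) (XT.lf (nat_lit 0) (nat_lit 5560193256) (nat_lit 76) (nat_lit 153391512018) (nat_lit 76) (nat_lit 1202726596) (nat_lit 15) (nat_lit 4) (nat_lit 16) (nat_lit 5) (nat_lit 16) (nat_lit 4) (nat_lit 360) (nat_lit 327) (nat_lit 213))))) (XT.nd (nat_lit 312) (nat_lit 228) (nat_lit 0) (XT.nd (nat_lit 156) (nat_lit 76) (nat_lit 0) (XT.nd (nat_lit 78) (nat_lit 0) (nat_lit 0) (XT.lf (nat_lit 0) (nat_lit 29263267445)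 (nat_lit 152) (nat_lit 91322934184) (nat_lit 76) (nat_lit 49006970416) (nat_lit 14) (nat_lit 5) (nat_lit 16) (nat_lit 5) (nat_lit 15) (nat_lit 4) (nat_lit 361) (nat_lit 327) (nat_lit 212)) (XT.lf (nat_lit 0) (nat_lit 62100634019) (nat_lit 152) (nat_lit 23022827500) (nat_lit 76) (nat_lit 94661125784) (nat_lit 14) (nat_lit 5) (nat_lit 16) (nat_lit 5) (nat_lit 15) (nat_lit 4) (nat_lit 362) (nat_lit 327) (nat_lit 211))) (XT.nd (nat_lit 78) (nat_lit 0) (nat_lit 0) (XT.lf (nat_lit 0) (nat_lit 53411613647) (nat_lit 76) (nat_lit 45437067124) (nat_lit 152) (nat_lit 91839940441) (nat_lit 13) (nat_lit 5) (nat_lit 14) (nat_lit 5) (nat_lit 15) (nat_lit 4) (nat_lit 363) (nat_lit 327) (nat_lit 210)) (XT.lf (nat_lit 0) (nat_lit 137268638352) (nat_lit 76) (nat_lit 1896585680) (nat_lit 152) (nat_lit 63249462232) (nat_lit 13) (nat_lit 5) (nat_lit 14) (nat_lit 5) (nat_lit 15) (nat_lit 4) (nat_lit 364) (nat_lit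 327) (nat_lit 209)))) (XT.nd (nat_lit 156) (nat_lit 76) (nat_lit 0) (XT.nd (nat_lit 78) (nat_lit 76) (nat_lit 0) (XT.lf (nat_lit 0) (nat_lit 12283093363) (nat_lit 76) (nat_lit 171803929369) (nat_lit 76) (nat_lit 30881419831) (nat_lit 12) (nat_lit 4) (nat_lit 13) (nat_lit 5) (nat_lit 13) (nat_lit 4) (nat_lit 365) (nat_lit 327) (nat_lit 208)) (XT.lf (nat_lit 0) (nat_lit 5748118983) (nat_lit 152) (nat_lit 128967521729) (nat_lit 76) (nat_lit 93652940464) (nat_lit 11) (nat_lit 5) (nat_lit 13) (nat_lit 5) (nat_lit 12) (nat_lit 4) (nat_lit 366) (nat_lit 327) (nat_lit 207))) (XT.nd (nat_lit 78) (nat_lit 76) (nat_lit 0) (XT.lf (nat_lit 0) (nat_lit 43638898814) (nat_lit 152) (nat_lit 50155717900) (nat_lit 76) (nat_lit 148982003320) (nat_lit 11) (nat_lit 5) (nat_lit 13) (nat_lit 5) (nat_lit 12) (nat_lit 4) (nat_lit 367) (nat_lit 327) (nat_lit 206)) (XT.nd (nat_lit 78) (nat_lit 0) (nat_lit 0) (XT.lf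 (nat_lit 0) (nat_lit 36800714889) (nat_lit 76) (nat_lit 48644614495) (nat_lit 152) (nat_lit 172821221992) (nat_lit 10) (nat_lit 5) (nat_lit 11) (nat_lit 5) (nat_lit 12) (nat_lit 4) (nat_lit 368) (nat_lit 327) (nat_lit 205)) (XT.lf (nat_lit 0) (nat_lit 132005400717) (nat_lit 152) (nat_lit 141359593494) (nat_lit 0) (nat_lit 1517953318) (nat_lit 10) (nat_lit 5) (nat_lit 12) (nat_lit 4) (nat_lit 10) (nat_lit 4) (nat_lit 369) (nat_lit 327) (nat_lit 204))))))))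
noncomputable def xc175 : XT := (XT.nd (nat_lit 1326) (nat_lit 228) (nat_lit 0) (XT.nd (nat_lit 624) (nat_lit 228) (nat_lit 0) (XT.nd (nat_lit 312) (nat_lit 76) (nat_lit 0) (XT.nd (nat_lit 156) (nat_lit 76) (nat_lit 0) (XT.nd (nat_lit 78) (nat_lit 76) (nat_lit 0) (XT.lf (nat_lit 0) (nat_lit 183553160849) (nat_lit 152) (nat_lit 56109499231) (nat_lit 0) (nat_lit 53064965027) (nat_lit 10) (nat_lit 5) (nat_lit 12) (nat_lit 4) (nat_lit 10) (nat_lit 4) (nat_lit 370) (nat_lit 327) (nat_lit 203)) (XT.lf (nat_lit 0) (nat_lit 37853101644) (nat_lit 76) (nat_lit 202281440199) (nat_lit 76) (nat_lit 71792551394) (nat_lit 9) (nat_lit 4) (nat_lit 10) (nat_lit 5) (nat_lit 10) (nat_lit 4) (nat_lit 371) (nat_lit 327) (nat_lit 202))) (XT.nd (nat_lit 78) (nat_lit 76) (nat_lit 0) (XT.lf (nat_lit 0) (nat_lit 142522668148) (nat_lit 76) (nat_lit 160253347435) (nat_lit 76) (nat_lit 29763816978) (nat_lit 9) (nat_lit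 4) (nat_lit 10) (nat_lit 5) (nat_lit 10) (nat_lit 4) (nat_lit 372) (nat_lit 327) (nat_lit 201)) (XT.lf (nat_lit 0) (nat_lit 14844955938) (nat_lit 152) (nat_lit 99612616226) (nat_lit 76) (nat_lit 240313994241) (nat_lit 8) (nat_lit 5) (nat_lit 10) (nat_lit 5) (nat_lit 9) (nat_lit 4) (nat_lit 373) (nat_lit 327) (nat_lit 200)))) (XT.nd (nat_lit 156) (nat_lit 0) (nat_lit 0) (XT.nd (nat_lit 78) (nat_lit 76) (nat_lit 0) (XT.lf (nat_lit 0) (nat_lit 61413926664) (nat_lit 152) (nat_lit 2749707229) (nat_lit 76) (nat_lit 314556397215) (nat_lit 8) (nat_lit 5) (nat_lit 10) (nat_lit 5) (nat_lit 9) (nat_lit 4) (nat_lit 374) (nat_lit 327) (nat_lit 199)) (XT.lf (nat_lit 0) (nat_lit 107225225563) (nat_lit 76) (nat_lit 7061509829) (nat_lit 152) (nat_lit 290091372205) (nat_lit 7) (nat_lit 5) (nat_lit 8) (nat_lit 5) (nat_lit 9) (nat_lit 4) (nat_lit 375) (nat_lit 327) (nat_lit 198))) (XT.nd (nat_lit 78) (nat_lit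 0) (nat_lit 0) (XT.lf (nat_lit 0) (nat_lit 172779401054) (nat_lit 152) (nat_lit 207244432859) (nat_lit 0) (nat_lit 51953793936) (nat_lit 7) (nat_lit 5) (nat_lit 9) (nat_lit 4) (nat_lit 7) (nat_lit 4) (nat_lit 376) (nat_lit 327) (nat_lit 197)) (XT.lf (nat_lit 0) (nat_lit 236134483787) (nat_lit 152) (nat_lit 110327513514) (nat_lit 0) (nat_lit 115308472319) (nat_lit 7) (nat_lit 5) (nat_lit 9) (nat_lit 4) (nat_lit 7) (nat_lit 4) (nat_lit 377) (nat_lit 327) (nat_lit 196))))) (XT.nd (nat_lit 312) (nat_lit 152) (nat_lit 0) (XT.nd (nat_lit 156) (nat_lit 0) (nat_lit 0) (XT.nd (nat_lit 78) (nat_lit 76) (nat_lit 0) (XT.lf (nat_lit 0) (nat_lit 304557591637) (nat_lit 152) (nat_lit 5657972034) (nat_lit 0) (nat_lit 183731205772) (nat_lit 7) (nat_lit 5) (nat_lit 9) (nat_lit 4) (nat_lit 7) (nat_lit 4) (nat_lit 378) (nat_lit 327) (nat_lit 195)) (XT.lf (nat_lit 0) (nat_lit 113039130657) (nat_lit 76) (nat_lit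 268133658027) (nat_lit 76) (nat_lit 147306925497) (nat_lit 6) (nat_lit 4) (nat_lit 7) (nat_lit 5) (nat_lit 7) (nat_lit 4) (nat_lit 379) (nat_lit 327) (nat_lit 194))) (XT.nd (nat_lit 78) (nat_lit 0) (nat_lit 0) (XT.lf (nat_lit 0) (nat_lit 241553115359) (nat_lit 76) (nat_lit 222518442167) (nat_lit 76) (nat_lit 101691388653) (nat_lit 6) (nat_lit 4) (nat_lit 7) (nat_lit 5) (nat_lit 7) (nat_lit 4) (nat_lit 380) (nat_lit 327) (nat_lit 193)) (XT.lf (nat_lit 0) (nat_lit 380347607644) (nat_lit 76) (nat_lit 173254302685) (nat_lit 76) (nat_lit 52426951962) (nat_lit 6) (nat_lit 4) (nat_lit 7) (nat_lit 5) (nat_lit 7) (nat_lit 4) (nat_lit 381) (nat_lit 327) (nat_lit 192)))) (XT.nd (nat_lit 156) (nat_lit 76) (nat_lit 0) (XT.nd (nat_lit 78) (nat_lit 0) (nat_lit 0) (XT.lf (nat_lit 0) (nat_lit 739387160) (nat_lit 152) (nat_lit 119289700623) (nat_lit 76) (nat_lit 529485490077) (nat_lit 5) (nat_lit 5) (nat_lit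 7) (nat_lit 5) (nat_lit 6) (nat_lit 4) (nat_lit 382) (nat_lit 327) (nat_lit 191)) (XT.lf (nat_lit 0) (nat_lit 55326336827) (nat_lit 152) (nat_lit 5749100123) (nat_lit 76) (nat_lit 635294797078) (nat_lit 5) (nat_lit 5) (nat_lit 7) (nat_lit 5) (nat_lit 6) (nat_lit 4) (nat_lit 383) (nat_lit 327) (nat_lit 190))) (XT.nd (nat_lit 78) (nat_lit 0) (nat_lit 0) (XT.lf (nat_lit 0) (nat_lit 117378070675) (nat_lit 152) (nat_lit 623848260990) (nat_lit 0) (nat_lit 5500184879) (nat_lit 4) (nat_lit 5) (nat_lit 6) (nat_lit 4) (nat_lit 4) (nat_lit 4) (nat_lit 384) (nat_lit 327) (nat_lit 189)) (XT.nd (nat_lit 78) (nat_lit 0) (nat_lit 0) (XT.lf (nat_lit 0) (nat_lit 186141334752) (nat_lit 152) (nat_lit 540566929009) (nat_lit 0) (nat_lit 74263246681) (nat_lit 4) (nat_lit 5) (nat_lit 6) (nat_lit 4) (nat_lit 4) (nat_lit 4) (nat_lit 385) (nat_lit 327) (nat_lit 188)) (XT.lf (nat_lit 0) (nat_lit 260405422064) (nat_lit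 152) (nat_lit 450623554212) (nat_lit 0) (nat_lit 148527146702) (nat_lit 4) (nat_lit 5) (nat_lit 6) (nat_lit 4) (nat_lit 4) (nat_lit 4) (nat_lit 386) (nat_lit 327) (nat_lit 187))))))) (XT.nd (nat_lit 702) (nat_lit 152) (nat_lit 0) (XT.nd (nat_lit 312) (nat_lit 76) (nat_lit 0) (XT.nd (nat_lit 156) (nat_lit 0) (nat_lit 0) (XT.nd (nat_lit 78) (nat_lit 0) (nat_lit 0) (XT.lf (nat_lit 0) (nat_lit 340610416093) (nat_lit 152) (nat_lit 353485138821) (nat_lit 0) (nat_lit 228731967312) (nat_lit 4) (nat_lit 5) (nat_lit 6) (nat_lit 4) (nat_lit 4) (nat_lit 4) (nat_lit 387) (nat_lit 327) (nat_lit 186)) (XT.lf (nat_lit 0) (nat_lit 427231605692) (nat_lit 152) (nat_lit 248576047782) (nat_lit 0) (nat_lit 315352996338) (nat_lit 4) (nat_lit 5) (nat_lit 6) (nat_lit 4) (nat_lit 4) (nat_lit 4) (nat_lit 388) (nat_lit 327) (nat_lit 185))) (XT.nd (nat_lit 78) (nat_lit 0) (nat_lit 0) (XT.lf (nat_lit 0) (nat_lit 520782301613)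 (nat_lit 152) (nat_lit 135274597594) (nat_lit 0) (nat_lit 408903543581) (nat_lit 4) (nat_lit 5) (nat_lit 6) (nat_lit 4) (nat_lit 4) (nat_lit 4) (nat_lit 389) (nat_lit 327) (nat_lit 184)) (XT.lf (nat_lit 0) (nat_lit 621816878351) (nat_lit 152) (nat_lit 12909372254) (nat_lit 0) (nat_lit 509937982654) (nat_lit 4) (nat_lit 5) (nat_lit 6) (nat_lit 4) (nat_lit 4) (nat_lit 4) (nat_lit 390) (nat_lit 327) (nat_lit 183)))) (XT.nd (nat_lit 156) (nat_lit 0) (nat_lit 0) (XT.nd (nat_lit 78) (nat_lit 0) (nat_lit 0) (XT.lf (nat_lit 0) (nat_lit 125523973001) (nat_lit 76) (nat_lit 608428940892) (nat_lit 76) (nat_lit 496549917727) (nat_lit 3) (nat_lit 4) (nat_lit 4) (nat_lit 5) (nat_lit 4) (nat_lit 4) (nat_lit 391) (nat_lit 327) (nat_lit 182)) (XT.lf (nat_lit 0) (nat_lit 275765845693) (nat_lit 76) (nat_lit 579646794391) (nat_lit 76) (nat_lit 467767653201) (nat_lit 3) (nat_lit 4) (nat_lit 4) (nat_lit 5)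 (nat_lit 4) (nat_lit 4) (nat_lit 392) (nat_lit 327) (nat_lit 181))) (XT.nd (nat_lit 78) (nat_lit 0) (nat_lit 0) (XT.lf (nat_lit 0) (nat_lit 438026783362) (nat_lit 76) (nat_lit 548562215351) (nat_lit 76) (nat_lit 436682964877) (nat_lit 3) (nat_lit 4) (nat_lit 4) (nat_lit 5) (nat_lit 4) (nat_lit 4) (nat_lit 393) (nat_lit 327) (nat_lit 180)) (XT.nd (nat_lit 78) (nat_lit 0) (nat_lit 0) (XT.lf (nat_lit 0) (nat_lit 613268332307) (nat_lit 76) (nat_lit 514990998859) (nat_lit 76) (nat_lit 403111647197) (nat_lit 3) (nat_lit 4) (nat_lit 4) (nat_lit 5) (nat_lit 4) (nat_lit 4) (nat_lit 394) (nat_lit 327) (nat_lit 179)) (XT.lf (nat_lit 0) (nat_lit 802528960964) (nat_lit 76) (nat_lit 478734204372) (nat_lit 76) (nat_lit 366854759017) (nat_lit 3) (nat_lit 4) (nat_lit 4) (nat_lit 5) (nat_lit 4) (nat_lit 4) (nat_lit 395) (nat_lit 327) (nat_lit 178)))))) (XT.nd (nat_lit 312) (nat_lit 152) (nat_lit 0) (XT.nd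 (nat_lit 156) (nat_lit 0) (nat_lit 0) (XT.nd (nat_lit 78) (nat_lit 0) (nat_lit 0) (XT.lf (nat_lit 0) (nat_lit 1006930213801) (nat_lit 76) (nat_lit 439576976812) (nat_lit 76) (nat_lit 327697444705) (nat_lit 3) (nat_lit 4) (nat_lit 4) (nat_lit 5) (nat_lit 4) (nat_lit 4) (nat_lit 396) (nat_lit 327) (nat_lit 177)) (XT.lf (nat_lit 0) (nat_lit 1227683357501) (nat_lit 76) (nat_lit 397287273348) (nat_lit 76) (nat_lit 285407660915) (nat_lit 3) (nat_lit 4) (nat_lit 4) (nat_lit 5) (nat_lit 4) (nat_lit 4) (nat_lit 397) (nat_lit 327) (nat_lit 176))) (XT.nd (nat_lit 78) (nat_lit 0) (nat_lit 0) (XT.lf (nat_lit 0) (nat_lit 1466096558841) (nat_lit 76) (nat_lit 351614488332) (nat_lit 76) (nat_lit 239734801522) (nat_lit 3) (nat_lit 4) (nat_lit 4) (nat_lit 5) (nat_lit 4) (nat_lit 4) (nat_lit 398) (nat_lit 327) (nat_lit 175)) (XT.lf (nat_lit 0) (nat_lit 1723582636792) (nat_lit 76) (nat_lit 302287968221) (nat_lit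 76) (nat_lit 190408212545) (nat_lit 3) (nat_lit 4) (nat_lit 4) (nat_lit 5) (nat_lit 4) (nat_lit 4) (nat_lit 399) (nat_lit 327) (nat_lit 174)))) (XT.nd (nat_lit 156) (nat_lit 152) (nat_lit 0) (XT.nd (nat_lit 78) (nat_lit 0) (nat_lit 0) (XT.lf (nat_lit 0) (nat_lit 2001667434780) (nat_lit 76) (nat_lit 249015407712) (nat_lit 76) (nat_lit 137135588270) (nat_lit 3) (nat_lit 4) (nat_lit 4) (nat_lit 5) (nat_lit 4) (nat_lit 4) (nat_lit 400) (nat_lit 327) (nat_lit 173)) (XT.lf (nat_lit 0) (nat_lit 2301998862718) (nat_lit 76) (nat_lit 191481117557) (nat_lit 76) (nat_lit 79601239073) (nat_lit 3) (nat_lit 4) (nat_lit 4) (nat_lit 5) (nat_lit 4) (nat_lit 4) (nat_lit 401) (nat_lit 327) (nat_lit 172))) (XT.nd (nat_lit 78) (nat_lit 152) (nat_lit 0) (XT.lf (nat_lit 0) (nat_lit 2626356662401) (nat_lit 76) (nat_lit 129344153815) (nat_lit 76) (nat_lit 17464220662) (nat_lit 3) (nat_lit 4) (nat_lit 4) (nat_lit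 5) (nat_lit 4) (nat_lit 4) (nat_lit 402) (nat_lit 327) (nat_lit 171)) (XT.nd (nat_lit 78) (nat_lit 76) (nat_lit 0) (XT.lf (nat_lit 0) (nat_lit 47160308082) (nat_lit 152) (nat_lit 13786542960) (nat_lit 76) (nat_lit 2928213199643) (nat_lit 2) (nat_lit 5) (nat_lit 4) (nat_lit 5) (nat_lit 3) (nat_lit 4) (nat_lit 403) (nat_lit 327) (nat_lit 170)) (XT.lf (nat_lit 0) (nat_lit 119695418309) (nat_lit 152) (nat_lit 3086305429418) (nat_lit 0) (nat_lit 16102797344) (nat_lit 1) (nat_lit 5) (nat_lit 3) (nat_lit 4) (nat_lit 1) (nat_lit 4) (nat_lit 404) (nat_lit 327) (nat_lit 169))))))))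
noncomputable def xc176 : XT := (XT.nd (nat_lit 41730) (nat_lit 0) (nat_lit 1444) (XT.nd (nat_lit 41028) (nat_lit 0) (nat_lit 3040) (XT.nd (nat_lit 312) (nat_lit 0) (nat_lit 0) (XT.nd (nat_lit 156) (nat_lit 0) (nat_lit 0) (XT.nd (nat_lit 78) (nat_lit 0) (nat_lit 0) (XT.lf (nat_lit 0) (nat_lit 200003048079) (nat_lit 152) (nat_lit 3177111715161) (nat_lit 0) (nat_lit 96410386931) (nat_lit 1) (nat_lit 5) (nat_lit 3) (nat_lit 4) (nat_lit 1) (nat_lit 4) (nat_lit 405) (nat_lit 327) (nat_lit 168)) (XT.lf (nat_lit 0) (nat_lit 286735229199) (nat_lit 152) (nat_lit 3275182620376) (nat_lit 0) (nat_lit 183142530845) (nat_lit 1) (nat_lit 5) (nat_lit 3) (nat_lit 4) (nat_lit 1) (nat_lit 4) (nat_lit 406) (nat_lit 327) (nat_lit 167))) (XT.nd (nat_lit 78) (nat_lit 0) (nat_lit 0) (XT.lf (nat_lit 0) (nat_lit 380405930151) (nat_lit 152) (nat_lit 3381099305982) (nat_lit 0) (nat_lit 276813197346) (nat_lit 1)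 (nat_lit 5) (nat_lit 3) (nat_lit 4) (nat_lit 1) (nat_lit 4) (nat_lit 407) (nat_lit 327) (nat_lit 166)) (XT.lf (nat_lit 0) (nat_lit 481570236569) (nat_lit 152) (nat_lit 3495489426414) (nat_lit 0) (nat_lit 377977471865) (nat_lit 1) (nat_lit 5) (nat_lit 3) (nat_lit 4) (nat_lit 1) (nat_lit 4) (nat_lit 408) (nat_lit 327) (nat_lit 165)))) (XT.nd (nat_lit 40560) (nat_lit 0) (nat_lit 3648) (XT.nd (nat_lit 78) (nat_lit 0) (nat_lit 0) (XT.lf (nat_lit 0) (nat_lit 590827640639) (nat_lit 152) (nat_lit 3619030849051) (nat_lit 0) (nat_lit 487234846400) (nat_lit 1) (nat_lit 5) (nat_lit 3) (nat_lit 4) (nat_lit 1) (nat_lit 4) (nat_lit 409) (nat_lit 327) (nat_lit 164)) (XT.lf (nat_lit 0) (nat_lit 708825593646) (nat_lit 152) (nat_lit 3752455671213) (nat_lit 0) (nat_lit 605232772058) (nat_lit 1) (nat_lit 5) (nat_lit 3) (nat_lit 4) (nat_lit 1) (nat_lit 4) (nat_lit 410) (nat_lit 327) (nat_lit 163))) (XT.nd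 (nat_lit 78) (nat_lit 0) (nat_lit 0) (XT.lf (nat_lit 0) (nat_lit 11939070038) (nat_lit 532) (nat_lit 2839601634) (nat_lit 532) (nat_lit 2839601634) (nat_lit 49) (nat_lit 3) (nat_lit 56) (nat_lit 3) (nat_lit 56) (nat_lit 5) (nat_lit 328) (nat_lit 328) (nat_lit 244)) (XT.lf (nat_lit 76) (nat_lit 11240620794) (nat_lit 0) (nat_lit 13911534476) (nat_lit 532) (nat_lit 11468221075) (nat_lit 50) (nat_lit 5) (nat_lit 49) (nat_lit 3) (nat_lit 56) (nat_lit 5) (nat_lit 329) (nat_lit 328) (nat_lit 243))))) (XT.nd (nat_lit 312) (nat_lit 684) (nat_lit 0) (XT.nd (nat_lit 156) (nat_lit 0) (nat_lit 0) (XT.nd (nat_lit 78) (nat_lit 0) (nat_lit 0) (XT.lf (nat_lit 0) (nat_lit 26754344031) (nat_lit 456) (nat_lit 8344548620) (nat_lit 532) (nat_lit 2997931718) (nat_lit 50) (nat_lit 5) (nat_lit 56) (nat_lit 5) (nat_lit 57) (nat_lit 5) (nat_lit 330) (nat_lit 328) (nat_lit 242)) (XT.lf (nat_lit 76) (nat_lit 10199363202)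 (nat_lit 0) (nat_lit 18887466818) (nat_lit 532) (nat_lit 10556399652) (nat_lit 51) (nat_lit 5) (nat_lit 50) (nat_lit 5) (nat_lit 57) (nat_lit 5) (nat_lit 331) (nat_lit 328) (nat_lit 241))) (XT.nd (nat_lit 78) (nat_lit 0) (nat_lit 76) (XT.lf (nat_lit 76) (nat_lit 30698438893) (nat_lit 0) (nat_lit 1131383548) (nat_lit 532) (nat_lit 9465622729) (nat_lit 51) (nat_lit 5) (nat_lit 50) (nat_lit 5) (nat_lit 57) (nat_lit 5) (nat_lit 332) (nat_lit 328) (nat_lit 240)) (XT.lf (nat_lit 76) (nat_lit 9811370770) (nat_lit 0) (nat_lit 25646931523) (nat_lit 532) (nat_lit 7568261379) (nat_lit 52) (nat_lit 5) (nat_lit 51) (nat_lit 5) (nat_lit 58) (nat_lit 5) (nat_lit 333) (nat_lit 328) (nat_lit 239)))) (XT.nd (nat_lit 156) (nat_lit 380) (nat_lit 0) (XT.nd (nat_lit 78) (nat_lit 380) (nat_lit 0) (XT.lf (nat_lit 76) (nat_lit 32421172989) (nat_lit 0) (nat_lit 7270585886) (nat_lit 532) (nat_lit 5179245808) (nat_lit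 52) (nat_lit 5) (nat_lit 51) (nat_lit 5) (nat_lit 58) (nat_lit 5) (nat_lit 334) (nat_lit 328) (nat_lit 238)) (XT.lf (nat_lit 0) (nat_lit 10180530842) (nat_lit 456) (nat_lit 34627256712) (nat_lit 532) (nat_lit 2011710011) (nat_lit 46) (nat_lit 5) (nat_lit 52) (nat_lit 5) (nat_lit 53) (nat_lit 5) (nat_lit 335) (nat_lit 328) (nat_lit 237))) (XT.nd (nat_lit 78) (nat_lit 304) (nat_lit 0) (XT.lf (nat_lit 0) (nat_lit 1873514715) (nat_lit 532) (nat_lit 13802015490) (nat_lit 76) (nat_lit 33202852864) (nat_lit 45) (nat_lit 5) (nat_lit 52) (nat_lit 5) (nat_lit 46) (nat_lit 5) (nat_lit 336) (nat_lit 328) (nat_lit 236)) (XT.nd (nat_lit 78) (nat_lit 0) (nat_lit 0) (XT.lf (nat_lit 0) (nat_lit 6355121181) (nat_lit 380) (nat_lit 39824103408) (nat_lit 76) (nat_lit 4887041319) (nat_lit 41) (nat_lit 5) (nat_lit 46) (nat_lit 5) (nat_lit 42) (nat_lit 5) (nat_lit 337) (nat_lit 328) (nat_lit 235)) (XT.lf (nat_lit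 0) (nat_lit 11986683932) (nat_lit 380) (nat_lit 14744225880) (nat_lit 76) (nat_lit 26634961395) (nat_lit 41) (nat_lit 5) (nat_lit 46) (nat_lit 5) (nat_lit 42) (nat_lit 5) (nat_lit 338) (nat_lit 328) (nat_lit 234))))))) (XT.nd (nat_lit 624) (nat_lit 684) (nat_lit 0) (XT.nd (nat_lit 312) (nat_lit 456) (nat_lit 0) (XT.nd (nat_lit 156) (nat_lit 228) (nat_lit 0) (XT.nd (nat_lit 78) (nat_lit 0) (nat_lit 0) (XT.lf (nat_lit 0) (nat_lit 12988944683) (nat_lit 228) (nat_lit 5389524153) (nat_lit 304) (nat_lit 37446205929) (nat_lit 38) (nat_lit 5) (nat_lit 41) (nat_lit 5) (nat_lit 42) (nat_lit 5) (nat_lit 339) (nat_lit 328) (nat_lit 233)) (XT.lf (nat_lit 0) (nat_lit 26117343592) (nat_lit 304) (nat_lit 15106808930) (nat_lit 76) (nat_lit 17189175510) (nat_lit 38) (nat_lit 5) (nat_lit 42) (nat_lit 5) (nat_lit 39) (nat_lit 5) (nat_lit 340) (nat_lit 328) (nat_lit 232))) (XT.nd (nat_lit 78) (nat_lit 0)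 (nat_lit 0) (XT.lf (nat_lit 0) (nat_lit 15471624406) (nat_lit 228) (nat_lit 19513413465) (nat_lit 304) (nat_lit 26183263734) (nat_lit 35) (nat_lit 5) (nat_lit 38) (nat_lit 5) (nat_lit 39) (nat_lit 5) (nat_lit 341) (nat_lit 328) (nat_lit 231)) (XT.lf (nat_lit 0) (nat_lit 45078269572) (nat_lit 304) (nat_lit 14863376908) (nat_lit 76) (nat_lit 4160741282) (nat_lit 35) (nat_lit 5) (nat_lit 39) (nat_lit 5) (nat_lit 36) (nat_lit 5) (nat_lit 342) (nat_lit 328) (nat_lit 230)))) (XT.nd (nat_lit 156) (nat_lit 304) (nat_lit 0) (XT.nd (nat_lit 78) (nat_lit 0) (nat_lit 0) (XT.lf (nat_lit 0) (nat_lit 18871094938) (nat_lit 152) (nat_lit 38066454494) (nat_lit 228) (nat_lit 10256968330) (nat_lit 33) (nat_lit 5) (nat_lit 35) (nat_lit 5) (nat_lit 36) (nat_lit 5) (nat_lit 343) (nat_lit 328) (nat_lit 229)) (XT.lf (nat_lit 0) (nat_lit 56147026112) (nat_lit 152) (nat_lit 14002927478) (nat_lit 228) (nat_lit 351717836)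 (nat_lit 33) (nat_lit 5) (nat_lit 35) (nat_lit 5) (nat_lit 36) (nat_lit 5) (nat_lit 344) (nat_lit 328) (nat_lit 228))) (XT.nd (nat_lit 78) (nat_lit 0) (nat_lit 0) (XT.lf (nat_lit 0) (nat_lit 10694713351) (nat_lit 304) (nat_lit 51075132103) (nat_lit 76) (nat_lit 12214344997) (nat_lit 29) (nat_lit 5) (nat_lit 33) (nat_lit 5) (nat_lit 30) (nat_lit 5) (nat_lit 345) (nat_lit 328) (nat_lit 227)) (XT.lf (nat_lit 0) (nat_lit 23370401529) (nat_lit 304) (nat_lit 14129310100) (nat_lit 76) (nat_lit 40183708005) (nat_lit 29) (nat_lit 5) (nat_lit 33) (nat_lit 5) (nat_lit 30) (nat_lit 5) (nat_lit 346) (nat_lit 328) (nat_lit 226))))) (XT.nd (nat_lit 312) (nat_lit 380) (nat_lit 0) (XT.nd (nat_lit 156) (nat_lit 152) (nat_lit 0) (XT.nd (nat_lit 78) (nat_lit 0) (nat_lit 0) (XT.lf (nat_lit 0) (nat_lit 27126784992) (nat_lit 152) (nat_lit 10584052403) (nat_lit 228) (nat_lit 43915697149) (nat_lit 27) (nat_lit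 5) (nat_lit 29) (nat_lit 5) (nat_lit 30) (nat_lit 5) (nat_lit 347) (nat_lit 328) (nat_lit 225)) (XT.lf (nat_lit 0) (nat_lit 54037770962) (nat_lit 228) (nat_lit 13824315508) (nat_lit 76) (nat_lit 17955873747) (nat_lit 27) (nat_lit 5) (nat_lit 30) (nat_lit 5) (nat_lit 28) (nat_lit 5) (nat_lit 348) (nat_lit 328) (nat_lit 224))) (XT.nd (nat_lit 78) (nat_lit 0) (nat_lit 0) (XT.lf (nat_lit 0) (nat_lit 31398671371) (nat_lit 152) (nat_lit 41300706392) (nat_lit 228) (nat_lit 17563043101) (nat_lit 25) (nat_lit 5) (nat_lit 27) (nat_lit 5) (nat_lit 28) (nat_lit 5) (nat_lit 349) (nat_lit 328) (nat_lit 223)) (XT.lf (nat_lit 0) (nat_lit 81023495350) (nat_lit 152) (nat_lit 12206928747) (nat_lit 228) (nat_lit 1801895614) (nat_lit 25) (nat_lit 5) (nat_lit 27) (nat_lit 5) (nat_lit 28) (nat_lit 5) (nat_lit 350) (nat_lit 328) (nat_lit 222)))) (XT.nd (nat_lit 156) (nat_lit 228) (nat_lit 0) (XT.nd (nat_lit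 78) (nat_lit 0) (nat_lit 0) (XT.lf (nat_lit 0) (nat_lit 15813807626) (nat_lit 152) (nat_lit 64719435151) (nat_lit 76) (nat_lit 19512883035) (nat_lit 23) (nat_lit 5) (nat_lit 25) (nat_lit 5) (nat_lit 24) (nat_lit 5) (nat_lit 351) (nat_lit 328) (nat_lit 221)) (XT.lf (nat_lit 0) (nat_lit 35450093930) (nat_lit 152) (nat_lit 16400621322) (nat_lit 76) (nat_lit 53549884642) (nat_lit 23) (nat_lit 5) (nat_lit 25) (nat_lit 5) (nat_lit 24) (nat_lit 5) (nat_lit 352) (nat_lit 328) (nat_lit 220))) (XT.nd (nat_lit 78) (nat_lit 76) (nat_lit 0) (XT.lf (nat_lit 0) (nat_lit 37665904391) (nat_lit 152) (nat_lit 19895983608) (nat_lit 228) (nat_lit 53549177150) (nat_lit 21) (nat_lit 5) (nat_lit 23) (nat_lit 5) (nat_lit 24) (nat_lit 5) (nat_lit 353) (nat_lit 328) (nat_lit 219)) (XT.nd (nat_lit 78) (nat_lit 76) (nat_lit 0) (XT.lf (nat_lit 0) (nat_lit 82252957191) (nat_lit 228) (nat_lit 20617190244) (nat_lit 76)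 (nat_lit 14343395178) (nat_lit 21) (nat_lit 5) (nat_lit 24) (nat_lit 5) (nat_lit 22) (nat_lit 4) (nat_lit 354) (nat_lit 328) (nat_lit 218)) (XT.lf (nat_lit 0) (nat_lit 37809761576) (nat_lit 76) (nat_lit 72534514139) (nat_lit 152) (nat_lit 13345946857) (nat_lit 20) (nat_lit 5) (nat_lit 21) (nat_lit 5) (nat_lit 22) (nat_lit 4) (nat_lit 355) (nat_lit 328) (nat_lit 217))))))))
noncomputable def xc177 : XT := (XT.nd (nat_lit 1326) (nat_lit 380) (nat_lit 0) (XT.nd (nat_lit 624) (nat_lit 380) (nat_lit 0) (XT.nd (nat_lit 312) (nat_lit 152) (nat_lit 0) (XT.nd (nat_lit 156) (nat_lit 76) (nat_lit 0) (XT.nd (nat_lit 78) (nat_lit 152) (nat_lit 0) (XT.lf (nat_lit 0) (nat_lit 10074951616) (nat_lit 152) (nat_lit 28813531520) (nat_lit 76) (nat_lit 91731141294) (nat_lit 19) (nat_lit 5) (nat_lit 21) (nat_lit 5) (nat_lit 20) (nat_lit 5) (nat_lit 356) (nat_lit 328) (nat_lit 216)) (XT.lf (nat_lit 0) (nat_lit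 34180187433) (nat_lit 152) (nat_lit 1289294847) (nat_lit 228) (nat_lit 102540486385) (nat_lit 17) (nat_lit 5) (nat_lit 19) (nat_lit 5) (nat_lit 20) (nat_lit 5) (nat_lit 357) (nat_lit 328) (nat_lit 215))) (XT.nd (nat_lit 78) (nat_lit 76) (nat_lit 0) (XT.lf (nat_lit 0) (nat_lit 64648419387) (nat_lit 228) (nat_lit 43044286989) (nat_lit 76) (nat_lit 38158607575) (nat_lit 17) (nat_lit 5) (nat_lit 20) (nat_lit 5) (nat_lit 18) (nat_lit 4) (nat_lit 358) (nat_lit 328) (nat_lit 214)) (XT.lf (nat_lit 0) (nat_lit 23757359858) (nat_lit 76) (nat_lit 73008214469) (nat_lit 152) (nat_lit 57506081260) (nat_lit 16) (nat_lit 5) (nat_lit 17) (nat_lit 5) (nat_lit 18) (nat_lit 4) (nat_lit 359) (nat_lit 328) (nat_lit 213)))) (XT.nd (nat_lit 156) (nat_lit 76) (nat_lit 0) (XT.nd (nat_lit 78) (nat_lit 76) (nat_lit 0) (XT.lf (nat_lit 0) (nat_lit 98349508550) (nat_lit 76) (nat_lit 34278581808) (nat_lit 152) (nat_lit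 30643455981) (nat_lit 16) (nat_lit 5) (nat_lit 17) (nat_lit 5) (nat_lit 18) (nat_lit 4) (nat_lit 360) (nat_lit 328) (nat_lit 212)) (XT.lf (nat_lit 0) (nat_lit 6036473762) (nat_lit 76) (nat_lit 165649009554) (nat_lit 76) (nat_lit 1279875806) (nat_lit 15) (nat_lit 4) (nat_lit 16) (nat_lit 5) (nat_lit 16) (nat_lit 4) (nat_lit 361) (nat_lit 328) (nat_lit 211))) (XT.nd (nat_lit 78) (nat_lit 0) (nat_lit 0) (XT.lf (nat_lit 0) (nat_lit 31621102002) (nat_lit 152) (nat_lit 98598737682) (nat_lit 76) (nat_lit 52939430582) (nat_lit 14) (nat_lit 5) (nat_lit 16) (nat_lit 5) (nat_lit 15) (nat_lit 4) (nat_lit 362) (nat_lit 328) (nat_lit 210)) (XT.lf (nat_lit 0) (nat_lit 67084215445) (nat_lit 152) (nat_lit 24836846999) (nat_lit 76) (nat_lit 102245036710) (nat_lit 14) (nat_lit 5) (nat_lit 16) (nat_lit 5) (nat_lit 15) (nat_lit 4) (nat_lit 363) (nat_lit 328) (nat_lit 209))))) (XT.nd (nat_lit 312) (nat_lit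 152) (nat_lit 0) (XT.nd (nat_lit 156) (nat_lit 152) (nat_lit 0) (XT.nd (nat_lit 78) (nat_lit 0) (nat_lit 0) (XT.lf (nat_lit 0) (nat_lit 57711645473) (nat_lit 76) (nat_lit 49059961864) (nat_lit 152) (nat_lit 99170889267) (nat_lit 13) (nat_lit 5) (nat_lit 14) (nat_lit 5) (nat_lit 15) (nat_lit 4) (nat_lit 364) (nat_lit 328) (nat_lit 208)) (XT.lf (nat_lit 0) (nat_lit 148275224544) (nat_lit 76) (nat_lit 2037136025) (nat_lit 152) (nat_lit 68294376239) (nat_lit 13) (nat_lit 5) (nat_lit 14) (nat_lit 5) (nat_lit 15) (nat_lit 4) (nat_lit 365) (nat_lit 328) (nat_lit 207))) (XT.nd (nat_lit 78) (nat_lit 76) (nat_lit 0) (XT.lf (nat_lit 0) (nat_lit 13291034539) (nat_lit 76) (nat_lit 185536694816) (nat_lit 76) (nat_lit 33337078965) (nat_lit 12) (nat_lit 4) (nat_lit 13) (nat_lit 5) (nat_lit 13) (nat_lit 4) (nat_lit 366) (nat_lit 328) (nat_lit 206)) (XT.lf (nat_lit 0) (nat_lit 6221034587) (nat_lit 152)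 (nat_lit 139260806704) (nat_lit 76) (nat_lit 101155172464) (nat_lit 11) (nat_lit 5) (nat_lit 13) (nat_lit 5) (nat_lit 12) (nat_lit 4) (nat_lit 367) (nat_lit 328) (nat_lit 205)))) (XT.nd (nat_lit 156) (nat_lit 76) (nat_lit 0) (XT.nd (nat_lit 78) (nat_lit 76) (nat_lit 0) (XT.lf (nat_lit 0) (nat_lit 47142108947) (nat_lit 152) (nat_lit 54145844995) (nat_lit 76) (nat_lit 160909819848) (nat_lit 11) (nat_lit 5) (nat_lit 13) (nat_lit 5) (nat_lit 12) (nat_lit 4) (nat_lit 368) (nat_lit 328) (nat_lit 204)) (XT.lf (nat_lit 0) (nat_lit 39766537092) (nat_lit 76) (nat_lit 52526144154) (nat_lit 152) (nat_lit 186634248802) (nat_lit 10) (nat_lit 5) (nat_lit 11) (nat_lit 5) (nat_lit 12) (nat_lit 4) (nat_lit 369) (nat_lit 328) (nat_lit 203))) (XT.nd (nat_lit 78) (nat_lit 76) (nat_lit 0) (XT.lf (nat_lit 0) (nat_lit 142576913295) (nat_lit 152) (nat_lit 152647556345) (nat_lit 0) (nat_lit 1648220401) (nat_lit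 10) (nat_lit 5) (nat_lit 12) (nat_lit 4) (nat_lit 10) (nat_lit 4) (nat_lit 370) (nat_lit 328) (nat_lit 202)) (XT.nd (nat_lit 78) (nat_lit 76) (nat_lit 0) (XT.lf (nat_lit 0) (nat_lit 198247673457) (nat_lit 152) (nat_lit 60578995624) (nat_lit 0) (nat_lit 57318338913) (nat_lit 10) (nat_lit 5) (nat_lit 12) (nat_lit 4) (nat_lit 10) (nat_lit 4) (nat_lit 371) (nat_lit 328) (nat_lit 201)) (XT.lf (nat_lit 0) (nat_lit 40900125637) (nat_lit 76) (nat_lit 218455130874) (nat_lit 76) (nat_lit 77525202208) (nat_lit 9) (nat_lit 4) (nat_lit 10) (nat_lit 5) (nat_lit 10) (nat_lit 4) (nat_lit 372) (nat_lit 328) (nat_lit 200))))))) (XT.nd (nat_lit 624) (nat_lit 152) (nat_lit 0) (XT.nd (nat_lit 312) (nat_lit 76) (nat_lit 0) (XT.nd (nat_lit 156) (nat_lit 76) (nat_lit 0) (XT.nd (nat_lit 78) (nat_lit 76) (nat_lit 0) (XT.lf (nat_lit 0) (nat_lit 153941866656) (nat_lit 76) (nat_lit 173065444359) (nat_lit 76) (nat_lit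 32134965580) (nat_lit 9) (nat_lit 4) (nat_lit 10) (nat_lit 5) (nat_lit 10) (nat_lit 4) (nat_lit 373) (nat_lit 328) (nat_lit 199)) (XT.lf (nat_lit 0) (nat_lit 16041310450) (nat_lit 152) (nat_lit 107565062406) (nat_lit 76) (nat_lit 259546213557) (nat_lit 8) (nat_lit 5) (nat_lit 10) (nat_lit 5) (nat_lit 9) (nat_lit 4) (nat_lit 374) (nat_lit 328) (nat_lit 198))) (XT.nd (nat_lit 78) (nat_lit 76) (nat_lit 0) (XT.lf (nat_lit 0) (nat_lit 66335150090) (nat_lit 152) (nat_lit 2954347586) (nat_lit 76) (nat_lit 339727482860) (nat_lit 8) (nat_lit 5) (nat_lit 10) (nat_lit 5) (nat_lit 9) (nat_lit 4) (nat_lit 375) (nat_lit 328) (nat_lit 197)) (XT.lf (nat_lit 0) (nat_lit 115818191570) (nat_lit 76) (nat_lit 7619350758) (nat_lit 152) (nat_lit 313290180433) (nat_lit 7) (nat_lit 5) (nat_lit 8) (nat_lit 5) (nat_lit 9) (nat_lit 4) (nat_lit 376) (nat_lit 328) (nat_lit 196)))) (XT.nd (nat_lit 156) (nat_lit 76)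 (nat_lit 0) (XT.nd (nat_lit 78) (nat_lit 0) (nat_lit 0) (XT.lf (nat_lit 0) (nat_lit 186609196078) (nat_lit 152) (nat_lit 223809717918) (nat_lit 0) (nat_lit 56116324946) (nat_lit 7) (nat_lit 5) (nat_lit 9) (nat_lit 4) (nat_lit 7) (nat_lit 4) (nat_lit 377) (nat_lit 328) (nat_lit 195)) (XT.lf (nat_lit 0) (nat_lit 255032134100) (nat_lit 152) (nat_lit 119140502030) (nat_lit 0) (nat_lit 124538916304) (nat_lit 7) (nat_lit 5) (nat_lit 9) (nat_lit 4) (nat_lit 7) (nat_lit 4) (nat_lit 378) (nat_lit 328) (nat_lit 194))) (XT.nd (nat_lit 78) (nat_lit 76) (nat_lit 0) (XT.lf (nat_lit 0) (nat_lit 328928580088) (nat_lit 152) (nat_lit 6098375940) (nat_lit 0) (nat_lit 198435041307) (nat_lit 7) (nat_lit 5) (nat_lit 9) (nat_lit 4) (nat_lit 7) (nat_lit 4) (nat_lit 379) (nat_lit 328) (nat_lit 193)) (XT.lf (nat_lit 0) (nat_lit 122094185248) (nat_lit 76) (nat_lit 289578621751) (nat_lit 76) (nat_lit 159084785761)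 (nat_lit 6) (nat_lit 4) (nat_lit 7) (nat_lit 5) (nat_lit 7) (nat_lit 4) (nat_lit 380) (nat_lit 328) (nat_lit 192))))) (XT.nd (nat_lit 312) (nat_lit 76) (nat_lit 0) (XT.nd (nat_lit 156) (nat_lit 76) (nat_lit 0) (XT.nd (nat_lit 78) (nat_lit 0) (nat_lit 0) (XT.lf (nat_lit 0) (nat_lit 260888405456) (nat_lit 76) (nat_lit 240314612987) (nat_lit 76) (nat_lit 109820501804) (nat_lit 6) (nat_lit 4) (nat_lit 7) (nat_lit 5) (nat_lit 7) (nat_lit 4) (nat_lit 381) (nat_lit 328) (nat_lit 191)) (XT.lf (nat_lit 0) (nat_lit 410785639282) (nat_lit 76) (nat_lit 187109735277) (nat_lit 76) (nat_lit 56615369285) (nat_lit 6) (nat_lit 4) (nat_lit 7) (nat_lit 5) (nat_lit 7) (nat_lit 4) (nat_lit 382) (nat_lit 328) (nat_lit 190))) (XT.nd (nat_lit 78) (nat_lit 0) (nat_lit 0) (XT.lf (nat_lit 0) (nat_lit 803586053) (nat_lit 152) (nat_lit 128823142934) (nat_lit 76) (nat_lit 571848609109) (nat_lit 5) (nat_lit 5) (nat_lit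 7) (nat_lit 5) (nat_lit 6) (nat_lit 4) (nat_lit 383) (nat_lit 328) (nat_lit 189)) (XT.lf (nat_lit 0) (nat_lit 59757117774) (nat_lit 152) (nat_lit 6200015411) (nat_lit 76) (nat_lit 686122343646) (nat_lit 5) (nat_lit 5) (nat_lit 7) (nat_lit 5) (nat_lit 6) (nat_lit 4) (nat_lit 384) (nat_lit 328) (nat_lit 188)))) (XT.nd (nat_lit 156) (nat_lit 0) (nat_lit 0) (XT.nd (nat_lit 78) (nat_lit 0) (nat_lit 0) (XT.lf (nat_lit 0) (nat_lit 126772957480) (nat_lit 152) (nat_lit 673747074448) (nat_lit 0) (nat_lit 5944232796) (nat_lit 4) (nat_lit 5) (nat_lit 6) (nat_lit 4) (nat_lit 4) (nat_lit 4) (nat_lit 385) (nat_lit 328) (nat_lit 187)) (XT.lf (nat_lit 0) (nat_lit 201036938894) (nat_lit 152) (nat_lit 583803906088) (nat_lit 0) (nat_lit 80208040792) (nat_lit 4) (nat_lit 5) (nat_lit 6) (nat_lit 4) (nat_lit 4) (nat_lit 4) (nat_lit 386) (nat_lit 328) (nat_lit 186))) (XT.nd (nat_lit 78) (nat_lit 0) (nat_lit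 0) (XT.lf (nat_lit 0) (nat_lit 281241834869) (nat_lit 152) (nat_lit 486665681843) (nat_lit 0) (nat_lit 160412776194) (nat_lit 4) (nat_lit 5) (nat_lit 6) (nat_lit 4) (nat_lit 4) (nat_lit 4) (nat_lit 387) (nat_lit 328) (nat_lit 185)) (XT.nd (nat_lit 78) (nat_lit 0) (nat_lit 0) (XT.lf (nat_lit 0) (nat_lit 367862933677) (nat_lit 152) (nat_lit 381756767791) (nat_lit 0) (nat_lit 247033726323) (nat_lit 4) (nat_lit 5) (nat_lit 6) (nat_lit 4) (nat_lit 4) (nat_lit 4) (nat_lit 388) (nat_lit 328) (nat_lit 184)) (XT.lf (nat_lit 0) (nat_lit 461413545532) (nat_lit 152) (nat_lit 268455481480) (nat_lit 0) (nat_lit 340584200514) (nat_lit 4) (nat_lit 5) (nat_lit 6) (nat_lit 4) (nat_lit 4) (nat_lit 4) (nat_lit 389) (nat_lit 328) (nat_lit 183))))))))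
noncomputable def xc178 : XT := (XT.nd (nat_lit 1326) (nat_lit 0) (nat_lit 0) (XT.nd (nat_lit 624) (nat_lit 152) (nat_lit 0) (XT.nd (nat_lit 312) (nat_lit 0) (nat_lit 0) (XT.nd (nat_lit 156) (nat_lit 76) (nat_lit 0) (XT.nd (nat_lit 78) (nat_lit 0) (nat_lit 0) (XT.lf (nat_lit 0) (nat_lit 562448044432) (nat_lit 152) (nat_lit 146090407878) (nat_lit 0) (nat_lit 441618571946) (nat_lit 4) (nat_lit 5) (nat_lit 6) (nat_lit 4) (nat_lit 4) (nat_lit 4) (nat_lit 390) (nat_lit 328) (nat_lit 182)) (XT.lf (nat_lit 0) (nat_lit 671565153332) (nat_lit 152) (nat_lit 13936420624) (nat_lit 0) (nat_lit 550735562820) (nat_lit 4) (nat_lit 5) (nat_lit 6) (nat_lit 4) (nat_lit 4) (nat_lit 4) (nat_lit 391) (nat_lit 328) (nat_lit 181))) (XT.nd (nat_lit 78) (nat_lit 0) (nat_lit 0) (XT.lf (nat_lit 0) (nat_lit 135571447913) (nat_lit 76) (nat_lit 657100540807) (nat_lit 76) (nat_lit 536270841012) (nat_lit 3) (nat_lit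 4) (nat_lit 4) (nat_lit 5) (nat_lit 4) (nat_lit 4) (nat_lit 392) (nat_lit 328) (nat_lit 180)) (XT.lf (nat_lit 0) (nat_lit 297832258784) (nat_lit 76) (nat_lit 626016023724) (nat_lit 76) (nat_lit 505186222741) (nat_lit 3) (nat_lit 4) (nat_lit 4) (nat_lit 5) (nat_lit 4) (nat_lit 4) (nat_lit 393) (nat_lit 328) (nat_lit 179)))) (XT.nd (nat_lit 156) (nat_lit 0) (nat_lit 0) (XT.nd (nat_lit 78) (nat_lit 0) (nat_lit 0) (XT.lf (nat_lit 0) (nat_lit 473073690324) (nat_lit 76) (nat_lit 592444864600) (nat_lit 76) (nat_lit 471614969924) (nat_lit 3) (nat_lit 4) (nat_lit 4) (nat_lit 5) (nat_lit 4) (nat_lit 4) (nat_lit 394) (nat_lit 328) (nat_lit 178)) (XT.lf (nat_lit 0) (nat_lit 662334210273) (nat_lit 76) (nat_lit 556188123231) (nat_lit 76) (nat_lit 435358141803) (nat_lit 3) (nat_lit 4) (nat_lit 4) (nat_lit 5) (nat_lit 4) (nat_lit 4) (nat_lit 395) (nat_lit 328) (nat_lit 177))) (XT.nd (nat_lit 78) (nat_lit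 0) (nat_lit 0) (XT.lf (nat_lit 0) (nat_lit 866735362454) (nat_lit 76) (nat_lit 517030944854) (nat_lit 76) (nat_lit 396200883100) (nat_lit 3) (nat_lit 4) (nat_lit 4) (nat_lit 5) (nat_lit 4) (nat_lit 4) (nat_lit 396) (nat_lit 328) (nat_lit 176)) (XT.lf (nat_lit 0) (nat_lit 1087488412954) (nat_lit 76) (nat_lit 474741286931) (nat_lit 76) (nat_lit 353911150801) (nat_lit 3) (nat_lit 4) (nat_lit 4) (nat_lit 5) (nat_lit 4) (nat_lit 4) (nat_lit 397) (nat_lit 328) (nat_lit 175))))) (XT.nd (nat_lit 312) (nat_lit 152) (nat_lit 0) (XT.nd (nat_lit 156) (nat_lit 0) (nat_lit 0) (XT.nd (nat_lit 78) (nat_lit 0) (nat_lit 0) (XT.lf (nat_lit 0) (nat_lit 1325901527998) (nat_lit 76) (nat_lit 429068544081) (nat_lit 76) (nat_lit 308238339084) (nat_lit 3) (nat_lit 4) (nat_lit 4) (nat_lit 5) (nat_lit 4) (nat_lit 4) (nat_lit 398) (nat_lit 328) (nat_lit 174)) (XT.lf (nat_lit 0) (nat_lit 1583387526046) (nat_lit 76)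 (nat_lit 379742063014) (nat_lit 76) (nat_lit 258911794252) (nat_lit 3) (nat_lit 4) (nat_lit 4) (nat_lit 5) (nat_lit 4) (nat_lit 4) (nat_lit 399) (nat_lit 328) (nat_lit 173))) (XT.nd (nat_lit 78) (nat_lit 0) (nat_lit 0) (XT.lf (nat_lit 0) (nat_lit 1861472250048) (nat_lit 76) (nat_lit 326469538657) (nat_lit 76) (nat_lit 205639210852) (nat_lit 3) (nat_lit 4) (nat_lit 4) (nat_lit 5) (nat_lit 4) (nat_lit 4) (nat_lit 400) (nat_lit 328) (nat_lit 172)) (XT.lf (nat_lit 0) (nat_lit 2161803609481) (nat_lit 76) (nat_lit 268935281975) (nat_lit 76) (nat_lit 148104899502) (nat_lit 3) (nat_lit 4) (nat_lit 4) (nat_lit 5) (nat_lit 4) (nat_lit 4) (nat_lit 401) (nat_lit 328) (nat_lit 171)))) (XT.nd (nat_lit 156) (nat_lit 152) (nat_lit 0) (XT.nd (nat_lit 78) (nat_lit 0) (nat_lit 0) (XT.lf (nat_lit 0) (nat_lit 2486161345734) (nat_lit 76) (nat_lit 206798349227) (nat_lit 76) (nat_lit 85967916134) (nat_lit 3)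 (nat_lit 4) (nat_lit 4) (nat_lit 5) (nat_lit 4) (nat_lit 4) (nat_lit 402) (nat_lit 328) (nat_lit 170)) (XT.lf (nat_lit 0) (nat_lit 2836467578725) (nat_lit 76) (nat_lit 139690521551) (nat_lit 76) (nat_lit 18860041588) (nat_lit 3) (nat_lit 4) (nat_lit 4) (nat_lit 5) (nat_lit 4) (nat_lit 4) (nat_lit 403) (nat_lit 328) (nat_lit 169))) (XT.nd (nat_lit 78) (nat_lit 76) (nat_lit 0) (XT.lf (nat_lit 0) (nat_lit 50934290932) (nat_lit 152) (nat_lit 14887198221) (nat_lit 76) (nat_lit 3162471272533) (nat_lit 2) (nat_lit 5) (nat_lit 4) (nat_lit 5) (nat_lit 3) (nat_lit 4) (nat_lit 404) (nat_lit 328) (nat_lit 168)) (XT.nd (nat_lit 78) (nat_lit 0) (nat_lit 0) (XT.lf (nat_lit 0) (nat_lit 129272203451) (nat_lit 152) (nat_lit 3333207588703) (nat_lit 0) (nat_lit 17392052022) (nat_lit 1) (nat_lit 5) (nat_lit 3) (nat_lit 4) (nat_lit 1) (nat_lit 4) (nat_lit 405) (nat_lit 328) (nat_lit 167)) (XT.lf (nat_lit 0)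 (nat_lit 216004358293) (nat_lit 152) (nat_lit 3431278545829) (nat_lit 0) (nat_lit 104124172413) (nat_lit 1) (nat_lit 5) (nat_lit 3) (nat_lit 4) (nat_lit 1) (nat_lit 4) (nat_lit 406) (nat_lit 328) (nat_lit 166))))))) (XT.nd (nat_lit 41106) (nat_lit 0) (nat_lit 2812) (XT.nd (nat_lit 40794) (nat_lit 0) (nat_lit 3648) (XT.nd (nat_lit 156) (nat_lit 0) (nat_lit 0) (XT.nd (nat_lit 78) (nat_lit 0) (nat_lit 0) (XT.lf (nat_lit 0) (nat_lit 309675034913) (nat_lit 152) (nat_lit 3537195279501) (nat_lit 0) (nat_lit 197794817135) (nat_lit 1) (nat_lit 5) (nat_lit 3) (nat_lit 4) (nat_lit 1) (nat_lit 4) (nat_lit 407) (nat_lit 328) (nat_lit 165)) (XT.lf (nat_lit 0) (nat_lit 410839318802) (nat_lit 152) (nat_lit 3651585444438) (nat_lit 0) (nat_lit 298959071487) (nat_lit 1) (nat_lit 5) (nat_lit 3) (nat_lit 4) (nat_lit 1) (nat_lit 4) (nat_lit 408) (nat_lit 328) (nat_lit 164))) (XT.nd (nat_lit 78) (nat_lit 0)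 (nat_lit 0) (XT.lf (nat_lit 0) (nat_lit 520096702012) (nat_lit 152) (nat_lit 3775126908284) (nat_lit 0) (nat_lit 408216427349) (nat_lit 1) (nat_lit 5) (nat_lit 3) (nat_lit 4) (nat_lit 1) (nat_lit 4) (nat_lit 409) (nat_lit 328) (nat_lit 163)) (XT.lf (nat_lit 0) (nat_lit 638094635703) (nat_lit 152) (nat_lit 3908551768602) (nat_lit 0) (nat_lit 526214335718) (nat_lit 1) (nat_lit 5) (nat_lit 3) (nat_lit 4) (nat_lit 1) (nat_lit 4) (nat_lit 410) (nat_lit 328) (nat_lit 162)))) (XT.nd (nat_lit 156) (nat_lit 0) (nat_lit 76) (XT.nd (nat_lit 78) (nat_lit 0) (nat_lit 0) (XT.lf (nat_lit 0) (nat_lit 12941580345) (nat_lit 532) (nat_lit 3041122996) (nat_lit 532) (nat_lit 3041122996) (nat_lit 49) (nat_lit 3) (nat_lit 56) (nat_lit 3) (nat_lit 56) (nat_lit 5) (nat_lit 329) (nat_lit 329) (nat_lit 242)) (XT.lf (nat_lit 76) (nat_lit 12189865422) (nat_lit 0) (nat_lit 15063414100) (nat_lit 532) (nat_lit 12289392161)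 (nat_lit 50) (nat_lit 5) (nat_lit 49) (nat_lit 3) (nat_lit 56) (nat_lit 5) (nat_lit 330) (nat_lit 329) (nat_lit 241))) (XT.nd (nat_lit 78) (nat_lit 0) (nat_lit 0) (XT.lf (nat_lit 0) (nat_lit 28976186847) (nat_lit 456) (nat_lit 8958161910) (nat_lit 532) (nat_lit 3203499510) (nat_lit 50) (nat_lit 5) (nat_lit 56) (nat_lit 5) (nat_lit 57) (nat_lit 5) (nat_lit 331) (nat_lit 329) (nat_lit 240)) (XT.lf (nat_lit 76) (nat_lit 11067897020) (nat_lit 0) (nat_lit 20422602672) (nat_lit 532) (nat_lit 11317863059) (nat_lit 51) (nat_lit 5) (nat_lit 50) (nat_lit 5) (nat_lit 57) (nat_lit 5) (nat_lit 332) (nat_lit 329) (nat_lit 239))))) (XT.nd (nat_lit 312) (nat_lit 608) (nat_lit 0) (XT.nd (nat_lit 156) (nat_lit 304) (nat_lit 0) (XT.nd (nat_lit 78) (nat_lit 0) (nat_lit 76) (XT.lf (nat_lit 76) (nat_lit 33203003598) (nat_lit 0) (nat_lit 1244244702) (nat_lit 532) (nat_lit 10145975728) (nat_lit 51) (nat_lit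 5) (nat_lit 50) (nat_lit 5) (nat_lit 57) (nat_lit 5) (nat_lit 333) (nat_lit 329) (nat_lit 238)) (XT.lf (nat_lit 76) (nat_lit 10649969781) (nat_lit 0) (nat_lit 27711568050) (nat_lit 532) (nat_lit 8101664531) (nat_lit 52) (nat_lit 5) (nat_lit 51) (nat_lit 5) (nat_lit 58) (nat_lit 5) (nat_lit 334) (nat_lit 329) (nat_lit 237))) (XT.nd (nat_lit 78) (nat_lit 380) (nat_lit 0) (XT.lf (nat_lit 76) (nat_lit 35064579189) (nat_lit 0) (nat_lit 7864160539) (nat_lit 532) (nat_lit 5526865327) (nat_lit 52) (nat_lit 5) (nat_lit 51) (nat_lit 5) (nat_lit 58) (nat_lit 5) (nat_lit 335) (nat_lit 329) (nat_lit 236)) (XT.lf (nat_lit 0) (nat_lit 11048658126) (nat_lit 456) (nat_lit 37401852147) (nat_lit 532) (nat_lit 2109761351) (nat_lit 46) (nat_lit 5) (nat_lit 52) (nat_lit 5) (nat_lit 53) (nat_lit 5) (nat_lit 336) (nat_lit 329) (nat_lit 235)))) (XT.nd (nat_lit 156) (nat_lit 228) (nat_lit 0) (XT.nd (nat_lit 78)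 (nat_lit 304) (nat_lit 0) (XT.lf (nat_lit 0) (nat_lit 2078710407) (nat_lit 532) (nat_lit 14853437687) (nat_lit 76) (nat_lit 35851962345) (nat_lit 45) (nat_lit 5) (nat_lit 52) (nat_lit 5) (nat_lit 46) (nat_lit 5) (nat_lit 337) (nat_lit 329) (nat_lit 234)) (XT.lf (nat_lit 0) (nat_lit 6915959042) (nat_lit 380) (nat_lit 42954296924) (nat_lit 76) (nat_lit 5277007596) (nat_lit 41) (nat_lit 5) (nat_lit 46) (nat_lit 5) (nat_lit 42) (nat_lit 5) (nat_lit 338) (nat_lit 329) (nat_lit 233))) (XT.nd (nat_lit 78) (nat_lit 228) (nat_lit 0) (XT.lf (nat_lit 0) (nat_lit 12994163245) (nat_lit 380) (nat_lit 15872157694) (nat_lit 76) (nat_lit 28764835132) (nat_lit 41) (nat_lit 5) (nat_lit 46) (nat_lit 5) (nat_lit 42) (nat_lit 5) (nat_lit 339) (nat_lit 329) (nat_lit 232)) (XT.nd (nat_lit 78) (nat_lit 0) (nat_lit 0) (XT.lf (nat_lit 0) (nat_lit 14078360027) (nat_lit 228) (nat_lit 5816544729) (nat_lit 304) (nat_lit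 40391957554) (nat_lit 38) (nat_lit 5) (nat_lit 41) (nat_lit 5) (nat_lit 42) (nat_lit 5) (nat_lit 340) (nat_lit 329) (nat_lit 231)) (XT.lf (nat_lit 0) (nat_lit 28249562573) (nat_lit 304) (nat_lit 16265366047) (nat_lit 76) (nat_lit 18567952318) (nat_lit 38) (nat_lit 5) (nat_lit 42) (nat_lit 5) (nat_lit 39) (nat_lit 5) (nat_lit 341) (nat_lit 329) (nat_lit 230))))))))
noncomputable def xc179 : XT := (XT.nd (nat_lit 1326) (nat_lit 684) (nat_lit 0) (XT.nd (nat_lit 624) (nat_lit 760) (nat_lit 0) (XT.nd (nat_lit 312) (nat_lit 456) (nat_lit 0) (XT.nd (nat_lit 156) (nat_lit 152) (nat_lit 0) (XT.nd (nat_lit 78) (nat_lit 0) (nat_lit 0) (XT.lf (nat_lit 0) (nat_lit 16758076447) (nat_lit 228) (nat_lit 21066595010) (nat_lit 304) (nat_lit 28233747444) (nat_lit 35) (nat_lit 5) (nat_lit 38) (nat_lit 5) (nat_lit 39) (nat_lit 5) (nat_lit 342) (nat_lit 329) (nat_lit 229)) (XT.lf (nat_lit 0) (nat_lit 48722512942)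 (nat_lit 304) (nat_lit 16004410830) (nat_lit 76) (nat_lit 4500542035) (nat_lit 35) (nat_lit 5) (nat_lit 39) (nat_lit 5) (nat_lit 36) (nat_lit 5) (nat_lit 343) (nat_lit 329) (nat_lit 228))) (XT.nd (nat_lit 78) (nat_lit 0) (nat_lit 0) (XT.lf (nat_lit 0) (nat_lit 20427602657) (nat_lit 152) (nat_lit 41101245093) (nat_lit 228) (nat_lit 11038258966) (nat_lit 33) (nat_lit 5) (nat_lit 35) (nat_lit 5) (nat_lit 36) (nat_lit 5) (nat_lit 344) (nat_lit 329) (nat_lit 227)) (XT.lf (nat_lit 0) (nat_lit 60682140167) (nat_lit 152) (nat_lit 15113415601) (nat_lit 228) (nat_lit 343497087) (nat_lit 33) (nat_lit 5) (nat_lit 35) (nat_lit 5) (nat_lit 36) (nat_lit 5) (nat_lit 345) (nat_lit 329) (nat_lit 226)))) (XT.nd (nat_lit 156) (nat_lit 152) (nat_lit 0) (XT.nd (nat_lit 78) (nat_lit 0) (nat_lit 0) (XT.lf (nat_lit 0) (nat_lit 11583597177) (nat_lit 304) (nat_lit 55114625491) (nat_lit 76) (nat_lit 13201983768)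 (nat_lit 29) (nat_lit 5) (nat_lit 33) (nat_lit 5) (nat_lit 30) (nat_lit 5) (nat_lit 346) (nat_lit 329) (nat_lit 225)) (XT.lf (nat_lit 0) (nat_lit 25270873243) (nat_lit 304) (nat_lit 15216583444) (nat_lit 76) (nat_lit 43408118693) (nat_lit 29) (nat_lit 5) (nat_lit 33) (nat_lit 5) (nat_lit 30) (nat_lit 5) (nat_lit 347) (nat_lit 329) (nat_lit 224))) (XT.nd (nat_lit 78) (nat_lit 0) (nat_lit 0) (XT.lf (nat_lit 0) (nat_lit 29338908838) (nat_lit 152) (nat_lit 11418360371) (nat_lit 228) (nat_lit 47396976007) (nat_lit 27) (nat_lit 5) (nat_lit 29) (nat_lit 5) (nat_lit 30) (nat_lit 5) (nat_lit 348) (nat_lit 329) (nat_lit 223)) (XT.lf (nat_lit 0) (nat_lit 58388443966) (nat_lit 228) (nat_lit 14889432482) (nat_lit 76) (nat_lit 19403265050) (nat_lit 27) (nat_lit 5) (nat_lit 30) (nat_lit 5) (nat_lit 28) (nat_lit 5) (nat_lit 349) (nat_lit 329) (nat_lit 222))))) (XT.nd (nat_lit 312) (nat_lit 456) (nat_lit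 0) (XT.nd (nat_lit 156) (nat_lit 152) (nat_lit 0) (XT.nd (nat_lit 78) (nat_lit 0) (nat_lit 0) (XT.lf (nat_lit 0) (nat_lit 33950359720) (nat_lit 152) (nat_lit 44591528407) (nat_lit 228) (nat_lit 18939361382) (nat_lit 25) (nat_lit 5) (nat_lit 27) (nat_lit 5) (nat_lit 28) (nat_lit 5) (nat_lit 350) (nat_lit 329) (nat_lit 221)) (XT.lf (nat_lit 0) (nat_lit 87542221866) (nat_lit 152) (nat_lit 13171228883) (nat_lit 228) (nat_lit 1919449886) (nat_lit 25) (nat_lit 5) (nat_lit 27) (nat_lit 5) (nat_lit 28) (nat_lit 5) (nat_lit 351) (nat_lit 329) (nat_lit 220))) (XT.nd (nat_lit 78) (nat_lit 0) (nat_lit 0) (XT.lf (nat_lit 0) (nat_lit 17103514748) (nat_lit 152) (nat_lit 69858081810) (nat_lit 76) (nat_lit 21086219196) (nat_lit 23) (nat_lit 5) (nat_lit 25) (nat_lit 5) (nat_lit 24) (nat_lit 5) (nat_lit 352) (nat_lit 329) (nat_lit 219)) (XT.lf (nat_lit 0) (nat_lit 38308881548) (nat_lit 152) (nat_lit 17676644960)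 (nat_lit 76) (nat_lit 57845269411) (nat_lit 23) (nat_lit 5) (nat_lit 25) (nat_lit 5) (nat_lit 24) (nat_lit 5) (nat_lit 353) (nat_lit 329) (nat_lit 218)))) (XT.nd (nat_lit 156) (nat_lit 304) (nat_lit 0) (XT.nd (nat_lit 78) (nat_lit 0) (nat_lit 0) (XT.lf (nat_lit 0) (nat_lit 40714290758) (nat_lit 152) (nat_lit 21474485462) (nat_lit 228) (nat_lit 57809391798) (nat_lit 21) (nat_lit 5) (nat_lit 23) (nat_lit 5) (nat_lit 24) (nat_lit 5) (nat_lit 354) (nat_lit 329) (nat_lit 217)) (XT.lf (nat_lit 0) (nat_lit 88853799400) (nat_lit 228) (nat_lit 22232695597) (nat_lit 76) (nat_lit 15502457232) (nat_lit 21) (nat_lit 5) (nat_lit 24) (nat_lit 5) (nat_lit 22) (nat_lit 4) (nat_lit 355) (nat_lit 329) (nat_lit 216))) (XT.nd (nat_lit 78) (nat_lit 228) (nat_lit 0) (XT.lf (nat_lit 0) (nat_lit 40867554903) (nat_lit 76) (nat_lit 78324136108) (nat_lit 152) (nat_lit 14392136042) (nat_lit 20) (nat_lit 5) (nat_lit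 21) (nat_lit 5) (nat_lit 22) (nat_lit 4) (nat_lit 356) (nat_lit 329) (nat_lit 215)) (XT.nd (nat_lit 78) (nat_lit 152) (nat_lit 0) (XT.lf (nat_lit 0) (nat_lit 10899847484) (nat_lit 152) (nat_lit 31087031660) (nat_lit 76) (nat_lit 99080783144) (nat_lit 19) (nat_lit 5) (nat_lit 21) (nat_lit 5) (nat_lit 20) (nat_lit 5) (nat_lit 357) (nat_lit 329) (nat_lit 214)) (XT.lf (nat_lit 0) (nat_lit 36945385256) (nat_lit 152) (nat_lit 1379895693) (nat_lit 228) (nat_lit 110724007376) (nat_lit 17) (nat_lit 5) (nat_lit 19) (nat_lit 5) (nat_lit 20) (nat_lit 5) (nat_lit 358) (nat_lit 329) (nat_lit 213))))))) (XT.nd (nat_lit 702) (nat_lit 304) (nat_lit 0) (XT.nd (nat_lit 312) (nat_lit 228) (nat_lit 0) (XT.nd (nat_lit 156) (nat_lit 76) (nat_lit 0) (XT.nd (nat_lit 78) (nat_lit 76) (nat_lit 0) (XT.lf (nat_lit 0) (nat_lit 69837461216) (nat_lit 228) (nat_lit 46458238274) (nat_lit 76) (nat_lit 41222328869) (nat_lit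 17) (nat_lit 5) (nat_lit 20) (nat_lit 5) (nat_lit 18) (nat_lit 4) (nat_lit 359) (nat_lit 329) (nat_lit 212)) (XT.lf (nat_lit 0) (nat_lit 25686791164) (nat_lit 76) (nat_lit 78836619324) (nat_lit 152) (nat_lit 62088634358) (nat_lit 16) (nat_lit 5) (nat_lit 17) (nat_lit 5) (nat_lit 18) (nat_lit 4) (nat_lit 360) (nat_lit 329) (nat_lit 211))) (XT.nd (nat_lit 78) (nat_lit 76) (nat_lit 0) (XT.lf (nat_lit 0) (nat_lit 106244175269) (nat_lit 76) (nat_lit 37009523629) (nat_lit 152) (nat_lit 33078327457) (nat_lit 16) (nat_lit 5) (nat_lit 17) (nat_lit 5) (nat_lit 18) (nat_lit 4) (nat_lit 361) (nat_lit 329) (nat_lit 210)) (XT.lf (nat_lit 0) (nat_lit 6546367868) (nat_lit 76) (nat_lit 178889078958) (nat_lit 76) (nat_lit 1365917346) (nat_lit 15) (nat_lit 4) (nat_lit 16) (nat_lit 5) (nat_lit 16) (nat_lit 4) (nat_lit 362) (nat_lit 329) (nat_lit 209)))) (XT.nd (nat_lit 156) (nat_lit 152) (nat_lit 0) (XT.nd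 (nat_lit 78) (nat_lit 0) (nat_lit 0) (XT.lf (nat_lit 0) (nat_lit 34165170444) (nat_lit 152) (nat_lit 106460889751) (nat_lit 76) (nat_lit 57184789532) (nat_lit 14) (nat_lit 5) (nat_lit 16) (nat_lit 5) (nat_lit 15) (nat_lit 4) (nat_lit 363) (nat_lit 329) (nat_lit 208)) (XT.lf (nat_lit 0) (nat_lit 72464267756) (nat_lit 152) (nat_lit 26799954994) (nat_lit 76) (nat_lit 110434088261) (nat_lit 14) (nat_lit 5) (nat_lit 16) (nat_lit 5) (nat_lit 15) (nat_lit 4) (nat_lit 364) (nat_lit 329) (nat_lit 207))) (XT.nd (nat_lit 78) (nat_lit 76) (nat_lit 0) (XT.lf (nat_lit 0) (nat_lit 62351813337) (nat_lit 76) (nat_lit 52974410193) (nat_lit 152) (nat_lit 107090631731) (nat_lit 13) (nat_lit 5) (nat_lit 14) (nat_lit 5) (nat_lit 15) (nat_lit 4) (nat_lit 365) (nat_lit 329) (nat_lit 206)) (XT.nd (nat_lit 78) (nat_lit 76) (nat_lit 0) (XT.lf (nat_lit 0) (nat_lit 160158757532) (nat_lit 76) (nat_lit 2190524851)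 (nat_lit 152) (nat_lit 73745029414) (nat_lit 13) (nat_lit 5) (nat_lit 14) (nat_lit 5) (nat_lit 15) (nat_lit 4) (nat_lit 366) (nat_lit 329) (nat_lit 205)) (XT.lf (nat_lit 0) (nat_lit 14376002580) (nat_lit 76) (nat_lit 200369729079) (nat_lit 76) (nat_lit 35991309984) (nat_lit 12) (nat_lit 4) (nat_lit 13) (nat_lit 5) (nat_lit 13) (nat_lit 4) (nat_lit 367) (nat_lit 329) (nat_lit 204)))))) (XT.nd (nat_lit 312) (nat_lit 152) (nat_lit 0) (XT.nd (nat_lit 156) (nat_lit 76) (nat_lit 0) (XT.nd (nat_lit 78) (nat_lit 0) (nat_lit 0) (XT.lf (nat_lit 0) (nat_lit 6729919417) (nat_lit 152) (nat_lit 150380995002) (nat_lit 76) (nat_lit 109256156875) (nat_lit 11) (nat_lit 5) (nat_lit 13) (nat_lit 5) (nat_lit 12) (nat_lit 4) (nat_lit 368) (nat_lit 329) (nat_lit 203)) (XT.lf (nat_lit 0) (nat_lit 50923849943) (nat_lit 152) (nat_lit 58458367930) (nat_lit 76) (nat_lit 173790541189) (nat_lit 11) (nat_lit 5) (nat_lit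 13) (nat_lit 5) (nat_lit 12) (nat_lit 4) (nat_lit 369) (nat_lit 329) (nat_lit 202))) (XT.nd (nat_lit 78) (nat_lit 0) (nat_lit 0) (XT.lf (nat_lit 0) (nat_lit 42966520049) (nat_lit 76) (nat_lit 56719628433) (nat_lit 152) (nat_lit 201554125409) (nat_lit 10) (nat_lit 5) (nat_lit 11) (nat_lit 5) (nat_lit 12) (nat_lit 4) (nat_lit 370) (nat_lit 329) (nat_lit 201)) (XT.lf (nat_lit 0) (nat_lit 153992566119) (nat_lit 152) (nat_lit 164841524237) (nat_lit 0) (nat_lit 1787649037) (nat_lit 10) (nat_lit 5) (nat_lit 12) (nat_lit 4) (nat_lit 10) (nat_lit 4) (nat_lit 371) (nat_lit 329) (nat_lit 200)))) (XT.nd (nat_lit 156) (nat_lit 76) (nat_lit 0) (XT.nd (nat_lit 78) (nat_lit 76) (nat_lit 0) (XT.lf (nat_lit 0) (nat_lit 214116283408) (nat_lit 152) (nat_lit 65408799889) (nat_lit 0) (nat_lit 61910816214) (nat_lit 10) (nat_lit 5) (nat_lit 12) (nat_lit 4) (nat_lit 10) (nat_lit 4) (nat_lit 372) (nat_lit 329)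 (nat_lit 199)) (XT.lf (nat_lit 0) (nat_lit 44188232962) (nat_lit 76) (nat_lit 235923975723) (nat_lit 76) (nat_lit 83717999165) (nat_lit 9) (nat_lit 4) (nat_lit 10) (nat_lit 5) (nat_lit 10) (nat_lit 4) (nat_lit 373) (nat_lit 329) (nat_lit 198))) (XT.nd (nat_lit 78) (nat_lit 76) (nat_lit 0) (XT.lf (nat_lit 0) (nat_lit 166272120872) (nat_lit 76) (nat_lit 186903674702) (nat_lit 76) (nat_lit 34697226512) (nat_lit 9) (nat_lit 4) (nat_lit 10) (nat_lit 5) (nat_lit 10) (nat_lit 4) (nat_lit 374) (nat_lit 329) (nat_lit 197)) (XT.nd (nat_lit 78) (nat_lit 0) (nat_lit 0) (XT.lf (nat_lit 0) (nat_lit 17332123890) (nat_lit 152) (nat_lit 116156067194) (nat_lit 76) (nat_lit 280315997557) (nat_lit 8) (nat_lit 5) (nat_lit 10) (nat_lit 5) (nat_lit 9) (nat_lit 4) (nat_lit 375) (nat_lit 329) (nat_lit 196)) (XT.lf (nat_lit 0) (nat_lit 71648914509) (nat_lit 152) (nat_lit 3177547056) (nat_lit 76) (nat_lit 366911317521)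 (nat_lit 8) (nat_lit 5) (nat_lit 10) (nat_lit 5) (nat_lit 9) (nat_lit 4) (nat_lit 376) (nat_lit 329) (nat_lit 195))))))))
noncomputable def xc180 : XT := (XT.nd (nat_lit 1326) (nat_lit 152) (nat_lit 0) (XT.nd (nat_lit 624) (nat_lit 152) (nat_lit 0) (XT.nd (nat_lit 312) (nat_lit 152) (nat_lit 0) (XT.nd (nat_lit 156) (nat_lit 0) (nat_lit 0) (XT.nd (nat_lit 78) (nat_lit 0) (nat_lit 0) (XT.lf (nat_lit 0) (nat_lit 125096462364) (nat_lit 76) (nat_lit 8222828981) (nat_lit 152) (nat_lit 338346106160) (nat_lit 7) (nat_lit 5) (nat_lit 8) (nat_lit 5) (nat_lit 9) (nat_lit 4) (nat_lit 377) (nat_lit 329) (nat_lit 194)) (XT.lf (nat_lit 0) (nat_lit 201544312885) (nat_lit 152) (nat_lit 241702261495) (nat_lit 0) (nat_lit 60610970015) (nat_lit 7) (nat_lit 5) (nat_lit 9) (nat_lit 4) (nat_lit 7) (nat_lit 4) (nat_lit 378) (nat_lit 329) (nat_lit 193))) (XT.nd (nat_lit 78) (nat_lit 0) (nat_lit 0) (XT.lf (nat_lit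 0) (nat_lit 275440613273) (nat_lit 152) (nat_lit 128660414548) (nat_lit 0) (nat_lit 134506973195) (nat_lit 7) (nat_lit 5) (nat_lit 9) (nat_lit 4) (nat_lit 7) (nat_lit 4) (nat_lit 379) (nat_lit 329) (nat_lit 192)) (XT.lf (nat_lit 0) (nat_lit 355248337278) (nat_lit 152) (nat_lit 6575757456) (nat_lit 0) (nat_lit 214314422007) (nat_lit 7) (nat_lit 5) (nat_lit 9) (nat_lit 4) (nat_lit 7) (nat_lit 4) (nat_lit 380) (nat_lit 329) (nat_lit 191)))) (XT.nd (nat_lit 156) (nat_lit 76) (nat_lit 0) (XT.nd (nat_lit 78) (nat_lit 0) (nat_lit 0) (XT.lf (nat_lit 0) (nat_lit 131871943095) (nat_lit 76) (nat_lit 312739999868) (nat_lit 76) (nat_lit 171805829788) (nat_lit 6) (nat_lit 4) (nat_lit 7) (nat_lit 5) (nat_lit 7) (nat_lit 4) (nat_lit 381) (nat_lit 329) (nat_lit 190)) (XT.lf (nat_lit 0) (nat_lit 281768943658) (nat_lit 76) (nat_lit 259535234227) (nat_lit 76) (nat_lit 118600828213) (nat_lit 6) (nat_lit 4)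 (nat_lit 7) (nat_lit 5) (nat_lit 7) (nat_lit 4) (nat_lit 382) (nat_lit 329) (nat_lit 189))) (XT.nd (nat_lit 78) (nat_lit 76) (nat_lit 0) (XT.lf (nat_lit 0) (nat_lit 443657255022) (nat_lit 76) (nat_lit 202074303173) (nat_lit 76) (nat_lit 61139678702) (nat_lit 6) (nat_lit 4) (nat_lit 7) (nat_lit 5) (nat_lit 7) (nat_lit 4) (nat_lit 383) (nat_lit 329) (nat_lit 188)) (XT.lf (nat_lit 0) (nat_lit 872200716) (nat_lit 152) (nat_lit 139120649256) (nat_lit 76) (nat_lit 617600167098) (nat_lit 5) (nat_lit 5) (nat_lit 7) (nat_lit 5) (nat_lit 6) (nat_lit 4) (nat_lit 384) (nat_lit 329) (nat_lit 187))))) (XT.nd (nat_lit 312) (nat_lit 76) (nat_lit 0) (XT.nd (nat_lit 156) (nat_lit 0) (nat_lit 0) (XT.nd (nat_lit 78) (nat_lit 76) (nat_lit 0) (XT.lf (nat_lit 0) (nat_lit 64541694398) (nat_lit 152) (nat_lit 6688289688) (nat_lit 76) (nat_lit 741015528601) (nat_lit 5) (nat_lit 5) (nat_lit 7) (nat_lit 5) (nat_lit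 6) (nat_lit 4) (nat_lit 385) (nat_lit 329) (nat_lit 186)) (XT.lf (nat_lit 0) (nat_lit 136918773118) (nat_lit 152) (nat_lit 727639083698) (nat_lit 0) (nat_lit 6423229176) (nat_lit 4) (nat_lit 5) (nat_lit 6) (nat_lit 4) (nat_lit 4) (nat_lit 4) (nat_lit 386) (nat_lit 329) (nat_lit 185))) (XT.nd (nat_lit 78) (nat_lit 0) (nat_lit 0) (XT.lf (nat_lit 0) (nat_lit 217123578302) (nat_lit 152) (nat_lit 630501036440) (nat_lit 0) (nat_lit 86627885682) (nat_lit 4) (nat_lit 5) (nat_lit 6) (nat_lit 4) (nat_lit 4) (nat_lit 4) (nat_lit 387) (nat_lit 329) (nat_lit 184)) (XT.lf (nat_lit 0) (nat_lit 303744593044) (nat_lit 152) (nat_lit 525592286265) (nat_lit 0) (nat_lit 173248762758) (nat_lit 4) (nat_lit 5) (nat_lit 6) (nat_lit 4) (nat_lit 4) (nat_lit 4) (nat_lit 388) (nat_lit 329) (nat_lit 183)))) (XT.nd (nat_lit 156) (nat_lit 76) (nat_lit 0) (XT.nd (nat_lit 78) (nat_lit 0) (nat_lit 0) (XT.lf (nat_lit 0)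 (nat_lit 397295127060) (nat_lit 152) (nat_lit 412291151692) (nat_lit 0) (nat_lit 266799169308) (nat_lit 4) (nat_lit 5) (nat_lit 6) (nat_lit 4) (nat_lit 4) (nat_lit 4) (nat_lit 389) (nat_lit 329) (nat_lit 182)) (XT.lf (nat_lit 0) (nat_lit 498329553887) (nat_lit 152) (nat_lit 289926218588) (nat_lit 0) (nat_lit 367833478109) (nat_lit 4) (nat_lit 5) (nat_lit 6) (nat_lit 4) (nat_lit 4) (nat_lit 4) (nat_lit 390) (nat_lit 329) (nat_lit 181))) (XT.nd (nat_lit 78) (nat_lit 76) (nat_lit 0) (XT.lf (nat_lit 0) (nat_lit 607446596054) (nat_lit 152) (nat_lit 157772361425) (nat_lit 0) (nat_lit 476950410992) (nat_lit 4) (nat_lit 5) (nat_lit 6) (nat_lit 4) (nat_lit 4) (nat_lit 4) (nat_lit 391) (nat_lit 329) (nat_lit 180)) (XT.nd (nat_lit 78) (nat_lit 76) (nat_lit 0) (XT.lf (nat_lit 0) (nat_lit 725292873068) (nat_lit 152) (nat_lit 15046446234) (nat_lit 0) (nat_lit 594796586819) (nat_lit 4) (nat_lit 5) (nat_lit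 6) (nat_lit 4) (nat_lit 4) (nat_lit 4) (nat_lit 392) (nat_lit 329) (nat_lit 179)) (XT.lf (nat_lit 0) (nat_lit 146421928038) (nat_lit 76) (nat_lit 709666256092) (nat_lit 76) (nat_lit 579169876150) (nat_lit 3) (nat_lit 4) (nat_lit 4) (nat_lit 5) (nat_lit 4) (nat_lit 4) (nat_lit 393) (nat_lit 329) (nat_lit 178))))))) (XT.nd (nat_lit 624) (nat_lit 152) (nat_lit 0) (XT.nd (nat_lit 312) (nat_lit 0) (nat_lit 0) (XT.nd (nat_lit 156) (nat_lit 0) (nat_lit 0) (XT.nd (nat_lit 78) (nat_lit 0) (nat_lit 0) (XT.lf (nat_lit 0) (nat_lit 321663250869) (nat_lit 76) (nat_lit 676095150085) (nat_lit 76) (nat_lit 545598683391) (nat_lit 3) (nat_lit 4) (nat_lit 4) (nat_lit 5) (nat_lit 4) (nat_lit 4) (nat_lit 394) (nat_lit 329) (nat_lit 177)) (XT.lf (nat_lit 0) (nat_lit 510923670163) (nat_lit 76) (nat_lit 639838457900) (nat_lit 76) (nat_lit 509341910879) (nat_lit 3) (nat_lit 4) (nat_lit 4) (nat_lit 5) (nat_lit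 4) (nat_lit 4) (nat_lit 395) (nat_lit 329) (nat_lit 176))) (XT.nd (nat_lit 78) (nat_lit 0) (nat_lit 0) (XT.lf (nat_lit 0) (nat_lit 715324729144) (nat_lit 76) (nat_lit 600681325064) (nat_lit 76) (nat_lit 470184703667) (nat_lit 3) (nat_lit 4) (nat_lit 4) (nat_lit 5) (nat_lit 4) (nat_lit 4) (nat_lit 396) (nat_lit 329) (nat_lit 175)) (XT.lf (nat_lit 0) (nat_lit 936077693348) (nat_lit 76) (nat_lit 558391709308) (nat_lit 76) (nat_lit 427895019044) (nat_lit 3) (nat_lit 4) (nat_lit 4) (nat_lit 5) (nat_lit 4) (nat_lit 4) (nat_lit 397) (nat_lit 329) (nat_lit 174)))) (XT.nd (nat_lit 156) (nat_lit 0) (nat_lit 0) (XT.nd (nat_lit 78) (nat_lit 0) (nat_lit 0) (XT.lf (nat_lit 0) (nat_lit 1174490728488) (nat_lit 76) (nat_lit 512719005502) (nat_lit 76) (nat_lit 382222251472) (nat_lit 3) (nat_lit 4) (nat_lit 4) (nat_lit 5) (nat_lit 4) (nat_lit 4) (nat_lit 398) (nat_lit 329) (nat_lit 173)) (XT.lf (nat_lit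 0) (nat_lit 1431976652551) (nat_lit 76) (nat_lit 463392560586) (nat_lit 76) (nat_lit 332895747514) (nat_lit 3) (nat_lit 4) (nat_lit 4) (nat_lit 5) (nat_lit 4) (nat_lit 4) (nat_lit 399) (nat_lit 329) (nat_lit 172))) (XT.nd (nat_lit 78) (nat_lit 0) (nat_lit 0) (XT.lf (nat_lit 0) (nat_lit 1710061308049) (nat_lit 76) (nat_lit 410120069702) (nat_lit 76) (nat_lit 279623201961) (nat_lit 3) (nat_lit 4) (nat_lit 4) (nat_lit 5) (nat_lit 4) (nat_lit 4) (nat_lit 400) (nat_lit 329) (nat_lit 171)) (XT.lf (nat_lit 0) (nat_lit 2010392604051) (nat_lit 76) (nat_lit 352585844014) (nat_lit 76) (nat_lit 222088925655) (nat_lit 3) (nat_lit 4) (nat_lit 4) (nat_lit 5) (nat_lit 4) (nat_lit 4) (nat_lit 401) (nat_lit 329) (nat_lit 170))))) (XT.nd (nat_lit 312) (nat_lit 76) (nat_lit 0) (XT.nd (nat_lit 156) (nat_lit 76) (nat_lit 0) (XT.nd (nat_lit 78) (nat_lit 0) (nat_lit 0) (XT.lf (nat_lit 0) (nat_lit 2334750281572)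 (nat_lit 76) (nat_lit 290448939964) (nat_lit 76) (nat_lit 159951974735) (nat_lit 3) (nat_lit 4) (nat_lit 4) (nat_lit 5) (nat_lit 4) (nat_lit 4) (nat_lit 402) (nat_lit 329) (nat_lit 169)) (XT.lf (nat_lit 0) (nat_lit 2685056460182) (nat_lit 76) (nat_lit 223341138860) (nat_lit 76) (nat_lit 92844130233) (nat_lit 3) (nat_lit 4) (nat_lit 4) (nat_lit 5) (nat_lit 4) (nat_lit 4) (nat_lit 403) (nat_lit 329) (nat_lit 168))) (XT.nd (nat_lit 78) (nat_lit 76) (nat_lit 0) (XT.lf (nat_lit 0) (nat_lit 3063387028347) (nat_lit 76) (nat_lit 150864764844) (nat_lit 76) (nat_lit 20367716034) (nat_lit 3) (nat_lit 4) (nat_lit 4) (nat_lit 5) (nat_lit 4) (nat_lit 4) (nat_lit 404) (nat_lit 329) (nat_lit 167)) (XT.lf (nat_lit 0) (nat_lit 55010027178) (nat_lit 152) (nat_lit 16076229484) (nat_lit 76) (nat_lit 3415469846180) (nat_lit 2) (nat_lit 5) (nat_lit 4) (nat_lit 5) (nat_lit 3) (nat_lit 4) (nat_lit 405) (nat_lit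 329) (nat_lit 166)))) (XT.nd (nat_lit 156) (nat_lit 0) (nat_lit 0) (XT.nd (nat_lit 78) (nat_lit 0) (nat_lit 0) (XT.lf (nat_lit 0) (nat_lit 139614967104) (nat_lit 152) (nat_lit 3599862245294) (nat_lit 0) (nat_lit 18784300005) (nat_lit 1) (nat_lit 5) (nat_lit 3) (nat_lit 4) (nat_lit 1) (nat_lit 4) (nat_lit 406) (nat_lit 329) (nat_lit 165)) (XT.lf (nat_lit 0) (nat_lit 233285621195) (nat_lit 152) (nat_lit 3705779023472) (nat_lit 0) (nat_lit 112454924560) (nat_lit 1) (nat_lit 5) (nat_lit 3) (nat_lit 4) (nat_lit 1) (nat_lit 4) (nat_lit 407) (nat_lit 329) (nat_lit 164))) (XT.nd (nat_lit 78) (nat_lit 0) (nat_lit 0) (XT.lf (nat_lit 0) (nat_lit 334449884223) (nat_lit 152) (nat_lit 3820169229618) (nat_lit 0) (nat_lit 213619160240) (nat_lit 1) (nat_lit 5) (nat_lit 3) (nat_lit 4) (nat_lit 1) (nat_lit 4) (nat_lit 408) (nat_lit 329) (nat_lit 163)) (XT.nd (nat_lit 40716) (nat_lit 0) (nat_lit 3648) (XT.lf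 (nat_lit 0) (nat_lit 443707248118) (nat_lit 152) (nat_lit 3943710731620) (nat_lit 0) (nat_lit 322876498813) (nat_lit 1) (nat_lit 5) (nat_lit 3) (nat_lit 4) (nat_lit 1) (nat_lit 4) (nat_lit 409) (nat_lit 329) (nat_lit 162)) (XT.lf (nat_lit 0) (nat_lit 14017531518) (nat_lit 532) (nat_lit 3262424866) (nat_lit 532) (nat_lit 3262424866) (nat_lit 49) (nat_lit 3) (nat_lit 56) (nat_lit 3) (nat_lit 56) (nat_lit 5) (nat_lit 330) (nat_lit 330) (nat_lit 240))))))))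
noncomputable def xc181 : XT := (XT.nd (nat_lit 1326) (nat_lit 1140) (nat_lit 0) (XT.nd (nat_lit 624) (nat_lit 1216) (nat_lit 0) (XT.nd (nat_lit 312) (nat_lit 304) (nat_lit 0) (XT.nd (nat_lit 156) (nat_lit 0) (nat_lit 76) (XT.nd (nat_lit 78) (nat_lit 0) (nat_lit 76) (XT.lf (nat_lit 76) (nat_lit 13207917281) (nat_lit 0) (nat_lit 16301886461) (nat_lit 532) (nat_lit 13189993294) (nat_lit 50) (nat_lit 5) (nat_lit 49) (nat_lit 3) (nat_lit 56) (nat_lit 5) (nat_lit 331) (nat_lit 330) (nat_lit 239)) (XT.lf (nat_lit 0) (nat_lit 31364150874) (nat_lit 456) (nat_lit 9628560919) (nat_lit 532) (nat_lit 3430401260) (nat_lit 50) (nat_lit 5) (nat_lit 56) (nat_lit 5) (nat_lit 57) (nat_lit 5) (nat_lit 332) (nat_lit 330) (nat_lit 238))) (XT.nd (nat_lit 78) (nat_lit 0) (nat_lit 0) (XT.lf (nat_lit 76) (nat_lit 11998411739) (nat_lit 0) (nat_lit 22077105765) (nat_lit 532) (nat_lit 12152091344) (nat_lit 51) (nat_lit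 5) (nat_lit 50) (nat_lit 5) (nat_lit 57) (nat_lit 5) (nat_lit 333) (nat_lit 330) (nat_lit 237)) (XT.lf (nat_lit 76) (nat_lit 35900987366) (nat_lit 0) (nat_lit 1362946204) (nat_lit 532) (nat_lit 10891727158) (nat_lit 51) (nat_lit 5) (nat_lit 50) (nat_lit 5) (nat_lit 57) (nat_lit 5) (nat_lit 334) (nat_lit 330) (nat_lit 236)))) (XT.nd (nat_lit 156) (nat_lit 456) (nat_lit 0) (XT.nd (nat_lit 78) (nat_lit 0) (nat_lit 0) (XT.lf (nat_lit 76) (nat_lit 11547997328) (nat_lit 0) (nat_lit 29939537738) (nat_lit 532) (nat_lit 8688019780) (nat_lit 52) (nat_lit 5) (nat_lit 51) (nat_lit 5) (nat_lit 58) (nat_lit 5) (nat_lit 335) (nat_lit 330) (nat_lit 235)) (XT.lf (nat_lit 76) (nat_lit 37912365861) (nat_lit 0) (nat_lit 8503519534) (nat_lit 532) (nat_lit 5911812781) (nat_lit 52) (nat_lit 5) (nat_lit 51) (nat_lit 5) (nat_lit 58) (nat_lit 5) (nat_lit 336) (nat_lit 330) (nat_lit 234))) (XT.nd (nat_lit 78) (nat_lit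 76) (nat_lit 0) (XT.lf (nat_lit 0) (nat_lit 11978576853) (nat_lit 456) (nat_lit 40397785382) (nat_lit 532) (nat_lit 2224628112) (nat_lit 46) (nat_lit 5) (nat_lit 52) (nat_lit 5) (nat_lit 53) (nat_lit 5) (nat_lit 337) (nat_lit 330) (nat_lit 233)) (XT.lf (nat_lit 0) (nat_lit 2292430520) (nat_lit 532) (nat_lit 15996497473) (nat_lit 76) (nat_lit 38714016154) (nat_lit 45) (nat_lit 5) (nat_lit 52) (nat_lit 5) (nat_lit 46) (nat_lit 5) (nat_lit 338) (nat_lit 330) (nat_lit 232))))) (XT.nd (nat_lit 312) (nat_lit 684) (nat_lit 0) (XT.nd (nat_lit 156) (nat_lit 228) (nat_lit 0) (XT.nd (nat_lit 78) (nat_lit 0) (nat_lit 0) (XT.lf (nat_lit 0) (nat_lit 7514184468) (nat_lit 380) (nat_lit 46342857107) (nat_lit 76) (nat_lit 5698313413) (nat_lit 41) (nat_lit 5) (nat_lit 46) (nat_lit 5) (nat_lit 42) (nat_lit 5) (nat_lit 339) (nat_lit 330) (nat_lit 231)) (XT.lf (nat_lit 0) (nat_lit 14075315474) (nat_lit 380)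 (nat_lit 17097686263) (nat_lit 76) (nat_lit 31065230469) (nat_lit 41) (nat_lit 5) (nat_lit 46) (nat_lit 5) (nat_lit 42) (nat_lit 5) (nat_lit 340) (nat_lit 330) (nat_lit 230))) (XT.nd (nat_lit 78) (nat_lit 0) (nat_lit 0) (XT.lf (nat_lit 0) (nat_lit 15247752773) (nat_lit 228) (nat_lit 6278317762) (nat_lit 304) (nat_lit 43580494500) (nat_lit 38) (nat_lit 5) (nat_lit 41) (nat_lit 5) (nat_lit 42) (nat_lit 5) (nat_lit 341) (nat_lit 330) (nat_lit 229)) (XT.lf (nat_lit 0) (nat_lit 30546248680) (nat_lit 304) (nat_lit 17523739023) (nat_lit 76) (nat_lit 20056511589) (nat_lit 38) (nat_lit 5) (nat_lit 42) (nat_lit 5) (nat_lit 39) (nat_lit 5) (nat_lit 342) (nat_lit 330) (nat_lit 228)))) (XT.nd (nat_lit 156) (nat_lit 456) (nat_lit 0) (XT.nd (nat_lit 78) (nat_lit 0) (nat_lit 0) (XT.lf (nat_lit 0) (nat_lit 18140493901) (nat_lit 228) (nat_lit 22745156895) (nat_lit 304) (nat_lit 30454572249) (nat_lit 35)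 (nat_lit 5) (nat_lit 38) (nat_lit 5) (nat_lit 39) (nat_lit 5) (nat_lit 343) (nat_lit 330) (nat_lit 227)) (XT.lf (nat_lit 0) (nat_lit 52652877253) (nat_lit 304) (nat_lit 17243580371) (nat_lit 76) (nat_lit 4866536571) (nat_lit 35) (nat_lit 5) (nat_lit 39) (nat_lit 5) (nat_lit 36) (nat_lit 5) (nat_lit 344) (nat_lit 330) (nat_lit 226))) (XT.nd (nat_lit 78) (nat_lit 304) (nat_lit 0) (XT.lf (nat_lit 0) (nat_lit 22101951579) (nat_lit 152) (nat_lit 44380320557) (nat_lit 228) (nat_lit 11887654705) (nat_lit 33) (nat_lit 5) (nat_lit 35) (nat_lit 5) (nat_lit 36) (nat_lit 5) (nat_lit 345) (nat_lit 330) (nat_lit 225)) (XT.nd (nat_lit 78) (nat_lit 304) (nat_lit 0) (XT.lf (nat_lit 0) (nat_lit 65573878704) (nat_lit 152) (nat_lit 16314133161) (nat_lit 228) (nat_lit 339805578) (nat_lit 33) (nat_lit 5) (nat_lit 35) (nat_lit 5) (nat_lit 36) (nat_lit 5) (nat_lit 346) (nat_lit 330) (nat_lit 224)) (XT.lf (nat_lit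 0) (nat_lit 12538840129) (nat_lit 304) (nat_lit 59483914545) (nat_lit 76) (nat_lit 14267136958) (nat_lit 29) (nat_lit 5) (nat_lit 33) (nat_lit 5) (nat_lit 30) (nat_lit 5) (nat_lit 347) (nat_lit 330) (nat_lit 223))))))) (XT.nd (nat_lit 624) (nat_lit 532) (nat_lit 0) (XT.nd (nat_lit 312) (nat_lit 304) (nat_lit 0) (XT.nd (nat_lit 156) (nat_lit 152) (nat_lit 0) (XT.nd (nat_lit 78) (nat_lit 152) (nat_lit 0) (XT.lf (nat_lit 0) (nat_lit 27318983081) (nat_lit 304) (nat_lit 16396983282) (nat_lit 76) (nat_lit 46889096418) (nat_lit 29) (nat_lit 5) (nat_lit 33) (nat_lit 5) (nat_lit 30) (nat_lit 5) (nat_lit 348) (nat_lit 330) (nat_lit 222)) (XT.lf (nat_lit 0) (nat_lit 31722013527) (nat_lit 152) (nat_lit 12321184289) (nat_lit 228) (nat_lit 51161319039) (nat_lit 27) (nat_lit 5) (nat_lit 29) (nat_lit 5) (nat_lit 30) (nat_lit 5) (nat_lit 349) (nat_lit 330) (nat_lit 221))) (XT.nd (nat_lit 78) (nat_lit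 152) (nat_lit 0) (XT.lf (nat_lit 0) (nat_lit 63083226039) (nat_lit 228) (nat_lit 16045583424) (nat_lit 76) (nat_lit 20964889596) (nat_lit 27) (nat_lit 5) (nat_lit 30) (nat_lit 5) (nat_lit 28) (nat_lit 5) (nat_lit 350) (nat_lit 330) (nat_lit 220)) (XT.lf (nat_lit 0) (nat_lit 36700505987) (nat_lit 152) (nat_lit 48147504232) (nat_lit 228) (nat_lit 20429883091) (nat_lit 25) (nat_lit 5) (nat_lit 27) (nat_lit 5) (nat_lit 28) (nat_lit 5) (nat_lit 351) (nat_lit 330) (nat_lit 219)))) (XT.nd (nat_lit 156) (nat_lit 152) (nat_lit 0) (XT.nd (nat_lit 78) (nat_lit 152) (nat_lit 0) (XT.lf (nat_lit 0) (nat_lit 94577189883) (nat_lit 152) (nat_lit 14214421223) (nat_lit 228) (nat_lit 2050202913) (nat_lit 25) (nat_lit 5) (nat_lit 27) (nat_lit 5) (nat_lit 28) (nat_lit 5) (nat_lit 352) (nat_lit 330) (nat_lit 218)) (XT.lf (nat_lit 0) (nat_lit 18492888616) (nat_lit 152) (nat_lit 75413370885) (nat_lit 76) (nat_lit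 22783666730) (nat_lit 23) (nat_lit 5) (nat_lit 25) (nat_lit 5) (nat_lit 24) (nat_lit 5) (nat_lit 353) (nat_lit 330) (nat_lit 217))) (XT.nd (nat_lit 78) (nat_lit 152) (nat_lit 0) (XT.lf (nat_lit 0) (nat_lit 41393122339) (nat_lit 152) (nat_lit 19059890011) (nat_lit 76) (nat_lit 62482659481) (nat_lit 23) (nat_lit 5) (nat_lit 25) (nat_lit 5) (nat_lit 24) (nat_lit 5) (nat_lit 354) (nat_lit 330) (nat_lit 216)) (XT.lf (nat_lit 0) (nat_lit 44001538627) (nat_lit 152) (nat_lit 23181147288) (nat_lit 228) (nat_lit 62413807473) (nat_lit 21) (nat_lit 5) (nat_lit 23) (nat_lit 5) (nat_lit 24) (nat_lit 5) (nat_lit 355) (nat_lit 330) (nat_lit 215))))) (XT.nd (nat_lit 312) (nat_lit 228) (nat_lit 0) (XT.nd (nat_lit 156) (nat_lit 228) (nat_lit 0) (XT.nd (nat_lit 78) (nat_lit 76) (nat_lit 0) (XT.lf (nat_lit 0) (nat_lit 95979769362) (nat_lit 228) (nat_lit 23982273294) (nat_lit 76) (nat_lit 16752590745) (nat_lit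 21) (nat_lit 5) (nat_lit 24) (nat_lit 5) (nat_lit 22) (nat_lit 4) (nat_lit 356) (nat_lit 330) (nat_lit 214)) (XT.lf (nat_lit 0) (nat_lit 44165262109) (nat_lit 76) (nat_lit 84578802284) (nat_lit 152) (nat_lit 15525085661) (nat_lit 20) (nat_lit 5) (nat_lit 21) (nat_lit 5) (nat_lit 22) (nat_lit 4) (nat_lit 357) (nat_lit 330) (nat_lit 213))) (XT.nd (nat_lit 78) (nat_lit 152) (nat_lit 0) (XT.lf (nat_lit 0) (nat_lit 11788038763) (nat_lit 152) (nat_lit 33546917391) (nat_lit 76) (nat_lit 107016805592) (nat_lit 19) (nat_lit 5) (nat_lit 21) (nat_lit 5) (nat_lit 20) (nat_lit 5) (nat_lit 358) (nat_lit 330) (nat_lit 212)) (XT.lf (nat_lit 0) (nat_lit 39927407389) (nat_lit 152) (nat_lit 1479533969) (nat_lit 228) (nat_lit 119565023029) (nat_lit 17) (nat_lit 5) (nat_lit 19) (nat_lit 5) (nat_lit 20) (nat_lit 5) (nat_lit 359) (nat_lit 330) (nat_lit 211)))) (XT.nd (nat_lit 156) (nat_lit 152) (nat_lit 0)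 (XT.nd (nat_lit 78) (nat_lit 76) (nat_lit 0) (XT.lf (nat_lit 0) (nat_lit 75439177143) (nat_lit 228) (nat_lit 50149527245) (nat_lit 76) (nat_lit 44529573930) (nat_lit 17) (nat_lit 5) (nat_lit 20) (nat_lit 5) (nat_lit 18) (nat_lit 4) (nat_lit 360) (nat_lit 330) (nat_lit 210)) (XT.lf (nat_lit 0) (nat_lit 27766462268) (nat_lit 76) (nat_lit 85133044497) (nat_lit 152) (nat_lit 67040350104) (nat_lit 16) (nat_lit 5) (nat_lit 17) (nat_lit 5) (nat_lit 18) (nat_lit 4) (nat_lit 361) (nat_lit 330) (nat_lit 209))) (XT.nd (nat_lit 78) (nat_lit 152) (nat_lit 0) (XT.lf (nat_lit 0) (nat_lit 114766605412) (nat_lit 76) (nat_lit 39960559248) (nat_lit 152) (nat_lit 35710357541) (nat_lit 16) (nat_lit 5) (nat_lit 17) (nat_lit 5) (nat_lit 18) (nat_lit 4) (nat_lit 362) (nat_lit 330) (nat_lit 208)) (XT.nd (nat_lit 78) (nat_lit 76) (nat_lit 0) (XT.lf (nat_lit 0) (nat_lit 7093205045) (nat_lit 76) (nat_lit 193190044644)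 (nat_lit 76) (nat_lit 1461174510) (nat_lit 15) (nat_lit 4) (nat_lit 16) (nat_lit 5) (nat_lit 16) (nat_lit 4) (nat_lit 363) (nat_lit 330) (nat_lit 207)) (XT.lf (nat_lit 0) (nat_lit 36910712854) (nat_lit 152) (nat_lit 114955687075) (nat_lit 76) (nat_lit 61768321411) (nat_lit 14) (nat_lit 5) (nat_lit 16) (nat_lit 5) (nat_lit 15) (nat_lit 4) (nat_lit 364) (nat_lit 330) (nat_lit 206))))))))
noncomputable def xc182 : XT := (XT.nd (nat_lit 1326) (nat_lit 304) (nat_lit 0) (XT.nd (nat_lit 624) (nat_lit 228) (nat_lit 0) (XT.nd (nat_lit 312) (nat_lit 152) (nat_lit 0) (XT.nd (nat_lit 156) (nat_lit 76) (nat_lit 0) (XT.nd (nat_lit 78) (nat_lit 76) (nat_lit 0) (XT.lf (nat_lit 0) (nat_lit 78272824708) (nat_lit 152) (nat_lit 28923512638) (nat_lit 76) (nat_lit 119276915986) (nat_lit 14) (nat_lit 5) (nat_lit 16) (nat_lit 5) (nat_lit 15) (nat_lit 4) (nat_lit 365) (nat_lit 330) (nat_lit 205)) (XT.lf (nat_lit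 0) (nat_lit 67359879722) (nat_lit 76) (nat_lit 57203490734) (nat_lit 152) (nat_lit 115645940673) (nat_lit 13) (nat_lit 5) (nat_lit 14) (nat_lit 5) (nat_lit 15) (nat_lit 4) (nat_lit 366) (nat_lit 330) (nat_lit 204))) (XT.nd (nat_lit 78) (nat_lit 76) (nat_lit 0) (XT.lf (nat_lit 0) (nat_lit 172989903800) (nat_lit 76) (nat_lit 2357551771) (nat_lit 152) (nat_lit 79633574734) (nat_lit 13) (nat_lit 5) (nat_lit 14) (nat_lit 5) (nat_lit 15) (nat_lit 4) (nat_lit 367) (nat_lit 330) (nat_lit 203)) (XT.lf (nat_lit 0) (nat_lit 15544674416) (nat_lit 76) (nat_lit 216390818617) (nat_lit 76) (nat_lit 38859696317) (nat_lit 12) (nat_lit 4) (nat_lit 13) (nat_lit 5) (nat_lit 13) (nat_lit 4) (nat_lit 368) (nat_lit 330) (nat_lit 202)))) (XT.nd (nat_lit 156) (nat_lit 76) (nat_lit 0) (XT.nd (nat_lit 78) (nat_lit 0) (nat_lit 0) (XT.lf (nat_lit 0) (nat_lit 7277916933) (nat_lit 152) (nat_lit 162393748061) (nat_lit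 76) (nat_lit 118003997344) (nat_lit 11) (nat_lit 5) (nat_lit 13) (nat_lit 5) (nat_lit 12) (nat_lit 4) (nat_lit 369) (nat_lit 330) (nat_lit 201)) (XT.lf (nat_lit 0) (nat_lit 55006650497) (nat_lit 152) (nat_lit 63118623901) (nat_lit 76) (nat_lit 187700588114) (nat_lit 11) (nat_lit 5) (nat_lit 13) (nat_lit 5) (nat_lit 12) (nat_lit 4) (nat_lit 370) (nat_lit 330) (nat_lit 200))) (XT.nd (nat_lit 78) (nat_lit 0) (nat_lit 0) (XT.lf (nat_lit 0) (nat_lit 46419839587) (nat_lit 76) (nat_lit 61249819376) (nat_lit 152) (nat_lit 217669141916) (nat_lit 10) (nat_lit 5) (nat_lit 11) (nat_lit 5) (nat_lit 12) (nat_lit 4) (nat_lit 371) (nat_lit 330) (nat_lit 199)) (XT.lf (nat_lit 0) (nat_lit 166320115921) (nat_lit 152) (nat_lit 178013554152) (nat_lit 0) (nat_lit 1937151875) (nat_lit 10) (nat_lit 5) (nat_lit 12) (nat_lit 4) (nat_lit 10) (nat_lit 4) (nat_lit 372) (nat_lit 330) (nat_lit 198))))) (XT.nd (nat_lit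 312) (nat_lit 76) (nat_lit 0) (XT.nd (nat_lit 156) (nat_lit 76) (nat_lit 0) (XT.nd (nat_lit 78) (nat_lit 76) (nat_lit 0) (XT.lf (nat_lit 0) (nat_lit 231253127297) (nat_lit 152) (nat_lit 70627344599) (nat_lit 0) (nat_lit 66869691618) (nat_lit 10) (nat_lit 5) (nat_lit 12) (nat_lit 4) (nat_lit 10) (nat_lit 4) (nat_lit 373) (nat_lit 330) (nat_lit 197)) (XT.lf (nat_lit 0) (nat_lit 47737092417) (nat_lit 76) (nat_lit 254791407480) (nat_lit 76) (nat_lit 90407535104) (nat_lit 9) (nat_lit 4) (nat_lit 10) (nat_lit 5) (nat_lit 10) (nat_lit 4) (nat_lit 374) (nat_lit 330) (nat_lit 196))) (XT.nd (nat_lit 78) (nat_lit 76) (nat_lit 0) (XT.lf (nat_lit 0) (nat_lit 179586669077) (nat_lit 76) (nat_lit 201849962844) (nat_lit 76) (nat_lit 37465686119) (nat_lit 9) (nat_lit 4) (nat_lit 10) (nat_lit 5) (nat_lit 10) (nat_lit 4) (nat_lit 375) (nat_lit 330) (nat_lit 195)) (XT.lf (nat_lit 0) (nat_lit 18725131220)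 (nat_lit 152) (nat_lit 125436378183) (nat_lit 76) (nat_lit 302746495910) (nat_lit 8) (nat_lit 5) (nat_lit 10) (nat_lit 5) (nat_lit 9) (nat_lit 4) (nat_lit 376) (nat_lit 330) (nat_lit 194)))) (XT.nd (nat_lit 156) (nat_lit 0) (nat_lit 0) (XT.nd (nat_lit 78) (nat_lit 76) (nat_lit 0) (XT.lf (nat_lit 0) (nat_lit 77386788243) (nat_lit 152) (nat_lit 3420478240) (nat_lit 76) (nat_lit 396269054912) (nat_lit 8) (nat_lit 5) (nat_lit 10) (nat_lit 5) (nat_lit 9) (nat_lit 4) (nat_lit 377) (nat_lit 330) (nat_lit 193)) (XT.lf (nat_lit 0) (nat_lit 135115166551) (nat_lit 76) (nat_lit 8875451392) (nat_lit 152) (nat_lit 365407545761) (nat_lit 7) (nat_lit 5) (nat_lit 8) (nat_lit 5) (nat_lit 9) (nat_lit 4) (nat_lit 378) (nat_lit 330) (nat_lit 192))) (XT.nd (nat_lit 78) (nat_lit 0) (nat_lit 0) (XT.lf (nat_lit 0) (nat_lit 217673328698) (nat_lit 152) (nat_lit 261027953854) (nat_lit 0) (nat_lit 65464425012) (nat_lit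 7) (nat_lit 5) (nat_lit 9) (nat_lit 4) (nat_lit 7) (nat_lit 4) (nat_lit 379) (nat_lit 330) (nat_lit 191)) (XT.nd (nat_lit 78) (nat_lit 0) (nat_lit 0) (XT.lf (nat_lit 0) (nat_lit 297480927874) (nat_lit 152) (nat_lit 138943536082) (nat_lit 0) (nat_lit 145271769380) (nat_lit 7) (nat_lit 5) (nat_lit 9) (nat_lit 4) (nat_lit 7) (nat_lit 4) (nat_lit 380) (nat_lit 330) (nat_lit 190)) (XT.lf (nat_lit 0) (nat_lit 383672894575) (nat_lit 152) (nat_lit 7092825802) (nat_lit 0) (nat_lit 231463500146) (nat_lit 7) (nat_lit 5) (nat_lit 9) (nat_lit 4) (nat_lit 7) (nat_lit 4) (nat_lit 381) (nat_lit 330) (nat_lit 189))))))) (XT.nd (nat_lit 624) (nat_lit 76) (nat_lit 0) (XT.nd (nat_lit 312) (nat_lit 76) (nat_lit 0) (XT.nd (nat_lit 156) (nat_lit 76) (nat_lit 0) (XT.nd (nat_lit 78) (nat_lit 0) (nat_lit 0) (XT.lf (nat_lit 0) (nat_lit 142430463140) (nat_lit 76) (nat_lit 337754988932) (nat_lit 76) (nat_lit 185545376046)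 (nat_lit 6) (nat_lit 4) (nat_lit 7) (nat_lit 5) (nat_lit 7) (nat_lit 4) (nat_lit 382) (nat_lit 330) (nat_lit 188)) (XT.lf (nat_lit 0) (nat_lit 304318574519) (nat_lit 76) (nat_lit 280294153960) (nat_lit 76) (nat_lit 128084338799) (nat_lit 6) (nat_lit 4) (nat_lit 7) (nat_lit 5) (nat_lit 7) (nat_lit 4) (nat_lit 383) (nat_lit 330) (nat_lit 187))) (XT.nd (nat_lit 78) (nat_lit 76) (nat_lit 0) (XT.lf (nat_lit 0) (nat_lit 479157349654) (nat_lit 76) (nat_lit 218236637237) (nat_lit 76) (nat_lit 66026634784) (nat_lit 6) (nat_lit 4) (nat_lit 7) (nat_lit 5) (nat_lit 7) (nat_lit 4) (nat_lit 384) (nat_lit 330) (nat_lit 186)) (XT.lf (nat_lit 0) (nat_lit 945687146) (nat_lit 152) (nat_lit 150243146608) (nat_lit 76) (nat_lit 667011326266) (nat_lit 5) (nat_lit 5) (nat_lit 7) (nat_lit 5) (nat_lit 6) (nat_lit 4) (nat_lit 385) (nat_lit 330) (nat_lit 185)))) (XT.nd (nat_lit 156) (nat_lit 0) (nat_lit 0) (XT.nd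 (nat_lit 78) (nat_lit 76) (nat_lit 0) (XT.lf (nat_lit 0) (nat_lit 69708465480) (nat_lit 152) (nat_lit 7216728244) (nat_lit 76) (nat_lit 800299683667) (nat_lit 5) (nat_lit 5) (nat_lit 7) (nat_lit 5) (nat_lit 6) (nat_lit 4) (nat_lit 386) (nat_lit 330) (nat_lit 184)) (XT.lf (nat_lit 0) (nat_lit 147875686352) (nat_lit 152) (nat_lit 785843560269) (nat_lit 0) (nat_lit 6940051979) (nat_lit 4) (nat_lit 5) (nat_lit 6) (nat_lit 4) (nat_lit 4) (nat_lit 4) (nat_lit 387) (nat_lit 330) (nat_lit 183))) (XT.nd (nat_lit 78) (nat_lit 0) (nat_lit 0) (XT.lf (nat_lit 0) (nat_lit 234496623256) (nat_lit 152) (nat_lit 680934961832) (nat_lit 0) (nat_lit 93560861415) (nat_lit 4) (nat_lit 5) (nat_lit 6) (nat_lit 4) (nat_lit 4) (nat_lit 4) (nat_lit 388) (nat_lit 330) (nat_lit 182)) (XT.lf (nat_lit 0) (nat_lit 328047085200) (nat_lit 152) (nat_lit 567633967756) (nat_lit 0) (nat_lit 187111205333) (nat_lit 4) (nat_lit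 5) (nat_lit 6) (nat_lit 4) (nat_lit 4) (nat_lit 4) (nat_lit 389) (nat_lit 330) (nat_lit 181))))) (XT.nd (nat_lit 312) (nat_lit 76) (nat_lit 0) (XT.nd (nat_lit 156) (nat_lit 0) (nat_lit 0) (XT.nd (nat_lit 78) (nat_lit 0) (nat_lit 0) (XT.lf (nat_lit 0) (nat_lit 429081445293) (nat_lit 152) (nat_lit 445269164743) (nat_lit 0) (nat_lit 288145456143) (nat_lit 4) (nat_lit 5) (nat_lit 6) (nat_lit 4) (nat_lit 4) (nat_lit 4) (nat_lit 390) (nat_lit 330) (nat_lit 180)) (XT.lf (nat_lit 0) (nat_lit 538198425668) (nat_lit 152) (nat_lit 313115428035) (nat_lit 0) (nat_lit 397262335331) (nat_lit 4) (nat_lit 5) (nat_lit 6) (nat_lit 4) (nat_lit 4) (nat_lit 4) (nat_lit 391) (nat_lit 330) (nat_lit 179))) (XT.nd (nat_lit 78) (nat_lit 0) (nat_lit 0) (XT.lf (nat_lit 0) (nat_lit 656044645469) (nat_lit 152) (nat_lit 170389624375) (nat_lit 0) (nat_lit 515108461439) (nat_lit 4) (nat_lit 5) (nat_lit 6) (nat_lit 4)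 (nat_lit 4) (nat_lit 4) (nat_lit 392) (nat_lit 330) (nat_lit 178)) (XT.lf (nat_lit 0) (nat_lit 783318452665) (nat_lit 152) (nat_lit 16245971226) (nat_lit 0) (nat_lit 642382181883) (nat_lit 4) (nat_lit 5) (nat_lit 6) (nat_lit 4) (nat_lit 4) (nat_lit 4) (nat_lit 393) (nat_lit 330) (nat_lit 177)))) (XT.nd (nat_lit 156) (nat_lit 0) (nat_lit 0) (XT.nd (nat_lit 78) (nat_lit 0) (nat_lit 0) (XT.lf (nat_lit 0) (nat_lit 158139766894) (nat_lit 76) (nat_lit 766437560712) (nat_lit 76) (nat_lit 625501209603) (nat_lit 3) (nat_lit 4) (nat_lit 4) (nat_lit 5) (nat_lit 4) (nat_lit 4) (nat_lit 394) (nat_lit 330) (nat_lit 176)) (XT.lf (nat_lit 0) (nat_lit 347400092988) (nat_lit 76) (nat_lit 730180914067) (nat_lit 76) (nat_lit 589244488582) (nat_lit 3) (nat_lit 4) (nat_lit 4) (nat_lit 5) (nat_lit 4) (nat_lit 4) (nat_lit 395) (nat_lit 330) (nat_lit 175))) (XT.nd (nat_lit 78) (nat_lit 0) (nat_lit 0) (XT.lf (nat_lit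 0) (nat_lit 551801065673) (nat_lit 76) (nat_lit 691023823397) (nat_lit 76) (nat_lit 550087329045) (nat_lit 3) (nat_lit 4) (nat_lit 4) (nat_lit 5) (nat_lit 4) (nat_lit 4) (nat_lit 396) (nat_lit 330) (nat_lit 174)) (XT.nd (nat_lit 78) (nat_lit 0) (nat_lit 0) (XT.lf (nat_lit 0) (nat_lit 772553949973) (nat_lit 76) (nat_lit 648734246685) (nat_lit 76) (nat_lit 507797688567) (nat_lit 3) (nat_lit 4) (nat_lit 4) (nat_lit 5) (nat_lit 4) (nat_lit 4) (nat_lit 397) (nat_lit 330) (nat_lit 173)) (XT.lf (nat_lit 0) (nat_lit 1010966911128) (nat_lit 76) (nat_lit 603061579030) (nat_lit 76) (nat_lit 462124961870) (nat_lit 3) (nat_lit 4) (nat_lit 4) (nat_lit 5) (nat_lit 4) (nat_lit 4) (nat_lit 398) (nat_lit 330) (nat_lit 172))))))))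
noncomputable def xc183 : XT := (XT.nd (nat_lit 42042) (nat_lit 0) (nat_lit 1672) (XT.nd (nat_lit 624) (nat_lit 76) (nat_lit 0) (XT.nd (nat_lit 312) (nat_lit 76) (nat_lit 0) (XT.nd (nat_lit 156) (nat_lit 0) (nat_lit 0) (XT.nd (nat_lit 78) (nat_lit 0) (nat_lit 0) (XT.lf (nat_lit 0) (nat_lit 1268452766686) (nat_lit 76) (nat_lit 553735167588) (nat_lit 76) (nat_lit 412798495759) (nat_lit 3) (nat_lit 4) (nat_lit 4) (nat_lit 5) (nat_lit 4) (nat_lit 4) (nat_lit 399) (nat_lit 330) (nat_lit 171)) (XT.lf (nat_lit 0) (nat_lit 1546537358754) (nat_lit 76) (nat_lit 500462707698) (nat_lit 76) (nat_lit 359525985250) (nat_lit 3) (nat_lit 4) (nat_lit 4) (nat_lit 5) (nat_lit 4) (nat_lit 4) (nat_lit 400) (nat_lit 330) (nat_lit 170))) (XT.nd (nat_lit 78) (nat_lit 0) (nat_lit 0) (XT.lf (nat_lit 0) (nat_lit 1846868596025) (nat_lit 76) (nat_lit 442928510708) (nat_lit 76) (nat_lit 301991741391) (nat_lit 3) (nat_lit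 4) (nat_lit 4) (nat_lit 5) (nat_lit 4) (nat_lit 4) (nat_lit 401) (nat_lit 330) (nat_lit 169)) (XT.lf (nat_lit 0) (nat_lit 2171226219165) (nat_lit 76) (nat_lit 380791633230) (nat_lit 76) (nat_lit 239854820515) (nat_lit 3) (nat_lit 4) (nat_lit 4) (nat_lit 5) (nat_lit 4) (nat_lit 4) (nat_lit 402) (nat_lit 330) (nat_lit 168)))) (XT.nd (nat_lit 156) (nat_lit 76) (nat_lit 0) (XT.nd (nat_lit 78) (nat_lit 0) (nat_lit 0) (XT.lf (nat_lit 0) (nat_lit 2521532347422) (nat_lit 76) (nat_lit 313683856730) (nat_lit 76) (nat_lit 172747003832) (nat_lit 3) (nat_lit 4) (nat_lit 4) (nat_lit 5) (nat_lit 4) (nat_lit 4) (nat_lit 403) (nat_lit 330) (nat_lit 167)) (XT.lf (nat_lit 0) (nat_lit 2899862868963) (nat_lit 76) (nat_lit 241207505496) (nat_lit 76) (nat_lit 100270615391) (nat_lit 3) (nat_lit 4) (nat_lit 4) (nat_lit 5) (nat_lit 4) (nat_lit 4) (nat_lit 404) (nat_lit 330) (nat_lit 166))) (XT.nd (nat_lit 78)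 (nat_lit 76) (nat_lit 0) (XT.lf (nat_lit 0) (nat_lit 3308459742435) (nat_lit 76) (nat_lit 162933090038) (nat_lit 76) (nat_lit 21996165483) (nat_lit 3) (nat_lit 4) (nat_lit 4) (nat_lit 5) (nat_lit 4) (nat_lit 4) (nat_lit 405) (nat_lit 330) (nat_lit 165)) (XT.lf (nat_lit 0) (nat_lit 59411680666) (nat_lit 152) (nat_lit 17360660667) (nat_lit 76) (nat_lit 3688708181341) (nat_lit 2) (nat_lit 5) (nat_lit 4) (nat_lit 5) (nat_lit 3) (nat_lit 4) (nat_lit 406) (nat_lit 330) (nat_lit 164))))) (XT.nd (nat_lit 41028) (nat_lit 0) (nat_lit 3648) (XT.nd (nat_lit 156) (nat_lit 0) (nat_lit 0) (XT.nd (nat_lit 78) (nat_lit 0) (nat_lit 0) (XT.lf (nat_lit 0) (nat_lit 150785010990) (nat_lit 152) (nat_lit 3887849552675) (nat_lit 0) (nat_lit 20287801740) (nat_lit 1) (nat_lit 5) (nat_lit 3) (nat_lit 4) (nat_lit 1) (nat_lit 4) (nat_lit 407) (nat_lit 330) (nat_lit 163)) (XT.lf (nat_lit 0) (nat_lit 251949254703) (nat_lit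 152) (nat_lit 4002239796976) (nat_lit 0) (nat_lit 121452020131) (nat_lit 1) (nat_lit 5) (nat_lit 3) (nat_lit 4) (nat_lit 1) (nat_lit 4) (nat_lit 408) (nat_lit 330) (nat_lit 162))) (XT.nd (nat_lit 40794) (nat_lit 0) (nat_lit 3648) (XT.lf (nat_lit 0) (nat_lit 361206600713) (nat_lit 152) (nat_lit 4125781334308) (nat_lit 0) (nat_lit 230709342695) (nat_lit 1) (nat_lit 5) (nat_lit 3) (nat_lit 4) (nat_lit 1) (nat_lit 4) (nat_lit 409) (nat_lit 330) (nat_lit 161)) (XT.lf (nat_lit 0) (nat_lit 15173763211) (nat_lit 532) (nat_lit 3504567716) (nat_lit 532) (nat_lit 3504567716) (nat_lit 49) (nat_lit 3) (nat_lit 56) (nat_lit 3) (nat_lit 56) (nat_lit 5) (nat_lit 331) (nat_lit 331) (nat_lit 238)))) (XT.nd (nat_lit 156) (nat_lit 0) (nat_lit 76) (XT.nd (nat_lit 78) (nat_lit 0) (nat_lit 76) (XT.lf (nat_lit 76) (nat_lit 14301298455) (nat_lit 0) (nat_lit 17634671837) (nat_lit 532) (nat_lit 14174419232) (nat_lit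 50) (nat_lit 5) (nat_lit 49) (nat_lit 3) (nat_lit 56) (nat_lit 5) (nat_lit 332) (nat_lit 331) (nat_lit 237)) (XT.lf (nat_lit 0) (nat_lit 33933184418) (nat_lit 456) (nat_lit 10359190491) (nat_lit 532) (nat_lit 3679646279) (nat_lit 50) (nat_lit 5) (nat_lit 56) (nat_lit 5) (nat_lit 57) (nat_lit 5) (nat_lit 333) (nat_lit 331) (nat_lit 236))) (XT.nd (nat_lit 78) (nat_lit 0) (nat_lit 0) (XT.lf (nat_lit 76) (nat_lit 12996936048) (nat_lit 0) (nat_lit 23861016750) (nat_lit 532) (nat_lit 13063215477) (nat_lit 51) (nat_lit 5) (nat_lit 50) (nat_lit 5) (nat_lit 57) (nat_lit 5) (nat_lit 334) (nat_lit 331) (nat_lit 235)) (XT.nd (nat_lit 78) (nat_lit 0) (nat_lit 76) (XT.lf (nat_lit 76) (nat_lit 38808854661) (nat_lit 0) (nat_lit 1488410163) (nat_lit 532) (nat_lit 11706543872) (nat_lit 51) (nat_lit 5) (nat_lit 50) (nat_lit 5) (nat_lit 57) (nat_lit 5) (nat_lit 335) (nat_lit 331) (nat_lit 234)) (XT.lf (nat_lit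 76) (nat_lit 12511300390) (nat_lit 0) (nat_lit 32344169415) (nat_lit 532) (nat_lit 9330096759) (nat_lit 52) (nat_lit 5) (nat_lit 51) (nat_lit 5) (nat_lit 58) (nat_lit 5) (nat_lit 336) (nat_lit 331) (nat_lit 233))))))) (XT.nd (nat_lit 702) (nat_lit 912) (nat_lit 0) (XT.nd (nat_lit 312) (nat_lit 456) (nat_lit 0) (XT.nd (nat_lit 156) (nat_lit 380) (nat_lit 0) (XT.nd (nat_lit 78) (nat_lit 380) (nat_lit 0) (XT.lf (nat_lit 76) (nat_lit 40981895200) (nat_lit 0) (nat_lit 9192568373) (nat_lit 532) (nat_lit 6335716504) (nat_lit 52) (nat_lit 5) (nat_lit 51) (nat_lit 5) (nat_lit 58) (nat_lit 5) (nat_lit 337) (nat_lit 331) (nat_lit 232)) (XT.lf (nat_lit 0) (nat_lit 12976322944) (nat_lit 456) (nat_lit 43632853294) (nat_lit 532) (nat_lit 2356375670) (nat_lit 46) (nat_lit 5) (nat_lit 52) (nat_lit 5) (nat_lit 53) (nat_lit 5) (nat_lit 338) (nat_lit 331) (nat_lit 231))) (XT.nd (nat_lit 78) (nat_lit 304)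 (nat_lit 0) (XT.lf (nat_lit 0) (nat_lit 2516482781) (nat_lit 532) (nat_lit 17237452500) (nat_lit 76) (nat_lit 41805904954) (nat_lit 45) (nat_lit 5) (nat_lit 52) (nat_lit 5) (nat_lit 46) (nat_lit 5) (nat_lit 339) (nat_lit 331) (nat_lit 230)) (XT.lf (nat_lit 0) (nat_lit 8153855492) (nat_lit 380) (nat_lit 50009318966) (nat_lit 76) (nat_lit 6153445640) (nat_lit 41) (nat_lit 5) (nat_lit 46) (nat_lit 5) (nat_lit 42) (nat_lit 5) (nat_lit 340) (nat_lit 331) (nat_lit 229)))) (XT.nd (nat_lit 156) (nat_lit 228) (nat_lit 0) (XT.nd (nat_lit 78) (nat_lit 228) (nat_lit 0) (XT.lf (nat_lit 0) (nat_lit 15237022440) (nat_lit 380) (nat_lit 18427569025) (nat_lit 76) (nat_lit 33549770346) (nat_lit 41) (nat_lit 5) (nat_lit 46) (nat_lit 5) (nat_lit 42) (nat_lit 5) (nat_lit 341) (nat_lit 331) (nat_lit 228)) (XT.lf (nat_lit 0) (nat_lit 16504544827) (nat_lit 228) (nat_lit 6777539163) (nat_lit 304) (nat_lit 47030223105)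 (nat_lit 38) (nat_lit 5) (nat_lit 41) (nat_lit 5) (nat_lit 42) (nat_lit 5) (nat_lit 342) (nat_lit 331) (nat_lit 227))) (XT.nd (nat_lit 78) (nat_lit 228) (nat_lit 0) (XT.lf (nat_lit 0) (nat_lit 33021431001) (nat_lit 304) (nat_lit 18888895768) (nat_lit 76) (nat_lit 21663710059) (nat_lit 38) (nat_lit 5) (nat_lit 42) (nat_lit 5) (nat_lit 39) (nat_lit 5) (nat_lit 343) (nat_lit 331) (nat_lit 226)) (XT.nd (nat_lit 78) (nat_lit 0) (nat_lit 0) (XT.lf (nat_lit 0) (nat_lit 19627545603) (nat_lit 228) (nat_lit 24558968935) (nat_lit 304) (nat_lit 32858466330) (nat_lit 35) (nat_lit 5) (nat_lit 38) (nat_lit 5) (nat_lit 39) (nat_lit 5) (nat_lit 344) (nat_lit 331) (nat_lit 225)) (XT.lf (nat_lit 0) (nat_lit 56893025193) (nat_lit 304) (nat_lit 18587758737) (nat_lit 76) (nat_lit 5260961670) (nat_lit 35) (nat_lit 5) (nat_lit 39) (nat_lit 5) (nat_lit 36) (nat_lit 5) (nat_lit 345) (nat_lit 331) (nat_lit 224))))))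 (XT.nd (nat_lit 312) (nat_lit 456) (nat_lit 0) (XT.nd (nat_lit 156) (nat_lit 304) (nat_lit 0) (XT.nd (nat_lit 78) (nat_lit 0) (nat_lit 0) (XT.lf (nat_lit 0) (nat_lit 23904521894) (nat_lit 152) (nat_lit 47923009453) (nat_lit 228) (nat_lit 12809804789) (nat_lit 33) (nat_lit 5) (nat_lit 35) (nat_lit 5) (nat_lit 36) (nat_lit 5) (nat_lit 346) (nat_lit 331) (nat_lit 223)) (XT.lf (nat_lit 0) (nat_lit 70851653990) (nat_lit 152) (nat_lit 17612100157) (nat_lit 228) (nat_lit 340265679) (nat_lit 33) (nat_lit 5) (nat_lit 35) (nat_lit 5) (nat_lit 36) (nat_lit 5) (nat_lit 347) (nat_lit 331) (nat_lit 222))) (XT.nd (nat_lit 78) (nat_lit 0) (nat_lit 0) (XT.lf (nat_lit 0) (nat_lit 13566428801) (nat_lit 304) (nat_lit 64208436192) (nat_lit 76) (nat_lit 15416219239) (nat_lit 29) (nat_lit 5) (nat_lit 33) (nat_lit 5) (nat_lit 30) (nat_lit 5) (nat_lit 348) (nat_lit 331) (nat_lit 221)) (XT.lf (nat_lit 0) (nat_lit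 29527169748) (nat_lit 304) (nat_lit 17677083133) (nat_lit 76) (nat_lit 50647364247) (nat_lit 29) (nat_lit 5) (nat_lit 33) (nat_lit 5) (nat_lit 30) (nat_lit 5) (nat_lit 349) (nat_lit 331) (nat_lit 220)))) (XT.nd (nat_lit 156) (nat_lit 304) (nat_lit 0) (XT.nd (nat_lit 78) (nat_lit 0) (nat_lit 0) (XT.lf (nat_lit 0) (nat_lit 34290631931) (nat_lit 152) (nat_lit 13297752737) (nat_lit 228) (nat_lit 55230720576) (nat_lit 27) (nat_lit 5) (nat_lit 29) (nat_lit 5) (nat_lit 30) (nat_lit 5) (nat_lit 350) (nat_lit 331) (nat_lit 219)) (XT.lf (nat_lit 0) (nat_lit 68150208673) (nat_lit 228) (nat_lit 17299220103) (nat_lit 76) (nat_lit 22650108320) (nat_lit 27) (nat_lit 5) (nat_lit 30) (nat_lit 5) (nat_lit 28) (nat_lit 5) (nat_lit 351) (nat_lit 331) (nat_lit 218))) (XT.nd (nat_lit 78) (nat_lit 152) (nat_lit 0) (XT.lf (nat_lit 0) (nat_lit 39665796714) (nat_lit 152) (nat_lit 51989576820) (nat_lit 228) (nat_lit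 22043159883) (nat_lit 25) (nat_lit 5) (nat_lit 27) (nat_lit 5) (nat_lit 28) (nat_lit 5) (nat_lit 352) (nat_lit 331) (nat_lit 217)) (XT.nd (nat_lit 78) (nat_lit 152) (nat_lit 0) (XT.lf (nat_lit 0) (nat_lit 102170448636) (nat_lit 152) (nat_lit 15342567745) (nat_lit 228) (nat_lit 2194669280) (nat_lit 25) (nat_lit 5) (nat_lit 27) (nat_lit 5) (nat_lit 28) (nat_lit 5) (nat_lit 353) (nat_lit 331) (nat_lit 216)) (XT.lf (nat_lit 0) (nat_lit 19990403286) (nat_lit 152) (nat_lit 81417841902) (nat_lit 76) (nat_lit 24615404991) (nat_lit 23) (nat_lit 5) (nat_lit 25) (nat_lit 5) (nat_lit 24) (nat_lit 5) (nat_lit 354) (nat_lit 331) (nat_lit 215))))))))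
noncomputable def xc184 : XT := (XT.nd (nat_lit 1326) (nat_lit 532) (nat_lit 0) (XT.nd (nat_lit 624) (nat_lit 380) (nat_lit 0) (XT.nd (nat_lit 312) (nat_lit 304) (nat_lit 0) (XT.nd (nat_lit 156) (nat_lit 76) (nat_lit 0) (XT.nd (nat_lit 78) (nat_lit 152) (nat_lit 0) (XT.lf (nat_lit 0) (nat_lit 44721316182) (nat_lit 152) (nat_lit 20558200976) (nat_lit 76) (nat_lit 67489647168) (nat_lit 23) (nat_lit 5) (nat_lit 25) (nat_lit 5) (nat_lit 24) (nat_lit 5) (nat_lit 355) (nat_lit 331) (nat_lit 214)) (XT.lf (nat_lit 0) (nat_lit 47547471567) (nat_lit 152) (nat_lit 25025953705) (nat_lit 228) (nat_lit 67389477512) (nat_lit 21) (nat_lit 5) (nat_lit 23) (nat_lit 5) (nat_lit 24) (nat_lit 5) (nat_lit 356) (nat_lit 331) (nat_lit 213))) (XT.nd (nat_lit 78) (nat_lit 76) (nat_lit 0) (XT.lf (nat_lit 0) (nat_lit 103673296667) (nat_lit 228) (nat_lit 25875959795) (nat_lit 76) (nat_lit 18101317325) (nat_lit 21)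 (nat_lit 5) (nat_lit 24) (nat_lit 5) (nat_lit 22) (nat_lit 4) (nat_lit 357) (nat_lit 331) (nat_lit 212)) (XT.lf (nat_lit 0) (nat_lit 47722748178) (nat_lit 76) (nat_lit 91335448790) (nat_lit 152) (nat_lit 16751299249) (nat_lit 20) (nat_lit 5) (nat_lit 21) (nat_lit 5) (nat_lit 22) (nat_lit 4) (nat_lit 358) (nat_lit 331) (nat_lit 211)))) (XT.nd (nat_lit 156) (nat_lit 76) (nat_lit 0) (XT.nd (nat_lit 78) (nat_lit 152) (nat_lit 0) (XT.lf (nat_lit 0) (nat_lit 12744973736) (nat_lit 152) (nat_lit 36207456789) (nat_lit 76) (nat_lit 115586346024) (nat_lit 19) (nat_lit 5) (nat_lit 21) (nat_lit 5) (nat_lit 20) (nat_lit 5) (nat_lit 359) (nat_lit 331) (nat_lit 210)) (XT.lf (nat_lit 0) (nat_lit 43144226278) (nat_lit 152) (nat_lit 1588677397) (nat_lit 228) (nat_lit 129115731612) (nat_lit 17) (nat_lit 5) (nat_lit 19) (nat_lit 5) (nat_lit 20) (nat_lit 5) (nat_lit 360) (nat_lit 331) (nat_lit 209))) (XT.nd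 (nat_lit 78) (nat_lit 76) (nat_lit 0) (XT.lf (nat_lit 0) (nat_lit 81486930511) (nat_lit 228) (nat_lit 54139738661) (nat_lit 76) (nat_lit 48100049200) (nat_lit 17) (nat_lit 5) (nat_lit 20) (nat_lit 5) (nat_lit 18) (nat_lit 4) (nat_lit 361) (nat_lit 331) (nat_lit 208)) (XT.lf (nat_lit 0) (nat_lit 30008979361) (nat_lit 76) (nat_lit 91934682249) (nat_lit 152) (nat_lit 72390396526) (nat_lit 16) (nat_lit 5) (nat_lit 17) (nat_lit 5) (nat_lit 18) (nat_lit 4) (nat_lit 362) (nat_lit 331) (nat_lit 207))))) (XT.nd (nat_lit 312) (nat_lit 228) (nat_lit 0) (XT.nd (nat_lit 156) (nat_lit 76) (nat_lit 0) (XT.nd (nat_lit 78) (nat_lit 76) (nat_lit 0) (XT.lf (nat_lit 0) (nat_lit 123967563577) (nat_lit 76) (nat_lit 43149065277) (nat_lit 152) (nat_lit 38554980972) (nat_lit 16) (nat_lit 5) (nat_lit 17) (nat_lit 5) (nat_lit 18) (nat_lit 4) (nat_lit 363) (nat_lit 331) (nat_lit 206)) (XT.lf (nat_lit 0) (nat_lit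 7680489764) (nat_lit 76) (nat_lit 208636537113) (nat_lit 76) (nat_lit 1566051818) (nat_lit 15) (nat_lit 4) (nat_lit 16) (nat_lit 5) (nat_lit 16) (nat_lit 4) (nat_lit 364) (nat_lit 331) (nat_lit 205))) (XT.nd (nat_lit 78) (nat_lit 0) (nat_lit 0) (XT.lf (nat_lit 0) (nat_lit 39874139818) (nat_lit 152) (nat_lit 124133217268) (nat_lit 76) (nat_lit 66717287738) (nat_lit 14) (nat_lit 5) (nat_lit 16) (nat_lit 5) (nat_lit 15) (nat_lit 4) (nat_lit 365) (nat_lit 331) (nat_lit 204)) (XT.lf (nat_lit 0) (nat_lit 84544437663) (nat_lit 152) (nat_lit 31219870711) (nat_lit 76) (nat_lit 128826014278) (nat_lit 14) (nat_lit 5) (nat_lit 16) (nat_lit 5) (nat_lit 15) (nat_lit 4) (nat_lit 366) (nat_lit 331) (nat_lit 203)))) (XT.nd (nat_lit 156) (nat_lit 152) (nat_lit 0) (XT.nd (nat_lit 78) (nat_lit 0) (nat_lit 0) (XT.lf (nat_lit 0) (nat_lit 72765749420) (nat_lit 76) (nat_lit 61772163448) (nat_lit 152) (nat_lit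 124887377933) (nat_lit 13) (nat_lit 5) (nat_lit 14) (nat_lit 5) (nat_lit 15) (nat_lit 4) (nat_lit 367) (nat_lit 331) (nat_lit 202)) (XT.lf (nat_lit 0) (nat_lit 186844910289) (nat_lit 76) (nat_lit 2539112815) (nat_lit 152) (nat_lit 85994781089) (nat_lit 13) (nat_lit 5) (nat_lit 14) (nat_lit 5) (nat_lit 15) (nat_lit 4) (nat_lit 368) (nat_lit 331) (nat_lit 201))) (XT.nd (nat_lit 78) (nat_lit 76) (nat_lit 0) (XT.lf (nat_lit 0) (nat_lit 16804187695) (nat_lit 76) (nat_lit 233694806339) (nat_lit 76) (nat_lit 41959111198) (nat_lit 12) (nat_lit 4) (nat_lit 13) (nat_lit 5) (nat_lit 13) (nat_lit 4) (nat_lit 369) (nat_lit 331) (nat_lit 200)) (XT.nd (nat_lit 78) (nat_lit 0) (nat_lit 0) (XT.lf (nat_lit 0) (nat_lit 7868384138) (nat_lit 152) (nat_lit 175370050254) (nat_lit 76) (nat_lit 127450616789) (nat_lit 11) (nat_lit 5) (nat_lit 13) (nat_lit 5) (nat_lit 12) (nat_lit 4) (nat_lit 370) (nat_lit 331)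 (nat_lit 199)) (XT.lf (nat_lit 0) (nat_lit 59414806472) (nat_lit 152) (nat_lit 68154041913) (nat_lit 76) (nat_lit 202722468179) (nat_lit 11) (nat_lit 5) (nat_lit 13) (nat_lit 5) (nat_lit 12) (nat_lit 4) (nat_lit 371) (nat_lit 331) (nat_lit 198))))))) (XT.nd (nat_lit 624) (nat_lit 228) (nat_lit 0) (XT.nd (nat_lit 312) (nat_lit 152) (nat_lit 0) (XT.nd (nat_lit 156) (nat_lit 76) (nat_lit 0) (XT.nd (nat_lit 78) (nat_lit 0) (nat_lit 0) (XT.lf (nat_lit 0) (nat_lit 50147142403) (nat_lit 76) (nat_lit 66143478338) (nat_lit 152) (nat_lit 235074688422) (nat_lit 10) (nat_lit 5) (nat_lit 11) (nat_lit 5) (nat_lit 12) (nat_lit 4) (nat_lit 372) (nat_lit 331) (nat_lit 197)) (XT.lf (nat_lit 0) (nat_lit 179632707802) (nat_lit 152) (nat_lit 192241528039) (nat_lit 0) (nat_lit 2097688939) (nat_lit 10) (nat_lit 5) (nat_lit 12) (nat_lit 4) (nat_lit 10) (nat_lit 4) (nat_lit 373) (nat_lit 331) (nat_lit 196)))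 (XT.nd (nat_lit 78) (nat_lit 76) (nat_lit 0) (XT.lf (nat_lit 0) (nat_lit 249759842858) (nat_lit 152) (nat_lit 76265392866) (nat_lit 0) (nat_lit 72224419645) (nat_lit 10) (nat_lit 5) (nat_lit 12) (nat_lit 4) (nat_lit 10) (nat_lit 4) (nat_lit 374) (nat_lit 331) (nat_lit 195)) (XT.lf (nat_lit 0) (nat_lit 51567891788) (nat_lit 76) (nat_lit 275169159120) (nat_lit 76) (nat_lit 97633361510) (nat_lit 9) (nat_lit 4) (nat_lit 10) (nat_lit 5) (nat_lit 10) (nat_lit 4) (nat_lit 375) (nat_lit 331) (nat_lit 194)))) (XT.nd (nat_lit 156) (nat_lit 76) (nat_lit 0) (XT.nd (nat_lit 78) (nat_lit 76) (nat_lit 0) (XT.lf (nat_lit 0) (nat_lit 193964558138) (nat_lit 76) (nat_lit 217992810837) (nat_lit 76) (nat_lit 40456666563) (nat_lit 9) (nat_lit 4) (nat_lit 10) (nat_lit 5) (nat_lit 10) (nat_lit 4) (nat_lit 376) (nat_lit 331) (nat_lit 193)) (XT.lf (nat_lit 0) (nat_lit 20228660766) (nat_lit 152) (nat_lit 135460850864)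 (nat_lit 76) (nat_lit 326970689647) (nat_lit 8) (nat_lit 5) (nat_lit 10) (nat_lit 5) (nat_lit 9) (nat_lit 4) (nat_lit 377) (nat_lit 331) (nat_lit 192))) (XT.nd (nat_lit 78) (nat_lit 76) (nat_lit 0) (XT.lf (nat_lit 0) (nat_lit 83582841533) (nat_lit 152) (nat_lit 3684452079) (nat_lit 76) (nat_lit 427974721957) (nat_lit 8) (nat_lit 5) (nat_lit 10) (nat_lit 5) (nat_lit 9) (nat_lit 4) (nat_lit 378) (nat_lit 331) (nat_lit 191)) (XT.lf (nat_lit 0) (nat_lit 145933799627) (nat_lit 76) (nat_lit 9581025992) (nat_lit 152) (nat_lit 394634792005) (nat_lit 7) (nat_lit 5) (nat_lit 8) (nat_lit 5) (nat_lit 9) (nat_lit 4) (nat_lit 379) (nat_lit 331) (nat_lit 190))))) (XT.nd (nat_lit 312) (nat_lit 152) (nat_lit 0) (XT.nd (nat_lit 156) (nat_lit 76) (nat_lit 0) (XT.nd (nat_lit 78) (nat_lit 0) (nat_lit 0) (XT.lf (nat_lit 0) (nat_lit 235091885308) (nat_lit 152) (nat_lit 281901197913) (nat_lit 0) (nat_lit 70705503391)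 (nat_lit 7) (nat_lit 5) (nat_lit 9) (nat_lit 4) (nat_lit 7) (nat_lit 4) (nat_lit 380) (nat_lit 331) (nat_lit 189)) (XT.lf (nat_lit 0) (nat_lit 321283744988) (nat_lit 152) (nat_lit 150050692812) (nat_lit 0) (nat_lit 156897144614) (nat_lit 7) (nat_lit 5) (nat_lit 9) (nat_lit 4) (nat_lit 7) (nat_lit 4) (nat_lit 381) (nat_lit 331) (nat_lit 188))) (XT.nd (nat_lit 78) (nat_lit 76) (nat_lit 0) (XT.lf (nat_lit 0) (nat_lit 414370747329) (nat_lit 152) (nat_lit 7652542462) (nat_lit 0) (nat_lit 249983944680) (nat_lit 7) (nat_lit 5) (nat_lit 9) (nat_lit 4) (nat_lit 7) (nat_lit 4) (nat_lit 382) (nat_lit 331) (nat_lit 187)) (XT.lf (nat_lit 0) (nat_lit 153832414421) (nat_lit 76) (nat_lit 364771777857) (nat_lit 76) (nat_lit 200384787915) (nat_lit 6) (nat_lit 4) (nat_lit 7) (nat_lit 5) (nat_lit 7) (nat_lit 4) (nat_lit 383) (nat_lit 331) (nat_lit 186)))) (XT.nd (nat_lit 156) (nat_lit 152) (nat_lit 0) (XT.nd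 (nat_lit 78) (nat_lit 0) (nat_lit 0) (XT.lf (nat_lit 0) (nat_lit 328671018101) (nat_lit 76) (nat_lit 302714343509) (nat_lit 76) (nat_lit 138327180149) (nat_lit 6) (nat_lit 4) (nat_lit 7) (nat_lit 5) (nat_lit 7) (nat_lit 4) (nat_lit 384) (nat_lit 331) (nat_lit 185)) (XT.lf (nat_lit 0) (nat_lit 517496379868) (nat_lit 76) (nat_lit 235692473060) (nat_lit 76) (nat_lit 71305149128) (nat_lit 6) (nat_lit 4) (nat_lit 7) (nat_lit 5) (nat_lit 7) (nat_lit 4) (nat_lit 385) (nat_lit 331) (nat_lit 184))) (XT.nd (nat_lit 78) (nat_lit 76) (nat_lit 0) (XT.lf (nat_lit 0) (nat_lit 1024523164) (nat_lit 152) (nat_lit 162256464429) (nat_lit 76) (nat_lit 720374929383) (nat_lit 5) (nat_lit 5) (nat_lit 7) (nat_lit 5) (nat_lit 6) (nat_lit 4) (nat_lit 386) (nat_lit 331) (nat_lit 183)) (XT.nd (nat_lit 78) (nat_lit 76) (nat_lit 0) (XT.lf (nat_lit 0) (nat_lit 75288088132) (nat_lit 152) (nat_lit 7788386960) (nat_lit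 76) (nat_lit 864326155597) (nat_lit 5) (nat_lit 5) (nat_lit 7) (nat_lit 5) (nat_lit 6) (nat_lit 4) (nat_lit 387) (nat_lit 331) (nat_lit 182)) (XT.lf (nat_lit 0) (nat_lit 159708665973) (nat_lit 152) (nat_lit 848705343680) (nat_lit 0) (nat_lit 7497797692) (nat_lit 4) (nat_lit 5) (nat_lit 6) (nat_lit 4) (nat_lit 4) (nat_lit 4) (nat_lit 388) (nat_lit 331) (nat_lit 181))))))))
noncomputable def xc185 : XT := (XT.nd (nat_lit 1326) (nat_lit 152) (nat_lit 0) (XT.nd (nat_lit 624) (nat_lit 0) (nat_lit 0) (XT.nd (nat_lit 312) (nat_lit 76) (nat_lit 0) (XT.nd (nat_lit 156) (nat_lit 0) (nat_lit 0) (XT.nd (nat_lit 78) (nat_lit 0) (nat_lit 0) (XT.lf (nat_lit 0) (nat_lit 253259061183) (nat_lit 152) (nat_lit 735404479695) (nat_lit 0) (nat_lit 101048083619) (nat_lit 4) (nat_lit 5) (nat_lit 6) (nat_lit 4) (nat_lit 4) (nat_lit 4) (nat_lit 389) (nat_lit 331) (nat_lit 180)) (XT.lf (nat_lit 0) (nat_lit 354293359486)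 (nat_lit 152) (nat_lit 613039797136) (nat_lit 0) (nat_lit 202082280733) (nat_lit 4) (nat_lit 5) (nat_lit 6) (nat_lit 4) (nat_lit 4) (nat_lit 4) (nat_lit 390) (nat_lit 331) (nat_lit 179))) (XT.nd (nat_lit 78) (nat_lit 0) (nat_lit 0) (XT.lf (nat_lit 0) (nat_lit 463410282647) (nat_lit 152) (nat_lit 480886171959) (nat_lit 0) (nat_lit 311199110202) (nat_lit 4) (nat_lit 5) (nat_lit 6) (nat_lit 4) (nat_lit 4) (nat_lit 4) (nat_lit 391) (nat_lit 331) (nat_lit 178)) (XT.lf (nat_lit 0) (nat_lit 581256449473) (nat_lit 152) (nat_lit 338160471571) (nat_lit 0) (nat_lit 429045190275) (nat_lit 4) (nat_lit 5) (nat_lit 6) (nat_lit 4) (nat_lit 4) (nat_lit 4) (nat_lit 392) (nat_lit 331) (nat_lit 177)))) (XT.nd (nat_lit 156) (nat_lit 76) (nat_lit 0) (XT.nd (nat_lit 78) (nat_lit 0) (nat_lit 0) (XT.lf (nat_lit 0) (nat_lit 708530207617) (nat_lit 152) (nat_lit 184016914041) (nat_lit 0) (nat_lit 556318868093) (nat_lit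 4) (nat_lit 5) (nat_lit 6) (nat_lit 4) (nat_lit 4) (nat_lit 4) (nat_lit 393) (nat_lit 331) (nat_lit 176)) (XT.lf (nat_lit 0) (nat_lit 845985771943) (nat_lit 152) (nat_lit 17542056068) (nat_lit 0) (nat_lit 693774358043) (nat_lit 4) (nat_lit 5) (nat_lit 6) (nat_lit 4) (nat_lit 4) (nat_lit 4) (nat_lit 394) (nat_lit 331) (nat_lit 175))) (XT.nd (nat_lit 78) (nat_lit 0) (nat_lit 0) (XT.lf (nat_lit 0) (nat_lit 170794450143) (nat_lit 76) (nat_lit 827750854434) (nat_lit 76) (nat_lit 675539371667) (nat_lit 3) (nat_lit 4) (nat_lit 4) (nat_lit 5) (nat_lit 4) (nat_lit 4) (nat_lit 395) (nat_lit 331) (nat_lit 174)) (XT.lf (nat_lit 0) (nat_lit 375195342924) (nat_lit 76) (nat_lit 788593802808) (nat_lit 76) (nat_lit 636382256276) (nat_lit 3) (nat_lit 4) (nat_lit 4) (nat_lit 5) (nat_lit 4) (nat_lit 4) (nat_lit 396) (nat_lit 331) (nat_lit 173))))) (XT.nd (nat_lit 312) (nat_lit 0) (nat_lit 0) (XT.nd (nat_lit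 156) (nat_lit 0) (nat_lit 0) (XT.nd (nat_lit 78) (nat_lit 0) (nat_lit 0) (XT.lf (nat_lit 0) (nat_lit 595948153239) (nat_lit 76) (nat_lit 746304262247) (nat_lit 76) (nat_lit 594092656672) (nat_lit 3) (nat_lit 4) (nat_lit 4) (nat_lit 5) (nat_lit 4) (nat_lit 4) (nat_lit 397) (nat_lit 331) (nat_lit 172)) (XT.lf (nat_lit 0) (nat_lit 834361045890) (nat_lit 76) (nat_lit 700631628066) (nat_lit 76) (nat_lit 548419967822) (nat_lit 3) (nat_lit 4) (nat_lit 4) (nat_lit 5) (nat_lit 4) (nat_lit 4) (nat_lit 398) (nat_lit 331) (nat_lit 171))) (XT.nd (nat_lit 78) (nat_lit 0) (nat_lit 0) (XT.lf (nat_lit 0) (nat_lit 1091846838018) (nat_lit 76) (nat_lit 651305247617) (nat_lit 76) (nat_lit 499093536755) (nat_lit 3) (nat_lit 4) (nat_lit 4) (nat_lit 5) (nat_lit 4) (nat_lit 4) (nat_lit 399) (nat_lit 331) (nat_lit 170)) (XT.lf (nat_lit 0) (nat_lit 1369931371354) (nat_lit 76) (nat_lit 598032816425) (nat_lit 76)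 (nat_lit 445821058693) (nat_lit 3) (nat_lit 4) (nat_lit 4) (nat_lit 5) (nat_lit 4) (nat_lit 4) (nat_lit 400) (nat_lit 331) (nat_lit 169)))) (XT.nd (nat_lit 156) (nat_lit 0) (nat_lit 0) (XT.nd (nat_lit 78) (nat_lit 0) (nat_lit 0) (XT.lf (nat_lit 0) (nat_lit 1670262554243) (nat_lit 76) (nat_lit 540498646008) (nat_lit 76) (nat_lit 388286844878) (nat_lit 3) (nat_lit 4) (nat_lit 4) (nat_lit 5) (nat_lit 4) (nat_lit 4) (nat_lit 401) (nat_lit 331) (nat_lit 168)) (XT.lf (nat_lit 0) (nat_lit 1994620127030) (nat_lit 76) (nat_lit 478361793134) (nat_lit 76) (nat_lit 326149951821) (nat_lit 3) (nat_lit 4) (nat_lit 4) (nat_lit 5) (nat_lit 4) (nat_lit 4) (nat_lit 402) (nat_lit 331) (nat_lit 167))) (XT.nd (nat_lit 78) (nat_lit 0) (nat_lit 0) (XT.lf (nat_lit 0) (nat_lit 2344926208664) (nat_lit 76) (nat_lit 411254039416) (nat_lit 76) (nat_lit 259042160896) (nat_lit 3) (nat_lit 4) (nat_lit 4) (nat_lit 5)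 (nat_lit 4) (nat_lit 4) (nat_lit 403) (nat_lit 331) (nat_lit 166)) (XT.nd (nat_lit 78) (nat_lit 0) (nat_lit 0) (XT.lf (nat_lit 0) (nat_lit 2723256687036) (nat_lit 76) (nat_lit 338777709275) (nat_lit 76) (nat_lit 186565796305) (nat_lit 3) (nat_lit 4) (nat_lit 4) (nat_lit 5) (nat_lit 4) (nat_lit 4) (nat_lit 404) (nat_lit 331) (nat_lit 165)) (XT.lf (nat_lit 0) (nat_lit 3131853520536) (nat_lit 76) (nat_lit 260503313349) (nat_lit 76) (nat_lit 108291368480) (nat_lit 3) (nat_lit 4) (nat_lit 4) (nat_lit 5) (nat_lit 4) (nat_lit 4) (nat_lit 405) (nat_lit 331) (nat_lit 164))))))) (XT.nd (nat_lit 41418) (nat_lit 0) (nat_lit 2812) (XT.nd (nat_lit 41106) (nat_lit 0) (nat_lit 3648) (XT.nd (nat_lit 156) (nat_lit 76) (nat_lit 0) (XT.nd (nat_lit 78) (nat_lit 76) (nat_lit 0) (XT.lf (nat_lit 0) (nat_lit 3573138023734) (nat_lit 76) (nat_lit 175967003365) (nat_lit 76) (nat_lit 23755028960) (nat_lit 3) (nat_lit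 4) (nat_lit 4) (nat_lit 5) (nat_lit 4) (nat_lit 4) (nat_lit 406) (nat_lit 331) (nat_lit 163)) (XT.lf (nat_lit 0) (nat_lit 64165344984) (nat_lit 152) (nat_lit 18748084185) (nat_lit 76) (nat_lit 3983805476680) (nat_lit 2) (nat_lit 5) (nat_lit 4) (nat_lit 5) (nat_lit 3) (nat_lit 4) (nat_lit 407) (nat_lit 331) (nat_lit 162))) (XT.nd (nat_lit 78) (nat_lit 0) (nat_lit 0) (XT.lf (nat_lit 0) (nat_lit 162848537621) (nat_lit 152) (nat_lit 4198876083209) (nat_lit 0) (nat_lit 21911475515) (nat_lit 1) (nat_lit 5) (nat_lit 3) (nat_lit 4) (nat_lit 1) (nat_lit 4) (nat_lit 408) (nat_lit 331) (nat_lit 161)) (XT.lf (nat_lit 0) (nat_lit 272105867072) (nat_lit 152) (nat_lit 4322417653254) (nat_lit 0) (nat_lit 131168783256) (nat_lit 1) (nat_lit 5) (nat_lit 3) (nat_lit 4) (nat_lit 1) (nat_lit 4) (nat_lit 409) (nat_lit 331) (nat_lit 160)))) (XT.nd (nat_lit 156) (nat_lit 0) (nat_lit 76) (XT.nd (nat_lit 78) (nat_lit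 0) (nat_lit 0) (XT.lf (nat_lit 0) (nat_lit 16417524669) (nat_lit 532) (nat_lit 3768771319) (nat_lit 532) (nat_lit 3768771319) (nat_lit 49) (nat_lit 3) (nat_lit 56) (nat_lit 3) (nat_lit 56) (nat_lit 5) (nat_lit 332) (nat_lit 332) (nat_lit 236)) (XT.lf (nat_lit 76) (nat_lit 15476907640) (nat_lit 0) (nat_lit 19069995017) (nat_lit 532) (nat_lit 15247695880) (nat_lit 50) (nat_lit 5) (nat_lit 49) (nat_lit 3) (nat_lit 56) (nat_lit 5) (nat_lit 333) (nat_lit 332) (nat_lit 235))) (XT.nd (nat_lit 78) (nat_lit 0) (nat_lit 0) (XT.lf (nat_lit 0) (nat_lit 36699195030) (nat_lit 456) (nat_lit 11153927700) (nat_lit 532) (nat_lit 3952424120) (nat_lit 50) (nat_lit 5) (nat_lit 56) (nat_lit 5) (nat_lit 57) (nat_lit 5) (nat_lit 334) (nat_lit 332) (nat_lit 234)) (XT.lf (nat_lit 76) (nat_lit 14069828252) (nat_lit 0) (nat_lit 25785109445) (nat_lit 532) (nat_lit 14055938032) (nat_lit 51) (nat_lit 5) (nat_lit 50)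 (nat_lit 5) (nat_lit 57) (nat_lit 5) (nat_lit 335) (nat_lit 332) (nat_lit 233))))) (XT.nd (nat_lit 312) (nat_lit 608) (nat_lit 0) (XT.nd (nat_lit 156) (nat_lit 304) (nat_lit 0) (XT.nd (nat_lit 78) (nat_lit 0) (nat_lit 76) (XT.lf (nat_lit 76) (nat_lit 41944245737) (nat_lit 0) (nat_lit 1621567564) (nat_lit 532) (nat_lit 12594609342) (nat_lit 51) (nat_lit 5) (nat_lit 50) (nat_lit 5) (nat_lit 57) (nat_lit 5) (nat_lit 336) (nat_lit 332) (nat_lit 232)) (XT.lf (nat_lit 76) (nat_lit 13546037819) (nat_lit 0) (nat_lit 34939820817) (nat_lit 532) (nat_lit 10031095889) (nat_lit 52) (nat_lit 5) (nat_lit 51) (nat_lit 5) (nat_lit 58) (nat_lit 5) (nat_lit 337) (nat_lit 332) (nat_lit 231))) (XT.nd (nat_lit 78) (nat_lit 380) (nat_lit 0) (XT.lf (nat_lit 76) (nat_lit 44291774036) (nat_lit 0) (nat_lit 9935490369) (nat_lit 532) (nat_lit 6800528814) (nat_lit 52) (nat_lit 5) (nat_lit 51) (nat_lit 5) (nat_lit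 58) (nat_lit 5) (nat_lit 338) (nat_lit 332) (nat_lit 230)) (XT.lf (nat_lit 0) (nat_lit 14048259321) (nat_lit 456) (nat_lit 47126263692) (nat_lit 532) (nat_lit 2505257216) (nat_lit 46) (nat_lit 5) (nat_lit 52) (nat_lit 5) (nat_lit 53) (nat_lit 5) (nat_lit 339) (nat_lit 332) (nat_lit 229)))) (XT.nd (nat_lit 156) (nat_lit 228) (nat_lit 0) (XT.nd (nat_lit 78) (nat_lit 304) (nat_lit 0) (XT.lf (nat_lit 0) (nat_lit 2752658930) (nat_lit 532) (nat_lit 18583214158) (nat_lit 76) (nat_lit 45145891332) (nat_lit 45) (nat_lit 5) (nat_lit 52) (nat_lit 5) (nat_lit 46) (nat_lit 5) (nat_lit 340) (nat_lit 332) (nat_lit 228)) (XT.lf (nat_lit 0) (nat_lit 8839202569) (nat_lit 380) (nat_lit 53974942132) (nat_lit 76) (nat_lit 6645092995) (nat_lit 41) (nat_lit 5) (nat_lit 46) (nat_lit 5) (nat_lit 42) (nat_lit 5) (nat_lit 341) (nat_lit 332) (nat_lit 227))) (XT.nd (nat_lit 78) (nat_lit 228) (nat_lit 0) (XT.lf (nat_lit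 0) (nat_lit 16486575567) (nat_lit 380) (nat_lit 19869253852) (nat_lit 76) (nat_lit 36233170217) (nat_lit 41) (nat_lit 5) (nat_lit 46) (nat_lit 5) (nat_lit 42) (nat_lit 5) (nat_lit 342) (nat_lit 332) (nat_lit 226)) (XT.nd (nat_lit 78) (nat_lit 0) (nat_lit 0) (XT.lf (nat_lit 0) (nat_lit 17856605800) (nat_lit 228) (nat_lit 7317132539) (nat_lit 304) (nat_lit 50761167226) (nat_lit 38) (nat_lit 5) (nat_lit 41) (nat_lit 5) (nat_lit 42) (nat_lit 5) (nat_lit 343) (nat_lit 332) (nat_lit 225)) (XT.lf (nat_lit 0) (nat_lit 35690136587) (nat_lit 304) (nat_lit 20368506764) (nat_lit 76) (nat_lit 23399102425) (nat_lit 38) (nat_lit 5) (nat_lit 42) (nat_lit 5) (nat_lit 39) (nat_lit 5) (nat_lit 344) (nat_lit 332) (nat_lit 224))))))))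
noncomputable def xc186 : XT := (XT.nd (nat_lit 1326) (nat_lit 684) (nat_lit 0) (XT.nd (nat_lit 624) (nat_lit 760) (nat_lit 0) (XT.nd (nat_lit 312) (nat_lit 456) (nat_lit 0) (XT.nd (nat_lit 156) (nat_lit 152) (nat_lit 0) (XT.nd (nat_lit 78) (nat_lit 0) (nat_lit 0) (XT.lf (nat_lit 0) (nat_lit 21228452432) (nat_lit 228) (nat_lit 26518713446) (nat_lit 304) (nat_lit 35459304387) (nat_lit 35) (nat_lit 5) (nat_lit 38) (nat_lit 5) (nat_lit 39) (nat_lit 5) (nat_lit 345) (nat_lit 332) (nat_lit 223)) (XT.lf (nat_lit 0) (nat_lit 61468402188) (nat_lit 304) (nat_lit 20044508463) (nat_lit 76) (nat_lit 5686212894) (nat_lit 35) (nat_lit 5) (nat_lit 39) (nat_lit 5) (nat_lit 36) (nat_lit 5) (nat_lit 346) (nat_lit 332) (nat_lit 222))) (XT.nd (nat_lit 78) (nat_lit 0) (nat_lit 0) (XT.lf (nat_lit 0) (nat_lit 25846388265) (nat_lit 152) (nat_lit 51750217194) (nat_lit 228) (nat_lit 13809844408) (nat_lit 33) (nat_lit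 5) (nat_lit 35) (nat_lit 5) (nat_lit 36) (nat_lit 5) (nat_lit 347) (nat_lit 332) (nat_lit 221)) (XT.lf (nat_lit 0) (nat_lit 76547105401) (nat_lit 152) (nat_lit 19014926489) (nat_lit 228) (nat_lit 344575115) (nat_lit 33) (nat_lit 5) (nat_lit 35) (nat_lit 5) (nat_lit 36) (nat_lit 5) (nat_lit 348) (nat_lit 332) (nat_lit 220)))) (XT.nd (nat_lit 156) (nat_lit 152) (nat_lit 0) (XT.nd (nat_lit 78) (nat_lit 0) (nat_lit 0) (XT.lf (nat_lit 0) (nat_lit 14672732013) (nat_lit 304) (nat_lit 69315797373) (nat_lit 76) (nat_lit 16656127996) (nat_lit 29) (nat_lit 5) (nat_lit 33) (nat_lit 5) (nat_lit 30) (nat_lit 5) (nat_lit 349) (nat_lit 332) (nat_lit 219)) (XT.lf (nat_lit 0) (nat_lit 31908777502) (nat_lit 304) (nat_lit 19064107455) (nat_lit 76) (nat_lit 54705274884) (nat_lit 29) (nat_lit 5) (nat_lit 33) (nat_lit 5) (nat_lit 30) (nat_lit 5) (nat_lit 350) (nat_lit 332) (nat_lit 218))) (XT.nd (nat_lit 78)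 (nat_lit 0) (nat_lit 0) (XT.lf (nat_lit 0) (nat_lit 37060337667) (nat_lit 152) (nat_lit 14353748629) (nat_lit 228) (nat_lit 59629027343) (nat_lit 27) (nat_lit 5) (nat_lit 29) (nat_lit 5) (nat_lit 30) (nat_lit 5) (nat_lit 351) (nat_lit 332) (nat_lit 217)) (XT.lf (nat_lit 0) (nat_lit 73619650393) (nat_lit 228) (nat_lit 18657428978) (nat_lit 76) (nat_lit 24468999322) (nat_lit 27) (nat_lit 5) (nat_lit 30) (nat_lit 5) (nat_lit 28) (nat_lit 5) (nat_lit 352) (nat_lit 332) (nat_lit 216))))) (XT.nd (nat_lit 312) (nat_lit 456) (nat_lit 0) (XT.nd (nat_lit 156) (nat_lit 152) (nat_lit 0) (XT.nd (nat_lit 78) (nat_lit 0) (nat_lit 0) (XT.lf (nat_lit 0) (nat_lit 42864137824) (nat_lit 152) (nat_lit 56140402988) (nat_lit 228) (nat_lit 23788510945) (nat_lit 25) (nat_lit 5) (nat_lit 27) (nat_lit 5) (nat_lit 28) (nat_lit 5) (nat_lit 353) (nat_lit 332) (nat_lit 215)) (XT.lf (nat_lit 0) (nat_lit 110367304317)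 (nat_lit 152) (nat_lit 16562250963) (nat_lit 228) (nat_lit 2353481963) (nat_lit 25) (nat_lit 5) (nat_lit 27) (nat_lit 5) (nat_lit 28) (nat_lit 5) (nat_lit 354) (nat_lit 332) (nat_lit 214))) (XT.nd (nat_lit 78) (nat_lit 0) (nat_lit 0) (XT.lf (nat_lit 0) (nat_lit 21605139305) (nat_lit 152) (nat_lit 87906750518) (nat_lit 76) (nat_lit 26592391954) (nat_lit 23) (nat_lit 5) (nat_lit 25) (nat_lit 5) (nat_lit 24) (nat_lit 5) (nat_lit 355) (nat_lit 332) (nat_lit 213)) (XT.lf (nat_lit 0) (nat_lit 48313376806) (nat_lit 152) (nat_lit 22180154521) (nat_lit 76) (nat_lit 72895999093) (nat_lit 23) (nat_lit 5) (nat_lit 25) (nat_lit 5) (nat_lit 24) (nat_lit 5) (nat_lit 356) (nat_lit 332) (nat_lit 212)))) (XT.nd (nat_lit 156) (nat_lit 304) (nat_lit 0) (XT.nd (nat_lit 78) (nat_lit 0) (nat_lit 0) (XT.lf (nat_lit 0) (nat_lit 51373397078) (nat_lit 152) (nat_lit 27019726360) (nat_lit 228) (nat_lit 72765688389)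 (nat_lit 21) (nat_lit 5) (nat_lit 23) (nat_lit 5) (nat_lit 24) (nat_lit 5) (nat_lit 357) (nat_lit 332) (nat_lit 211)) (XT.lf (nat_lit 0) (nat_lit 111980145445) (nat_lit 228) (nat_lit 27924692817) (nat_lit 76) (nat_lit 19556726654) (nat_lit 21) (nat_lit 5) (nat_lit 24) (nat_lit 5) (nat_lit 22) (nat_lit 4) (nat_lit 358) (nat_lit 332) (nat_lit 210))) (XT.nd (nat_lit 78) (nat_lit 228) (nat_lit 0) (XT.lf (nat_lit 0) (nat_lit 51561371444) (nat_lit 76) (nat_lit 98634004793) (nat_lit 152) (nat_lit 18077863010) (nat_lit 20) (nat_lit 5) (nat_lit 21) (nat_lit 5) (nat_lit 22) (nat_lit 4) (nat_lit 359) (nat_lit 332) (nat_lit 209)) (XT.nd (nat_lit 78) (nat_lit 152) (nat_lit 0) (XT.lf (nat_lit 0) (nat_lit 13776481677) (nat_lit 152) (nat_lit 39084151074) (nat_lit 76) (nat_lit 124840280442) (nat_lit 19) (nat_lit 5) (nat_lit 21) (nat_lit 5) (nat_lit 20) (nat_lit 5) (nat_lit 360) (nat_lit 332) (nat_lit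 208)) (XT.lf (nat_lit 0) (nat_lit 46615162783) (nat_lit 152) (nat_lit 1707867534) (nat_lit 228) (nat_lit 139432564507) (nat_lit 17) (nat_lit 5) (nat_lit 19) (nat_lit 5) (nat_lit 20) (nat_lit 5) (nat_lit 361) (nat_lit 332) (nat_lit 207))))))) (XT.nd (nat_lit 624) (nat_lit 380) (nat_lit 0) (XT.nd (nat_lit 312) (nat_lit 152) (nat_lit 0) (XT.nd (nat_lit 156) (nat_lit 76) (nat_lit 0) (XT.nd (nat_lit 78) (nat_lit 76) (nat_lit 0) (XT.lf (nat_lit 0) (nat_lit 88016703879) (nat_lit 228) (nat_lit 58452269979) (nat_lit 76) (nat_lit 51955005601) (nat_lit 17) (nat_lit 5) (nat_lit 20) (nat_lit 5) (nat_lit 18) (nat_lit 4) (nat_lit 362) (nat_lit 332) (nat_lit 206)) (XT.lf (nat_lit 0) (nat_lit 32427873388) (nat_lit 76) (nat_lit 99281735800) (nat_lit 152) (nat_lit 78170327163) (nat_lit 16) (nat_lit 5) (nat_lit 17) (nat_lit 5) (nat_lit 18) (nat_lit 4) (nat_lit 363) (nat_lit 332) (nat_lit 205))) (XT.nd (nat_lit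 78) (nat_lit 76) (nat_lit 0) (XT.lf (nat_lit 0) (nat_lit 133901797996) (nat_lit 76) (nat_lit 46593841399) (nat_lit 152) (nat_lit 41628915481) (nat_lit 16) (nat_lit 5) (nat_lit 17) (nat_lit 5) (nat_lit 18) (nat_lit 4) (nat_lit 364) (nat_lit 332) (nat_lit 204)) (XT.lf (nat_lit 0) (nat_lit 8311928530) (nat_lit 76) (nat_lit 225319991715) (nat_lit 76) (nat_lit 1681033620) (nat_lit 15) (nat_lit 4) (nat_lit 16) (nat_lit 5) (nat_lit 16) (nat_lit 4) (nat_lit 365) (nat_lit 332) (nat_lit 203)))) (XT.nd (nat_lit 156) (nat_lit 76) (nat_lit 0) (XT.nd (nat_lit 78) (nat_lit 0) (nat_lit 0) (XT.lf (nat_lit 0) (nat_lit 43073133021) (nat_lit 152) (nat_lit 134047649706) (nat_lit 76) (nat_lit 72061101325) (nat_lit 14) (nat_lit 5) (nat_lit 16) (nat_lit 5) (nat_lit 15) (nat_lit 4) (nat_lit 366) (nat_lit 332) (nat_lit 202)) (XT.lf (nat_lit 0) (nat_lit 91316383432) (nat_lit 152) (nat_lit 33702437272) (nat_lit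 76) (nat_lit 139138049650) (nat_lit 14) (nat_lit 5) (nat_lit 16) (nat_lit 5) (nat_lit 15) (nat_lit 4) (nat_lit 367) (nat_lit 332) (nat_lit 201))) (XT.nd (nat_lit 78) (nat_lit 0) (nat_lit 0) (XT.lf (nat_lit 0) (nat_lit 78601652138) (nat_lit 76) (nat_lit 66707415138) (nat_lit 152) (nat_lit 134869590739) (nat_lit 13) (nat_lit 5) (nat_lit 14) (nat_lit 5) (nat_lit 15) (nat_lit 4) (nat_lit 368) (nat_lit 332) (nat_lit 200)) (XT.lf (nat_lit 0) (nat_lit 201806061227) (nat_lit 76) (nat_lit 2736203520) (nat_lit 152) (nat_lit 92866236327) (nat_lit 13) (nat_lit 5) (nat_lit 14) (nat_lit 5) (nat_lit 15) (nat_lit 4) (nat_lit 369) (nat_lit 332) (nat_lit 199))))) (XT.nd (nat_lit 312) (nat_lit 152) (nat_lit 0) (XT.nd (nat_lit 156) (nat_lit 76) (nat_lit 0) (XT.nd (nat_lit 78) (nat_lit 76) (nat_lit 0) (XT.lf (nat_lit 0) (nat_lit 18162188113) (nat_lit 76) (nat_lit 252384151334) (nat_lit 76) (nat_lit 45307814695)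 (nat_lit 12) (nat_lit 4) (nat_lit 13) (nat_lit 5) (nat_lit 13) (nat_lit 4) (nat_lit 370) (nat_lit 332) (nat_lit 198)) (XT.lf (nat_lit 0) (nat_lit 8504914069) (nat_lit 152) (nat_lit 189386624738) (nat_lit 76) (nat_lit 137652067072) (nat_lit 11) (nat_lit 5) (nat_lit 13) (nat_lit 5) (nat_lit 12) (nat_lit 4) (nat_lit 371) (nat_lit 332) (nat_lit 197))) (XT.nd (nat_lit 78) (nat_lit 76) (nat_lit 0) (XT.lf (nat_lit 0) (nat_lit 64174527286) (nat_lit 152) (nat_lit 73594300880) (nat_lit 76) (nat_lit 218945266503) (nat_lit 11) (nat_lit 5) (nat_lit 13) (nat_lit 5) (nat_lit 12) (nat_lit 4) (nat_lit 372) (nat_lit 332) (nat_lit 196)) (XT.lf (nat_lit 0) (nat_lit 54170672754) (nat_lit 76) (nat_lit 71429532575) (nat_lit 152) (nat_lit 253873817776) (nat_lit 10) (nat_lit 5) (nat_lit 11) (nat_lit 5) (nat_lit 12) (nat_lit 4) (nat_lit 373) (nat_lit 332) (nat_lit 195)))) (XT.nd (nat_lit 156) (nat_lit 152) (nat_lit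 0) (XT.nd (nat_lit 78) (nat_lit 0) (nat_lit 0) (XT.lf (nat_lit 0) (nat_lit 194009310886) (nat_lit 152) (nat_lit 207609610188) (nat_lit 0) (nat_lit 2270275070) (nat_lit 10) (nat_lit 5) (nat_lit 12) (nat_lit 4) (nat_lit 10) (nat_lit 4) (nat_lit 374) (nat_lit 332) (nat_lit 194)) (XT.lf (nat_lit 0) (nat_lit 269746173305) (nat_lit 152) (nat_lit 82356216801) (nat_lit 0) (nat_lit 78006790824) (nat_lit 10) (nat_lit 5) (nat_lit 12) (nat_lit 4) (nat_lit 10) (nat_lit 4) (nat_lit 375) (nat_lit 332) (nat_lit 193))) (XT.nd (nat_lit 78) (nat_lit 76) (nat_lit 0) (XT.lf (nat_lit 0) (nat_lit 55703467144) (nat_lit 76) (nat_lit 297177924225) (nat_lit 76) (nat_lit 105438220759) (nat_lit 9) (nat_lit 4) (nat_lit 10) (nat_lit 5) (nat_lit 10) (nat_lit 4) (nat_lit 376) (nat_lit 332) (nat_lit 192)) (XT.nd (nat_lit 78) (nat_lit 76) (nat_lit 0) (XT.lf (nat_lit 0) (nat_lit 209491115394) (nat_lit 76) (nat_lit 235427821237)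 (nat_lit 76) (nat_lit 43687820562) (nat_lit 9) (nat_lit 4) (nat_lit 10) (nat_lit 5) (nat_lit 10) (nat_lit 4) (nat_lit 377) (nat_lit 332) (nat_lit 191)) (XT.lf (nat_lit 0) (nat_lit 21851685323) (nat_lit 152) (nat_lit 146288770396) (nat_lit 76) (nat_lit 353132180607) (nat_lit 8) (nat_lit 5) (nat_lit 10) (nat_lit 5) (nat_lit 9) (nat_lit 4) (nat_lit 378) (nat_lit 332) (nat_lit 190))))))))
noncomputable def xc187 : XT := (XT.nd (nat_lit 1326) (nat_lit 228) (nat_lit 0) (XT.nd (nat_lit 624) (nat_lit 152) (nat_lit 0) (XT.nd (nat_lit 312) (nat_lit 76) (nat_lit 0) (XT.nd (nat_lit 156) (nat_lit 0) (nat_lit 0) (XT.nd (nat_lit 78) (nat_lit 76) (nat_lit 0) (XT.lf (nat_lit 0) (nat_lit 90273850054) (nat_lit 152) (nat_lit 3970922563) (nat_lit 76) (nat_lit 462216251369) (nat_lit 8) (nat_lit 5) (nat_lit 10) (nat_lit 5) (nat_lit 9) (nat_lit 4) (nat_lit 379) (nat_lit 332) (nat_lit 189)) (XT.lf (nat_lit 0)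 (nat_lit 157616579516) (nat_lit 76) (nat_lit 10343683044) (nat_lit 152) (nat_lit 426200982243) (nat_lit 7) (nat_lit 5) (nat_lit 8) (nat_lit 5) (nat_lit 9) (nat_lit 4) (nat_lit 380) (nat_lit 332) (nat_lit 188))) (XT.nd (nat_lit 78) (nat_lit 0) (nat_lit 0) (XT.lf (nat_lit 0) (nat_lit 253903257321) (nat_lit 152) (nat_lit 304445584341) (nat_lit 0) (nat_lit 76365308184) (nat_lit 7) (nat_lit 5) (nat_lit 9) (nat_lit 4) (nat_lit 7) (nat_lit 4) (nat_lit 381) (nat_lit 332) (nat_lit 187)) (XT.lf (nat_lit 0) (nat_lit 346990167910) (nat_lit 152) (nat_lit 162047609899) (nat_lit 0) (nat_lit 169452031481) (nat_lit 7) (nat_lit 5) (nat_lit 9) (nat_lit 4) (nat_lit 7) (nat_lit 4) (nat_lit 382) (nat_lit 332) (nat_lit 186)))) (XT.nd (nat_lit 156) (nat_lit 0) (nat_lit 0) (XT.nd (nat_lit 78) (nat_lit 76) (nat_lit 0) (XT.lf (nat_lit 0) (nat_lit 447523854637) (nat_lit 152) (nat_lit 8258136287) (nat_lit 0) (nat_lit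 269985544789) (nat_lit 7) (nat_lit 5) (nat_lit 9) (nat_lit 4) (nat_lit 7) (nat_lit 4) (nat_lit 383) (nat_lit 332) (nat_lit 185)) (XT.lf (nat_lit 0) (nat_lit 166145449816) (nat_lit 76) (nat_lit 393950424930) (nat_lit 76) (nat_lit 216411954510) (nat_lit 6) (nat_lit 4) (nat_lit 7) (nat_lit 5) (nat_lit 7) (nat_lit 4) (nat_lit 384) (nat_lit 332) (nat_lit 184))) (XT.nd (nat_lit 78) (nat_lit 0) (nat_lit 0) (XT.lf (nat_lit 0) (nat_lit 354970664588) (nat_lit 76) (nat_lit 326928625104) (nat_lit 76) (nat_lit 149390006006) (nat_lit 6) (nat_lit 4) (nat_lit 7) (nat_lit 5) (nat_lit 7) (nat_lit 4) (nat_lit 385) (nat_lit 332) (nat_lit 183)) (XT.lf (nat_lit 0) (nat_lit 558901613440) (nat_lit 76) (nat_lit 254545217308) (nat_lit 76) (nat_lit 77006460545) (nat_lit 6) (nat_lit 4) (nat_lit 7) (nat_lit 5) (nat_lit 7) (nat_lit 4) (nat_lit 386) (nat_lit 332) (nat_lit 182))))) (XT.nd (nat_lit 312) (nat_lit 0) (nat_lit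 0) (XT.nd (nat_lit 156) (nat_lit 76) (nat_lit 0) (XT.nd (nat_lit 78) (nat_lit 0) (nat_lit 0) (XT.lf (nat_lit 0) (nat_lit 1109212251) (nat_lit 152) (nat_lit 175231722747) (nat_lit 76) (nat_lit 778007235991) (nat_lit 5) (nat_lit 5) (nat_lit 7) (nat_lit 5) (nat_lit 6) (nat_lit 4) (nat_lit 387) (nat_lit 332) (nat_lit 181)) (XT.lf (nat_lit 0) (nat_lit 81313660400) (nat_lit 152) (nat_lit 8406588624) (nat_lit 76) (nat_lit 933474389023) (nat_lit 5) (nat_lit 5) (nat_lit 7) (nat_lit 5) (nat_lit 6) (nat_lit 4) (nat_lit 388) (nat_lit 332) (nat_lit 180))) (XT.nd (nat_lit 78) (nat_lit 0) (nat_lit 0) (XT.lf (nat_lit 0) (nat_lit 172487866721) (nat_lit 152) (nat_lit 916596883134) (nat_lit 0) (nat_lit 8099800480) (nat_lit 4) (nat_lit 5) (nat_lit 6) (nat_lit 4) (nat_lit 4) (nat_lit 4) (nat_lit 389) (nat_lit 332) (nat_lit 179)) (XT.lf (nat_lit 0) (nat_lit 273522107809) (nat_lit 152) (nat_lit 794232312107)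 (nat_lit 0) (nat_lit 109133947876) (nat_lit 4) (nat_lit 5) (nat_lit 6) (nat_lit 4) (nat_lit 4) (nat_lit 4) (nat_lit 390) (nat_lit 332) (nat_lit 178)))) (XT.nd (nat_lit 156) (nat_lit 0) (nat_lit 0) (XT.nd (nat_lit 78) (nat_lit 0) (nat_lit 0) (XT.lf (nat_lit 0) (nat_lit 382638977996) (nat_lit 152) (nat_lit 662078790200) (nat_lit 0) (nat_lit 218250731310) (nat_lit 4) (nat_lit 5) (nat_lit 6) (nat_lit 4) (nat_lit 4) (nat_lit 4) (nat_lit 391) (nat_lit 332) (nat_lit 177)) (XT.lf (nat_lit 0) (nat_lit 500485095770) (nat_lit 152) (nat_lit 519353185432) (nat_lit 0) (nat_lit 336096768758) (nat_lit 4) (nat_lit 5) (nat_lit 6) (nat_lit 4) (nat_lit 4) (nat_lit 4) (nat_lit 392) (nat_lit 332) (nat_lit 176))) (XT.nd (nat_lit 78) (nat_lit 0) (nat_lit 0) (XT.lf (nat_lit 0) (nat_lit 627758808496) (nat_lit 152) (nat_lit 365209716441) (nat_lit 0) (nat_lit 463370407108) (nat_lit 4) (nat_lit 5) (nat_lit 6) (nat_lit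 4) (nat_lit 4) (nat_lit 4) (nat_lit 393) (nat_lit 332) (nat_lit 175)) (XT.nd (nat_lit 78) (nat_lit 0) (nat_lit 0) (XT.lf (nat_lit 0) (nat_lit 765214330768) (nat_lit 152) (nat_lit 198734940447) (nat_lit 0) (nat_lit 600825860513) (nat_lit 4) (nat_lit 5) (nat_lit 6) (nat_lit 4) (nat_lit 4) (nat_lit 4) (nat_lit 394) (nat_lit 332) (nat_lit 174)) (XT.lf (nat_lit 0) (nat_lit 913666213830) (nat_lit 152) (nat_lit 18942340259) (nat_lit 0) (nat_lit 749277679810) (nat_lit 4) (nat_lit 5) (nat_lit 6) (nat_lit 4) (nat_lit 4) (nat_lit 4) (nat_lit 395) (nat_lit 332) (nat_lit 173))))))) (XT.nd (nat_lit 702) (nat_lit 152) (nat_lit 0) (XT.nd (nat_lit 312) (nat_lit 0) (nat_lit 0) (XT.nd (nat_lit 156) (nat_lit 0) (nat_lit 0) (XT.nd (nat_lit 78) (nat_lit 0) (nat_lit 0) (XT.lf (nat_lit 0) (nat_lit 184461008467) (nat_lit 76) (nat_lit 893969455766) (nat_lit 76) (nat_lit 729580862704) (nat_lit 3) (nat_lit 4) (nat_lit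 4) (nat_lit 5) (nat_lit 4) (nat_lit 4) (nat_lit 396) (nat_lit 332) (nat_lit 172)) (XT.lf (nat_lit 0) (nat_lit 405213750277) (nat_lit 76) (nat_lit 851679948679) (nat_lit 76) (nat_lit 687291300947) (nat_lit 3) (nat_lit 4) (nat_lit 4) (nat_lit 5) (nat_lit 4) (nat_lit 4) (nat_lit 397) (nat_lit 332) (nat_lit 171))) (XT.nd (nat_lit 78) (nat_lit 0) (nat_lit 0) (XT.lf (nat_lit 0) (nat_lit 643626579498) (nat_lit 76) (nat_lit 806007345491) (nat_lit 76) (nat_lit 641618647141) (nat_lit 3) (nat_lit 4) (nat_lit 4) (nat_lit 5) (nat_lit 4) (nat_lit 4) (nat_lit 398) (nat_lit 332) (nat_lit 170)) (XT.lf (nat_lit 0) (nat_lit 901112312894) (nat_lit 76) (nat_lit 756680993741) (nat_lit 76) (nat_lit 592292248521) (nat_lit 3) (nat_lit 4) (nat_lit 4) (nat_lit 5) (nat_lit 4) (nat_lit 4) (nat_lit 399) (nat_lit 332) (nat_lit 169)))) (XT.nd (nat_lit 156) (nat_lit 0) (nat_lit 0) (XT.nd (nat_lit 78) (nat_lit 0) (nat_lit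 0) (XT.lf (nat_lit 0) (nat_lit 1179196791848) (nat_lit 76) (nat_lit 703408589122) (nat_lit 76) (nat_lit 539019800503) (nat_lit 3) (nat_lit 4) (nat_lit 4) (nat_lit 5) (nat_lit 4) (nat_lit 4) (nat_lit 400) (nat_lit 332) (nat_lit 168)) (XT.lf (nat_lit 0) (nat_lit 1479527924385) (nat_lit 76) (nat_lit 645874443309) (nat_lit 76) (nat_lit 481485614507) (nat_lit 3) (nat_lit 4) (nat_lit 4) (nat_lit 5) (nat_lit 4) (nat_lit 4) (nat_lit 401) (nat_lit 332) (nat_lit 167))) (XT.nd (nat_lit 78) (nat_lit 0) (nat_lit 0) (XT.lf (nat_lit 0) (nat_lit 1803885450549) (nat_lit 76) (nat_lit 583737613216) (nat_lit 76) (nat_lit 419348747208) (nat_lit 3) (nat_lit 4) (nat_lit 4) (nat_lit 5) (nat_lit 4) (nat_lit 4) (nat_lit 402) (nat_lit 332) (nat_lit 166)) (XT.nd (nat_lit 78) (nat_lit 0) (nat_lit 0) (XT.lf (nat_lit 0) (nat_lit 2154191489013) (nat_lit 76) (nat_lit 516629880592) (nat_lit 76) (nat_lit 352240980133)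 (nat_lit 3) (nat_lit 4) (nat_lit 4) (nat_lit 5) (nat_lit 4) (nat_lit 4) (nat_lit 403) (nat_lit 332) (nat_lit 165)) (XT.lf (nat_lit 0) (nat_lit 2532521927413) (nat_lit 76) (nat_lit 444153569983) (nat_lit 76) (nat_lit 279764637625) (nat_lit 3) (nat_lit 4) (nat_lit 4) (nat_lit 5) (nat_lit 4) (nat_lit 4) (nat_lit 404) (nat_lit 332) (nat_lit 164)))))) (XT.nd (nat_lit 312) (nat_lit 76) (nat_lit 0) (XT.nd (nat_lit 156) (nat_lit 76) (nat_lit 0) (XT.nd (nat_lit 78) (nat_lit 0) (nat_lit 0) (XT.lf (nat_lit 0) (nat_lit 2941118723903) (nat_lit 76) (nat_lit 365879192141) (nat_lit 76) (nat_lit 201490230248) (nat_lit 3) (nat_lit 4) (nat_lit 4) (nat_lit 5) (nat_lit 4) (nat_lit 4) (nat_lit 405) (nat_lit 332) (nat_lit 163)) (XT.lf (nat_lit 0) (nat_lit 3382403192831) (nat_lit 76) (nat_lit 281342898902) (nat_lit 76) (nat_lit 116953909661) (nat_lit 3) (nat_lit 4) (nat_lit 4) (nat_lit 5) (nat_lit 4) (nat_lit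 4) (nat_lit 406) (nat_lit 332) (nat_lit 162))) (XT.nd (nat_lit 78) (nat_lit 76) (nat_lit 0) (XT.lf (nat_lit 0) (nat_lit 3858990353273) (nat_lit 76) (nat_lit 190043734453) (nat_lit 76) (nat_lit 25654719890) (nat_lit 3) (nat_lit 4) (nat_lit 4) (nat_lit 5) (nat_lit 4) (nat_lit 4) (nat_lit 407) (nat_lit 332) (nat_lit 161)) (XT.lf (nat_lit 0) (nat_lit 69299198324) (nat_lit 152) (nat_lit 20246705495) (nat_lit 76) (nat_lit 4302510464224) (nat_lit 2) (nat_lit 5) (nat_lit 4) (nat_lit 5) (nat_lit 3) (nat_lit 4) (nat_lit 408) (nat_lit 332) (nat_lit 160)))) (XT.nd (nat_lit 41028) (nat_lit 0) (nat_lit 3648) (XT.nd (nat_lit 40950) (nat_lit 0) (nat_lit 3648) (XT.lf (nat_lit 0) (nat_lit 175877042846) (nat_lit 152) (nat_lit 4534784940717) (nat_lit 0) (nat_lit 23664950514) (nat_lit 1) (nat_lit 5) (nat_lit 3) (nat_lit 4) (nat_lit 1) (nat_lit 4) (nat_lit 409) (nat_lit 332) (nat_lit 159)) (XT.lf (nat_lit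 0) (nat_lit 17756527123) (nat_lit 532) (nat_lit 4056416874) (nat_lit 532) (nat_lit 4056416874) (nat_lit 49) (nat_lit 3) (nat_lit 56) (nat_lit 3) (nat_lit 56) (nat_lit 5) (nat_lit 333) (nat_lit 333) (nat_lit 234))) (XT.nd (nat_lit 78) (nat_lit 0) (nat_lit 76) (XT.lf (nat_lit 76) (nat_lit 16742070976) (nat_lit 0) (nat_lit 20616641801) (nat_lit 532) (nat_lit 16415490897) (nat_lit 50) (nat_lit 5) (nat_lit 49) (nat_lit 3) (nat_lit 56) (nat_lit 5) (nat_lit 334) (nat_lit 333) (nat_lit 233)) (XT.nd (nat_lit 78) (nat_lit 0) (nat_lit 0) (XT.lf (nat_lit 0) (nat_lit 39679160004) (nat_lit 456) (nat_lit 12017094086) (nat_lit 532) (nat_lit 4250104793) (nat_lit 50) (nat_lit 5) (nat_lit 56) (nat_lit 5) (nat_lit 57) (nat_lit 5) (nat_lit 335) (nat_lit 333) (nat_lit 232)) (XT.lf (nat_lit 76) (nat_lit 15223824423) (nat_lit 0) (nat_lit 27860959485) (nat_lit 532) (nat_lit 15135544519) (nat_lit 51) (nat_lit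 5) (nat_lit 50) (nat_lit 5) (nat_lit 57) (nat_lit 5) (nat_lit 336) (nat_lit 333) (nat_lit 231))))))))
noncomputable def xc188 : XT := (XT.nd (nat_lit 1326) (nat_lit 1064) (nat_lit 0) (XT.nd (nat_lit 624) (nat_lit 836) (nat_lit 0) (XT.nd (nat_lit 312) (nat_lit 608) (nat_lit 0) (XT.nd (nat_lit 156) (nat_lit 304) (nat_lit 0) (XT.nd (nat_lit 78) (nat_lit 0) (nat_lit 76) (XT.lf (nat_lit 76) (nat_lit 45326090869) (nat_lit 0) (nat_lit 1763368233) (nat_lit 532) (nat_lit 13560633130) (nat_lit 51) (nat_lit 5) (nat_lit 50) (nat_lit 5) (nat_lit 57) (nat_lit 5) (nat_lit 337) (nat_lit 333) (nat_lit 230)) (XT.lf (nat_lit 76) (nat_lit 14658727529) (nat_lit 0) (nat_lit 37741966229) (nat_lit 532) (nat_lit 10794652996) (nat_lit 52) (nat_lit 5) (nat_lit 51) (nat_lit 5) (nat_lit 58) (nat_lit 5) (nat_lit 338) (nat_lit 333) (nat_lit 229))) (XT.nd (nat_lit 78) (nat_lit 380) (nat_lit 0) (XT.lf (nat_lit 76) (nat_lit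 47861974001) (nat_lit 0) (nat_lit 10736773808) (nat_lit 532) (nat_lit 7308524300) (nat_lit 52) (nat_lit 5) (nat_lit 51) (nat_lit 5) (nat_lit 58) (nat_lit 5) (nat_lit 339) (nat_lit 333) (nat_lit 228)) (XT.lf (nat_lit 0) (nat_lit 15201124302) (nat_lit 456) (nat_lit 50898750020) (nat_lit 532) (nat_lit 2671702736) (nat_lit 46) (nat_lit 5) (nat_lit 52) (nat_lit 5) (nat_lit 53) (nat_lit 5) (nat_lit 340) (nat_lit 333) (nat_lit 227)))) (XT.nd (nat_lit 156) (nat_lit 228) (nat_lit 0) (XT.nd (nat_lit 78) (nat_lit 304) (nat_lit 0) (XT.lf (nat_lit 0) (nat_lit 3002756355) (nat_lit 532) (nat_lit 20041378026) (nat_lit 76) (nat_lit 48753716601) (nat_lit 45) (nat_lit 5) (nat_lit 52) (nat_lit 5) (nat_lit 46) (nat_lit 5) (nat_lit 341) (nat_lit 333) (nat_lit 226)) (XT.lf (nat_lit 0) (nat_lit 9574664082) (nat_lit 380) (nat_lit 58262825748) (nat_lit 76) (nat_lit 7176161771) (nat_lit 41) (nat_lit 5) (nat_lit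 46) (nat_lit 5) (nat_lit 42) (nat_lit 5) (nat_lit 342) (nat_lit 333) (nat_lit 225))) (XT.nd (nat_lit 78) (nat_lit 228) (nat_lit 0) (XT.lf (nat_lit 0) (nat_lit 17831728748) (nat_lit 380) (nat_lit 21430912906) (nat_lit 76) (nat_lit 39131325072) (nat_lit 41) (nat_lit 5) (nat_lit 46) (nat_lit 5) (nat_lit 42) (nat_lit 5) (nat_lit 343) (nat_lit 333) (nat_lit 224)) (XT.lf (nat_lit 0) (nat_lit 19312309663) (nat_lit 228) (nat_lit 7900265697) (nat_lit 304) (nat_lit 54795076956) (nat_lit 38) (nat_lit 5) (nat_lit 41) (nat_lit 5) (nat_lit 42) (nat_lit 5) (nat_lit 344) (nat_lit 333) (nat_lit 223))))) (XT.nd (nat_lit 312) (nat_lit 456) (nat_lit 0) (XT.nd (nat_lit 156) (nat_lit 152) (nat_lit 0) (XT.nd (nat_lit 78) (nat_lit 228) (nat_lit 0) (XT.lf (nat_lit 0) (nat_lit 38568488036) (nat_lit 304) (nat_lit 21970980561) (nat_lit 76) (nat_lit 25272998693) (nat_lit 38) (nat_lit 5) (nat_lit 42) (nat_lit 5) (nat_lit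 39) (nat_lit 5) (nat_lit 345) (nat_lit 333) (nat_lit 222)) (XT.lf (nat_lit 0) (nat_lit 22953051655) (nat_lit 228) (nat_lit 28635946973) (nat_lit 304) (nat_lit 38272181070) (nat_lit 35) (nat_lit 5) (nat_lit 38) (nat_lit 5) (nat_lit 39) (nat_lit 5) (nat_lit 346) (nat_lit 333) (nat_lit 221))) (XT.nd (nat_lit 78) (nat_lit 152) (nat_lit 0) (XT.lf (nat_lit 0) (nat_lit 66406394750) (nat_lit 304) (nat_lit 21622116659) (nat_lit 76) (nat_lit 6144860174) (nat_lit 35) (nat_lit 5) (nat_lit 39) (nat_lit 5) (nat_lit 36) (nat_lit 5) (nat_lit 347) (nat_lit 333) (nat_lit 220)) (XT.lf (nat_lit 0) (nat_lit 27939394782) (nat_lit 152) (nat_lit 55884547829) (nat_lit 228) (nat_lit 14893417314) (nat_lit 33) (nat_lit 5) (nat_lit 35) (nat_lit 5) (nat_lit 36) (nat_lit 5) (nat_lit 348) (nat_lit 333) (nat_lit 219)))) (XT.nd (nat_lit 156) (nat_lit 152) (nat_lit 0) (XT.nd (nat_lit 78) (nat_lit 304) (nat_lit 0) (XT.lf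 (nat_lit 0) (nat_lit 82694295552) (nat_lit 152) (nat_lit 20530855108) (nat_lit 228) (nat_lit 352497933) (nat_lit 33) (nat_lit 5) (nat_lit 35) (nat_lit 5) (nat_lit 36) (nat_lit 5) (nat_lit 349) (nat_lit 333) (nat_lit 218)) (XT.lf (nat_lit 0) (nat_lit 15864545180) (nat_lit 304) (nat_lit 74835929378) (nat_lit 76) (nat_lit 17994286289) (nat_lit 29) (nat_lit 5) (nat_lit 33) (nat_lit 5) (nat_lit 30) (nat_lit 5) (nat_lit 350) (nat_lit 333) (nat_lit 217))) (XT.nd (nat_lit 78) (nat_lit 152) (nat_lit 0) (XT.lf (nat_lit 0) (nat_lit 34478141373) (nat_lit 304) (nat_lit 20565965880) (nat_lit 76) (nat_lit 59086945073) (nat_lit 29) (nat_lit 5) (nat_lit 33) (nat_lit 5) (nat_lit 30) (nat_lit 5) (nat_lit 351) (nat_lit 333) (nat_lit 216)) (XT.nd (nat_lit 78) (nat_lit 0) (nat_lit 0) (XT.lf (nat_lit 0) (nat_lit 40047845734) (nat_lit 152) (nat_lit 15495340419) (nat_lit 228) (nat_lit 64382073399) (nat_lit 27)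 (nat_lit 5) (nat_lit 29) (nat_lit 5) (nat_lit 30) (nat_lit 5) (nat_lit 352) (nat_lit 333) (nat_lit 215)) (XT.lf (nat_lit 0) (nat_lit 79524161576) (nat_lit 228) (nat_lit 20127965055) (nat_lit 76) (nat_lit 26432419762) (nat_lit 27) (nat_lit 5) (nat_lit 30) (nat_lit 5) (nat_lit 28) (nat_lit 5) (nat_lit 353) (nat_lit 333) (nat_lit 214))))))) (XT.nd (nat_lit 624) (nat_lit 456) (nat_lit 0) (XT.nd (nat_lit 312) (nat_lit 304) (nat_lit 0) (XT.nd (nat_lit 156) (nat_lit 152) (nat_lit 0) (XT.nd (nat_lit 78) (nat_lit 0) (nat_lit 0) (XT.lf (nat_lit 0) (nat_lit 46314768655) (nat_lit 152) (nat_lit 60624485040) (nat_lit 228) (nat_lit 25676072507) (nat_lit 25) (nat_lit 5) (nat_lit 27) (nat_lit 5) (nat_lit 28) (nat_lit 5) (nat_lit 354) (nat_lit 333) (nat_lit 213)) (XT.lf (nat_lit 0) (nat_lit 119216595889) (nat_lit 152) (nat_lit 17880610497) (nat_lit 228) (nat_lit 2527390785) (nat_lit 25) (nat_lit 5) (nat_lit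 27) (nat_lit 5) (nat_lit 28) (nat_lit 5) (nat_lit 355) (nat_lit 333) (nat_lit 212))) (XT.nd (nat_lit 78) (nat_lit 0) (nat_lit 0) (XT.lf (nat_lit 0) (nat_lit 23346842421) (nat_lit 152) (nat_lit 94918269695) (nat_lit 76) (nat_lit 28726431599) (nat_lit 23) (nat_lit 5) (nat_lit 25) (nat_lit 5) (nat_lit 24) (nat_lit 5) (nat_lit 356) (nat_lit 333) (nat_lit 211)) (XT.lf (nat_lit 0) (nat_lit 52190754332) (nat_lit 152) (nat_lit 23935103119) (nat_lit 76) (nat_lit 78733834843) (nat_lit 23) (nat_lit 5) (nat_lit 25) (nat_lit 5) (nat_lit 24) (nat_lit 5) (nat_lit 357) (nat_lit 333) (nat_lit 210)))) (XT.nd (nat_lit 156) (nat_lit 152) (nat_lit 0) (XT.nd (nat_lit 78) (nat_lit 0) (nat_lit 0) (XT.lf (nat_lit 0) (nat_lit 55502239855) (nat_lit 152) (nat_lit 29174185436) (nat_lit 228) (nat_lit 78574128539) (nat_lit 21) (nat_lit 5) (nat_lit 23) (nat_lit 5) (nat_lit 24) (nat_lit 5) (nat_lit 358) (nat_lit 333)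 (nat_lit 209)) (XT.lf (nat_lit 0) (nat_lit 120949689663) (nat_lit 228) (nat_lit 30140369408) (nat_lit 76) (nat_lit 21127526741) (nat_lit 21) (nat_lit 5) (nat_lit 24) (nat_lit 5) (nat_lit 22) (nat_lit 4) (nat_lit 359) (nat_lit 333) (nat_lit 208))) (XT.nd (nat_lit 78) (nat_lit 76) (nat_lit 0) (XT.lf (nat_lit 0) (nat_lit 55704116733) (nat_lit 76) (nat_lit 106517626496) (nat_lit 152) (nat_lit 19512483529) (nat_lit 20) (nat_lit 5) (nat_lit 21) (nat_lit 5) (nat_lit 22) (nat_lit 4) (nat_lit 360) (nat_lit 333) (nat_lit 207)) (XT.lf (nat_lit 0) (nat_lit 14888811152) (nat_lit 152) (nat_lit 42193820182) (nat_lit 76) (nat_lit 134833527171) (nat_lit 19) (nat_lit 5) (nat_lit 21) (nat_lit 5) (nat_lit 20) (nat_lit 5) (nat_lit 361) (nat_lit 333) (nat_lit 206))))) (XT.nd (nat_lit 312) (nat_lit 228) (nat_lit 0) (XT.nd (nat_lit 156) (nat_lit 76) (nat_lit 0) (XT.nd (nat_lit 78) (nat_lit 0) (nat_lit 0) (XT.lf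 (nat_lit 0) (nat_lit 50361006810) (nat_lit 152) (nat_lit 1837720483) (nat_lit 228) (nat_lit 150576516689) (nat_lit 17) (nat_lit 5) (nat_lit 19) (nat_lit 5) (nat_lit 20) (nat_lit 5) (nat_lit 362) (nat_lit 333) (nat_lit 205)) (XT.lf (nat_lit 0) (nat_lit 95067315675) (nat_lit 228) (nat_lit 63112464117) (nat_lit 76) (nat_lit 56117366667) (nat_lit 17) (nat_lit 5) (nat_lit 20) (nat_lit 5) (nat_lit 18) (nat_lit 4) (nat_lit 363) (nat_lit 333) (nat_lit 204))) (XT.nd (nat_lit 78) (nat_lit 0) (nat_lit 0) (XT.lf (nat_lit 0) (nat_lit 35037685974) (nat_lit 76) (nat_lit 107217655127) (nat_lit 152) (nat_lit 84414264476) (nat_lit 16) (nat_lit 5) (nat_lit 17) (nat_lit 5) (nat_lit 18) (nat_lit 4) (nat_lit 364) (nat_lit 333) (nat_lit 203)) (XT.lf (nat_lit 0) (nat_lit 144628370275) (nat_lit 76) (nat_lit 50315219509) (nat_lit 152) (nat_lit 44950257553) (nat_lit 16) (nat_lit 5) (nat_lit 17) (nat_lit 5) (nat_lit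 18) (nat_lit 4) (nat_lit 365) (nat_lit 333) (nat_lit 202)))) (XT.nd (nat_lit 156) (nat_lit 76) (nat_lit 0) (XT.nd (nat_lit 78) (nat_lit 76) (nat_lit 0) (XT.lf (nat_lit 0) (nat_lit 8991457217) (nat_lit 76) (nat_lit 243339188131) (nat_lit 76) (nat_lit 1806683711) (nat_lit 15) (nat_lit 4) (nat_lit 16) (nat_lit 5) (nat_lit 16) (nat_lit 4) (nat_lit 366) (nat_lit 333) (nat_lit 201)) (XT.lf (nat_lit 0) (nat_lit 46526752881) (nat_lit 152) (nat_lit 144757551409) (nat_lit 76) (nat_lit 77831502607) (nat_lit 14) (nat_lit 5) (nat_lit 16) (nat_lit 5) (nat_lit 15) (nat_lit 4) (nat_lit 367) (nat_lit 333) (nat_lit 200))) (XT.nd (nat_lit 78) (nat_lit 76) (nat_lit 0) (XT.lf (nat_lit 0) (nat_lit 98628887828) (nat_lit 152) (nat_lit 36385752371) (nat_lit 76) (nat_lit 150274198414) (nat_lit 14) (nat_lit 5) (nat_lit 16) (nat_lit 5) (nat_lit 15) (nat_lit 4) (nat_lit 368) (nat_lit 333) (nat_lit 199)) (XT.nd (nat_lit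 78) (nat_lit 0) (nat_lit 0) (XT.lf (nat_lit 0) (nat_lit 84902338119) (nat_lit 76) (nat_lit 72038417311) (nat_lit 152) (nat_lit 145651632767) (nat_lit 13) (nat_lit 5) (nat_lit 14) (nat_lit 5) (nat_lit 15) (nat_lit 4) (nat_lit 369) (nat_lit 333) (nat_lit 198)) (XT.lf (nat_lit 0) (nat_lit 217962170023) (nat_lit 76) (nat_lit 2949922915) (nat_lit 152) (nat_lit 100288567426) (nat_lit 13) (nat_lit 5) (nat_lit 14) (nat_lit 5) (nat_lit 15) (nat_lit 4) (nat_lit 370) (nat_lit 333) (nat_lit 197))))))))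
noncomputable def xc189 : XT := (XT.nd (nat_lit 1326) (nat_lit 228) (nat_lit 0) (XT.nd (nat_lit 624) (nat_lit 228) (nat_lit 0) (XT.nd (nat_lit 312) (nat_lit 76) (nat_lit 0) (XT.nd (nat_lit 156) (nat_lit 76) (nat_lit 0) (XT.nd (nat_lit 78) (nat_lit 76) (nat_lit 0) (XT.lf (nat_lit 0) (nat_lit 19626879043) (nat_lit 76) (nat_lit 272569534064) (nat_lit 76) (nat_lit 48925559385) (nat_lit 12) (nat_lit 4) (nat_lit 13) (nat_lit 5) (nat_lit 13) (nat_lit 4) (nat_lit 371) (nat_lit 333) (nat_lit 196)) (XT.lf (nat_lit 0) (nat_lit 9191359320) (nat_lit 152) (nat_lit 204526383989) (nat_lit 76) (nat_lit 148668862874) (nat_lit 11) (nat_lit 5) (nat_lit 13) (nat_lit 5) (nat_lit 12) (nat_lit 4) (nat_lit 372) (nat_lit 333) (nat_lit 195))) (XT.nd (nat_lit 78) (nat_lit 76) (nat_lit 0) (XT.lf (nat_lit 0) (nat_lit 69314093289) (nat_lit 152) (nat_lit 79471501683) (nat_lit 76) (nat_lit 236465175264) (nat_lit 11)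 (nat_lit 5) (nat_lit 13) (nat_lit 5) (nat_lit 12) (nat_lit 4) (nat_lit 373) (nat_lit 333) (nat_lit 194)) (XT.lf (nat_lit 0) (nat_lit 58514407986) (nat_lit 76) (nat_lit 77139244950) (nat_lit 152) (nat_lit 274177854097) (nat_lit 10) (nat_lit 5) (nat_lit 11) (nat_lit 5) (nat_lit 12) (nat_lit 4) (nat_lit 374) (nat_lit 333) (nat_lit 193)))) (XT.nd (nat_lit 156) (nat_lit 76) (nat_lit 0) (XT.nd (nat_lit 78) (nat_lit 0) (nat_lit 0) (XT.lf (nat_lit 0) (nat_lit 209535188182) (nat_lit 152) (nat_lit 224208742435) (nat_lit 0) (nat_lit 2455987453) (nat_lit 10) (nat_lit 5) (nat_lit 12) (nat_lit 4) (nat_lit 10) (nat_lit 4) (nat_lit 375) (nat_lit 333) (nat_lit 192)) (XT.lf (nat_lit 0) (nat_lit 291330619414) (nat_lit 152) (nat_lit 88935791396) (nat_lit 0) (nat_lit 84251121477) (nat_lit 10) (nat_lit 5) (nat_lit 12) (nat_lit 4) (nat_lit 10) (nat_lit 4) (nat_lit 376) (nat_lit 333) (nat_lit 191))) (XT.nd (nat_lit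 78) (nat_lit 0) (nat_lit 0) (XT.lf (nat_lit 0) (nat_lit 60168441372) (nat_lit 76) (nat_lit 320948070694) (nat_lit 76) (nat_lit 113868297563) (nat_lit 9) (nat_lit 4) (nat_lit 10) (nat_lit 5) (nat_lit 10) (nat_lit 4) (nat_lit 377) (nat_lit 333) (nat_lit 190)) (XT.lf (nat_lit 0) (nat_lit 226258457271) (nat_lit 76) (nat_lit 254258262242) (nat_lit 76) (nat_lit 47178234302) (nat_lit 9) (nat_lit 4) (nat_lit 10) (nat_lit 5) (nat_lit 10) (nat_lit 4) (nat_lit 378) (nat_lit 333) (nat_lit 189))))) (XT.nd (nat_lit 312) (nat_lit 76) (nat_lit 0) (XT.nd (nat_lit 156) (nat_lit 76) (nat_lit 0) (XT.nd (nat_lit 78) (nat_lit 0) (nat_lit 0) (XT.lf (nat_lit 0) (nat_lit 23603876814) (nat_lit 152) (nat_lit 157984200099) (nat_lit 76) (nat_lit 381386043627) (nat_lit 8) (nat_lit 5) (nat_lit 10) (nat_lit 5) (nat_lit 9) (nat_lit 4) (nat_lit 379) (nat_lit 333) (nat_lit 188)) (XT.lf (nat_lit 0) (nat_lit 97499514230)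 (nat_lit 152) (nat_lit 4281492730) (nat_lit 76) (nat_lit 499196596452) (nat_lit 8) (nat_lit 5) (nat_lit 10) (nat_lit 5) (nat_lit 9) (nat_lit 4) (nat_lit 380) (nat_lit 333) (nat_lit 187))) (XT.nd (nat_lit 78) (nat_lit 0) (nat_lit 0) (XT.lf (nat_lit 0) (nat_lit 170232829675) (nat_lit 76) (nat_lit 11167898344) (nat_lit 152) (nat_lit 460293122961) (nat_lit 7) (nat_lit 5) (nat_lit 8) (nat_lit 5) (nat_lit 9) (nat_lit 4) (nat_lit 381) (nat_lit 333) (nat_lit 186)) (XT.lf (nat_lit 0) (nat_lit 274218965428) (nat_lit 152) (nat_lit 328794621517) (nat_lit 0) (nat_lit 82477417375) (nat_lit 7) (nat_lit 5) (nat_lit 9) (nat_lit 4) (nat_lit 7) (nat_lit 4) (nat_lit 382) (nat_lit 333) (nat_lit 185)))) (XT.nd (nat_lit 156) (nat_lit 76) (nat_lit 0) (XT.nd (nat_lit 78) (nat_lit 0) (nat_lit 0) (XT.lf (nat_lit 0) (nat_lit 374752573492) (nat_lit 152) (nat_lit 175005298717) (nat_lit 0) (nat_lit 183010864866) (nat_lit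 7) (nat_lit 5) (nat_lit 9) (nat_lit 4) (nat_lit 7) (nat_lit 4) (nat_lit 383) (nat_lit 333) (nat_lit 184)) (XT.lf (nat_lit 0) (nat_lit 483328718701) (nat_lit 152) (nat_lit 8913120547) (nat_lit 0) (nat_lit 291586861397) (nat_lit 7) (nat_lit 5) (nat_lit 9) (nat_lit 4) (nat_lit 7) (nat_lit 4) (nat_lit 384) (nat_lit 333) (nat_lit 183))) (XT.nd (nat_lit 78) (nat_lit 0) (nat_lit 0) (XT.lf (nat_lit 0) (nat_lit 179442608985) (nat_lit 76) (nat_lit 425463805327) (nat_lit 76) (nat_lit 233721810357) (nat_lit 6) (nat_lit 4) (nat_lit 7) (nat_lit 5) (nat_lit 7) (nat_lit 4) (nat_lit 385) (nat_lit 333) (nat_lit 182)) (XT.nd (nat_lit 78) (nat_lit 0) (nat_lit 0) (XT.lf (nat_lit 0) (nat_lit 383373431813) (nat_lit 76) (nat_lit 353080458078) (nat_lit 76) (nat_lit 161338335641) (nat_lit 6) (nat_lit 4) (nat_lit 7) (nat_lit 5) (nat_lit 7) (nat_lit 4) (nat_lit 386) (nat_lit 333) (nat_lit 181)) (XT.lf (nat_lit 0)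 (nat_lit 603618477755) (nat_lit 76) (nat_lit 274906559661) (nat_lit 76) (nat_lit 83164319198) (nat_lit 6) (nat_lit 4) (nat_lit 7) (nat_lit 5) (nat_lit 7) (nat_lit 4) (nat_lit 387) (nat_lit 333) (nat_lit 180))))))) (XT.nd (nat_lit 702) (nat_lit 76) (nat_lit 0) (XT.nd (nat_lit 312) (nat_lit 0) (nat_lit 0) (XT.nd (nat_lit 156) (nat_lit 76) (nat_lit 0) (XT.nd (nat_lit 78) (nat_lit 0) (nat_lit 0) (XT.lf (nat_lit 0) (nat_lit 1200287395) (nat_lit 152) (nat_lit 189245751963) (nat_lit 76) (nat_lit 840249797258) (nat_lit 5) (nat_lit 5) (nat_lit 7) (nat_lit 5) (nat_lit 6) (nat_lit 4) (nat_lit 388) (nat_lit 333) (nat_lit 179)) (XT.lf (nat_lit 0) (nat_lit 87820918198) (nat_lit 152) (nat_lit 9074941080) (nat_lit 76) (nat_lit 1008154175689) (nat_lit 5) (nat_lit 5) (nat_lit 7) (nat_lit 5) (nat_lit 6) (nat_lit 4) (nat_lit 389) (nat_lit 333) (nat_lit 178))) (XT.nd (nat_lit 78) (nat_lit 0) (nat_lit 0) (XT.lf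 (nat_lit 0) (nat_lit 186289045810) (nat_lit 152) (nat_lit 989920443078) (nat_lit 0) (nat_lit 8749652637) (nat_lit 4) (nat_lit 5) (nat_lit 6) (nat_lit 4) (nat_lit 4) (nat_lit 4) (nat_lit 390) (nat_lit 333) (nat_lit 177)) (XT.lf (nat_lit 0) (nat_lit 295405866945) (nat_lit 152) (nat_lit 857767016792) (nat_lit 0) (nat_lit 117866393445) (nat_lit 4) (nat_lit 5) (nat_lit 6) (nat_lit 4) (nat_lit 4) (nat_lit 4) (nat_lit 391) (nat_lit 333) (nat_lit 176)))) (XT.nd (nat_lit 156) (nat_lit 0) (nat_lit 0) (XT.nd (nat_lit 78) (nat_lit 0) (nat_lit 0) (XT.lf (nat_lit 0) (nat_lit 413251939300) (nat_lit 152) (nat_lit 715041500561) (nat_lit 0) (nat_lit 235712391425) (nat_lit 4) (nat_lit 5) (nat_lit 6) (nat_lit 4) (nat_lit 4) (nat_lit 4) (nat_lit 392) (nat_lit 333) (nat_lit 175)) (XT.lf (nat_lit 0) (nat_lit 540525609973) (nat_lit 152) (nat_lit 560898113549) (nat_lit 0) (nat_lit 362985993231) (nat_lit 4) (nat_lit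 5) (nat_lit 6) (nat_lit 4) (nat_lit 4) (nat_lit 4) (nat_lit 393) (nat_lit 333) (nat_lit 174))) (XT.nd (nat_lit 78) (nat_lit 0) (nat_lit 0) (XT.lf (nat_lit 0) (nat_lit 677981093307) (nat_lit 152) (nat_lit 394423413461) (nat_lit 0) (nat_lit 500441412799) (nat_lit 4) (nat_lit 5) (nat_lit 6) (nat_lit 4) (nat_lit 4) (nat_lit 4) (nat_lit 394) (nat_lit 333) (nat_lit 173)) (XT.nd (nat_lit 78) (nat_lit 0) (nat_lit 0) (XT.lf (nat_lit 0) (nat_lit 826432940314) (nat_lit 152) (nat_lit 214630883558) (nat_lit 0) (nat_lit 648893200764) (nat_lit 4) (nat_lit 5) (nat_lit 6) (nat_lit 4) (nat_lit 4) (nat_lit 4) (nat_lit 395) (nat_lit 333) (nat_lit 172)) (XT.lf (nat_lit 0) (nat_lit 986760865645) (nat_lit 152) (nat_lit 20455086624) (nat_lit 0) (nat_lit 809221071426) (nat_lit 4) (nat_lit 5) (nat_lit 6) (nat_lit 4) (nat_lit 4) (nat_lit 4) (nat_lit 396) (nat_lit 333) (nat_lit 171)))))) (XT.nd (nat_lit 312) (nat_lit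 0) (nat_lit 0) (XT.nd (nat_lit 156) (nat_lit 0) (nat_lit 0) (XT.nd (nat_lit 78) (nat_lit 0) (nat_lit 0) (XT.lf (nat_lit 0) (nat_lit 199220463143) (nat_lit 76) (nat_lit 965485754493) (nat_lit 76) (nat_lit 787945909655) (nat_lit 3) (nat_lit 4) (nat_lit 4) (nat_lit 5) (nat_lit 4) (nat_lit 4) (nat_lit 397) (nat_lit 333) (nat_lit 170)) (XT.lf (nat_lit 0) (nat_lit 437633233632) (nat_lit 76) (nat_lit 919813180003) (nat_lit 76) (nat_lit 742273288296) (nat_lit 3) (nat_lit 4) (nat_lit 4) (nat_lit 5) (nat_lit 4) (nat_lit 4) (nat_lit 398) (nat_lit 333) (nat_lit 169))) (XT.nd (nat_lit 78) (nat_lit 0) (nat_lit 0) (XT.lf (nat_lit 0) (nat_lit 695118912647) (nat_lit 76) (nat_lit 870486854826) (nat_lit 76) (nat_lit 692946919720) (nat_lit 3) (nat_lit 4) (nat_lit 4) (nat_lit 5) (nat_lit 4) (nat_lit 4) (nat_lit 399) (nat_lit 333) (nat_lit 168)) (XT.lf (nat_lit 0) (nat_lit 973203341249) (nat_lit 76) (nat_lit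 817214474810) (nat_lit 76) (nat_lit 639674499521) (nat_lit 3) (nat_lit 4) (nat_lit 4) (nat_lit 5) (nat_lit 4) (nat_lit 4) (nat_lit 400) (nat_lit 333) (nat_lit 167)))) (XT.nd (nat_lit 156) (nat_lit 0) (nat_lit 0) (XT.nd (nat_lit 78) (nat_lit 0) (nat_lit 0) (XT.lf (nat_lit 0) (nat_lit 1273534427162) (nat_lit 76) (nat_lit 759680351778) (nat_lit 76) (nat_lit 582140339283) (nat_lit 3) (nat_lit 4) (nat_lit 4) (nat_lit 5) (nat_lit 4) (nat_lit 4) (nat_lit 401) (nat_lit 333) (nat_lit 166)) (XT.lf (nat_lit 0) (nat_lit 1597891910157) (nat_lit 76) (nat_lit 697543542780) (nat_lit 76) (nat_lit 520003495834) (nat_lit 3) (nat_lit 4) (nat_lit 4) (nat_lit 5) (nat_lit 4) (nat_lit 4) (nat_lit 402) (nat_lit 333) (nat_lit 165))) (XT.nd (nat_lit 78) (nat_lit 0) (nat_lit 0) (XT.lf (nat_lit 0) (nat_lit 1948197908649) (nat_lit 76) (nat_lit 630435829687) (nat_lit 76) (nat_lit 452895750842) (nat_lit 3) (nat_lit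 4) (nat_lit 4) (nat_lit 5) (nat_lit 4) (nat_lit 4) (nat_lit 403) (nat_lit 333) (nat_lit 164)) (XT.nd (nat_lit 78) (nat_lit 0) (nat_lit 0) (XT.lf (nat_lit 0) (nat_lit 2326528310038) (nat_lit 76) (nat_lit 557959537163) (nat_lit 76) (nat_lit 380419428782) (nat_lit 3) (nat_lit 4) (nat_lit 4) (nat_lit 5) (nat_lit 4) (nat_lit 4) (nat_lit 404) (nat_lit 333) (nat_lit 163)) (XT.lf (nat_lit 0) (nat_lit 2735125072258) (nat_lit 76) (nat_lit 479685176066) (nat_lit 76) (nat_lit 302145040338) (nat_lit 3) (nat_lit 4) (nat_lit 4) (nat_lit 5) (nat_lit 4) (nat_lit 4) (nat_lit 405) (nat_lit 333) (nat_lit 162))))))))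
noncomputable def xc190 : XT := (XT.nd (nat_lit 42276) (nat_lit 0) (nat_lit 1140) (XT.nd (nat_lit 41574) (nat_lit 0) (nat_lit 2736) (XT.nd (nat_lit 41262) (nat_lit 0) (nat_lit 3572) (XT.nd (nat_lit 156) (nat_lit 76) (nat_lit 0) (XT.nd (nat_lit 78) (nat_lit 0) (nat_lit 0) (XT.lf (nat_lit 0) (nat_lit 3176409509455) (nat_lit 76) (nat_lit 395148898332) (nat_lit 76) (nat_lit 217608737281) (nat_lit 3) (nat_lit 4) (nat_lit 4) (nat_lit 5) (nat_lit 4) (nat_lit 4) (nat_lit 406) (nat_lit 333) (nat_lit 161)) (XT.lf (nat_lit 0) (nat_lit 3652996640517) (nat_lit 76) (nat_lit 303849748239) (nat_lit 76) (nat_lit 126309563742) (nat_lit 3) (nat_lit 4) (nat_lit 4) (nat_lit 5) (nat_lit 4) (nat_lit 4) (nat_lit 407) (nat_lit 333) (nat_lit 160))) (XT.nd (nat_lit 78) (nat_lit 76) (nat_lit 0) (XT.lf (nat_lit 0) (nat_lit 4167710685479) (nat_lit 76) (nat_lit 205246693789) (nat_lit 76) (nat_lit 27706487582) (nat_lit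 3) (nat_lit 4) (nat_lit 4) (nat_lit 5) (nat_lit 4) (nat_lit 4) (nat_lit 408) (nat_lit 333) (nat_lit 159)) (XT.lf (nat_lit 0) (nat_lit 74843670662) (nat_lit 152) (nat_lit 21865391330) (nat_lit 76) (nat_lit 4646711772392) (nat_lit 2) (nat_lit 5) (nat_lit 4) (nat_lit 5) (nat_lit 3) (nat_lit 4) (nat_lit 409) (nat_lit 333) (nat_lit 158)))) (XT.nd (nat_lit 156) (nat_lit 0) (nat_lit 76) (XT.nd (nat_lit 78) (nat_lit 0) (nat_lit 0) (XT.lf (nat_lit 0) (nat_lit 19198997579) (nat_lit 532) (nat_lit 4369050808) (nat_lit 532) (nat_lit 4369050808) (nat_lit 49) (nat_lit 3) (nat_lit 56) (nat_lit 3) (nat_lit 56) (nat_lit 5) (nat_lit 334) (nat_lit 334) (nat_lit 232)) (XT.lf (nat_lit 76) (nat_lit 18104593996) (nat_lit 0) (nat_lit 22284017711) (nat_lit 532) (nat_lit 17684130842) (nat_lit 50) (nat_lit 5) (nat_lit 49) (nat_lit 3) (nat_lit 56) (nat_lit 5) (nat_lit 335) (nat_lit 334) (nat_lit 231))) (XT.nd (nat_lit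 78) (nat_lit 0) (nat_lit 0) (XT.lf (nat_lit 0) (nat_lit 42891240894) (nat_lit 456) (nat_lit 12953472046) (nat_lit 532) (nat_lit 4574241043) (nat_lit 50) (nat_lit 5) (nat_lit 56) (nat_lit 5) (nat_lit 57) (nat_lit 5) (nat_lit 336) (nat_lit 334) (nat_lit 230)) (XT.lf (nat_lit 76) (nat_lit 16466087296) (nat_lit 0) (nat_lit 30101017044) (nat_lit 532) (nat_lit 16307920526) (nat_lit 51) (nat_lit 5) (nat_lit 50) (nat_lit 5) (nat_lit 57) (nat_lit 5) (nat_lit 337) (nat_lit 334) (nat_lit 229))))) (XT.nd (nat_lit 312) (nat_lit 608) (nat_lit 0) (XT.nd (nat_lit 156) (nat_lit 304) (nat_lit 0) (XT.nd (nat_lit 78) (nat_lit 0) (nat_lit 76) (XT.lf (nat_lit 76) (nat_lit 48974730842) (nat_lit 0) (nat_lit 1914790284) (nat_lit 532) (nat_lit 14609865674) (nat_lit 51) (nat_lit 5) (nat_lit 50) (nat_lit 5) (nat_lit 57) (nat_lit 5) (nat_lit 338) (nat_lit 334) (nat_lit 228)) (XT.lf (nat_lit 76) (nat_lit 15856294289)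 (nat_lit 0) (nat_lit 40767290389) (nat_lit 532) (nat_lit 11624848551) (nat_lit 52) (nat_lit 5) (nat_lit 51) (nat_lit 5) (nat_lit 58) (nat_lit 5) (nat_lit 339) (nat_lit 334) (nat_lit 227))) (XT.nd (nat_lit 78) (nat_lit 380) (nat_lit 0) (XT.lf (nat_lit 76) (nat_lit 51713958363) (nat_lit 0) (nat_lit 11601240584) (nat_lit 532) (nat_lit 7862301907) (nat_lit 52) (nat_lit 5) (nat_lit 51) (nat_lit 5) (nat_lit 58) (nat_lit 5) (nat_lit 340) (nat_lit 334) (nat_lit 226)) (XT.lf (nat_lit 0) (nat_lit 16442080704) (nat_lit 456) (nat_lit 54972694973) (nat_lit 532) (nat_lit 2856310819) (nat_lit 46) (nat_lit 5) (nat_lit 52) (nat_lit 5) (nat_lit 53) (nat_lit 5) (nat_lit 341) (nat_lit 334) (nat_lit 225)))) (XT.nd (nat_lit 156) (nat_lit 228) (nat_lit 0) (XT.nd (nat_lit 78) (nat_lit 304) (nat_lit 0) (XT.lf (nat_lit 0) (nat_lit 3268598187) (nat_lit 532) (nat_lit 21620259887) (nat_lit 76) (nat_lit 52650716572)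 (nat_lit 45) (nat_lit 5) (nat_lit 52) (nat_lit 5) (nat_lit 46) (nat_lit 5) (nat_lit 342) (nat_lit 334) (nat_lit 224)) (XT.lf (nat_lit 0) (nat_lit 10364921594) (nat_lit 380) (nat_lit 62898035831) (nat_lit 76) (nat_lit 7749792895) (nat_lit 41) (nat_lit 5) (nat_lit 46) (nat_lit 5) (nat_lit 42) (nat_lit 5) (nat_lit 343) (nat_lit 334) (nat_lit 223))) (XT.nd (nat_lit 78) (nat_lit 228) (nat_lit 0) (XT.lf (nat_lit 0) (nat_lit 19280752590) (nat_lit 380) (nat_lit 23121482257) (nat_lit 76) (nat_lit 42261403469) (nat_lit 41) (nat_lit 5) (nat_lit 46) (nat_lit 5) (nat_lit 42) (nat_lit 5) (nat_lit 344) (nat_lit 334) (nat_lit 222)) (XT.nd (nat_lit 78) (nat_lit 0) (nat_lit 0) (XT.lf (nat_lit 0) (nat_lit 20880592962) (nat_lit 228) (nat_lit 8530368703) (nat_lit 304) (nat_lit 59155548984) (nat_lit 38) (nat_lit 5) (nat_lit 41) (nat_lit 5) (nat_lit 42) (nat_lit 5) (nat_lit 345) (nat_lit 334) (nat_lit 221))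 (XT.lf (nat_lit 0) (nat_lit 41673806348) (nat_lit 304) (nat_lit 23705505077) (nat_lit 76) (nat_lit 27296525895) (nat_lit 38) (nat_lit 5) (nat_lit 42) (nat_lit 5) (nat_lit 39) (nat_lit 5) (nat_lit 346) (nat_lit 334) (nat_lit 220))))))) (XT.nd (nat_lit 624) (nat_lit 760) (nat_lit 0) (XT.nd (nat_lit 312) (nat_lit 456) (nat_lit 0) (XT.nd (nat_lit 156) (nat_lit 152) (nat_lit 0) (XT.nd (nat_lit 78) (nat_lit 0) (nat_lit 0) (XT.lf (nat_lit 0) (nat_lit 24811863542) (nat_lit 228) (nat_lit 30923167425) (nat_lit 304) (nat_lit 41313492877) (nat_lit 35) (nat_lit 5) (nat_lit 38) (nat_lit 5) (nat_lit 39) (nat_lit 5) (nat_lit 347) (nat_lit 334) (nat_lit 219)) (XT.lf (nat_lit 0) (nat_lit 71736499255) (nat_lit 304) (nat_lit 23329635923) (nat_lit 76) (nat_lit 6639664223) (nat_lit 35) (nat_lit 5) (nat_lit 39) (nat_lit 5) (nat_lit 36) (nat_lit 5) (nat_lit 348) (nat_lit 334) (nat_lit 218))) (XT.nd (nat_lit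 78) (nat_lit 0) (nat_lit 0) (XT.lf (nat_lit 0) (nat_lit 30196233141) (nat_lit 152) (nat_lit 60350436191) (nat_lit 228) (nat_lit 16066702559) (nat_lit 33) (nat_lit 5) (nat_lit 35) (nat_lit 5) (nat_lit 36) (nat_lit 5) (nat_lit 349) (nat_lit 334) (nat_lit 217)) (XT.lf (nat_lit 0) (nat_lit 89329919544) (nat_lit 152) (nat_lit 22168809198) (nat_lit 228) (nat_lit 363856897) (nat_lit 33) (nat_lit 5) (nat_lit 35) (nat_lit 5) (nat_lit 36) (nat_lit 5) (nat_lit 350) (nat_lit 334) (nat_lit 216)))) (XT.nd (nat_lit 156) (nat_lit 152) (nat_lit 0) (XT.nd (nat_lit 78) (nat_lit 0) (nat_lit 0) (XT.lf (nat_lit 0) (nat_lit 17149136268) (nat_lit 304) (nat_lit 80801257273) (nat_lit 76) (nat_lit 19438688634) (nat_lit 29) (nat_lit 5) (nat_lit 33) (nat_lit 5) (nat_lit 30) (nat_lit 5) (nat_lit 351) (nat_lit 334) (nat_lit 215)) (XT.lf (nat_lit 0) (nat_lit 37250677381) (nat_lit 304) (nat_lit 22191292729) (nat_lit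 76) (nat_lit 63818400162) (nat_lit 29) (nat_lit 5) (nat_lit 33) (nat_lit 5) (nat_lit 30) (nat_lit 5) (nat_lit 352) (nat_lit 334) (nat_lit 214))) (XT.nd (nat_lit 78) (nat_lit 0) (nat_lit 0) (XT.lf (nat_lit 0) (nat_lit 43271118740) (nat_lit 152) (nat_lit 16729216538) (nat_lit 228) (nat_lit 69517827773) (nat_lit 27) (nat_lit 5) (nat_lit 29) (nat_lit 5) (nat_lit 30) (nat_lit 5) (nat_lit 353) (nat_lit 334) (nat_lit 213)) (XT.lf (nat_lit 0) (nat_lit 85898902417) (nat_lit 228) (nat_lit 21719290872) (nat_lit 76) (nat_lit 28552072065) (nat_lit 27) (nat_lit 5) (nat_lit 30) (nat_lit 5) (nat_lit 28) (nat_lit 5) (nat_lit 354) (nat_lit 334) (nat_lit 212))))) (XT.nd (nat_lit 312) (nat_lit 456) (nat_lit 0) (XT.nd (nat_lit 156) (nat_lit 152) (nat_lit 0) (XT.nd (nat_lit 78) (nat_lit 0) (nat_lit 0) (XT.lf (nat_lit 0) (nat_lit 50038382765) (nat_lit 152) (nat_lit 65468313711) (nat_lit 228) (nat_lit 27716852997)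 (nat_lit 25) (nat_lit 5) (nat_lit 27) (nat_lit 5) (nat_lit 28) (nat_lit 5) (nat_lit 355) (nat_lit 334) (nat_lit 211)) (XT.lf (nat_lit 0) (nat_lit 128770990799) (nat_lit 152) (nat_lit 19305383288) (nat_lit 228) (nat_lit 2717262316) (nat_lit 25) (nat_lit 5) (nat_lit 27) (nat_lit 5) (nat_lit 28) (nat_lit 5) (nat_lit 356) (nat_lit 334) (nat_lit 210))) (XT.nd (nat_lit 78) (nat_lit 0) (nat_lit 0) (XT.lf (nat_lit 0) (nat_lit 25225985537) (nat_lit 152) (nat_lit 102493709267) (nat_lit 76) (nat_lit 31030245962) (nat_lit 23) (nat_lit 5) (nat_lit 25) (nat_lit 5) (nat_lit 24) (nat_lit 5) (nat_lit 357) (nat_lit 334) (nat_lit 209)) (XT.lf (nat_lit 0) (nat_lit 56376566274) (nat_lit 152) (nat_lit 25833224329) (nat_lit 76) (nat_lit 85037819256) (nat_lit 23) (nat_lit 5) (nat_lit 25) (nat_lit 5) (nat_lit 24) (nat_lit 5) (nat_lit 358) (nat_lit 334) (nat_lit 208)))) (XT.nd (nat_lit 156) (nat_lit 304) (nat_lit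 0) (XT.nd (nat_lit 78) (nat_lit 0) (nat_lit 0) (XT.lf (nat_lit 0) (nat_lit 59958683626) (nat_lit 152) (nat_lit 31502016847) (nat_lit 228) (nat_lit 84849072093) (nat_lit 21) (nat_lit 5) (nat_lit 23) (nat_lit 5) (nat_lit 24) (nat_lit 5) (nat_lit 359) (nat_lit 334) (nat_lit 207)) (XT.lf (nat_lit 0) (nat_lit 130635209231) (nat_lit 228) (nat_lit 32535910659) (nat_lit 76) (nat_lit 22823097496) (nat_lit 21) (nat_lit 5) (nat_lit 24) (nat_lit 5) (nat_lit 22) (nat_lit 4) (nat_lit 360) (nat_lit 334) (nat_lit 206))) (XT.nd (nat_lit 78) (nat_lit 228) (nat_lit 0) (XT.lf (nat_lit 0) (nat_lit 60175737201) (nat_lit 76) (nat_lit 115032950642) (nat_lit 152) (nat_lit 21063529775) (nat_lit 20) (nat_lit 5) (nat_lit 21) (nat_lit 5) (nat_lit 22) (nat_lit 4) (nat_lit 361) (nat_lit 334) (nat_lit 205)) (XT.nd (nat_lit 78) (nat_lit 152) (nat_lit 0) (XT.lf (nat_lit 0) (nat_lit 16088670280) (nat_lit 152) (nat_lit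 45554697043) (nat_lit 76) (nat_lit 145625374206) (nat_lit 19) (nat_lit 5) (nat_lit 21) (nat_lit 5) (nat_lit 20) (nat_lit 5) (nat_lit 362) (nat_lit 334) (nat_lit 204)) (XT.lf (nat_lit 0) (nat_lit 54404145760) (nat_lit 152) (nat_lit 1978928406) (nat_lit 228) (nat_lit 162613504812) (nat_lit 17) (nat_lit 5) (nat_lit 19) (nat_lit 5) (nat_lit 20) (nat_lit 5) (nat_lit 363) (nat_lit 334) (nat_lit 203))))))))
noncomputable def xc191 : XT := (XT.nd (nat_lit 1326) (nat_lit 380) (nat_lit 0) (XT.nd (nat_lit 624) (nat_lit 380) (nat_lit 0) (XT.nd (nat_lit 312) (nat_lit 152) (nat_lit 0) (XT.nd (nat_lit 156) (nat_lit 76) (nat_lit 0) (XT.nd (nat_lit 78) (nat_lit 76) (nat_lit 0) (XT.lf (nat_lit 0) (nat_lit 102680653163) (nat_lit 228) (nat_lit 68147754576) (nat_lit 76) (nat_lit 60611866270) (nat_lit 17) (nat_lit 5) (nat_lit 20) (nat_lit 5) (nat_lit 18) (nat_lit 4) (nat_lit 364) (nat_lit 334) (nat_lit 202))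 (XT.lf (nat_lit 0) (nat_lit 37854060519) (nat_lit 76) (nat_lit 115789392351) (nat_lit 152) (nat_lit 91159098999) (nat_lit 16) (nat_lit 5) (nat_lit 17) (nat_lit 5) (nat_lit 18) (nat_lit 4) (nat_lit 365) (nat_lit 334) (nat_lit 201))) (XT.nd (nat_lit 78) (nat_lit 76) (nat_lit 0) (XT.lf (nat_lit 0) (nat_lit 156211009959) (nat_lit 76) (nat_lit 54335182268) (nat_lit 152) (nat_lit 48538586829) (nat_lit 16) (nat_lit 5) (nat_lit 17) (nat_lit 5) (nat_lit 18) (nat_lit 4) (nat_lit 366) (nat_lit 334) (nat_lit 200)) (XT.lf (nat_lit 0) (nat_lit 9723268997) (nat_lit 76) (nat_lit 262800833709) (nat_lit 76) (nat_lit 1943645878) (nat_lit 15) (nat_lit 4) (nat_lit 16) (nat_lit 5) (nat_lit 16) (nat_lit 4) (nat_lit 367) (nat_lit 334) (nat_lit 199)))) (XT.nd (nat_lit 156) (nat_lit 76) (nat_lit 0) (XT.nd (nat_lit 78) (nat_lit 0) (nat_lit 0) (XT.lf (nat_lit 0) (nat_lit 50255553965) (nat_lit 152) (nat_lit 156326229704)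 (nat_lit 76) (nat_lit 84062749475) (nat_lit 14) (nat_lit 5) (nat_lit 16) (nat_lit 5) (nat_lit 15) (nat_lit 4) (nat_lit 368) (nat_lit 334) (nat_lit 198)) (XT.lf (nat_lit 0) (nat_lit 106525366311) (nat_lit 152) (nat_lit 39285570137) (nat_lit 76) (nat_lit 162300510823) (nat_lit 14) (nat_lit 5) (nat_lit 16) (nat_lit 5) (nat_lit 15) (nat_lit 4) (nat_lit 369) (nat_lit 334) (nat_lit 197))) (XT.nd (nat_lit 78) (nat_lit 0) (nat_lit 0) (XT.lf (nat_lit 0) (nat_lit 91705288037) (nat_lit 76) (nat_lit 77796697283) (nat_lit 152) (nat_lit 157297311715) (nat_lit 13) (nat_lit 5) (nat_lit 14) (nat_lit 5) (nat_lit 15) (nat_lit 4) (nat_lit 370) (nat_lit 334) (nat_lit 196)) (XT.lf (nat_lit 0) (nat_lit 235409109244) (nat_lit 76) (nat_lit 3181478402) (nat_lit 152) (nat_lit 108305679049) (nat_lit 13) (nat_lit 5) (nat_lit 14) (nat_lit 5) (nat_lit 15) (nat_lit 4) (nat_lit 371) (nat_lit 334) (nat_lit 195))))) (XT.nd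 (nat_lit 312) (nat_lit 152) (nat_lit 0) (XT.nd (nat_lit 156) (nat_lit 76) (nat_lit 0) (XT.nd (nat_lit 78) (nat_lit 76) (nat_lit 0) (XT.lf (nat_lit 0) (nat_lit 21207073845) (nat_lit 76) (nat_lit 294370510561) (nat_lit 76) (nat_lit 52833705229) (nat_lit 12) (nat_lit 4) (nat_lit 13) (nat_lit 5) (nat_lit 13) (nat_lit 4) (nat_lit 372) (nat_lit 334) (nat_lit 194)) (XT.lf (nat_lit 0) (nat_lit 9931856788) (nat_lit 152) (nat_lit 220878917609) (nat_lit 76) (nat_lit 160566341756) (nat_lit 11) (nat_lit 5) (nat_lit 13) (nat_lit 5) (nat_lit 12) (nat_lit 4) (nat_lit 373) (nat_lit 334) (nat_lit 193))) (XT.nd (nat_lit 78) (nat_lit 76) (nat_lit 0) (XT.lf (nat_lit 0) (nat_lit 74864025124) (nat_lit 152) (nat_lit 85820354134) (nat_lit 76) (nat_lit 255386065075) (nat_lit 11) (nat_lit 5) (nat_lit 13) (nat_lit 5) (nat_lit 12) (nat_lit 4) (nat_lit 374) (nat_lit 334) (nat_lit 192)) (XT.lf (nat_lit 0) (nat_lit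 63204203811) (nat_lit 76) (nat_lit 83306397722) (nat_lit 152) (nat_lit 296107050616) (nat_lit 10) (nat_lit 5) (nat_lit 11) (nat_lit 5) (nat_lit 12) (nat_lit 4) (nat_lit 375) (nat_lit 334) (nat_lit 191)))) (XT.nd (nat_lit 156) (nat_lit 152) (nat_lit 0) (XT.nd (nat_lit 78) (nat_lit 0) (nat_lit 0) (XT.lf (nat_lit 0) (nat_lit 226302403464) (nat_lit 152) (nat_lit 242137180025) (nat_lit 0) (nat_lit 2655973289) (nat_lit 10) (nat_lit 5) (nat_lit 12) (nat_lit 4) (nat_lit 10) (nat_lit 4) (nat_lit 376) (nat_lit 334) (nat_lit 190)) (XT.lf (nat_lit 0) (nat_lit 314641143252) (nat_lit 152) (nat_lit 96043004889) (nat_lit 0) (nat_lit 90994458269) (nat_lit 10) (nat_lit 5) (nat_lit 12) (nat_lit 4) (nat_lit 10) (nat_lit 4) (nat_lit 377) (nat_lit 334) (nat_lit 189))) (XT.nd (nat_lit 78) (nat_lit 76) (nat_lit 0) (XT.lf (nat_lit 0) (nat_lit 64989372834) (nat_lit 76) (nat_lit 346620412002) (nat_lit 76) (nat_lit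 122973491085) (nat_lit 9) (nat_lit 4) (nat_lit 10) (nat_lit 5) (nat_lit 10) (nat_lit 4) (nat_lit 378) (nat_lit 334) (nat_lit 188)) (XT.nd (nat_lit 78) (nat_lit 76) (nat_lit 0) (XT.lf (nat_lit 0) (nat_lit 244366037697) (nat_lit 76) (nat_lit 274595678456) (nat_lit 76) (nat_lit 50948539081) (nat_lit 9) (nat_lit 4) (nat_lit 10) (nat_lit 5) (nat_lit 10) (nat_lit 4) (nat_lit 379) (nat_lit 334) (nat_lit 187)) (XT.lf (nat_lit 0) (nat_lit 25495664896) (nat_lit 152) (nat_lit 170616358665) (nat_lit 76) (nat_lit 411899746536) (nat_lit 8) (nat_lit 5) (nat_lit 10) (nat_lit 5) (nat_lit 9) (nat_lit 4) (nat_lit 380) (nat_lit 334) (nat_lit 186))))))) (XT.nd (nat_lit 702) (nat_lit 152) (nat_lit 0) (XT.nd (nat_lit 312) (nat_lit 152) (nat_lit 0) (XT.nd (nat_lit 156) (nat_lit 0) (nat_lit 0) (XT.nd (nat_lit 78) (nat_lit 76) (nat_lit 0) (XT.lf (nat_lit 0) (nat_lit 105302695680) (nat_lit 152) (nat_lit 4617921925)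 (nat_lit 76) (nat_lit 539134934742) (nat_lit 8) (nat_lit 5) (nat_lit 10) (nat_lit 5) (nat_lit 9) (nat_lit 4) (nat_lit 381) (nat_lit 334) (nat_lit 185)) (XT.lf (nat_lit 0) (nat_lit 183857392091) (nat_lit 76) (nat_lit 12058518702) (nat_lit 152) (nat_lit 497113196716) (nat_lit 7) (nat_lit 5) (nat_lit 8) (nat_lit 5) (nat_lit 9) (nat_lit 4) (nat_lit 382) (nat_lit 334) (nat_lit 184))) (XT.nd (nat_lit 78) (nat_lit 0) (nat_lit 0) (XT.lf (nat_lit 0) (nat_lit 296159438356) (nat_lit 152) (nat_lit 355092524595) (nat_lit 0) (nat_lit 89078083789) (nat_lit 7) (nat_lit 5) (nat_lit 9) (nat_lit 4) (nat_lit 7) (nat_lit 4) (nat_lit 383) (nat_lit 334) (nat_lit 183)) (XT.lf (nat_lit 0) (nat_lit 404735516124) (nat_lit 152) (nat_lit 189000475723) (nat_lit 0) (nat_lit 197654023892) (nat_lit 7) (nat_lit 5) (nat_lit 9) (nat_lit 4) (nat_lit 7) (nat_lit 4) (nat_lit 384) (nat_lit 334) (nat_lit 182)))) (XT.nd (nat_lit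 156) (nat_lit 76) (nat_lit 0) (XT.nd (nat_lit 78) (nat_lit 76) (nat_lit 0) (XT.lf (nat_lit 0) (nat_lit 521997550228) (nat_lit 152) (nat_lit 9621311958) (nat_lit 0) (nat_lit 314915930528) (nat_lit 7) (nat_lit 5) (nat_lit 9) (nat_lit 4) (nat_lit 7) (nat_lit 4) (nat_lit 385) (nat_lit 334) (nat_lit 181)) (XT.lf (nat_lit 0) (nat_lit 193802752943) (nat_lit 76) (nat_lit 459498634721) (nat_lit 76) (nat_lit 252416896995) (nat_lit 6) (nat_lit 4) (nat_lit 7) (nat_lit 5) (nat_lit 7) (nat_lit 4) (nat_lit 386) (nat_lit 334) (nat_lit 180))) (XT.nd (nat_lit 78) (nat_lit 76) (nat_lit 0) (XT.lf (nat_lit 0) (nat_lit 414047690839) (nat_lit 76) (nat_lit 381324788213) (nat_lit 76) (nat_lit 174242941204) (nat_lit 6) (nat_lit 4) (nat_lit 7) (nat_lit 5) (nat_lit 7) (nat_lit 4) (nat_lit 387) (nat_lit 334) (nat_lit 179)) (XT.nd (nat_lit 78) (nat_lit 76) (nat_lit 0) (XT.lf (nat_lit 0) (nat_lit 651912015680) (nat_lit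 76) (nat_lit 296897133960) (nat_lit 76) (nat_lit 89815185763) (nat_lit 6) (nat_lit 4) (nat_lit 7) (nat_lit 5) (nat_lit 7) (nat_lit 4) (nat_lit 388) (nat_lit 334) (nat_lit 178)) (XT.lf (nat_lit 0) (nat_lit 1298314986) (nat_lit 152) (nat_lit 204381546718) (nat_lit 76) (nat_lit 907471480616) (nat_lit 5) (nat_lit 5) (nat_lit 7) (nat_lit 5) (nat_lit 6) (nat_lit 4) (nat_lit 389) (nat_lit 334) (nat_lit 177)))))) (XT.nd (nat_lit 312) (nat_lit 76) (nat_lit 0) (XT.nd (nat_lit 156) (nat_lit 0) (nat_lit 0) (XT.nd (nat_lit 78) (nat_lit 76) (nat_lit 0) (XT.lf (nat_lit 0) (nat_lit 94848447764) (nat_lit 152) (nat_lit 9797357291) (nat_lit 76) (nat_lit 1088808083428) (nat_lit 5) (nat_lit 5) (nat_lit 7) (nat_lit 5) (nat_lit 6) (nat_lit 4) (nat_lit 390) (nat_lit 334) (nat_lit 176)) (XT.lf (nat_lit 0) (nat_lit 201194012540) (nat_lit 152) (nat_lit 1069110485668) (nat_lit 0) (nat_lit 9451226458) (nat_lit 4)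 (nat_lit 5) (nat_lit 6) (nat_lit 4) (nat_lit 4) (nat_lit 4) (nat_lit 391) (nat_lit 334) (nat_lit 175))) (XT.nd (nat_lit 78) (nat_lit 0) (nat_lit 0) (XT.lf (nat_lit 0) (nat_lit 319040042842) (nat_lit 152) (nat_lit 926385051417) (nat_lit 0) (nat_lit 127297187893) (nat_lit 4) (nat_lit 5) (nat_lit 6) (nat_lit 4) (nat_lit 4) (nat_lit 4) (nat_lit 392) (nat_lit 334) (nat_lit 174)) (XT.lf (nat_lit 0) (nat_lit 446313674576) (nat_lit 152) (nat_lit 772241740311) (nat_lit 0) (nat_lit 254570755862) (nat_lit 4) (nat_lit 5) (nat_lit 6) (nat_lit 4) (nat_lit 4) (nat_lit 4) (nat_lit 393) (nat_lit 334) (nat_lit 173)))) (XT.nd (nat_lit 156) (nat_lit 76) (nat_lit 0) (XT.nd (nat_lit 78) (nat_lit 0) (nat_lit 0) (XT.lf (nat_lit 0) (nat_lit 583769121855) (nat_lit 152) (nat_lit 605767110508) (nat_lit 0) (nat_lit 392026144099) (nat_lit 4) (nat_lit 5) (nat_lit 6) (nat_lit 4) (nat_lit 4) (nat_lit 4) (nat_lit 394)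 (nat_lit 334) (nat_lit 172)) (XT.lf (nat_lit 0) (nat_lit 732220935479) (nat_lit 152) (nat_lit 425974645682) (nat_lit 0) (nat_lit 540477903054) (nat_lit 4) (nat_lit 5) (nat_lit 6) (nat_lit 4) (nat_lit 4) (nat_lit 4) (nat_lit 395) (nat_lit 334) (nat_lit 171))) (XT.nd (nat_lit 78) (nat_lit 76) (nat_lit 0) (XT.lf (nat_lit 0) (nat_lit 892548829899) (nat_lit 152) (nat_lit 231798909005) (nat_lit 0) (nat_lit 700805746854) (nat_lit 4) (nat_lit 5) (nat_lit 6) (nat_lit 4) (nat_lit 4) (nat_lit 4) (nat_lit 396) (nat_lit 334) (nat_lit 170)) (XT.nd (nat_lit 78) (nat_lit 76) (nat_lit 0) (XT.lf (nat_lit 0) (nat_lit 1065702896340) (nat_lit 152) (nat_lit 22089229445) (nat_lit 0) (nat_lit 873959766426) (nat_lit 4) (nat_lit 5) (nat_lit 6) (nat_lit 4) (nat_lit 4) (nat_lit 4) (nat_lit 397) (nat_lit 334) (nat_lit 169)) (XT.lf (nat_lit 0) (nat_lit 215160306984) (nat_lit 76) (nat_lit 1042723536547) (nat_lit 76)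 (nat_lit 850980363235) (nat_lit 3) (nat_lit 4) (nat_lit 4) (nat_lit 5) (nat_lit 4) (nat_lit 4) (nat_lit 398) (nat_lit 334) (nat_lit 168))))))))
noncomputable def xc192 : XT := (XT.nd (nat_lit 42432) (nat_lit 0) (nat_lit 1520) (XT.nd (nat_lit 624) (nat_lit 0) (nat_lit 0) (XT.nd (nat_lit 312) (nat_lit 0) (nat_lit 0) (XT.nd (nat_lit 156) (nat_lit 0) (nat_lit 0) (XT.nd (nat_lit 78) (nat_lit 0) (nat_lit 0) (XT.lf (nat_lit 0) (nat_lit 472645935646) (nat_lit 76) (nat_lit 993397235973) (nat_lit 76) (nat_lit 801654022478) (nat_lit 3) (nat_lit 4) (nat_lit 4) (nat_lit 5) (nat_lit 4) (nat_lit 4) (nat_lit 399) (nat_lit 334) (nat_lit 167)) (XT.lf (nat_lit 0) (nat_lit 750730317625) (nat_lit 76) (nat_lit 940124878739) (nat_lit 76) (nat_lit 748381628037) (nat_lit 3) (nat_lit 4) (nat_lit 4) (nat_lit 5) (nat_lit 4) (nat_lit 4) (nat_lit 400) (nat_lit 334) (nat_lit 166))) (XT.nd (nat_lit 78) (nat_lit 0) (nat_lit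 0) (XT.lf (nat_lit 0) (nat_lit 1051061360369) (nat_lit 76) (nat_lit 882590776801) (nat_lit 76) (nat_lit 690847491649) (nat_lit 3) (nat_lit 4) (nat_lit 4) (nat_lit 5) (nat_lit 4) (nat_lit 4) (nat_lit 401) (nat_lit 334) (nat_lit 165)) (XT.lf (nat_lit 0) (nat_lit 1375418803391) (nat_lit 76) (nat_lit 820453987334) (nat_lit 76) (nat_lit 628710670283) (nat_lit 3) (nat_lit 4) (nat_lit 4) (nat_lit 5) (nat_lit 4) (nat_lit 4) (nat_lit 402) (nat_lit 334) (nat_lit 164)))) (XT.nd (nat_lit 156) (nat_lit 0) (nat_lit 0) (XT.nd (nat_lit 78) (nat_lit 0) (nat_lit 0) (XT.lf (nat_lit 0) (nat_lit 1725724764873) (nat_lit 76) (nat_lit 753346292326) (nat_lit 76) (nat_lit 561602945739) (nat_lit 3) (nat_lit 4) (nat_lit 4) (nat_lit 5) (nat_lit 4) (nat_lit 4) (nat_lit 403) (nat_lit 334) (nat_lit 163)) (XT.lf (nat_lit 0) (nat_lit 2104055131993) (nat_lit 76) (nat_lit 680870016547) (nat_lit 76) (nat_lit 489126642612)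 (nat_lit 3) (nat_lit 4) (nat_lit 4) (nat_lit 5) (nat_lit 4) (nat_lit 4) (nat_lit 404) (nat_lit 334) (nat_lit 162))) (XT.nd (nat_lit 78) (nat_lit 0) (nat_lit 0) (XT.lf (nat_lit 0) (nat_lit 2512651862482) (nat_lit 76) (nat_lit 602595670955) (nat_lit 76) (nat_lit 410852271698) (nat_lit 3) (nat_lit 4) (nat_lit 4) (nat_lit 5) (nat_lit 4) (nat_lit 4) (nat_lit 405) (nat_lit 334) (nat_lit 161)) (XT.lf (nat_lit 0) (nat_lit 2953936270298) (nat_lit 76) (nat_lit 518059407577) (nat_lit 76) (nat_lit 326315984873) (nat_lit 3) (nat_lit 4) (nat_lit 4) (nat_lit 5) (nat_lit 4) (nat_lit 4) (nat_lit 406) (nat_lit 334) (nat_lit 160))))) (XT.nd (nat_lit 41418) (nat_lit 0) (nat_lit 3572) (XT.nd (nat_lit 41262) (nat_lit 0) (nat_lit 3496) (XT.nd (nat_lit 78) (nat_lit 0) (nat_lit 0) (XT.lf (nat_lit 0) (nat_lit 3430523374156) (nat_lit 76) (nat_lit 426760270777) (nat_lit 76) (nat_lit 235016826364) (nat_lit 3) (nat_lit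 4) (nat_lit 4) (nat_lit 5) (nat_lit 4) (nat_lit 4) (nat_lit 407) (nat_lit 334) (nat_lit 159)) (XT.lf (nat_lit 0) (nat_lit 3945237393929) (nat_lit 76) (nat_lit 328157228635) (nat_lit 76) (nat_lit 136413764120) (nat_lit 3) (nat_lit 4) (nat_lit 4) (nat_lit 5) (nat_lit 4) (nat_lit 4) (nat_lit 408) (nat_lit 334) (nat_lit 158))) (XT.nd (nat_lit 78) (nat_lit 0) (nat_lit 0) (XT.lf (nat_lit 0) (nat_lit 20753734503) (nat_lit 532) (nat_lit 4708390188) (nat_lit 532) (nat_lit 4708390188) (nat_lit 49) (nat_lit 3) (nat_lit 56) (nat_lit 3) (nat_lit 56) (nat_lit 5) (nat_lit 335) (nat_lit 335) (nat_lit 230)) (XT.lf (nat_lit 76) (nat_lit 19572815205) (nat_lit 0) (nat_lit 24082209435) (nat_lit 532) (nat_lit 19060624576) (nat_lit 50) (nat_lit 5) (nat_lit 49) (nat_lit 3) (nat_lit 56) (nat_lit 5) (nat_lit 336) (nat_lit 335) (nat_lit 229)))) (XT.nd (nat_lit 156) (nat_lit 0) (nat_lit 0) (XT.nd (nat_lit 78) (nat_lit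 0) (nat_lit 0) (XT.lf (nat_lit 0) (nat_lit 46354903067) (nat_lit 456) (nat_lit 13968325285) (nat_lit 532) (nat_lit 4926572530) (nat_lit 50) (nat_lit 5) (nat_lit 56) (nat_lit 5) (nat_lit 57) (nat_lit 5) (nat_lit 337) (nat_lit 335) (nat_lit 228)) (XT.lf (nat_lit 76) (nat_lit 17804256413) (nat_lit 0) (nat_lit 32518684141) (nat_lit 532) (nat_lit 17579574440) (nat_lit 51) (nat_lit 5) (nat_lit 50) (nat_lit 5) (nat_lit 57) (nat_lit 5) (nat_lit 338) (nat_lit 335) (nat_lit 227))) (XT.nd (nat_lit 78) (nat_lit 0) (nat_lit 76) (XT.lf (nat_lit 76) (nat_lit 52912044617) (nat_lit 0) (nat_lit 2076849186) (nat_lit 532) (nat_lit 15748118143) (nat_lit 51) (nat_lit 5) (nat_lit 50) (nat_lit 5) (nat_lit 57) (nat_lit 5) (nat_lit 339) (nat_lit 335) (nat_lit 226)) (XT.nd (nat_lit 78) (nat_lit 0) (nat_lit 0) (XT.lf (nat_lit 76) (nat_lit 17146118612) (nat_lit 0) (nat_lit 44033789241) (nat_lit 532) (nat_lit 12526221308)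 (nat_lit 52) (nat_lit 5) (nat_lit 51) (nat_lit 5) (nat_lit 58) (nat_lit 5) (nat_lit 340) (nat_lit 335) (nat_lit 225)) (XT.lf (nat_lit 76) (nat_lit 55870816495) (nat_lit 0) (nat_lit 12534076518) (nat_lit 532) (nat_lit 8464790572) (nat_lit 52) (nat_lit 5) (nat_lit 51) (nat_lit 5) (nat_lit 58) (nat_lit 5) (nat_lit 341) (nat_lit 335) (nat_lit 224))))))) (XT.nd (nat_lit 624) (nat_lit 912) (nat_lit 0) (XT.nd (nat_lit 312) (nat_lit 456) (nat_lit 0) (XT.nd (nat_lit 156) (nat_lit 304) (nat_lit 0) (XT.nd (nat_lit 78) (nat_lit 76) (nat_lit 0) (XT.lf (nat_lit 0) (nat_lit 17778766139) (nat_lit 456) (nat_lit 59372263788) (nat_lit 532) (nat_lit 3059843003) (nat_lit 46) (nat_lit 5) (nat_lit 52) (nat_lit 5) (nat_lit 53) (nat_lit 5) (nat_lit 342) (nat_lit 335) (nat_lit 223)) (XT.lf (nat_lit 0) (nat_lit 3552052196) (nat_lit 532) (nat_lit 23328937279) (nat_lit 76) (nat_lit 56859946945) (nat_lit 45) (nat_lit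 5) (nat_lit 52) (nat_lit 5) (nat_lit 46) (nat_lit 5) (nat_lit 343) (nat_lit 335) (nat_lit 222))) (XT.nd (nat_lit 78) (nat_lit 0) (nat_lit 0) (XT.lf (nat_lit 0) (nat_lit 11214935267) (nat_lit 380) (nat_lit 67907745659) (nat_lit 76) (nat_lit 8369380393) (nat_lit 41) (nat_lit 5) (nat_lit 46) (nat_lit 5) (nat_lit 42) (nat_lit 5) (nat_lit 344) (nat_lit 335) (nat_lit 221)) (XT.lf (nat_lit 0) (nat_lit 20842490525) (nat_lit 380) (nat_lit 24950707283) (nat_lit 76) (nat_lit 45641949141) (nat_lit 41) (nat_lit 5) (nat_lit 46) (nat_lit 5) (nat_lit 42) (nat_lit 5) (nat_lit 345) (nat_lit 335) (nat_lit 220)))) (XT.nd (nat_lit 156) (nat_lit 228) (nat_lit 0) (XT.nd (nat_lit 78) (nat_lit 0) (nat_lit 0) (XT.lf (nat_lit 0) (nat_lit 22571015129) (nat_lit 228) (nat_lit 9211153610) (nat_lit 304) (nat_lit 63868159116) (nat_lit 38) (nat_lit 5) (nat_lit 41) (nat_lit 5) (nat_lit 42) (nat_lit 5) (nat_lit 346) (nat_lit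 335) (nat_lit 219)) (XT.lf (nat_lit 0) (nat_lit 45024719831) (nat_lit 304) (nat_lit 25582094720) (nat_lit 76) (nat_lit 29481694559) (nat_lit 38) (nat_lit 5) (nat_lit 42) (nat_lit 5) (nat_lit 39) (nat_lit 5) (nat_lit 347) (nat_lit 335) (nat_lit 218))) (XT.nd (nat_lit 78) (nat_lit 0) (nat_lit 0) (XT.lf (nat_lit 0) (nat_lit 26816160837) (nat_lit 228) (nat_lit 33393886983) (nat_lit 304) (nat_lit 44601028858) (nat_lit 35) (nat_lit 5) (nat_lit 38) (nat_lit 5) (nat_lit 39) (nat_lit 5) (nat_lit 348) (nat_lit 335) (nat_lit 217)) (XT.lf (nat_lit 0) (nat_lit 77490502292) (nat_lit 304) (nat_lit 25176930948) (nat_lit 76) (nat_lit 7173593905) (nat_lit 35) (nat_lit 5) (nat_lit 39) (nat_lit 5) (nat_lit 36) (nat_lit 5) (nat_lit 349) (nat_lit 335) (nat_lit 216))))) (XT.nd (nat_lit 312) (nat_lit 456) (nat_lit 0) (XT.nd (nat_lit 156) (nat_lit 304) (nat_lit 0) (XT.nd (nat_lit 78) (nat_lit 0) (nat_lit 0) (XT.lf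 (nat_lit 0) (nat_lit 32630524708) (nat_lit 152) (nat_lit 65174291162) (nat_lit 228) (nat_lit 17336445365) (nat_lit 33) (nat_lit 5) (nat_lit 35) (nat_lit 5) (nat_lit 36) (nat_lit 5) (nat_lit 350) (nat_lit 335) (nat_lit 215)) (XT.lf (nat_lit 0) (nat_lit 96493528770) (nat_lit 152) (nat_lit 23938443633) (nat_lit 228) (nat_lit 378527117) (nat_lit 33) (nat_lit 5) (nat_lit 35) (nat_lit 5) (nat_lit 36) (nat_lit 5) (nat_lit 351) (nat_lit 335) (nat_lit 214))) (XT.nd (nat_lit 78) (nat_lit 0) (nat_lit 0) (XT.lf (nat_lit 0) (nat_lit 18534293742) (nat_lit 304) (nat_lit 87246885242) (nat_lit 76) (nat_lit 20997949913) (nat_lit 29) (nat_lit 5) (nat_lit 33) (nat_lit 5) (nat_lit 30) (nat_lit 5) (nat_lit 352) (nat_lit 335) (nat_lit 213)) (XT.lf (nat_lit 0) (nat_lit 40242978398) (nat_lit 304) (nat_lit 23949491876) (nat_lit 76) (nat_lit 68927729757) (nat_lit 29) (nat_lit 5) (nat_lit 33) (nat_lit 5) (nat_lit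 30) (nat_lit 5) (nat_lit 353) (nat_lit 335) (nat_lit 212)))) (XT.nd (nat_lit 156) (nat_lit 304) (nat_lit 0) (XT.nd (nat_lit 78) (nat_lit 0) (nat_lit 0) (XT.lf (nat_lit 0) (nat_lit 46749479490) (nat_lit 152) (nat_lit 18062623208) (nat_lit 228) (nat_lit 75066555522) (nat_lit 27) (nat_lit 5) (nat_lit 29) (nat_lit 5) (nat_lit 30) (nat_lit 5) (nat_lit 354) (nat_lit 335) (nat_lit 211)) (XT.lf (nat_lit 0) (nat_lit 92781795333) (nat_lit 228) (nat_lit 23440620676) (nat_lit 76) (nat_lit 30840574870) (nat_lit 27) (nat_lit 5) (nat_lit 30) (nat_lit 5) (nat_lit 28) (nat_lit 5) (nat_lit 355) (nat_lit 335) (nat_lit 210))) (XT.nd (nat_lit 78) (nat_lit 152) (nat_lit 0) (XT.lf (nat_lit 0) (nat_lit 54057256385) (nat_lit 152) (nat_lit 70700523207) (nat_lit 228) (nat_lit 29922794078) (nat_lit 25) (nat_lit 5) (nat_lit 27) (nat_lit 5) (nat_lit 28) (nat_lit 5) (nat_lit 356) (nat_lit 335) (nat_lit 209)) (XT.nd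 (nat_lit 78) (nat_lit 152) (nat_lit 0) (XT.lf (nat_lit 0) (nat_lit 139087302469) (nat_lit 152) (nat_lit 20844947654) (nat_lit 228) (nat_lit 2924081117) (nat_lit 25) (nat_lit 5) (nat_lit 27) (nat_lit 5) (nat_lit 28) (nat_lit 5) (nat_lit 357) (nat_lit 335) (nat_lit 208)) (XT.lf (nat_lit 0) (nat_lit 27253834376) (nat_lit 152) (nat_lit 110677755045) (nat_lit 76) (nat_lit 33517552330) (nat_lit 23) (nat_lit 5) (nat_lit 25) (nat_lit 5) (nat_lit 24) (nat_lit 5) (nat_lit 358) (nat_lit 335) (nat_lit 207))))))))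
noncomputable def xc193 : XT := (XT.nd (nat_lit 1326) (nat_lit 532) (nat_lit 0) (XT.nd (nat_lit 624) (nat_lit 380) (nat_lit 0) (XT.nd (nat_lit 312) (nat_lit 304) (nat_lit 0) (XT.nd (nat_lit 156) (nat_lit 76) (nat_lit 0) (XT.nd (nat_lit 78) (nat_lit 152) (nat_lit 0) (XT.lf (nat_lit 0) (nat_lit 60895737868) (nat_lit 152) (nat_lit 27885575828) (nat_lit 76) (nat_lit 91845369510) (nat_lit 23) (nat_lit 5) (nat_lit 25) (nat_lit 5) (nat_lit 24) (nat_lit 5) (nat_lit 359) (nat_lit 335) (nat_lit 206)) (XT.lf (nat_lit 0) (nat_lit 64769322575) (nat_lit 152) (nat_lit 34016945492) (nat_lit 228) (nat_lit 91627578511) (nat_lit 21) (nat_lit 5) (nat_lit 23) (nat_lit 5) (nat_lit 24) (nat_lit 5) (nat_lit 360) (nat_lit 335) (nat_lit 205))) (XT.nd (nat_lit 78) (nat_lit 76) (nat_lit 0) (XT.lf (nat_lit 0) (nat_lit 141094208750) (nat_lit 228) (nat_lit 35125333322) (nat_lit 76) (nat_lit 24653548020) (nat_lit 21)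 (nat_lit 5) (nat_lit 24) (nat_lit 5) (nat_lit 22) (nat_lit 4) (nat_lit 361) (nat_lit 335) (nat_lit 204)) (XT.lf (nat_lit 0) (nat_lit 65002905856) (nat_lit 76) (nat_lit 124230368952) (nat_lit 152) (nat_lit 22740079548) (nat_lit 20) (nat_lit 5) (nat_lit 21) (nat_lit 5) (nat_lit 22) (nat_lit 4) (nat_lit 362) (nat_lit 335) (nat_lit 203)))) (XT.nd (nat_lit 156) (nat_lit 76) (nat_lit 0) (XT.nd (nat_lit 78) (nat_lit 152) (nat_lit 0) (XT.lf (nat_lit 0) (nat_lit 17383269249) (nat_lit 152) (nat_lit 49186531008) (nat_lit 76) (nat_lit 157279832178) (nat_lit 19) (nat_lit 5) (nat_lit 21) (nat_lit 5) (nat_lit 20) (nat_lit 5) (nat_lit 363) (nat_lit 335) (nat_lit 202)) (XT.lf (nat_lit 0) (nat_lit 58768701705) (nat_lit 152) (nat_lit 2132261783) (nat_lit 228) (nat_lit 175614754940) (nat_lit 17) (nat_lit 5) (nat_lit 19) (nat_lit 5) (nat_lit 20) (nat_lit 5) (nat_lit 364) (nat_lit 335) (nat_lit 201))) (XT.nd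 (nat_lit 78) (nat_lit 76) (nat_lit 0) (XT.lf (nat_lit 0) (nat_lit 110901923175) (nat_lit 228) (nat_lit 73587823681) (nat_lit 76) (nat_lit 65465196803) (nat_lit 17) (nat_lit 5) (nat_lit 20) (nat_lit 5) (nat_lit 18) (nat_lit 4) (nat_lit 365) (nat_lit 335) (nat_lit 200)) (XT.lf (nat_lit 0) (nat_lit 40893839121) (nat_lit 76) (nat_lit 125047678182) (nat_lit 152) (nat_lit 98444705318) (nat_lit 16) (nat_lit 5) (nat_lit 17) (nat_lit 5) (nat_lit 18) (nat_lit 4) (nat_lit 366) (nat_lit 335) (nat_lit 199))))) (XT.nd (nat_lit 312) (nat_lit 228) (nat_lit 0) (XT.nd (nat_lit 156) (nat_lit 76) (nat_lit 0) (XT.nd (nat_lit 78) (nat_lit 76) (nat_lit 0) (XT.lf (nat_lit 0) (nat_lit 168718496089) (nat_lit 76) (nat_lit 58677491703) (nat_lit 152) (nat_lit 52415079700) (nat_lit 16) (nat_lit 5) (nat_lit 17) (nat_lit 5) (nat_lit 18) (nat_lit 4) (nat_lit 367) (nat_lit 335) (nat_lit 198)) (XT.lf (nat_lit 0) (nat_lit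 10511843138) (nat_lit 76) (nat_lit 283820194068) (nat_lit 76) (nat_lit 2092645325) (nat_lit 15) (nat_lit 4) (nat_lit 16) (nat_lit 5) (nat_lit 16) (nat_lit 4) (nat_lit 368) (nat_lit 335) (nat_lit 197))) (XT.nd (nat_lit 78) (nat_lit 0) (nat_lit 0) (XT.lf (nat_lit 0) (nat_lit 54281708890) (nat_lit 152) (nat_lit 168822103614) (nat_lit 76) (nat_lit 90791821781) (nat_lit 14) (nat_lit 5) (nat_lit 16) (nat_lit 5) (nat_lit 15) (nat_lit 4) (nat_lit 369) (nat_lit 335) (nat_lit 196)) (XT.lf (nat_lit 0) (nat_lit 115052683216) (nat_lit 152) (nat_lit 42418948650) (nat_lit 76) (nat_lit 175288303864) (nat_lit 14) (nat_lit 5) (nat_lit 16) (nat_lit 5) (nat_lit 15) (nat_lit 4) (nat_lit 370) (nat_lit 335) (nat_lit 195)))) (XT.nd (nat_lit 156) (nat_lit 152) (nat_lit 0) (XT.nd (nat_lit 78) (nat_lit 0) (nat_lit 0) (XT.lf (nat_lit 0) (nat_lit 99050938505) (nat_lit 76) (nat_lit 84016323486) (nat_lit 152) (nat_lit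 169875565383) (nat_lit 13) (nat_lit 5) (nat_lit 14) (nat_lit 5) (nat_lit 15) (nat_lit 4) (nat_lit 371) (nat_lit 335) (nat_lit 194)) (XT.lf (nat_lit 0) (nat_lit 254250381896) (nat_lit 76) (nat_lit 3432191508) (nat_lit 152) (nat_lit 116965011828) (nat_lit 13) (nat_lit 5) (nat_lit 14) (nat_lit 5) (nat_lit 15) (nat_lit 4) (nat_lit 372) (nat_lit 335) (nat_lit 193))) (XT.nd (nat_lit 78) (nat_lit 76) (nat_lit 0) (XT.lf (nat_lit 0) (nat_lit 22912251275) (nat_lit 76) (nat_lit 317916219455) (nat_lit 76) (nat_lit 57055344285) (nat_lit 12) (nat_lit 4) (nat_lit 13) (nat_lit 5) (nat_lit 13) (nat_lit 4) (nat_lit 373) (nat_lit 335) (nat_lit 192)) (XT.nd (nat_lit 78) (nat_lit 0) (nat_lit 0) (XT.lf (nat_lit 0) (nat_lit 10730853824) (nat_lit 152) (nat_lit 238541020199) (nat_lit 76) (nat_lit 173415052605) (nat_lit 11) (nat_lit 5) (nat_lit 13) (nat_lit 5) (nat_lit 12) (nat_lit 4) (nat_lit 374) (nat_lit 335)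 (nat_lit 191)) (XT.lf (nat_lit 0) (nat_lit 80857266109) (nat_lit 152) (nat_lit 92678379855) (nat_lit 76) (nat_lit 275820101677) (nat_lit 11) (nat_lit 5) (nat_lit 13) (nat_lit 5) (nat_lit 12) (nat_lit 4) (nat_lit 375) (nat_lit 335) (nat_lit 190))))))) (XT.nd (nat_lit 624) (nat_lit 228) (nat_lit 0) (XT.nd (nat_lit 312) (nat_lit 152) (nat_lit 0) (XT.nd (nat_lit 156) (nat_lit 76) (nat_lit 0) (XT.nd (nat_lit 78) (nat_lit 0) (nat_lit 0) (XT.lf (nat_lit 0) (nat_lit 68267950254) (nat_lit 76) (nat_lit 89967491481) (nat_lit 152) (nat_lit 319791300701) (nat_lit 10) (nat_lit 5) (nat_lit 11) (nat_lit 5) (nat_lit 12) (nat_lit 4) (nat_lit 376) (nat_lit 335) (nat_lit 189)) (XT.lf (nat_lit 0) (nat_lit 244410368226) (nat_lit 152) (nat_lit 261501071261) (nat_lit 0) (nat_lit 2871457702) (nat_lit 10) (nat_lit 5) (nat_lit 12) (nat_lit 4) (nat_lit 10) (nat_lit 4) (nat_lit 377) (nat_lit 335) (nat_lit 188)))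 (XT.nd (nat_lit 78) (nat_lit 76) (nat_lit 0) (XT.lf (nat_lit 0) (nat_lit 339815927754) (nat_lit 152) (nat_lit 103719886794) (nat_lit 0) (nat_lit 98276798773) (nat_lit 10) (nat_lit 5) (nat_lit 12) (nat_lit 4) (nat_lit 10) (nat_lit 4) (nat_lit 378) (nat_lit 335) (nat_lit 187)) (XT.lf (nat_lit 0) (nat_lit 70194915110) (nat_lit 76) (nat_lit 374347040550) (nat_lit 76) (nat_lit 132807709293) (nat_lit 9) (nat_lit 4) (nat_lit 10) (nat_lit 5) (nat_lit 10) (nat_lit 4) (nat_lit 379) (nat_lit 335) (nat_lit 186)))) (XT.nd (nat_lit 156) (nat_lit 76) (nat_lit 0) (XT.nd (nat_lit 78) (nat_lit 76) (nat_lit 0) (XT.lf (nat_lit 0) (nat_lit 263921239647) (nat_lit 76) (nat_lit 296560550869) (nat_lit 76) (nat_lit 55021032320) (nat_lit 9) (nat_lit 4) (nat_lit 10) (nat_lit 5) (nat_lit 10) (nat_lit 4) (nat_lit 380) (nat_lit 335) (nat_lit 185)) (XT.lf (nat_lit 0) (nat_lit 27538299858) (nat_lit 152) (nat_lit 184260028261)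 (nat_lit 76) (nat_lit 444854143457) (nat_lit 8) (nat_lit 5) (nat_lit 10) (nat_lit 5) (nat_lit 9) (nat_lit 4) (nat_lit 381) (nat_lit 335) (nat_lit 184))) (XT.nd (nat_lit 78) (nat_lit 76) (nat_lit 0) (XT.lf (nat_lit 0) (nat_lit 113729672233) (nat_lit 152) (nat_lit 4982134293) (nat_lit 76) (nat_lit 582267967667) (nat_lit 8) (nat_lit 5) (nat_lit 10) (nat_lit 5) (nat_lit 9) (nat_lit 4) (nat_lit 382) (nat_lit 335) (nat_lit 183)) (XT.lf (nat_lit 0) (nat_lit 198571072657) (nat_lit 76) (nat_lit 13020789782) (nat_lit 152) (nat_lit 536879358007) (nat_lit 7) (nat_lit 5) (nat_lit 8) (nat_lit 5) (nat_lit 9) (nat_lit 4) (nat_lit 383) (nat_lit 335) (nat_lit 182))))) (XT.nd (nat_lit 312) (nat_lit 152) (nat_lit 0) (XT.nd (nat_lit 156) (nat_lit 76) (nat_lit 0) (XT.nd (nat_lit 78) (nat_lit 0) (nat_lit 0) (XT.lf (nat_lit 0) (nat_lit 319854727455) (nat_lit 152) (nat_lit 383495068330) (nat_lit 0) (nat_lit 96206450711)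 (nat_lit 7) (nat_lit 5) (nat_lit 9) (nat_lit 4) (nat_lit 7) (nat_lit 4) (nat_lit 384) (nat_lit 335) (nat_lit 181)) (XT.lf (nat_lit 0) (nat_lit 437116703739) (nat_lit 152) (nat_lit 204116015417) (nat_lit 0) (nat_lit 213468308970) (nat_lit 7) (nat_lit 5) (nat_lit 9) (nat_lit 4) (nat_lit 7) (nat_lit 4) (nat_lit 385) (nat_lit 335) (nat_lit 180))) (XT.nd (nat_lit 78) (nat_lit 76) (nat_lit 0) (XT.lf (nat_lit 0) (nat_lit 563759526769) (nat_lit 152) (nat_lit 10386851764) (nat_lit 0) (nat_lit 340111022717) (nat_lit 7) (nat_lit 5) (nat_lit 9) (nat_lit 4) (nat_lit 7) (nat_lit 4) (nat_lit 386) (nat_lit 335) (nat_lit 179)) (XT.lf (nat_lit 0) (nat_lit 209311032883) (nat_lit 76) (nat_lit 496256575025) (nat_lit 76) (nat_lit 272607969785) (nat_lit 6) (nat_lit 4) (nat_lit 7) (nat_lit 5) (nat_lit 7) (nat_lit 4) (nat_lit 387) (nat_lit 335) (nat_lit 178)))) (XT.nd (nat_lit 156) (nat_lit 152) (nat_lit 0) (XT.nd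 (nat_lit 78) (nat_lit 0) (nat_lit 0) (XT.lf (nat_lit 0) (nat_lit 447175265092) (nat_lit 76) (nat_lit 411828965277) (nat_lit 76) (nat_lit 188180266344) (nat_lit 6) (nat_lit 4) (nat_lit 7) (nat_lit 5) (nat_lit 7) (nat_lit 4) (nat_lit 388) (nat_lit 335) (nat_lit 177)) (XT.lf (nat_lit 0) (nat_lit 704068457477) (nat_lit 76) (nat_lit 320647232461) (nat_lit 76) (nat_lit 96998446775) (nat_lit 6) (nat_lit 4) (nat_lit 7) (nat_lit 5) (nat_lit 7) (nat_lit 4) (nat_lit 389) (nat_lit 335) (nat_lit 176))) (XT.nd (nat_lit 78) (nat_lit 76) (nat_lit 0) (XT.lf (nat_lit 0) (nat_lit 1403898805) (nat_lit 152) (nat_lit 220728756496) (nat_lit 76) (nat_lit 980070656179) (nat_lit 5) (nat_lit 5) (nat_lit 7) (nat_lit 5) (nat_lit 6) (nat_lit 4) (nat_lit 390) (nat_lit 335) (nat_lit 175)) (XT.nd (nat_lit 78) (nat_lit 76) (nat_lit 0) (XT.lf (nat_lit 0) (nat_lit 102437914901) (nat_lit 152) (nat_lit 10578077393) (nat_lit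 76) (nat_lit 1175914079281) (nat_lit 5) (nat_lit 5) (nat_lit 7) (nat_lit 5) (nat_lit 6) (nat_lit 4) (nat_lit 391) (nat_lit 335) (nat_lit 174)) (XT.lf (nat_lit 0) (nat_lit 217291113674) (nat_lit 152) (nat_lit 1154636244227) (nat_lit 0) (nat_lit 10208697697) (nat_lit 4) (nat_lit 5) (nat_lit 6) (nat_lit 4) (nat_lit 4) (nat_lit 4) (nat_lit 392) (nat_lit 335) (nat_lit 173))))))))
noncomputable def xc194 : XT := (XT.nd (nat_lit 42510) (nat_lit 0) (nat_lit 1976) (XT.nd (nat_lit 624) (nat_lit 0) (nat_lit 0) (XT.nd (nat_lit 312) (nat_lit 76) (nat_lit 0) (XT.nd (nat_lit 156) (nat_lit 0) (nat_lit 0) (XT.nd (nat_lit 78) (nat_lit 0) (nat_lit 0) (XT.lf (nat_lit 0) (nat_lit 344564709354) (nat_lit 152) (nat_lit 1000493003406) (nat_lit 0) (nat_lit 137482234335) (nat_lit 4) (nat_lit 5) (nat_lit 6) (nat_lit 4) (nat_lit 4) (nat_lit 4) (nat_lit 393) (nat_lit 335) (nat_lit 172)) (XT.lf (nat_lit 0) (nat_lit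 482020123250) (nat_lit 152) (nat_lit 834018438680) (nat_lit 0) (nat_lit 274937593562) (nat_lit 4) (nat_lit 5) (nat_lit 6) (nat_lit 4) (nat_lit 4) (nat_lit 4) (nat_lit 394) (nat_lit 335) (nat_lit 171))) (XT.nd (nat_lit 78) (nat_lit 0) (nat_lit 0) (XT.lf (nat_lit 0) (nat_lit 630471905963) (nat_lit 152) (nat_lit 654226034111) (nat_lit 0) (nat_lit 423389325656) (nat_lit 4) (nat_lit 5) (nat_lit 6) (nat_lit 4) (nat_lit 4) (nat_lit 4) (nat_lit 395) (nat_lit 335) (nat_lit 170)) (XT.lf (nat_lit 0) (nat_lit 790799771761) (nat_lit 152) (nat_lit 460050353228) (nat_lit 0) (nat_lit 583717144585) (nat_lit 4) (nat_lit 5) (nat_lit 6) (nat_lit 4) (nat_lit 4) (nat_lit 4) (nat_lit 396) (nat_lit 335) (nat_lit 169)))) (XT.nd (nat_lit 156) (nat_lit 76) (nat_lit 0) (XT.nd (nat_lit 78) (nat_lit 0) (nat_lit 0) (XT.lf (nat_lit 0) (nat_lit 963953811701) (nat_lit 152) (nat_lit 250340725329) (nat_lit 0) (nat_lit 756871141127)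 (nat_lit 4) (nat_lit 5) (nat_lit 6) (nat_lit 4) (nat_lit 4) (nat_lit 4) (nat_lit 397) (nat_lit 335) (nat_lit 168)) (XT.lf (nat_lit 0) (nat_lit 1150960123798) (nat_lit 152) (nat_lit 23854426692) (nat_lit 0) (nat_lit 943877413040) (nat_lit 4) (nat_lit 5) (nat_lit 6) (nat_lit 4) (nat_lit 4) (nat_lit 4) (nat_lit 398) (nat_lit 335) (nat_lit 167))) (XT.nd (nat_lit 78) (nat_lit 0) (nat_lit 0) (XT.lf (nat_lit 0) (nat_lit 232375023509) (nat_lit 76) (nat_lit 1126140494998) (nat_lit 76) (nat_lit 919057747034) (nat_lit 3) (nat_lit 4) (nat_lit 4) (nat_lit 5) (nat_lit 4) (nat_lit 4) (nat_lit 399) (nat_lit 335) (nat_lit 166)) (XT.lf (nat_lit 0) (nat_lit 510459362318) (nat_lit 76) (nat_lit 1072868158858) (nat_lit 76) (nat_lit 865785376443) (nat_lit 3) (nat_lit 4) (nat_lit 4) (nat_lit 5) (nat_lit 4) (nat_lit 4) (nat_lit 400) (nat_lit 335) (nat_lit 165))))) (XT.nd (nat_lit 312) (nat_lit 0) (nat_lit 0)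 (XT.nd (nat_lit 156) (nat_lit 0) (nat_lit 0) (XT.nd (nat_lit 78) (nat_lit 0) (nat_lit 0) (XT.lf (nat_lit 0) (nat_lit 810790365091) (nat_lit 76) (nat_lit 1015334076452) (nat_lit 76) (nat_lit 808251262138) (nat_lit 3) (nat_lit 4) (nat_lit 4) (nat_lit 5) (nat_lit 4) (nat_lit 4) (nat_lit 401) (nat_lit 335) (nat_lit 164)) (XT.lf (nat_lit 0) (nat_lit 1135147771102) (nat_lit 76) (nat_lit 953197305069) (nat_lit 76) (nat_lit 746114461220) (nat_lit 3) (nat_lit 4) (nat_lit 4) (nat_lit 5) (nat_lit 4) (nat_lit 4) (nat_lit 402) (nat_lit 335) (nat_lit 163))) (XT.nd (nat_lit 78) (nat_lit 0) (nat_lit 0) (XT.lf (nat_lit 0) (nat_lit 1485453698314) (nat_lit 76) (nat_lit 886089626806) (nat_lit 76) (nat_lit 679006755609) (nat_lit 3) (nat_lit 4) (nat_lit 4) (nat_lit 5) (nat_lit 4) (nat_lit 4) (nat_lit 403) (nat_lit 335) (nat_lit 162)) (XT.lf (nat_lit 0) (nat_lit 1863784033703) (nat_lit 76) (nat_lit 813613366531)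 (nat_lit 76) (nat_lit 606530470012) (nat_lit 3) (nat_lit 4) (nat_lit 4) (nat_lit 5) (nat_lit 4) (nat_lit 4) (nat_lit 404) (nat_lit 335) (nat_lit 161)))) (XT.nd (nat_lit 156) (nat_lit 0) (nat_lit 0) (XT.nd (nat_lit 78) (nat_lit 0) (nat_lit 0) (XT.lf (nat_lit 0) (nat_lit 2272380734812) (nat_lit 76) (nat_lit 735339035296) (nat_lit 76) (nat_lit 528256115330) (nat_lit 3) (nat_lit 4) (nat_lit 4) (nat_lit 5) (nat_lit 4) (nat_lit 4) (nat_lit 405) (nat_lit 335) (nat_lit 160)) (XT.lf (nat_lit 0) (nat_lit 2713665115424) (nat_lit 76) (nat_lit 650802785210) (nat_lit 76) (nat_lit 443719843535) (nat_lit 3) (nat_lit 4) (nat_lit 4) (nat_lit 5) (nat_lit 4) (nat_lit 4) (nat_lit 406) (nat_lit 335) (nat_lit 159))) (XT.nd (nat_lit 78) (nat_lit 0) (nat_lit 0) (XT.lf (nat_lit 0) (nat_lit 3190252194093) (nat_lit 76) (nat_lit 559503660719) (nat_lit 76) (nat_lit 352420698942) (nat_lit 3) (nat_lit 4) (nat_lit 4)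 (nat_lit 5) (nat_lit 4) (nat_lit 4) (nat_lit 407) (nat_lit 335) (nat_lit 158)) (XT.nd (nat_lit 41262) (nat_lit 0) (nat_lit 3496) (XT.lf (nat_lit 0) (nat_lit 3704966190542) (nat_lit 76) (nat_lit 460900629973) (nat_lit 76) (nat_lit 253817649583) (nat_lit 3) (nat_lit 4) (nat_lit 4) (nat_lit 5) (nat_lit 4) (nat_lit 4) (nat_lit 408) (nat_lit 335) (nat_lit 157)) (XT.lf (nat_lit 0) (nat_lit 22430165909) (nat_lit 532) (nat_lit 5076329678) (nat_lit 532) (nat_lit 5076329678) (nat_lit 49) (nat_lit 3) (nat_lit 56) (nat_lit 3) (nat_lit 56) (nat_lit 5) (nat_lit 336) (nat_lit 336) (nat_lit 228))))))) (XT.nd (nat_lit 624) (nat_lit 1216) (nat_lit 0) (XT.nd (nat_lit 312) (nat_lit 304) (nat_lit 0) (XT.nd (nat_lit 156) (nat_lit 0) (nat_lit 76) (XT.nd (nat_lit 78) (nat_lit 0) (nat_lit 76) (XT.lf (nat_lit 76) (nat_lit 21155661759) (nat_lit 0) (nat_lit 26022049485) (nat_lit 532) (nat_lit 20552692706) (nat_lit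 50) (nat_lit 5) (nat_lit 49) (nat_lit 3) (nat_lit 56) (nat_lit 5) (nat_lit 337) (nat_lit 336) (nat_lit 227)) (XT.lf (nat_lit 0) (nat_lit 50091041285) (nat_lit 456) (nat_lit 15067423230) (nat_lit 532) (nat_lit 5309031841) (nat_lit 50) (nat_lit 5) (nat_lit 56) (nat_lit 5) (nat_lit 57) (nat_lit 5) (nat_lit 338) (nat_lit 336) (nat_lit 226))) (XT.nd (nat_lit 78) (nat_lit 0) (nat_lit 0) (XT.lf (nat_lit 76) (nat_lit 19246499989) (nat_lit 0) (nat_lit 35128397094) (nat_lit 532) (nat_lit 18957665594) (nat_lit 51) (nat_lit 5) (nat_lit 50) (nat_lit 5) (nat_lit 57) (nat_lit 5) (nat_lit 339) (nat_lit 336) (nat_lit 225)) (XT.lf (nat_lit 76) (nat_lit 57161585097) (nat_lit 0) (nat_lit 2250606585) (nat_lit 532) (nat_lit 16981787223) (nat_lit 51) (nat_lit 5) (nat_lit 50) (nat_lit 5) (nat_lit 57) (nat_lit 5) (nat_lit 340) (nat_lit 336) (nat_lit 224)))) (XT.nd (nat_lit 156) (nat_lit 456) (nat_lit 0) (XT.nd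 (nat_lit 78) (nat_lit 0) (nat_lit 0) (XT.lf (nat_lit 76) (nat_lit 18536087233) (nat_lit 0) (nat_lit 47560878202) (nat_lit 532) (nat_lit 13503786153) (nat_lit 52) (nat_lit 5) (nat_lit 51) (nat_lit 5) (nat_lit 58) (nat_lit 5) (nat_lit 341) (nat_lit 336) (nat_lit 223)) (XT.lf (nat_lit 76) (nat_lit 60357406937) (nat_lit 0) (nat_lit 13540863585) (nat_lit 532) (nat_lit 9119258207) (nat_lit 52) (nat_lit 5) (nat_lit 51) (nat_lit 5) (nat_lit 58) (nat_lit 5) (nat_lit 342) (nat_lit 336) (nat_lit 222))) (XT.nd (nat_lit 78) (nat_lit 76) (nat_lit 0) (XT.lf (nat_lit 0) (nat_lit 19219345019) (nat_lit 456) (nat_lit 64123547992) (nat_lit 532) (nat_lit 3283220394) (nat_lit 46) (nat_lit 5) (nat_lit 52) (nat_lit 5) (nat_lit 53) (nat_lit 5) (nat_lit 343) (nat_lit 336) (nat_lit 221)) (XT.lf (nat_lit 0) (nat_lit 3855048809) (nat_lit 532) (nat_lit 25177296672) (nat_lit 76) (nat_lit 61406319044) (nat_lit 45) (nat_lit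 5) (nat_lit 52) (nat_lit 5) (nat_lit 46) (nat_lit 5) (nat_lit 344) (nat_lit 336) (nat_lit 220))))) (XT.nd (nat_lit 312) (nat_lit 684) (nat_lit 0) (XT.nd (nat_lit 156) (nat_lit 228) (nat_lit 0) (XT.nd (nat_lit 78) (nat_lit 0) (nat_lit 0) (XT.lf (nat_lit 0) (nat_lit 12129979837) (nat_lit 380) (nat_lit 73321389799) (nat_lit 76) (nat_lit 9038591375) (nat_lit 41) (nat_lit 5) (nat_lit 46) (nat_lit 5) (nat_lit 42) (nat_lit 5) (nat_lit 345) (nat_lit 336) (nat_lit 219)) (XT.lf (nat_lit 0) (nat_lit 22526417312) (nat_lit 380) (nat_lit 26929193946) (nat_lit 76) (nat_lit 49292990768) (nat_lit 41) (nat_lit 5) (nat_lit 46) (nat_lit 5) (nat_lit 42) (nat_lit 5) (nat_lit 346) (nat_lit 336) (nat_lit 218))) (XT.nd (nat_lit 78) (nat_lit 0) (nat_lit 0) (XT.lf (nat_lit 0) (nat_lit 24393821451) (nat_lit 228) (nat_lit 9946635929) (nat_lit 304) (nat_lit 68960607570) (nat_lit 38) (nat_lit 5) (nat_lit 41) (nat_lit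 5) (nat_lit 42) (nat_lit 5) (nat_lit 347) (nat_lit 336) (nat_lit 217)) (XT.lf (nat_lit 0) (nat_lit 48641279872) (nat_lit 304) (nat_lit 27611643468) (nat_lit 76) (nat_lit 31841470344) (nat_lit 38) (nat_lit 5) (nat_lit 42) (nat_lit 5) (nat_lit 39) (nat_lit 5) (nat_lit 348) (nat_lit 336) (nat_lit 216)))) (XT.nd (nat_lit 156) (nat_lit 456) (nat_lit 0) (XT.nd (nat_lit 78) (nat_lit 0) (nat_lit 0) (XT.lf (nat_lit 0) (nat_lit 28978041677) (nat_lit 228) (nat_lit 36062711183) (nat_lit 304) (nat_lit 48154070487) (nat_lit 35) (nat_lit 5) (nat_lit 38) (nat_lit 5) (nat_lit 39) (nat_lit 5) (nat_lit 349) (nat_lit 336) (nat_lit 215)) (XT.lf (nat_lit 0) (nat_lit 83702673800) (nat_lit 304) (nat_lit 27174730959) (nat_lit 76) (nat_lit 7749844711) (nat_lit 35) (nat_lit 5) (nat_lit 39) (nat_lit 5) (nat_lit 36) (nat_lit 5) (nat_lit 350) (nat_lit 336) (nat_lit 214))) (XT.nd (nat_lit 78) (nat_lit 304) (nat_lit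 0) (XT.lf (nat_lit 0) (nat_lit 35256907113) (nat_lit 152) (nat_lit 70384650843) (nat_lit 228) (nat_lit 18709992168) (nat_lit 33) (nat_lit 5) (nat_lit 35) (nat_lit 5) (nat_lit 36) (nat_lit 5) (nat_lit 351) (nat_lit 336) (nat_lit 213)) (XT.nd (nat_lit 78) (nat_lit 304) (nat_lit 0) (XT.lf (nat_lit 0) (nat_lit 104227770728) (nat_lit 152) (nat_lit 25850200965) (nat_lit 228) (nat_lit 396430744) (nat_lit 33) (nat_lit 5) (nat_lit 35) (nat_lit 5) (nat_lit 36) (nat_lit 5) (nat_lit 352) (nat_lit 336) (nat_lit 212)) (XT.lf (nat_lit 0) (nat_lit 20028376895) (nat_lit 304) (nat_lit 94210798773) (nat_lit 76) (nat_lit 22681357741) (nat_lit 29) (nat_lit 5) (nat_lit 33) (nat_lit 5) (nat_lit 30) (nat_lit 5) (nat_lit 353) (nat_lit 336) (nat_lit 211))))))))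
noncomputable def xc195 : XT := (XT.nd (nat_lit 1326) (nat_lit 608) (nat_lit 0) (XT.nd (nat_lit 624) (nat_lit 532) (nat_lit 0) (XT.nd (nat_lit 312) (nat_lit 304) (nat_lit 0) (XT.nd (nat_lit 156) (nat_lit 152) (nat_lit 0) (XT.nd (nat_lit 78) (nat_lit 152) (nat_lit 0) (XT.lf (nat_lit 0) (nat_lit 43472916349) (nat_lit 304) (nat_lit 25850787071) (nat_lit 76) (nat_lit 74445255392) (nat_lit 29) (nat_lit 5) (nat_lit 33) (nat_lit 5) (nat_lit 30) (nat_lit 5) (nat_lit 354) (nat_lit 336) (nat_lit 210)) (XT.lf (nat_lit 0) (nat_lit 50503730761) (nat_lit 152) (nat_lit 19503405824) (nat_lit 228) (nat_lit 81060993071) (nat_lit 27) (nat_lit 5) (nat_lit 29) (nat_lit 5) (nat_lit 30) (nat_lit 5) (nat_lit 355) (nat_lit 336) (nat_lit 209))) (XT.nd (nat_lit 78) (nat_lit 152) (nat_lit 0) (XT.lf (nat_lit 0) (nat_lit 100213753159) (nat_lit 228) (nat_lit 25301969896) (nat_lit 76) (nat_lit 33311539172) (nat_lit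 27) (nat_lit 5) (nat_lit 30) (nat_lit 5) (nat_lit 28) (nat_lit 5) (nat_lit 356) (nat_lit 336) (nat_lit 208)) (XT.lf (nat_lit 0) (nat_lit 58395385420) (nat_lit 152) (nat_lit 76352059233) (nat_lit 228) (nat_lit 32306837804) (nat_lit 25) (nat_lit 5) (nat_lit 27) (nat_lit 5) (nat_lit 28) (nat_lit 5) (nat_lit 357) (nat_lit 336) (nat_lit 207)))) (XT.nd (nat_lit 156) (nat_lit 152) (nat_lit 0) (XT.nd (nat_lit 78) (nat_lit 152) (nat_lit 0) (XT.lf (nat_lit 0) (nat_lit 150226831597) (nat_lit 152) (nat_lit 22508371401) (nat_lit 228) (nat_lit 3148952236) (nat_lit 25) (nat_lit 5) (nat_lit 27) (nat_lit 5) (nat_lit 28) (nat_lit 5) (nat_lit 358) (nat_lit 336) (nat_lit 206)) (XT.lf (nat_lit 0) (nat_lit 29442517323) (nat_lit 152) (nat_lit 119518728739) (nat_lit 76) (nat_lit 36203146066) (nat_lit 23) (nat_lit 5) (nat_lit 25) (nat_lit 5) (nat_lit 24) (nat_lit 5) (nat_lit 359) (nat_lit 336) (nat_lit 205)))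 (XT.nd (nat_lit 78) (nat_lit 152) (nat_lit 0) (XT.lf (nat_lit 0) (nat_lit 65775152635) (nat_lit 152) (nat_lit 30104156422) (nat_lit 76) (nat_lit 99196878283) (nat_lit 23) (nat_lit 5) (nat_lit 25) (nat_lit 5) (nat_lit 24) (nat_lit 5) (nat_lit 360) (nat_lit 336) (nat_lit 204)) (XT.lf (nat_lit 0) (nat_lit 69962823335) (nat_lit 152) (nat_lit 36733814933) (nat_lit 228) (nat_lit 98949709218) (nat_lit 21) (nat_lit 5) (nat_lit 23) (nat_lit 5) (nat_lit 24) (nat_lit 5) (nat_lit 361) (nat_lit 336) (nat_lit 203))))) (XT.nd (nat_lit 312) (nat_lit 228) (nat_lit 0) (XT.nd (nat_lit 156) (nat_lit 228) (nat_lit 0) (XT.nd (nat_lit 78) (nat_lit 76) (nat_lit 0) (XT.lf (nat_lit 0) (nat_lit 152388760866) (nat_lit 228) (nat_lit 37923828618) (nat_lit 76) (nat_lit 26629777955) (nat_lit 21) (nat_lit 5) (nat_lit 24) (nat_lit 5) (nat_lit 22) (nat_lit 4) (nat_lit 362) (nat_lit 336) (nat_lit 202)) (XT.lf (nat_lit 0)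 (nat_lit 70214377761) (nat_lit 76) (nat_lit 134164325095) (nat_lit 152) (nat_lit 24551970574) (nat_lit 20) (nat_lit 5) (nat_lit 21) (nat_lit 5) (nat_lit 22) (nat_lit 4) (nat_lit 363) (nat_lit 336) (nat_lit 201))) (XT.nd (nat_lit 78) (nat_lit 152) (nat_lit 0) (XT.lf (nat_lit 0) (nat_lit 18780365413) (nat_lit 152) (nat_lit 53110700918) (nat_lit 76) (nat_lit 169866015079) (nat_lit 19) (nat_lit 5) (nat_lit 21) (nat_lit 5) (nat_lit 20) (nat_lit 5) (nat_lit 364) (nat_lit 336) (nat_lit 200)) (XT.lf (nat_lit 0) (nat_lit 63480678195) (nat_lit 152) (nat_lit 2298572411) (nat_lit 228) (nat_lit 189657222152) (nat_lit 17) (nat_lit 5) (nat_lit 19) (nat_lit 5) (nat_lit 20) (nat_lit 5) (nat_lit 365) (nat_lit 336) (nat_lit 199)))) (XT.nd (nat_lit 156) (nat_lit 152) (nat_lit 0) (XT.nd (nat_lit 78) (nat_lit 76) (nat_lit 0) (XT.lf (nat_lit 0) (nat_lit 119779922159) (nat_lit 228) (nat_lit 79464774763) (nat_lit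 76) (nat_lit 70706168748) (nat_lit 17) (nat_lit 5) (nat_lit 20) (nat_lit 5) (nat_lit 18) (nat_lit 4) (nat_lit 366) (nat_lit 336) (nat_lit 198)) (XT.lf (nat_lit 0) (nat_lit 44175166004) (nat_lit 76) (nat_lit 135047321005) (nat_lit 152) (nat_lit 106314176118) (nat_lit 16) (nat_lit 5) (nat_lit 17) (nat_lit 5) (nat_lit 18) (nat_lit 4) (nat_lit 367) (nat_lit 336) (nat_lit 197))) (XT.nd (nat_lit 78) (nat_lit 152) (nat_lit 0) (XT.lf (nat_lit 0) (nat_lit 182225068141) (nat_lit 76) (nat_lit 63367828603) (nat_lit 152) (nat_lit 56602632720) (nat_lit 16) (nat_lit 5) (nat_lit 17) (nat_lit 5) (nat_lit 18) (nat_lit 4) (nat_lit 368) (nat_lit 336) (nat_lit 196)) (XT.nd (nat_lit 78) (nat_lit 76) (nat_lit 0) (XT.lf (nat_lit 0) (nat_lit 11361974936) (nat_lit 76) (nat_lit 306521774667) (nat_lit 76) (nat_lit 2254490915) (nat_lit 15) (nat_lit 4) (nat_lit 16) (nat_lit 5) (nat_lit 16) (nat_lit 4) (nat_lit 369)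 (nat_lit 336) (nat_lit 195)) (XT.lf (nat_lit 0) (nat_lit 58629141527) (nat_lit 152) (nat_lit 182319106072) (nat_lit 76) (nat_lit 98058641759) (nat_lit 14) (nat_lit 5) (nat_lit 16) (nat_lit 5) (nat_lit 15) (nat_lit 4) (nat_lit 370) (nat_lit 336) (nat_lit 194))))))) (XT.nd (nat_lit 702) (nat_lit 304) (nat_lit 0) (XT.nd (nat_lit 312) (nat_lit 152) (nat_lit 0) (XT.nd (nat_lit 156) (nat_lit 76) (nat_lit 0) (XT.nd (nat_lit 78) (nat_lit 76) (nat_lit 0) (XT.lf (nat_lit 0) (nat_lit 124261431137) (nat_lit 152) (nat_lit 45804348031) (nat_lit 76) (nat_lit 189314585058) (nat_lit 14) (nat_lit 5) (nat_lit 16) (nat_lit 5) (nat_lit 15) (nat_lit 4) (nat_lit 371) (nat_lit 336) (nat_lit 193)) (XT.lf (nat_lit 0) (nat_lit 106982924615) (nat_lit 76) (nat_lit 90734106063) (nat_lit 152) (nat_lit 183460868441) (nat_lit 13) (nat_lit 5) (nat_lit 14) (nat_lit 5) (nat_lit 15) (nat_lit 4) (nat_lit 372) (nat_lit 336)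 (nat_lit 192))) (XT.nd (nat_lit 78) (nat_lit 76) (nat_lit 0) (XT.lf (nat_lit 0) (nat_lit 274597737475) (nat_lit 76) (nat_lit 3703504512) (nat_lit 152) (nat_lit 126317821874) (nat_lit 13) (nat_lit 5) (nat_lit 14) (nat_lit 5) (nat_lit 15) (nat_lit 4) (nat_lit 373) (nat_lit 336) (nat_lit 191)) (XT.lf (nat_lit 0) (nat_lit 24752614369) (nat_lit 76) (nat_lit 343346145997) (nat_lit 76) (nat_lit 61615435954) (nat_lit 12) (nat_lit 4) (nat_lit 13) (nat_lit 5) (nat_lit 13) (nat_lit 4) (nat_lit 374) (nat_lit 336) (nat_lit 190)))) (XT.nd (nat_lit 156) (nat_lit 76) (nat_lit 0) (XT.nd (nat_lit 78) (nat_lit 0) (nat_lit 0) (XT.lf (nat_lit 0) (nat_lit 11593135996) (nat_lit 152) (nat_lit 257617262362) (nat_lit 76) (nat_lit 187291174773) (nat_lit 11) (nat_lit 5) (nat_lit 13) (nat_lit 5) (nat_lit 12) (nat_lit 4) (nat_lit 375) (nat_lit 336) (nat_lit 189)) (XT.lf (nat_lit 0) (nat_lit 87329378755) (nat_lit 152)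 (nat_lit 100086132231) (nat_lit 76) (nat_lit 297888411626) (nat_lit 11) (nat_lit 5) (nat_lit 13) (nat_lit 5) (nat_lit 12) (nat_lit 4) (nat_lit 376) (nat_lit 336) (nat_lit 188))) (XT.nd (nat_lit 78) (nat_lit 0) (nat_lit 0) (XT.lf (nat_lit 0) (nat_lit 73735739274) (nat_lit 76) (nat_lit 97161960366) (nat_lit 152) (nat_lit 345370906228) (nat_lit 10) (nat_lit 5) (nat_lit 11) (nat_lit 5) (nat_lit 12) (nat_lit 4) (nat_lit 377) (nat_lit 336) (nat_lit 187)) (XT.nd (nat_lit 78) (nat_lit 0) (nat_lit 0) (XT.lf (nat_lit 0) (nat_lit 263966431983) (nat_lit 152) (nat_lit 282415084290) (nat_lit 0) (nat_lit 3103751950) (nat_lit 10) (nat_lit 5) (nat_lit 12) (nat_lit 4) (nat_lit 10) (nat_lit 4) (nat_lit 378) (nat_lit 336) (nat_lit 186)) (XT.lf (nat_lit 0) (nat_lit 367004196695) (nat_lit 152) (nat_lit 112011854892) (nat_lit 0) (nat_lit 106141329370) (nat_lit 10) (nat_lit 5) (nat_lit 12) (nat_lit 4) (nat_lit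 10) (nat_lit 4) (nat_lit 379) (nat_lit 336) (nat_lit 185)))))) (XT.nd (nat_lit 312) (nat_lit 152) (nat_lit 0) (XT.nd (nat_lit 156) (nat_lit 76) (nat_lit 0) (XT.nd (nat_lit 78) (nat_lit 0) (nat_lit 0) (XT.lf (nat_lit 0) (nat_lit 75815988814) (nat_lit 76) (nat_lit 404292227995) (nat_lit 76) (nat_lit 143429187252) (nat_lit 9) (nat_lit 4) (nat_lit 10) (nat_lit 5) (nat_lit 10) (nat_lit 4) (nat_lit 380) (nat_lit 336) (nat_lit 184)) (XT.lf (nat_lit 0) (nat_lit 285040013351) (nat_lit 76) (nat_lit 320283009939) (nat_lit 76) (nat_lit 59419808623) (nat_lit 9) (nat_lit 4) (nat_lit 10) (nat_lit 5) (nat_lit 10) (nat_lit 4) (nat_lit 381) (nat_lit 336) (nat_lit 183))) (XT.nd (nat_lit 78) (nat_lit 0) (nat_lit 0) (XT.lf (nat_lit 0) (nat_lit 29743920234) (nat_lit 152) (nat_lit 198995995906) (nat_lit 76) (nat_lit 480444547291) (nat_lit 8) (nat_lit 5) (nat_lit 10) (nat_lit 5) (nat_lit 9) (nat_lit 4) (nat_lit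 382) (nat_lit 336) (nat_lit 182)) (XT.lf (nat_lit 0) (nat_lit 122830413037) (nat_lit 152) (nat_lit 5376228540) (nat_lit 76) (nat_lit 628851323930) (nat_lit 8) (nat_lit 5) (nat_lit 10) (nat_lit 5) (nat_lit 9) (nat_lit 4) (nat_lit 383) (nat_lit 336) (nat_lit 181)))) (XT.nd (nat_lit 156) (nat_lit 76) (nat_lit 0) (XT.nd (nat_lit 78) (nat_lit 0) (nat_lit 0) (XT.lf (nat_lit 0) (nat_lit 214461121637) (nat_lit 76) (nat_lit 14060386422) (nat_lit 152) (nat_lit 579827225127) (nat_lit 7) (nat_lit 5) (nat_lit 8) (nat_lit 5) (nat_lit 9) (nat_lit 4) (nat_lit 384) (nat_lit 336) (nat_lit 180)) (XT.lf (nat_lit 0) (nat_lit 345445278175) (nat_lit 152) (nat_lit 414170508645) (nat_lit 0) (nat_lit 103904784515) (nat_lit 7) (nat_lit 5) (nat_lit 9) (nat_lit 4) (nat_lit 7) (nat_lit 4) (nat_lit 385) (nat_lit 336) (nat_lit 179))) (XT.nd (nat_lit 78) (nat_lit 76) (nat_lit 0) (XT.lf (nat_lit 0) (nat_lit 472088051634)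 (nat_lit 152) (nat_lit 220441440029) (nat_lit 0) (nat_lit 230547456786) (nat_lit 7) (nat_lit 5) (nat_lit 9) (nat_lit 4) (nat_lit 7) (nat_lit 4) (nat_lit 386) (nat_lit 336) (nat_lit 178)) (XT.nd (nat_lit 78) (nat_lit 76) (nat_lit 0) (XT.lf (nat_lit 0) (nat_lit 608862151499) (nat_lit 152) (nat_lit 11214228959) (nat_lit 0) (nat_lit 367321462959) (nat_lit 7) (nat_lit 5) (nat_lit 9) (nat_lit 4) (nat_lit 7) (nat_lit 4) (nat_lit 387) (nat_lit 336) (nat_lit 177)) (XT.lf (nat_lit 0) (nat_lit 226059396056) (nat_lit 76) (nat_lit 535955428811) (nat_lit 76) (nat_lit 294414653518) (nat_lit 6) (nat_lit 4) (nat_lit 7) (nat_lit 5) (nat_lit 7) (nat_lit 4) (nat_lit 388) (nat_lit 336) (nat_lit 176))))))))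
noncomputable def xc196 : XT := (XT.nd (nat_lit 1326) (nat_lit 0) (nat_lit 0) (XT.nd (nat_lit 624) (nat_lit 76) (nat_lit 0) (XT.nd (nat_lit 312) (nat_lit 76) (nat_lit 0) (XT.nd (nat_lit 156) (nat_lit 76) (nat_lit 0) (XT.nd (nat_lit 78) (nat_lit 0) (nat_lit 0) (XT.lf (nat_lit 0) (nat_lit 482952509024) (nat_lit 76) (nat_lit 444773734150) (nat_lit 76) (nat_lit 203232878531) (nat_lit 6) (nat_lit 4) (nat_lit 7) (nat_lit 5) (nat_lit 7) (nat_lit 4) (nat_lit 389) (nat_lit 336) (nat_lit 175)) (XT.lf (nat_lit 0) (nat_lit 760396918079) (nat_lit 76) (nat_lit 346297577402) (nat_lit 76) (nat_lit 104756647406) (nat_lit 6) (nat_lit 4) (nat_lit 7) (nat_lit 5) (nat_lit 7) (nat_lit 4) (nat_lit 390) (nat_lit 336) (nat_lit 174))) (XT.nd (nat_lit 78) (nat_lit 0) (nat_lit 0) (XT.lf (nat_lit 0) (nat_lit 1517684149) (nat_lit 152) (nat_lit 238384215830) (nat_lit 76) (nat_lit 1058477557914) (nat_lit 5) (nat_lit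 5) (nat_lit 7) (nat_lit 5) (nat_lit 6) (nat_lit 4) (nat_lit 391) (nat_lit 336) (nat_lit 173)) (XT.lf (nat_lit 0) (nat_lit 110634312389) (nat_lit 152) (nat_lit 11421692857) (nat_lit 76) (nat_lit 1269988362328) (nat_lit 5) (nat_lit 5) (nat_lit 7) (nat_lit 5) (nat_lit 6) (nat_lit 4) (nat_lit 392) (nat_lit 336) (nat_lit 172)))) (XT.nd (nat_lit 156) (nat_lit 0) (nat_lit 0) (XT.nd (nat_lit 78) (nat_lit 0) (nat_lit 0) (XT.lf (nat_lit 0) (nat_lit 234675757476) (nat_lit 152) (nat_lit 1247004502909) (nat_lit 0) (nat_lit 11026570745) (nat_lit 4) (nat_lit 5) (nat_lit 6) (nat_lit 4) (nat_lit 4) (nat_lit 4) (nat_lit 393) (nat_lit 336) (nat_lit 171)) (XT.lf (nat_lit 0) (nat_lit 372131140461) (nat_lit 152) (nat_lit 1080529998441) (nat_lit 0) (nat_lit 148481903111) (nat_lit 4) (nat_lit 5) (nat_lit 6) (nat_lit 4) (nat_lit 4) (nat_lit 4) (nat_lit 394) (nat_lit 336) (nat_lit 170))) (XT.nd (nat_lit 78) (nat_lit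 0) (nat_lit 0) (XT.lf (nat_lit 0) (nat_lit 520582894553) (nat_lit 152) (nat_lit 900737649666) (nat_lit 0) (nat_lit 296933610333) (nat_lit 4) (nat_lit 5) (nat_lit 6) (nat_lit 4) (nat_lit 4) (nat_lit 4) (nat_lit 395) (nat_lit 336) (nat_lit 169)) (XT.lf (nat_lit 0) (nat_lit 680910733851) (nat_lit 152) (nat_lit 706562020444) (nat_lit 0) (nat_lit 457261406233) (nat_lit 4) (nat_lit 5) (nat_lit 6) (nat_lit 4) (nat_lit 4) (nat_lit 4) (nat_lit 396) (nat_lit 336) (nat_lit 168))))) (XT.nd (nat_lit 312) (nat_lit 0) (nat_lit 0) (XT.nd (nat_lit 156) (nat_lit 76) (nat_lit 0) (XT.nd (nat_lit 78) (nat_lit 0) (nat_lit 0) (XT.lf (nat_lit 0) (nat_lit 854064749253) (nat_lit 152) (nat_lit 496852440378) (nat_lit 0) (nat_lit 630415381452) (nat_lit 4) (nat_lit 5) (nat_lit 6) (nat_lit 4) (nat_lit 4) (nat_lit 4) (nat_lit 397) (nat_lit 336) (nat_lit 167)) (XT.lf (nat_lit 0) (nat_lit 1041071038629) (nat_lit 152)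 (nat_lit 270366186033) (nat_lit 0) (nat_lit 817421633621) (nat_lit 4) (nat_lit 5) (nat_lit 6) (nat_lit 4) (nat_lit 4) (nat_lit 4) (nat_lit 398) (nat_lit 336) (nat_lit 166))) (XT.nd (nat_lit 78) (nat_lit 76) (nat_lit 0) (XT.lf (nat_lit 0) (nat_lit 1243037787397) (nat_lit 152) (nat_lit 25761116641) (nat_lit 0) (nat_lit 1019388347939) (nat_lit 4) (nat_lit 5) (nat_lit 6) (nat_lit 4) (nat_lit 4) (nat_lit 4) (nat_lit 399) (nat_lit 336) (nat_lit 165)) (XT.lf (nat_lit 0) (nat_lit 250966647446) (nat_lit 76) (nat_lit 1216230942011) (nat_lit 76) (nat_lit 992581470654) (nat_lit 3) (nat_lit 4) (nat_lit 4) (nat_lit 5) (nat_lit 4) (nat_lit 4) (nat_lit 400) (nat_lit 336) (nat_lit 164)))) (XT.nd (nat_lit 156) (nat_lit 0) (nat_lit 0) (XT.nd (nat_lit 78) (nat_lit 0) (nat_lit 0) (XT.lf (nat_lit 0) (nat_lit 551297613208) (nat_lit 76) (nat_lit 1158696877690) (nat_lit 76) (nat_lit 935047376797) (nat_lit 3)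 (nat_lit 4) (nat_lit 4) (nat_lit 5) (nat_lit 4) (nat_lit 4) (nat_lit 401) (nat_lit 336) (nat_lit 163)) (XT.lf (nat_lit 0) (nat_lit 875654984950) (nat_lit 76) (nat_lit 1096560123053) (nat_lit 76) (nat_lit 872910594811) (nat_lit 3) (nat_lit 4) (nat_lit 4) (nat_lit 5) (nat_lit 4) (nat_lit 4) (nat_lit 402) (nat_lit 336) (nat_lit 162))) (XT.nd (nat_lit 78) (nat_lit 0) (nat_lit 0) (XT.lf (nat_lit 0) (nat_lit 1225960880431) (nat_lit 76) (nat_lit 1029452460294) (nat_lit 76) (nat_lit 805802906731) (nat_lit 3) (nat_lit 4) (nat_lit 4) (nat_lit 5) (nat_lit 4) (nat_lit 4) (nat_lit 403) (nat_lit 336) (nat_lit 161)) (XT.nd (nat_lit 78) (nat_lit 0) (nat_lit 0) (XT.lf (nat_lit 0) (nat_lit 1604291186439) (nat_lit 76) (nat_lit 956976214376) (nat_lit 76) (nat_lit 733326637366) (nat_lit 3) (nat_lit 4) (nat_lit 4) (nat_lit 5) (nat_lit 4) (nat_lit 4) (nat_lit 404) (nat_lit 336) (nat_lit 160)) (XT.lf (nat_lit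 0) (nat_lit 2012887860344) (nat_lit 76) (nat_lit 878701896433) (nat_lit 76) (nat_lit 655052297713) (nat_lit 3) (nat_lit 4) (nat_lit 4) (nat_lit 5) (nat_lit 4) (nat_lit 4) (nat_lit 405) (nat_lit 336) (nat_lit 159))))))) (XT.nd (nat_lit 41886) (nat_lit 0) (nat_lit 2432) (XT.nd (nat_lit 41574) (nat_lit 0) (nat_lit 3496) (XT.nd (nat_lit 156) (nat_lit 0) (nat_lit 0) (XT.nd (nat_lit 78) (nat_lit 0) (nat_lit 0) (XT.lf (nat_lit 0) (nat_lit 2454172215767) (nat_lit 76) (nat_lit 794165658656) (nat_lit 76) (nat_lit 570516039835) (nat_lit 3) (nat_lit 4) (nat_lit 4) (nat_lit 5) (nat_lit 4) (nat_lit 4) (nat_lit 406) (nat_lit 336) (nat_lit 158)) (XT.lf (nat_lit 0) (nat_lit 2930759271112) (nat_lit 76) (nat_lit 702866545561) (nat_lit 76) (nat_lit 479216908127) (nat_lit 3) (nat_lit 4) (nat_lit 4) (nat_lit 5) (nat_lit 4) (nat_lit 4) (nat_lit 407) (nat_lit 336) (nat_lit 157))) (XT.nd (nat_lit 41340) (nat_lit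 0) (nat_lit 3496) (XT.lf (nat_lit 0) (nat_lit 3445473245966) (nat_lit 76) (nat_lit 604263525367) (nat_lit 76) (nat_lit 380613870699) (nat_lit 3) (nat_lit 4) (nat_lit 4) (nat_lit 5) (nat_lit 4) (nat_lit 4) (nat_lit 408) (nat_lit 336) (nat_lit 156)) (XT.lf (nat_lit 0) (nat_lit 24238410325) (nat_lit 532) (nat_lit 5474950005) (nat_lit 532) (nat_lit 5474950005) (nat_lit 49) (nat_lit 3) (nat_lit 56) (nat_lit 3) (nat_lit 56) (nat_lit 5) (nat_lit 337) (nat_lit 337) (nat_lit 226)))) (XT.nd (nat_lit 156) (nat_lit 0) (nat_lit 76) (XT.nd (nat_lit 78) (nat_lit 0) (nat_lit 76) (XT.lf (nat_lit 76) (nat_lit 22862707754) (nat_lit 0) (nat_lit 28115184582) (nat_lit 532) (nat_lit 22168802982) (nat_lit 50) (nat_lit 5) (nat_lit 49) (nat_lit 3) (nat_lit 56) (nat_lit 5) (nat_lit 338) (nat_lit 337) (nat_lit 225)) (XT.lf (nat_lit 0) (nat_lit 54122112288) (nat_lit 456) (nat_lit 16257069422) (nat_lit 532) (nat_lit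 5723752252) (nat_lit 50) (nat_lit 5) (nat_lit 56) (nat_lit 5) (nat_lit 57) (nat_lit 5) (nat_lit 339) (nat_lit 337) (nat_lit 224))) (XT.nd (nat_lit 78) (nat_lit 0) (nat_lit 0) (XT.lf (nat_lit 76) (nat_lit 20801568978) (nat_lit 0) (nat_lit 37945714662) (nat_lit 532) (nat_lit 20450037757) (nat_lit 51) (nat_lit 5) (nat_lit 50) (nat_lit 5) (nat_lit 57) (nat_lit 5) (nat_lit 340) (nat_lit 337) (nat_lit 223)) (XT.lf (nat_lit 76) (nat_lit 61748723933) (nat_lit 0) (nat_lit 2437179001) (nat_lit 532) (nat_lit 18317884752) (nat_lit 51) (nat_lit 5) (nat_lit 50) (nat_lit 5) (nat_lit 57) (nat_lit 5) (nat_lit 341) (nat_lit 337) (nat_lit 222))))) (XT.nd (nat_lit 312) (nat_lit 760) (nat_lit 0) (XT.nd (nat_lit 156) (nat_lit 456) (nat_lit 0) (XT.nd (nat_lit 78) (nat_lit 0) (nat_lit 0) (XT.lf (nat_lit 76) (nat_lit 20034645621) (nat_lit 0) (nat_lit 51369508593) (nat_lit 532) (nat_lit 14563056073) (nat_lit 52)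 (nat_lit 5) (nat_lit 51) (nat_lit 5) (nat_lit 58) (nat_lit 5) (nat_lit 342) (nat_lit 337) (nat_lit 221)) (XT.lf (nat_lit 76) (nat_lit 65200510056) (nat_lit 0) (nat_lit 14627614278) (nat_lit 532) (nat_lit 9829323889) (nat_lit 52) (nat_lit 5) (nat_lit 51) (nat_lit 5) (nat_lit 58) (nat_lit 5) (nat_lit 343) (nat_lit 337) (nat_lit 220))) (XT.nd (nat_lit 78) (nat_lit 76) (nat_lit 0) (XT.lf (nat_lit 0) (nat_lit 20772562707) (nat_lit 456) (nat_lit 69254720498) (nat_lit 532) (nat_lit 3527522359) (nat_lit 46) (nat_lit 5) (nat_lit 52) (nat_lit 5) (nat_lit 53) (nat_lit 5) (nat_lit 344) (nat_lit 337) (nat_lit 219)) (XT.lf (nat_lit 0) (nat_lit 4179598494) (nat_lit 532) (nat_lit 27176086382) (nat_lit 76) (nat_lit 66316746673) (nat_lit 45) (nat_lit 5) (nat_lit 52) (nat_lit 5) (nat_lit 46) (nat_lit 5) (nat_lit 345) (nat_lit 337) (nat_lit 218)))) (XT.nd (nat_lit 156) (nat_lit 456) (nat_lit 0) (XT.nd (nat_lit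 78) (nat_lit 0) (nat_lit 0) (XT.lf (nat_lit 0) (nat_lit 13115681506) (nat_lit 380) (nat_lit 79170832539) (nat_lit 76) (nat_lit 9761387662) (nat_lit 41) (nat_lit 5) (nat_lit 46) (nat_lit 5) (nat_lit 42) (nat_lit 5) (nat_lit 346) (nat_lit 337) (nat_lit 217)) (XT.lf (nat_lit 0) (nat_lit 24342700402) (nat_lit 380) (nat_lit 29068466087) (nat_lit 76) (nat_lit 53236160563) (nat_lit 41) (nat_lit 5) (nat_lit 46) (nat_lit 5) (nat_lit 42) (nat_lit 5) (nat_lit 347) (nat_lit 337) (nat_lit 216))) (XT.nd (nat_lit 78) (nat_lit 228) (nat_lit 0) (XT.lf (nat_lit 0) (nat_lit 26360009190) (nat_lit 228) (nat_lit 10741157981) (nat_lit 304) (nat_lit 74462877750) (nat_lit 38) (nat_lit 5) (nat_lit 41) (nat_lit 5) (nat_lit 42) (nat_lit 5) (nat_lit 348) (nat_lit 337) (nat_lit 215)) (XT.nd (nat_lit 78) (nat_lit 228) (nat_lit 0) (XT.lf (nat_lit 0) (nat_lit 52545084367) (nat_lit 304) (nat_lit 29805984042) (nat_lit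 76) (nat_lit 34389851261) (nat_lit 38) (nat_lit 5) (nat_lit 42) (nat_lit 5) (nat_lit 39) (nat_lit 5) (nat_lit 349) (nat_lit 337) (nat_lit 214)) (XT.lf (nat_lit 0) (nat_lit 31310506525) (nat_lit 228) (nat_lit 38945424614) (nat_lit 304) (nat_lit 51993501167) (nat_lit 35) (nat_lit 5) (nat_lit 38) (nat_lit 5) (nat_lit 39) (nat_lit 5) (nat_lit 350) (nat_lit 337) (nat_lit 213))))))))
noncomputable def xc197 : XT := (XT.nd (nat_lit 1326) (nat_lit 684) (nat_lit 0) (XT.nd (nat_lit 624) (nat_lit 608) (nat_lit 0) (XT.nd (nat_lit 312) (nat_lit 304) (nat_lit 0) (XT.nd (nat_lit 156) (nat_lit 304) (nat_lit 0) (XT.nd (nat_lit 78) (nat_lit 152) (nat_lit 0) (XT.lf (nat_lit 0) (nat_lit 90409974231) (nat_lit 304) (nat_lit 29334688118) (nat_lit 76) (nat_lit 8371858431) (nat_lit 35) (nat_lit 5) (nat_lit 39) (nat_lit 5) (nat_lit 36) (nat_lit 5) (nat_lit 351) (nat_lit 337) (nat_lit 212)) (XT.lf (nat_lit 0) (nat_lit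 38091126029) (nat_lit 152) (nat_lit 76012350542) (nat_lit 228) (nat_lit 20195329928) (nat_lit 33) (nat_lit 5) (nat_lit 35) (nat_lit 5) (nat_lit 36) (nat_lit 5) (nat_lit 352) (nat_lit 337) (nat_lit 211))) (XT.nd (nat_lit 78) (nat_lit 304) (nat_lit 0) (XT.lf (nat_lit 0) (nat_lit 112578646411) (nat_lit 152) (nat_lit 27915372256) (nat_lit 228) (nat_lit 417532598) (nat_lit 33) (nat_lit 5) (nat_lit 35) (nat_lit 5) (nat_lit 36) (nat_lit 5) (nat_lit 353) (nat_lit 337) (nat_lit 210)) (XT.lf (nat_lit 0) (nat_lit 21640368972) (nat_lit 304) (nat_lit 101734084754) (nat_lit 76) (nat_lit 24498928634) (nat_lit 29) (nat_lit 5) (nat_lit 33) (nat_lit 5) (nat_lit 30) (nat_lit 5) (nat_lit 354) (nat_lit 337) (nat_lit 209)))) (XT.nd (nat_lit 156) (nat_lit 152) (nat_lit 0) (XT.nd (nat_lit 78) (nat_lit 152) (nat_lit 0) (XT.lf (nat_lit 0) (nat_lit 46959751440) (nat_lit 304) (nat_lit 27906277887) (nat_lit 76) (nat_lit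 80403711261) (nat_lit 29) (nat_lit 5) (nat_lit 33) (nat_lit 5) (nat_lit 30) (nat_lit 5) (nat_lit 355) (nat_lit 337) (nat_lit 208)) (XT.lf (nat_lit 0) (nat_lit 54556283089) (nat_lit 152) (nat_lit 21060054112) (nat_lit 228) (nat_lit 87536538760) (nat_lit 27) (nat_lit 5) (nat_lit 29) (nat_lit 5) (nat_lit 30) (nat_lit 5) (nat_lit 356) (nat_lit 337) (nat_lit 207))) (XT.nd (nat_lit 78) (nat_lit 152) (nat_lit 0) (XT.lf (nat_lit 0) (nat_lit 108238924570) (nat_lit 228) (nat_lit 27314210106) (nat_lit 76) (nat_lit 35979650159) (nat_lit 27) (nat_lit 5) (nat_lit 30) (nat_lit 5) (nat_lit 28) (nat_lit 5) (nat_lit 357) (nat_lit 337) (nat_lit 206)) (XT.lf (nat_lit 0) (nat_lit 63078631929) (nat_lit 152) (nat_lit 82456360949) (nat_lit 228) (nat_lit 34883000225) (nat_lit 25) (nat_lit 5) (nat_lit 27) (nat_lit 5) (nat_lit 28) (nat_lit 5) (nat_lit 358) (nat_lit 337) (nat_lit 205))))) (XT.nd (nat_lit 312) (nat_lit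 304) (nat_lit 0) (XT.nd (nat_lit 156) (nat_lit 152) (nat_lit 0) (XT.nd (nat_lit 78) (nat_lit 152) (nat_lit 0) (XT.lf (nat_lit 0) (nat_lit 162255733380) (nat_lit 152) (nat_lit 24305464240) (nat_lit 228) (nat_lit 3393104894) (nat_lit 25) (nat_lit 5) (nat_lit 27) (nat_lit 5) (nat_lit 28) (nat_lit 5) (nat_lit 359) (nat_lit 337) (nat_lit 204)) (XT.lf (nat_lit 0) (nat_lit 31805099948) (nat_lit 152) (nat_lit 129068870119) (nat_lit 76) (nat_lit 39102989614) (nat_lit 23) (nat_lit 5) (nat_lit 25) (nat_lit 5) (nat_lit 24) (nat_lit 5) (nat_lit 360) (nat_lit 337) (nat_lit 203))) (XT.nd (nat_lit 78) (nat_lit 152) (nat_lit 0) (XT.lf (nat_lit 0) (nat_lit 71043814141) (nat_lit 152) (nat_lit 32501973270) (nat_lit 76) (nat_lit 107135954345) (nat_lit 23) (nat_lit 5) (nat_lit 25) (nat_lit 5) (nat_lit 24) (nat_lit 5) (nat_lit 361) (nat_lit 337) (nat_lit 202)) (XT.lf (nat_lit 0) (nat_lit 75570098649) (nat_lit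 152) (nat_lit 39668673936) (nat_lit 228) (nat_lit 106858762453) (nat_lit 21) (nat_lit 5) (nat_lit 23) (nat_lit 5) (nat_lit 24) (nat_lit 5) (nat_lit 362) (nat_lit 337) (nat_lit 201)))) (XT.nd (nat_lit 156) (nat_lit 228) (nat_lit 0) (XT.nd (nat_lit 78) (nat_lit 76) (nat_lit 0) (XT.lf (nat_lit 0) (nat_lit 164585876323) (nat_lit 228) (nat_lit 40947848617) (nat_lit 76) (nat_lit 28763543330) (nat_lit 21) (nat_lit 5) (nat_lit 24) (nat_lit 5) (nat_lit 22) (nat_lit 4) (nat_lit 363) (nat_lit 337) (nat_lit 200)) (XT.lf (nat_lit 0) (nat_lit 75841163987) (nat_lit 76) (nat_lit 144893635907) (nat_lit 152) (nat_lit 26509856497) (nat_lit 20) (nat_lit 5) (nat_lit 21) (nat_lit 5) (nat_lit 22) (nat_lit 4) (nat_lit 364) (nat_lit 337) (nat_lit 199))) (XT.nd (nat_lit 78) (nat_lit 152) (nat_lit 0) (XT.lf (nat_lit 0) (nat_lit 20288311300) (nat_lit 152) (nat_lit 57350338396) (nat_lit 76) (nat_lit 183458551024)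 (nat_lit 19) (nat_lit 5) (nat_lit 21) (nat_lit 5) (nat_lit 20) (nat_lit 5) (nat_lit 365) (nat_lit 337) (nat_lit 198)) (XT.nd (nat_lit 78) (nat_lit 0) (nat_lit 0) (XT.lf (nat_lit 0) (nat_lit 68568117665) (nat_lit 152) (nat_lit 2478797097) (nat_lit 228) (nat_lit 204824044451) (nat_lit 17) (nat_lit 5) (nat_lit 19) (nat_lit 5) (nat_lit 20) (nat_lit 5) (nat_lit 366) (nat_lit 337) (nat_lit 197)) (XT.lf (nat_lit 0) (nat_lit 129367327188) (nat_lit 228) (nat_lit 85813319217) (nat_lit 76) (nat_lit 76365882584) (nat_lit 17) (nat_lit 5) (nat_lit 20) (nat_lit 5) (nat_lit 18) (nat_lit 4) (nat_lit 367) (nat_lit 337) (nat_lit 196))))))) (XT.nd (nat_lit 624) (nat_lit 304) (nat_lit 0) (XT.nd (nat_lit 312) (nat_lit 152) (nat_lit 0) (XT.nd (nat_lit 156) (nat_lit 152) (nat_lit 0) (XT.nd (nat_lit 78) (nat_lit 0) (nat_lit 0) (XT.lf (nat_lit 0) (nat_lit 47717598140) (nat_lit 76) (nat_lit 145847530355) (nat_lit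 152) (nat_lit 114814075619) (nat_lit 16) (nat_lit 5) (nat_lit 17) (nat_lit 5) (nat_lit 18) (nat_lit 4) (nat_lit 368) (nat_lit 337) (nat_lit 195)) (XT.lf (nat_lit 0) (nat_lit 196810868829) (nat_lit 76) (nat_lit 68433943475) (nat_lit 152) (nat_lit 61125996495) (nat_lit 16) (nat_lit 5) (nat_lit 17) (nat_lit 5) (nat_lit 18) (nat_lit 4) (nat_lit 369) (nat_lit 337) (nat_lit 194))) (XT.nd (nat_lit 78) (nat_lit 76) (nat_lit 0) (XT.lf (nat_lit 0) (nat_lit 12278807028) (nat_lit 76) (nat_lit 331040057342) (nat_lit 76) (nat_lit 2430078210) (nat_lit 15) (nat_lit 4) (nat_lit 16) (nat_lit 5) (nat_lit 16) (nat_lit 4) (nat_lit 370) (nat_lit 337) (nat_lit 193)) (XT.lf (nat_lit 0) (nat_lit 63323670316) (nat_lit 152) (nat_lit 196897119269) (nat_lit 76) (nat_lit 105906311697) (nat_lit 14) (nat_lit 5) (nat_lit 16) (nat_lit 5) (nat_lit 15) (nat_lit 4) (nat_lit 371) (nat_lit 337) (nat_lit 192)))) (XT.nd (nat_lit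 156) (nat_lit 76) (nat_lit 0) (XT.nd (nat_lit 78) (nat_lit 76) (nat_lit 0) (XT.lf (nat_lit 0) (nat_lit 134206232172) (nat_lit 152) (nat_lit 49461737274) (nat_lit 76) (nat_lit 204462509823) (nat_lit 14) (nat_lit 5) (nat_lit 16) (nat_lit 5) (nat_lit 15) (nat_lit 4) (nat_lit 372) (nat_lit 337) (nat_lit 191)) (XT.lf (nat_lit 0) (nat_lit 115548341017) (nat_lit 76) (nat_lit 97989813884) (nat_lit 152) (nat_lit 198133672269) (nat_lit 13) (nat_lit 5) (nat_lit 14) (nat_lit 5) (nat_lit 15) (nat_lit 4) (nat_lit 373) (nat_lit 337) (nat_lit 190))) (XT.nd (nat_lit 78) (nat_lit 76) (nat_lit 0) (XT.lf (nat_lit 0) (nat_lit 296571836503) (nat_lit 76) (nat_lit 3996987963) (nat_lit 152) (nat_lit 136419483135) (nat_lit 13) (nat_lit 5) (nat_lit 14) (nat_lit 5) (nat_lit 15) (nat_lit 4) (nat_lit 374) (nat_lit 337) (nat_lit 189)) (XT.lf (nat_lit 0) (nat_lit 26739153244) (nat_lit 76) (nat_lit 370810947575) (nat_lit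 76) (nat_lit 66540953519) (nat_lit 12) (nat_lit 4) (nat_lit 13) (nat_lit 5) (nat_lit 13) (nat_lit 4) (nat_lit 375) (nat_lit 337) (nat_lit 188))))) (XT.nd (nat_lit 312) (nat_lit 152) (nat_lit 0) (XT.nd (nat_lit 156) (nat_lit 76) (nat_lit 0) (XT.nd (nat_lit 78) (nat_lit 0) (nat_lit 0) (XT.lf (nat_lit 0) (nat_lit 12523856651) (nat_lit 152) (nat_lit 278220608154) (nat_lit 76) (nat_lit 202276970436) (nat_lit 11) (nat_lit 5) (nat_lit 13) (nat_lit 5) (nat_lit 12) (nat_lit 4) (nat_lit 376) (nat_lit 337) (nat_lit 187)) (XT.lf (nat_lit 0) (nat_lit 94318756626) (nat_lit 152) (nat_lit 108087434665) (nat_lit 76) (nat_lit 321721800927) (nat_lit 11) (nat_lit 5) (nat_lit 13) (nat_lit 5) (nat_lit 12) (nat_lit 4) (nat_lit 377) (nat_lit 337) (nat_lit 186))) (XT.nd (nat_lit 78) (nat_lit 0) (nat_lit 0) (XT.lf (nat_lit 0) (nat_lit 79640045089) (nat_lit 76) (nat_lit 104932404820) (nat_lit 152) (nat_lit 372997407834)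 (nat_lit 10) (nat_lit 5) (nat_lit 11) (nat_lit 5) (nat_lit 12) (nat_lit 4) (nat_lit 378) (nat_lit 337) (nat_lit 185)) (XT.lf (nat_lit 0) (nat_lit 285086519431) (nat_lit 152) (nat_lit 305003084695) (nat_lit 0) (nat_lit 3354262010) (nat_lit 10) (nat_lit 5) (nat_lit 12) (nat_lit 4) (nat_lit 10) (nat_lit 4) (nat_lit 379) (nat_lit 337) (nat_lit 184)))) (XT.nd (nat_lit 156) (nat_lit 76) (nat_lit 0) (XT.nd (nat_lit 78) (nat_lit 76) (nat_lit 0) (XT.lf (nat_lit 0) (nat_lit 396367099921) (nat_lit 152) (nat_lit 120967982600) (nat_lit 0) (nat_lit 114634681927) (nat_lit 10) (nat_lit 5) (nat_lit 12) (nat_lit 4) (nat_lit 10) (nat_lit 4) (nat_lit 380) (nat_lit 337) (nat_lit 183)) (XT.lf (nat_lit 0) (nat_lit 81885966560) (nat_lit 76) (nat_lit 436633397902) (nat_lit 76) (nat_lit 154900831230) (nat_lit 9) (nat_lit 4) (nat_lit 10) (nat_lit 5) (nat_lit 10) (nat_lit 4) (nat_lit 381) (nat_lit 337) (nat_lit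 182))) (XT.nd (nat_lit 78) (nat_lit 76) (nat_lit 0) (XT.lf (nat_lit 0) (nat_lit 307847565013) (nat_lit 76) (nat_lit 345903605982) (nat_lit 76) (nat_lit 64170901644) (nat_lit 9) (nat_lit 4) (nat_lit 10) (nat_lit 5) (nat_lit 10) (nat_lit 4) (nat_lit 382) (nat_lit 337) (nat_lit 181)) (XT.nd (nat_lit 78) (nat_lit 0) (nat_lit 0) (XT.lf (nat_lit 0) (nat_lit 32125625543) (nat_lit 152) (nat_lit 214911530674) (nat_lit 76) (nat_lit 518881887786) (nat_lit 8) (nat_lit 5) (nat_lit 10) (nat_lit 5) (nat_lit 9) (nat_lit 4) (nat_lit 383) (nat_lit 337) (nat_lit 180)) (XT.lf (nat_lit 0) (nat_lit 132658875423) (nat_lit 152) (nat_lit 5802488949) (nat_lit 76) (nat_lit 679161074948) (nat_lit 8) (nat_lit 5) (nat_lit 10) (nat_lit 5) (nat_lit 9) (nat_lit 4) (nat_lit 384) (nat_lit 337) (nat_lit 179))))))))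
noncomputable def xc198 : XT := (XT.nd (nat_lit 1326) (nat_lit 0) (nat_lit 0) (XT.nd (nat_lit 624) (nat_lit 152) (nat_lit 0) (XT.nd (nat_lit 312) (nat_lit 152) (nat_lit 0) (XT.nd (nat_lit 156) (nat_lit 0) (nat_lit 0) (XT.nd (nat_lit 78) (nat_lit 0) (nat_lit 0) (XT.lf (nat_lit 0) (nat_lit 231621752081) (nat_lit 76) (nat_lit 15183445608) (nat_lit 152) (nat_lit 626211275633) (nat_lit 7) (nat_lit 5) (nat_lit 8) (nat_lit 5) (nat_lit 9) (nat_lit 4) (nat_lit 385) (nat_lit 337) (nat_lit 178)) (XT.lf (nat_lit 0) (nat_lit 373082763017) (nat_lit 152) (nat_lit 447300578391) (nat_lit 0) (nat_lit 112218725701) (nat_lit 7) (nat_lit 5) (nat_lit 9) (nat_lit 4) (nat_lit 7) (nat_lit 4) (nat_lit 386) (nat_lit 337) (nat_lit 177))) (XT.nd (nat_lit 78) (nat_lit 0) (nat_lit 0) (XT.lf (nat_lit 0) (nat_lit 509856820383) (nat_lit 152) (nat_lit 238073448800) (nat_lit 0) (nat_lit 248992696315) (nat_lit 7) (nat_lit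 5) (nat_lit 9) (nat_lit 4) (nat_lit 7) (nat_lit 4) (nat_lit 387) (nat_lit 337) (nat_lit 176)) (XT.lf (nat_lit 0) (nat_lit 657572720489) (nat_lit 152) (nat_lit 12108305765) (nat_lit 0) (nat_lit 396708516093) (nat_lit 7) (nat_lit 5) (nat_lit 9) (nat_lit 4) (nat_lit 7) (nat_lit 4) (nat_lit 388) (nat_lit 337) (nat_lit 175)))) (XT.nd (nat_lit 156) (nat_lit 76) (nat_lit 0) (XT.nd (nat_lit 78) (nat_lit 0) (nat_lit 0) (XT.lf (nat_lit 0) (nat_lit 244147131745) (nat_lit 76) (nat_lit 578830429460) (nat_lit 76) (nat_lit 317966150689) (nat_lit 6) (nat_lit 4) (nat_lit 7) (nat_lit 5) (nat_lit 7) (nat_lit 4) (nat_lit 389) (nat_lit 337) (nat_lit 174)) (XT.lf (nat_lit 0) (nat_lit 521591472713) (nat_lit 76) (nat_lit 480354305423) (nat_lit 76) (nat_lit 219489957785) (nat_lit 6) (nat_lit 4) (nat_lit 7) (nat_lit 5) (nat_lit 7) (nat_lit 4) (nat_lit 390) (nat_lit 337) (nat_lit 173))) (XT.nd (nat_lit 78) (nat_lit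 76) (nat_lit 0) (XT.lf (nat_lit 0) (nat_lit 821231229828) (nat_lit 76) (nat_lit 374000154465) (nat_lit 76) (nat_lit 113135743061) (nat_lit 6) (nat_lit 4) (nat_lit 7) (nat_lit 5) (nat_lit 7) (nat_lit 4) (nat_lit 391) (nat_lit 337) (nat_lit 172)) (XT.lf (nat_lit 0) (nat_lit 1640362119) (nat_lit 152) (nat_lit 257452517238) (nat_lit 76) (nat_lit 1143156833569) (nat_lit 5) (nat_lit 5) (nat_lit 7) (nat_lit 5) (nat_lit 6) (nat_lit 4) (nat_lit 392) (nat_lit 337) (nat_lit 171))))) (XT.nd (nat_lit 312) (nat_lit 76) (nat_lit 0) (XT.nd (nat_lit 156) (nat_lit 0) (nat_lit 0) (XT.nd (nat_lit 78) (nat_lit 76) (nat_lit 0) (XT.lf (nat_lit 0) (nat_lit 119486227044) (nat_lit 152) (nat_lit 12333172861) (nat_lit 76) (nat_lit 1371588423002) (nat_lit 5) (nat_lit 5) (nat_lit 7) (nat_lit 5) (nat_lit 6) (nat_lit 4) (nat_lit 393) (nat_lit 337) (nat_lit 170)) (XT.lf (nat_lit 0) (nat_lit 253450979518) (nat_lit 152)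 (nat_lit 1346762599033) (nat_lit 0) (nat_lit 11909705690) (nat_lit 4) (nat_lit 5) (nat_lit 6) (nat_lit 4) (nat_lit 4) (nat_lit 4) (nat_lit 394) (nat_lit 337) (nat_lit 169))) (XT.nd (nat_lit 78) (nat_lit 0) (nat_lit 0) (XT.lf (nat_lit 0) (nat_lit 401902707109) (nat_lit 152) (nat_lit 1166970301919) (nat_lit 0) (nat_lit 160361389884) (nat_lit 4) (nat_lit 5) (nat_lit 6) (nat_lit 4) (nat_lit 4) (nat_lit 4) (nat_lit 395) (nat_lit 337) (nat_lit 168)) (XT.lf (nat_lit 0) (nat_lit 562230521868) (nat_lit 152) (nat_lit 972794720531) (nat_lit 0) (nat_lit 320689164460) (nat_lit 4) (nat_lit 5) (nat_lit 6) (nat_lit 4) (nat_lit 4) (nat_lit 4) (nat_lit 396) (nat_lit 337) (nat_lit 167)))) (XT.nd (nat_lit 156) (nat_lit 76) (nat_lit 0) (XT.nd (nat_lit 78) (nat_lit 0) (nat_lit 0) (XT.lf (nat_lit 0) (nat_lit 735384514550) (nat_lit 152) (nat_lit 763085184757) (nat_lit 0) (nat_lit 493843119935) (nat_lit 4) (nat_lit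 5) (nat_lit 6) (nat_lit 4) (nat_lit 4) (nat_lit 4) (nat_lit 397) (nat_lit 337) (nat_lit 166)) (XT.lf (nat_lit 0) (nat_lit 922390782889) (nat_lit 152) (nat_lit 536598971421) (nat_lit 0) (nat_lit 680849353823) (nat_lit 4) (nat_lit 5) (nat_lit 6) (nat_lit 4) (nat_lit 4) (nat_lit 4) (nat_lit 398) (nat_lit 337) (nat_lit 165))) (XT.nd (nat_lit 78) (nat_lit 76) (nat_lit 0) (XT.lf (nat_lit 0) (nat_lit 1124357512178) (nat_lit 152) (nat_lit 291993940001) (nat_lit 0) (nat_lit 882816051214) (nat_lit 4) (nat_lit 5) (nat_lit 6) (nat_lit 4) (nat_lit 4) (nat_lit 4) (nat_lit 399) (nat_lit 337) (nat_lit 164)) (XT.nd (nat_lit 78) (nat_lit 76) (nat_lit 0) (XT.lf (nat_lit 0) (nat_lit 1342481542296) (nat_lit 152) (nat_lit 27820579199) (nat_lit 0) (nat_lit 1100940051795) (nat_lit 4) (nat_lit 5) (nat_lit 6) (nat_lit 4) (nat_lit 4) (nat_lit 4) (nat_lit 400) (nat_lit 337) (nat_lit 163)) (XT.lf (nat_lit 0) (nat_lit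 271045369893) (nat_lit 76) (nat_lit 1313528737857) (nat_lit 76) (nat_lit 1071987220009) (nat_lit 3) (nat_lit 4) (nat_lit 4) (nat_lit 5) (nat_lit 4) (nat_lit 4) (nat_lit 401) (nat_lit 337) (nat_lit 162))))))) (XT.nd (nat_lit 41964) (nat_lit 0) (nat_lit 2888) (XT.nd (nat_lit 312) (nat_lit 0) (nat_lit 0) (XT.nd (nat_lit 156) (nat_lit 0) (nat_lit 0) (XT.nd (nat_lit 78) (nat_lit 0) (nat_lit 0) (XT.lf (nat_lit 0) (nat_lit 595402709905) (nat_lit 76) (nat_lit 1251391998724) (nat_lit 76) (nat_lit 1009850455554) (nat_lit 3) (nat_lit 4) (nat_lit 4) (nat_lit 5) (nat_lit 4) (nat_lit 4) (nat_lit 402) (nat_lit 337) (nat_lit 161)) (XT.lf (nat_lit 0) (nat_lit 945708576005) (nat_lit 76) (nat_lit 1184284350322) (nat_lit 76) (nat_lit 942742783705) (nat_lit 3) (nat_lit 4) (nat_lit 4) (nat_lit 5) (nat_lit 4) (nat_lit 4) (nat_lit 403) (nat_lit 337) (nat_lit 160))) (XT.nd (nat_lit 78) (nat_lit 0) (nat_lit 0)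 (XT.lf (nat_lit 0) (nat_lit 1324038854809) (nat_lit 76) (nat_lit 1111808117696) (nat_lit 76) (nat_lit 870266529370) (nat_lit 3) (nat_lit 4) (nat_lit 4) (nat_lit 5) (nat_lit 4) (nat_lit 4) (nat_lit 404) (nat_lit 337) (nat_lit 159)) (XT.lf (nat_lit 0) (nat_lit 1732635503525) (nat_lit 76) (nat_lit 1033533812062) (nat_lit 76) (nat_lit 791992203634) (nat_lit 3) (nat_lit 4) (nat_lit 4) (nat_lit 5) (nat_lit 4) (nat_lit 4) (nat_lit 405) (nat_lit 337) (nat_lit 158)))) (XT.nd (nat_lit 156) (nat_lit 0) (nat_lit 0) (XT.nd (nat_lit 78) (nat_lit 0) (nat_lit 0) (XT.lf (nat_lit 0) (nat_lit 2173919835625) (nat_lit 76) (nat_lit 948997585681) (nat_lit 76) (nat_lit 707455958640) (nat_lit 3) (nat_lit 4) (nat_lit 4) (nat_lit 5) (nat_lit 4) (nat_lit 4) (nat_lit 406) (nat_lit 337) (nat_lit 157)) (XT.lf (nat_lit 0) (nat_lit 2650506869375) (nat_lit 76) (nat_lit 857698483138) (nat_lit 76) (nat_lit 616156838864)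 (nat_lit 3) (nat_lit 4) (nat_lit 4) (nat_lit 5) (nat_lit 4) (nat_lit 4) (nat_lit 407) (nat_lit 337) (nat_lit 156))) (XT.nd (nat_lit 41418) (nat_lit 0) (nat_lit 3496) (XT.lf (nat_lit 0) (nat_lit 3165220824233) (nat_lit 76) (nat_lit 759095472715) (nat_lit 76) (nat_lit 517553812483) (nat_lit 3) (nat_lit 4) (nat_lit 4) (nat_lit 5) (nat_lit 4) (nat_lit 4) (nat_lit 408) (nat_lit 337) (nat_lit 155)) (XT.lf (nat_lit 0) (nat_lit 26189341127) (nat_lit 532) (nat_lit 5906527927) (nat_lit 532) (nat_lit 5906527927) (nat_lit 49) (nat_lit 3) (nat_lit 56) (nat_lit 3) (nat_lit 56) (nat_lit 5) (nat_lit 338) (nat_lit 338) (nat_lit 224))))) (XT.nd (nat_lit 312) (nat_lit 608) (nat_lit 0) (XT.nd (nat_lit 156) (nat_lit 0) (nat_lit 76) (XT.nd (nat_lit 78) (nat_lit 0) (nat_lit 76) (XT.lf (nat_lit 76) (nat_lit 24704235565) (nat_lit 0) (nat_lit 30374148266) (nat_lit 532) (nat_lit 23918211593) (nat_lit 50) (nat_lit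 5) (nat_lit 49) (nat_lit 3) (nat_lit 56) (nat_lit 5) (nat_lit 339) (nat_lit 338) (nat_lit 223)) (XT.lf (nat_lit 0) (nat_lit 58472275389) (nat_lit 456) (nat_lit 17544133891) (nat_lit 532) (nat_lit 6173077212) (nat_lit 50) (nat_lit 5) (nat_lit 56) (nat_lit 5) (nat_lit 57) (nat_lit 5) (nat_lit 340) (nat_lit 338) (nat_lit 222))) (XT.nd (nat_lit 78) (nat_lit 0) (nat_lit 0) (XT.lf (nat_lit 76) (nat_lit 22478853782) (nat_lit 0) (nat_lit 40987412473) (nat_lit 532) (nat_lit 22065257955) (nat_lit 51) (nat_lit 5) (nat_lit 50) (nat_lit 5) (nat_lit 57) (nat_lit 5) (nat_lit 341) (nat_lit 338) (nat_lit 221)) (XT.lf (nat_lit 76) (nat_lit 66700806371) (nat_lit 0) (nat_lit 2637746505) (nat_lit 532) (nat_lit 19764072178) (nat_lit 51) (nat_lit 5) (nat_lit 50) (nat_lit 5) (nat_lit 57) (nat_lit 5) (nat_lit 342) (nat_lit 338) (nat_lit 220)))) (XT.nd (nat_lit 156) (nat_lit 760) (nat_lit 0) (XT.nd (nat_lit 78)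 (nat_lit 0) (nat_lit 0) (XT.lf (nat_lit 76) (nat_lit 21650852979) (nat_lit 0) (nat_lit 55482292989) (nat_lit 532) (nat_lit 15710068175) (nat_lit 52) (nat_lit 5) (nat_lit 51) (nat_lit 5) (nat_lit 58) (nat_lit 5) (nat_lit 343) (nat_lit 338) (nat_lit 219)) (XT.lf (nat_lit 76) (nat_lit 70428991331) (nat_lit 0) (nat_lit 15800808336) (nat_lit 532) (nat_lit 10598973148) (nat_lit 52) (nat_lit 5) (nat_lit 51) (nat_lit 5) (nat_lit 58) (nat_lit 5) (nat_lit 344) (nat_lit 338) (nat_lit 218))) (XT.nd (nat_lit 78) (nat_lit 380) (nat_lit 0) (XT.lf (nat_lit 0) (nat_lit 22447802296) (nat_lit 456) (nat_lit 74796202962) (nat_lit 532) (nat_lit 3793987122) (nat_lit 46) (nat_lit 5) (nat_lit 52) (nat_lit 5) (nat_lit 53) (nat_lit 5) (nat_lit 345) (nat_lit 338) (nat_lit 217)) (XT.nd (nat_lit 78) (nat_lit 304) (nat_lit 0) (XT.lf (nat_lit 0) (nat_lit 4527808777) (nat_lit 532) (nat_lit 29336975398) (nat_lit 76) (nat_lit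 71620304947) (nat_lit 45) (nat_lit 5) (nat_lit 52) (nat_lit 5) (nat_lit 46) (nat_lit 5) (nat_lit 346) (nat_lit 338) (nat_lit 216)) (XT.lf (nat_lit 0) (nat_lit 14178056124) (nat_lit 380) (nat_lit 85490551573) (nat_lit 76) (nat_lit 10542049170) (nat_lit 41) (nat_lit 5) (nat_lit 46) (nat_lit 5) (nat_lit 42) (nat_lit 5) (nat_lit 347) (nat_lit 338) (nat_lit 215))))))))
noncomputable def xc199 : XT := (XT.nd (nat_lit 1326) (nat_lit 912) (nat_lit 0) (XT.nd (nat_lit 624) (nat_lit 608) (nat_lit 0) (XT.nd (nat_lit 312) (nat_lit 456) (nat_lit 0) (XT.nd (nat_lit 156) (nat_lit 228) (nat_lit 0) (XT.nd (nat_lit 78) (nat_lit 228) (nat_lit 0) (XT.lf (nat_lit 0) (nat_lit 26302264673) (nat_lit 380) (nat_lit 31381028959) (nat_lit 76) (nat_lit 57494822385) (nat_lit 41) (nat_lit 5) (nat_lit 46) (nat_lit 5) (nat_lit 42) (nat_lit 5) (nat_lit 348) (nat_lit 338) (nat_lit 214)) (XT.lf (nat_lit 0) (nat_lit 28481397394)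 (nat_lit 228) (nat_lit 11599414249) (nat_lit 304) (nat_lit 80407409320) (nat_lit 38) (nat_lit 5) (nat_lit 41) (nat_lit 5) (nat_lit 42) (nat_lit 5) (nat_lit 349) (nat_lit 338) (nat_lit 213))) (XT.nd (nat_lit 78) (nat_lit 228) (nat_lit 0) (XT.lf (nat_lit 0) (nat_lit 56759409656) (nat_lit 304) (nat_lit 32177953418) (nat_lit 76) (nat_lit 37141950961) (nat_lit 38) (nat_lit 5) (nat_lit 42) (nat_lit 5) (nat_lit 39) (nat_lit 5) (nat_lit 350) (nat_lit 338) (nat_lit 212)) (XT.lf (nat_lit 0) (nat_lit 33827539702) (nat_lit 228) (nat_lit 42059083735) (nat_lit 304) (nat_lit 56141925912) (nat_lit 35) (nat_lit 5) (nat_lit 38) (nat_lit 5) (nat_lit 39) (nat_lit 5) (nat_lit 351) (nat_lit 338) (nat_lit 211)))) (XT.nd (nat_lit 156) (nat_lit 304) (nat_lit 0) (XT.nd (nat_lit 78) (nat_lit 152) (nat_lit 0) (XT.lf (nat_lit 0) (nat_lit 97652277079) (nat_lit 304) (nat_lit 31669442148) (nat_lit 76) (nat_lit 9043344196)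 (nat_lit 35) (nat_lit 5) (nat_lit 39) (nat_lit 5) (nat_lit 36) (nat_lit 5) (nat_lit 352) (nat_lit 338) (nat_lit 210)) (XT.lf (nat_lit 0) (nat_lit 41150132802) (nat_lit 152) (nat_lit 82090704523) (nat_lit 228) (nat_lit 21801129836) (nat_lit 33) (nat_lit 5) (nat_lit 35) (nat_lit 5) (nat_lit 36) (nat_lit 5) (nat_lit 353) (nat_lit 338) (nat_lit 209))) (XT.nd (nat_lit 78) (nat_lit 304) (nat_lit 0) (XT.lf (nat_lit 0) (nat_lit 121595786912) (nat_lit 152) (nat_lit 30146163090) (nat_lit 228) (nat_lit 441836608) (nat_lit 33) (nat_lit 5) (nat_lit 35) (nat_lit 5) (nat_lit 36) (nat_lit 5) (nat_lit 354) (nat_lit 338) (nat_lit 208)) (XT.lf (nat_lit 0) (nat_lit 23379933474) (nat_lit 304) (nat_lit 109861170655) (nat_lit 76) (nat_lit 26461468330) (nat_lit 29) (nat_lit 5) (nat_lit 33) (nat_lit 5) (nat_lit 30) (nat_lit 5) (nat_lit 355) (nat_lit 338) (nat_lit 207))))) (XT.nd (nat_lit 312) (nat_lit 304) (nat_lit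 0) (XT.nd (nat_lit 156) (nat_lit 152) (nat_lit 0) (XT.nd (nat_lit 78) (nat_lit 152) (nat_lit 0) (XT.lf (nat_lit 0) (nat_lit 50724249133) (nat_lit 304) (nat_lit 30128001526) (nat_lit 76) (nat_lit 86838439093) (nat_lit 29) (nat_lit 5) (nat_lit 33) (nat_lit 5) (nat_lit 30) (nat_lit 5) (nat_lit 356) (nat_lit 338) (nat_lit 206)) (XT.lf (nat_lit 0) (nat_lit 58931291452) (nat_lit 152) (nat_lit 22741751293) (nat_lit 228) (nat_lit 94531459670) (nat_lit 27) (nat_lit 5) (nat_lit 29) (nat_lit 5) (nat_lit 30) (nat_lit 5) (nat_lit 357) (nat_lit 338) (nat_lit 205))) (XT.nd (nat_lit 78) (nat_lit 152) (nat_lit 0) (XT.lf (nat_lit 0) (nat_lit 116904958253) (nat_lit 228) (nat_lit 29489129681) (nat_lit 76) (nat_lit 38860755242) (nat_lit 27) (nat_lit 5) (nat_lit 30) (nat_lit 5) (nat_lit 28) (nat_lit 5) (nat_lit 358) (nat_lit 338) (nat_lit 204)) (XT.lf (nat_lit 0) (nat_lit 68134881054) (nat_lit 152) (nat_lit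 89049557905) (nat_lit 228) (nat_lit 37666451798) (nat_lit 25) (nat_lit 5) (nat_lit 27) (nat_lit 5) (nat_lit 28) (nat_lit 5) (nat_lit 359) (nat_lit 338) (nat_lit 203)))) (XT.nd (nat_lit 156) (nat_lit 152) (nat_lit 0) (XT.nd (nat_lit 78) (nat_lit 152) (nat_lit 0) (XT.lf (nat_lit 0) (nat_lit 175245412948) (nat_lit 152) (nat_lit 26246834786) (nat_lit 228) (nat_lit 3657897317) (nat_lit 25) (nat_lit 5) (nat_lit 27) (nat_lit 5) (nat_lit 28) (nat_lit 5) (nat_lit 360) (nat_lit 338) (nat_lit 202)) (XT.lf (nat_lit 0) (nat_lit 34355664698) (nat_lit 152) (nat_lit 139384643001) (nat_lit 76) (nat_lit 42234308227) (nat_lit 23) (nat_lit 5) (nat_lit 25) (nat_lit 5) (nat_lit 24) (nat_lit 5) (nat_lit 361) (nat_lit 338) (nat_lit 201))) (XT.nd (nat_lit 78) (nat_lit 152) (nat_lit 0) (XT.lf (nat_lit 0) (nat_lit 76733019971) (nat_lit 152) (nat_lit 35093115643) (nat_lit 76) (nat_lit 115709682030) (nat_lit 23)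 (nat_lit 5) (nat_lit 25) (nat_lit 5) (nat_lit 24) (nat_lit 5) (nat_lit 362) (nat_lit 338) (nat_lit 200)) (XT.nd (nat_lit 78) (nat_lit 0) (nat_lit 0) (XT.lf (nat_lit 0) (nat_lit 81624493789) (nat_lit 152) (nat_lit 42838870361) (nat_lit 228) (nat_lit 115401527661) (nat_lit 21) (nat_lit 5) (nat_lit 23) (nat_lit 5) (nat_lit 24) (nat_lit 5) (nat_lit 363) (nat_lit 338) (nat_lit 199)) (XT.lf (nat_lit 0) (nat_lit 177757902969) (nat_lit 228) (nat_lit 44215200605) (nat_lit 76) (nat_lit 31067527293) (nat_lit 21) (nat_lit 5) (nat_lit 24) (nat_lit 5) (nat_lit 22) (nat_lit 4) (nat_lit 364) (nat_lit 338) (nat_lit 198))))))) (XT.nd (nat_lit 702) (nat_lit 380) (nat_lit 0) (XT.nd (nat_lit 312) (nat_lit 228) (nat_lit 0) (XT.nd (nat_lit 156) (nat_lit 152) (nat_lit 0) (XT.nd (nat_lit 78) (nat_lit 76) (nat_lit 0) (XT.lf (nat_lit 0) (nat_lit 81916718427) (nat_lit 76) (nat_lit 156481838717) (nat_lit 152) (nat_lit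 28625268025) (nat_lit 20) (nat_lit 5) (nat_lit 21) (nat_lit 5) (nat_lit 22) (nat_lit 4) (nat_lit 365) (nat_lit 338) (nat_lit 197)) (XT.lf (nat_lit 0) (nat_lit 21916105845) (nat_lit 152) (nat_lit 61930462007) (nat_lit 76) (nat_lit 198138025519) (nat_lit 19) (nat_lit 5) (nat_lit 21) (nat_lit 5) (nat_lit 20) (nat_lit 5) (nat_lit 366) (nat_lit 338) (nat_lit 196))) (XT.nd (nat_lit 78) (nat_lit 0) (nat_lit 0) (XT.lf (nat_lit 0) (nat_lit 74061270451) (nat_lit 152) (nat_lit 2673962056) (nat_lit 228) (nat_lit 221205033617) (nat_lit 17) (nat_lit 5) (nat_lit 19) (nat_lit 5) (nat_lit 20) (nat_lit 5) (nat_lit 367) (nat_lit 338) (nat_lit 195)) (XT.lf (nat_lit 0) (nat_lit 139721009707) (nat_lit 228) (nat_lit 92670979466) (nat_lit 76) (nat_lit 82477914111) (nat_lit 17) (nat_lit 5) (nat_lit 20) (nat_lit 5) (nat_lit 18) (nat_lit 4) (nat_lit 368) (nat_lit 338) (nat_lit 194)))) (XT.nd (nat_lit 156) (nat_lit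 152) (nat_lit 0) (XT.nd (nat_lit 78) (nat_lit 0) (nat_lit 0) (XT.lf (nat_lit 0) (nat_lit 51542223804) (nat_lit 76) (nat_lit 157512266657) (nat_lit 152) (nat_lit 123994713851) (nat_lit 16) (nat_lit 5) (nat_lit 17) (nat_lit 5) (nat_lit 18) (nat_lit 4) (nat_lit 369) (nat_lit 338) (nat_lit 193)) (XT.lf (nat_lit 0) (nat_lit 212562421495) (nat_lit 76) (nat_lit 73905819947) (nat_lit 152) (nat_lit 66011920829) (nat_lit 16) (nat_lit 5) (nat_lit 17) (nat_lit 5) (nat_lit 18) (nat_lit 4) (nat_lit 370) (nat_lit 338) (nat_lit 192))) (XT.nd (nat_lit 78) (nat_lit 76) (nat_lit 0) (XT.lf (nat_lit 0) (nat_lit 13267862360) (nat_lit 76) (nat_lit 357520296138) (nat_lit 76) (nat_lit 2620393265) (nat_lit 15) (nat_lit 4) (nat_lit 16) (nat_lit 5) (nat_lit 16) (nat_lit 4) (nat_lit 371) (nat_lit 338) (nat_lit 191)) (XT.nd (nat_lit 78) (nat_lit 0) (nat_lit 0) (XT.lf (nat_lit 0) (nat_lit 68393162593) (nat_lit 152)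 (nat_lit 212642445663) (nat_lit 76) (nat_lit 114381370300) (nat_lit 14) (nat_lit 5) (nat_lit 16) (nat_lit 5) (nat_lit 15) (nat_lit 4) (nat_lit 372) (nat_lit 338) (nat_lit 190)) (XT.lf (nat_lit 0) (nat_lit 144946062831) (nat_lit 152) (nat_lit 53412710378) (nat_lit 76) (nat_lit 220821875115) (nat_lit 14) (nat_lit 5) (nat_lit 16) (nat_lit 5) (nat_lit 15) (nat_lit 4) (nat_lit 373) (nat_lit 338) (nat_lit 189)))))) (XT.nd (nat_lit 312) (nat_lit 152) (nat_lit 0) (XT.nd (nat_lit 156) (nat_lit 152) (nat_lit 0) (XT.nd (nat_lit 78) (nat_lit 0) (nat_lit 0) (XT.lf (nat_lit 0) (nat_lit 124798023141) (nat_lit 76) (nat_lit 105826409263) (nat_lit 152) (nat_lit 213980880412) (nat_lit 13) (nat_lit 5) (nat_lit 14) (nat_lit 5) (nat_lit 15) (nat_lit 4) (nat_lit 374) (nat_lit 338) (nat_lit 188)) (XT.lf (nat_lit 0) (nat_lit 320302967538) (nat_lit 76) (nat_lit 4314349100) (nat_lit 152) (nat_lit 147329814343)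 (nat_lit 13) (nat_lit 5) (nat_lit 14) (nat_lit 5) (nat_lit 15) (nat_lit 4) (nat_lit 375) (nat_lit 338) (nat_lit 187))) (XT.nd (nat_lit 78) (nat_lit 76) (nat_lit 0) (XT.lf (nat_lit 0) (nat_lit 28883712223) (nat_lit 76) (nat_lit 400473345585) (nat_lit 76) (nat_lit 71861042804) (nat_lit 12) (nat_lit 4) (nat_lit 13) (nat_lit 5) (nat_lit 13) (nat_lit 4) (nat_lit 376) (nat_lit 338) (nat_lit 186)) (XT.lf (nat_lit 0) (nat_lit 13528568489) (nat_lit 152) (nat_lit 300473082598) (nat_lit 76) (nat_lit 218461272858) (nat_lit 11) (nat_lit 5) (nat_lit 13) (nat_lit 5) (nat_lit 12) (nat_lit 4) (nat_lit 377) (nat_lit 338) (nat_lit 185)))) (XT.nd (nat_lit 156) (nat_lit 76) (nat_lit 0) (XT.nd (nat_lit 78) (nat_lit 76) (nat_lit 0) (XT.lf (nat_lit 0) (nat_lit 101866852809) (nat_lit 152) (nat_lit 116729638504) (nat_lit 76) (nat_lit 347461530916) (nat_lit 11) (nat_lit 5) (nat_lit 13) (nat_lit 5) (nat_lit 12)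 (nat_lit 4) (nat_lit 378) (nat_lit 338) (nat_lit 184)) (XT.lf (nat_lit 0) (nat_lit 86015918341) (nat_lit 76) (nat_lit 113324843249) (nat_lit 152) (nat_lit 402834481931) (nat_lit 10) (nat_lit 5) (nat_lit 11) (nat_lit 5) (nat_lit 12) (nat_lit 4) (nat_lit 379) (nat_lit 338) (nat_lit 183))) (XT.nd (nat_lit 78) (nat_lit 76) (nat_lit 0) (XT.lf (nat_lit 0) (nat_lit 307895818291) (nat_lit 152) (nat_lit 329398867874) (nat_lit 0) (nat_lit 3624497607) (nat_lit 10) (nat_lit 5) (nat_lit 12) (nat_lit 4) (nat_lit 10) (nat_lit 4) (nat_lit 380) (nat_lit 338) (nat_lit 182)) (XT.nd (nat_lit 78) (nat_lit 76) (nat_lit 0) (XT.lf (nat_lit 0) (nat_lit 428078669124) (nat_lit 152) (nat_lit 130641288248) (nat_lit 0) (nat_lit 123807210774) (nat_lit 10) (nat_lit 5) (nat_lit 12) (nat_lit 4) (nat_lit 10) (nat_lit 4) (nat_lit 381) (nat_lit 338) (nat_lit 181)) (XT.lf (nat_lit 0) (nat_lit 88440872212) (nat_lit 76) (nat_lit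 471562176445) (nat_lit 76) (nat_lit 167290590628) (nat_lit 9) (nat_lit 4) (nat_lit 10) (nat_lit 5) (nat_lit 10) (nat_lit 4) (nat_lit 382) (nat_lit 338) (nat_lit 180))))))))
noncomputable def xc200 : XT := (XT.nd (nat_lit 1326) (nat_lit 76) (nat_lit 0) (XT.nd (nat_lit 624) (nat_lit 152) (nat_lit 0) (XT.nd (nat_lit 312) (nat_lit 76) (nat_lit 0) (XT.nd (nat_lit 156) (nat_lit 76) (nat_lit 0) (XT.nd (nat_lit 78) (nat_lit 76) (nat_lit 0) (XT.lf (nat_lit 0) (nat_lit 332479100147) (nat_lit 76) (nat_lit 373574141414) (nat_lit 76) (nat_lit 69302437572) (nat_lit 9) (nat_lit 4) (nat_lit 10) (nat_lit 5) (nat_lit 10) (nat_lit 4) (nat_lit 383) (nat_lit 338) (nat_lit 179)) (XT.lf (nat_lit 0) (nat_lit 34697554607) (nat_lit 152) (nat_lit 232100899541) (nat_lit 76) (nat_lit 560393962054) (nat_lit 8) (nat_lit 5) (nat_lit 10) (nat_lit 5) (nat_lit 9) (nat_lit 4) (nat_lit 384) (nat_lit 338) (nat_lit 178)))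 (XT.nd (nat_lit 78) (nat_lit 76) (nat_lit 0) (XT.lf (nat_lit 0) (nat_lit 143273325291) (nat_lit 152) (nat_lit 6263397706) (nat_lit 76) (nat_lit 733495371356) (nat_lit 8) (nat_lit 5) (nat_lit 10) (nat_lit 5) (nat_lit 9) (nat_lit 4) (nat_lit 385) (nat_lit 338) (nat_lit 177)) (XT.lf (nat_lit 0) (nat_lit 250154699306) (nat_lit 76) (nat_lit 16396602286) (nat_lit 152) (nat_lit 676306353692) (nat_lit 7) (nat_lit 5) (nat_lit 8) (nat_lit 5) (nat_lit 9) (nat_lit 4) (nat_lit 386) (nat_lit 338) (nat_lit 176)))) (XT.nd (nat_lit 156) (nat_lit 76) (nat_lit 0) (XT.nd (nat_lit 78) (nat_lit 0) (nat_lit 0) (XT.lf (nat_lit 0) (nat_lit 402930980928) (nat_lit 152) (nat_lit 483081563152) (nat_lit 0) (nat_lit 121197559855) (nat_lit 7) (nat_lit 5) (nat_lit 9) (nat_lit 4) (nat_lit 7) (nat_lit 4) (nat_lit 387) (nat_lit 338) (nat_lit 175)) (XT.lf (nat_lit 0) (nat_lit 550646844597) (nat_lit 152) (nat_lit 257116489972)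 (nat_lit 0) (nat_lit 268913349148) (nat_lit 7) (nat_lit 5) (nat_lit 9) (nat_lit 4) (nat_lit 7) (nat_lit 4) (nat_lit 388) (nat_lit 338) (nat_lit 174))) (XT.nd (nat_lit 78) (nat_lit 76) (nat_lit 0) (XT.lf (nat_lit 0) (nat_lit 710179907186) (nat_lit 152) (nat_lit 13074345474) (nat_lit 0) (nat_lit 428446342870) (nat_lit 7) (nat_lit 5) (nat_lit 9) (nat_lit 4) (nat_lit 7) (nat_lit 4) (nat_lit 389) (nat_lit 338) (nat_lit 173)) (XT.lf (nat_lit 0) (nat_lit 263681460587) (nat_lit 76) (nat_lit 625135634688) (nat_lit 76) (nat_lit 343402006606) (nat_lit 6) (nat_lit 4) (nat_lit 7) (nat_lit 5) (nat_lit 7) (nat_lit 4) (nat_lit 390) (nat_lit 338) (nat_lit 172))))) (XT.nd (nat_lit 312) (nat_lit 76) (nat_lit 0) (XT.nd (nat_lit 156) (nat_lit 76) (nat_lit 0) (XT.nd (nat_lit 78) (nat_lit 0) (nat_lit 0) (XT.lf (nat_lit 0) (nat_lit 563321159329) (nat_lit 76) (nat_lit 518781511775) (nat_lit 76) (nat_lit 237047824651)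 (nat_lit 6) (nat_lit 4) (nat_lit 7) (nat_lit 5) (nat_lit 7) (nat_lit 4) (nat_lit 391) (nat_lit 338) (nat_lit 171)) (XT.lf (nat_lit 0) (nat_lit 886931921546) (nat_lit 76) (nat_lit 403919113042) (nat_lit 76) (nat_lit 122185371249) (nat_lit 6) (nat_lit 4) (nat_lit 7) (nat_lit 5) (nat_lit 7) (nat_lit 4) (nat_lit 392) (nat_lit 338) (nat_lit 170))) (XT.nd (nat_lit 78) (nat_lit 0) (nat_lit 0) (XT.lf (nat_lit 0) (nat_lit 1772674110) (nat_lit 152) (nat_lit 278046630261) (nat_lit 76) (nat_lit 1234610298484) (nat_lit 5) (nat_lit 5) (nat_lit 7) (nat_lit 5) (nat_lit 6) (nat_lit 4) (nat_lit 393) (nat_lit 338) (nat_lit 169)) (XT.lf (nat_lit 0) (nat_lit 129046128006) (nat_lit 152) (nat_lit 13317893027) (nat_lit 76) (nat_lit 1481316347054) (nat_lit 5) (nat_lit 5) (nat_lit 7) (nat_lit 5) (nat_lit 6) (nat_lit 4) (nat_lit 394) (nat_lit 338) (nat_lit 168)))) (XT.nd (nat_lit 156) (nat_lit 0) (nat_lit 0) (XT.nd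 (nat_lit 78) (nat_lit 0) (nat_lit 0) (XT.lf (nat_lit 0) (nat_lit 273728053630) (nat_lit 152) (nat_lit 1454501665848) (nat_lit 0) (nat_lit 12863347446) (nat_lit 4) (nat_lit 5) (nat_lit 6) (nat_lit 4) (nat_lit 4) (nat_lit 4) (nat_lit 395) (nat_lit 338) (nat_lit 167)) (XT.lf (nat_lit 0) (nat_lit 434055845669) (nat_lit 152) (nat_lit 1260326128751) (nat_lit 0) (nat_lit 173191102278) (nat_lit 4) (nat_lit 5) (nat_lit 6) (nat_lit 4) (nat_lit 4) (nat_lit 4) (nat_lit 396) (nat_lit 338) (nat_lit 166))) (XT.nd (nat_lit 78) (nat_lit 0) (nat_lit 0) (XT.lf (nat_lit 0) (nat_lit 607209817314) (nat_lit 152) (nat_lit 1050616633986) (nat_lit 0) (nat_lit 346345039472) (nat_lit 4) (nat_lit 5) (nat_lit 6) (nat_lit 4) (nat_lit 4) (nat_lit 4) (nat_lit 397) (nat_lit 338) (nat_lit 165)) (XT.nd (nat_lit 78) (nat_lit 0) (nat_lit 0) (XT.lf (nat_lit 0) (nat_lit 794216066173) (nat_lit 152) (nat_lit 824130458623) (nat_lit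 0) (nat_lit 533351256433) (nat_lit 4) (nat_lit 5) (nat_lit 6) (nat_lit 4) (nat_lit 4) (nat_lit 4) (nat_lit 398) (nat_lit 338) (nat_lit 164)) (XT.lf (nat_lit 0) (nat_lit 996182777427) (nat_lit 152) (nat_lit 579525462363) (nat_lit 0) (nat_lit 735317938150) (nat_lit 4) (nat_lit 5) (nat_lit 6) (nat_lit 4) (nat_lit 4) (nat_lit 4) (nat_lit 399) (nat_lit 338) (nat_lit 163))))))) (XT.nd (nat_lit 624) (nat_lit 0) (nat_lit 0) (XT.nd (nat_lit 312) (nat_lit 0) (nat_lit 0) (XT.nd (nat_lit 156) (nat_lit 76) (nat_lit 0) (XT.nd (nat_lit 78) (nat_lit 0) (nat_lit 0) (XT.lf (nat_lit 0) (nat_lit 1214306790844) (nat_lit 152) (nat_lit 315352134116) (nat_lit 0) (nat_lit 953441924220) (nat_lit 4) (nat_lit 5) (nat_lit 6) (nat_lit 4) (nat_lit 4) (nat_lit 4) (nat_lit 400) (nat_lit 338) (nat_lit 162)) (XT.lf (nat_lit 0) (nat_lit 1449880693171) (nat_lit 152) (nat_lit 30045002308) (nat_lit 0) (nat_lit 1189015801225)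 (nat_lit 4) (nat_lit 5) (nat_lit 6) (nat_lit 4) (nat_lit 4) (nat_lit 4) (nat_lit 401) (nat_lit 338) (nat_lit 161))) (XT.nd (nat_lit 78) (nat_lit 0) (nat_lit 0) (XT.lf (nat_lit 0) (nat_lit 292730191744) (nat_lit 76) (nat_lit 1418610454311) (nat_lit 76) (nat_lit 1157745538918) (nat_lit 3) (nat_lit 4) (nat_lit 4) (nat_lit 5) (nat_lit 4) (nat_lit 4) (nat_lit 402) (nat_lit 338) (nat_lit 160)) (XT.lf (nat_lit 0) (nat_lit 643036030641) (nat_lit 76) (nat_lit 1351502819201) (nat_lit 76) (nat_lit 1090637882099) (nat_lit 3) (nat_lit 4) (nat_lit 4) (nat_lit 5) (nat_lit 4) (nat_lit 4) (nat_lit 403) (nat_lit 338) (nat_lit 159)))) (XT.nd (nat_lit 156) (nat_lit 0) (nat_lit 0) (XT.nd (nat_lit 78) (nat_lit 0) (nat_lit 0) (XT.lf (nat_lit 0) (nat_lit 1021366284256) (nat_lit 76) (nat_lit 1279026598884) (nat_lit 76) (nat_lit 1018161641680) (nat_lit 3) (nat_lit 4) (nat_lit 4) (nat_lit 5) (nat_lit 4) (nat_lit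 4) (nat_lit 404) (nat_lit 338) (nat_lit 158)) (XT.lf (nat_lit 0) (nat_lit 1429962909648) (nat_lit 76) (nat_lit 1200752304646) (nat_lit 76) (nat_lit 939887328829) (nat_lit 3) (nat_lit 4) (nat_lit 4) (nat_lit 5) (nat_lit 4) (nat_lit 4) (nat_lit 405) (nat_lit 338) (nat_lit 157))) (XT.nd (nat_lit 78) (nat_lit 0) (nat_lit 0) (XT.lf (nat_lit 0) (nat_lit 1871247220153) (nat_lit 76) (nat_lit 1116216088817) (nat_lit 76) (nat_lit 855351095766) (nat_lit 3) (nat_lit 4) (nat_lit 4) (nat_lit 5) (nat_lit 4) (nat_lit 4) (nat_lit 406) (nat_lit 338) (nat_lit 156)) (XT.lf (nat_lit 0) (nat_lit 2347834233907) (nat_lit 76) (nat_lit 1024916996045) (nat_lit 76) (nat_lit 764051987037) (nat_lit 3) (nat_lit 4) (nat_lit 4) (nat_lit 5) (nat_lit 4) (nat_lit 4) (nat_lit 407) (nat_lit 338) (nat_lit 155))))) (XT.nd (nat_lit 41730) (nat_lit 0) (nat_lit 3268) (XT.nd (nat_lit 41574) (nat_lit 0) (nat_lit 3496) (XT.nd (nat_lit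 41496) (nat_lit 0) (nat_lit 3496) (XT.lf (nat_lit 0) (nat_lit 2862548170251) (nat_lit 76) (nat_lit 926313994668) (nat_lit 76) (nat_lit 665448970885) (nat_lit 3) (nat_lit 4) (nat_lit 4) (nat_lit 5) (nat_lit 4) (nat_lit 4) (nat_lit 408) (nat_lit 338) (nat_lit 154)) (XT.lf (nat_lit 0) (nat_lit 28294654720) (nat_lit 532) (nat_lit 6373547693) (nat_lit 532) (nat_lit 6373547693) (nat_lit 49) (nat_lit 3) (nat_lit 56) (nat_lit 3) (nat_lit 56) (nat_lit 5) (nat_lit 339) (nat_lit 339) (nat_lit 222))) (XT.nd (nat_lit 78) (nat_lit 0) (nat_lit 76) (XT.lf (nat_lit 76) (nat_lit 26691300741) (nat_lit 0) (nat_lit 32812438253) (nat_lit 532) (nat_lit 25811010403) (nat_lit 50) (nat_lit 5) (nat_lit 49) (nat_lit 3) (nat_lit 56) (nat_lit 5) (nat_lit 340) (nat_lit 339) (nat_lit 221)) (XT.lf (nat_lit 0) (nat_lit 63167542089) (nat_lit 456) (nat_lit 18936089598) (nat_lit 532) (nat_lit 6659571520) (nat_lit 50) (nat_lit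 5) (nat_lit 56) (nat_lit 5) (nat_lit 57) (nat_lit 5) (nat_lit 341) (nat_lit 339) (nat_lit 220)))) (XT.nd (nat_lit 156) (nat_lit 304) (nat_lit 0) (XT.nd (nat_lit 78) (nat_lit 0) (nat_lit 0) (XT.lf (nat_lit 76) (nat_lit 24288444052) (nat_lit 0) (nat_lit 44271584345) (nat_lit 532) (nat_lit 23812660670) (nat_lit 51) (nat_lit 5) (nat_lit 50) (nat_lit 5) (nat_lit 57) (nat_lit 5) (nat_lit 342) (nat_lit 339) (nat_lit 219)) (XT.lf (nat_lit 76) (nat_lit 72047317146) (nat_lit 0) (nat_lit 2853561478) (nat_lit 532) (nat_lit 21328699878) (nat_lit 51) (nat_lit 5) (nat_lit 50) (nat_lit 5) (nat_lit 57) (nat_lit 5) (nat_lit 343) (nat_lit 339) (nat_lit 218))) (XT.nd (nat_lit 78) (nat_lit 380) (nat_lit 0) (XT.lf (nat_lit 76) (nat_lit 23394440171) (nat_lit 0) (nat_lit 59923640240) (nat_lit 532) (nat_lit 16951413766) (nat_lit 52) (nat_lit 5) (nat_lit 51) (nat_lit 5) (nat_lit 58) (nat_lit 5) (nat_lit 344) (nat_lit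 339) (nat_lit 217)) (XT.nd (nat_lit 78) (nat_lit 380) (nat_lit 0) (XT.lf (nat_lit 76) (nat_lit 76073976336) (nat_lit 0) (nat_lit 17067432087) (nat_lit 532) (nat_lit 11432576312) (nat_lit 52) (nat_lit 5) (nat_lit 51) (nat_lit 5) (nat_lit 58) (nat_lit 5) (nat_lit 345) (nat_lit 339) (nat_lit 216)) (XT.lf (nat_lit 0) (nat_lit 24255144461) (nat_lit 456) (nat_lit 80780846407) (nat_lit 532) (nat_lit 4084014129) (nat_lit 46) (nat_lit 5) (nat_lit 52) (nat_lit 5) (nat_lit 53) (nat_lit 5) (nat_lit 346) (nat_lit 339) (nat_lit 215))))))))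
noncomputable def xc201 : XT := (XT.nd (nat_lit 1326) (nat_lit 988) (nat_lit 0) (XT.nd (nat_lit 624) (nat_lit 760) (nat_lit 0) (XT.nd (nat_lit 312) (nat_lit 380) (nat_lit 0) (XT.nd (nat_lit 156) (nat_lit 228) (nat_lit 0) (XT.nd (nat_lit 78) (nat_lit 304) (nat_lit 0) (XT.lf (nat_lit 0) (nat_lit 4901901109) (nat_lit 532) (nat_lit 31672618363) (nat_lit 76) (nat_lit 77348402028) (nat_lit 45) (nat_lit 5) (nat_lit 52) (nat_lit 5) (nat_lit 46) (nat_lit 5) (nat_lit 347) (nat_lit 339) (nat_lit 214)) (XT.lf (nat_lit 0) (nat_lit 15323548983) (nat_lit 380) (nat_lit 92317837907) (nat_lit 76) (nat_lit 11385199193) (nat_lit 41) (nat_lit 5) (nat_lit 46) (nat_lit 5) (nat_lit 42) (nat_lit 5) (nat_lit 348) (nat_lit 339) (nat_lit 213))) (XT.nd (nat_lit 78) (nat_lit 228) (nat_lit 0) (XT.lf (nat_lit 0) (nat_lit 28416861003) (nat_lit 380) (nat_lit 33880439246) (nat_lit 76) (nat_lit 62094210110) (nat_lit 41)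 (nat_lit 5) (nat_lit 46) (nat_lit 5) (nat_lit 42) (nat_lit 5) (nat_lit 349) (nat_lit 339) (nat_lit 212)) (XT.lf (nat_lit 0) (nat_lit 30770700910) (nat_lit 228) (nat_lit 12526478868) (nat_lit 304) (nat_lit 86829286487) (nat_lit 38) (nat_lit 5) (nat_lit 41) (nat_lit 5) (nat_lit 42) (nat_lit 5) (nat_lit 350) (nat_lit 339) (nat_lit 211)))) (XT.nd (nat_lit 156) (nat_lit 152) (nat_lit 0) (XT.nd (nat_lit 78) (nat_lit 228) (nat_lit 0) (XT.lf (nat_lit 0) (nat_lit 61309351848) (nat_lit 304) (nat_lit 34741464942) (nat_lit 76) (nat_lit 40114088587) (nat_lit 38) (nat_lit 5) (nat_lit 42) (nat_lit 5) (nat_lit 39) (nat_lit 5) (nat_lit 351) (nat_lit 339) (nat_lit 210)) (XT.lf (nat_lit 0) (nat_lit 36544196115) (nat_lit 228) (nat_lit 45422117320) (nat_lit 304) (nat_lit 60623801805) (nat_lit 35) (nat_lit 5) (nat_lit 38) (nat_lit 5) (nat_lit 39) (nat_lit 5) (nat_lit 352) (nat_lit 339) (nat_lit 209))) (XT.nd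 (nat_lit 78) (nat_lit 152) (nat_lit 0) (XT.lf (nat_lit 0) (nat_lit 105472608174) (nat_lit 304) (nat_lit 34192691432) (nat_lit 76) (nat_lit 9768301008) (nat_lit 35) (nat_lit 5) (nat_lit 39) (nat_lit 5) (nat_lit 36) (nat_lit 5) (nat_lit 353) (nat_lit 339) (nat_lit 208)) (XT.lf (nat_lit 0) (nat_lit 44452188600) (nat_lit 152) (nat_lit 88655702602) (nat_lit 228) (nat_lit 23536795595) (nat_lit 33) (nat_lit 5) (nat_lit 35) (nat_lit 5) (nat_lit 36) (nat_lit 5) (nat_lit 354) (nat_lit 339) (nat_lit 207))))) (XT.nd (nat_lit 312) (nat_lit 304) (nat_lit 0) (XT.nd (nat_lit 156) (nat_lit 152) (nat_lit 0) (XT.nd (nat_lit 78) (nat_lit 304) (nat_lit 0) (XT.lf (nat_lit 0) (nat_lit 131332750952) (nat_lit 152) (nat_lit 32555765135) (nat_lit 228) (nat_lit 469382955) (nat_lit 33) (nat_lit 5) (nat_lit 35) (nat_lit 5) (nat_lit 36) (nat_lit 5) (nat_lit 355) (nat_lit 339) (nat_lit 206)) (XT.lf (nat_lit 0) (nat_lit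 25257474057) (nat_lit 304) (nat_lit 118640084129) (nat_lit 76) (nat_lit 28580636658) (nat_lit 29) (nat_lit 5) (nat_lit 33) (nat_lit 5) (nat_lit 30) (nat_lit 5) (nat_lit 356) (nat_lit 339) (nat_lit 205))) (XT.nd (nat_lit 78) (nat_lit 152) (nat_lit 0) (XT.lf (nat_lit 0) (nat_lit 54788805643) (nat_lit 304) (nat_lit 32529000743) (nat_lit 76) (nat_lit 93787598352) (nat_lit 29) (nat_lit 5) (nat_lit 33) (nat_lit 5) (nat_lit 30) (nat_lit 5) (nat_lit 357) (nat_lit 339) (nat_lit 204)) (XT.lf (nat_lit 0) (nat_lit 63654801727) (nat_lit 152) (nat_lit 24558427518) (nat_lit 228) (nat_lit 102087115854) (nat_lit 27) (nat_lit 5) (nat_lit 29) (nat_lit 5) (nat_lit 30) (nat_lit 5) (nat_lit 358) (nat_lit 339) (nat_lit 203)))) (XT.nd (nat_lit 156) (nat_lit 152) (nat_lit 0) (XT.nd (nat_lit 78) (nat_lit 152) (nat_lit 0) (XT.lf (nat_lit 0) (nat_lit 126263287456) (nat_lit 228) (nat_lit 31839500424) (nat_lit 76)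 (nat_lit 41971958828) (nat_lit 27) (nat_lit 5) (nat_lit 30) (nat_lit 5) (nat_lit 28) (nat_lit 5) (nat_lit 359) (nat_lit 339) (nat_lit 202)) (XT.lf (nat_lit 0) (nat_lit 73594209406) (nat_lit 152) (nat_lit 96170683100) (nat_lit 228) (nat_lit 40673605009) (nat_lit 25) (nat_lit 5) (nat_lit 27) (nat_lit 5) (nat_lit 28) (nat_lit 5) (nat_lit 360) (nat_lit 339) (nat_lit 201))) (XT.nd (nat_lit 78) (nat_lit 152) (nat_lit 0) (XT.lf (nat_lit 0) (nat_lit 189272951418) (nat_lit 152) (nat_lit 28343952460) (nat_lit 228) (nat_lit 3944822683) (nat_lit 25) (nat_lit 5) (nat_lit 27) (nat_lit 5) (nat_lit 28) (nat_lit 5) (nat_lit 361) (nat_lit 339) (nat_lit 200)) (XT.nd (nat_lit 78) (nat_lit 0) (nat_lit 0) (XT.lf (nat_lit 0) (nat_lit 37109396299) (nat_lit 152) (nat_lit 150527066767) (nat_lit 76) (nat_lit 45615693012) (nat_lit 23) (nat_lit 5) (nat_lit 25) (nat_lit 5) (nat_lit 24) (nat_lit 5) (nat_lit 362) (nat_lit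 339) (nat_lit 199)) (XT.lf (nat_lit 0) (nat_lit 82876548999) (nat_lit 152) (nat_lit 37892835566) (nat_lit 76) (nat_lit 124968901154) (nat_lit 23) (nat_lit 5) (nat_lit 25) (nat_lit 5) (nat_lit 24) (nat_lit 5) (nat_lit 363) (nat_lit 339) (nat_lit 198))))))) (XT.nd (nat_lit 624) (nat_lit 456) (nat_lit 0) (XT.nd (nat_lit 312) (nat_lit 228) (nat_lit 0) (XT.nd (nat_lit 156) (nat_lit 152) (nat_lit 0) (XT.nd (nat_lit 78) (nat_lit 0) (nat_lit 0) (XT.lf (nat_lit 0) (nat_lit 88161986941) (nat_lit 152) (nat_lit 46263152923) (nat_lit 228) (nat_lit 124628560893) (nat_lit 21) (nat_lit 5) (nat_lit 23) (nat_lit 5) (nat_lit 24) (nat_lit 5) (nat_lit 364) (nat_lit 339) (nat_lit 197)) (XT.lf (nat_lit 0) (nat_lit 191982956108) (nat_lit 228) (nat_lit 47745149934) (nat_lit 76) (nat_lit 33555416185) (nat_lit 21) (nat_lit 5) (nat_lit 24) (nat_lit 5) (nat_lit 22) (nat_lit 4) (nat_lit 365) (nat_lit 339) (nat_lit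 196))) (XT.nd (nat_lit 78) (nat_lit 76) (nat_lit 0) (XT.lf (nat_lit 0) (nat_lit 88477138653) (nat_lit 76) (nat_lit 168997566831) (nat_lit 152) (nat_lit 30910679564) (nat_lit 20) (nat_lit 5) (nat_lit 21) (nat_lit 5) (nat_lit 22) (nat_lit 4) (nat_lit 366) (nat_lit 339) (nat_lit 195)) (XT.lf (nat_lit 0) (nat_lit 23673449218) (nat_lit 152) (nat_lit 66878123024) (nat_lit 76) (nat_lit 213991459890) (nat_lit 19) (nat_lit 5) (nat_lit 21) (nat_lit 5) (nat_lit 20) (nat_lit 5) (nat_lit 367) (nat_lit 339) (nat_lit 194)))) (XT.nd (nat_lit 156) (nat_lit 76) (nat_lit 0) (XT.nd (nat_lit 78) (nat_lit 0) (nat_lit 0) (XT.lf (nat_lit 0) (nat_lit 79992776487) (nat_lit 152) (nat_lit 2885187998) (nat_lit 228) (nat_lit 238897205862) (nat_lit 17) (nat_lit 5) (nat_lit 19) (nat_lit 5) (nat_lit 20) (nat_lit 5) (nat_lit 368) (nat_lit 339) (nat_lit 193)) (XT.lf (nat_lit 0) (nat_lit 150902373907) (nat_lit 228) (nat_lit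 100078308983) (nat_lit 76) (nat_lit 89078514283) (nat_lit 17) (nat_lit 5) (nat_lit 20) (nat_lit 5) (nat_lit 18) (nat_lit 4) (nat_lit 369) (nat_lit 339) (nat_lit 192))) (XT.nd (nat_lit 78) (nat_lit 0) (nat_lit 0) (XT.lf (nat_lit 0) (nat_lit 55671789819) (nat_lit 76) (nat_lit 170110619280) (nat_lit 152) (nat_lit 133910443380) (nat_lit 16) (nat_lit 5) (nat_lit 17) (nat_lit 5) (nat_lit 18) (nat_lit 4) (nat_lit 370) (nat_lit 339) (nat_lit 191)) (XT.lf (nat_lit 0) (nat_lit 229573144947) (nat_lit 76) (nat_lit 79815851552) (nat_lit 152) (nat_lit 71289311922) (nat_lit 16) (nat_lit 5) (nat_lit 17) (nat_lit 5) (nat_lit 18) (nat_lit 4) (nat_lit 371) (nat_lit 339) (nat_lit 190))))) (XT.nd (nat_lit 312) (nat_lit 228) (nat_lit 0) (XT.nd (nat_lit 156) (nat_lit 76) (nat_lit 0) (XT.nd (nat_lit 78) (nat_lit 76) (nat_lit 0) (XT.lf (nat_lit 0) (nat_lit 14335079045) (nat_lit 76) (nat_lit 386119377141) (nat_lit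 76) (nat_lit 2826517180) (nat_lit 15) (nat_lit 4) (nat_lit 16) (nat_lit 5) (nat_lit 16) (nat_lit 4) (nat_lit 372) (nat_lit 339) (nat_lit 189)) (XT.lf (nat_lit 0) (nat_lit 73867700865) (nat_lit 152) (nat_lit 229648317355) (nat_lit 76) (nat_lit 123534069282) (nat_lit 14) (nat_lit 5) (nat_lit 16) (nat_lit 5) (nat_lit 15) (nat_lit 4) (nat_lit 373) (nat_lit 339) (nat_lit 188))) (XT.nd (nat_lit 78) (nat_lit 76) (nat_lit 0) (XT.lf (nat_lit 0) (nat_lit 156544604583) (nat_lit 152) (nat_lit 57680612429) (nat_lit 76) (nat_lit 238489652308) (nat_lit 14) (nat_lit 5) (nat_lit 16) (nat_lit 5) (nat_lit 15) (nat_lit 4) (nat_lit 374) (nat_lit 339) (nat_lit 187)) (XT.lf (nat_lit 0) (nat_lit 134786850283) (nat_lit 76) (nat_lit 114290301726) (nat_lit 152) (nat_lit 231096362472) (nat_lit 13) (nat_lit 5) (nat_lit 14) (nat_lit 5) (nat_lit 15) (nat_lit 4) (nat_lit 375) (nat_lit 339) (nat_lit 186)))) (XT.nd (nat_lit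 156) (nat_lit 152) (nat_lit 0) (XT.nd (nat_lit 78) (nat_lit 76) (nat_lit 0) (XT.lf (nat_lit 0) (nat_lit 345931820950) (nat_lit 76) (nat_lit 4657441215) (nat_lit 152) (nat_lit 159113432478) (nat_lit 13) (nat_lit 5) (nat_lit 14) (nat_lit 5) (nat_lit 15) (nat_lit 4) (nat_lit 376) (nat_lit 339) (nat_lit 185)) (XT.lf (nat_lit 0) (nat_lit 31199061738) (nat_lit 76) (nat_lit 432509088920) (nat_lit 76) (nat_lit 77607193893) (nat_lit 12) (nat_lit 4) (nat_lit 13) (nat_lit 5) (nat_lit 13) (nat_lit 4) (nat_lit 377) (nat_lit 339) (nat_lit 184))) (XT.nd (nat_lit 78) (nat_lit 76) (nat_lit 0) (XT.lf (nat_lit 0) (nat_lit 14613257350) (nat_lit 152) (nat_lit 324506493156) (nat_lit 76) (nat_lit 235940013497) (nat_lit 11) (nat_lit 5) (nat_lit 13) (nat_lit 5) (nat_lit 12) (nat_lit 4) (nat_lit 378) (nat_lit 339) (nat_lit 183)) (XT.nd (nat_lit 78) (nat_lit 76) (nat_lit 0) (XT.lf (nat_lit 0) (nat_lit 110018426387)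 (nat_lit 152) (nat_lit 126063902131) (nat_lit 76) (nat_lit 375260155991) (nat_lit 11) (nat_lit 5) (nat_lit 13) (nat_lit 5) (nat_lit 12) (nat_lit 4) (nat_lit 379) (nat_lit 339) (nat_lit 182)) (XT.lf (nat_lit 0) (nat_lit 92901195275) (nat_lit 76) (nat_lit 122388984038) (nat_lit 152) (nat_lit 435058909784) (nat_lit 10) (nat_lit 5) (nat_lit 11) (nat_lit 5) (nat_lit 12) (nat_lit 4) (nat_lit 380) (nat_lit 339) (nat_lit 181))))))))
noncomputable def xc202 : XT := (XT.nd (nat_lit 1326) (nat_lit 76) (nat_lit 0) (XT.nd (nat_lit 624) (nat_lit 228) (nat_lit 0) (XT.nd (nat_lit 312) (nat_lit 152) (nat_lit 0) (XT.nd (nat_lit 156) (nat_lit 76) (nat_lit 0) (XT.nd (nat_lit 78) (nat_lit 0) (nat_lit 0) (XT.lf (nat_lit 0) (nat_lit 332529521911) (nat_lit 152) (nat_lit 355746950490) (nat_lit 0) (nat_lit 3916081761) (nat_lit 10) (nat_lit 5) (nat_lit 12) (nat_lit 4) (nat_lit 10) (nat_lit 4) (nat_lit 381) (nat_lit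 339) (nat_lit 180)) (XT.lf (nat_lit 0) (nat_lit 462326849835) (nat_lit 152) (nat_lit 141089047962) (nat_lit 0) (nat_lit 133713291660) (nat_lit 10) (nat_lit 5) (nat_lit 12) (nat_lit 4) (nat_lit 10) (nat_lit 4) (nat_lit 382) (nat_lit 339) (nat_lit 179))) (XT.nd (nat_lit 78) (nat_lit 0) (nat_lit 0) (XT.lf (nat_lit 0) (nat_lit 95519595630) (nat_lit 76) (nat_lit 509285527370) (nat_lit 76) (nat_lit 180671859911) (nat_lit 9) (nat_lit 4) (nat_lit 10) (nat_lit 5) (nat_lit 10) (nat_lit 4) (nat_lit 383) (nat_lit 339) (nat_lit 178)) (XT.lf (nat_lit 0) (nat_lit 359080625975) (nat_lit 76) (nat_lit 403458569773) (nat_lit 76) (nat_lit 74844801126) (nat_lit 9) (nat_lit 4) (nat_lit 10) (nat_lit 5) (nat_lit 10) (nat_lit 4) (nat_lit 384) (nat_lit 339) (nat_lit 177)))) (XT.nd (nat_lit 156) (nat_lit 76) (nat_lit 0) (XT.nd (nat_lit 78) (nat_lit 0) (nat_lit 0) (XT.lf (nat_lit 0) (nat_lit 37474969934) (nat_lit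 152) (nat_lit 250665924876) (nat_lit 76) (nat_lit 605226784955) (nat_lit 8) (nat_lit 5) (nat_lit 10) (nat_lit 5) (nat_lit 9) (nat_lit 4) (nat_lit 385) (nat_lit 339) (nat_lit 176)) (XT.lf (nat_lit 0) (nat_lit 154736682942) (nat_lit 152) (nat_lit 6761648570) (nat_lit 76) (nat_lit 792176210265) (nat_lit 8) (nat_lit 5) (nat_lit 10) (nat_lit 5) (nat_lit 9) (nat_lit 4) (nat_lit 386) (nat_lit 339) (nat_lit 175))) (XT.nd (nat_lit 78) (nat_lit 0) (nat_lit 0) (XT.lf (nat_lit 0) (nat_lit 270169824786) (nat_lit 76) (nat_lit 17707028196) (nat_lit 152) (nat_lit 730409298208) (nat_lit 7) (nat_lit 5) (nat_lit 8) (nat_lit 5) (nat_lit 9) (nat_lit 4) (nat_lit 387) (nat_lit 339) (nat_lit 174)) (XT.lf (nat_lit 0) (nat_lit 435166828460) (nat_lit 152) (nat_lit 521725463452) (nat_lit 0) (nat_lit 130894510132) (nat_lit 7) (nat_lit 5) (nat_lit 9) (nat_lit 4) (nat_lit 7) (nat_lit 4) (nat_lit 388) (nat_lit 339)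 (nat_lit 173))))) (XT.nd (nat_lit 312) (nat_lit 152) (nat_lit 0) (XT.nd (nat_lit 156) (nat_lit 76) (nat_lit 0) (XT.nd (nat_lit 78) (nat_lit 0) (nat_lit 0) (XT.lf (nat_lit 0) (nat_lit 594699859811) (nat_lit 152) (nat_lit 277683378844) (nat_lit 0) (nat_lit 290427477717) (nat_lit 7) (nat_lit 5) (nat_lit 9) (nat_lit 4) (nat_lit 7) (nat_lit 4) (nat_lit 389) (nat_lit 339) (nat_lit 172)) (XT.lf (nat_lit 0) (nat_lit 766995473507) (nat_lit 152) (nat_lit 14118042810) (nat_lit 0) (nat_lit 462723032371) (nat_lit 7) (nat_lit 5) (nat_lit 9) (nat_lit 4) (nat_lit 7) (nat_lit 4) (nat_lit 390) (nat_lit 339) (nat_lit 171))) (XT.nd (nat_lit 78) (nat_lit 0) (nat_lit 0) (XT.lf (nat_lit 0) (nat_lit 284778170766) (nat_lit 76) (nat_lit 675145431683) (nat_lit 76) (nat_lit 370872935878) (nat_lit 6) (nat_lit 4) (nat_lit 7) (nat_lit 5) (nat_lit 7) (nat_lit 4) (nat_lit 391) (nat_lit 339) (nat_lit 170)) (XT.lf (nat_lit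 0) (nat_lit 608388882938) (nat_lit 76) (nat_lit 560283056994) (nat_lit 76) (nat_lit 256010510571) (nat_lit 6) (nat_lit 4) (nat_lit 7) (nat_lit 5) (nat_lit 7) (nat_lit 4) (nat_lit 392) (nat_lit 339) (nat_lit 169)))) (XT.nd (nat_lit 156) (nat_lit 76) (nat_lit 0) (XT.nd (nat_lit 78) (nat_lit 76) (nat_lit 0) (XT.lf (nat_lit 0) (nat_lit 957888355699) (nat_lit 76) (nat_lit 436231738639) (nat_lit 76) (nat_lit 131959145345) (nat_lit 6) (nat_lit 4) (nat_lit 7) (nat_lit 5) (nat_lit 7) (nat_lit 4) (nat_lit 393) (nat_lit 339) (nat_lit 168)) (XT.lf (nat_lit 0) (nat_lit 1915416556) (nat_lit 152) (nat_lit 300288570253) (nat_lit 76) (nat_lit 1333379909596) (nat_lit 5) (nat_lit 5) (nat_lit 7) (nat_lit 5) (nat_lit 6) (nat_lit 4) (nat_lit 394) (nat_lit 339) (nat_lit 167))) (XT.nd (nat_lit 78) (nat_lit 76) (nat_lit 0) (XT.lf (nat_lit 0) (nat_lit 139370677985) (nat_lit 152) (nat_lit 14381666664) (nat_lit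 76) (nat_lit 1599822383738) (nat_lit 5) (nat_lit 5) (nat_lit 7) (nat_lit 5) (nat_lit 6) (nat_lit 4) (nat_lit 395) (nat_lit 339) (nat_lit 166)) (XT.nd (nat_lit 78) (nat_lit 0) (nat_lit 0) (XT.lf (nat_lit 0) (nat_lit 295627151617) (nat_lit 152) (nat_lit 1570860134929) (nat_lit 0) (nat_lit 13893157097) (nat_lit 4) (nat_lit 5) (nat_lit 6) (nat_lit 4) (nat_lit 4) (nat_lit 4) (nat_lit 396) (nat_lit 339) (nat_lit 165)) (XT.lf (nat_lit 0) (nat_lit 468781103782) (nat_lit 152) (nat_lit 1361150678137) (nat_lit 0) (nat_lit 187047077364) (nat_lit 4) (nat_lit 5) (nat_lit 6) (nat_lit 4) (nat_lit 4) (nat_lit 4) (nat_lit 397) (nat_lit 339) (nat_lit 164))))))) (XT.nd (nat_lit 624) (nat_lit 0) (nat_lit 0) (XT.nd (nat_lit 312) (nat_lit 76) (nat_lit 0) (XT.nd (nat_lit 156) (nat_lit 0) (nat_lit 0) (XT.nd (nat_lit 78) (nat_lit 0) (nat_lit 0) (XT.lf (nat_lit 0) (nat_lit 655787334605) (nat_lit 152) (nat_lit 1134664537933)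 (nat_lit 0) (nat_lit 374053278651) (nat_lit 4) (nat_lit 5) (nat_lit 6) (nat_lit 4) (nat_lit 4) (nat_lit 4) (nat_lit 398) (nat_lit 339) (nat_lit 163)) (XT.lf (nat_lit 0) (nat_lit 857754029159) (nat_lit 152) (nat_lit 890059574227) (nat_lit 0) (nat_lit 576019945857) (nat_lit 4) (nat_lit 5) (nat_lit 6) (nat_lit 4) (nat_lit 4) (nat_lit 4) (nat_lit 399) (nat_lit 339) (nat_lit 162))) (XT.nd (nat_lit 78) (nat_lit 0) (nat_lit 0) (XT.lf (nat_lit 0) (nat_lit 1075878027113) (nat_lit 152) (nat_lit 625886276124) (nat_lit 0) (nat_lit 794143918488) (nat_lit 4) (nat_lit 5) (nat_lit 6) (nat_lit 4) (nat_lit 4) (nat_lit 4) (nat_lit 400) (nat_lit 339) (nat_lit 161)) (XT.lf (nat_lit 0) (nat_lit 1311451915122) (nat_lit 152) (nat_lit 340579172227) (nat_lit 0) (nat_lit 1029717783052) (nat_lit 4) (nat_lit 5) (nat_lit 6) (nat_lit 4) (nat_lit 4) (nat_lit 4) (nat_lit 401) (nat_lit 339) (nat_lit 160)))) (XT.nd (nat_lit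 156) (nat_lit 0) (nat_lit 0) (XT.nd (nat_lit 78) (nat_lit 76) (nat_lit 0) (XT.lf (nat_lit 0) (nat_lit 1565871686598) (nat_lit 152) (nat_lit 32447553772) (nat_lit 0) (nat_lit 1284137532818) (nat_lit 4) (nat_lit 5) (nat_lit 6) (nat_lit 4) (nat_lit 4) (nat_lit 4) (nat_lit 402) (nat_lit 339) (nat_lit 159)) (XT.lf (nat_lit 0) (nat_lit 316149629254) (nat_lit 76) (nat_lit 1532098791192) (nat_lit 76) (nat_lit 1250364617310) (nat_lit 3) (nat_lit 4) (nat_lit 4) (nat_lit 5) (nat_lit 4) (nat_lit 4) (nat_lit 403) (nat_lit 339) (nat_lit 158))) (XT.nd (nat_lit 78) (nat_lit 0) (nat_lit 0) (XT.lf (nat_lit 0) (nat_lit 694479859546) (nat_lit 76) (nat_lit 1459622582271) (nat_lit 76) (nat_lit 1177888389776) (nat_lit 3) (nat_lit 4) (nat_lit 4) (nat_lit 5) (nat_lit 4) (nat_lit 4) (nat_lit 404) (nat_lit 339) (nat_lit 157)) (XT.lf (nat_lit 0) (nat_lit 1103076463343) (nat_lit 76) (nat_lit 1381348298585) (nat_lit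 76) (nat_lit 1099614088856) (nat_lit 3) (nat_lit 4) (nat_lit 4) (nat_lit 5) (nat_lit 4) (nat_lit 4) (nat_lit 405) (nat_lit 339) (nat_lit 156))))) (XT.nd (nat_lit 41886) (nat_lit 0) (nat_lit 3572) (XT.nd (nat_lit 41730) (nat_lit 0) (nat_lit 3496) (XT.nd (nat_lit 78) (nat_lit 0) (nat_lit 0) (XT.lf (nat_lit 0) (nat_lit 1544360753852) (nat_lit 76) (nat_lit 1296812092527) (nat_lit 76) (nat_lit 1015077866841) (nat_lit 3) (nat_lit 4) (nat_lit 4) (nat_lit 5) (nat_lit 4) (nat_lit 4) (nat_lit 406) (nat_lit 339) (nat_lit 155)) (XT.lf (nat_lit 0) (nat_lit 2020947749091) (nat_lit 76) (nat_lit 1205513008801) (nat_lit 76) (nat_lit 923778768340) (nat_lit 3) (nat_lit 4) (nat_lit 4) (nat_lit 5) (nat_lit 4) (nat_lit 4) (nat_lit 407) (nat_lit 339) (nat_lit 154))) (XT.nd (nat_lit 78) (nat_lit 0) (nat_lit 0) (XT.lf (nat_lit 0) (nat_lit 30566943064) (nat_lit 532) (nat_lit 6878714029) (nat_lit 532) (nat_lit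 6878714029) (nat_lit 49) (nat_lit 3) (nat_lit 56) (nat_lit 3) (nat_lit 56) (nat_lit 5) (nat_lit 340) (nat_lit 340) (nat_lit 220)) (XT.lf (nat_lit 76) (nat_lit 28835800900) (nat_lit 0) (nat_lit 35444599059) (nat_lit 532) (nat_lit 27858180229) (nat_lit 50) (nat_lit 5) (nat_lit 49) (nat_lit 3) (nat_lit 56) (nat_lit 5) (nat_lit 341) (nat_lit 340) (nat_lit 219)))) (XT.nd (nat_lit 156) (nat_lit 0) (nat_lit 0) (XT.nd (nat_lit 78) (nat_lit 0) (nat_lit 0) (XT.lf (nat_lit 0) (nat_lit 68235935742) (nat_lit 456) (nat_lit 20441053065) (nat_lit 532) (nat_lit 7186034199) (nat_lit 50) (nat_lit 5) (nat_lit 56) (nat_lit 5) (nat_lit 57) (nat_lit 5) (nat_lit 342) (nat_lit 340) (nat_lit 218)) (XT.lf (nat_lit 76) (nat_lit 26241192043) (nat_lit 0) (nat_lit 47817751142) (nat_lit 532) (nat_lit 25702397529) (nat_lit 51) (nat_lit 5) (nat_lit 50) (nat_lit 5) (nat_lit 57) (nat_lit 5) (nat_lit 343) (nat_lit 340) (nat_lit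 217))) (XT.nd (nat_lit 78) (nat_lit 0) (nat_lit 76) (XT.lf (nat_lit 76) (nat_lit 77820058507) (nat_lit 0) (nat_lit 3085957554) (nat_lit 532) (nat_lit 23020851428) (nat_lit 51) (nat_lit 5) (nat_lit 50) (nat_lit 5) (nat_lit 57) (nat_lit 5) (nat_lit 344) (nat_lit 340) (nat_lit 216)) (XT.nd (nat_lit 78) (nat_lit 0) (nat_lit 0) (XT.lf (nat_lit 76) (nat_lit 25275871031) (nat_lit 0) (nat_lit 64719900981) (nat_lit 532) (nat_lit 18294272527) (nat_lit 52) (nat_lit 5) (nat_lit 51) (nat_lit 5) (nat_lit 58) (nat_lit 5) (nat_lit 345) (nat_lit 340) (nat_lit 215)) (XT.lf (nat_lit 76) (nat_lit 82169038560) (nat_lit 0) (nat_lit 18435020657) (nat_lit 532) (nat_lit 12334909879) (nat_lit 52) (nat_lit 5) (nat_lit 51) (nat_lit 5) (nat_lit 58) (nat_lit 5) (nat_lit 346) (nat_lit 340) (nat_lit 214))))))))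
noncomputable def xc203 : XT := (XT.nd (nat_lit 1326) (nat_lit 988) (nat_lit 0) (XT.nd (nat_lit 624) (nat_lit 912) (nat_lit 0) (XT.nd (nat_lit 312) (nat_lit 456) (nat_lit 0) (XT.nd (nat_lit 156) (nat_lit 304) (nat_lit 0) (XT.nd (nat_lit 78) (nat_lit 76) (nat_lit 0) (XT.lf (nat_lit 0) (nat_lit 26205430831) (nat_lit 456) (nat_lit 87244126198) (nat_lit 532) (nat_lit 4399168075) (nat_lit 46) (nat_lit 5) (nat_lit 52) (nat_lit 5) (nat_lit 53) (nat_lit 5) (nat_lit 347) (nat_lit 340) (nat_lit 213)) (XT.lf (nat_lit 0) (nat_lit 5304227777) (nat_lit 532) (nat_lit 34196726986) (nat_lit 76) (nat_lit 83534964765) (nat_lit 45) (nat_lit 5) (nat_lit 52) (nat_lit 5) (nat_lit 46) (nat_lit 5) (nat_lit 348) (nat_lit 340) (nat_lit 212))) (XT.nd (nat_lit 78) (nat_lit 0) (nat_lit 0) (XT.lf (nat_lit 0) (nat_lit 16559076565) (nat_lit 380) (nat_lit 99693013060) (nat_lit 76) (nat_lit 12295831734) (nat_lit 41) (nat_lit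 5) (nat_lit 46) (nat_lit 5) (nat_lit 42) (nat_lit 5) (nat_lit 349) (nat_lit 340) (nat_lit 211)) (XT.lf (nat_lit 0) (nat_lit 30699139201) (nat_lit 380) (nat_lit 36581381904) (nat_lit 76) (nat_lit 67061577110) (nat_lit 41) (nat_lit 5) (nat_lit 46) (nat_lit 5) (nat_lit 42) (nat_lit 5) (nat_lit 350) (nat_lit 340) (nat_lit 210)))) (XT.nd (nat_lit 156) (nat_lit 228) (nat_lit 0) (XT.nd (nat_lit 78) (nat_lit 0) (nat_lit 0) (XT.lf (nat_lit 0) (nat_lit 33241609148) (nat_lit 228) (nat_lit 13527835415) (nat_lit 304) (nat_lit 93766442526) (nat_lit 38) (nat_lit 5) (nat_lit 41) (nat_lit 5) (nat_lit 42) (nat_lit 5) (nat_lit 351) (nat_lit 340) (nat_lit 209)) (XT.lf (nat_lit 0) (nat_lit 66221978443) (nat_lit 304) (nat_lit 37511587393) (nat_lit 76) (nat_lit 43323885726) (nat_lit 38) (nat_lit 5) (nat_lit 42) (nat_lit 5) (nat_lit 39) (nat_lit 5) (nat_lit 352) (nat_lit 340) (nat_lit 208))) (XT.nd (nat_lit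 78) (nat_lit 0) (nat_lit 0) (XT.lf (nat_lit 0) (nat_lit 39476693770) (nat_lit 228) (nat_lit 49054435134) (nat_lit 304) (nat_lit 65465579938) (nat_lit 35) (nat_lit 5) (nat_lit 38) (nat_lit 5) (nat_lit 39) (nat_lit 5) (nat_lit 353) (nat_lit 340) (nat_lit 207)) (XT.lf (nat_lit 0) (nat_lit 113917403220) (nat_lit 304) (nat_lit 36919270938) (nat_lit 76) (nat_lit 10551041902) (nat_lit 35) (nat_lit 5) (nat_lit 39) (nat_lit 5) (nat_lit 36) (nat_lit 5) (nat_lit 354) (nat_lit 340) (nat_lit 206))))) (XT.nd (nat_lit 312) (nat_lit 456) (nat_lit 0) (XT.nd (nat_lit 156) (nat_lit 304) (nat_lit 0) (XT.nd (nat_lit 78) (nat_lit 0) (nat_lit 0) (XT.lf (nat_lit 0) (nat_lit 48016975805) (nat_lit 152) (nat_lit 95746222697) (nat_lit 228) (nat_lit 25412516482) (nat_lit 33) (nat_lit 5) (nat_lit 35) (nat_lit 5) (nat_lit 36) (nat_lit 5) (nat_lit 355) (nat_lit 340) (nat_lit 205)) (XT.lf (nat_lit 0) (nat_lit 141847345210)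 (nat_lit 152) (nat_lit 35158433648) (nat_lit 228) (nat_lit 500245850) (nat_lit 33) (nat_lit 5) (nat_lit 35) (nat_lit 5) (nat_lit 36) (nat_lit 5) (nat_lit 356) (nat_lit 340) (nat_lit 204))) (XT.nd (nat_lit 78) (nat_lit 0) (nat_lit 0) (XT.lf (nat_lit 0) (nat_lit 27284198444) (nat_lit 304) (nat_lit 128122734466) (nat_lit 76) (nat_lit 30869017342) (nat_lit 29) (nat_lit 5) (nat_lit 33) (nat_lit 5) (nat_lit 30) (nat_lit 5) (nat_lit 357) (nat_lit 340) (nat_lit 203)) (XT.lf (nat_lit 0) (nat_lit 59177582744) (nat_lit 304) (nat_lit 35123398215) (nat_lit 76) (nat_lit 101292393027) (nat_lit 29) (nat_lit 5) (nat_lit 33) (nat_lit 5) (nat_lit 30) (nat_lit 5) (nat_lit 358) (nat_lit 340) (nat_lit 202)))) (XT.nd (nat_lit 156) (nat_lit 304) (nat_lit 0) (XT.nd (nat_lit 78) (nat_lit 0) (nat_lit 0) (XT.lf (nat_lit 0) (nat_lit 68754907880) (nat_lit 152) (nat_lit 26520817873) (nat_lit 228) (nat_lit 110248203272)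 (nat_lit 27) (nat_lit 5) (nat_lit 29) (nat_lit 5) (nat_lit 30) (nat_lit 5) (nat_lit 359) (nat_lit 340) (nat_lit 201)) (XT.lf (nat_lit 0) (nat_lit 136369436652) (nat_lit 228) (nat_lit 34379150486) (nat_lit 76) (nat_lit 45331724423) (nat_lit 27) (nat_lit 5) (nat_lit 30) (nat_lit 5) (nat_lit 28) (nat_lit 5) (nat_lit 360) (nat_lit 340) (nat_lit 200))) (XT.nd (nat_lit 78) (nat_lit 152) (nat_lit 0) (XT.lf (nat_lit 0) (nat_lit 79489066005) (nat_lit 152) (nat_lit 103861903388) (nat_lit 228) (nat_lit 43922209688) (nat_lit 25) (nat_lit 5) (nat_lit 27) (nat_lit 5) (nat_lit 28) (nat_lit 5) (nat_lit 361) (nat_lit 340) (nat_lit 199)) (XT.nd (nat_lit 78) (nat_lit 152) (nat_lit 0) (XT.lf (nat_lit 0) (nat_lit 204421565167) (nat_lit 152) (nat_lit 30609214620) (nat_lit 228) (nat_lit 4255516163) (nat_lit 25) (nat_lit 5) (nat_lit 27) (nat_lit 5) (nat_lit 28) (nat_lit 5) (nat_lit 362) (nat_lit 340) (nat_lit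 198)) (XT.lf (nat_lit 0) (nat_lit 40082673401) (nat_lit 152) (nat_lit 162562075323) (nat_lit 76) (nat_lit 49267211936) (nat_lit 23) (nat_lit 5) (nat_lit 25) (nat_lit 5) (nat_lit 24) (nat_lit 5) (nat_lit 363) (nat_lit 340) (nat_lit 197))))))) (XT.nd (nat_lit 702) (nat_lit 456) (nat_lit 0) (XT.nd (nat_lit 312) (nat_lit 304) (nat_lit 0) (XT.nd (nat_lit 156) (nat_lit 76) (nat_lit 0) (XT.nd (nat_lit 78) (nat_lit 152) (nat_lit 0) (XT.lf (nat_lit 0) (nat_lit 89510863103) (nat_lit 152) (nat_lit 40917635758) (nat_lit 76) (nat_lit 134968509064) (nat_lit 23) (nat_lit 5) (nat_lit 25) (nat_lit 5) (nat_lit 24) (nat_lit 5) (nat_lit 364) (nat_lit 340) (nat_lit 196)) (XT.lf (nat_lit 0) (nat_lit 95221404786) (nat_lit 152) (nat_lit 49961781404) (nat_lit 228) (nat_lit 134594482783) (nat_lit 21) (nat_lit 5) (nat_lit 23) (nat_lit 5) (nat_lit 24) (nat_lit 5) (nat_lit 365) (nat_lit 340) (nat_lit 195))) (XT.nd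 (nat_lit 78) (nat_lit 76) (nat_lit 0) (XT.lf (nat_lit 0) (nat_lit 207345382808) (nat_lit 228) (nat_lit 51558531889) (nat_lit 76) (nat_lit 36241981431) (nat_lit 21) (nat_lit 5) (nat_lit 24) (nat_lit 5) (nat_lit 22) (nat_lit 4) (nat_lit 366) (nat_lit 340) (nat_lit 194)) (XT.lf (nat_lit 0) (nat_lit 95561382063) (nat_lit 76) (nat_lit 182514955353) (nat_lit 152) (nat_lit 33379581680) (nat_lit 20) (nat_lit 5) (nat_lit 21) (nat_lit 5) (nat_lit 22) (nat_lit 4) (nat_lit 367) (nat_lit 340) (nat_lit 193)))) (XT.nd (nat_lit 156) (nat_lit 76) (nat_lit 0) (XT.nd (nat_lit 78) (nat_lit 152) (nat_lit 0) (XT.lf (nat_lit 0) (nat_lit 25570801583) (nat_lit 152) (nat_lit 72222563587) (nat_lit 76) (nat_lit 231112827719) (nat_lit 19) (nat_lit 5) (nat_lit 21) (nat_lit 5) (nat_lit 20) (nat_lit 5) (nat_lit 368) (nat_lit 340) (nat_lit 192)) (XT.lf (nat_lit 0) (nat_lit 86397860815) (nat_lit 152) (nat_lit 3113695919)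 (nat_lit 228) (nat_lit 258005355407) (nat_lit 17) (nat_lit 5) (nat_lit 19) (nat_lit 5) (nat_lit 20) (nat_lit 5) (nat_lit 369) (nat_lit 340) (nat_lit 191))) (XT.nd (nat_lit 78) (nat_lit 76) (nat_lit 0) (XT.lf (nat_lit 0) (nat_lit 162977721761) (nat_lit 228) (nat_lit 108079130594) (nat_lit 76) (nat_lit 96206824784) (nat_lit 17) (nat_lit 5) (nat_lit 20) (nat_lit 5) (nat_lit 18) (nat_lit 4) (nat_lit 370) (nat_lit 340) (nat_lit 190)) (XT.nd (nat_lit 78) (nat_lit 0) (nat_lit 0) (XT.lf (nat_lit 0) (nat_lit 60130838312) (nat_lit 76) (nat_lit 183717215128) (nat_lit 152) (nat_lit 144619980172) (nat_lit 16) (nat_lit 5) (nat_lit 17) (nat_lit 5) (nat_lit 18) (nat_lit 4) (nat_lit 371) (nat_lit 340) (nat_lit 189)) (XT.lf (nat_lit 0) (nat_lit 247943908864) (nat_lit 76) (nat_lit 86199032922) (nat_lit 152) (nat_lit 76989402543) (nat_lit 16) (nat_lit 5) (nat_lit 17) (nat_lit 5) (nat_lit 18) (nat_lit 4)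 (nat_lit 372) (nat_lit 340) (nat_lit 188)))))) (XT.nd (nat_lit 312) (nat_lit 228) (nat_lit 0) (XT.nd (nat_lit 156) (nat_lit 76) (nat_lit 0) (XT.nd (nat_lit 78) (nat_lit 76) (nat_lit 0) (XT.lf (nat_lit 0) (nat_lit 15486847385) (nat_lit 76) (nat_lit 417006747367) (nat_lit 76) (nat_lit 3049631398) (nat_lit 15) (nat_lit 4) (nat_lit 16) (nat_lit 5) (nat_lit 16) (nat_lit 4) (nat_lit 373) (nat_lit 340) (nat_lit 187)) (XT.lf (nat_lit 0) (nat_lit 79779762050) (nat_lit 152) (nat_lit 248015446837) (nat_lit 76) (nat_lit 133418671846) (nat_lit 14) (nat_lit 5) (nat_lit 16) (nat_lit 5) (nat_lit 15) (nat_lit 4) (nat_lit 374) (nat_lit 340) (nat_lit 186))) (XT.nd (nat_lit 78) (nat_lit 76) (nat_lit 0) (XT.lf (nat_lit 0) (nat_lit 169070622131) (nat_lit 152) (nat_lit 62290676325) (nat_lit 76) (nat_lit 257570562475) (nat_lit 14) (nat_lit 5) (nat_lit 16) (nat_lit 5) (nat_lit 15) (nat_lit 4) (nat_lit 375) (nat_lit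 340) (nat_lit 185)) (XT.lf (nat_lit 0) (nat_lit 145574072389) (nat_lit 76) (nat_lit 123431622333) (nat_lit 152) (nat_lit 249581509422) (nat_lit 13) (nat_lit 5) (nat_lit 14) (nat_lit 5) (nat_lit 15) (nat_lit 4) (nat_lit 376) (nat_lit 340) (nat_lit 184)))) (XT.nd (nat_lit 156) (nat_lit 152) (nat_lit 0) (XT.nd (nat_lit 78) (nat_lit 76) (nat_lit 0) (XT.lf (nat_lit 0) (nat_lit 373610324111) (nat_lit 76) (nat_lit 5028273984) (nat_lit 152) (nat_lit 171840134810) (nat_lit 13) (nat_lit 5) (nat_lit 14) (nat_lit 5) (nat_lit 15) (nat_lit 4) (nat_lit 377) (nat_lit 340) (nat_lit 183)) (XT.lf (nat_lit 0) (nat_lit 33698975478) (nat_lit 76) (nat_lit 467107994780) (nat_lit 76) (nat_lit 83813426867) (nat_lit 12) (nat_lit 4) (nat_lit 13) (nat_lit 5) (nat_lit 13) (nat_lit 4) (nat_lit 378) (nat_lit 340) (nat_lit 182))) (XT.nd (nat_lit 78) (nat_lit 76) (nat_lit 0) (XT.lf (nat_lit 0) (nat_lit 15784378451) (nat_lit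 152) (nat_lit 350463209411) (nat_lit 76) (nat_lit 254816791059) (nat_lit 11) (nat_lit 5) (nat_lit 13) (nat_lit 5) (nat_lit 12) (nat_lit 4) (nat_lit 379) (nat_lit 340) (nat_lit 181)) (XT.nd (nat_lit 78) (nat_lit 76) (nat_lit 0) (XT.lf (nat_lit 0) (nat_lit 118821808381) (nat_lit 152) (nat_lit 136145492822) (nat_lit 76) (nat_lit 405282428177) (nat_lit 11) (nat_lit 5) (nat_lit 13) (nat_lit 5) (nat_lit 12) (nat_lit 4) (nat_lit 380) (nat_lit 340) (nat_lit 180)) (XT.lf (nat_lit 0) (nat_lit 100336723225) (nat_lit 76) (nat_lit 132178519538) (nat_lit 152) (nat_lit 469861624367) (nat_lit 10) (nat_lit 5) (nat_lit 11) (nat_lit 5) (nat_lit 12) (nat_lit 4) (nat_lit 381) (nat_lit 340) (nat_lit 179))))))))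
noncomputable def xc204 : XT := (XT.nd (nat_lit 1326) (nat_lit 76) (nat_lit 0) (XT.nd (nat_lit 624) (nat_lit 228) (nat_lit 0) (XT.nd (nat_lit 312) (nat_lit 152) (nat_lit 0) (XT.nd (nat_lit 156) (nat_lit 76) (nat_lit 0) (XT.nd (nat_lit 78) (nat_lit 0) (nat_lit 0) (XT.lf (nat_lit 0) (nat_lit 359133631054) (nat_lit 152) (nat_lit 384203425653) (nat_lit 0) (nat_lit 4230760916) (nat_lit 10) (nat_lit 5) (nat_lit 12) (nat_lit 4) (nat_lit 10) (nat_lit 4) (nat_lit 382) (nat_lit 340) (nat_lit 178)) (XT.lf (nat_lit 0) (nat_lit 499314615777) (nat_lit 152) (nat_lit 152373133951) (nat_lit 0) (nat_lit 144411644450) (nat_lit 10) (nat_lit 5) (nat_lit 12) (nat_lit 4) (nat_lit 10) (nat_lit 4) (nat_lit 383) (nat_lit 340) (nat_lit 177))) (XT.nd (nat_lit 78) (nat_lit 0) (nat_lit 0) (XT.lf (nat_lit 0) (nat_lit 103164124222) (nat_lit 76) (nat_lit 550026977935) (nat_lit 76) (nat_lit 195123912916) (nat_lit 9) (nat_lit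 4) (nat_lit 10) (nat_lit 5) (nat_lit 10) (nat_lit 4) (nat_lit 384) (nat_lit 340) (nat_lit 176)) (XT.lf (nat_lit 0) (nat_lit 387809817665) (nat_lit 76) (nat_lit 435733966814) (nat_lit 76) (nat_lit 80830815043) (nat_lit 9) (nat_lit 4) (nat_lit 10) (nat_lit 5) (nat_lit 10) (nat_lit 4) (nat_lit 385) (nat_lit 340) (nat_lit 175)))) (XT.nd (nat_lit 156) (nat_lit 76) (nat_lit 0) (XT.nd (nat_lit 78) (nat_lit 0) (nat_lit 0) (XT.lf (nat_lit 0) (nat_lit 40474348665) (nat_lit 152) (nat_lit 270716586873) (nat_lit 76) (nat_lit 653646047381) (nat_lit 8) (nat_lit 5) (nat_lit 10) (nat_lit 5) (nat_lit 9) (nat_lit 4) (nat_lit 386) (nat_lit 340) (nat_lit 174)) (XT.lf (nat_lit 0) (nat_lit 167116896408) (nat_lit 152) (nat_lit 7300161944) (nat_lit 76) (nat_lit 855551343780) (nat_lit 8) (nat_lit 5) (nat_lit 10) (nat_lit 5) (nat_lit 9) (nat_lit 4) (nat_lit 387) (nat_lit 340) (nat_lit 173))) (XT.nd (nat_lit 78)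 (nat_lit 0) (nat_lit 0) (XT.lf (nat_lit 0) (nat_lit 291785768053) (nat_lit 76) (nat_lit 19122473963) (nat_lit 152) (nat_lit 788840701376) (nat_lit 7) (nat_lit 5) (nat_lit 8) (nat_lit 5) (nat_lit 9) (nat_lit 4) (nat_lit 388) (nat_lit 340) (nat_lit 172)) (XT.lf (nat_lit 0) (nat_lit 469981348484) (nat_lit 152) (nat_lit 563461250226) (nat_lit 0) (nat_lit 141367053015) (nat_lit 7) (nat_lit 5) (nat_lit 9) (nat_lit 4) (nat_lit 7) (nat_lit 4) (nat_lit 389) (nat_lit 340) (nat_lit 171))))) (XT.nd (nat_lit 312) (nat_lit 152) (nat_lit 0) (XT.nd (nat_lit 156) (nat_lit 76) (nat_lit 0) (XT.nd (nat_lit 78) (nat_lit 0) (nat_lit 0) (XT.lf (nat_lit 0) (nat_lit 642276935398) (nat_lit 152) (nat_lit 299895965539) (nat_lit 0) (nat_lit 313662585260) (nat_lit 7) (nat_lit 5) (nat_lit 9) (nat_lit 4) (nat_lit 7) (nat_lit 4) (nat_lit 390) (nat_lit 340) (nat_lit 170)) (XT.lf (nat_lit 0) (nat_lit 828356117686) (nat_lit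 152) (nat_lit 15245556964) (nat_lit 0) (nat_lit 499741716929) (nat_lit 7) (nat_lit 5) (nat_lit 9) (nat_lit 4) (nat_lit 7) (nat_lit 4) (nat_lit 391) (nat_lit 340) (nat_lit 169))) (XT.nd (nat_lit 78) (nat_lit 0) (nat_lit 0) (XT.lf (nat_lit 0) (nat_lit 307562304856) (nat_lit 76) (nat_lit 729156162771) (nat_lit 76) (nat_lit 400541715144) (nat_lit 6) (nat_lit 4) (nat_lit 7) (nat_lit 5) (nat_lit 7) (nat_lit 4) (nat_lit 392) (nat_lit 340) (nat_lit 168)) (XT.lf (nat_lit 0) (nat_lit 657061734711) (nat_lit 76) (nat_lit 605104865030) (nat_lit 76) (nat_lit 276490374005) (nat_lit 6) (nat_lit 4) (nat_lit 7) (nat_lit 5) (nat_lit 7) (nat_lit 4) (nat_lit 393) (nat_lit 340) (nat_lit 167)))) (XT.nd (nat_lit 156) (nat_lit 76) (nat_lit 0) (XT.nd (nat_lit 78) (nat_lit 76) (nat_lit 0) (XT.lf (nat_lit 0) (nat_lit 1034521036320) (nat_lit 76) (nat_lit 471129503170) (nat_lit 76) (nat_lit 142514971963) (nat_lit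 6) (nat_lit 4) (nat_lit 7) (nat_lit 5) (nat_lit 7) (nat_lit 4) (nat_lit 394) (nat_lit 340) (nat_lit 166)) (XT.lf (nat_lit 0) (nat_lit 2069445935) (nat_lit 152) (nat_lit 324310120869) (nat_lit 76) (nat_lit 1440050977289) (nat_lit 5) (nat_lit 5) (nat_lit 7) (nat_lit 5) (nat_lit 6) (nat_lit 4) (nat_lit 395) (nat_lit 340) (nat_lit 165))) (XT.nd (nat_lit 78) (nat_lit 76) (nat_lit 0) (XT.lf (nat_lit 0) (nat_lit 150521069311) (nat_lit 152) (nat_lit 15530778697) (nat_lit 76) (nat_lit 1727808799368) (nat_lit 5) (nat_lit 5) (nat_lit 7) (nat_lit 5) (nat_lit 6) (nat_lit 4) (nat_lit 396) (nat_lit 340) (nat_lit 164)) (XT.nd (nat_lit 78) (nat_lit 0) (nat_lit 0) (XT.lf (nat_lit 0) (nat_lit 319278055652) (nat_lit 152) (nat_lit 1696527518951) (nat_lit 0) (nat_lit 15005245686) (nat_lit 4) (nat_lit 5) (nat_lit 6) (nat_lit 4) (nat_lit 4) (nat_lit 4) (nat_lit 397) (nat_lit 340) (nat_lit 163)) (XT.lf (nat_lit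 0) (nat_lit 506284269776) (nat_lit 152) (nat_lit 1470041411302) (nat_lit 0) (nat_lit 202011432462) (nat_lit 4) (nat_lit 5) (nat_lit 6) (nat_lit 4) (nat_lit 4) (nat_lit 4) (nat_lit 398) (nat_lit 340) (nat_lit 162))))))) (XT.nd (nat_lit 624) (nat_lit 0) (nat_lit 0) (XT.nd (nat_lit 312) (nat_lit 76) (nat_lit 0) (XT.nd (nat_lit 156) (nat_lit 0) (nat_lit 0) (XT.nd (nat_lit 78) (nat_lit 0) (nat_lit 0) (XT.lf (nat_lit 0) (nat_lit 708250948866) (nat_lit 152) (nat_lit 1225436477740) (nat_lit 0) (nat_lit 403978086229) (nat_lit 4) (nat_lit 5) (nat_lit 6) (nat_lit 4) (nat_lit 4) (nat_lit 4) (nat_lit 399) (nat_lit 340) (nat_lit 161)) (XT.lf (nat_lit 0) (nat_lit 926374932502) (nat_lit 152) (nat_lit 961263207548) (nat_lit 0) (nat_lit 622102046419) (nat_lit 4) (nat_lit 5) (nat_lit 6) (nat_lit 4) (nat_lit 4) (nat_lit 4) (nat_lit 400) (nat_lit 340) (nat_lit 160))) (XT.nd (nat_lit 78) (nat_lit 0) (nat_lit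 0) (XT.lf (nat_lit 0) (nat_lit 1161948807255) (nat_lit 152) (nat_lit 675956129494) (nat_lit 0) (nat_lit 857675899462) (nat_lit 4) (nat_lit 5) (nat_lit 6) (nat_lit 4) (nat_lit 4) (nat_lit 4) (nat_lit 401) (nat_lit 340) (nat_lit 159)) (XT.lf (nat_lit 0) (nat_lit 1416368566456) (nat_lit 152) (nat_lit 367824534968) (nat_lit 0) (nat_lit 1112095638561) (nat_lit 4) (nat_lit 5) (nat_lit 6) (nat_lit 4) (nat_lit 4) (nat_lit 4) (nat_lit 402) (nat_lit 340) (nat_lit 158)))) (XT.nd (nat_lit 156) (nat_lit 0) (nat_lit 0) (XT.nd (nat_lit 78) (nat_lit 76) (nat_lit 0) (XT.lf (nat_lit 0) (nat_lit 1691141882751) (nat_lit 152) (nat_lit 35042458966) (nat_lit 0) (nat_lit 1386868936245) (nat_lit 4) (nat_lit 5) (nat_lit 6) (nat_lit 4) (nat_lit 4) (nat_lit 4) (nat_lit 403) (nat_lit 340) (nat_lit 157)) (XT.lf (nat_lit 0) (nat_lit 341442475941) (nat_lit 76) (nat_lit 1654666266277) (nat_lit 76) (nat_lit 1350393302537)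 (nat_lit 3) (nat_lit 4) (nat_lit 4) (nat_lit 5) (nat_lit 4) (nat_lit 4) (nat_lit 404) (nat_lit 340) (nat_lit 156))) (XT.nd (nat_lit 78) (nat_lit 0) (nat_lit 0) (XT.lf (nat_lit 0) (nat_lit 750039059742) (nat_lit 76) (nat_lit 1576391992362) (nat_lit 76) (nat_lit 1272119012664) (nat_lit 3) (nat_lit 4) (nat_lit 4) (nat_lit 5) (nat_lit 4) (nat_lit 4) (nat_lit 405) (nat_lit 340) (nat_lit 155)) (XT.lf (nat_lit 0) (nat_lit 1191323331736) (nat_lit 76) (nat_lit 1491855795351) (nat_lit 76) (nat_lit 1187582800878) (nat_lit 3) (nat_lit 4) (nat_lit 4) (nat_lit 5) (nat_lit 4) (nat_lit 4) (nat_lit 406) (nat_lit 340) (nat_lit 154))))) (XT.nd (nat_lit 41964) (nat_lit 0) (nat_lit 3268) (XT.nd (nat_lit 41808) (nat_lit 0) (nat_lit 3496) (XT.nd (nat_lit 41730) (nat_lit 0) (nat_lit 3496) (XT.lf (nat_lit 0) (nat_lit 1667910309832) (nat_lit 76) (nat_lit 1400556720002) (nat_lit 76) (nat_lit 1096283711848) (nat_lit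 3) (nat_lit 4) (nat_lit 4) (nat_lit 5) (nat_lit 4) (nat_lit 4) (nat_lit 407) (nat_lit 340) (nat_lit 153)) (XT.lf (nat_lit 0) (nat_lit 33019771046) (nat_lit 532) (nat_lit 7424966673) (nat_lit 532) (nat_lit 7424966673) (nat_lit 49) (nat_lit 3) (nat_lit 56) (nat_lit 3) (nat_lit 56) (nat_lit 5) (nat_lit 341) (nat_lit 341) (nat_lit 218))) (XT.nd (nat_lit 78) (nat_lit 0) (nat_lit 76) (XT.lf (nat_lit 76) (nat_lit 31150549144) (nat_lit 0) (nat_lit 38286310455) (nat_lit 532) (nat_lit 30071650314) (nat_lit 50) (nat_lit 5) (nat_lit 49) (nat_lit 3) (nat_lit 56) (nat_lit 5) (nat_lit 342) (nat_lit 341) (nat_lit 217)) (XT.lf (nat_lit 0) (nat_lit 73707662355) (nat_lit 456) (nat_lit 22067829336) (nat_lit 532) (nat_lit 7755513092) (nat_lit 50) (nat_lit 5) (nat_lit 56) (nat_lit 5) (nat_lit 57) (nat_lit 5) (nat_lit 343) (nat_lit 341) (nat_lit 216)))) (XT.nd (nat_lit 156) (nat_lit 304) (nat_lit 0) (XT.nd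 (nat_lit 78) (nat_lit 0) (nat_lit 0) (XT.lf (nat_lit 76) (nat_lit 28348779989) (nat_lit 0) (nat_lit 51646977860) (nat_lit 532) (nat_lit 27745492627) (nat_lit 51) (nat_lit 5) (nat_lit 50) (nat_lit 5) (nat_lit 57) (nat_lit 5) (nat_lit 344) (nat_lit 341) (nat_lit 215)) (XT.lf (nat_lit 76) (nat_lit 84053341504) (nat_lit 0) (nat_lit 3336358812) (nat_lit 532) (nat_lit 24850392965) (nat_lit 51) (nat_lit 5) (nat_lit 50) (nat_lit 5) (nat_lit 57) (nat_lit 5) (nat_lit 345) (nat_lit 341) (nat_lit 214))) (XT.nd (nat_lit 78) (nat_lit 380) (nat_lit 0) (XT.lf (nat_lit 76) (nat_lit 27306407489) (nat_lit 0) (nat_lit 69899524544) (nat_lit 532) (nat_lit 19746450868) (nat_lit 52) (nat_lit 5) (nat_lit 51) (nat_lit 5) (nat_lit 58) (nat_lit 5) (nat_lit 346) (nat_lit 341) (nat_lit 213)) (XT.nd (nat_lit 78) (nat_lit 380) (nat_lit 0) (XT.lf (nat_lit 76) (nat_lit 88750401251) (nat_lit 0) (nat_lit 19911703313) (nat_lit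 532) (nat_lit 13311180947) (nat_lit 52) (nat_lit 5) (nat_lit 51) (nat_lit 5) (nat_lit 58) (nat_lit 5) (nat_lit 347) (nat_lit 341) (nat_lit 212)) (XT.lf (nat_lit 0) (nat_lit 28310331357) (nat_lit 456) (nat_lit 94224352520) (nat_lit 532) (nat_lit 4741184526) (nat_lit 46) (nat_lit 5) (nat_lit 52) (nat_lit 5) (nat_lit 53) (nat_lit 5) (nat_lit 348) (nat_lit 341) (nat_lit 211))))))))
noncomputable def xc205 : XT := (XT.nd (nat_lit 1326) (nat_lit 988) (nat_lit 0) (XT.nd (nat_lit 624) (nat_lit 760) (nat_lit 0) (XT.nd (nat_lit 312) (nat_lit 380) (nat_lit 0) (XT.nd (nat_lit 156) (nat_lit 228) (nat_lit 0) (XT.nd (nat_lit 78) (nat_lit 304) (nat_lit 0) (XT.lf (nat_lit 0) (nat_lit 5737289062) (nat_lit 532) (nat_lit 36924148233) (nat_lit 76) (nat_lit 90216639324) (nat_lit 45) (nat_lit 5) (nat_lit 52) (nat_lit 5) (nat_lit 46) (nat_lit 5) (nat_lit 349) (nat_lit 341) (nat_lit 210)) (XT.lf (nat_lit 0) (nat_lit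 17892070577) (nat_lit 380) (nat_lit 107659664770) (nat_lit 76) (nat_lit 13279341042) (nat_lit 41) (nat_lit 5) (nat_lit 46) (nat_lit 5) (nat_lit 42) (nat_lit 5) (nat_lit 350) (nat_lit 341) (nat_lit 209))) (XT.nd (nat_lit 78) (nat_lit 228) (nat_lit 0) (XT.lf (nat_lit 0) (nat_lit 33162725789) (nat_lit 380) (nat_lit 39499754184) (nat_lit 76) (nat_lit 72426357695) (nat_lit 41) (nat_lit 5) (nat_lit 46) (nat_lit 5) (nat_lit 42) (nat_lit 5) (nat_lit 351) (nat_lit 341) (nat_lit 208)) (XT.lf (nat_lit 0) (nat_lit 35908870120) (nat_lit 228) (nat_lit 14609409159) (nat_lit 304) (nat_lit 101259881658) (nat_lit 38) (nat_lit 5) (nat_lit 41) (nat_lit 5) (nat_lit 42) (nat_lit 5) (nat_lit 352) (nat_lit 341) (nat_lit 207)))) (XT.nd (nat_lit 156) (nat_lit 152) (nat_lit 0) (XT.nd (nat_lit 78) (nat_lit 228) (nat_lit 0) (XT.lf (nat_lit 0) (nat_lit 71526491216) (nat_lit 304) (nat_lit 40504631374) (nat_lit 76)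 (nat_lit 46790371046) (nat_lit 38) (nat_lit 5) (nat_lit 42) (nat_lit 5) (nat_lit 39) (nat_lit 5) (nat_lit 353) (nat_lit 341) (nat_lit 206)) (XT.lf (nat_lit 0) (nat_lit 42642512713) (nat_lit 228) (nat_lit 52977545455) (nat_lit 304) (nat_lit 70695859588) (nat_lit 35) (nat_lit 5) (nat_lit 38) (nat_lit 5) (nat_lit 39) (nat_lit 5) (nat_lit 354) (nat_lit 341) (nat_lit 205))) (XT.nd (nat_lit 78) (nat_lit 152) (nat_lit 0) (XT.lf (nat_lit 0) (nat_lit 123036785183) (nat_lit 304) (nat_lit 39865237332) (nat_lit 76) (nat_lit 11396219916) (nat_lit 35) (nat_lit 5) (nat_lit 39) (nat_lit 5) (nat_lit 36) (nat_lit 5) (nat_lit 355) (nat_lit 341) (nat_lit 204)) (XT.lf (nat_lit 0) (nat_lit 51865717372) (nat_lit 152) (nat_lit 103404260607) (nat_lit 228) (nat_lit 27439325448) (nat_lit 33) (nat_lit 5) (nat_lit 35) (nat_lit 5) (nat_lit 36) (nat_lit 5) (nat_lit 356) (nat_lit 341) (nat_lit 203))))) (XT.nd (nat_lit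 312) (nat_lit 304) (nat_lit 0) (XT.nd (nat_lit 156) (nat_lit 152) (nat_lit 0) (XT.nd (nat_lit 78) (nat_lit 304) (nat_lit 0) (XT.lf (nat_lit 0) (nat_lit 153201969404) (nat_lit 152) (nat_lit 37969571390) (nat_lit 228) (nat_lit 534531858) (nat_lit 33) (nat_lit 5) (nat_lit 35) (nat_lit 5) (nat_lit 36) (nat_lit 5) (nat_lit 357) (nat_lit 341) (nat_lit 202)) (XT.lf (nat_lit 0) (nat_lit 29472186773) (nat_lit 304) (nat_lit 138365217495) (nat_lit 76) (nat_lit 33340193181) (nat_lit 29) (nat_lit 5) (nat_lit 33) (nat_lit 5) (nat_lit 30) (nat_lit 5) (nat_lit 358) (nat_lit 341) (nat_lit 201))) (XT.nd (nat_lit 78) (nat_lit 152) (nat_lit 0) (XT.lf (nat_lit 0) (nat_lit 63916652747) (nat_lit 304) (nat_lit 37926477731) (nat_lit 76) (nat_lit 109397316368) (nat_lit 29) (nat_lit 5) (nat_lit 33) (nat_lit 5) (nat_lit 30) (nat_lit 5) (nat_lit 359) (nat_lit 341) (nat_lit 200)) (XT.lf (nat_lit 0) (nat_lit 74261920894)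 (nat_lit 152) (nat_lit 28640525272) (nat_lit 228) (nat_lit 119063016796) (nat_lit 27) (nat_lit 5) (nat_lit 29) (nat_lit 5) (nat_lit 30) (nat_lit 5) (nat_lit 360) (nat_lit 341) (nat_lit 199)))) (XT.nd (nat_lit 156) (nat_lit 152) (nat_lit 0) (XT.nd (nat_lit 78) (nat_lit 152) (nat_lit 0) (XT.lf (nat_lit 0) (nat_lit 147283352180) (nat_lit 228) (nat_lit 37123043934) (nat_lit 76) (nat_lit 48959984675) (nat_lit 27) (nat_lit 5) (nat_lit 30) (nat_lit 5) (nat_lit 28) (nat_lit 5) (nat_lit 361) (nat_lit 341) (nat_lit 198)) (XT.lf (nat_lit 0) (nat_lit 85854466874) (nat_lit 152) (nat_lit 112168768587) (nat_lit 228) (nat_lit 47431456523) (nat_lit 25) (nat_lit 5) (nat_lit 27) (nat_lit 5) (nat_lit 28) (nat_lit 5) (nat_lit 362) (nat_lit 341) (nat_lit 197))) (XT.nd (nat_lit 78) (nat_lit 152) (nat_lit 0) (XT.lf (nat_lit 0) (nat_lit 220781101110) (nat_lit 152) (nat_lit 33056019316) (nat_lit 228) (nat_lit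 4591763067) (nat_lit 25) (nat_lit 5) (nat_lit 27) (nat_lit 5) (nat_lit 28) (nat_lit 5) (nat_lit 363) (nat_lit 341) (nat_lit 196)) (XT.nd (nat_lit 78) (nat_lit 0) (nat_lit 0) (XT.lf (nat_lit 0) (nat_lit 43293167073) (nat_lit 152) (nat_lit 175560905558) (nat_lit 76) (nat_lit 53210529463) (nat_lit 23) (nat_lit 5) (nat_lit 25) (nat_lit 5) (nat_lit 24) (nat_lit 5) (nat_lit 364) (nat_lit 341) (nat_lit 195)) (XT.lf (nat_lit 0) (nat_lit 96675324559) (nat_lit 152) (nat_lit 44185365332) (nat_lit 76) (nat_lit 145767786615) (nat_lit 23) (nat_lit 5) (nat_lit 25) (nat_lit 5) (nat_lit 24) (nat_lit 5) (nat_lit 365) (nat_lit 341) (nat_lit 194))))))) (XT.nd (nat_lit 702) (nat_lit 380) (nat_lit 0) (XT.nd (nat_lit 312) (nat_lit 304) (nat_lit 0) (XT.nd (nat_lit 156) (nat_lit 152) (nat_lit 0) (XT.nd (nat_lit 78) (nat_lit 0) (nat_lit 0) (XT.lf (nat_lit 0) (nat_lit 102844654626) (nat_lit 152) (nat_lit 53956645938)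 (nat_lit 228) (nat_lit 145358300852) (nat_lit 21) (nat_lit 5) (nat_lit 23) (nat_lit 5) (nat_lit 24) (nat_lit 5) (nat_lit 366) (nat_lit 341) (nat_lit 193)) (XT.lf (nat_lit 0) (nat_lit 223936262927) (nat_lit 228) (nat_lit 55677873185) (nat_lit 76) (nat_lit 39143167750) (nat_lit 21) (nat_lit 5) (nat_lit 24) (nat_lit 5) (nat_lit 22) (nat_lit 4) (nat_lit 367) (nat_lit 341) (nat_lit 192))) (XT.nd (nat_lit 78) (nat_lit 76) (nat_lit 0) (XT.lf (nat_lit 0) (nat_lit 103211498662) (nat_lit 76) (nat_lit 197114079744) (nat_lit 152) (nat_lit 36046559797) (nat_lit 20) (nat_lit 5) (nat_lit 21) (nat_lit 5) (nat_lit 22) (nat_lit 4) (nat_lit 368) (nat_lit 341) (nat_lit 191)) (XT.lf (nat_lit 0) (nat_lit 27619446186) (nat_lit 152) (nat_lit 77995388154) (nat_lit 76) (nat_lit 249603612370) (nat_lit 19) (nat_lit 5) (nat_lit 21) (nat_lit 5) (nat_lit 20) (nat_lit 5) (nat_lit 369) (nat_lit 341) (nat_lit 190))))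 (XT.nd (nat_lit 156) (nat_lit 152) (nat_lit 0) (XT.nd (nat_lit 78) (nat_lit 0) (nat_lit 0) (XT.lf (nat_lit 0) (nat_lit 93314544112) (nat_lit 152) (nat_lit 3360813611) (nat_lit 228) (nat_lit 278642674337) (nat_lit 17) (nat_lit 5) (nat_lit 19) (nat_lit 5) (nat_lit 20) (nat_lit 5) (nat_lit 370) (nat_lit 341) (nat_lit 189)) (XT.lf (nat_lit 0) (nat_lit 176018646928) (nat_lit 228) (nat_lit 116720794454) (nat_lit 76) (nat_lit 103905110614) (nat_lit 17) (nat_lit 5) (nat_lit 20) (nat_lit 5) (nat_lit 18) (nat_lit 4) (nat_lit 371) (nat_lit 341) (nat_lit 188))) (XT.nd (nat_lit 78) (nat_lit 76) (nat_lit 0) (XT.lf (nat_lit 0) (nat_lit 64945853822) (nat_lit 76) (nat_lit 198412660159) (nat_lit 152) (nat_lit 156186750500) (nat_lit 16) (nat_lit 5) (nat_lit 17) (nat_lit 5) (nat_lit 18) (nat_lit 4) (nat_lit 372) (nat_lit 341) (nat_lit 187)) (XT.nd (nat_lit 78) (nat_lit 76) (nat_lit 0) (XT.lf (nat_lit 0)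 (nat_lit 267783633097) (nat_lit 76) (nat_lit 93093166501) (nat_lit 152) (nat_lit 83145936149) (nat_lit 16) (nat_lit 5) (nat_lit 17) (nat_lit 5) (nat_lit 18) (nat_lit 4) (nat_lit 373) (nat_lit 341) (nat_lit 186)) (XT.lf (nat_lit 0) (nat_lit 16730049306) (nat_lit 76) (nat_lit 450365418205) (nat_lit 76) (nat_lit 3291023759) (nat_lit 15) (nat_lit 4) (nat_lit 16) (nat_lit 5) (nat_lit 16) (nat_lit 4) (nat_lit 374) (nat_lit 341) (nat_lit 185)))))) (XT.nd (nat_lit 312) (nat_lit 228) (nat_lit 0) (XT.nd (nat_lit 156) (nat_lit 76) (nat_lit 0) (XT.nd (nat_lit 78) (nat_lit 0) (nat_lit 0) (XT.lf (nat_lit 0) (nat_lit 86164410775) (nat_lit 152) (nat_lit 267852622308) (nat_lit 76) (nat_lit 144093774837) (nat_lit 14) (nat_lit 5) (nat_lit 16) (nat_lit 5) (nat_lit 15) (nat_lit 4) (nat_lit 375) (nat_lit 341) (nat_lit 184)) (XT.lf (nat_lit 0) (nat_lit 182598371681) (nat_lit 152) (nat_lit 67270170916) (nat_lit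 76) (nat_lit 278177697513) (nat_lit 14) (nat_lit 5) (nat_lit 16) (nat_lit 5) (nat_lit 15) (nat_lit 4) (nat_lit 376) (nat_lit 341) (nat_lit 183))) (XT.nd (nat_lit 78) (nat_lit 0) (nat_lit 0) (XT.lf (nat_lit 0) (nat_lit 157223662518) (nat_lit 76) (nat_lit 133304520150) (nat_lit 152) (nat_lit 269545833633) (nat_lit 13) (nat_lit 5) (nat_lit 14) (nat_lit 5) (nat_lit 15) (nat_lit 4) (nat_lit 377) (nat_lit 341) (nat_lit 182)) (XT.lf (nat_lit 0) (nat_lit 403502542945) (nat_lit 76) (nat_lit 5429024819) (nat_lit 152) (nat_lit 185585311759) (nat_lit 13) (nat_lit 5) (nat_lit 14) (nat_lit 5) (nat_lit 15) (nat_lit 4) (nat_lit 378) (nat_lit 341) (nat_lit 181)))) (XT.nd (nat_lit 156) (nat_lit 76) (nat_lit 0) (XT.nd (nat_lit 78) (nat_lit 76) (nat_lit 0) (XT.lf (nat_lit 0) (nat_lit 36398313270) (nat_lit 76) (nat_lit 504475072930) (nat_lit 76) (nat_lit 90516492668) (nat_lit 12) (nat_lit 4) (nat_lit 13)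 (nat_lit 5) (nat_lit 13) (nat_lit 4) (nat_lit 379) (nat_lit 341) (nat_lit 180)) (XT.lf (nat_lit 0) (nat_lit 17048895285) (nat_lit 152) (nat_lit 378497005535) (nat_lit 76) (nat_lit 275203485924) (nat_lit 11) (nat_lit 5) (nat_lit 13) (nat_lit 5) (nat_lit 12) (nat_lit 4) (nat_lit 380) (nat_lit 341) (nat_lit 179))) (XT.nd (nat_lit 78) (nat_lit 76) (nat_lit 0) (XT.lf (nat_lit 0) (nat_lit 128329188753) (nat_lit 152) (nat_lit 147034113147) (nat_lit 76) (nat_lit 437706273894) (nat_lit 11) (nat_lit 5) (nat_lit 13) (nat_lit 5) (nat_lit 12) (nat_lit 4) (nat_lit 381) (nat_lit 341) (nat_lit 178)) (XT.nd (nat_lit 78) (nat_lit 0) (nat_lit 0) (XT.lf (nat_lit 0) (nat_lit 108366603751) (nat_lit 76) (nat_lit 142751443743) (nat_lit 152) (nat_lit 507448841182) (nat_lit 10) (nat_lit 5) (nat_lit 11) (nat_lit 5) (nat_lit 12) (nat_lit 4) (nat_lit 382) (nat_lit 341) (nat_lit 177)) (XT.lf (nat_lit 0) (nat_lit 387865819645)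 (nat_lit 152) (nat_lit 414936886883) (nat_lit 0) (nat_lit 4570415731) (nat_lit 10) (nat_lit 5) (nat_lit 12) (nat_lit 4) (nat_lit 10) (nat_lit 4) (nat_lit 383) (nat_lit 341) (nat_lit 176))))))))
noncomputable def xc206 : XT := (XT.nd (nat_lit 1326) (nat_lit 76) (nat_lit 0) (XT.nd (nat_lit 624) (nat_lit 228) (nat_lit 0) (XT.nd (nat_lit 312) (nat_lit 76) (nat_lit 0) (XT.nd (nat_lit 156) (nat_lit 76) (nat_lit 0) (XT.nd (nat_lit 78) (nat_lit 76) (nat_lit 0) (XT.lf (nat_lit 0) (nat_lit 539261172174) (nat_lit 152) (nat_lit 164560380201) (nat_lit 0) (nat_lit 155965681508) (nat_lit 10) (nat_lit 5) (nat_lit 12) (nat_lit 4) (nat_lit 10) (nat_lit 4) (nat_lit 384) (nat_lit 341) (nat_lit 175)) (XT.lf (nat_lit 0) (nat_lit 111419792689) (nat_lit 76) (nat_lit 594027943077) (nat_lit 76) (nat_lit 210732372085) (nat_lit 9) (nat_lit 4) (nat_lit 10) (nat_lit 5) (nat_lit 10) (nat_lit 4) (nat_lit 385) (nat_lit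 341) (nat_lit 174))) (XT.nd (nat_lit 78) (nat_lit 76) (nat_lit 0) (XT.lf (nat_lit 0) (nat_lit 418836953568) (nat_lit 76) (nat_lit 470591579443) (nat_lit 76) (nat_lit 87295934075) (nat_lit 9) (nat_lit 4) (nat_lit 10) (nat_lit 5) (nat_lit 10) (nat_lit 4) (nat_lit 386) (nat_lit 341) (nat_lit 173)) (XT.lf (nat_lit 0) (nat_lit 43713480660) (nat_lit 152) (nat_lit 292371674460) (nat_lit 76) (nat_lit 705938691074) (nat_lit 8) (nat_lit 5) (nat_lit 10) (nat_lit 5) (nat_lit 9) (nat_lit 4) (nat_lit 387) (nat_lit 341) (nat_lit 172)))) (XT.nd (nat_lit 156) (nat_lit 0) (nat_lit 0) (XT.nd (nat_lit 78) (nat_lit 76) (nat_lit 0) (XT.lf (nat_lit 0) (nat_lit 180487344511) (nat_lit 152) (nat_lit 7882101416) (nat_lit 76) (nat_lit 923996340082) (nat_lit 8) (nat_lit 5) (nat_lit 10) (nat_lit 5) (nat_lit 9) (nat_lit 4) (nat_lit 388) (nat_lit 341) (nat_lit 171)) (XT.lf (nat_lit 0) (nat_lit 315130650488) (nat_lit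 76) (nat_lit 20651314671) (nat_lit 152) (nat_lit 851946808062) (nat_lit 7) (nat_lit 5) (nat_lit 8) (nat_lit 5) (nat_lit 9) (nat_lit 4) (nat_lit 389) (nat_lit 341) (nat_lit 170))) (XT.nd (nat_lit 78) (nat_lit 0) (nat_lit 0) (XT.lf (nat_lit 0) (nat_lit 507580862661) (nat_lit 152) (nat_lit 608536220973) (nat_lit 0) (nat_lit 152677259224) (nat_lit 7) (nat_lit 5) (nat_lit 9) (nat_lit 4) (nat_lit 7) (nat_lit 4) (nat_lit 390) (nat_lit 341) (nat_lit 169)) (XT.lf (nat_lit 0) (nat_lit 693660021988) (nat_lit 152) (nat_lit 323885856420) (nat_lit 0) (nat_lit 338756371682) (nat_lit 7) (nat_lit 5) (nat_lit 9) (nat_lit 4) (nat_lit 7) (nat_lit 4) (nat_lit 391) (nat_lit 341) (nat_lit 168))))) (XT.nd (nat_lit 312) (nat_lit 152) (nat_lit 0) (XT.nd (nat_lit 156) (nat_lit 0) (nat_lit 0) (XT.nd (nat_lit 78) (nat_lit 76) (nat_lit 0) (XT.lf (nat_lit 0) (nat_lit 894625469840) (nat_lit 152) (nat_lit 16463547482)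 (nat_lit 0) (nat_lit 539721776136) (nat_lit 7) (nat_lit 5) (nat_lit 9) (nat_lit 4) (nat_lit 7) (nat_lit 4) (nat_lit 392) (nat_lit 341) (nat_lit 167)) (XT.lf (nat_lit 0) (nat_lit 332168901409) (nat_lit 76) (nat_lit 787487881233) (nat_lit 76) (nat_lit 432584147345) (nat_lit 6) (nat_lit 4) (nat_lit 7) (nat_lit 5) (nat_lit 7) (nat_lit 4) (nat_lit 393) (nat_lit 341) (nat_lit 166))) (XT.nd (nat_lit 78) (nat_lit 0) (nat_lit 0) (XT.lf (nat_lit 0) (nat_lit 709628166233) (nat_lit 76) (nat_lit 653512537047) (nat_lit 76) (nat_lit 298608765953) (nat_lit 6) (nat_lit 4) (nat_lit 7) (nat_lit 5) (nat_lit 7) (nat_lit 4) (nat_lit 394) (nat_lit 341) (nat_lit 165)) (XT.lf (nat_lit 0) (nat_lit 1117284101396) (nat_lit 76) (nat_lit 508819199364) (nat_lit 76) (nat_lit 153915393819) (nat_lit 6) (nat_lit 4) (nat_lit 7) (nat_lit 5) (nat_lit 7) (nat_lit 4) (nat_lit 395) (nat_lit 341) (nat_lit 164)))) (XT.nd (nat_lit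 156) (nat_lit 76) (nat_lit 0) (XT.nd (nat_lit 78) (nat_lit 0) (nat_lit 0) (XT.lf (nat_lit 0) (nat_lit 2235684097) (nat_lit 152) (nat_lit 350253614520) (nat_lit 76) (nat_lit 1555255634113) (nat_lit 5) (nat_lit 5) (nat_lit 7) (nat_lit 5) (nat_lit 6) (nat_lit 4) (nat_lit 396) (nat_lit 341) (nat_lit 163)) (XT.lf (nat_lit 0) (nat_lit 162563386789) (nat_lit 152) (nat_lit 16772022457) (nat_lit 76) (nat_lit 1866034039095) (nat_lit 5) (nat_lit 5) (nat_lit 7) (nat_lit 5) (nat_lit 6) (nat_lit 4) (nat_lit 397) (nat_lit 341) (nat_lit 162))) (XT.nd (nat_lit 78) (nat_lit 0) (nat_lit 0) (XT.lf (nat_lit 0) (nat_lit 344820927596) (nat_lit 152) (nat_lit 1832248497239) (nat_lit 0) (nat_lit 16206210627) (nat_lit 4) (nat_lit 5) (nat_lit 6) (nat_lit 4) (nat_lit 4) (nat_lit 4) (nat_lit 398) (nat_lit 341) (nat_lit 161)) (XT.nd (nat_lit 78) (nat_lit 0) (nat_lit 0) (XT.lf (nat_lit 0) (nat_lit 546787592369) (nat_lit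 152) (nat_lit 1587643591588) (nat_lit 0) (nat_lit 218172851953) (nat_lit 4) (nat_lit 5) (nat_lit 6) (nat_lit 4) (nat_lit 4) (nat_lit 4) (nat_lit 399) (nat_lit 341) (nat_lit 160)) (XT.lf (nat_lit 0) (nat_lit 764911562748) (nat_lit 152) (nat_lit 1323470347239) (nat_lit 0) (nat_lit 436296800623) (nat_lit 4) (nat_lit 5) (nat_lit 6) (nat_lit 4) (nat_lit 4) (nat_lit 4) (nat_lit 400) (nat_lit 341) (nat_lit 159))))))) (XT.nd (nat_lit 42354) (nat_lit 0) (nat_lit 2888) (XT.nd (nat_lit 312) (nat_lit 76) (nat_lit 0) (XT.nd (nat_lit 156) (nat_lit 0) (nat_lit 0) (XT.nd (nat_lit 78) (nat_lit 0) (nat_lit 0) (XT.lf (nat_lit 0) (nat_lit 1000485425226) (nat_lit 152) (nat_lit 1038163293114) (nat_lit 0) (nat_lit 671870642999) (nat_lit 4) (nat_lit 5) (nat_lit 6) (nat_lit 4) (nat_lit 4) (nat_lit 4) (nat_lit 401) (nat_lit 341) (nat_lit 158)) (XT.lf (nat_lit 0) (nat_lit 1254905173061) (nat_lit 152) (nat_lit 730031720745)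 (nat_lit 0) (nat_lit 926290372221) (nat_lit 4) (nat_lit 5) (nat_lit 6) (nat_lit 4) (nat_lit 4) (nat_lit 4) (nat_lit 402) (nat_lit 341) (nat_lit 157))) (XT.nd (nat_lit 78) (nat_lit 0) (nat_lit 0) (XT.lf (nat_lit 0) (nat_lit 1529678478832) (nat_lit 152) (nat_lit 397249665258) (nat_lit 0) (nat_lit 1201063660759) (nat_lit 4) (nat_lit 5) (nat_lit 6) (nat_lit 4) (nat_lit 4) (nat_lit 4) (nat_lit 403) (nat_lit 341) (nat_lit 156)) (XT.lf (nat_lit 0) (nat_lit 1826433628798) (nat_lit 152) (nat_lit 37845084842) (nat_lit 0) (nat_lit 1497818794767) (nat_lit 4) (nat_lit 5) (nat_lit 6) (nat_lit 4) (nat_lit 4) (nat_lit 4) (nat_lit 404) (nat_lit 341) (nat_lit 155)))) (XT.nd (nat_lit 156) (nat_lit 0) (nat_lit 0) (XT.nd (nat_lit 78) (nat_lit 0) (nat_lit 0) (XT.lf (nat_lit 0) (nat_lit 368758625342) (nat_lit 76) (nat_lit 1787039200459) (nat_lit 76) (nat_lit 1458424351653) (nat_lit 3) (nat_lit 4) (nat_lit 4)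 (nat_lit 5) (nat_lit 4) (nat_lit 4) (nat_lit 405) (nat_lit 341) (nat_lit 154)) (XT.lf (nat_lit 0) (nat_lit 810042880193) (nat_lit 76) (nat_lit 1702503011824) (nat_lit 76) (nat_lit 1373888149337) (nat_lit 3) (nat_lit 4) (nat_lit 4) (nat_lit 5) (nat_lit 4) (nat_lit 4) (nat_lit 406) (nat_lit 341) (nat_lit 153))) (XT.nd (nat_lit 41808) (nat_lit 0) (nat_lit 3496) (XT.lf (nat_lit 0) (nat_lit 1286629842416) (nat_lit 76) (nat_lit 1611203944232) (nat_lit 76) (nat_lit 1282589069077) (nat_lit 3) (nat_lit 4) (nat_lit 4) (nat_lit 5) (nat_lit 4) (nat_lit 4) (nat_lit 407) (nat_lit 341) (nat_lit 152)) (XT.lf (nat_lit 0) (nat_lit 35667759225) (nat_lit 532) (nat_lit 8015496518) (nat_lit 532) (nat_lit 8015496518) (nat_lit 49) (nat_lit 3) (nat_lit 56) (nat_lit 3) (nat_lit 56) (nat_lit 5) (nat_lit 342) (nat_lit 342) (nat_lit 216))))) (XT.nd (nat_lit 312) (nat_lit 608) (nat_lit 0) (XT.nd (nat_lit 156) (nat_lit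 0) (nat_lit 76) (XT.nd (nat_lit 78) (nat_lit 0) (nat_lit 76) (XT.lf (nat_lit 76) (nat_lit 33649352483) (nat_lit 0) (nat_lit 41354482329) (nat_lit 532) (nat_lit 32464364221) (nat_lit 50) (nat_lit 5) (nat_lit 49) (nat_lit 3) (nat_lit 56) (nat_lit 5) (nat_lit 343) (nat_lit 342) (nat_lit 215)) (XT.lf (nat_lit 0) (nat_lit 79615293651) (nat_lit 456) (nat_lit 23825961467) (nat_lit 532) (nat_lit 8371321215) (nat_lit 50) (nat_lit 5) (nat_lit 56) (nat_lit 5) (nat_lit 57) (nat_lit 5) (nat_lit 344) (nat_lit 342) (nat_lit 214))) (XT.nd (nat_lit 78) (nat_lit 0) (nat_lit 0) (XT.lf (nat_lit 76) (nat_lit 30623791941) (nat_lit 0) (nat_lit 55781999658) (nat_lit 532) (nat_lit 29953903725) (nat_lit 51) (nat_lit 5) (nat_lit 50) (nat_lit 5) (nat_lit 57) (nat_lit 5) (nat_lit 345) (nat_lit 342) (nat_lit 213)) (XT.lf (nat_lit 76) (nat_lit 90784191743) (nat_lit 0) (nat_lit 3606289340) (nat_lit 532) (nat_lit 26828027816)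 (nat_lit 51) (nat_lit 5) (nat_lit 50) (nat_lit 5) (nat_lit 57) (nat_lit 5) (nat_lit 346) (nat_lit 342) (nat_lit 212)))) (XT.nd (nat_lit 156) (nat_lit 760) (nat_lit 0) (XT.nd (nat_lit 78) (nat_lit 0) (nat_lit 0) (XT.lf (nat_lit 76) (nat_lit 29498178983) (nat_lit 0) (nat_lit 75493228177) (nat_lit 532) (nat_lit 21316424602) (nat_lit 52) (nat_lit 5) (nat_lit 51) (nat_lit 5) (nat_lit 58) (nat_lit 5) (nat_lit 347) (nat_lit 342) (nat_lit 211)) (XT.lf (nat_lit 76) (nat_lit 95857154550) (nat_lit 0) (nat_lit 21506252235) (nat_lit 532) (nat_lit 14367054741) (nat_lit 52) (nat_lit 5) (nat_lit 51) (nat_lit 5) (nat_lit 58) (nat_lit 5) (nat_lit 348) (nat_lit 342) (nat_lit 210))) (XT.nd (nat_lit 78) (nat_lit 380) (nat_lit 0) (XT.lf (nat_lit 0) (nat_lit 30582416148) (nat_lit 456) (nat_lit 101762897624) (nat_lit 532) (nat_lit 5111977063) (nat_lit 46) (nat_lit 5) (nat_lit 52) (nat_lit 5) (nat_lit 53) (nat_lit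 5) (nat_lit 349) (nat_lit 342) (nat_lit 209)) (XT.nd (nat_lit 78) (nat_lit 304) (nat_lit 0) (XT.lf (nat_lit 0) (nat_lit 6203750806) (nat_lit 532) (nat_lit 39870949680) (nat_lit 76) (nat_lit 97433008003) (nat_lit 45) (nat_lit 5) (nat_lit 52) (nat_lit 5) (nat_lit 46) (nat_lit 5) (nat_lit 350) (nat_lit 342) (nat_lit 208)) (XT.lf (nat_lit 0) (nat_lit 19330524604) (nat_lit 380) (nat_lit 116264902515) (nat_lit 76) (nat_lit 14341553526) (nat_lit 41) (nat_lit 5) (nat_lit 46) (nat_lit 5) (nat_lit 42) (nat_lit 5) (nat_lit 351) (nat_lit 342) (nat_lit 207))))))))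
noncomputable def xc207 : XT := (XT.nd (nat_lit 1326) (nat_lit 912) (nat_lit 0) (XT.nd (nat_lit 624) (nat_lit 608) (nat_lit 0) (XT.nd (nat_lit 312) (nat_lit 456) (nat_lit 0) (XT.nd (nat_lit 156) (nat_lit 228) (nat_lit 0) (XT.nd (nat_lit 78) (nat_lit 228) (nat_lit 0) (XT.lf (nat_lit 0) (nat_lit 35822307167) (nat_lit 380) (nat_lit 42652757262) (nat_lit 76) (nat_lit 78220341496) (nat_lit 41) (nat_lit 5) (nat_lit 46) (nat_lit 5) (nat_lit 42) (nat_lit 5) (nat_lit 352) (nat_lit 342) (nat_lit 206)) (XT.lf (nat_lit 0) (nat_lit 38788380348) (nat_lit 228) (nat_lit 15777601973) (nat_lit 304) (nat_lit 109353919559) (nat_lit 38) (nat_lit 5) (nat_lit 41) (nat_lit 5) (nat_lit 42) (nat_lit 5) (nat_lit 353) (nat_lit 342) (nat_lit 205))) (XT.nd (nat_lit 78) (nat_lit 228) (nat_lit 0) (XT.lf (nat_lit 0) (nat_lit 77254401407) (nat_lit 304) (nat_lit 43738243472) (nat_lit 76) (nat_lit 50534093239) (nat_lit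 38) (nat_lit 5) (nat_lit 42) (nat_lit 5) (nat_lit 39) (nat_lit 5) (nat_lit 354) (nat_lit 342) (nat_lit 204)) (XT.lf (nat_lit 0) (nat_lit 46060501042) (nat_lit 228) (nat_lit 57214682142) (nat_lit 304) (nat_lit 76345555494) (nat_lit 35) (nat_lit 5) (nat_lit 38) (nat_lit 5) (nat_lit 39) (nat_lit 5) (nat_lit 355) (nat_lit 342) (nat_lit 203)))) (XT.nd (nat_lit 156) (nat_lit 304) (nat_lit 0) (XT.nd (nat_lit 78) (nat_lit 152) (nat_lit 0) (XT.lf (nat_lit 0) (nat_lit 132884863205) (nat_lit 304) (nat_lit 43047961735) (nat_lit 76) (nat_lit 12308856006) (nat_lit 35) (nat_lit 5) (nat_lit 39) (nat_lit 5) (nat_lit 36) (nat_lit 5) (nat_lit 356) (nat_lit 342) (nat_lit 202)) (XT.lf (nat_lit 0) (nat_lit 56021304925) (nat_lit 152) (nat_lit 111675178354) (nat_lit 228) (nat_lit 29629162539) (nat_lit 33) (nat_lit 5) (nat_lit 35) (nat_lit 5) (nat_lit 36) (nat_lit 5) (nat_lit 357) (nat_lit 342) (nat_lit 201)))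 (XT.nd (nat_lit 78) (nat_lit 304) (nat_lit 0) (XT.lf (nat_lit 0) (nat_lit 165463988218) (nat_lit 152) (nat_lit 41005819415) (nat_lit 228) (nat_lit 572378717) (nat_lit 33) (nat_lit 5) (nat_lit 35) (nat_lit 5) (nat_lit 36) (nat_lit 5) (nat_lit 358) (nat_lit 342) (nat_lit 200)) (XT.lf (nat_lit 0) (nat_lit 31834464847) (nat_lit 304) (nat_lit 149428145689) (nat_lit 76) (nat_lit 36008827060) (nat_lit 29) (nat_lit 5) (nat_lit 33) (nat_lit 5) (nat_lit 30) (nat_lit 5) (nat_lit 359) (nat_lit 342) (nat_lit 199))))) (XT.nd (nat_lit 312) (nat_lit 304) (nat_lit 0) (XT.nd (nat_lit 156) (nat_lit 152) (nat_lit 0) (XT.nd (nat_lit 78) (nat_lit 152) (nat_lit 0) (XT.lf (nat_lit 0) (nat_lit 69034154534) (nat_lit 304) (nat_lit 40954772612) (nat_lit 76) (nat_lit 118150415034) (nat_lit 29) (nat_lit 5) (nat_lit 33) (nat_lit 5) (nat_lit 30) (nat_lit 5) (nat_lit 360) (nat_lit 342) (nat_lit 198)) (XT.lf (nat_lit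 0) (nat_lit 80208550477) (nat_lit 152) (nat_lit 30930088599) (nat_lit 228) (nat_lit 128583734805) (nat_lit 27) (nat_lit 5) (nat_lit 29) (nat_lit 5) (nat_lit 30) (nat_lit 5) (nat_lit 361) (nat_lit 342) (nat_lit 197))) (XT.nd (nat_lit 78) (nat_lit 152) (nat_lit 0) (XT.lf (nat_lit 0) (nat_lit 159069758863) (nat_lit 228) (nat_lit 40087367395) (nat_lit 76) (nat_lit 52878260042) (nat_lit 27) (nat_lit 5) (nat_lit 30) (nat_lit 5) (nat_lit 28) (nat_lit 5) (nat_lit 362) (nat_lit 342) (nat_lit 196)) (XT.lf (nat_lit 0) (nat_lit 92728204529) (nat_lit 152) (nat_lit 121140480747) (nat_lit 228) (nat_lit 51222089352) (nat_lit 25) (nat_lit 5) (nat_lit 27) (nat_lit 5) (nat_lit 28) (nat_lit 5) (nat_lit 363) (nat_lit 342) (nat_lit 195)))) (XT.nd (nat_lit 156) (nat_lit 152) (nat_lit 0) (XT.nd (nat_lit 78) (nat_lit 152) (nat_lit 0) (XT.lf (nat_lit 0) (nat_lit 238448570963) (nat_lit 152) (nat_lit 35698844077)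 (nat_lit 228) (nat_lit 4955508100) (nat_lit 25) (nat_lit 5) (nat_lit 27) (nat_lit 5) (nat_lit 28) (nat_lit 5) (nat_lit 364) (nat_lit 342) (nat_lit 194)) (XT.lf (nat_lit 0) (nat_lit 46759946742) (nat_lit 152) (nat_lit 189600517552) (nat_lit 76) (nat_lit 57469035548) (nat_lit 23) (nat_lit 5) (nat_lit 25) (nat_lit 5) (nat_lit 24) (nat_lit 5) (nat_lit 365) (nat_lit 342) (nat_lit 193))) (XT.nd (nat_lit 78) (nat_lit 152) (nat_lit 0) (XT.lf (nat_lit 0) (nat_lit 104412430434) (nat_lit 152) (nat_lit 47715323770) (nat_lit 76) (nat_lit 157430750033) (nat_lit 23) (nat_lit 5) (nat_lit 25) (nat_lit 5) (nat_lit 24) (nat_lit 5) (nat_lit 366) (nat_lit 342) (nat_lit 192)) (XT.nd (nat_lit 78) (nat_lit 0) (nat_lit 0) (XT.lf (nat_lit 0) (nat_lit 111076974473) (nat_lit 152) (nat_lit 58271396082) (nat_lit 228) (nat_lit 156983757999) (nat_lit 21) (nat_lit 5) (nat_lit 23) (nat_lit 5) (nat_lit 24) (nat_lit 5)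 (nat_lit 367) (nat_lit 342) (nat_lit 191)) (XT.lf (nat_lit 0) (nat_lit 241853949880) (nat_lit 228) (nat_lit 60127523774) (nat_lit 76) (nat_lit 42276188218) (nat_lit 21) (nat_lit 5) (nat_lit 24) (nat_lit 5) (nat_lit 22) (nat_lit 4) (nat_lit 368) (nat_lit 342) (nat_lit 190))))))) (XT.nd (nat_lit 702) (nat_lit 380) (nat_lit 0) (XT.nd (nat_lit 312) (nat_lit 228) (nat_lit 0) (XT.nd (nat_lit 156) (nat_lit 152) (nat_lit 0) (XT.nd (nat_lit 78) (nat_lit 76) (nat_lit 0) (XT.lf (nat_lit 0) (nat_lit 111472881890) (nat_lit 76) (nat_lit 212881429686) (nat_lit 152) (nat_lit 38927379560) (nat_lit 20) (nat_lit 5) (nat_lit 21) (nat_lit 5) (nat_lit 22) (nat_lit 4) (nat_lit 369) (nat_lit 342) (nat_lit 189)) (XT.lf (nat_lit 0) (nat_lit 29831557159) (nat_lit 152) (nat_lit 84230749212) (nat_lit 76) (nat_lit 269573408934) (nat_lit 19) (nat_lit 5) (nat_lit 21) (nat_lit 5) (nat_lit 20) (nat_lit 5) (nat_lit 370)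 (nat_lit 342) (nat_lit 188))) (XT.nd (nat_lit 78) (nat_lit 0) (nat_lit 0) (XT.lf (nat_lit 0) (nat_lit 100783869533) (nat_lit 152) (nat_lit 3627982899) (nat_lit 228) (nat_lit 300931422386) (nat_lit 17) (nat_lit 5) (nat_lit 19) (nat_lit 5) (nat_lit 20) (nat_lit 5) (nat_lit 371) (nat_lit 342) (nat_lit 187)) (XT.lf (nat_lit 0) (nat_lit 190102459864) (nat_lit 228) (nat_lit 126054457164) (nat_lit 76) (nat_lit 112219011102) (nat_lit 17) (nat_lit 5) (nat_lit 20) (nat_lit 5) (nat_lit 18) (nat_lit 4) (nat_lit 372) (nat_lit 342) (nat_lit 186)))) (XT.nd (nat_lit 156) (nat_lit 152) (nat_lit 0) (XT.nd (nat_lit 78) (nat_lit 0) (nat_lit 0) (XT.lf (nat_lit 0) (nat_lit 70145421688) (nat_lit 76) (nat_lit 214284016438) (nat_lit 152) (nat_lit 168679265912) (nat_lit 16) (nat_lit 5) (nat_lit 17) (nat_lit 5) (nat_lit 18) (nat_lit 4) (nat_lit 373) (nat_lit 342) (nat_lit 185)) (XT.lf (nat_lit 0) (nat_lit 289209934448)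 (nat_lit 76) (nat_lit 100539085994) (nat_lit 152) (nat_lit 89795366015) (nat_lit 16) (nat_lit 5) (nat_lit 17) (nat_lit 5) (nat_lit 18) (nat_lit 4) (nat_lit 374) (nat_lit 342) (nat_lit 184))) (XT.nd (nat_lit 78) (nat_lit 76) (nat_lit 0) (XT.lf (nat_lit 0) (nat_lit 18072100481) (nat_lit 76) (nat_lit 486393049337) (nat_lit 76) (nat_lit 3552095310) (nat_lit 15) (nat_lit 4) (nat_lit 16) (nat_lit 5) (nat_lit 16) (nat_lit 4) (nat_lit 375) (nat_lit 342) (nat_lit 183)) (XT.nd (nat_lit 78) (nat_lit 0) (nat_lit 0) (XT.lf (nat_lit 0) (nat_lit 93059507877) (nat_lit 152) (nat_lit 289277351060) (nat_lit 76) (nat_lit 155622656491) (nat_lit 14) (nat_lit 5) (nat_lit 16) (nat_lit 5) (nat_lit 15) (nat_lit 4) (nat_lit 376) (nat_lit 342) (nat_lit 182)) (XT.lf (nat_lit 0) (nat_lit 197208041637) (nat_lit 152) (nat_lit 72648561412) (nat_lit 76) (nat_lit 300433190784) (nat_lit 14) (nat_lit 5) (nat_lit 16) (nat_lit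 5) (nat_lit 15) (nat_lit 4) (nat_lit 377) (nat_lit 342) (nat_lit 181)))))) (XT.nd (nat_lit 312) (nat_lit 152) (nat_lit 0) (XT.nd (nat_lit 156) (nat_lit 152) (nat_lit 0) (XT.nd (nat_lit 78) (nat_lit 0) (nat_lit 0) (XT.lf (nat_lit 0) (nat_lit 169804697098) (nat_lit 76) (nat_lit 143967482610) (nat_lit 152) (nat_lit 291107617142) (nat_lit 13) (nat_lit 5) (nat_lit 14) (nat_lit 5) (nat_lit 15) (nat_lit 4) (nat_lit 378) (nat_lit 342) (nat_lit 180)) (XT.lf (nat_lit 0) (nat_lit 435785655250) (nat_lit 76) (nat_lit 5862051293) (nat_lit 152) (nat_lit 200430393012) (nat_lit 13) (nat_lit 5) (nat_lit 14) (nat_lit 5) (nat_lit 15) (nat_lit 4) (nat_lit 379) (nat_lit 342) (nat_lit 179))) (XT.nd (nat_lit 78) (nat_lit 76) (nat_lit 0) (XT.lf (nat_lit 0) (nat_lit 39313110219) (nat_lit 76) (nat_lit 544831740089) (nat_lit 76) (nat_lit 97756090247) (nat_lit 12) (nat_lit 4) (nat_lit 13) (nat_lit 5) (nat_lit 13)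 (nat_lit 4) (nat_lit 380) (nat_lit 342) (nat_lit 178)) (XT.lf (nat_lit 0) (nat_lit 18414321447) (nat_lit 152) (nat_lit 408773970514) (nat_lit 76) (nat_lit 297220923560) (nat_lit 11) (nat_lit 5) (nat_lit 13) (nat_lit 5) (nat_lit 12) (nat_lit 4) (nat_lit 381) (nat_lit 342) (nat_lit 177)))) (XT.nd (nat_lit 156) (nat_lit 76) (nat_lit 0) (XT.nd (nat_lit 78) (nat_lit 76) (nat_lit 0) (XT.lf (nat_lit 0) (nat_lit 138596926204) (nat_lit 152) (nat_lit 158794253807) (nat_lit 76) (nat_lit 472723848733) (nat_lit 11) (nat_lit 5) (nat_lit 13) (nat_lit 5) (nat_lit 12) (nat_lit 4) (nat_lit 382) (nat_lit 342) (nat_lit 176)) (XT.lf (nat_lit 0) (nat_lit 117038454915) (nat_lit 76) (nat_lit 154170395527) (nat_lit 152) (nat_lit 548043279739) (nat_lit 10) (nat_lit 5) (nat_lit 11) (nat_lit 5) (nat_lit 12) (nat_lit 4) (nat_lit 383) (nat_lit 342) (nat_lit 175))) (XT.nd (nat_lit 78) (nat_lit 76) (nat_lit 0) (XT.lf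 (nat_lit 0) (nat_lit 418896369601) (nat_lit 152) (nat_lit 448129426292) (nat_lit 0) (nat_lit 4937072603) (nat_lit 10) (nat_lit 5) (nat_lit 12) (nat_lit 4) (nat_lit 10) (nat_lit 4) (nat_lit 384) (nat_lit 342) (nat_lit 174)) (XT.nd (nat_lit 78) (nat_lit 76) (nat_lit 0) (XT.lf (nat_lit 0) (nat_lit 582403255193) (nat_lit 152) (nat_lit 177722977708) (nat_lit 0) (nat_lit 168443883819) (nat_lit 10) (nat_lit 5) (nat_lit 12) (nat_lit 4) (nat_lit 10) (nat_lit 4) (nat_lit 385) (nat_lit 342) (nat_lit 173)) (XT.lf (nat_lit 0) (nat_lit 120335552484) (nat_lit 76) (nat_lit 641549155637) (nat_lit 76) (nat_lit 227589715397) (nat_lit 9) (nat_lit 4) (nat_lit 10) (nat_lit 5) (nat_lit 10) (nat_lit 4) (nat_lit 386) (nat_lit 342) (nat_lit 172))))))))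
noncomputable def xc208 : XT := (XT.nd (nat_lit 1326) (nat_lit 76) (nat_lit 0) (XT.nd (nat_lit 624) (nat_lit 152) (nat_lit 0) (XT.nd (nat_lit 312) (nat_lit 76) (nat_lit 0) (XT.nd (nat_lit 156) (nat_lit 76) (nat_lit 0) (XT.nd (nat_lit 78) (nat_lit 76) (nat_lit 0) (XT.lf (nat_lit 0) (nat_lit 452345925020) (nat_lit 76) (nat_lit 508237958683) (nat_lit 76) (nat_lit 94278454676) (nat_lit 9) (nat_lit 4) (nat_lit 10) (nat_lit 5) (nat_lit 10) (nat_lit 4) (nat_lit 387) (nat_lit 342) (nat_lit 171)) (XT.lf (nat_lit 0) (nat_lit 47211574290) (nat_lit 152) (nat_lit 315759488524) (nat_lit 76) (nat_lit 762414609322) (nat_lit 8) (nat_lit 5) (nat_lit 10) (nat_lit 5) (nat_lit 9) (nat_lit 4) (nat_lit 388) (nat_lit 342) (nat_lit 170))) (XT.nd (nat_lit 78) (nat_lit 76) (nat_lit 0) (XT.lf (nat_lit 0) (nat_lit 194927272051) (nat_lit 152) (nat_lit 8510891851) (nat_lit 76) (nat_lit 997916809290) (nat_lit 8) (nat_lit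 5) (nat_lit 10) (nat_lit 5) (nat_lit 9) (nat_lit 4) (nat_lit 389) (nat_lit 342) (nat_lit 169)) (XT.lf (nat_lit 0) (nat_lit 340342835201) (nat_lit 76) (nat_lit 22302599192) (nat_lit 152) (nat_lit 920101567261) (nat_lit 7) (nat_lit 5) (nat_lit 8) (nat_lit 5) (nat_lit 9) (nat_lit 4) (nat_lit 390) (nat_lit 342) (nat_lit 168)))) (XT.nd (nat_lit 156) (nat_lit 76) (nat_lit 0) (XT.nd (nat_lit 78) (nat_lit 0) (nat_lit 0) (XT.lf (nat_lit 0) (nat_lit 548188194413) (nat_lit 152) (nat_lit 657217464612) (nat_lit 0) (nat_lit 164892161814) (nat_lit 7) (nat_lit 5) (nat_lit 9) (nat_lit 4) (nat_lit 7) (nat_lit 4) (nat_lit 391) (nat_lit 342) (nat_lit 167)) (XT.lf (nat_lit 0) (nat_lit 749153622579) (nat_lit 152) (nat_lit 349795193416) (nat_lit 0) (nat_lit 365857549798) (nat_lit 7) (nat_lit 5) (nat_lit 9) (nat_lit 4) (nat_lit 7) (nat_lit 4) (nat_lit 392) (nat_lit 342) (nat_lit 166))) (XT.nd (nat_lit 78) (nat_lit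 76) (nat_lit 0) (XT.lf (nat_lit 0) (nat_lit 966196247087) (nat_lit 152) (nat_lit 17779213209) (nat_lit 0) (nat_lit 582900137099) (nat_lit 7) (nat_lit 5) (nat_lit 9) (nat_lit 4) (nat_lit 7) (nat_lit 4) (nat_lit 393) (nat_lit 342) (nat_lit 165)) (XT.lf (nat_lit 0) (nat_lit 358743795693) (nat_lit 76) (nat_lit 850486247671) (nat_lit 76) (nat_lit 467190103233) (nat_lit 6) (nat_lit 4) (nat_lit 7) (nat_lit 5) (nat_lit 7) (nat_lit 4) (nat_lit 394) (nat_lit 342) (nat_lit 164))))) (XT.nd (nat_lit 312) (nat_lit 76) (nat_lit 0) (XT.nd (nat_lit 156) (nat_lit 76) (nat_lit 0) (XT.nd (nat_lit 78) (nat_lit 0) (nat_lit 0) (XT.lf (nat_lit 0) (nat_lit 766399699319) (nat_lit 76) (nat_lit 705792925140) (nat_lit 76) (nat_lit 322496748803) (nat_lit 6) (nat_lit 4) (nat_lit 7) (nat_lit 5) (nat_lit 7) (nat_lit 4) (nat_lit 395) (nat_lit 342) (nat_lit 163)) (XT.lf (nat_lit 0) (nat_lit 1206668014497) (nat_lit 76)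 (nat_lit 549524165989) (nat_lit 76) (nat_lit 166227960115) (nat_lit 6) (nat_lit 4) (nat_lit 7) (nat_lit 5) (nat_lit 7) (nat_lit 4) (nat_lit 396) (nat_lit 342) (nat_lit 162))) (XT.nd (nat_lit 78) (nat_lit 0) (nat_lit 0) (XT.lf (nat_lit 0) (nat_lit 2415123948) (nat_lit 152) (nat_lit 378272775407) (nat_lit 76) (nat_lit 1679676580932) (nat_lit 5) (nat_lit 5) (nat_lit 7) (nat_lit 5) (nat_lit 6) (nat_lit 4) (nat_lit 397) (nat_lit 342) (nat_lit 161)) (XT.lf (nat_lit 0) (nat_lit 175568999512) (nat_lit 152) (nat_lit 18112739556) (nat_lit 76) (nat_lit 2015317221566) (nat_lit 5) (nat_lit 5) (nat_lit 7) (nat_lit 5) (nat_lit 6) (nat_lit 4) (nat_lit 398) (nat_lit 342) (nat_lit 160)))) (XT.nd (nat_lit 156) (nat_lit 0) (nat_lit 0) (XT.nd (nat_lit 78) (nat_lit 0) (nat_lit 0) (XT.lf (nat_lit 0) (nat_lit 372407139777) (nat_lit 152) (nat_lit 1978827328298) (nat_lit 0) (nat_lit 17503174972) (nat_lit 4) (nat_lit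 5) (nat_lit 6) (nat_lit 4) (nat_lit 4) (nat_lit 4) (nat_lit 399) (nat_lit 342) (nat_lit 159)) (XT.lf (nat_lit 0) (nat_lit 590531097882) (nat_lit 152) (nat_lit 1714654107878) (nat_lit 0) (nat_lit 235627112975) (nat_lit 4) (nat_lit 5) (nat_lit 6) (nat_lit 4) (nat_lit 4) (nat_lit 4) (nat_lit 400) (nat_lit 342) (nat_lit 158))) (XT.nd (nat_lit 78) (nat_lit 0) (nat_lit 0) (XT.lf (nat_lit 0) (nat_lit 826104948993) (nat_lit 152) (nat_lit 1429347075910) (nat_lit 0) (nat_lit 471200945474) (nat_lit 4) (nat_lit 5) (nat_lit 6) (nat_lit 4) (nat_lit 4) (nat_lit 4) (nat_lit 401) (nat_lit 342) (nat_lit 157)) (XT.nd (nat_lit 78) (nat_lit 0) (nat_lit 0) (XT.lf (nat_lit 0) (nat_lit 1080524686304) (nat_lit 152) (nat_lit 1121215524055) (nat_lit 0) (nat_lit 725620665551) (nat_lit 4) (nat_lit 5) (nat_lit 6) (nat_lit 4) (nat_lit 4) (nat_lit 4) (nat_lit 402) (nat_lit 342) (nat_lit 156)) (XT.lf (nat_lit 0) (nat_lit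 1355297982332) (nat_lit 152) (nat_lit 788433487564) (nat_lit 0) (nat_lit 1000393945621) (nat_lit 4) (nat_lit 5) (nat_lit 6) (nat_lit 4) (nat_lit 4) (nat_lit 4) (nat_lit 403) (nat_lit 342) (nat_lit 155))))))) (XT.nd (nat_lit 42432) (nat_lit 0) (nat_lit 2660) (XT.nd (nat_lit 42120) (nat_lit 0) (nat_lit 3496) (XT.nd (nat_lit 156) (nat_lit 76) (nat_lit 0) (XT.nd (nat_lit 78) (nat_lit 0) (nat_lit 0) (XT.lf (nat_lit 0) (nat_lit 1652053123275) (nat_lit 152) (nat_lit 429028924737) (nat_lit 0) (nat_lit 1297149071789) (nat_lit 4) (nat_lit 5) (nat_lit 6) (nat_lit 4) (nat_lit 4) (nat_lit 4) (nat_lit 404) (nat_lit 342) (nat_lit 154)) (XT.lf (nat_lit 0) (nat_lit 1972548658116) (nat_lit 152) (nat_lit 40872030758) (nat_lit 0) (nat_lit 1617644592949) (nat_lit 4) (nat_lit 5) (nat_lit 6) (nat_lit 4) (nat_lit 4) (nat_lit 4) (nat_lit 405) (nat_lit 342) (nat_lit 153))) (XT.nd (nat_lit 78) (nat_lit 0) (nat_lit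 0) (XT.lf (nat_lit 0) (nat_lit 398259959511) (nat_lit 76) (nat_lit 1930002021748) (nat_lit 76) (nat_lit 1575097943914) (nat_lit 3) (nat_lit 4) (nat_lit 4) (nat_lit 5) (nat_lit 4) (nat_lit 4) (nat_lit 406) (nat_lit 342) (nat_lit 152)) (XT.lf (nat_lit 0) (nat_lit 874846907036) (nat_lit 76) (nat_lit 1838702961338) (nat_lit 76) (nat_lit 1483798871775) (nat_lit 3) (nat_lit 4) (nat_lit 4) (nat_lit 5) (nat_lit 4) (nat_lit 4) (nat_lit 407) (nat_lit 342) (nat_lit 151)))) (XT.nd (nat_lit 156) (nat_lit 0) (nat_lit 76) (XT.nd (nat_lit 78) (nat_lit 0) (nat_lit 0) (XT.lf (nat_lit 0) (nat_lit 38526672500) (nat_lit 532) (nat_lit 8653763427) (nat_lit 532) (nat_lit 8653763427) (nat_lit 49) (nat_lit 3) (nat_lit 56) (nat_lit 3) (nat_lit 56) (nat_lit 5) (nat_lit 343) (nat_lit 343) (nat_lit 214)) (XT.lf (nat_lit 76) (nat_lit 36347095785) (nat_lit 0) (nat_lit 44667356550) (nat_lit 532) (nat_lit 35050352421)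 (nat_lit 50) (nat_lit 5) (nat_lit 49) (nat_lit 3) (nat_lit 56) (nat_lit 5) (nat_lit 344) (nat_lit 343) (nat_lit 213))) (XT.nd (nat_lit 78) (nat_lit 0) (nat_lit 0) (XT.lf (nat_lit 0) (nat_lit 85993963566) (nat_lit 456) (nat_lit 25725784770) (nat_lit 532) (nat_lit 9037054926) (nat_lit 50) (nat_lit 5) (nat_lit 56) (nat_lit 5) (nat_lit 57) (nat_lit 5) (nat_lit 345) (nat_lit 343) (nat_lit 212)) (XT.lf (nat_lit 76) (nat_lit 33079790592) (nat_lit 0) (nat_lit 60247357614) (nat_lit 532) (nat_lit 32340589555) (nat_lit 51) (nat_lit 5) (nat_lit 50) (nat_lit 5) (nat_lit 57) (nat_lit 5) (nat_lit 346) (nat_lit 343) (nat_lit 211))))) (XT.nd (nat_lit 312) (nat_lit 608) (nat_lit 0) (XT.nd (nat_lit 156) (nat_lit 304) (nat_lit 0) (XT.nd (nat_lit 78) (nat_lit 0) (nat_lit 76) (XT.lf (nat_lit 76) (nat_lit 98052570875) (nat_lit 0) (nat_lit 3897383214) (nat_lit 532) (nat_lit 28965356645) (nat_lit 51) (nat_lit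 5) (nat_lit 50) (nat_lit 5) (nat_lit 57) (nat_lit 5) (nat_lit 347) (nat_lit 343) (nat_lit 210)) (XT.lf (nat_lit 76) (nat_lit 31864256634) (nat_lit 0) (nat_lit 81534179633) (nat_lit 532) (nat_lit 23013386087) (nat_lit 52) (nat_lit 5) (nat_lit 51) (nat_lit 5) (nat_lit 58) (nat_lit 5) (nat_lit 348) (nat_lit 343) (nat_lit 209))) (XT.nd (nat_lit 78) (nat_lit 380) (nat_lit 0) (XT.lf (nat_lit 76) (nat_lit 103531489259) (nat_lit 0) (nat_lit 23228135008) (nat_lit 532) (nat_lit 15508685340) (nat_lit 52) (nat_lit 5) (nat_lit 51) (nat_lit 5) (nat_lit 58) (nat_lit 5) (nat_lit 349) (nat_lit 343) (nat_lit 208)) (XT.lf (nat_lit 0) (nat_lit 33035232246) (nat_lit 456) (nat_lit 109904441181) (nat_lit 532) (nat_lit 5513645940) (nat_lit 46) (nat_lit 5) (nat_lit 52) (nat_lit 5) (nat_lit 53) (nat_lit 5) (nat_lit 350) (nat_lit 343) (nat_lit 207)))) (XT.nd (nat_lit 156) (nat_lit 228) (nat_lit 0) (XT.nd (nat_lit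 78) (nat_lit 304) (nat_lit 0) (XT.lf (nat_lit 0) (nat_lit 6706462582) (nat_lit 532) (nat_lit 43054512476) (nat_lit 76) (nat_lit 105226823482) (nat_lit 45) (nat_lit 5) (nat_lit 52) (nat_lit 5) (nat_lit 46) (nat_lit 5) (nat_lit 351) (nat_lit 343) (nat_lit 206)) (XT.lf (nat_lit 0) (nat_lit 20883043716) (nat_lit 380) (nat_lit 125559634293) (nat_lit 76) (nat_lit 15488762239) (nat_lit 41) (nat_lit 5) (nat_lit 46) (nat_lit 5) (nat_lit 42) (nat_lit 5) (nat_lit 352) (nat_lit 343) (nat_lit 205))) (XT.nd (nat_lit 78) (nat_lit 228) (nat_lit 0) (XT.lf (nat_lit 0) (nat_lit 38693718725) (nat_lit 380) (nat_lit 46058995970) (nat_lit 76) (nat_lit 84477861807) (nat_lit 41) (nat_lit 5) (nat_lit 46) (nat_lit 5) (nat_lit 42) (nat_lit 5) (nat_lit 353) (nat_lit 343) (nat_lit 204)) (XT.nd (nat_lit 78) (nat_lit 0) (nat_lit 0) (XT.lf (nat_lit 0) (nat_lit 41897281209) (nat_lit 228) (nat_lit 17039330091) (nat_lit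 304) (nat_lit 118096443830) (nat_lit 38) (nat_lit 5) (nat_lit 41) (nat_lit 5) (nat_lit 42) (nat_lit 5) (nat_lit 354) (nat_lit 343) (nat_lit 203)) (XT.lf (nat_lit 0) (nat_lit 83439718277) (nat_lit 304) (nat_lit 47231508702) (nat_lit 76) (nat_lit 54577242945) (nat_lit 38) (nat_lit 5) (nat_lit 42) (nat_lit 5) (nat_lit 39) (nat_lit 5) (nat_lit 355) (nat_lit 343) (nat_lit 202))))))))
noncomputable def xc209 : XT := (XT.nd (nat_lit 1326) (nat_lit 684) (nat_lit 0) (XT.nd (nat_lit 624) (nat_lit 760) (nat_lit 0) (XT.nd (nat_lit 312) (nat_lit 456) (nat_lit 0) (XT.nd (nat_lit 156) (nat_lit 152) (nat_lit 0) (XT.nd (nat_lit 78) (nat_lit 0) (nat_lit 0) (XT.lf (nat_lit 0) (nat_lit 49750988684) (nat_lit 228) (nat_lit 61790941977) (nat_lit 304) (nat_lit 82448079169) (nat_lit 35) (nat_lit 5) (nat_lit 38) (nat_lit 5) (nat_lit 39) (nat_lit 5) (nat_lit 356) (nat_lit 343) (nat_lit 201)) (XT.lf (nat_lit 0)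 (nat_lit 143520054873) (nat_lit 304) (nat_lit 46486230616) (nat_lit 76) (nat_lit 13294369095) (nat_lit 35) (nat_lit 5) (nat_lit 39) (nat_lit 5) (nat_lit 36) (nat_lit 5) (nat_lit 357) (nat_lit 343) (nat_lit 200))) (XT.nd (nat_lit 78) (nat_lit 0) (nat_lit 0) (XT.lf (nat_lit 0) (nat_lit 60508436414) (nat_lit 152) (nat_lit 120607972542) (nat_lit 228) (nat_lit 31994943978) (nat_lit 33) (nat_lit 5) (nat_lit 35) (nat_lit 5) (nat_lit 36) (nat_lit 5) (nat_lit 358) (nat_lit 343) (nat_lit 199)) (XT.lf (nat_lit 0) (nat_lit 178706132363) (nat_lit 152) (nat_lit 44285155264) (nat_lit 228) (nat_lit 613954602) (nat_lit 33) (nat_lit 5) (nat_lit 35) (nat_lit 5) (nat_lit 36) (nat_lit 5) (nat_lit 359) (nat_lit 343) (nat_lit 198)))) (XT.nd (nat_lit 156) (nat_lit 152) (nat_lit 0) (XT.nd (nat_lit 78) (nat_lit 0) (nat_lit 0) (XT.lf (nat_lit 0) (nat_lit 34385082746) (nat_lit 304) (nat_lit 161377005365) (nat_lit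 76) (nat_lit 38890749295) (nat_lit 29) (nat_lit 5) (nat_lit 33) (nat_lit 5) (nat_lit 30) (nat_lit 5) (nat_lit 360) (nat_lit 343) (nat_lit 197)) (XT.lf (nat_lit 0) (nat_lit 74560461629) (nat_lit 304) (nat_lit 44226161847) (nat_lit 76) (nat_lit 127603574228) (nat_lit 29) (nat_lit 5) (nat_lit 33) (nat_lit 5) (nat_lit 30) (nat_lit 5) (nat_lit 361) (nat_lit 343) (nat_lit 196))) (XT.nd (nat_lit 78) (nat_lit 0) (nat_lit 0) (XT.lf (nat_lit 0) (nat_lit 86630100695) (nat_lit 152) (nat_lit 33403056476) (nat_lit 228) (nat_lit 138866727026) (nat_lit 27) (nat_lit 5) (nat_lit 29) (nat_lit 5) (nat_lit 30) (nat_lit 5) (nat_lit 362) (nat_lit 343) (nat_lit 195)) (XT.lf (nat_lit 0) (nat_lit 171798544740) (nat_lit 228) (nat_lit 43289624231) (nat_lit 76) (nat_lit 57109786785) (nat_lit 27) (nat_lit 5) (nat_lit 30) (nat_lit 5) (nat_lit 28) (nat_lit 5) (nat_lit 363) (nat_lit 343) (nat_lit 194))))) (XT.nd (nat_lit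 312) (nat_lit 456) (nat_lit 0) (XT.nd (nat_lit 156) (nat_lit 152) (nat_lit 0) (XT.nd (nat_lit 78) (nat_lit 0) (nat_lit 0) (XT.lf (nat_lit 0) (nat_lit 100151073636) (nat_lit 152) (nat_lit 130830185147) (nat_lit 228) (nat_lit 55316526859) (nat_lit 25) (nat_lit 5) (nat_lit 27) (nat_lit 5) (nat_lit 28) (nat_lit 5) (nat_lit 364) (nat_lit 343) (nat_lit 193)) (XT.lf (nat_lit 0) (nat_lit 257528727700) (nat_lit 152) (nat_lit 38553331178) (nat_lit 228) (nat_lit 5348865747) (nat_lit 25) (nat_lit 5) (nat_lit 27) (nat_lit 5) (nat_lit 28) (nat_lit 5) (nat_lit 365) (nat_lit 343) (nat_lit 192))) (XT.nd (nat_lit 78) (nat_lit 0) (nat_lit 0) (XT.lf (nat_lit 0) (nat_lit 50503594250) (nat_lit 152) (nat_lit 204764048968) (nat_lit 76) (nat_lit 62067984770) (nat_lit 23) (nat_lit 5) (nat_lit 25) (nat_lit 5) (nat_lit 24) (nat_lit 5) (nat_lit 366) (nat_lit 343) (nat_lit 191)) (XT.lf (nat_lit 0) (nat_lit 112768065395)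 (nat_lit 152) (nat_lit 51528373757) (nat_lit 76) (nat_lit 170026530756) (nat_lit 23) (nat_lit 5) (nat_lit 25) (nat_lit 5) (nat_lit 24) (nat_lit 5) (nat_lit 367) (nat_lit 343) (nat_lit 190)))) (XT.nd (nat_lit 156) (nat_lit 304) (nat_lit 0) (XT.nd (nat_lit 78) (nat_lit 0) (nat_lit 0) (XT.lf (nat_lit 0) (nat_lit 119967202627) (nat_lit 152) (nat_lit 62931580392) (nat_lit 228) (nat_lit 169539709220) (nat_lit 21) (nat_lit 5) (nat_lit 23) (nat_lit 5) (nat_lit 24) (nat_lit 5) (nat_lit 368) (nat_lit 343) (nat_lit 189)) (XT.lf (nat_lit 0) (nat_lit 261204654346) (nat_lit 228) (nat_lit 64933799694) (nat_lit 76) (nat_lit 45659626767) (nat_lit 21) (nat_lit 5) (nat_lit 24) (nat_lit 5) (nat_lit 22) (nat_lit 4) (nat_lit 369) (nat_lit 343) (nat_lit 188))) (XT.nd (nat_lit 78) (nat_lit 228) (nat_lit 0) (XT.lf (nat_lit 0) (nat_lit 120394539031) (nat_lit 76) (nat_lit 229910421052) (nat_lit 152) (nat_lit 42039079337)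 (nat_lit 20) (nat_lit 5) (nat_lit 21) (nat_lit 5) (nat_lit 22) (nat_lit 4) (nat_lit 370) (nat_lit 343) (nat_lit 187)) (XT.nd (nat_lit 78) (nat_lit 152) (nat_lit 0) (XT.lf (nat_lit 0) (nat_lit 32220272471) (nat_lit 152) (nat_lit 90965548318) (nat_lit 76) (nat_lit 291140574150) (nat_lit 19) (nat_lit 5) (nat_lit 21) (nat_lit 5) (nat_lit 20) (nat_lit 5) (nat_lit 371) (nat_lit 343) (nat_lit 186)) (XT.lf (nat_lit 0) (nat_lit 108850147248) (nat_lit 152) (nat_lit 3916767655) (nat_lit 228) (nat_lit 325003650600) (nat_lit 17) (nat_lit 5) (nat_lit 19) (nat_lit 5) (nat_lit 20) (nat_lit 5) (nat_lit 372) (nat_lit 343) (nat_lit 185))))))) (XT.nd (nat_lit 624) (nat_lit 380) (nat_lit 0) (XT.nd (nat_lit 312) (nat_lit 152) (nat_lit 0) (XT.nd (nat_lit 156) (nat_lit 76) (nat_lit 0) (XT.nd (nat_lit 78) (nat_lit 76) (nat_lit 0) (XT.lf (nat_lit 0) (nat_lit 205312646692) (nat_lit 228) (nat_lit 136135383656) (nat_lit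 76) (nat_lit 121197810830) (nat_lit 17) (nat_lit 5) (nat_lit 20) (nat_lit 5) (nat_lit 18) (nat_lit 4) (nat_lit 373) (nat_lit 343) (nat_lit 184)) (XT.lf (nat_lit 0) (nat_lit 75760398666) (nat_lit 76) (nat_lit 231425317544) (nat_lit 152) (nat_lit 182171528457) (nat_lit 16) (nat_lit 5) (nat_lit 17) (nat_lit 5) (nat_lit 18) (nat_lit 4) (nat_lit 374) (nat_lit 343) (nat_lit 183))) (XT.nd (nat_lit 78) (nat_lit 76) (nat_lit 0) (XT.lf (nat_lit 0) (nat_lit 312349824800) (nat_lit 76) (nat_lit 108580897865) (nat_lit 152) (nat_lit 96977070549) (nat_lit 16) (nat_lit 5) (nat_lit 17) (nat_lit 5) (nat_lit 18) (nat_lit 4) (nat_lit 375) (nat_lit 343) (nat_lit 182)) (XT.lf (nat_lit 0) (nat_lit 19520995431) (nat_lit 76) (nat_lit 525303119549) (nat_lit 76) (nat_lit 3834367917) (nat_lit 15) (nat_lit 4) (nat_lit 16) (nat_lit 5) (nat_lit 16) (nat_lit 4) (nat_lit 376) (nat_lit 343) (nat_lit 181)))) (XT.nd (nat_lit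 156) (nat_lit 76) (nat_lit 0) (XT.nd (nat_lit 78) (nat_lit 0) (nat_lit 0) (XT.lf (nat_lit 0) (nat_lit 100505935379) (nat_lit 152) (nat_lit 312416554721) (nat_lit 76) (nat_lit 168073651852) (nat_lit 14) (nat_lit 5) (nat_lit 16) (nat_lit 5) (nat_lit 15) (nat_lit 4) (nat_lit 377) (nat_lit 343) (nat_lit 180)) (XT.lf (nat_lit 0) (nat_lit 212986228368) (nat_lit 152) (nat_lit 78457682969) (nat_lit 76) (nat_lit 324468941270) (nat_lit 14) (nat_lit 5) (nat_lit 16) (nat_lit 5) (nat_lit 15) (nat_lit 4) (nat_lit 378) (nat_lit 343) (nat_lit 179))) (XT.nd (nat_lit 78) (nat_lit 0) (nat_lit 0) (XT.lf (nat_lit 0) (nat_lit 183391766263) (nat_lit 76) (nat_lit 155483681672) (nat_lit 152) (nat_lit 314394611988) (nat_lit 13) (nat_lit 5) (nat_lit 14) (nat_lit 5) (nat_lit 15) (nat_lit 4) (nat_lit 379) (nat_lit 343) (nat_lit 178)) (XT.lf (nat_lit 0) (nat_lit 470651001556) (nat_lit 76) (nat_lit 6329904705) (nat_lit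 152) (nat_lit 216463329523) (nat_lit 13) (nat_lit 5) (nat_lit 14) (nat_lit 5) (nat_lit 15) (nat_lit 4) (nat_lit 380) (nat_lit 343) (nat_lit 177))))) (XT.nd (nat_lit 312) (nat_lit 152) (nat_lit 0) (XT.nd (nat_lit 156) (nat_lit 76) (nat_lit 0) (XT.nd (nat_lit 78) (nat_lit 76) (nat_lit 0) (XT.lf (nat_lit 0) (nat_lit 42460672658) (nat_lit 76) (nat_lit 588417131597) (nat_lit 76) (nat_lit 105575101271) (nat_lit 12) (nat_lit 4) (nat_lit 13) (nat_lit 5) (nat_lit 13) (nat_lit 4) (nat_lit 381) (nat_lit 343) (nat_lit 176)) (XT.lf (nat_lit 0) (nat_lit 19888765635) (nat_lit 152) (nat_lit 441473491496) (nat_lit 76) (nat_lit 320999590897) (nat_lit 11) (nat_lit 5) (nat_lit 13) (nat_lit 5) (nat_lit 12) (nat_lit 4) (nat_lit 382) (nat_lit 343) (nat_lit 175))) (XT.nd (nat_lit 78) (nat_lit 76) (nat_lit 0) (XT.lf (nat_lit 0) (nat_lit 149685882590) (nat_lit 152) (nat_lit 171495574982) (nat_lit 76) (nat_lit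 510542676495) (nat_lit 11) (nat_lit 5) (nat_lit 13) (nat_lit 5) (nat_lit 12) (nat_lit 4) (nat_lit 383) (nat_lit 343) (nat_lit 174)) (XT.lf (nat_lit 0) (nat_lit 126403694257) (nat_lit 76) (nat_lit 166503029470) (nat_lit 152) (nat_lit 591885482913) (nat_lit 10) (nat_lit 5) (nat_lit 11) (nat_lit 5) (nat_lit 12) (nat_lit 4) (nat_lit 384) (nat_lit 343) (nat_lit 173)))) (XT.nd (nat_lit 156) (nat_lit 152) (nat_lit 0) (XT.nd (nat_lit 78) (nat_lit 0) (nat_lit 0) (XT.lf (nat_lit 0) (nat_lit 452409180321) (nat_lit 152) (nat_lit 483977712887) (nat_lit 0) (nat_lit 5332915994) (nat_lit 10) (nat_lit 5) (nat_lit 12) (nat_lit 4) (nat_lit 10) (nat_lit 4) (nat_lit 385) (nat_lit 343) (nat_lit 172)) (XT.lf (nat_lit 0) (nat_lit 628996535194) (nat_lit 152) (nat_lit 191938901565) (nat_lit 0) (nat_lit 181920207101) (nat_lit 10) (nat_lit 5) (nat_lit 12) (nat_lit 4) (nat_lit 10) (nat_lit 4) (nat_lit 386) (nat_lit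 343) (nat_lit 171))) (XT.nd (nat_lit 78) (nat_lit 76) (nat_lit 0) (XT.lf (nat_lit 0) (nat_lit 129964262578) (nat_lit 76) (nat_lit 692872211129) (nat_lit 76) (nat_lit 245795823994) (nat_lit 9) (nat_lit 4) (nat_lit 10) (nat_lit 5) (nat_lit 10) (nat_lit 4) (nat_lit 387) (nat_lit 343) (nat_lit 170)) (XT.nd (nat_lit 78) (nat_lit 76) (nat_lit 0) (XT.lf (nat_lit 0) (nat_lit 488535326702) (nat_lit 76) (nat_lit 548896183378) (nat_lit 76) (nat_lit 101819741574) (nat_lit 9) (nat_lit 4) (nat_lit 10) (nat_lit 5) (nat_lit 10) (nat_lit 4) (nat_lit 388) (nat_lit 343) (nat_lit 169)) (XT.lf (nat_lit 0) (nat_lit 50989370583) (nat_lit 152) (nat_lit 341018601608) (nat_lit 76) (nat_lit 823408483625) (nat_lit 8) (nat_lit 5) (nat_lit 10) (nat_lit 5) (nat_lit 9) (nat_lit 4) (nat_lit 389) (nat_lit 343) (nat_lit 168))))))))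
noncomputable def xc210 : XT := (XT.nd (nat_lit 1326) (nat_lit 76) (nat_lit 0) (XT.nd (nat_lit 624) (nat_lit 152) (nat_lit 0) (XT.nd (nat_lit 312) (nat_lit 76) (nat_lit 0) (XT.nd (nat_lit 156) (nat_lit 0) (nat_lit 0) (XT.nd (nat_lit 78) (nat_lit 76) (nat_lit 0) (XT.lf (nat_lit 0) (nat_lit 210522259695) (nat_lit 152) (nat_lit 9190239126) (nat_lit 76) (nat_lit 1077750807326) (nat_lit 8) (nat_lit 5) (nat_lit 10) (nat_lit 5) (nat_lit 9) (nat_lit 4) (nat_lit 390) (nat_lit 343) (nat_lit 167)) (XT.lf (nat_lit 0) (nat_lit 367571747505) (nat_lit 76) (nat_lit 24086103549) (nat_lit 152) (nat_lit 993708847781) (nat_lit 7) (nat_lit 5) (nat_lit 8) (nat_lit 5) (nat_lit 9) (nat_lit 4) (nat_lit 391) (nat_lit 343) (nat_lit 166))) (XT.nd (nat_lit 78) (nat_lit 0) (nat_lit 0) (XT.lf (nat_lit 0) (nat_lit 592043989625) (nat_lit 152) (nat_lit 709793443709) (nat_lit 0) (nat_lit 178084153631) (nat_lit 7) (nat_lit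 5) (nat_lit 9) (nat_lit 4) (nat_lit 7) (nat_lit 4) (nat_lit 392) (nat_lit 343) (nat_lit 165)) (XT.lf (nat_lit 0) (nat_lit 809086597256) (nat_lit 152) (nat_lit 377777495859) (nat_lit 0) (nat_lit 395126726811) (nat_lit 7) (nat_lit 5) (nat_lit 9) (nat_lit 4) (nat_lit 7) (nat_lit 4) (nat_lit 393) (nat_lit 343) (nat_lit 164)))) (XT.nd (nat_lit 156) (nat_lit 0) (nat_lit 0) (XT.nd (nat_lit 78) (nat_lit 76) (nat_lit 0) (XT.lf (nat_lit 0) (nat_lit 1043492580992) (nat_lit 152) (nat_lit 19200334498) (nat_lit 0) (nat_lit 629532678649) (nat_lit 7) (nat_lit 5) (nat_lit 9) (nat_lit 4) (nat_lit 7) (nat_lit 4) (nat_lit 394) (nat_lit 343) (nat_lit 163)) (XT.lf (nat_lit 0) (nat_lit 387444484338) (nat_lit 76) (nat_lit 918524578161) (nat_lit 76) (nat_lit 504564646282) (nat_lit 6) (nat_lit 4) (nat_lit 7) (nat_lit 5) (nat_lit 7) (nat_lit 4) (nat_lit 395) (nat_lit 343) (nat_lit 162))) (XT.nd (nat_lit 78) (nat_lit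 0) (nat_lit 0) (XT.lf (nat_lit 0) (nat_lit 827712772477) (nat_lit 76) (nat_lit 762255831999) (nat_lit 76) (nat_lit 348295872772) (nat_lit 6) (nat_lit 4) (nat_lit 7) (nat_lit 5) (nat_lit 7) (nat_lit 4) (nat_lit 396) (nat_lit 343) (nat_lit 161)) (XT.lf (nat_lit 0) (nat_lit 1303202471594) (nat_lit 76) (nat_lit 593485611164) (nat_lit 76) (nat_lit 179525626615) (nat_lit 6) (nat_lit 4) (nat_lit 7) (nat_lit 5) (nat_lit 7) (nat_lit 4) (nat_lit 397) (nat_lit 343) (nat_lit 160))))) (XT.nd (nat_lit 312) (nat_lit 0) (nat_lit 0) (XT.nd (nat_lit 156) (nat_lit 76) (nat_lit 0) (XT.nd (nat_lit 78) (nat_lit 0) (nat_lit 0) (XT.lf (nat_lit 0) (nat_lit 2608835513) (nat_lit 152) (nat_lit 408533630127) (nat_lit 76) (nat_lit 1814051132724) (nat_lit 5) (nat_lit 5) (nat_lit 7) (nat_lit 5) (nat_lit 6) (nat_lit 4) (nat_lit 398) (nat_lit 343) (nat_lit 159)) (XT.lf (nat_lit 0) (nat_lit 189614983963) (nat_lit 152)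 (nat_lit 19560863060) (nat_lit 76) (nat_lit 2176542993104) (nat_lit 5) (nat_lit 5) (nat_lit 7) (nat_lit 5) (nat_lit 6) (nat_lit 4) (nat_lit 399) (nat_lit 343) (nat_lit 158))) (XT.nd (nat_lit 78) (nat_lit 0) (nat_lit 0) (XT.lf (nat_lit 0) (nat_lit 402200172185) (nat_lit 152) (nat_lit 2137132615453) (nat_lit 0) (nat_lit 18903829771) (nat_lit 4) (nat_lit 5) (nat_lit 6) (nat_lit 4) (nat_lit 4) (nat_lit 4) (nat_lit 400) (nat_lit 343) (nat_lit 157)) (XT.lf (nat_lit 0) (nat_lit 637774012773) (nat_lit 152) (nat_lit 1851825604000) (nat_lit 0) (nat_lit 254477653125) (nat_lit 4) (nat_lit 5) (nat_lit 6) (nat_lit 4) (nat_lit 4) (nat_lit 4) (nat_lit 401) (nat_lit 343) (nat_lit 156)))) (XT.nd (nat_lit 156) (nat_lit 0) (nat_lit 0) (XT.nd (nat_lit 78) (nat_lit 0) (nat_lit 0) (XT.lf (nat_lit 0) (nat_lit 892193740339) (nat_lit 152) (nat_lit 1543694071142) (nat_lit 0) (nat_lit 508897364734) (nat_lit 4) (nat_lit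 5) (nat_lit 6) (nat_lit 4) (nat_lit 4) (nat_lit 4) (nat_lit 402) (nat_lit 343) (nat_lit 155)) (XT.lf (nat_lit 0) (nat_lit 1166967027344) (nat_lit 152) (nat_lit 1210912052239) (nat_lit 0) (nat_lit 783670636964) (nat_lit 4) (nat_lit 5) (nat_lit 6) (nat_lit 4) (nat_lit 4) (nat_lit 4) (nat_lit 403) (nat_lit 343) (nat_lit 154))) (XT.nd (nat_lit 78) (nat_lit 0) (nat_lit 0) (XT.lf (nat_lit 0) (nat_lit 1463722159933) (nat_lit 152) (nat_lit 851507505697) (nat_lit 0) (nat_lit 1080425755872) (nat_lit 4) (nat_lit 5) (nat_lit 6) (nat_lit 4) (nat_lit 4) (nat_lit 4) (nat_lit 404) (nat_lit 343) (nat_lit 153)) (XT.nd (nat_lit 78) (nat_lit 0) (nat_lit 0) (XT.lf (nat_lit 0) (nat_lit 1784217687039) (nat_lit 152) (nat_lit 463350626798) (nat_lit 0) (nat_lit 1400921270310) (nat_lit 4) (nat_lit 5) (nat_lit 6) (nat_lit 4) (nat_lit 4) (nat_lit 4) (nat_lit 405) (nat_lit 343) (nat_lit 152)) (XT.lf (nat_lit 0) (nat_lit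 2130352841415) (nat_lit 152) (nat_lit 44141226628) (nat_lit 0) (nat_lit 1747056412958) (nat_lit 4) (nat_lit 5) (nat_lit 6) (nat_lit 4) (nat_lit 4) (nat_lit 4) (nat_lit 406) (nat_lit 343) (nat_lit 151))))))) (XT.nd (nat_lit 42510) (nat_lit 0) (nat_lit 2280) (XT.nd (nat_lit 42198) (nat_lit 0) (nat_lit 3572) (XT.nd (nat_lit 42042) (nat_lit 0) (nat_lit 3496) (XT.nd (nat_lit 41964) (nat_lit 0) (nat_lit 3496) (XT.lf (nat_lit 0) (nat_lit 430121308518) (nat_lit 76) (nat_lit 2084401913644) (nat_lit 76) (nat_lit 1701105474326) (nat_lit 3) (nat_lit 4) (nat_lit 4) (nat_lit 5) (nat_lit 4) (nat_lit 4) (nat_lit 407) (nat_lit 343) (nat_lit 150)) (XT.lf (nat_lit 0) (nat_lit 41613515265) (nat_lit 532) (nat_lit 9343515794) (nat_lit 532) (nat_lit 9343515794) (nat_lit 49) (nat_lit 3) (nat_lit 56) (nat_lit 3) (nat_lit 56) (nat_lit 5) (nat_lit 344) (nat_lit 344) (nat_lit 212))) (XT.nd (nat_lit 78) (nat_lit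 0) (nat_lit 76) (XT.lf (nat_lit 76) (nat_lit 39259831814) (nat_lit 0) (nat_lit 48244616504) (nat_lit 532) (nat_lit 37844811909) (nat_lit 50) (nat_lit 5) (nat_lit 49) (nat_lit 3) (nat_lit 56) (nat_lit 5) (nat_lit 345) (nat_lit 344) (nat_lit 211)) (XT.lf (nat_lit 0) (nat_lit 92881579436) (nat_lit 456) (nat_lit 27778486084) (nat_lit 532) (nat_lit 9756613983) (nat_lit 50) (nat_lit 5) (nat_lit 56) (nat_lit 5) (nat_lit 57) (nat_lit 5) (nat_lit 346) (nat_lit 344) (nat_lit 210)))) (XT.nd (nat_lit 156) (nat_lit 0) (nat_lit 76) (XT.nd (nat_lit 78) (nat_lit 0) (nat_lit 0) (XT.lf (nat_lit 76) (nat_lit 35731399572) (nat_lit 0) (nat_lit 65069545044) (nat_lit 532) (nat_lit 34919583575) (nat_lit 51) (nat_lit 5) (nat_lit 50) (nat_lit 5) (nat_lit 57) (nat_lit 5) (nat_lit 347) (nat_lit 344) (nat_lit 209)) (XT.lf (nat_lit 76) (nat_lit 105901615187) (nat_lit 0) (nat_lit 4211395001) (nat_lit 532) (nat_lit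 31274943376) (nat_lit 51) (nat_lit 5) (nat_lit 50) (nat_lit 5) (nat_lit 57) (nat_lit 5) (nat_lit 348) (nat_lit 344) (nat_lit 208))) (XT.nd (nat_lit 78) (nat_lit 0) (nat_lit 0) (XT.lf (nat_lit 76) (nat_lit 34418732669) (nat_lit 0) (nat_lit 88058194182) (nat_lit 532) (nat_lit 24847296066) (nat_lit 52) (nat_lit 5) (nat_lit 51) (nat_lit 5) (nat_lit 58) (nat_lit 5) (nat_lit 349) (nat_lit 344) (nat_lit 207)) (XT.lf (nat_lit 76) (nat_lit 111818948681) (nat_lit 0) (nat_lit 25087571159) (nat_lit 532) (nat_lit 16742749697) (nat_lit 52) (nat_lit 5) (nat_lit 51) (nat_lit 5) (nat_lit 58) (nat_lit 5) (nat_lit 350) (nat_lit 344) (nat_lit 206))))) (XT.nd (nat_lit 312) (nat_lit 608) (nat_lit 0) (XT.nd (nat_lit 156) (nat_lit 304) (nat_lit 0) (XT.nd (nat_lit 78) (nat_lit 76) (nat_lit 0) (XT.lf (nat_lit 0) (nat_lit 35683385880) (nat_lit 456) (nat_lit 118697235217) (nat_lit 532) (nat_lit 5948488226) (nat_lit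 46) (nat_lit 5) (nat_lit 52) (nat_lit 5) (nat_lit 53) (nat_lit 5) (nat_lit 351) (nat_lit 344) (nat_lit 205)) (XT.lf (nat_lit 0) (nat_lit 7248476598) (nat_lit 532) (nat_lit 46493632408) (nat_lit 76) (nat_lit 113644261919) (nat_lit 45) (nat_lit 5) (nat_lit 52) (nat_lit 5) (nat_lit 46) (nat_lit 5) (nat_lit 352) (nat_lit 344) (nat_lit 204))) (XT.nd (nat_lit 78) (nat_lit 0) (nat_lit 0) (XT.lf (nat_lit 0) (nat_lit 22558897385) (nat_lit 380) (nat_lit 135598866265) (nat_lit 76) (nat_lit 16727764136) (nat_lit 41) (nat_lit 5) (nat_lit 46) (nat_lit 5) (nat_lit 42) (nat_lit 5) (nat_lit 353) (nat_lit 344) (nat_lit 203)) (XT.lf (nat_lit 0) (nat_lit 41794040456) (nat_lit 380) (nat_lit 49738587156) (nat_lit 76) (nat_lit 91235999009) (nat_lit 41) (nat_lit 5) (nat_lit 46) (nat_lit 5) (nat_lit 42) (nat_lit 5) (nat_lit 354) (nat_lit 344) (nat_lit 202)))) (XT.nd (nat_lit 156) (nat_lit 380) (nat_lit 0) (XT.nd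 (nat_lit 78) (nat_lit 0) (nat_lit 0) (XT.lf (nat_lit 0) (nat_lit 45254062362) (nat_lit 228) (nat_lit 18402064941) (nat_lit 304) (nat_lit 127539195951) (nat_lit 38) (nat_lit 5) (nat_lit 41) (nat_lit 5) (nat_lit 42) (nat_lit 5) (nat_lit 355) (nat_lit 344) (nat_lit 201)) (XT.lf (nat_lit 0) (nat_lit 90119152219) (nat_lit 304) (nat_lit 51005061764) (nat_lit 76) (nat_lit 58943784389) (nat_lit 38) (nat_lit 5) (nat_lit 42) (nat_lit 5) (nat_lit 39) (nat_lit 5) (nat_lit 356) (nat_lit 344) (nat_lit 200))) (XT.nd (nat_lit 78) (nat_lit 152) (nat_lit 0) (XT.lf (nat_lit 0) (nat_lit 53735909650) (nat_lit 228) (nat_lit 66733433096) (nat_lit 304) (nat_lit 89039535271) (nat_lit 35) (nat_lit 5) (nat_lit 38) (nat_lit 5) (nat_lit 39) (nat_lit 5) (nat_lit 357) (nat_lit 344) (nat_lit 199)) (XT.nd (nat_lit 78) (nat_lit 152) (nat_lit 0) (XT.lf (nat_lit 0) (nat_lit 155005433794) (nat_lit 304) (nat_lit 50200355353)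 (nat_lit 76) (nat_lit 14358608446) (nat_lit 35) (nat_lit 5) (nat_lit 39) (nat_lit 5) (nat_lit 36) (nat_lit 5) (nat_lit 358) (nat_lit 344) (nat_lit 198)) (XT.lf (nat_lit 0) (nat_lit 65353764186) (nat_lit 152) (nat_lit 130255564324) (nat_lit 228) (nat_lit 34550637263) (nat_lit 33) (nat_lit 5) (nat_lit 35) (nat_lit 5) (nat_lit 36) (nat_lit 5) (nat_lit 359) (nat_lit 344) (nat_lit 197))))))))
noncomputable def xc211 : XT := (XT.nd (nat_lit 1326) (nat_lit 684) (nat_lit 0) (XT.nd (nat_lit 624) (nat_lit 532) (nat_lit 0) (XT.nd (nat_lit 312) (nat_lit 304) (nat_lit 0) (XT.nd (nat_lit 156) (nat_lit 152) (nat_lit 0) (XT.nd (nat_lit 78) (nat_lit 304) (nat_lit 0) (XT.lf (nat_lit 0) (nat_lit 193006931155) (nat_lit 152) (nat_lit 47826999146) (nat_lit 228) (nat_lit 659457792) (nat_lit 33) (nat_lit 5) (nat_lit 35) (nat_lit 5) (nat_lit 36) (nat_lit 5) (nat_lit 360) (nat_lit 344) (nat_lit 196)) (XT.lf (nat_lit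 0) (nat_lit 37139199302) (nat_lit 304) (nat_lit 174282543041) (nat_lit 76) (nat_lit 42003051824) (nat_lit 29) (nat_lit 5) (nat_lit 33) (nat_lit 5) (nat_lit 30) (nat_lit 5) (nat_lit 361) (nat_lit 344) (nat_lit 195))) (XT.nd (nat_lit 78) (nat_lit 152) (nat_lit 0) (XT.lf (nat_lit 0) (nat_lit 80528363315) (nat_lit 304) (nat_lit 47759974468) (nat_lit 76) (nat_lit 137812825523) (nat_lit 29) (nat_lit 5) (nat_lit 33) (nat_lit 5) (nat_lit 30) (nat_lit 5) (nat_lit 362) (nat_lit 344) (nat_lit 194)) (XT.lf (nat_lit 0) (nat_lit 93564680715) (nat_lit 152) (nat_lit 36074067103) (nat_lit 228) (nat_lit 149972887408) (nat_lit 27) (nat_lit 5) (nat_lit 29) (nat_lit 5) (nat_lit 30) (nat_lit 5) (nat_lit 363) (nat_lit 344) (nat_lit 193)))) (XT.nd (nat_lit 156) (nat_lit 152) (nat_lit 0) (XT.nd (nat_lit 78) (nat_lit 152) (nat_lit 0) (XT.lf (nat_lit 0) (nat_lit 185545176234) (nat_lit 228) (nat_lit 46748736765)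 (nat_lit 76) (nat_lit 61679655068) (nat_lit 27) (nat_lit 5) (nat_lit 30) (nat_lit 5) (nat_lit 28) (nat_lit 5) (nat_lit 364) (nat_lit 344) (nat_lit 192)) (XT.lf (nat_lit 0) (nat_lit 108167114212) (nat_lit 152) (nat_lit 141295284750) (nat_lit 228) (nat_lit 59738994377) (nat_lit 25) (nat_lit 5) (nat_lit 27) (nat_lit 5) (nat_lit 28) (nat_lit 5) (nat_lit 365) (nat_lit 344) (nat_lit 191))) (XT.nd (nat_lit 78) (nat_lit 152) (nat_lit 0) (XT.lf (nat_lit 0) (nat_lit 278134687662) (nat_lit 152) (nat_lit 41636379886) (nat_lit 228) (nat_lit 5774131831) (nat_lit 25) (nat_lit 5) (nat_lit 27) (nat_lit 5) (nat_lit 28) (nat_lit 5) (nat_lit 366) (nat_lit 344) (nat_lit 190)) (XT.lf (nat_lit 0) (nat_lit 54546326722) (nat_lit 152) (nat_lit 221141306297) (nat_lit 76) (nat_lit 67034646442) (nat_lit 23) (nat_lit 5) (nat_lit 25) (nat_lit 5) (nat_lit 24) (nat_lit 5) (nat_lit 367) (nat_lit 344) (nat_lit 189)))))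 (XT.nd (nat_lit 312) (nat_lit 304) (nat_lit 0) (XT.nd (nat_lit 156) (nat_lit 76) (nat_lit 0) (XT.nd (nat_lit 78) (nat_lit 152) (nat_lit 0) (XT.lf (nat_lit 0) (nat_lit 121791774452) (nat_lit 152) (nat_lit 55647063483) (nat_lit 76) (nat_lit 183629785522) (nat_lit 23) (nat_lit 5) (nat_lit 25) (nat_lit 5) (nat_lit 24) (nat_lit 5) (nat_lit 368) (nat_lit 344) (nat_lit 188)) (XT.lf (nat_lit 0) (nat_lit 129568068374) (nat_lit 152) (nat_lit 67964797345) (nat_lit 228) (nat_lit 183100528775) (nat_lit 21) (nat_lit 5) (nat_lit 23) (nat_lit 5) (nat_lit 24) (nat_lit 5) (nat_lit 369) (nat_lit 344) (nat_lit 187))) (XT.nd (nat_lit 78) (nat_lit 76) (nat_lit 0) (XT.lf (nat_lit 0) (nat_lit 282103074426) (nat_lit 228) (nat_lit 70125137772) (nat_lit 76) (nat_lit 49313548735) (nat_lit 21) (nat_lit 5) (nat_lit 24) (nat_lit 5) (nat_lit 22) (nat_lit 4) (nat_lit 370) (nat_lit 344) (nat_lit 186)) (XT.lf (nat_lit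 0) (nat_lit 130029382838) (nat_lit 76) (nat_lit 248301949001) (nat_lit 152) (nat_lit 45400070407) (nat_lit 20) (nat_lit 5) (nat_lit 21) (nat_lit 5) (nat_lit 22) (nat_lit 4) (nat_lit 371) (nat_lit 344) (nat_lit 185)))) (XT.nd (nat_lit 156) (nat_lit 76) (nat_lit 0) (XT.nd (nat_lit 78) (nat_lit 152) (nat_lit 0) (XT.lf (nat_lit 0) (nat_lit 34799772475) (nat_lit 152) (nat_lit 98239653610) (nat_lit 76) (nat_lit 314432928193) (nat_lit 19) (nat_lit 5) (nat_lit 21) (nat_lit 5) (nat_lit 20) (nat_lit 5) (nat_lit 372) (nat_lit 344) (nat_lit 184)) (XT.lf (nat_lit 0) (nat_lit 117561218143) (nat_lit 152) (nat_lit 4228862603) (nat_lit 228) (nat_lit 351001983133) (nat_lit 17) (nat_lit 5) (nat_lit 19) (nat_lit 5) (nat_lit 20) (nat_lit 5) (nat_lit 373) (nat_lit 344) (nat_lit 183))) (XT.nd (nat_lit 78) (nat_lit 76) (nat_lit 0) (XT.lf (nat_lit 0) (nat_lit 221739364565) (nat_lit 228) (nat_lit 147023273607)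 (nat_lit 76) (nat_lit 130894732096) (nat_lit 17) (nat_lit 5) (nat_lit 20) (nat_lit 5) (nat_lit 18) (nat_lit 4) (nat_lit 374) (nat_lit 344) (nat_lit 182)) (XT.nd (nat_lit 78) (nat_lit 0) (nat_lit 0) (XT.lf (nat_lit 0) (nat_lit 81824096852) (nat_lit 76) (nat_lit 249938125346) (nat_lit 152) (nat_lit 196743468560) (nat_lit 16) (nat_lit 5) (nat_lit 17) (nat_lit 5) (nat_lit 18) (nat_lit 4) (nat_lit 375) (nat_lit 344) (nat_lit 181)) (XT.lf (nat_lit 0) (nat_lit 337340464758) (nat_lit 76) (nat_lit 117266242285) (nat_lit 152) (nat_lit 104733586032) (nat_lit 16) (nat_lit 5) (nat_lit 17) (nat_lit 5) (nat_lit 18) (nat_lit 4) (nat_lit 376) (nat_lit 344) (nat_lit 180))))))) (XT.nd (nat_lit 702) (nat_lit 228) (nat_lit 0) (XT.nd (nat_lit 312) (nat_lit 228) (nat_lit 0) (XT.nd (nat_lit 156) (nat_lit 76) (nat_lit 0) (XT.nd (nat_lit 78) (nat_lit 76) (nat_lit 0) (XT.lf (nat_lit 0) (nat_lit 21085355889) (nat_lit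 76) (nat_lit 567326191356) (nat_lit 76) (nat_lit 4139492678) (nat_lit 15) (nat_lit 4) (nat_lit 16) (nat_lit 5) (nat_lit 16) (nat_lit 4) (nat_lit 377) (nat_lit 344) (nat_lit 179)) (XT.lf (nat_lit 0) (nat_lit 108547839283) (nat_lit 152) (nat_lit 337407320436) (nat_lit 76) (nat_lit 181520558097) (nat_lit 14) (nat_lit 5) (nat_lit 16) (nat_lit 5) (nat_lit 15) (nat_lit 4) (nat_lit 378) (nat_lit 344) (nat_lit 178))) (XT.nd (nat_lit 78) (nat_lit 76) (nat_lit 0) (XT.lf (nat_lit 0) (nat_lit 230026449854) (nat_lit 152) (nat_lit 84731928474) (nat_lit 76) (nat_lit 350427395550) (nat_lit 14) (nat_lit 5) (nat_lit 16) (nat_lit 5) (nat_lit 15) (nat_lit 4) (nat_lit 379) (nat_lit 344) (nat_lit 177)) (XT.lf (nat_lit 0) (nat_lit 198065416719) (nat_lit 76) (nat_lit 167921347787) (nat_lit 152) (nat_lit 339544796752) (nat_lit 13) (nat_lit 5) (nat_lit 14) (nat_lit 5) (nat_lit 15) (nat_lit 4) (nat_lit 380) (nat_lit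 344) (nat_lit 176)))) (XT.nd (nat_lit 156) (nat_lit 152) (nat_lit 0) (XT.nd (nat_lit 78) (nat_lit 76) (nat_lit 0) (XT.lf (nat_lit 0) (nat_lit 508305219787) (nat_lit 76) (nat_lit 6835344842) (nat_lit 152) (nat_lit 233779114223) (nat_lit 13) (nat_lit 5) (nat_lit 14) (nat_lit 5) (nat_lit 15) (nat_lit 4) (nat_lit 381) (nat_lit 344) (nat_lit 175)) (XT.lf (nat_lit 0) (nat_lit 45859681496) (nat_lit 76) (nat_lit 635489518157) (nat_lit 76) (nat_lit 114019843773) (nat_lit 12) (nat_lit 4) (nat_lit 13) (nat_lit 5) (nat_lit 13) (nat_lit 4) (nat_lit 382) (nat_lit 344) (nat_lit 174))) (XT.nd (nat_lit 78) (nat_lit 76) (nat_lit 0) (XT.lf (nat_lit 0) (nat_lit 21480980117) (nat_lit 152) (nat_lit 476789316066) (nat_lit 76) (nat_lit 346680409893) (nat_lit 11) (nat_lit 5) (nat_lit 13) (nat_lit 5) (nat_lit 12) (nat_lit 4) (nat_lit 383) (nat_lit 344) (nat_lit 173)) (XT.nd (nat_lit 78) (nat_lit 76) (nat_lit 0)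 (XT.lf (nat_lit 0) (nat_lit 161661783967) (nat_lit 152) (nat_lit 185213318435) (nat_lit 76) (nat_lit 551386879248) (nat_lit 11) (nat_lit 5) (nat_lit 13) (nat_lit 5) (nat_lit 12) (nat_lit 4) (nat_lit 384) (nat_lit 344) (nat_lit 172)) (XT.lf (nat_lit 0) (nat_lit 136517844177) (nat_lit 76) (nat_lit 179822416462) (nat_lit 152) (nat_lit 639235241981) (nat_lit 10) (nat_lit 5) (nat_lit 11) (nat_lit 5) (nat_lit 12) (nat_lit 4) (nat_lit 385) (nat_lit 344) (nat_lit 171)))))) (XT.nd (nat_lit 312) (nat_lit 152) (nat_lit 0) (XT.nd (nat_lit 156) (nat_lit 76) (nat_lit 0) (XT.nd (nat_lit 78) (nat_lit 0) (nat_lit 0) (XT.lf (nat_lit 0) (nat_lit 488602858808) (nat_lit 152) (nat_lit 522694157362) (nat_lit 0) (nat_lit 5760301660) (nat_lit 10) (nat_lit 5) (nat_lit 12) (nat_lit 4) (nat_lit 10) (nat_lit 4) (nat_lit 386) (nat_lit 344) (nat_lit 170)) (XT.lf (nat_lit 0) (nat_lit 679317132140) (nat_lit 152) (nat_lit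 207292372436) (nat_lit 0) (nat_lit 196474520323) (nat_lit 10) (nat_lit 5) (nat_lit 12) (nat_lit 4) (nat_lit 10) (nat_lit 4) (nat_lit 387) (nat_lit 344) (nat_lit 169))) (XT.nd (nat_lit 78) (nat_lit 0) (nat_lit 0) (XT.lf (nat_lit 0) (nat_lit 140363003288) (nat_lit 76) (nat_lit 748301236168) (nat_lit 76) (nat_lit 265458573733) (nat_lit 9) (nat_lit 4) (nat_lit 10) (nat_lit 5) (nat_lit 10) (nat_lit 4) (nat_lit 388) (nat_lit 344) (nat_lit 168)) (XT.lf (nat_lit 0) (nat_lit 527619634046) (nat_lit 76) (nat_lit 592807181890) (nat_lit 76) (nat_lit 109964472584) (nat_lit 9) (nat_lit 4) (nat_lit 10) (nat_lit 5) (nat_lit 10) (nat_lit 4) (nat_lit 389) (nat_lit 344) (nat_lit 167)))) (XT.nd (nat_lit 156) (nat_lit 76) (nat_lit 0) (XT.nd (nat_lit 78) (nat_lit 0) (nat_lit 0) (XT.lf (nat_lit 0) (nat_lit 55069266415) (nat_lit 152) (nat_lit 368298678558) (nat_lit 76) (nat_lit 889281767216) (nat_lit 8) (nat_lit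 5) (nat_lit 10) (nat_lit 5) (nat_lit 9) (nat_lit 4) (nat_lit 390) (nat_lit 344) (nat_lit 166)) (XT.lf (nat_lit 0) (nat_lit 227364731382) (nat_lit 152) (nat_lit 9924151610) (nat_lit 76) (nat_lit 1163971432006) (nat_lit 8) (nat_lit 5) (nat_lit 10) (nat_lit 5) (nat_lit 9) (nat_lit 4) (nat_lit 391) (nat_lit 344) (nat_lit 165))) (XT.nd (nat_lit 78) (nat_lit 0) (nat_lit 0) (XT.lf (nat_lit 0) (nat_lit 396978760873) (nat_lit 76) (nat_lit 26012388629) (nat_lit 152) (nat_lit 1073204831271) (nat_lit 7) (nat_lit 5) (nat_lit 8) (nat_lit 5) (nat_lit 9) (nat_lit 4) (nat_lit 392) (nat_lit 344) (nat_lit 164)) (XT.nd (nat_lit 78) (nat_lit 0) (nat_lit 0) (XT.lf (nat_lit 0) (nat_lit 639408142934) (nat_lit 152) (nat_lit 766575703438) (nat_lit 0) (nat_lit 192331416505) (nat_lit 7) (nat_lit 5) (nat_lit 9) (nat_lit 4) (nat_lit 7) (nat_lit 4) (nat_lit 393) (nat_lit 344) (nat_lit 163)) (XT.lf (nat_lit 0) (nat_lit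 873814112202) (nat_lit 152) (nat_lit 407998569817) (nat_lit 0) (nat_lit 426737356237) (nat_lit 7) (nat_lit 5) (nat_lit 9) (nat_lit 4) (nat_lit 7) (nat_lit 4) (nat_lit 394) (nat_lit 344) (nat_lit 162))))))))
noncomputable def xc212 : XT := (XT.nd (nat_lit 43290) (nat_lit 0) (nat_lit 1748) (XT.nd (nat_lit 624) (nat_lit 0) (nat_lit 0) (XT.nd (nat_lit 312) (nat_lit 152) (nat_lit 0) (XT.nd (nat_lit 156) (nat_lit 0) (nat_lit 0) (XT.nd (nat_lit 78) (nat_lit 76) (nat_lit 0) (XT.lf (nat_lit 0) (nat_lit 1126972531144) (nat_lit 152) (nat_lit 20735318933) (nat_lit 0) (nat_lit 679895747831) (nat_lit 7) (nat_lit 5) (nat_lit 9) (nat_lit 4) (nat_lit 7) (nat_lit 4) (nat_lit 395) (nat_lit 344) (nat_lit 161)) (XT.lf (nat_lit 0) (nat_lit 418441059022) (nat_lit 76) (nat_lit 992006056309) (nat_lit 76) (nat_lit 544929247674) (nat_lit 6) (nat_lit 4) (nat_lit 7) (nat_lit 5) (nat_lit 7) (nat_lit 4) (nat_lit 396)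 (nat_lit 344) (nat_lit 160))) (XT.nd (nat_lit 78) (nat_lit 0) (nat_lit 0) (XT.lf (nat_lit 0) (nat_lit 893930734958) (nat_lit 76) (nat_lit 823235846611) (nat_lit 76) (nat_lit 376159014529) (nat_lit 6) (nat_lit 4) (nat_lit 7) (nat_lit 5) (nat_lit 7) (nat_lit 4) (nat_lit 397) (nat_lit 344) (nat_lit 159)) (XT.lf (nat_lit 0) (nat_lit 1407459540324) (nat_lit 76) (nat_lit 640964041586) (nat_lit 76) (nat_lit 193887187795) (nat_lit 6) (nat_lit 4) (nat_lit 7) (nat_lit 5) (nat_lit 7) (nat_lit 4) (nat_lit 398) (nat_lit 344) (nat_lit 158)))) (XT.nd (nat_lit 156) (nat_lit 76) (nat_lit 0) (XT.nd (nat_lit 78) (nat_lit 0) (nat_lit 0) (XT.lf (nat_lit 0) (nat_lit 2817972437) (nat_lit 152) (nat_lit 441215491222) (nat_lit 76) (nat_lit 1959175587984) (nat_lit 5) (nat_lit 5) (nat_lit 7) (nat_lit 5) (nat_lit 6) (nat_lit 4) (nat_lit 399) (nat_lit 344) (nat_lit 157)) (XT.lf (nat_lit 0) (nat_lit 204784580905) (nat_lit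 152) (nat_lit 21124964221) (nat_lit 76) (nat_lit 2350666770183) (nat_lit 5) (nat_lit 5) (nat_lit 7) (nat_lit 5) (nat_lit 6) (nat_lit 4) (nat_lit 400) (nat_lit 344) (nat_lit 156))) (XT.nd (nat_lit 78) (nat_lit 0) (nat_lit 0) (XT.lf (nat_lit 0) (nat_lit 434376581386) (nat_lit 152) (nat_lit 2308102453849) (nat_lit 0) (nat_lit 20416479775) (nat_lit 4) (nat_lit 5) (nat_lit 6) (nat_lit 4) (nat_lit 4) (nat_lit 4) (nat_lit 401) (nat_lit 344) (nat_lit 155)) (XT.lf (nat_lit 0) (nat_lit 688796299930) (nat_lit 152) (nat_lit 1999970938579) (nat_lit 0) (nat_lit 274836183544) (nat_lit 4) (nat_lit 5) (nat_lit 6) (nat_lit 4) (nat_lit 4) (nat_lit 4) (nat_lit 402) (nat_lit 344) (nat_lit 154))))) (XT.nd (nat_lit 312) (nat_lit 0) (nat_lit 0) (XT.nd (nat_lit 156) (nat_lit 0) (nat_lit 0) (XT.nd (nat_lit 78) (nat_lit 0) (nat_lit 0) (XT.lf (nat_lit 0) (nat_lit 963569578581) (nat_lit 152) (nat_lit 1667188935961)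 (nat_lit 0) (nat_lit 549609448514) (nat_lit 4) (nat_lit 5) (nat_lit 6) (nat_lit 4) (nat_lit 4) (nat_lit 4) (nat_lit 403) (nat_lit 344) (nat_lit 153)) (XT.lf (nat_lit 0) (nat_lit 1260324703434) (nat_lit 152) (nat_lit 1307784404499) (nat_lit 0) (nat_lit 846364560700) (nat_lit 4) (nat_lit 5) (nat_lit 6) (nat_lit 4) (nat_lit 4) (nat_lit 4) (nat_lit 404) (nat_lit 344) (nat_lit 152))) (XT.nd (nat_lit 78) (nat_lit 0) (nat_lit 0) (XT.lf (nat_lit 0) (nat_lit 1580820223378) (nat_lit 152) (nat_lit 919627539562) (nat_lit 0) (nat_lit 1166860068914) (nat_lit 4) (nat_lit 5) (nat_lit 6) (nat_lit 4) (nat_lit 4) (nat_lit 4) (nat_lit 405) (nat_lit 344) (nat_lit 151)) (XT.lf (nat_lit 0) (nat_lit 1926955371122) (nat_lit 152) (nat_lit 500418152320) (nat_lit 0) (nat_lit 1512995205799) (nat_lit 4) (nat_lit 5) (nat_lit 6) (nat_lit 4) (nat_lit 4) (nat_lit 4) (nat_lit 406) (nat_lit 344) (nat_lit 150)))) (XT.nd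 (nat_lit 42120) (nat_lit 0) (nat_lit 3420) (XT.nd (nat_lit 42042) (nat_lit 0) (nat_lit 3420) (XT.lf (nat_lit 0) (nat_lit 2300781317914) (nat_lit 152) (nat_lit 47672038997) (nat_lit 0) (nat_lit 1886821142535) (nat_lit 4) (nat_lit 5) (nat_lit 6) (nat_lit 4) (nat_lit 4) (nat_lit 4) (nat_lit 407) (nat_lit 344) (nat_lit 149)) (XT.lf (nat_lit 0) (nat_lit 44946633666) (nat_lit 532) (nat_lit 10088811952) (nat_lit 532) (nat_lit 10088811952) (nat_lit 49) (nat_lit 3) (nat_lit 56) (nat_lit 3) (nat_lit 56) (nat_lit 5) (nat_lit 345) (nat_lit 345) (nat_lit 210))) (XT.nd (nat_lit 78) (nat_lit 0) (nat_lit 76) (XT.lf (nat_lit 76) (nat_lit 42404877932) (nat_lit 0) (nat_lit 52107504951) (nat_lit 532) (nat_lit 40864193240) (nat_lit 50) (nat_lit 5) (nat_lit 49) (nat_lit 3) (nat_lit 56) (nat_lit 5) (nat_lit 346) (nat_lit 345) (nat_lit 209)) (XT.nd (nat_lit 78) (nat_lit 0) (nat_lit 0) (XT.lf (nat_lit 0) (nat_lit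 100319049194) (nat_lit 456) (nat_lit 29996168378) (nat_lit 532) (nat_lit 10534223573) (nat_lit 50) (nat_lit 5) (nat_lit 56) (nat_lit 5) (nat_lit 57) (nat_lit 5) (nat_lit 347) (nat_lit 345) (nat_lit 208)) (XT.lf (nat_lit 76) (nat_lit 38594391762) (nat_lit 0) (nat_lit 70277165250) (nat_lit 532) (nat_lit 37706074519) (nat_lit 51) (nat_lit 5) (nat_lit 50) (nat_lit 5) (nat_lit 57) (nat_lit 5) (nat_lit 348) (nat_lit 345) (nat_lit 207))))))) (XT.nd (nat_lit 624) (nat_lit 836) (nat_lit 0) (XT.nd (nat_lit 312) (nat_lit 608) (nat_lit 0) (XT.nd (nat_lit 156) (nat_lit 304) (nat_lit 0) (XT.nd (nat_lit 78) (nat_lit 0) (nat_lit 76) (XT.lf (nat_lit 76) (nat_lit 114377892758) (nat_lit 0) (nat_lit 4550210862) (nat_lit 532) (nat_lit 33770387233) (nat_lit 51) (nat_lit 5) (nat_lit 50) (nat_lit 5) (nat_lit 57) (nat_lit 5) (nat_lit 349) (nat_lit 345) (nat_lit 206)) (XT.lf (nat_lit 76) (nat_lit 37176805617)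 (nat_lit 0) (nat_lit 95103947265) (nat_lit 532) (nat_lit 26828940427) (nat_lit 52) (nat_lit 5) (nat_lit 51) (nat_lit 5) (nat_lit 58) (nat_lit 5) (nat_lit 350) (nat_lit 345) (nat_lit 205))) (XT.nd (nat_lit 78) (nat_lit 380) (nat_lit 0) (XT.lf (nat_lit 76) (nat_lit 120768700071) (nat_lit 0) (nat_lit 27095593100) (nat_lit 532) (nat_lit 18076485113) (nat_lit 52) (nat_lit 5) (nat_lit 51) (nat_lit 5) (nat_lit 58) (nat_lit 5) (nat_lit 351) (nat_lit 345) (nat_lit 204)) (XT.lf (nat_lit 0) (nat_lit 38542630699) (nat_lit 456) (nat_lit 128193390184) (nat_lit 532) (nat_lit 6419009440) (nat_lit 46) (nat_lit 5) (nat_lit 52) (nat_lit 5) (nat_lit 53) (nat_lit 5) (nat_lit 352) (nat_lit 345) (nat_lit 203)))) (XT.nd (nat_lit 156) (nat_lit 228) (nat_lit 0) (XT.nd (nat_lit 78) (nat_lit 304) (nat_lit 0) (XT.lf (nat_lit 0) (nat_lit 7833067525) (nat_lit 532) (nat_lit 50208629632) (nat_lit 76) (nat_lit 122735196355)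 (nat_lit 45) (nat_lit 5) (nat_lit 52) (nat_lit 5) (nat_lit 46) (nat_lit 5) (nat_lit 353) (nat_lit 345) (nat_lit 202)) (XT.lf (nat_lit 0) (nat_lit 24368076057) (nat_lit 380) (nat_lit 146442026962) (nat_lit 76) (nat_lit 18065900320) (nat_lit 41) (nat_lit 5) (nat_lit 46) (nat_lit 5) (nat_lit 42) (nat_lit 5) (nat_lit 354) (nat_lit 345) (nat_lit 201))) (XT.nd (nat_lit 78) (nat_lit 228) (nat_lit 0) (XT.lf (nat_lit 0) (nat_lit 45141699695) (nat_lit 380) (nat_lit 53713277273) (nat_lit 76) (nat_lit 98534800275) (nat_lit 41) (nat_lit 5) (nat_lit 46) (nat_lit 5) (nat_lit 42) (nat_lit 5) (nat_lit 355) (nat_lit 345) (nat_lit 200)) (XT.lf (nat_lit 0) (nat_lit 48878672894) (nat_lit 228) (nat_lit 19873877293) (nat_lit 304) (nat_lit 137738076324) (nat_lit 38) (nat_lit 5) (nat_lit 41) (nat_lit 5) (nat_lit 42) (nat_lit 5) (nat_lit 356) (nat_lit 345) (nat_lit 199))))) (XT.nd (nat_lit 312) (nat_lit 456) (nat_lit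 0) (XT.nd (nat_lit 156) (nat_lit 152) (nat_lit 0) (XT.nd (nat_lit 78) (nat_lit 228) (nat_lit 0) (XT.lf (nat_lit 0) (nat_lit 97332333641) (nat_lit 304) (nat_lit 55081207759) (nat_lit 76) (nat_lit 63659597504) (nat_lit 38) (nat_lit 5) (nat_lit 42) (nat_lit 5) (nat_lit 39) (nat_lit 5) (nat_lit 357) (nat_lit 345) (nat_lit 198)) (XT.lf (nat_lit 0) (nat_lit 58038933547) (nat_lit 228) (nat_lit 72071435385) (nat_lit 304) (nat_lit 96158934177) (nat_lit 35) (nat_lit 5) (nat_lit 38) (nat_lit 5) (nat_lit 39) (nat_lit 5) (nat_lit 358) (nat_lit 345) (nat_lit 197))) (XT.nd (nat_lit 78) (nat_lit 152) (nat_lit 0) (XT.lf (nat_lit 0) (nat_lit 167409104549) (nat_lit 304) (nat_lit 54212291092) (nat_lit 76) (nat_lit 15507888533) (nat_lit 35) (nat_lit 5) (nat_lit 39) (nat_lit 5) (nat_lit 36) (nat_lit 5) (nat_lit 359) (nat_lit 345) (nat_lit 196)) (XT.lf (nat_lit 0) (nat_lit 70586054398) (nat_lit 152) (nat_lit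 140675112674) (nat_lit 228) (nat_lit 37311342708) (nat_lit 33) (nat_lit 5) (nat_lit 35) (nat_lit 5) (nat_lit 36) (nat_lit 5) (nat_lit 360) (nat_lit 345) (nat_lit 195)))) (XT.nd (nat_lit 156) (nat_lit 152) (nat_lit 0) (XT.nd (nat_lit 78) (nat_lit 304) (nat_lit 0) (XT.lf (nat_lit 0) (nat_lit 208451179237) (nat_lit 152) (nat_lit 51652328712) (nat_lit 228) (nat_lit 709116697) (nat_lit 33) (nat_lit 5) (nat_lit 35) (nat_lit 5) (nat_lit 36) (nat_lit 5) (nat_lit 361) (nat_lit 345) (nat_lit 194)) (XT.lf (nat_lit 0) (nat_lit 40113172984) (nat_lit 304) (nat_lit 188221183218) (nat_lit 76) (nat_lit 45364189818) (nat_lit 29) (nat_lit 5) (nat_lit 33) (nat_lit 5) (nat_lit 30) (nat_lit 5) (nat_lit 362) (nat_lit 345) (nat_lit 193))) (XT.nd (nat_lit 78) (nat_lit 152) (nat_lit 0) (XT.lf (nat_lit 0) (nat_lit 86973259915) (nat_lit 304) (nat_lit 51577102734) (nat_lit 76) (nat_lit 148838679202) (nat_lit 29)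 (nat_lit 5) (nat_lit 33) (nat_lit 5) (nat_lit 30) (nat_lit 5) (nat_lit 363) (nat_lit 345) (nat_lit 192)) (XT.nd (nat_lit 78) (nat_lit 0) (nat_lit 0) (XT.lf (nat_lit 0) (nat_lit 101053431959) (nat_lit 152) (nat_lit 38958934608) (nat_lit 228) (nat_lit 161967993966) (nat_lit 27) (nat_lit 5) (nat_lit 29) (nat_lit 5) (nat_lit 30) (nat_lit 5) (nat_lit 364) (nat_lit 345) (nat_lit 191)) (XT.lf (nat_lit 0) (nat_lit 200391146227) (nat_lit 228) (nat_lit 50485157136) (nat_lit 76) (nat_lit 66614957978) (nat_lit 27) (nat_lit 5) (nat_lit 30) (nat_lit 5) (nat_lit 28) (nat_lit 5) (nat_lit 365) (nat_lit 345) (nat_lit 190))))))))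
noncomputable def xc213 : XT := (XT.nd (nat_lit 1326) (nat_lit 532) (nat_lit 0) (XT.nd (nat_lit 624) (nat_lit 456) (nat_lit 0) (XT.nd (nat_lit 312) (nat_lit 304) (nat_lit 0) (XT.nd (nat_lit 156) (nat_lit 152) (nat_lit 0) (XT.nd (nat_lit 78) (nat_lit 0) (nat_lit 0) (XT.lf (nat_lit 0) (nat_lit 116823873854) (nat_lit 152) (nat_lit 152597779950) (nat_lit 228) (nat_lit 64515666542) (nat_lit 25) (nat_lit 5) (nat_lit 27) (nat_lit 5) (nat_lit 28) (nat_lit 5) (nat_lit 366) (nat_lit 345) (nat_lit 189)) (XT.lf (nat_lit 0) (nat_lit 300388602031) (nat_lit 152) (nat_lit 44966246221) (nat_lit 228) (nat_lit 6233796279) (nat_lit 25) (nat_lit 5) (nat_lit 27) (nat_lit 5) (nat_lit 28) (nat_lit 5) (nat_lit 367) (nat_lit 345) (nat_lit 188))) (XT.nd (nat_lit 78) (nat_lit 0) (nat_lit 0) (XT.lf (nat_lit 0) (nat_lit 58912128995) (nat_lit 152) (nat_lit 238829295824) (nat_lit 76) (nat_lit 72398466588) (nat_lit 23)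 (nat_lit 5) (nat_lit 25) (nat_lit 5) (nat_lit 24) (nat_lit 5) (nat_lit 368) (nat_lit 345) (nat_lit 187)) (XT.lf (nat_lit 0) (nat_lit 131537057274) (nat_lit 152) (nat_lit 60095759139) (nat_lit 76) (nat_lit 198321139133) (nat_lit 23) (nat_lit 5) (nat_lit 25) (nat_lit 5) (nat_lit 24) (nat_lit 5) (nat_lit 369) (nat_lit 345) (nat_lit 186)))) (XT.nd (nat_lit 156) (nat_lit 152) (nat_lit 0) (XT.nd (nat_lit 78) (nat_lit 0) (nat_lit 0) (XT.lf (nat_lit 0) (nat_lit 139936505560) (nat_lit 152) (nat_lit 73400858466) (nat_lit 228) (nat_lit 197746550172) (nat_lit 21) (nat_lit 5) (nat_lit 23) (nat_lit 5) (nat_lit 24) (nat_lit 5) (nat_lit 370) (nat_lit 345) (nat_lit 185)) (XT.lf (nat_lit 0) (nat_lit 304673075981) (nat_lit 228) (nat_lit 75732263080) (nat_lit 76) (nat_lit 53259620140) (nat_lit 21) (nat_lit 5) (nat_lit 24) (nat_lit 5) (nat_lit 22) (nat_lit 4) (nat_lit 371) (nat_lit 345) (nat_lit 184))) (XT.nd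 (nat_lit 78) (nat_lit 76) (nat_lit 0) (XT.lf (nat_lit 0) (nat_lit 140434546123) (nat_lit 76) (nat_lit 268164985464) (nat_lit 152) (nat_lit 49030245384) (nat_lit 20) (nat_lit 5) (nat_lit 21) (nat_lit 5) (nat_lit 22) (nat_lit 4) (nat_lit 372) (nat_lit 345) (nat_lit 183)) (XT.lf (nat_lit 0) (nat_lit 37585364531) (nat_lit 152) (nat_lit 106096135079) (nat_lit 76) (nat_lit 339588512476) (nat_lit 19) (nat_lit 5) (nat_lit 21) (nat_lit 5) (nat_lit 20) (nat_lit 5) (nat_lit 373) (nat_lit 345) (nat_lit 182))))) (XT.nd (nat_lit 312) (nat_lit 228) (nat_lit 0) (XT.nd (nat_lit 156) (nat_lit 76) (nat_lit 0) (XT.nd (nat_lit 78) (nat_lit 0) (nat_lit 0) (XT.lf (nat_lit 0) (nat_lit 126968738293) (nat_lit 152) (nat_lit 4566102969) (nat_lit 228) (nat_lit 379080461817) (nat_lit 17) (nat_lit 5) (nat_lit 19) (nat_lit 5) (nat_lit 20) (nat_lit 5) (nat_lit 374) (nat_lit 345) (nat_lit 181)) (XT.lf (nat_lit 0) (nat_lit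 239479976468) (nat_lit 228) (nat_lit 158782614284) (nat_lit 76) (nat_lit 141367250649) (nat_lit 17) (nat_lit 5) (nat_lit 20) (nat_lit 5) (nat_lit 18) (nat_lit 4) (nat_lit 375) (nat_lit 345) (nat_lit 180))) (XT.nd (nat_lit 78) (nat_lit 0) (nat_lit 0) (XT.lf (nat_lit 0) (nat_lit 88372481984) (nat_lit 76) (nat_lit 269932131477) (nat_lit 152) (nat_lit 212481418119) (nat_lit 16) (nat_lit 5) (nat_lit 17) (nat_lit 5) (nat_lit 18) (nat_lit 4) (nat_lit 376) (nat_lit 345) (nat_lit 179)) (XT.lf (nat_lit 0) (nat_lit 364329977294) (nat_lit 76) (nat_lit 126646575097) (nat_lit 152) (nat_lit 113110858168) (nat_lit 16) (nat_lit 5) (nat_lit 17) (nat_lit 5) (nat_lit 18) (nat_lit 4) (nat_lit 377) (nat_lit 345) (nat_lit 178)))) (XT.nd (nat_lit 156) (nat_lit 76) (nat_lit 0) (XT.nd (nat_lit 78) (nat_lit 76) (nat_lit 0) (XT.lf (nat_lit 0) (nat_lit 22774482734) (nat_lit 76) (nat_lit 612711276928) (nat_lit 76)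 (nat_lit 4469259197) (nat_lit 15) (nat_lit 4) (nat_lit 16) (nat_lit 5) (nat_lit 16) (nat_lit 4) (nat_lit 378) (nat_lit 345) (nat_lit 177)) (XT.lf (nat_lit 0) (nat_lit 117232891626) (nat_lit 152) (nat_lit 364397712430) (nat_lit 76) (nat_lit 196043072169) (nat_lit 14) (nat_lit 5) (nat_lit 16) (nat_lit 5) (nat_lit 15) (nat_lit 4) (nat_lit 379) (nat_lit 345) (nat_lit 176))) (XT.nd (nat_lit 78) (nat_lit 76) (nat_lit 0) (XT.lf (nat_lit 0) (nat_lit 248429700287) (nat_lit 152) (nat_lit 91508451603) (nat_lit 76) (nat_lit 378462392217) (nat_lit 14) (nat_lit 5) (nat_lit 16) (nat_lit 5) (nat_lit 15) (nat_lit 4) (nat_lit 380) (nat_lit 345) (nat_lit 175)) (XT.nd (nat_lit 78) (nat_lit 0) (nat_lit 0) (XT.lf (nat_lit 0) (nat_lit 213912629784) (nat_lit 76) (nat_lit 181354173907) (nat_lit 152) (nat_lit 366707193769) (nat_lit 13) (nat_lit 5) (nat_lit 14) (nat_lit 5) (nat_lit 15) (nat_lit 4) (nat_lit 381)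 (nat_lit 345) (nat_lit 174)) (XT.lf (nat_lit 0) (nat_lit 548971470451) (nat_lit 76) (nat_lit 7381356038) (nat_lit 152) (nat_lit 252480344542) (nat_lit 13) (nat_lit 5) (nat_lit 14) (nat_lit 5) (nat_lit 15) (nat_lit 4) (nat_lit 382) (nat_lit 345) (nat_lit 173))))))) (XT.nd (nat_lit 624) (nat_lit 228) (nat_lit 0) (XT.nd (nat_lit 312) (nat_lit 76) (nat_lit 0) (XT.nd (nat_lit 156) (nat_lit 76) (nat_lit 0) (XT.nd (nat_lit 78) (nat_lit 76) (nat_lit 0) (XT.lf (nat_lit 0) (nat_lit 49530303602) (nat_lit 76) (nat_lit 686327836017) (nat_lit 76) (nat_lit 123140346226) (nat_lit 12) (nat_lit 4) (nat_lit 13) (nat_lit 5) (nat_lit 13) (nat_lit 4) (nat_lit 383) (nat_lit 345) (nat_lit 172)) (XT.lf (nat_lit 0) (nat_lit 23200412943) (nat_lit 152) (nat_lit 514930699735) (nat_lit 76) (nat_lit 374415572901) (nat_lit 11) (nat_lit 5) (nat_lit 13) (nat_lit 5) (nat_lit 12) (nat_lit 4) (nat_lit 384) (nat_lit 345)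 (nat_lit 171))) (XT.nd (nat_lit 78) (nat_lit 76) (nat_lit 0) (XT.lf (nat_lit 0) (nat_lit 174595610403) (nat_lit 152) (nat_lit 200028752783) (nat_lit 76) (nat_lit 595498505715) (nat_lit 11) (nat_lit 5) (nat_lit 13) (nat_lit 5) (nat_lit 12) (nat_lit 4) (nat_lit 385) (nat_lit 345) (nat_lit 170)) (XT.lf (nat_lit 0) (nat_lit 147440861544) (nat_lit 76) (nat_lit 194207476441) (nat_lit 152) (nat_lit 690373135786) (nat_lit 10) (nat_lit 5) (nat_lit 11) (nat_lit 5) (nat_lit 12) (nat_lit 4) (nat_lit 386) (nat_lit 345) (nat_lit 169)))) (XT.nd (nat_lit 156) (nat_lit 76) (nat_lit 0) (XT.nd (nat_lit 78) (nat_lit 0) (nat_lit 0) (XT.lf (nat_lit 0) (nat_lit 527691896892) (nat_lit 152) (nat_lit 564508170271) (nat_lit 0) (nat_lit 6221770842) (nat_lit 10) (nat_lit 5) (nat_lit 12) (nat_lit 4) (nat_lit 10) (nat_lit 4) (nat_lit 387) (nat_lit 345) (nat_lit 168)) (XT.lf (nat_lit 0) (nat_lit 733663252137) (nat_lit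 152) (nat_lit 223874355119) (nat_lit 0) (nat_lit 212193079217) (nat_lit 10) (nat_lit 5) (nat_lit 12) (nat_lit 4) (nat_lit 10) (nat_lit 4) (nat_lit 388) (nat_lit 345) (nat_lit 167))) (XT.nd (nat_lit 78) (nat_lit 0) (nat_lit 0) (XT.lf (nat_lit 0) (nat_lit 151593415040) (nat_lit 76) (nat_lit 808164690471) (nat_lit 76) (nat_lit 286694474153) (nat_lit 9) (nat_lit 4) (nat_lit 10) (nat_lit 5) (nat_lit 10) (nat_lit 4) (nat_lit 389) (nat_lit 345) (nat_lit 166)) (XT.lf (nat_lit 0) (nat_lit 569830474666) (nat_lit 76) (nat_lit 640231159597) (nat_lit 76) (nat_lit 118760903097) (nat_lit 9) (nat_lit 4) (nat_lit 10) (nat_lit 5) (nat_lit 10) (nat_lit 4) (nat_lit 390) (nat_lit 345) (nat_lit 165))))) (XT.nd (nat_lit 312) (nat_lit 76) (nat_lit 0) (XT.nd (nat_lit 156) (nat_lit 76) (nat_lit 0) (XT.nd (nat_lit 78) (nat_lit 0) (nat_lit 0) (XT.lf (nat_lit 0) (nat_lit 59475447462) (nat_lit 152) (nat_lit 397761362985)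 (nat_lit 76) (nat_lit 960424827199) (nat_lit 8) (nat_lit 5) (nat_lit 10) (nat_lit 5) (nat_lit 9) (nat_lit 4) (nat_lit 391) (nat_lit 345) (nat_lit 164)) (XT.lf (nat_lit 0) (nat_lit 245554502239) (nat_lit 152) (nat_lit 10716963499) (nat_lit 76) (nat_lit 1257089626757) (nat_lit 8) (nat_lit 5) (nat_lit 10) (nat_lit 5) (nat_lit 9) (nat_lit 4) (nat_lit 392) (nat_lit 345) (nat_lit 163))) (XT.nd (nat_lit 78) (nat_lit 0) (nat_lit 0) (XT.lf (nat_lit 0) (nat_lit 428738153621) (nat_lit 76) (nat_lit 28092862569) (nat_lit 152) (nat_lit 1159060596774) (nat_lit 7) (nat_lit 5) (nat_lit 8) (nat_lit 5) (nat_lit 9) (nat_lit 4) (nat_lit 393) (nat_lit 345) (nat_lit 162)) (XT.lf (nat_lit 0) (nat_lit 690561338040) (nat_lit 152) (nat_lit 827900717388) (nat_lit 0) (nat_lit 207718384714) (nat_lit 7) (nat_lit 5) (nat_lit 9) (nat_lit 4) (nat_lit 7) (nat_lit 4) (nat_lit 394) (nat_lit 345) (nat_lit 161)))) (XT.nd (nat_lit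 156) (nat_lit 76) (nat_lit 0) (XT.nd (nat_lit 78) (nat_lit 0) (nat_lit 0) (XT.lf (nat_lit 0) (nat_lit 943719744577) (nat_lit 152) (nat_lit 440637490287) (nat_lit 0) (nat_lit 460876765929) (nat_lit 7) (nat_lit 5) (nat_lit 9) (nat_lit 4) (nat_lit 7) (nat_lit 4) (nat_lit 395) (nat_lit 345) (nat_lit 160)) (XT.lf (nat_lit 0) (nat_lit 1217130799746) (nat_lit 152) (nat_lit 22393250821) (nat_lit 0) (nat_lit 734287797651) (nat_lit 7) (nat_lit 5) (nat_lit 9) (nat_lit 4) (nat_lit 7) (nat_lit 4) (nat_lit 396) (nat_lit 345) (nat_lit 159))) (XT.nd (nat_lit 78) (nat_lit 0) (nat_lit 0) (XT.lf (nat_lit 0) (nat_lit 451917214746) (nat_lit 76) (nat_lit 1071366122344) (nat_lit 76) (nat_lit 588523098539) (nat_lit 6) (nat_lit 4) (nat_lit 7) (nat_lit 5) (nat_lit 7) (nat_lit 4) (nat_lit 397) (nat_lit 345) (nat_lit 158)) (XT.nd (nat_lit 78) (nat_lit 0) (nat_lit 0) (XT.lf (nat_lit 0) (nat_lit 965446000238) (nat_lit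 76) (nat_lit 889094326867) (nat_lit 76) (nat_lit 406251282961) (nat_lit 6) (nat_lit 4) (nat_lit 7) (nat_lit 5) (nat_lit 7) (nat_lit 4) (nat_lit 398) (nat_lit 345) (nat_lit 157)) (XT.lf (nat_lit 0) (nat_lit 1520057050294) (nat_lit 76) (nat_lit 692240806142) (nat_lit 76) (nat_lit 209397743624) (nat_lit 6) (nat_lit 4) (nat_lit 7) (nat_lit 5) (nat_lit 7) (nat_lit 4) (nat_lit 399) (nat_lit 345) (nat_lit 156))))))))
noncomputable def xc214 : XT := (XT.nd (nat_lit 43446) (nat_lit 0) (nat_lit 1292) (XT.nd (nat_lit 42744) (nat_lit 0) (nat_lit 2812) (XT.nd (nat_lit 312) (nat_lit 0) (nat_lit 0) (XT.nd (nat_lit 156) (nat_lit 76) (nat_lit 0) (XT.nd (nat_lit 78) (nat_lit 0) (nat_lit 0) (XT.lf (nat_lit 0) (nat_lit 3043778959) (nat_lit 152) (nat_lit 476512019516) (nat_lit 76) (nat_lit 2115909947644) (nat_lit 5) (nat_lit 5) (nat_lit 7) (nat_lit 5) (nat_lit 6) (nat_lit 4) (nat_lit 400) (nat_lit 345) (nat_lit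 155)) (XT.lf (nat_lit 0) (nat_lit 221167688792) (nat_lit 152) (nat_lit 22814303021) (nat_lit 76) (nat_lit 2538720401262) (nat_lit 5) (nat_lit 5) (nat_lit 7) (nat_lit 5) (nat_lit 6) (nat_lit 4) (nat_lit 401) (nat_lit 345) (nat_lit 154))) (XT.nd (nat_lit 78) (nat_lit 0) (nat_lit 0) (XT.lf (nat_lit 0) (nat_lit 469127046911) (nat_lit 152) (nat_lit 2492749989285) (nat_lit 0) (nat_lit 22050092759) (nat_lit 4) (nat_lit 5) (nat_lit 6) (nat_lit 4) (nat_lit 4) (nat_lit 4) (nat_lit 402) (nat_lit 345) (nat_lit 153)) (XT.lf (nat_lit 0) (nat_lit 743900317827) (nat_lit 152) (nat_lit 2159968001747) (nat_lit 0) (nat_lit 296823351006) (nat_lit 4) (nat_lit 5) (nat_lit 6) (nat_lit 4) (nat_lit 4) (nat_lit 4) (nat_lit 403) (nat_lit 345) (nat_lit 152)))) (XT.nd (nat_lit 156) (nat_lit 0) (nat_lit 0) (XT.nd (nat_lit 78) (nat_lit 0) (nat_lit 0) (XT.lf (nat_lit 0) (nat_lit 1040655435517) (nat_lit 152) (nat_lit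 1800563484247) (nat_lit 0) (nat_lit 593578456968) (nat_lit 4) (nat_lit 5) (nat_lit 6) (nat_lit 4) (nat_lit 4) (nat_lit 4) (nat_lit 404) (nat_lit 345) (nat_lit 151)) (XT.lf (nat_lit 0) (nat_lit 1361150948829) (nat_lit 152) (nat_lit 1412406632238) (nat_lit 0) (nat_lit 914073959420) (nat_lit 4) (nat_lit 5) (nat_lit 6) (nat_lit 4) (nat_lit 4) (nat_lit 4) (nat_lit 405) (nat_lit 345) (nat_lit 150))) (XT.nd (nat_lit 42198) (nat_lit 0) (nat_lit 3420) (XT.lf (nat_lit 0) (nat_lit 1707286090433) (nat_lit 152) (nat_lit 993197256967) (nat_lit 0) (nat_lit 1260209090968) (nat_lit 4) (nat_lit 5) (nat_lit 6) (nat_lit 4) (nat_lit 4) (nat_lit 4) (nat_lit 406) (nat_lit 345) (nat_lit 149)) (XT.lf (nat_lit 0) (nat_lit 48545825589) (nat_lit 532) (nat_lit 10894043532) (nat_lit 532) (nat_lit 10894043532) (nat_lit 49) (nat_lit 3) (nat_lit 56) (nat_lit 3) (nat_lit 56) (nat_lit 5) (nat_lit 346) (nat_lit 346) (nat_lit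 208))))) (XT.nd (nat_lit 312) (nat_lit 608) (nat_lit 0) (XT.nd (nat_lit 156) (nat_lit 0) (nat_lit 76) (XT.nd (nat_lit 78) (nat_lit 0) (nat_lit 76) (XT.lf (nat_lit 76) (nat_lit 45800920064) (nat_lit 0) (nat_lit 56278950963) (nat_lit 532) (nat_lit 44126295415) (nat_lit 50) (nat_lit 5) (nat_lit 49) (nat_lit 3) (nat_lit 56) (nat_lit 5) (nat_lit 347) (nat_lit 346) (nat_lit 207)) (XT.lf (nat_lit 0) (nat_lit 108350525978) (nat_lit 456) (nat_lit 32391921010) (nat_lit 532) (nat_lit 11374458434) (nat_lit 50) (nat_lit 5) (nat_lit 56) (nat_lit 5) (nat_lit 57) (nat_lit 5) (nat_lit 348) (nat_lit 346) (nat_lit 206))) (XT.nd (nat_lit 78) (nat_lit 0) (nat_lit 0) (XT.lf (nat_lit 76) (nat_lit 41685784173) (nat_lit 0) (nat_lit 75901101674) (nat_lit 532) (nat_lit 40716494173) (nat_lit 51) (nat_lit 5) (nat_lit 50) (nat_lit 5) (nat_lit 57) (nat_lit 5) (nat_lit 349) (nat_lit 346) (nat_lit 205)) (XT.lf (nat_lit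 76) (nat_lit 123531680725) (nat_lit 0) (nat_lit 4915860328) (nat_lit 532) (nat_lit 36466401260) (nat_lit 51) (nat_lit 5) (nat_lit 50) (nat_lit 5) (nat_lit 57) (nat_lit 5) (nat_lit 350) (nat_lit 346) (nat_lit 204)))) (XT.nd (nat_lit 156) (nat_lit 760) (nat_lit 0) (XT.nd (nat_lit 78) (nat_lit 0) (nat_lit 0) (XT.lf (nat_lit 76) (nat_lit 40154871822) (nat_lit 0) (nat_lit 102713204016) (nat_lit 532) (nat_lit 28969992180) (nat_lit 52) (nat_lit 5) (nat_lit 51) (nat_lit 5) (nat_lit 58) (nat_lit 5) (nat_lit 351) (nat_lit 346) (nat_lit 203)) (XT.lf (nat_lit 76) (nat_lit 130433827332) (nat_lit 0) (nat_lit 29264111816) (nat_lit 532) (nat_lit 19517730329) (nat_lit 52) (nat_lit 5) (nat_lit 51) (nat_lit 5) (nat_lit 58) (nat_lit 5) (nat_lit 352) (nat_lit 346) (nat_lit 202))) (XT.nd (nat_lit 78) (nat_lit 380) (nat_lit 0) (XT.lf (nat_lit 0) (nat_lit 41629962579) (nat_lit 456) (nat_lit 138449183886) (nat_lit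 532) (nat_lit 6927936708) (nat_lit 46) (nat_lit 5) (nat_lit 52) (nat_lit 5) (nat_lit 53) (nat_lit 5) (nat_lit 353) (nat_lit 346) (nat_lit 201)) (XT.nd (nat_lit 78) (nat_lit 304) (nat_lit 0) (XT.lf (nat_lit 0) (nat_lit 8463753392) (nat_lit 532) (nat_lit 54221467663) (nat_lit 76) (nat_lit 132553492072) (nat_lit 45) (nat_lit 5) (nat_lit 52) (nat_lit 5) (nat_lit 46) (nat_lit 5) (nat_lit 354) (nat_lit 346) (nat_lit 200)) (XT.lf (nat_lit 0) (nat_lit 26321351774) (nat_lit 380) (nat_lit 158153317957) (nat_lit 76) (nat_lit 19511099517) (nat_lit 41) (nat_lit 5) (nat_lit 46) (nat_lit 5) (nat_lit 42) (nat_lit 5) (nat_lit 355) (nat_lit 346) (nat_lit 199))))))) (XT.nd (nat_lit 624) (nat_lit 608) (nat_lit 0) (XT.nd (nat_lit 312) (nat_lit 456) (nat_lit 0) (XT.nd (nat_lit 156) (nat_lit 228) (nat_lit 0) (XT.nd (nat_lit 78) (nat_lit 228) (nat_lit 0) (XT.lf (nat_lit 0) (nat_lit 48756581625) (nat_lit 380)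 (nat_lit 58006569860) (nat_lit 76) (nat_lit 106417516863) (nat_lit 41) (nat_lit 5) (nat_lit 46) (nat_lit 5) (nat_lit 42) (nat_lit 5) (nat_lit 356) (nat_lit 346) (nat_lit 198)) (XT.lf (nat_lit 0) (nat_lit 52792640887) (nat_lit 228) (nat_lit 21463484969) (nat_lit 304) (nat_lit 148753474193) (nat_lit 38) (nat_lit 5) (nat_lit 41) (nat_lit 5) (nat_lit 42) (nat_lit 5) (nat_lit 357) (nat_lit 346) (nat_lit 197))) (XT.nd (nat_lit 78) (nat_lit 228) (nat_lit 0) (XT.lf (nat_lit 0) (nat_lit 105122048972) (nat_lit 304) (nat_lit 59484053021) (nat_lit 76) (nat_lit 68752631391) (nat_lit 38) (nat_lit 5) (nat_lit 42) (nat_lit 5) (nat_lit 39) (nat_lit 5) (nat_lit 358) (nat_lit 346) (nat_lit 196)) (XT.lf (nat_lit 0) (nat_lit 62685607150) (nat_lit 228) (nat_lit 77836573776) (nat_lit 304) (nat_lit 103848421961) (nat_lit 35) (nat_lit 5) (nat_lit 38) (nat_lit 5) (nat_lit 39) (nat_lit 5) (nat_lit 359) (nat_lit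 346) (nat_lit 195)))) (XT.nd (nat_lit 156) (nat_lit 304) (nat_lit 0) (XT.nd (nat_lit 78) (nat_lit 152) (nat_lit 0) (XT.lf (nat_lit 0) (nat_lit 180804607305) (nat_lit 304) (nat_lit 58545765558) (nat_lit 76) (nat_lit 16749026656) (nat_lit 35) (nat_lit 5) (nat_lit 39) (nat_lit 5) (nat_lit 36) (nat_lit 5) (nat_lit 360) (nat_lit 346) (nat_lit 194)) (XT.lf (nat_lit 0) (nat_lit 76236358740) (nat_lit 152) (nat_lit 151928352831) (nat_lit 228) (nat_lit 40293381867) (nat_lit 33) (nat_lit 5) (nat_lit 35) (nat_lit 5) (nat_lit 36) (nat_lit 5) (nat_lit 361) (nat_lit 346) (nat_lit 193))) (XT.nd (nat_lit 78) (nat_lit 304) (nat_lit 0) (XT.lf (nat_lit 0) (nat_lit 225130440234) (nat_lit 152) (nat_lit 55783803104) (nat_lit 228) (nat_lit 763190239) (nat_lit 33) (nat_lit 5) (nat_lit 35) (nat_lit 5) (nat_lit 36) (nat_lit 5) (nat_lit 362) (nat_lit 346) (nat_lit 192)) (XT.lf (nat_lit 0) (nat_lit 43324659725) (nat_lit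 304) (nat_lit 203275480014) (nat_lit 76) (nat_lit 48994091334) (nat_lit 29) (nat_lit 5) (nat_lit 33) (nat_lit 5) (nat_lit 30) (nat_lit 5) (nat_lit 363) (nat_lit 346) (nat_lit 191))))) (XT.nd (nat_lit 312) (nat_lit 304) (nat_lit 0) (XT.nd (nat_lit 156) (nat_lit 152) (nat_lit 0) (XT.nd (nat_lit 78) (nat_lit 152) (nat_lit 0) (XT.lf (nat_lit 0) (nat_lit 93933373396) (nat_lit 304) (nat_lit 55700124785) (nat_lit 76) (nat_lit 160746483104) (nat_lit 29) (nat_lit 5) (nat_lit 33) (nat_lit 5) (nat_lit 30) (nat_lit 5) (nat_lit 364) (nat_lit 346) (nat_lit 190)) (XT.lf (nat_lit 0) (nat_lit 109140773034) (nat_lit 152) (nat_lit 42074742430) (nat_lit 228) (nat_lit 174923097720) (nat_lit 27) (nat_lit 5) (nat_lit 29) (nat_lit 5) (nat_lit 30) (nat_lit 5) (nat_lit 365) (nat_lit 346) (nat_lit 189))) (XT.nd (nat_lit 78) (nat_lit 152) (nat_lit 0) (XT.lf (nat_lit 0) (nat_lit 216424457725) (nat_lit 228) (nat_lit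 54520987394) (nat_lit 76) (nat_lit 71944952373) (nat_lit 27) (nat_lit 5) (nat_lit 30) (nat_lit 5) (nat_lit 28) (nat_lit 5) (nat_lit 366) (nat_lit 346) (nat_lit 188)) (XT.lf (nat_lit 0) (nat_lit 126172690574) (nat_lit 152) (nat_lit 164804635628) (nat_lit 228) (nat_lit 69674821626) (nat_lit 25) (nat_lit 5) (nat_lit 27) (nat_lit 5) (nat_lit 28) (nat_lit 5) (nat_lit 367) (nat_lit 346) (nat_lit 187)))) (XT.nd (nat_lit 156) (nat_lit 152) (nat_lit 0) (XT.nd (nat_lit 78) (nat_lit 152) (nat_lit 0) (XT.lf (nat_lit 0) (nat_lit 324422381686) (nat_lit 152) (nat_lit 48562650810) (nat_lit 228) (nat_lit 6730557168) (nat_lit 25) (nat_lit 5) (nat_lit 27) (nat_lit 5) (nat_lit 28) (nat_lit 5) (nat_lit 368) (nat_lit 346) (nat_lit 186)) (XT.lf (nat_lit 0) (nat_lit 63626896413) (nat_lit 152) (nat_lit 257932797432) (nat_lit 76) (nat_lit 78191242775) (nat_lit 23) (nat_lit 5) (nat_lit 25) (nat_lit 5) (nat_lit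 24) (nat_lit 5) (nat_lit 369) (nat_lit 346) (nat_lit 185))) (XT.nd (nat_lit 78) (nat_lit 152) (nat_lit 0) (XT.lf (nat_lit 0) (nat_lit 142061685836) (nat_lit 152) (nat_lit 64900788335) (nat_lit 76) (nat_lit 214187662541) (nat_lit 23) (nat_lit 5) (nat_lit 25) (nat_lit 5) (nat_lit 24) (nat_lit 5) (nat_lit 370) (nat_lit 346) (nat_lit 184)) (XT.nd (nat_lit 78) (nat_lit 0) (nat_lit 0) (XT.lf (nat_lit 0) (nat_lit 151133990919) (nat_lit 152) (nat_lit 79271964638) (nat_lit 228) (nat_lit 213564541586) (nat_lit 21) (nat_lit 5) (nat_lit 23) (nat_lit 5) (nat_lit 24) (nat_lit 5) (nat_lit 371) (nat_lit 346) (nat_lit 183)) (XT.lf (nat_lit 0) (nat_lit 329048427205) (nat_lit 228) (nat_lit 81788370092) (nat_lit 76) (nat_lit 57521236378) (nat_lit 21) (nat_lit 5) (nat_lit 24) (nat_lit 5) (nat_lit 22) (nat_lit 4) (nat_lit 372) (nat_lit 346) (nat_lit 182))))))))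
noncomputable def xc215 : XT := (XT.nd (nat_lit 1326) (nat_lit 456) (nat_lit 0) (XT.nd (nat_lit 624) (nat_lit 304) (nat_lit 0) (XT.nd (nat_lit 312) (nat_lit 228) (nat_lit 0) (XT.nd (nat_lit 156) (nat_lit 152) (nat_lit 0) (XT.nd (nat_lit 78) (nat_lit 76) (nat_lit 0) (XT.lf (nat_lit 0) (nat_lit 151671721214) (nat_lit 76) (nat_lit 289617224547) (nat_lit 152) (nat_lit 52951095522) (nat_lit 20) (nat_lit 5) (nat_lit 21) (nat_lit 5) (nat_lit 22) (nat_lit 4) (nat_lit 373) (nat_lit 346) (nat_lit 181)) (XT.lf (nat_lit 0) (nat_lit 40593574231) (nat_lit 152) (nat_lit 114581518941) (nat_lit 76) (nat_lit 366756407969) (nat_lit 19) (nat_lit 5) (nat_lit 21) (nat_lit 5) (nat_lit 20) (nat_lit 5) (nat_lit 374) (nat_lit 346) (nat_lit 180))) (XT.nd (nat_lit 78) (nat_lit 0) (nat_lit 0) (XT.lf (nat_lit 0) (nat_lit 137128485898) (nat_lit 152) (nat_lit 4930475019) (nat_lit 228) (nat_lit 409405458460) (nat_lit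 17) (nat_lit 5) (nat_lit 19) (nat_lit 5) (nat_lit 20) (nat_lit 5) (nat_lit 375) (nat_lit 346) (nat_lit 179)) (XT.lf (nat_lit 0) (nat_lit 258639628647) (nat_lit 228) (nat_lit 171483061894) (nat_lit 76) (nat_lit 152677436587) (nat_lit 17) (nat_lit 5) (nat_lit 20) (nat_lit 5) (nat_lit 18) (nat_lit 4) (nat_lit 376) (nat_lit 346) (nat_lit 178)))) (XT.nd (nat_lit 156) (nat_lit 152) (nat_lit 0) (XT.nd (nat_lit 78) (nat_lit 0) (nat_lit 0) (XT.lf (nat_lit 0) (nat_lit 95444387353) (nat_lit 76) (nat_lit 291525807022) (nat_lit 152) (nat_lit 229478621617) (nat_lit 16) (nat_lit 5) (nat_lit 17) (nat_lit 5) (nat_lit 18) (nat_lit 4) (nat_lit 377) (nat_lit 346) (nat_lit 177)) (XT.lf (nat_lit 0) (nat_lit 393478326229) (nat_lit 76) (nat_lit 136777472426) (nat_lit 152) (nat_lit 122158513904) (nat_lit 16) (nat_lit 5) (nat_lit 17) (nat_lit 5) (nat_lit 18) (nat_lit 4) (nat_lit 378) (nat_lit 346) (nat_lit 176)))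 (XT.nd (nat_lit 78) (nat_lit 76) (nat_lit 0) (XT.lf (nat_lit 0) (nat_lit 24598411838) (nat_lit 76) (nat_lit 661727313396) (nat_lit 76) (nat_lit 4825605750) (nat_lit 15) (nat_lit 4) (nat_lit 16) (nat_lit 5) (nat_lit 16) (nat_lit 4) (nat_lit 379) (nat_lit 346) (nat_lit 175)) (XT.lf (nat_lit 0) (nat_lit 126612573369) (nat_lit 152) (nat_lit 393547648731) (nat_lit 76) (nat_lit 211727263333) (nat_lit 14) (nat_lit 5) (nat_lit 16) (nat_lit 5) (nat_lit 15) (nat_lit 4) (nat_lit 380) (nat_lit 346) (nat_lit 174))))) (XT.nd (nat_lit 312) (nat_lit 152) (nat_lit 0) (XT.nd (nat_lit 156) (nat_lit 76) (nat_lit 0) (XT.nd (nat_lit 78) (nat_lit 76) (nat_lit 0) (XT.lf (nat_lit 0) (nat_lit 268305048914) (nat_lit 152) (nat_lit 98827386348) (nat_lit 76) (nat_lit 408740073771) (nat_lit 14) (nat_lit 5) (nat_lit 16) (nat_lit 5) (nat_lit 15) (nat_lit 4) (nat_lit 381) (nat_lit 346) (nat_lit 173)) (XT.lf (nat_lit 0)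 (nat_lit 231027337464) (nat_lit 76) (nat_lit 195861751902) (nat_lit 152) (nat_lit 396042751846) (nat_lit 13) (nat_lit 5) (nat_lit 14) (nat_lit 5) (nat_lit 15) (nat_lit 4) (nat_lit 382) (nat_lit 346) (nat_lit 172))) (XT.nd (nat_lit 78) (nat_lit 76) (nat_lit 0) (XT.lf (nat_lit 0) (nat_lit 592890759658) (nat_lit 76) (nat_lit 7971164597) (nat_lit 152) (nat_lit 272677830046) (nat_lit 13) (nat_lit 5) (nat_lit 14) (nat_lit 5) (nat_lit 15) (nat_lit 4) (nat_lit 383) (nat_lit 346) (nat_lit 171)) (XT.lf (nat_lit 0) (nat_lit 53494311898) (nat_lit 76) (nat_lit 741233339653) (nat_lit 76) (nat_lit 132990643671) (nat_lit 12) (nat_lit 4) (nat_lit 13) (nat_lit 5) (nat_lit 13) (nat_lit 4) (nat_lit 384) (nat_lit 346) (nat_lit 170)))) (XT.nd (nat_lit 156) (nat_lit 76) (nat_lit 0) (XT.nd (nat_lit 78) (nat_lit 0) (nat_lit 0) (XT.lf (nat_lit 0) (nat_lit 25057264236) (nat_lit 152) (nat_lit 556123645412) (nat_lit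 76) (nat_lit 404369444777) (nat_lit 11) (nat_lit 5) (nat_lit 13) (nat_lit 5) (nat_lit 12) (nat_lit 4) (nat_lit 385) (nat_lit 346) (nat_lit 169)) (XT.lf (nat_lit 0) (nat_lit 188564016881) (nat_lit 152) (nat_lit 216029654578) (nat_lit 76) (nat_lit 643138965842) (nat_lit 11) (nat_lit 5) (nat_lit 13) (nat_lit 5) (nat_lit 12) (nat_lit 4) (nat_lit 386) (nat_lit 346) (nat_lit 168))) (XT.nd (nat_lit 78) (nat_lit 0) (nat_lit 0) (XT.lf (nat_lit 0) (nat_lit 159237493492) (nat_lit 76) (nat_lit 209743445836) (nat_lit 152) (nat_lit 745602193136) (nat_lit 10) (nat_lit 5) (nat_lit 11) (nat_lit 5) (nat_lit 12) (nat_lit 4) (nat_lit 387) (nat_lit 346) (nat_lit 167)) (XT.nd (nat_lit 78) (nat_lit 0) (nat_lit 0) (XT.lf (nat_lit 0) (nat_lit 569907942557) (nat_lit 152) (nat_lit 609667521011) (nat_lit 0) (nat_lit 6720065536) (nat_lit 10) (nat_lit 5) (nat_lit 12) (nat_lit 4) (nat_lit 10) (nat_lit 4) (nat_lit 388)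 (nat_lit 346) (nat_lit 166)) (XT.lf (nat_lit 0) (nat_lit 792356954820) (nat_lit 152) (nat_lit 241783097157) (nat_lit 0) (nat_lit 229169037616) (nat_lit 10) (nat_lit 5) (nat_lit 12) (nat_lit 4) (nat_lit 10) (nat_lit 4) (nat_lit 389) (nat_lit 346) (nat_lit 165))))))) (XT.nd (nat_lit 702) (nat_lit 152) (nat_lit 0) (XT.nd (nat_lit 312) (nat_lit 152) (nat_lit 0) (XT.nd (nat_lit 156) (nat_lit 76) (nat_lit 0) (XT.nd (nat_lit 78) (nat_lit 0) (nat_lit 0) (XT.lf (nat_lit 0) (nat_lit 163722064073) (nat_lit 76) (nat_lit 872817313075) (nat_lit 76) (nat_lit 309629358665) (nat_lit 9) (nat_lit 4) (nat_lit 10) (nat_lit 5) (nat_lit 10) (nat_lit 4) (nat_lit 390) (nat_lit 346) (nat_lit 164)) (XT.lf (nat_lit 0) (nat_lit 615418001372) (nat_lit 76) (nat_lit 691449140668) (nat_lit 76) (nat_lit 128261151807) (nat_lit 9) (nat_lit 4) (nat_lit 10) (nat_lit 5) (nat_lit 10) (nat_lit 4) (nat_lit 391) (nat_lit 346)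 (nat_lit 163))) (XT.nd (nat_lit 78) (nat_lit 0) (nat_lit 0) (XT.lf (nat_lit 0) (nat_lit 64234031727) (nat_lit 152) (nat_lit 429581234765) (nat_lit 76) (nat_lit 1037259257995) (nat_lit 8) (nat_lit 5) (nat_lit 10) (nat_lit 5) (nat_lit 9) (nat_lit 4) (nat_lit 392) (nat_lit 346) (nat_lit 162)) (XT.lf (nat_lit 0) (nat_lit 265199370259) (nat_lit 152) (nat_lit 11573360155) (nat_lit 76) (nat_lit 1357657208583) (nat_lit 8) (nat_lit 5) (nat_lit 10) (nat_lit 5) (nat_lit 9) (nat_lit 4) (nat_lit 393) (nat_lit 346) (nat_lit 161)))) (XT.nd (nat_lit 156) (nat_lit 76) (nat_lit 0) (XT.nd (nat_lit 78) (nat_lit 0) (nat_lit 0) (XT.lf (nat_lit 0) (nat_lit 463038142021) (nat_lit 76) (nat_lit 30339848202) (nat_lit 152) (nat_lit 1251784912111) (nat_lit 7) (nat_lit 5) (nat_lit 8) (nat_lit 5) (nat_lit 9) (nat_lit 4) (nat_lit 394) (nat_lit 346) (nat_lit 160)) (XT.lf (nat_lit 0) (nat_lit 745806711195) (nat_lit 152)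 (nat_lit 894131881154) (nat_lit 0) (nat_lit 224336245486) (nat_lit 7) (nat_lit 5) (nat_lit 9) (nat_lit 4) (nat_lit 7) (nat_lit 4) (nat_lit 395) (nat_lit 346) (nat_lit 159))) (XT.nd (nat_lit 78) (nat_lit 76) (nat_lit 0) (XT.lf (nat_lit 0) (nat_lit 1019217755728) (nat_lit 152) (nat_lit 475887662078) (nat_lit 0) (nat_lit 497747268309) (nat_lit 7) (nat_lit 5) (nat_lit 9) (nat_lit 4) (nat_lit 7) (nat_lit 4) (nat_lit 396) (nat_lit 346) (nat_lit 158)) (XT.nd (nat_lit 78) (nat_lit 76) (nat_lit 0) (XT.lf (nat_lit 0) (nat_lit 1314501663341) (nat_lit 152) (nat_lit 24183944747) (nat_lit 0) (nat_lit 793031155821) (nat_lit 7) (nat_lit 5) (nat_lit 9) (nat_lit 4) (nat_lit 7) (nat_lit 4) (nat_lit 397) (nat_lit 346) (nat_lit 157)) (XT.lf (nat_lit 0) (nat_lit 488071338670) (nat_lit 76) (nat_lit 1157075053360) (nat_lit 76) (nat_lit 635604527228) (nat_lit 6) (nat_lit 4) (nat_lit 7) (nat_lit 5) (nat_lit 7)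 (nat_lit 4) (nat_lit 398) (nat_lit 346) (nat_lit 156)))))) (XT.nd (nat_lit 312) (nat_lit 76) (nat_lit 0) (XT.nd (nat_lit 156) (nat_lit 76) (nat_lit 0) (XT.nd (nat_lit 78) (nat_lit 0) (nat_lit 0) (XT.lf (nat_lit 0) (nat_lit 1042682371687) (nat_lit 76) (nat_lit 960221540821) (nat_lit 76) (nat_lit 438750997455) (nat_lit 6) (nat_lit 4) (nat_lit 7) (nat_lit 5) (nat_lit 7) (nat_lit 4) (nat_lit 399) (nat_lit 346) (nat_lit 155)) (XT.lf (nat_lit 0) (nat_lit 1641662254530) (nat_lit 76) (nat_lit 747619763045) (nat_lit 76) (nat_lit 226149203721) (nat_lit 6) (nat_lit 4) (nat_lit 7) (nat_lit 5) (nat_lit 7) (nat_lit 4) (nat_lit 400) (nat_lit 346) (nat_lit 154))) (XT.nd (nat_lit 78) (nat_lit 0) (nat_lit 0) (XT.lf (nat_lit 0) (nat_lit 3287597400) (nat_lit 152) (nat_lit 514632371506) (nat_lit 76) (nat_lit 2285183011478) (nat_lit 5) (nat_lit 5) (nat_lit 7) (nat_lit 5) (nat_lit 6) (nat_lit 4) (nat_lit 401)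 (nat_lit 346) (nat_lit 153)) (XT.lf (nat_lit 0) (nat_lit 238861396602) (nat_lit 152) (nat_lit 24638882845) (nat_lit 76) (nat_lit 2741818281532) (nat_lit 5) (nat_lit 5) (nat_lit 7) (nat_lit 5) (nat_lit 6) (nat_lit 4) (nat_lit 402) (nat_lit 346) (nat_lit 152)))) (XT.nd (nat_lit 156) (nat_lit 0) (nat_lit 0) (XT.nd (nat_lit 78) (nat_lit 0) (nat_lit 0) (XT.lf (nat_lit 0) (nat_lit 506657501314) (nat_lit 152) (nat_lit 2692169421837) (nat_lit 0) (nat_lit 23814352752) (nat_lit 4) (nat_lit 5) (nat_lit 6) (nat_lit 4) (nat_lit 4) (nat_lit 4) (nat_lit 403) (nat_lit 346) (nat_lit 151)) (XT.lf (nat_lit 0) (nat_lit 803412612373) (nat_lit 152) (nat_lit 2332764917266) (nat_lit 0) (nat_lit 320569452951) (nat_lit 4) (nat_lit 5) (nat_lit 6) (nat_lit 4) (nat_lit 4) (nat_lit 4) (nat_lit 404) (nat_lit 346) (nat_lit 150))) (XT.nd (nat_lit 78) (nat_lit 0) (nat_lit 0) (XT.lf (nat_lit 0) (nat_lit 1123908119544)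 (nat_lit 152) (nat_lit 1944608077227) (nat_lit 0) (nat_lit 641064950066) (nat_lit 4) (nat_lit 5) (nat_lit 6) (nat_lit 4) (nat_lit 4) (nat_lit 4) (nat_lit 405) (nat_lit 346) (nat_lit 149)) (XT.nd (nat_lit 42276) (nat_lit 0) (nat_lit 3420) (XT.lf (nat_lit 0) (nat_lit 1470043255463) (nat_lit 152) (nat_lit 1525398713039) (nat_lit 0) (nat_lit 987200076674) (nat_lit 4) (nat_lit 5) (nat_lit 6) (nat_lit 4) (nat_lit 4) (nat_lit 4) (nat_lit 406) (nat_lit 346) (nat_lit 148)) (XT.lf (nat_lit 0) (nat_lit 52432459083) (nat_lit 532) (nat_lit 11763960897) (nat_lit 532) (nat_lit 11763960897) (nat_lit 49) (nat_lit 3) (nat_lit 56) (nat_lit 3) (nat_lit 56) (nat_lit 5) (nat_lit 347) (nat_lit 347) (nat_lit 206))))))))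
noncomputable def xc216 : XT := (XT.nd (nat_lit 1326) (nat_lit 1140) (nat_lit 0) (XT.nd (nat_lit 624) (nat_lit 1216) (nat_lit 0) (XT.nd (nat_lit 312) (nat_lit 304) (nat_lit 0) (XT.nd (nat_lit 156) (nat_lit 0) (nat_lit 76) (XT.nd (nat_lit 78) (nat_lit 0) (nat_lit 76) (XT.lf (nat_lit 76) (nat_lit 49468124583) (nat_lit 0) (nat_lit 60783706697) (nat_lit 532) (nat_lit 47650369140) (nat_lit 50) (nat_lit 5) (nat_lit 49) (nat_lit 3) (nat_lit 56) (nat_lit 5) (nat_lit 348) (nat_lit 347) (nat_lit 205)) (XT.lf (nat_lit 0) (nat_lit 117023671665) (nat_lit 456) (nat_lit 34979896057) (nat_lit 532) (nat_lit 12282269169) (nat_lit 50) (nat_lit 5) (nat_lit 56) (nat_lit 5) (nat_lit 57) (nat_lit 5) (nat_lit 349) (nat_lit 347) (nat_lit 204))) (XT.nd (nat_lit 78) (nat_lit 0) (nat_lit 0) (XT.lf (nat_lit 76) (nat_lit 45023940006) (nat_lit 0) (nat_lit 81974701472) (nat_lit 532) (nat_lit 43968612825) (nat_lit 51)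 (nat_lit 5) (nat_lit 50) (nat_lit 5) (nat_lit 57) (nat_lit 5) (nat_lit 350) (nat_lit 347) (nat_lit 203)) (XT.lf (nat_lit 76) (nat_lit 133417264348) (nat_lit 0) (nat_lit 5310528843) (nat_lit 532) (nat_lit 39378897731) (nat_lit 51) (nat_lit 5) (nat_lit 50) (nat_lit 5) (nat_lit 57) (nat_lit 5) (nat_lit 351) (nat_lit 347) (nat_lit 202)))) (XT.nd (nat_lit 156) (nat_lit 456) (nat_lit 0) (XT.nd (nat_lit 78) (nat_lit 0) (nat_lit 0) (XT.lf (nat_lit 76) (nat_lit 43370623840) (nat_lit 0) (nat_lit 110931067067) (nat_lit 532) (nat_lit 31283078968) (nat_lit 52) (nat_lit 5) (nat_lit 51) (nat_lit 5) (nat_lit 58) (nat_lit 5) (nat_lit 352) (nat_lit 347) (nat_lit 201)) (XT.lf (nat_lit 76) (nat_lit 140871646734) (nat_lit 0) (nat_lit 31605987734) (nat_lit 532) (nat_lit 21074970434) (nat_lit 52) (nat_lit 5) (nat_lit 51) (nat_lit 5) (nat_lit 58) (nat_lit 5) (nat_lit 353) (nat_lit 347) (nat_lit 200))) (XT.nd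 (nat_lit 78) (nat_lit 76) (nat_lit 0) (XT.lf (nat_lit 0) (nat_lit 44963721574) (nat_lit 456) (nat_lit 149525395078) (nat_lit 532) (nat_lit 7478233469) (nat_lit 46) (nat_lit 5) (nat_lit 52) (nat_lit 5) (nat_lit 53) (nat_lit 5) (nat_lit 354) (nat_lit 347) (nat_lit 199)) (XT.lf (nat_lit 0) (nat_lit 9144317712) (nat_lit 532) (nat_lit 58555882316) (nat_lit 76) (nat_lit 143157325629) (nat_lit 45) (nat_lit 5) (nat_lit 52) (nat_lit 5) (nat_lit 46) (nat_lit 5) (nat_lit 355) (nat_lit 347) (nat_lit 198))))) (XT.nd (nat_lit 312) (nat_lit 684) (nat_lit 0) (XT.nd (nat_lit 156) (nat_lit 228) (nat_lit 0) (XT.nd (nat_lit 78) (nat_lit 0) (nat_lit 0) (XT.lf (nat_lit 0) (nat_lit 28430343207) (nat_lit 380) (nat_lit 170802093028) (nat_lit 76) (nat_lit 21071925040) (nat_lit 41) (nat_lit 5) (nat_lit 46) (nat_lit 5) (nat_lit 42) (nat_lit 5) (nat_lit 356) (nat_lit 347) (nat_lit 197)) (XT.lf (nat_lit 0) (nat_lit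 52660148240) (nat_lit 380) (nat_lit 62643863629) (nat_lit 76) (nat_lit 114930860399) (nat_lit 41) (nat_lit 5) (nat_lit 46) (nat_lit 5) (nat_lit 42) (nat_lit 5) (nat_lit 357) (nat_lit 347) (nat_lit 196))) (XT.nd (nat_lit 78) (nat_lit 0) (nat_lit 0) (XT.lf (nat_lit 0) (nat_lit 57019202160) (nat_lit 228) (nat_lit 23180304416) (nat_lit 304) (nat_lit 160650624353) (nat_lit 38) (nat_lit 5) (nat_lit 41) (nat_lit 5) (nat_lit 42) (nat_lit 5) (nat_lit 358) (nat_lit 347) (nat_lit 195)) (XT.lf (nat_lit 0) (nat_lit 113534495194) (nat_lit 304) (nat_lit 64239646810) (nat_lit 76) (nat_lit 74253070029) (nat_lit 38) (nat_lit 5) (nat_lit 42) (nat_lit 5) (nat_lit 39) (nat_lit 5) (nat_lit 359) (nat_lit 347) (nat_lit 194)))) (XT.nd (nat_lit 156) (nat_lit 456) (nat_lit 0) (XT.nd (nat_lit 78) (nat_lit 0) (nat_lit 0) (XT.lf (nat_lit 0) (nat_lit 67703506923) (nat_lit 228) (nat_lit 84063005474) (nat_lit 304) (nat_lit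 112153529127) (nat_lit 35) (nat_lit 5) (nat_lit 38) (nat_lit 5) (nat_lit 39) (nat_lit 5) (nat_lit 360) (nat_lit 347) (nat_lit 193)) (XT.lf (nat_lit 0) (nat_lit 195271354484) (nat_lit 304) (nat_lit 63226418554) (nat_lit 76) (nat_lit 18089383494) (nat_lit 35) (nat_lit 5) (nat_lit 39) (nat_lit 5) (nat_lit 36) (nat_lit 5) (nat_lit 361) (nat_lit 347) (nat_lit 192))) (XT.nd (nat_lit 78) (nat_lit 304) (nat_lit 0) (XT.lf (nat_lit 0) (nat_lit 82338199530) (nat_lit 152) (nat_lit 164081961886) (nat_lit 228) (nat_lit 43514393348) (nat_lit 33) (nat_lit 5) (nat_lit 35) (nat_lit 5) (nat_lit 36) (nat_lit 5) (nat_lit 362) (nat_lit 347) (nat_lit 191)) (XT.nd (nat_lit 78) (nat_lit 304) (nat_lit 0) (XT.lf (nat_lit 0) (nat_lit 243143590351) (nat_lit 152) (nat_lit 60245897008) (nat_lit 228) (nat_lit 821968543) (nat_lit 33) (nat_lit 5) (nat_lit 35) (nat_lit 5) (nat_lit 36) (nat_lit 5) (nat_lit 363) (nat_lit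 347) (nat_lit 190)) (XT.lf (nat_lit 0) (nat_lit 46792718325) (nat_lit 304) (nat_lit 219534605296) (nat_lit 76) (nat_lit 52914275646) (nat_lit 29) (nat_lit 5) (nat_lit 33) (nat_lit 5) (nat_lit 30) (nat_lit 5) (nat_lit 364) (nat_lit 347) (nat_lit 189))))))) (XT.nd (nat_lit 624) (nat_lit 532) (nat_lit 0) (XT.nd (nat_lit 312) (nat_lit 304) (nat_lit 0) (XT.nd (nat_lit 156) (nat_lit 152) (nat_lit 0) (XT.nd (nat_lit 78) (nat_lit 152) (nat_lit 0) (XT.lf (nat_lit 0) (nat_lit 101449974584) (nat_lit 304) (nat_lit 60153437436) (nat_lit 76) (nat_lit 173606810090) (nat_lit 29) (nat_lit 5) (nat_lit 33) (nat_lit 5) (nat_lit 30) (nat_lit 5) (nat_lit 365) (nat_lit 347) (nat_lit 188)) (XT.lf (nat_lit 0) (nat_lit 117874663922) (nat_lit 152) (nat_lit 45439944263) (nat_lit 228) (nat_lit 188914942997) (nat_lit 27) (nat_lit 5) (nat_lit 29) (nat_lit 5) (nat_lit 30) (nat_lit 5) (nat_lit 366) (nat_lit 347) (nat_lit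 187))) (XT.nd (nat_lit 78) (nat_lit 152) (nat_lit 0) (XT.lf (nat_lit 0) (nat_lit 233740145996) (nat_lit 228) (nat_lit 58880109533) (nat_lit 76) (nat_lit 77701232511) (nat_lit 27) (nat_lit 5) (nat_lit 30) (nat_lit 5) (nat_lit 28) (nat_lit 5) (nat_lit 367) (nat_lit 347) (nat_lit 186)) (XT.lf (nat_lit 0) (nat_lit 136268997942) (nat_lit 152) (nat_lit 177988177674) (nat_lit 228) (nat_lit 75247008455) (nat_lit 25) (nat_lit 5) (nat_lit 27) (nat_lit 5) (nat_lit 28) (nat_lit 5) (nat_lit 368) (nat_lit 347) (nat_lit 185)))) (XT.nd (nat_lit 156) (nat_lit 152) (nat_lit 0) (XT.nd (nat_lit 78) (nat_lit 152) (nat_lit 0) (XT.lf (nat_lit 0) (nat_lit 350378479742) (nat_lit 152) (nat_lit 52446895463) (nat_lit 228) (nat_lit 7267336092) (nat_lit 25) (nat_lit 5) (nat_lit 27) (nat_lit 5) (nat_lit 28) (nat_lit 5) (nat_lit 369) (nat_lit 347) (nat_lit 184)) (XT.lf (nat_lit 0) (nat_lit 68718588848) (nat_lit 152)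 (nat_lit 278564984620) (nat_lit 76) (nat_lit 84447312825) (nat_lit 23) (nat_lit 5) (nat_lit 25) (nat_lit 5) (nat_lit 24) (nat_lit 5) (nat_lit 370) (nat_lit 347) (nat_lit 183))) (XT.nd (nat_lit 78) (nat_lit 152) (nat_lit 0) (XT.lf (nat_lit 0) (nat_lit 153428047297) (nat_lit 152) (nat_lit 70090595284) (nat_lit 76) (nat_lit 231323389089) (nat_lit 23) (nat_lit 5) (nat_lit 25) (nat_lit 5) (nat_lit 24) (nat_lit 5) (nat_lit 371) (nat_lit 347) (nat_lit 182)) (XT.lf (nat_lit 0) (nat_lit 163226909193) (nat_lit 152) (nat_lit 85612896615) (nat_lit 228) (nat_lit 230648219488) (nat_lit 21) (nat_lit 5) (nat_lit 23) (nat_lit 5) (nat_lit 24) (nat_lit 5) (nat_lit 372) (nat_lit 347) (nat_lit 181))))) (XT.nd (nat_lit 312) (nat_lit 228) (nat_lit 0) (XT.nd (nat_lit 156) (nat_lit 228) (nat_lit 0) (XT.nd (nat_lit 78) (nat_lit 76) (nat_lit 0) (XT.lf (nat_lit 0) (nat_lit 355373591800) (nat_lit 228) (nat_lit 88329318613)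 (nat_lit 76) (nat_lit 62123661135) (nat_lit 21) (nat_lit 5) (nat_lit 24) (nat_lit 5) (nat_lit 22) (nat_lit 4) (nat_lit 373) (nat_lit 347) (nat_lit 180)) (XT.lf (nat_lit 0) (nat_lit 163807526299) (nat_lit 76) (nat_lit 312785779677) (nat_lit 152) (nat_lit 57185837577) (nat_lit 20) (nat_lit 5) (nat_lit 21) (nat_lit 5) (nat_lit 22) (nat_lit 4) (nat_lit 374) (nat_lit 347) (nat_lit 179))) (XT.nd (nat_lit 78) (nat_lit 152) (nat_lit 0) (XT.lf (nat_lit 0) (nat_lit 43842243758) (nat_lit 152) (nat_lit 123746062623) (nat_lit 76) (nat_lit 396097618905) (nat_lit 19) (nat_lit 5) (nat_lit 21) (nat_lit 5) (nat_lit 20) (nat_lit 5) (nat_lit 375) (nat_lit 347) (nat_lit 178)) (XT.lf (nat_lit 0) (nat_lit 148100692531) (nat_lit 152) (nat_lit 5324127536) (nat_lit 228) (nat_lit 442156660311) (nat_lit 17) (nat_lit 5) (nat_lit 19) (nat_lit 5) (nat_lit 20) (nat_lit 5) (nat_lit 376) (nat_lit 347) (nat_lit 177))))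 (XT.nd (nat_lit 156) (nat_lit 152) (nat_lit 0) (XT.nd (nat_lit 78) (nat_lit 76) (nat_lit 0) (XT.lf (nat_lit 0) (nat_lit 279331874095) (nat_lit 228) (nat_lit 185199853679) (nat_lit 76) (nat_lit 164892322431) (nat_lit 17) (nat_lit 5) (nat_lit 20) (nat_lit 5) (nat_lit 18) (nat_lit 4) (nat_lit 377) (nat_lit 347) (nat_lit 176)) (XT.lf (nat_lit 0) (nat_lit 103081744592) (nat_lit 76) (nat_lit 314847104289) (nat_lit 152) (nat_lit 247835788275) (nat_lit 16) (nat_lit 5) (nat_lit 17) (nat_lit 5) (nat_lit 18) (nat_lit 4) (nat_lit 378) (nat_lit 347) (nat_lit 175))) (XT.nd (nat_lit 78) (nat_lit 152) (nat_lit 0) (XT.lf (nat_lit 0) (nat_lit 424958264781) (nat_lit 76) (nat_lit 147718959762) (nat_lit 152) (nat_lit 131930155135) (nat_lit 16) (nat_lit 5) (nat_lit 17) (nat_lit 5) (nat_lit 18) (nat_lit 4) (nat_lit 379) (nat_lit 347) (nat_lit 174)) (XT.nd (nat_lit 78) (nat_lit 76) (nat_lit 0) (XT.lf (nat_lit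 0) (nat_lit 26567974159) (nat_lit 76) (nat_lit 714664756282) (nat_lit 76) (nat_lit 5210630390) (nat_lit 15) (nat_lit 4) (nat_lit 16) (nat_lit 5) (nat_lit 16) (nat_lit 4) (nat_lit 380) (nat_lit 347) (nat_lit 173)) (XT.lf (nat_lit 0) (nat_lit 136742479797) (nat_lit 152) (nat_lit 425029848238) (nat_lit 76) (nat_lit 228666083453) (nat_lit 14) (nat_lit 5) (nat_lit 16) (nat_lit 5) (nat_lit 15) (nat_lit 4) (nat_lit 381) (nat_lit 347) (nat_lit 172))))))))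
noncomputable def xc217 : XT := (XT.nd (nat_lit 1326) (nat_lit 228) (nat_lit 0) (XT.nd (nat_lit 624) (nat_lit 228) (nat_lit 0) (XT.nd (nat_lit 312) (nat_lit 152) (nat_lit 0) (XT.nd (nat_lit 156) (nat_lit 76) (nat_lit 0) (XT.nd (nat_lit 78) (nat_lit 76) (nat_lit 0) (XT.lf (nat_lit 0) (nat_lit 289770286678) (nat_lit 152) (nat_lit 106732084301) (nat_lit 76) (nat_lit 441439871388) (nat_lit 14) (nat_lit 5) (nat_lit 16) (nat_lit 5) (nat_lit 15) (nat_lit 4) (nat_lit 382) (nat_lit 347) (nat_lit 171)) (XT.lf (nat_lit 0) (nat_lit 249510979619) (nat_lit 76) (nat_lit 211530043976) (nat_lit 152) (nat_lit 427725299716) (nat_lit 13) (nat_lit 5) (nat_lit 14) (nat_lit 5) (nat_lit 15) (nat_lit 4) (nat_lit 383) (nat_lit 347) (nat_lit 170))) (XT.nd (nat_lit 78) (nat_lit 76) (nat_lit 0) (XT.lf (nat_lit 0) (nat_lit 640323367800) (nat_lit 76) (nat_lit 8608257693) (nat_lit 152) (nat_lit 294491248786) (nat_lit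 13) (nat_lit 5) (nat_lit 14) (nat_lit 5) (nat_lit 15) (nat_lit 4) (nat_lit 384) (nat_lit 347) (nat_lit 169)) (XT.lf (nat_lit 0) (nat_lit 57775214881) (nat_lit 76) (nat_lit 800531386759) (nat_lit 76) (nat_lit 143629097622) (nat_lit 12) (nat_lit 4) (nat_lit 13) (nat_lit 5) (nat_lit 13) (nat_lit 4) (nat_lit 385) (nat_lit 347) (nat_lit 168)))) (XT.nd (nat_lit 156) (nat_lit 76) (nat_lit 0) (XT.nd (nat_lit 78) (nat_lit 0) (nat_lit 0) (XT.lf (nat_lit 0) (nat_lit 27062546899) (nat_lit 152) (nat_lit 600612242204) (nat_lit 76) (nat_lit 436719537090) (nat_lit 11) (nat_lit 5) (nat_lit 13) (nat_lit 5) (nat_lit 12) (nat_lit 4) (nat_lit 386) (nat_lit 347) (nat_lit 167)) (XT.lf (nat_lit 0) (nat_lit 203649787792) (nat_lit 152) (nat_lit 233310828018) (nat_lit 76) (nat_lit 694590580082) (nat_lit 11) (nat_lit 5) (nat_lit 13) (nat_lit 5) (nat_lit 12) (nat_lit 4) (nat_lit 387) (nat_lit 347) (nat_lit 166)))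 (XT.nd (nat_lit 78) (nat_lit 0) (nat_lit 0) (XT.lf (nat_lit 0) (nat_lit 171977661545) (nat_lit 76) (nat_lit 226522382478) (nat_lit 152) (nat_lit 805249688278) (nat_lit 10) (nat_lit 5) (nat_lit 11) (nat_lit 5) (nat_lit 12) (nat_lit 4) (nat_lit 388) (nat_lit 347) (nat_lit 165)) (XT.lf (nat_lit 0) (nat_lit 615501172880) (nat_lit 152) (nat_lit 658439805682) (nat_lit 0) (nat_lit 7258144910) (nat_lit 10) (nat_lit 5) (nat_lit 12) (nat_lit 4) (nat_lit 10) (nat_lit 4) (nat_lit 389) (nat_lit 347) (nat_lit 164))))) (XT.nd (nat_lit 312) (nat_lit 76) (nat_lit 0) (XT.nd (nat_lit 156) (nat_lit 76) (nat_lit 0) (XT.nd (nat_lit 78) (nat_lit 76) (nat_lit 0) (XT.lf (nat_lit 0) (nat_lit 855746062056) (nat_lit 152) (nat_lit 261124710661) (nat_lit 0) (nat_lit 247502999636) (nat_lit 10) (nat_lit 5) (nat_lit 12) (nat_lit 4) (nat_lit 10) (nat_lit 4) (nat_lit 390) (nat_lit 347) (nat_lit 163)) (XT.lf (nat_lit 0)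 (nat_lit 176820837284) (nat_lit 76) (nat_lit 942642224327) (nat_lit 76) (nat_lit 334399130008) (nat_lit 9) (nat_lit 4) (nat_lit 10) (nat_lit 5) (nat_lit 10) (nat_lit 4) (nat_lit 391) (nat_lit 347) (nat_lit 162))) (XT.nd (nat_lit 78) (nat_lit 76) (nat_lit 0) (XT.lf (nat_lit 0) (nat_lit 664652374893) (nat_lit 76) (nat_lit 746764633223) (nat_lit 76) (nat_lit 138521509368) (nat_lit 9) (nat_lit 4) (nat_lit 10) (nat_lit 5) (nat_lit 10) (nat_lit 4) (nat_lit 392) (nat_lit 347) (nat_lit 161)) (XT.lf (nat_lit 0) (nat_lit 69373224489) (nat_lit 152) (nat_lit 463946844265) (nat_lit 76) (nat_lit 1120240379825) (nat_lit 8) (nat_lit 5) (nat_lit 10) (nat_lit 5) (nat_lit 9) (nat_lit 4) (nat_lit 393) (nat_lit 347) (nat_lit 160)))) (XT.nd (nat_lit 156) (nat_lit 0) (nat_lit 0) (XT.nd (nat_lit 78) (nat_lit 76) (nat_lit 0) (XT.lf (nat_lit 0) (nat_lit 286415755272) (nat_lit 152) (nat_lit 12498405558) (nat_lit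 76) (nat_lit 1466270138224) (nat_lit 8) (nat_lit 5) (nat_lit 10) (nat_lit 5) (nat_lit 9) (nat_lit 4) (nat_lit 394) (nat_lit 347) (nat_lit 159)) (XT.lf (nat_lit 0) (nat_lit 500081995946) (nat_lit 76) (nat_lit 32766655937) (nat_lit 152) (nat_lit 1351927248627) (nat_lit 7) (nat_lit 5) (nat_lit 8) (nat_lit 5) (nat_lit 9) (nat_lit 4) (nat_lit 395) (nat_lit 347) (nat_lit 158))) (XT.nd (nat_lit 78) (nat_lit 0) (nat_lit 0) (XT.lf (nat_lit 0) (nat_lit 805471647705) (nat_lit 152) (nat_lit 965661665506) (nat_lit 0) (nat_lit 242283479482) (nat_lit 7) (nat_lit 5) (nat_lit 9) (nat_lit 4) (nat_lit 7) (nat_lit 4) (nat_lit 396) (nat_lit 347) (nat_lit 157)) (XT.nd (nat_lit 78) (nat_lit 0) (nat_lit 0) (XT.lf (nat_lit 0) (nat_lit 1100755546200) (nat_lit 152) (nat_lit 513957965656) (nat_lit 0) (nat_lit 537567359364) (nat_lit 7) (nat_lit 5) (nat_lit 9) (nat_lit 4) (nat_lit 7) (nat_lit 4) (nat_lit 397) (nat_lit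 347) (nat_lit 156)) (XT.lf (nat_lit 0) (nat_lit 1419662139014) (nat_lit 152) (nat_lit 26118003485) (nat_lit 0) (nat_lit 856473934944) (nat_lit 7) (nat_lit 5) (nat_lit 9) (nat_lit 4) (nat_lit 7) (nat_lit 4) (nat_lit 398) (nat_lit 347) (nat_lit 155))))))) (XT.nd (nat_lit 42900) (nat_lit 0) (nat_lit 3116) (XT.nd (nat_lit 312) (nat_lit 76) (nat_lit 0) (XT.nd (nat_lit 156) (nat_lit 76) (nat_lit 0) (XT.nd (nat_lit 78) (nat_lit 0) (nat_lit 0) (XT.lf (nat_lit 0) (nat_lit 527117685976) (nat_lit 76) (nat_lit 1249640750041) (nat_lit 76) (nat_lit 686452530014) (nat_lit 6) (nat_lit 4) (nat_lit 7) (nat_lit 5) (nat_lit 7) (nat_lit 4) (nat_lit 399) (nat_lit 347) (nat_lit 154)) (XT.lf (nat_lit 0) (nat_lit 1126097554212) (nat_lit 76) (nat_lit 1037038979283) (nat_lit 76) (nat_lit 473850744481) (nat_lit 6) (nat_lit 4) (nat_lit 7) (nat_lit 5) (nat_lit 7) (nat_lit 4) (nat_lit 400) (nat_lit 347) (nat_lit 153)))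 (XT.nd (nat_lit 78) (nat_lit 76) (nat_lit 0) (XT.lf (nat_lit 0) (nat_lit 1772995783772) (nat_lit 76) (nat_lit 807429080381) (nat_lit 76) (nat_lit 244240831898) (nat_lit 6) (nat_lit 4) (nat_lit 7) (nat_lit 5) (nat_lit 7) (nat_lit 4) (nat_lit 401) (nat_lit 347) (nat_lit 152)) (XT.lf (nat_lit 0) (nat_lit 3550876217) (nat_lit 152) (nat_lit 555802438617) (nat_lit 76) (nat_lit 2467997882182) (nat_lit 5) (nat_lit 5) (nat_lit 7) (nat_lit 5) (nat_lit 6) (nat_lit 4) (nat_lit 402) (nat_lit 347) (nat_lit 151)))) (XT.nd (nat_lit 156) (nat_lit 0) (nat_lit 0) (XT.nd (nat_lit 78) (nat_lit 76) (nat_lit 0) (XT.lf (nat_lit 0) (nat_lit 257970559280) (nat_lit 152) (nat_lit 26609509576) (nat_lit 76) (nat_lit 2961163956819) (nat_lit 5) (nat_lit 5) (nat_lit 7) (nat_lit 5) (nat_lit 6) (nat_lit 4) (nat_lit 403) (nat_lit 347) (nat_lit 150)) (XT.lf (nat_lit 0) (nat_lit 547190350605) (nat_lit 152) (nat_lit 2907542489824)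 (nat_lit 0) (nat_lit 25719717513) (nat_lit 4) (nat_lit 5) (nat_lit 6) (nat_lit 4) (nat_lit 4) (nat_lit 4) (nat_lit 404) (nat_lit 347) (nat_lit 149))) (XT.nd (nat_lit 78) (nat_lit 0) (nat_lit 0) (XT.lf (nat_lit 0) (nat_lit 867685852091) (nat_lit 152) (nat_lit 2519385660869) (nat_lit 0) (nat_lit 346215209687) (nat_lit 4) (nat_lit 5) (nat_lit 6) (nat_lit 4) (nat_lit 4) (nat_lit 4) (nat_lit 405) (nat_lit 347) (nat_lit 148)) (XT.lf (nat_lit 0) (nat_lit 1213820982745) (nat_lit 152) (nat_lit 2100176306944) (nat_lit 0) (nat_lit 692350331720) (nat_lit 4) (nat_lit 5) (nat_lit 6) (nat_lit 4) (nat_lit 4) (nat_lit 4) (nat_lit 406) (nat_lit 347) (nat_lit 147))))) (XT.nd (nat_lit 312) (nat_lit 304) (nat_lit 0) (XT.nd (nat_lit 156) (nat_lit 0) (nat_lit 76) (XT.nd (nat_lit 78) (nat_lit 0) (nat_lit 0) (XT.lf (nat_lit 0) (nat_lit 56629599917) (nat_lit 532) (nat_lit 12703700781) (nat_lit 532) (nat_lit 12703700781)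 (nat_lit 49) (nat_lit 3) (nat_lit 56) (nat_lit 3) (nat_lit 56) (nat_lit 5) (nat_lit 348) (nat_lit 348) (nat_lit 204)) (XT.lf (nat_lit 76) (nat_lit 53428258803) (nat_lit 0) (nat_lit 65648494846) (nat_lit 532) (nat_lit 51457228998) (nat_lit 50) (nat_lit 5) (nat_lit 49) (nat_lit 3) (nat_lit 56) (nat_lit 5) (nat_lit 349) (nat_lit 348) (nat_lit 203))) (XT.nd (nat_lit 78) (nat_lit 0) (nat_lit 0) (XT.lf (nat_lit 0) (nat_lit 126389940919) (nat_lit 456) (nat_lit 37775391108) (nat_lit 532) (nat_lit 13263010904) (nat_lit 50) (nat_lit 5) (nat_lit 56) (nat_lit 5) (nat_lit 57) (nat_lit 5) (nat_lit 350) (nat_lit 348) (nat_lit 202)) (XT.lf (nat_lit 76) (nat_lit 48628678507) (nat_lit 0) (nat_lit 88533973598) (nat_lit 532) (nat_lit 47481642934) (nat_lit 51) (nat_lit 5) (nat_lit 50) (nat_lit 5) (nat_lit 57) (nat_lit 5) (nat_lit 351) (nat_lit 348) (nat_lit 201)))) (XT.nd (nat_lit 156) (nat_lit 380) (nat_lit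 0) (XT.nd (nat_lit 78) (nat_lit 0) (nat_lit 76) (XT.lf (nat_lit 76) (nat_lit 144093259664) (nat_lit 0) (nat_lit 5736571158) (nat_lit 532) (nat_lit 42525080922) (nat_lit 51) (nat_lit 5) (nat_lit 50) (nat_lit 5) (nat_lit 57) (nat_lit 5) (nat_lit 352) (nat_lit 348) (nat_lit 200)) (XT.lf (nat_lit 76) (nat_lit 46843156355) (nat_lit 0) (nat_lit 119806244074) (nat_lit 532) (nat_lit 33781856470) (nat_lit 52) (nat_lit 5) (nat_lit 51) (nat_lit 5) (nat_lit 58) (nat_lit 5) (nat_lit 353) (nat_lit 348) (nat_lit 199))) (XT.nd (nat_lit 78) (nat_lit 456) (nat_lit 0) (XT.lf (nat_lit 76) (nat_lit 152144047553) (nat_lit 0) (nat_lit 34135107161) (nat_lit 532) (nat_lit 22757385832) (nat_lit 52) (nat_lit 5) (nat_lit 51) (nat_lit 5) (nat_lit 58) (nat_lit 5) (nat_lit 354) (nat_lit 348) (nat_lit 198)) (XT.nd (nat_lit 78) (nat_lit 76) (nat_lit 0) (XT.lf (nat_lit 0) (nat_lit 48563701664) (nat_lit 456) (nat_lit 161487663722)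 (nat_lit 532) (nat_lit 8073115796) (nat_lit 46) (nat_lit 5) (nat_lit 52) (nat_lit 5) (nat_lit 53) (nat_lit 5) (nat_lit 355) (nat_lit 348) (nat_lit 197)) (XT.lf (nat_lit 0) (nat_lit 9878832991) (nat_lit 532) (nat_lit 63237521317) (nat_lit 76) (nat_lit 154609529471) (nat_lit 45) (nat_lit 5) (nat_lit 52) (nat_lit 5) (nat_lit 46) (nat_lit 5) (nat_lit 356) (nat_lit 348) (nat_lit 196))))))))
noncomputable def xc218 : XT := (XT.nd (nat_lit 1326) (nat_lit 836) (nat_lit 0) (XT.nd (nat_lit 624) (nat_lit 912) (nat_lit 0) (XT.nd (nat_lit 312) (nat_lit 380) (nat_lit 0) (XT.nd (nat_lit 156) (nat_lit 228) (nat_lit 0) (XT.nd (nat_lit 78) (nat_lit 0) (nat_lit 0) (XT.lf (nat_lit 0) (nat_lit 30707585557) (nat_lit 380) (nat_lit 184463268045) (nat_lit 76) (nat_lit 22757625512) (nat_lit 41) (nat_lit 5) (nat_lit 46) (nat_lit 5) (nat_lit 42) (nat_lit 5) (nat_lit 357) (nat_lit 348) (nat_lit 195)) (XT.lf (nat_lit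 0) (nat_lit 56875566482) (nat_lit 380) (nat_lit 67652601955) (nat_lit 76) (nat_lit 124125279665) (nat_lit 41) (nat_lit 5) (nat_lit 46) (nat_lit 5) (nat_lit 42) (nat_lit 5) (nat_lit 358) (nat_lit 348) (nat_lit 194))) (XT.nd (nat_lit 78) (nat_lit 0) (nat_lit 0) (XT.lf (nat_lit 0) (nat_lit 61583438952) (nat_lit 228) (nat_lit 25034506418) (nat_lit 304) (nat_lit 173499992739) (nat_lit 38) (nat_lit 5) (nat_lit 41) (nat_lit 5) (nat_lit 42) (nat_lit 5) (nat_lit 359) (nat_lit 348) (nat_lit 193)) (XT.lf (nat_lit 0) (nat_lit 122619554453) (nat_lit 304) (nat_lit 69376134697) (nat_lit 76) (nat_lit 80193511214) (nat_lit 38) (nat_lit 5) (nat_lit 42) (nat_lit 5) (nat_lit 39) (nat_lit 5) (nat_lit 360) (nat_lit 348) (nat_lit 192)))) (XT.nd (nat_lit 156) (nat_lit 152) (nat_lit 0) (XT.nd (nat_lit 78) (nat_lit 0) (nat_lit 0) (XT.lf (nat_lit 0) (nat_lit 73122403389) (nat_lit 228) (nat_lit 90787622212) (nat_lit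 304) (nat_lit 121123439552) (nat_lit 35) (nat_lit 5) (nat_lit 38) (nat_lit 5) (nat_lit 39) (nat_lit 5) (nat_lit 361) (nat_lit 348) (nat_lit 191)) (XT.lf (nat_lit 0) (nat_lit 210895102104) (nat_lit 304) (nat_lit 68281952950) (nat_lit 76) (nat_lit 19536906863) (nat_lit 35) (nat_lit 5) (nat_lit 39) (nat_lit 5) (nat_lit 36) (nat_lit 5) (nat_lit 362) (nat_lit 348) (nat_lit 190))) (XT.nd (nat_lit 78) (nat_lit 0) (nat_lit 0) (XT.lf (nat_lit 0) (nat_lit 88927769287) (nat_lit 152) (nat_lit 177207953704) (nat_lit 228) (nat_lit 46993436561) (nat_lit 33) (nat_lit 5) (nat_lit 35) (nat_lit 5) (nat_lit 36) (nat_lit 5) (nat_lit 363) (nat_lit 348) (nat_lit 189)) (XT.lf (nat_lit 0) (nat_lit 262597405167) (nat_lit 152) (nat_lit 65065045498) (nat_lit 228) (nat_lit 885773938) (nat_lit 33) (nat_lit 5) (nat_lit 35) (nat_lit 5) (nat_lit 36) (nat_lit 5) (nat_lit 364) (nat_lit 348) (nat_lit 188))))) (XT.nd (nat_lit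 312) (nat_lit 456) (nat_lit 0) (XT.nd (nat_lit 156) (nat_lit 152) (nat_lit 0) (XT.nd (nat_lit 78) (nat_lit 0) (nat_lit 0) (XT.lf (nat_lit 0) (nat_lit 50537924047) (nat_lit 304) (nat_lit 237094876190) (nat_lit 76) (nat_lit 57147980974) (nat_lit 29) (nat_lit 5) (nat_lit 33) (nat_lit 5) (nat_lit 30) (nat_lit 5) (nat_lit 365) (nat_lit 348) (nat_lit 187)) (XT.lf (nat_lit 0) (nat_lit 109567628343) (nat_lit 304) (nat_lit 64963399903) (nat_lit 76) (nat_lit 187495876449) (nat_lit 29) (nat_lit 5) (nat_lit 33) (nat_lit 5) (nat_lit 30) (nat_lit 5) (nat_lit 366) (nat_lit 348) (nat_lit 186))) (XT.nd (nat_lit 78) (nat_lit 0) (nat_lit 0) (XT.lf (nat_lit 0) (nat_lit 127306891019) (nat_lit 152) (nat_lit 49074473171) (nat_lit 228) (nat_lit 204026421581) (nat_lit 27) (nat_lit 5) (nat_lit 29) (nat_lit 5) (nat_lit 30) (nat_lit 5) (nat_lit 367) (nat_lit 348) (nat_lit 185)) (XT.lf (nat_lit 0) (nat_lit 252440842289)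 (nat_lit 228) (nat_lit 63588326206) (nat_lit 76) (nat_lit 83917917488) (nat_lit 27) (nat_lit 5) (nat_lit 30) (nat_lit 5) (nat_lit 28) (nat_lit 5) (nat_lit 368) (nat_lit 348) (nat_lit 184)))) (XT.nd (nat_lit 156) (nat_lit 304) (nat_lit 0) (XT.nd (nat_lit 78) (nat_lit 0) (nat_lit 0) (XT.lf (nat_lit 0) (nat_lit 147172654371) (nat_lit 152) (nat_lit 192226521321) (nat_lit 228) (nat_lit 81265226863) (nat_lit 25) (nat_lit 5) (nat_lit 27) (nat_lit 5) (nat_lit 28) (nat_lit 5) (nat_lit 369) (nat_lit 348) (nat_lit 183)) (XT.lf (nat_lit 0) (nat_lit 378410736448) (nat_lit 152) (nat_lit 56641989168) (nat_lit 228) (nat_lit 7847294954) (nat_lit 25) (nat_lit 5) (nat_lit 27) (nat_lit 5) (nat_lit 28) (nat_lit 5) (nat_lit 370) (nat_lit 348) (nat_lit 182))) (XT.nd (nat_lit 78) (nat_lit 152) (nat_lit 0) (XT.lf (nat_lit 0) (nat_lit 74217396876) (nat_lit 152) (nat_lit 300848094392) (nat_lit 76) (nat_lit 91203758540)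 (nat_lit 23) (nat_lit 5) (nat_lit 25) (nat_lit 5) (nat_lit 24) (nat_lit 5) (nat_lit 371) (nat_lit 348) (nat_lit 181)) (XT.nd (nat_lit 78) (nat_lit 152) (nat_lit 0) (XT.lf (nat_lit 0) (nat_lit 165703514156) (nat_lit 152) (nat_lit 75695908650) (nat_lit 76) (nat_lit 249829871966) (nat_lit 23) (nat_lit 5) (nat_lit 25) (nat_lit 5) (nat_lit 24) (nat_lit 5) (nat_lit 372) (nat_lit 348) (nat_lit 180)) (XT.lf (nat_lit 0) (nat_lit 176286947217) (nat_lit 152) (nat_lit 92461220874) (nat_lit 228) (nat_lit 249098803535) (nat_lit 21) (nat_lit 5) (nat_lit 23) (nat_lit 5) (nat_lit 24) (nat_lit 5) (nat_lit 373) (nat_lit 348) (nat_lit 179))))))) (XT.nd (nat_lit 624) (nat_lit 380) (nat_lit 0) (XT.nd (nat_lit 312) (nat_lit 152) (nat_lit 0) (XT.nd (nat_lit 156) (nat_lit 228) (nat_lit 0) (XT.nd (nat_lit 78) (nat_lit 76) (nat_lit 0) (XT.lf (nat_lit 0) (nat_lit 383804585471) (nat_lit 228) (nat_lit 95393845613)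 (nat_lit 76) (nat_lit 67094176322) (nat_lit 21) (nat_lit 5) (nat_lit 24) (nat_lit 5) (nat_lit 22) (nat_lit 4) (nat_lit 374) (nat_lit 348) (nat_lit 178)) (XT.lf (nat_lit 0) (nat_lit 176913900854) (nat_lit 76) (nat_lit 337807936603) (nat_lit 152) (nat_lit 61759550959) (nat_lit 20) (nat_lit 5) (nat_lit 21) (nat_lit 5) (nat_lit 22) (nat_lit 4) (nat_lit 375) (nat_lit 348) (nat_lit 177))) (XT.nd (nat_lit 78) (nat_lit 152) (nat_lit 0) (XT.lf (nat_lit 0) (nat_lit 47350637994) (nat_lit 152) (nat_lit 133644051959) (nat_lit 76) (nat_lit 427786027096) (nat_lit 19) (nat_lit 5) (nat_lit 21) (nat_lit 5) (nat_lit 20) (nat_lit 5) (nat_lit 376) (nat_lit 348) (nat_lit 176)) (XT.lf (nat_lit 0) (nat_lit 159950400679) (nat_lit 152) (nat_lit 5749384313) (nat_lit 228) (nat_lit 477528134471) (nat_lit 17) (nat_lit 5) (nat_lit 19) (nat_lit 5) (nat_lit 20) (nat_lit 5) (nat_lit 377) (nat_lit 348) (nat_lit 175))))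 (XT.nd (nat_lit 156) (nat_lit 76) (nat_lit 0) (XT.nd (nat_lit 78) (nat_lit 76) (nat_lit 0) (XT.lf (nat_lit 0) (nat_lit 301679345796) (nat_lit 228) (nat_lit 200014253182) (nat_lit 76) (nat_lit 178084300576) (nat_lit 17) (nat_lit 5) (nat_lit 20) (nat_lit 5) (nat_lit 18) (nat_lit 4) (nat_lit 378) (nat_lit 348) (nat_lit 174)) (XT.lf (nat_lit 0) (nat_lit 111329832728) (nat_lit 76) (nat_lit 340034214800) (nat_lit 152) (nat_lit 267661688484) (nat_lit 16) (nat_lit 5) (nat_lit 17) (nat_lit 5) (nat_lit 18) (nat_lit 4) (nat_lit 379) (nat_lit 348) (nat_lit 173))) (XT.nd (nat_lit 78) (nat_lit 76) (nat_lit 0) (XT.lf (nat_lit 0) (nat_lit 458956359823) (nat_lit 76) (nat_lit 159535867439) (nat_lit 152) (nat_lit 142483676015) (nat_lit 16) (nat_lit 5) (nat_lit 17) (nat_lit 5) (nat_lit 18) (nat_lit 4) (nat_lit 380) (nat_lit 348) (nat_lit 172)) (XT.lf (nat_lit 0) (nat_lit 28694860457) (nat_lit 76) (nat_lit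 771837300479) (nat_lit 76) (nat_lit 5626603061) (nat_lit 15) (nat_lit 4) (nat_lit 16) (nat_lit 5) (nat_lit 16) (nat_lit 4) (nat_lit 381) (nat_lit 348) (nat_lit 171))))) (XT.nd (nat_lit 312) (nat_lit 228) (nat_lit 0) (XT.nd (nat_lit 156) (nat_lit 76) (nat_lit 0) (XT.nd (nat_lit 78) (nat_lit 0) (nat_lit 0) (XT.lf (nat_lit 0) (nat_lit 147682650265) (nat_lit 152) (nat_lit 459030853731) (nat_lit 76) (nat_lit 246959918014) (nat_lit 14) (nat_lit 5) (nat_lit 16) (nat_lit 5) (nat_lit 15) (nat_lit 4) (nat_lit 382) (nat_lit 348) (nat_lit 170)) (XT.lf (nat_lit 0) (nat_lit 312952624505) (nat_lit 152) (nat_lit 115269371077) (nat_lit 76) (nat_lit 476755568400) (nat_lit 14) (nat_lit 5) (nat_lit 16) (nat_lit 5) (nat_lit 15) (nat_lit 4) (nat_lit 383) (nat_lit 348) (nat_lit 169))) (XT.nd (nat_lit 78) (nat_lit 0) (nat_lit 0) (XT.lf (nat_lit 0) (nat_lit 269473105553) (nat_lit 76) (nat_lit 228451891872) (nat_lit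 152) (nat_lit 461942575856) (nat_lit 13) (nat_lit 5) (nat_lit 14) (nat_lit 5) (nat_lit 15) (nat_lit 4) (nat_lit 384) (nat_lit 348) (nat_lit 168)) (XT.lf (nat_lit 0) (nat_lit 691550392376) (nat_lit 76) (nat_lit 9296403843) (nat_lit 152) (nat_lit 318049856246) (nat_lit 13) (nat_lit 5) (nat_lit 14) (nat_lit 5) (nat_lit 15) (nat_lit 4) (nat_lit 385) (nat_lit 348) (nat_lit 167)))) (XT.nd (nat_lit 156) (nat_lit 76) (nat_lit 0) (XT.nd (nat_lit 78) (nat_lit 76) (nat_lit 0) (XT.lf (nat_lit 0) (nat_lit 62398396365) (nat_lit 76) (nat_lit 864573366093) (nat_lit 76) (nat_lit 155118741667) (nat_lit 12) (nat_lit 4) (nat_lit 13) (nat_lit 5) (nat_lit 13) (nat_lit 4) (nat_lit 386) (nat_lit 348) (nat_lit 166)) (XT.lf (nat_lit 0) (nat_lit 29228152096) (nat_lit 152) (nat_lit 648660111463) (nat_lit 76) (nat_lit 471657560217) (nat_lit 11) (nat_lit 5) (nat_lit 13) (nat_lit 5) (nat_lit 12) (nat_lit 4) (nat_lit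 387) (nat_lit 348) (nat_lit 165))) (XT.nd (nat_lit 78) (nat_lit 76) (nat_lit 0) (XT.lf (nat_lit 0) (nat_lit 219942327708) (nat_lit 152) (nat_lit 251974666373) (nat_lit 76) (nat_lit 750158252563) (nat_lit 11) (nat_lit 5) (nat_lit 13) (nat_lit 5) (nat_lit 12) (nat_lit 4) (nat_lit 388) (nat_lit 348) (nat_lit 164)) (XT.nd (nat_lit 78) (nat_lit 0) (nat_lit 0) (XT.lf (nat_lit 0) (nat_lit 185736876333) (nat_lit 76) (nat_lit 244643710948) (nat_lit 152) (nat_lit 869669080085) (nat_lit 10) (nat_lit 5) (nat_lit 11) (nat_lit 5) (nat_lit 12) (nat_lit 4) (nat_lit 389) (nat_lit 348) (nat_lit 163)) (XT.lf (nat_lit 0) (nat_lit 664741776757) (nat_lit 152) (nat_lit 711114032480) (nat_lit 0) (nat_lit 7839202994) (nat_lit 10) (nat_lit 5) (nat_lit 12) (nat_lit 4) (nat_lit 10) (nat_lit 4) (nat_lit 390) (nat_lit 348) (nat_lit 162))))))))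
noncomputable def xc219 : XT := (XT.nd (nat_lit 43680) (nat_lit 0) (nat_lit 1900) (XT.nd (nat_lit 624) (nat_lit 228) (nat_lit 0) (XT.nd (nat_lit 312) (nat_lit 76) (nat_lit 0) (XT.nd (nat_lit 156) (nat_lit 76) (nat_lit 0) (XT.nd (nat_lit 78) (nat_lit 76) (nat_lit 0) (XT.lf (nat_lit 0) (nat_lit 924206219286) (nat_lit 152) (nat_lit 282013800795) (nat_lit 0) (nat_lit 267303615987) (nat_lit 10) (nat_lit 5) (nat_lit 12) (nat_lit 4) (nat_lit 10) (nat_lit 4) (nat_lit 391) (nat_lit 348) (nat_lit 161)) (XT.lf (nat_lit 0) (nat_lit 190967368537) (nat_lit 76) (nat_lit 1018053196072) (nat_lit 76) (nat_lit 361150565425) (nat_lit 9) (nat_lit 4) (nat_lit 10) (nat_lit 5) (nat_lit 10) (nat_lit 4) (nat_lit 392) (nat_lit 348) (nat_lit 160))) (XT.nd (nat_lit 78) (nat_lit 76) (nat_lit 0) (XT.lf (nat_lit 0) (nat_lit 717825365135) (nat_lit 76) (nat_lit 806505427768) (nat_lit 76) (nat_lit 149602771799) (nat_lit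 9) (nat_lit 4) (nat_lit 10) (nat_lit 5) (nat_lit 10) (nat_lit 4) (nat_lit 393) (nat_lit 348) (nat_lit 159)) (XT.lf (nat_lit 0) (nat_lit 74923485588) (nat_lit 152) (nat_lit 501061829390) (nat_lit 76) (nat_lit 1209859937021) (nat_lit 8) (nat_lit 5) (nat_lit 10) (nat_lit 5) (nat_lit 9) (nat_lit 4) (nat_lit 394) (nat_lit 348) (nat_lit 158)))) (XT.nd (nat_lit 156) (nat_lit 0) (nat_lit 0) (XT.nd (nat_lit 78) (nat_lit 76) (nat_lit 0) (XT.lf (nat_lit 0) (nat_lit 309329388972) (nat_lit 152) (nat_lit 13497572063) (nat_lit 76) (nat_lit 1583572051883) (nat_lit 8) (nat_lit 5) (nat_lit 10) (nat_lit 5) (nat_lit 9) (nat_lit 4) (nat_lit 395) (nat_lit 348) (nat_lit 157)) (XT.lf (nat_lit 0) (nat_lit 540089243690) (nat_lit 76) (nat_lit 35387662519) (nat_lit 152) (nat_lit 1460081037183) (nat_lit 7) (nat_lit 5) (nat_lit 8) (nat_lit 5) (nat_lit 9) (nat_lit 4) (nat_lit 396) (nat_lit 348) (nat_lit 156))) (XT.nd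 (nat_lit 78) (nat_lit 0) (nat_lit 0) (XT.lf (nat_lit 0) (nat_lit 869909722127) (nat_lit 152) (nat_lit 1042913941905) (nat_lit 0) (nat_lit 261666444498) (nat_lit 7) (nat_lit 5) (nat_lit 9) (nat_lit 4) (nat_lit 7) (nat_lit 4) (nat_lit 397) (nat_lit 348) (nat_lit 155)) (XT.lf (nat_lit 0) (nat_lit 1188816307123) (nat_lit 152) (nat_lit 555073994722) (nat_lit 0) (nat_lit 580573013537) (nat_lit 7) (nat_lit 5) (nat_lit 9) (nat_lit 4) (nat_lit 7) (nat_lit 4) (nat_lit 398) (nat_lit 348) (nat_lit 154))))) (XT.nd (nat_lit 312) (nat_lit 152) (nat_lit 0) (XT.nd (nat_lit 156) (nat_lit 0) (nat_lit 0) (XT.nd (nat_lit 78) (nat_lit 76) (nat_lit 0) (XT.lf (nat_lit 0) (nat_lit 1533235403864) (nat_lit 152) (nat_lit 28206880628) (nat_lit 0) (nat_lit 924992095502) (nat_lit 7) (nat_lit 5) (nat_lit 9) (nat_lit 4) (nat_lit 7) (nat_lit 4) (nat_lit 399) (nat_lit 348) (nat_lit 153)) (XT.lf (nat_lit 0) (nat_lit 569287649733)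 (nat_lit 76) (nat_lit 1349611746336) (nat_lit 76) (nat_lit 741368424294) (nat_lit 6) (nat_lit 4) (nat_lit 7) (nat_lit 5) (nat_lit 7) (nat_lit 4) (nat_lit 400) (nat_lit 348) (nat_lit 152))) (XT.nd (nat_lit 78) (nat_lit 0) (nat_lit 0) (XT.lf (nat_lit 0) (nat_lit 1216185866770) (nat_lit 76) (nat_lit 1120001853452) (nat_lit 76) (nat_lit 511758518742) (nat_lit 6) (nat_lit 4) (nat_lit 7) (nat_lit 5) (nat_lit 7) (nat_lit 4) (nat_lit 401) (nat_lit 348) (nat_lit 151)) (XT.lf (nat_lit 0) (nat_lit 1914835917049) (nat_lit 76) (nat_lit 872023180725) (nat_lit 76) (nat_lit 263779834286) (nat_lit 6) (nat_lit 4) (nat_lit 7) (nat_lit 5) (nat_lit 7) (nat_lit 4) (nat_lit 402) (nat_lit 348) (nat_lit 150)))) (XT.nd (nat_lit 156) (nat_lit 76) (nat_lit 0) (XT.nd (nat_lit 78) (nat_lit 0) (nat_lit 0) (XT.lf (nat_lit 0) (nat_lit 3835178675) (nat_lit 152) (nat_lit 600266185653) (nat_lit 76) (nat_lit 2665437909761)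 (nat_lit 5) (nat_lit 5) (nat_lit 7) (nat_lit 5) (nat_lit 6) (nat_lit 4) (nat_lit 403) (nat_lit 348) (nat_lit 149)) (XT.lf (nat_lit 0) (nat_lit 278608419171) (nat_lit 152) (nat_lit 28737855478) (nat_lit 76) (nat_lit 3198057255776) (nat_lit 5) (nat_lit 5) (nat_lit 7) (nat_lit 5) (nat_lit 6) (nat_lit 4) (nat_lit 404) (nat_lit 348) (nat_lit 148))) (XT.nd (nat_lit 78) (nat_lit 0) (nat_lit 0) (XT.lf (nat_lit 0) (nat_lit 590965792290) (nat_lit 152) (nat_lit 3140145472548) (nat_lit 0) (nat_lit 27777480563) (nat_lit 4) (nat_lit 5) (nat_lit 6) (nat_lit 4) (nat_lit 4) (nat_lit 4) (nat_lit 405) (nat_lit 348) (nat_lit 147)) (XT.nd (nat_lit 42432) (nat_lit 0) (nat_lit 3420) (XT.lf (nat_lit 0) (nat_lit 937100918070) (nat_lit 152) (nat_lit 2720936128126) (nat_lit 0) (nat_lit 373912598359) (nat_lit 4) (nat_lit 5) (nat_lit 6) (nat_lit 4) (nat_lit 4) (nat_lit 4) (nat_lit 406) (nat_lit 348) (nat_lit 146))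 (XT.lf (nat_lit 0) (nat_lit 61162149073) (nat_lit 532) (nat_lit 13718816299) (nat_lit 532) (nat_lit 13718816299) (nat_lit 49) (nat_lit 3) (nat_lit 56) (nat_lit 3) (nat_lit 56) (nat_lit 5) (nat_lit 349) (nat_lit 349) (nat_lit 202))))))) (XT.nd (nat_lit 702) (nat_lit 912) (nat_lit 0) (XT.nd (nat_lit 312) (nat_lit 608) (nat_lit 0) (XT.nd (nat_lit 156) (nat_lit 0) (nat_lit 76) (XT.nd (nat_lit 78) (nat_lit 0) (nat_lit 76) (XT.lf (nat_lit 76) (nat_lit 57704820823) (nat_lit 0) (nat_lit 70902167654) (nat_lit 532) (nat_lit 55569375155) (nat_lit 50) (nat_lit 5) (nat_lit 49) (nat_lit 3) (nat_lit 56) (nat_lit 5) (nat_lit 350) (nat_lit 349) (nat_lit 201)) (XT.lf (nat_lit 0) (nat_lit 136504887497) (nat_lit 456) (nat_lit 40794939000) (nat_lit 532) (nat_lit 14322474446) (nat_lit 50) (nat_lit 5) (nat_lit 56) (nat_lit 5) (nat_lit 57) (nat_lit 5) (nat_lit 351) (nat_lit 349) (nat_lit 200))) (XT.nd (nat_lit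 78) (nat_lit 0) (nat_lit 0) (XT.lf (nat_lit 76) (nat_lit 52521393314) (nat_lit 0) (nat_lit 95617802604) (nat_lit 532) (nat_lit 51276351566) (nat_lit 51) (nat_lit 5) (nat_lit 50) (nat_lit 5) (nat_lit 57) (nat_lit 5) (nat_lit 352) (nat_lit 349) (nat_lit 199)) (XT.lf (nat_lit 76) (nat_lit 155622961664) (nat_lit 0) (nat_lit 6196525664) (nat_lit 532) (nat_lit 45923547763) (nat_lit 51) (nat_lit 5) (nat_lit 50) (nat_lit 5) (nat_lit 57) (nat_lit 5) (nat_lit 353) (nat_lit 349) (nat_lit 198)))) (XT.nd (nat_lit 156) (nat_lit 760) (nat_lit 0) (XT.nd (nat_lit 78) (nat_lit 0) (nat_lit 0) (XT.lf (nat_lit 76) (nat_lit 50593080234) (nat_lit 0) (nat_lit 129391336570) (nat_lit 532) (nat_lit 36481088102) (nat_lit 52) (nat_lit 5) (nat_lit 51) (nat_lit 5) (nat_lit 58) (nat_lit 5) (nat_lit 354) (nat_lit 349) (nat_lit 197)) (XT.lf (nat_lit 76) (nat_lit 164317859664) (nat_lit 0) (nat_lit 36866464781) (nat_lit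 532) (nat_lit 24574905508) (nat_lit 52) (nat_lit 5) (nat_lit 51) (nat_lit 5) (nat_lit 58) (nat_lit 5) (nat_lit 355) (nat_lit 349) (nat_lit 196))) (XT.nd (nat_lit 78) (nat_lit 380) (nat_lit 0) (XT.lf (nat_lit 0) (nat_lit 52451268959) (nat_lit 456) (nat_lit 174406880042) (nat_lit 532) (nat_lit 8716070383) (nat_lit 46) (nat_lit 5) (nat_lit 52) (nat_lit 5) (nat_lit 53) (nat_lit 5) (nat_lit 356) (nat_lit 349) (nat_lit 195)) (XT.nd (nat_lit 78) (nat_lit 304) (nat_lit 0) (XT.lf (nat_lit 0) (nat_lit 10671685810) (nat_lit 532) (nat_lit 68294095395) (nat_lit 76) (nat_lit 166977964146) (nat_lit 45) (nat_lit 5) (nat_lit 52) (nat_lit 5) (nat_lit 46) (nat_lit 5) (nat_lit 357) (nat_lit 349) (nat_lit 194)) (XT.lf (nat_lit 0) (nat_lit 33166605719) (nat_lit 380) (nat_lit 199217763965) (nat_lit 76) (nat_lit 24578189659) (nat_lit 41) (nat_lit 5) (nat_lit 46) (nat_lit 5) (nat_lit 42) (nat_lit 5) (nat_lit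 358) (nat_lit 349) (nat_lit 193)))))) (XT.nd (nat_lit 312) (nat_lit 456) (nat_lit 0) (XT.nd (nat_lit 156) (nat_lit 228) (nat_lit 0) (XT.nd (nat_lit 78) (nat_lit 228) (nat_lit 0) (XT.lf (nat_lit 0) (nat_lit 61427846354) (nat_lit 380) (nat_lit 73062434627) (nat_lit 76) (nat_lit 134055259544) (nat_lit 41) (nat_lit 5) (nat_lit 46) (nat_lit 5) (nat_lit 42) (nat_lit 5) (nat_lit 359) (nat_lit 349) (nat_lit 192)) (XT.lf (nat_lit 0) (nat_lit 66512429413) (nat_lit 228) (nat_lit 27037076301) (nat_lit 304) (nat_lit 187377693150) (nat_lit 38) (nat_lit 5) (nat_lit 41) (nat_lit 5) (nat_lit 42) (nat_lit 5) (nat_lit 360) (nat_lit 349) (nat_lit 191))) (XT.nd (nat_lit 78) (nat_lit 228) (nat_lit 0) (XT.lf (nat_lit 0) (nat_lit 132431090383) (nat_lit 304) (nat_lit 74923924497) (nat_lit 76) (nat_lit 86609159791) (nat_lit 38) (nat_lit 5) (nat_lit 42) (nat_lit 5) (nat_lit 39) (nat_lit 5) (nat_lit 361) (nat_lit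 349) (nat_lit 190)) (XT.lf (nat_lit 0) (nat_lit 78974438383) (nat_lit 228) (nat_lit 98050268735) (nat_lit 304) (nat_lit 130811281190) (nat_lit 35) (nat_lit 5) (nat_lit 38) (nat_lit 5) (nat_lit 39) (nat_lit 5) (nat_lit 362) (nat_lit 349) (nat_lit 189)))) (XT.nd (nat_lit 156) (nat_lit 304) (nat_lit 0) (XT.nd (nat_lit 78) (nat_lit 152) (nat_lit 0) (XT.lf (nat_lit 0) (nat_lit 227768458610) (nat_lit 304) (nat_lit 73742298034) (nat_lit 76) (nat_lit 21100178934) (nat_lit 35) (nat_lit 5) (nat_lit 39) (nat_lit 5) (nat_lit 36) (nat_lit 5) (nat_lit 363) (nat_lit 349) (nat_lit 188)) (XT.lf (nat_lit 0) (nat_lit 96044146004) (nat_lit 152) (nat_lit 191384105489) (nat_lit 228) (nat_lit 50751103997) (nat_lit 33) (nat_lit 5) (nat_lit 35) (nat_lit 5) (nat_lit 36) (nat_lit 5) (nat_lit 364) (nat_lit 349) (nat_lit 187))) (XT.nd (nat_lit 78) (nat_lit 304) (nat_lit 0) (XT.lf (nat_lit 0) (nat_lit 283607193112)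 (nat_lit 152) (nat_lit 70269800517) (nat_lit 228) (nat_lit 954962252) (nat_lit 33) (nat_lit 5) (nat_lit 35) (nat_lit 5) (nat_lit 36) (nat_lit 5) (nat_lit 365) (nat_lit 349) (nat_lit 186)) (XT.nd (nat_lit 78) (nat_lit 0) (nat_lit 0) (XT.lf (nat_lit 0) (nat_lit 54582491111) (nat_lit 304) (nat_lit 256060325056) (nat_lit 76) (nat_lit 61720302370) (nat_lit 29) (nat_lit 5) (nat_lit 33) (nat_lit 5) (nat_lit 30) (nat_lit 5) (nat_lit 366) (nat_lit 349) (nat_lit 185)) (XT.lf (nat_lit 0) (nat_lit 118334458186) (nat_lit 304) (nat_lit 70158489276) (nat_lit 76) (nat_lit 202495993712) (nat_lit 29) (nat_lit 5) (nat_lit 33) (nat_lit 5) (nat_lit 30) (nat_lit 5) (nat_lit 367) (nat_lit 349) (nat_lit 184))))))))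
noncomputable def xc220 : XT := (XT.nd (nat_lit 1326) (nat_lit 608) (nat_lit 0) (XT.nd (nat_lit 624) (nat_lit 532) (nat_lit 0) (XT.nd (nat_lit 312) (nat_lit 304) (nat_lit 0) (XT.nd (nat_lit 156) (nat_lit 152) (nat_lit 0) (XT.nd (nat_lit 78) (nat_lit 0) (nat_lit 0) (XT.lf (nat_lit 0) (nat_lit 137493374727) (nat_lit 152) (nat_lit 52999859495) (nat_lit 228) (nat_lit 220347063381) (nat_lit 27) (nat_lit 5) (nat_lit 29) (nat_lit 5) (nat_lit 30) (nat_lit 5) (nat_lit 368) (nat_lit 349) (nat_lit 183)) (XT.lf (nat_lit 0) (nat_lit 272637382488) (nat_lit 228) (nat_lit 68673512939) (nat_lit 76) (nat_lit 90631853609) (nat_lit 27) (nat_lit 5) (nat_lit 30) (nat_lit 5) (nat_lit 28) (nat_lit 5) (nat_lit 369) (nat_lit 349) (nat_lit 182))) (XT.nd (nat_lit 78) (nat_lit 0) (nat_lit 0) (XT.lf (nat_lit 0) (nat_lit 158948298505) (nat_lit 152) (nat_lit 207604033831) (nat_lit 228) (nat_lit 87765122766) (nat_lit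 25) (nat_lit 5) (nat_lit 27) (nat_lit 5) (nat_lit 28) (nat_lit 5) (nat_lit 370) (nat_lit 349) (nat_lit 181)) (XT.lf (nat_lit 0) (nat_lit 408685291461) (nat_lit 152) (nat_lit 61172784231) (nat_lit 228) (nat_lit 8473854248) (nat_lit 25) (nat_lit 5) (nat_lit 27) (nat_lit 5) (nat_lit 28) (nat_lit 5) (nat_lit 371) (nat_lit 349) (nat_lit 180)))) (XT.nd (nat_lit 156) (nat_lit 152) (nat_lit 0) (XT.nd (nat_lit 78) (nat_lit 0) (nat_lit 0) (XT.lf (nat_lit 0) (nat_lit 80155921103) (nat_lit 152) (nat_lit 324914150965) (nat_lit 76) (nat_lit 98500625658) (nat_lit 23) (nat_lit 5) (nat_lit 25) (nat_lit 5) (nat_lit 24) (nat_lit 5) (nat_lit 372) (nat_lit 349) (nat_lit 179)) (XT.lf (nat_lit 0) (nat_lit 178960843878) (nat_lit 152) (nat_lit 81749923029) (nat_lit 76) (nat_lit 269816786199) (nat_lit 23) (nat_lit 5) (nat_lit 25) (nat_lit 5) (nat_lit 24) (nat_lit 5) (nat_lit 373) (nat_lit 349) (nat_lit 178)))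 (XT.nd (nat_lit 78) (nat_lit 0) (nat_lit 0) (XT.lf (nat_lit 0) (nat_lit 190391519325) (nat_lit 152) (nat_lit 99857512002) (nat_lit 228) (nat_lit 269025615985) (nat_lit 21) (nat_lit 5) (nat_lit 23) (nat_lit 5) (nat_lit 24) (nat_lit 5) (nat_lit 374) (nat_lit 349) (nat_lit 177)) (XT.lf (nat_lit 0) (nat_lit 414509900805) (nat_lit 228) (nat_lit 103023794200) (nat_lit 76) (nat_lit 72462243947) (nat_lit 21) (nat_lit 5) (nat_lit 24) (nat_lit 5) (nat_lit 22) (nat_lit 4) (nat_lit 375) (nat_lit 349) (nat_lit 176))))) (XT.nd (nat_lit 312) (nat_lit 228) (nat_lit 0) (XT.nd (nat_lit 156) (nat_lit 152) (nat_lit 0) (XT.nd (nat_lit 78) (nat_lit 76) (nat_lit 0) (XT.lf (nat_lit 0) (nat_lit 191068532514) (nat_lit 76) (nat_lit 364831966723) (nat_lit 152) (nat_lit 66699325989) (nat_lit 20) (nat_lit 5) (nat_lit 21) (nat_lit 5) (nat_lit 22) (nat_lit 4) (nat_lit 376) (nat_lit 349) (nat_lit 175)) (XT.lf (nat_lit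 0) (nat_lit 51139559006) (nat_lit 152) (nat_lit 144334122350) (nat_lit 76) (nat_lit 462009422533) (nat_lit 19) (nat_lit 5) (nat_lit 21) (nat_lit 5) (nat_lit 20) (nat_lit 5) (nat_lit 377) (nat_lit 349) (nat_lit 174))) (XT.nd (nat_lit 78) (nat_lit 0) (nat_lit 0) (XT.lf (nat_lit 0) (nat_lit 172747849695) (nat_lit 152) (nat_lit 6208757704) (nat_lit 228) (nat_lit 515729477595) (nat_lit 17) (nat_lit 5) (nat_lit 19) (nat_lit 5) (nat_lit 20) (nat_lit 5) (nat_lit 378) (nat_lit 349) (nat_lit 173)) (XT.lf (nat_lit 0) (nat_lit 325814483732) (nat_lit 228) (nat_lit 216014031305) (nat_lit 76) (nat_lit 192331552467) (nat_lit 17) (nat_lit 5) (nat_lit 20) (nat_lit 5) (nat_lit 18) (nat_lit 4) (nat_lit 379) (nat_lit 349) (nat_lit 172)))) (XT.nd (nat_lit 156) (nat_lit 152) (nat_lit 0) (XT.nd (nat_lit 78) (nat_lit 0) (nat_lit 0) (XT.lf (nat_lit 0) (nat_lit 120237546994) (nat_lit 76) (nat_lit 367236387999)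 (nat_lit 152) (nat_lit 289073798071) (nat_lit 16) (nat_lit 5) (nat_lit 17) (nat_lit 5) (nat_lit 18) (nat_lit 4) (nat_lit 380) (nat_lit 349) (nat_lit 171)) (XT.lf (nat_lit 0) (nat_lit 495674097913) (nat_lit 76) (nat_lit 172298214626) (nat_lit 152) (nat_lit 153881605752) (nat_lit 16) (nat_lit 5) (nat_lit 17) (nat_lit 5) (nat_lit 18) (nat_lit 4) (nat_lit 381) (nat_lit 349) (nat_lit 170))) (XT.nd (nat_lit 78) (nat_lit 76) (nat_lit 0) (XT.lf (nat_lit 0) (nat_lit 30991691033) (nat_lit 76) (nat_lit 833583738988) (nat_lit 76) (nat_lit 6075978769) (nat_lit 15) (nat_lit 4) (nat_lit 16) (nat_lit 5) (nat_lit 16) (nat_lit 4) (nat_lit 382) (nat_lit 349) (nat_lit 169)) (XT.nd (nat_lit 78) (nat_lit 0) (nat_lit 0) (XT.lf (nat_lit 0) (nat_lit 159497924224) (nat_lit 152) (nat_lit 495752136873) (nat_lit 76) (nat_lit 266717181178) (nat_lit 14) (nat_lit 5) (nat_lit 16) (nat_lit 5) (nat_lit 15) (nat_lit 4)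 (nat_lit 383) (nat_lit 349) (nat_lit 168)) (XT.lf (nat_lit 0) (nat_lit 337989447371) (nat_lit 152) (nat_lit 124489823397) (nat_lit 76) (nat_lit 514896448800) (nat_lit 14) (nat_lit 5) (nat_lit 16) (nat_lit 5) (nat_lit 15) (nat_lit 4) (nat_lit 384) (nat_lit 349) (nat_lit 167))))))) (XT.nd (nat_lit 624) (nat_lit 304) (nat_lit 0) (XT.nd (nat_lit 312) (nat_lit 76) (nat_lit 0) (XT.nd (nat_lit 156) (nat_lit 152) (nat_lit 0) (XT.nd (nat_lit 78) (nat_lit 0) (nat_lit 0) (XT.lf (nat_lit 0) (nat_lit 291032023583) (nat_lit 76) (nat_lit 246727566865) (nat_lit 152) (nat_lit 498897340774) (nat_lit 13) (nat_lit 5) (nat_lit 14) (nat_lit 5) (nat_lit 15) (nat_lit 4) (nat_lit 385) (nat_lit 349) (nat_lit 166)) (XT.lf (nat_lit 0) (nat_lit 746875414123) (nat_lit 76) (nat_lit 10039675079) (nat_lit 152) (nat_lit 343493251089) (nat_lit 13) (nat_lit 5) (nat_lit 14) (nat_lit 5) (nat_lit 15) (nat_lit 4) (nat_lit 386)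 (nat_lit 349) (nat_lit 165))) (XT.nd (nat_lit 78) (nat_lit 76) (nat_lit 0) (XT.lf (nat_lit 0) (nat_lit 67391266267) (nat_lit 76) (nat_lit 933738779614) (nat_lit 76) (nat_lit 167527654783) (nat_lit 12) (nat_lit 4) (nat_lit 13) (nat_lit 5) (nat_lit 13) (nat_lit 4) (nat_lit 387) (nat_lit 349) (nat_lit 164)) (XT.lf (nat_lit 0) (nat_lit 31566919905) (nat_lit 152) (nat_lit 700551968634) (nat_lit 76) (nat_lit 509390559548) (nat_lit 11) (nat_lit 5) (nat_lit 13) (nat_lit 5) (nat_lit 12) (nat_lit 4) (nat_lit 388) (nat_lit 349) (nat_lit 163)))) (XT.nd (nat_lit 156) (nat_lit 0) (nat_lit 0) (XT.nd (nat_lit 78) (nat_lit 76) (nat_lit 0) (XT.lf (nat_lit 0) (nat_lit 237538191370) (nat_lit 152) (nat_lit 272131758436) (nat_lit 76) (nat_lit 810171278058) (nat_lit 11) (nat_lit 5) (nat_lit 13) (nat_lit 5) (nat_lit 12) (nat_lit 4) (nat_lit 389) (nat_lit 349) (nat_lit 162)) (XT.lf (nat_lit 0) (nat_lit 200596685376)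 (nat_lit 76) (nat_lit 264214811624) (nat_lit 152) (nat_lit 939242106444) (nat_lit 10) (nat_lit 5) (nat_lit 11) (nat_lit 5) (nat_lit 12) (nat_lit 4) (nat_lit 390) (nat_lit 349) (nat_lit 161))) (XT.nd (nat_lit 78) (nat_lit 0) (nat_lit 0) (XT.lf (nat_lit 0) (nat_lit 717921556180) (nat_lit 152) (nat_lit 768002334042) (nat_lit 0) (nat_lit 8466687734) (nat_lit 10) (nat_lit 5) (nat_lit 12) (nat_lit 4) (nat_lit 10) (nat_lit 4) (nat_lit 391) (nat_lit 349) (nat_lit 160)) (XT.lf (nat_lit 0) (nat_lit 998143121720) (nat_lit 152) (nat_lit 304574144640) (nat_lit 0) (nat_lit 288688227951) (nat_lit 10) (nat_lit 5) (nat_lit 12) (nat_lit 4) (nat_lit 10) (nat_lit 4) (nat_lit 392) (nat_lit 349) (nat_lit 159))))) (XT.nd (nat_lit 312) (nat_lit 152) (nat_lit 0) (XT.nd (nat_lit 156) (nat_lit 76) (nat_lit 0) (XT.nd (nat_lit 78) (nat_lit 0) (nat_lit 0) (XT.lf (nat_lit 0) (nat_lit 206245498993) (nat_lit 76) (nat_lit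 1099497103505) (nat_lit 76) (nat_lit 390042186290) (nat_lit 9) (nat_lit 4) (nat_lit 10) (nat_lit 5) (nat_lit 10) (nat_lit 4) (nat_lit 393) (nat_lit 349) (nat_lit 158)) (XT.lf (nat_lit 0) (nat_lit 775252080432) (nat_lit 76) (nat_lit 871025539534) (nat_lit 76) (nat_lit 161570600609) (nat_lit 9) (nat_lit 4) (nat_lit 10) (nat_lit 5) (nat_lit 10) (nat_lit 4) (nat_lit 394) (nat_lit 349) (nat_lit 157))) (XT.nd (nat_lit 78) (nat_lit 0) (nat_lit 0) (XT.lf (nat_lit 0) (nat_lit 80917710064) (nat_lit 152) (nat_lit 541146122093) (nat_lit 76) (nat_lit 1306649012169) (nat_lit 8) (nat_lit 5) (nat_lit 10) (nat_lit 5) (nat_lit 9) (nat_lit 4) (nat_lit 395) (nat_lit 349) (nat_lit 156)) (XT.lf (nat_lit 0) (nat_lit 334076060115) (nat_lit 152) (nat_lit 14576772597) (nat_lit 76) (nat_lit 1710258075466) (nat_lit 8) (nat_lit 5) (nat_lit 10) (nat_lit 5) (nat_lit 9) (nat_lit 4) (nat_lit 396) (nat_lit 349) (nat_lit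 155)))) (XT.nd (nat_lit 156) (nat_lit 76) (nat_lit 0) (XT.nd (nat_lit 78) (nat_lit 0) (nat_lit 0) (XT.lf (nat_lit 0) (nat_lit 583296973093) (nat_lit 76) (nat_lit 38218396121) (nat_lit 152) (nat_lit 1576887184652) (nat_lit 7) (nat_lit 5) (nat_lit 8) (nat_lit 5) (nat_lit 9) (nat_lit 4) (nat_lit 397) (nat_lit 349) (nat_lit 154)) (XT.lf (nat_lit 0) (nat_lit 939502793626) (nat_lit 152) (nat_lit 1126346494121) (nat_lit 0) (nat_lit 282600005820) (nat_lit 7) (nat_lit 5) (nat_lit 9) (nat_lit 4) (nat_lit 7) (nat_lit 4) (nat_lit 398) (nat_lit 349) (nat_lit 153))) (XT.nd (nat_lit 78) (nat_lit 76) (nat_lit 0) (XT.lf (nat_lit 0) (nat_lit 1283921883664) (nat_lit 152) (nat_lit 599479392877) (nat_lit 0) (nat_lit 627019082178) (nat_lit 7) (nat_lit 5) (nat_lit 9) (nat_lit 4) (nat_lit 7) (nat_lit 4) (nat_lit 399) (nat_lit 349) (nat_lit 152)) (XT.nd (nat_lit 78) (nat_lit 76) (nat_lit 0) (XT.lf (nat_lit 0)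 (nat_lit 1655894487998) (nat_lit 152) (nat_lit 30462948280) (nat_lit 0) (nat_lit 998991673844) (nat_lit 7) (nat_lit 5) (nat_lit 9) (nat_lit 4) (nat_lit 7) (nat_lit 4) (nat_lit 400) (nat_lit 349) (nat_lit 151)) (XT.lf (nat_lit 0) (nat_lit 614831132288) (nat_lit 76) (nat_lit 1457580459957) (nat_lit 76) (nat_lit 800677634074) (nat_lit 6) (nat_lit 4) (nat_lit 7) (nat_lit 5) (nat_lit 7) (nat_lit 4) (nat_lit 401) (nat_lit 349) (nat_lit 150))))))))
noncomputable def xc221 : XT := (XT.nd (nat_lit 43836) (nat_lit 0) (nat_lit 912) (XT.nd (nat_lit 43134) (nat_lit 0) (nat_lit 2508) (XT.nd (nat_lit 42822) (nat_lit 0) (nat_lit 3344) (XT.nd (nat_lit 156) (nat_lit 76) (nat_lit 0) (XT.nd (nat_lit 78) (nat_lit 0) (nat_lit 0) (XT.lf (nat_lit 0) (nat_lit 1313481171830) (nat_lit 76) (nat_lit 1209601792389) (nat_lit 76) (nat_lit 552698955645) (nat_lit 6) (nat_lit 4) (nat_lit 7) (nat_lit 5) (nat_lit 7) (nat_lit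 4) (nat_lit 402) (nat_lit 349) (nat_lit 149)) (XT.lf (nat_lit 0) (nat_lit 2068023193856) (nat_lit 76) (nat_lit 941784841351) (nat_lit 76) (nat_lit 284881994551) (nat_lit 6) (nat_lit 4) (nat_lit 7) (nat_lit 5) (nat_lit 7) (nat_lit 4) (nat_lit 403) (nat_lit 349) (nat_lit 148))) (XT.nd (nat_lit 78) (nat_lit 0) (nat_lit 0) (XT.lf (nat_lit 0) (nat_lit 4142192181) (nat_lit 152) (nat_lit 648287096372) (nat_lit 76) (nat_lit 2878673111441) (nat_lit 5) (nat_lit 5) (nat_lit 7) (nat_lit 5) (nat_lit 6) (nat_lit 4) (nat_lit 404) (nat_lit 349) (nat_lit 147)) (XT.lf (nat_lit 0) (nat_lit 300897277160) (nat_lit 152) (nat_lit 31036528237) (nat_lit 76) (nat_lit 3453901992627) (nat_lit 5) (nat_lit 5) (nat_lit 7) (nat_lit 5) (nat_lit 6) (nat_lit 4) (nat_lit 405) (nat_lit 349) (nat_lit 146)))) (XT.nd (nat_lit 156) (nat_lit 0) (nat_lit 76) (XT.nd (nat_lit 78) (nat_lit 0) (nat_lit 0) (XT.lf (nat_lit 0) (nat_lit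 66056990994) (nat_lit 532) (nat_lit 14815309477) (nat_lit 532) (nat_lit 14815309477) (nat_lit 49) (nat_lit 3) (nat_lit 56) (nat_lit 3) (nat_lit 56) (nat_lit 5) (nat_lit 350) (nat_lit 350) (nat_lit 200)) (XT.lf (nat_lit 76) (nat_lit 62323179495) (nat_lit 0) (nat_lit 76575878465) (nat_lit 532) (nat_lit 60011125303) (nat_lit 50) (nat_lit 5) (nat_lit 49) (nat_lit 3) (nat_lit 56) (nat_lit 5) (nat_lit 351) (nat_lit 350) (nat_lit 199))) (XT.nd (nat_lit 78) (nat_lit 0) (nat_lit 0) (XT.lf (nat_lit 0) (nat_lit 147428494636) (nat_lit 456) (nat_lit 44056405008) (nat_lit 532) (nat_lit 15466920095) (nat_lit 50) (nat_lit 5) (nat_lit 56) (nat_lit 5) (nat_lit 57) (nat_lit 5) (nat_lit 352) (nat_lit 350) (nat_lit 198)) (XT.lf (nat_lit 76) (nat_lit 56725179989) (nat_lit 0) (nat_lit 103268179417) (nat_lit 532) (nat_lit 55375182254) (nat_lit 51) (nat_lit 5) (nat_lit 50) (nat_lit 5) (nat_lit 57) (nat_lit 5)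 (nat_lit 353) (nat_lit 350) (nat_lit 197))))) (XT.nd (nat_lit 312) (nat_lit 608) (nat_lit 0) (XT.nd (nat_lit 156) (nat_lit 304) (nat_lit 0) (XT.nd (nat_lit 78) (nat_lit 0) (nat_lit 76) (XT.lf (nat_lit 76) (nat_lit 168074720089) (nat_lit 0) (nat_lit 6693129758) (nat_lit 532) (nat_lit 49594396920) (nat_lit 51) (nat_lit 5) (nat_lit 50) (nat_lit 5) (nat_lit 57) (nat_lit 5) (nat_lit 354) (nat_lit 350) (nat_lit 196)) (XT.lf (nat_lit 76) (nat_lit 54642645455) (nat_lit 0) (nat_lit 139743151873) (nat_lit 532) (nat_lit 39396731455) (nat_lit 52) (nat_lit 5) (nat_lit 51) (nat_lit 5) (nat_lit 58) (nat_lit 5) (nat_lit 355) (nat_lit 350) (nat_lit 195))) (XT.nd (nat_lit 78) (nat_lit 380) (nat_lit 0) (XT.lf (nat_lit 76) (nat_lit 177465250291) (nat_lit 0) (nat_lit 39816252683) (nat_lit 532) (nat_lit 26538264898) (nat_lit 52) (nat_lit 5) (nat_lit 51) (nat_lit 5) (nat_lit 58) (nat_lit 5) (nat_lit 356) (nat_lit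 350) (nat_lit 194)) (XT.lf (nat_lit 0) (nat_lit 56649489099) (nat_lit 456) (nat_lit 188359604675) (nat_lit 532) (nat_lit 9410874295) (nat_lit 46) (nat_lit 5) (nat_lit 52) (nat_lit 5) (nat_lit 53) (nat_lit 5) (nat_lit 357) (nat_lit 350) (nat_lit 193)))) (XT.nd (nat_lit 156) (nat_lit 228) (nat_lit 0) (XT.nd (nat_lit 78) (nat_lit 304) (nat_lit 0) (XT.lf (nat_lit 0) (nat_lit 11527603612) (nat_lit 532) (nat_lit 73755541728) (nat_lit 76) (nat_lit 180335920342) (nat_lit 45) (nat_lit 5) (nat_lit 52) (nat_lit 5) (nat_lit 46) (nat_lit 5) (nat_lit 358) (nat_lit 350) (nat_lit 192)) (XT.lf (nat_lit 0) (nat_lit 35822003208) (nat_lit 380) (nat_lit 215152985560) (nat_lit 76) (nat_lit 26544405485) (nat_lit 41) (nat_lit 5) (nat_lit 46) (nat_lit 5) (nat_lit 42) (nat_lit 5) (nat_lit 359) (nat_lit 350) (nat_lit 191))) (XT.nd (nat_lit 78) (nat_lit 228) (nat_lit 0) (XT.lf (nat_lit 0) (nat_lit 66343989832) (nat_lit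 380) (nat_lit 78905392802) (nat_lit 76) (nat_lit 144779643875) (nat_lit 41) (nat_lit 5) (nat_lit 46) (nat_lit 5) (nat_lit 42) (nat_lit 5) (nat_lit 360) (nat_lit 350) (nat_lit 190)) (XT.nd (nat_lit 78) (nat_lit 0) (nat_lit 0) (XT.lf (nat_lit 0) (nat_lit 71835408802) (nat_lit 228) (nat_lit 29199878971) (nat_lit 304) (nat_lit 202365937573) (nat_lit 38) (nat_lit 5) (nat_lit 41) (nat_lit 5) (nat_lit 42) (nat_lit 5) (nat_lit 361) (nat_lit 350) (nat_lit 189)) (XT.lf (nat_lit 0) (nat_lit 143027267920) (nat_lit 304) (nat_lit 80915865741) (nat_lit 76) (nat_lit 93538036333) (nat_lit 38) (nat_lit 5) (nat_lit 42) (nat_lit 5) (nat_lit 39) (nat_lit 5) (nat_lit 362) (nat_lit 350) (nat_lit 188))))))) (XT.nd (nat_lit 702) (nat_lit 608) (nat_lit 0) (XT.nd (nat_lit 312) (nat_lit 608) (nat_lit 0) (XT.nd (nat_lit 156) (nat_lit 152) (nat_lit 0) (XT.nd (nat_lit 78) (nat_lit 0) (nat_lit 0) (XT.lf (nat_lit 0)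 (nat_lit 85294316228) (nat_lit 228) (nat_lit 105893978801) (nat_lit 304) (nat_lit 141274440264) (nat_lit 35) (nat_lit 5) (nat_lit 38) (nat_lit 5) (nat_lit 39) (nat_lit 5) (nat_lit 363) (nat_lit 350) (nat_lit 187)) (XT.lf (nat_lit 0) (nat_lit 245991434217) (nat_lit 304) (nat_lit 79639786170) (nat_lit 76) (nat_lit 22788467187) (nat_lit 35) (nat_lit 5) (nat_lit 39) (nat_lit 5) (nat_lit 36) (nat_lit 5) (nat_lit 364) (nat_lit 350) (nat_lit 186))) (XT.nd (nat_lit 78) (nat_lit 0) (nat_lit 0) (XT.lf (nat_lit 0) (nat_lit 103729525399) (nat_lit 152) (nat_lit 206694418539) (nat_lit 228) (nat_lit 54809642687) (nat_lit 33) (nat_lit 5) (nat_lit 35) (nat_lit 5) (nat_lit 36) (nat_lit 5) (nat_lit 365) (nat_lit 350) (nat_lit 185)) (XT.lf (nat_lit 0) (nat_lit 306297479408) (nat_lit 152) (nat_lit 75890999938) (nat_lit 228) (nat_lit 1029924390) (nat_lit 33) (nat_lit 5) (nat_lit 35) (nat_lit 5) (nat_lit 36)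 (nat_lit 5) (nat_lit 366) (nat_lit 350) (nat_lit 184)))) (XT.nd (nat_lit 156) (nat_lit 304) (nat_lit 0) (XT.nd (nat_lit 78) (nat_lit 0) (nat_lit 0) (XT.lf (nat_lit 0) (nat_lit 58950404822) (nat_lit 304) (nat_lit 276543315302) (nat_lit 76) (nat_lit 66658340584) (nat_lit 29) (nat_lit 5) (nat_lit 33) (nat_lit 5) (nat_lit 30) (nat_lit 5) (nat_lit 367) (nat_lit 350) (nat_lit 183)) (XT.lf (nat_lit 0) (nat_lit 127802431898) (nat_lit 304) (nat_lit 75769468641) (nat_lit 76) (nat_lit 218696056565) (nat_lit 29) (nat_lit 5) (nat_lit 33) (nat_lit 5) (nat_lit 30) (nat_lit 5) (nat_lit 368) (nat_lit 350) (nat_lit 182))) (XT.nd (nat_lit 78) (nat_lit 152) (nat_lit 0) (XT.lf (nat_lit 0) (nat_lit 148494501450) (nat_lit 152) (nat_lit 57239358259) (nat_lit 228) (nat_lit 237973566511) (nat_lit 27) (nat_lit 5) (nat_lit 29) (nat_lit 5) (nat_lit 30) (nat_lit 5) (nat_lit 369) (nat_lit 350) (nat_lit 181)) (XT.nd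 (nat_lit 78) (nat_lit 152) (nat_lit 0) (XT.lf (nat_lit 0) (nat_lit 294449464322) (nat_lit 228) (nat_lit 74165782723) (nat_lit 76) (nat_lit 97882832901) (nat_lit 27) (nat_lit 5) (nat_lit 30) (nat_lit 5) (nat_lit 28) (nat_lit 5) (nat_lit 370) (nat_lit 350) (nat_lit 180)) (XT.lf (nat_lit 0) (nat_lit 171665732846) (nat_lit 152) (nat_lit 224211834250) (nat_lit 228) (nat_lit 94785198975) (nat_lit 25) (nat_lit 5) (nat_lit 27) (nat_lit 5) (nat_lit 28) (nat_lit 5) (nat_lit 371) (nat_lit 350) (nat_lit 179)))))) (XT.nd (nat_lit 312) (nat_lit 304) (nat_lit 0) (XT.nd (nat_lit 156) (nat_lit 152) (nat_lit 0) (XT.nd (nat_lit 78) (nat_lit 152) (nat_lit 0) (XT.lf (nat_lit 0) (nat_lit 441381568907) (nat_lit 152) (nat_lit 66066123370) (nat_lit 228) (nat_lit 9150712946) (nat_lit 25) (nat_lit 5) (nat_lit 27) (nat_lit 5) (nat_lit 28) (nat_lit 5) (nat_lit 372) (nat_lit 350) (nat_lit 178)) (XT.lf (nat_lit 0)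 (nat_lit 86569365707) (nat_lit 152) (nat_lit 350905747567) (nat_lit 76) (nat_lit 106381161337) (nat_lit 23) (nat_lit 5) (nat_lit 25) (nat_lit 5) (nat_lit 24) (nat_lit 5) (nat_lit 373) (nat_lit 350) (nat_lit 177))) (XT.nd (nat_lit 78) (nat_lit 152) (nat_lit 0) (XT.lf (nat_lit 0) (nat_lit 193278610384) (nat_lit 152) (nat_lit 88288495134) (nat_lit 76) (nat_lit 291402578749) (nat_lit 23) (nat_lit 5) (nat_lit 25) (nat_lit 5) (nat_lit 24) (nat_lit 5) (nat_lit 374) (nat_lit 350) (nat_lit 176)) (XT.lf (nat_lit 0) (nat_lit 205624226614) (nat_lit 152) (nat_lit 107845592950) (nat_lit 228) (nat_lit 290546729195) (nat_lit 21) (nat_lit 5) (nat_lit 23) (nat_lit 5) (nat_lit 24) (nat_lit 5) (nat_lit 375) (nat_lit 350) (nat_lit 175)))) (XT.nd (nat_lit 156) (nat_lit 228) (nat_lit 0) (XT.nd (nat_lit 78) (nat_lit 76) (nat_lit 0) (XT.lf (nat_lit 0) (nat_lit 447671506052) (nat_lit 228) (nat_lit 111264361092)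 (nat_lit 76) (nat_lit 78259680869) (nat_lit 21) (nat_lit 5) (nat_lit 24) (nat_lit 5) (nat_lit 22) (nat_lit 4) (nat_lit 376) (nat_lit 350) (nat_lit 174)) (XT.lf (nat_lit 0) (nat_lit 206355317921) (nat_lit 76) (nat_lit 394018005536) (nat_lit 152) (nat_lit 72034424120) (nat_lit 20) (nat_lit 5) (nat_lit 21) (nat_lit 5) (nat_lit 22) (nat_lit 4) (nat_lit 377) (nat_lit 350) (nat_lit 173))) (XT.nd (nat_lit 78) (nat_lit 152) (nat_lit 0) (XT.lf (nat_lit 0) (nat_lit 55231469588) (nat_lit 152) (nat_lit 155879605767) (nat_lit 76) (nat_lit 498970616382) (nat_lit 19) (nat_lit 5) (nat_lit 21) (nat_lit 5) (nat_lit 20) (nat_lit 5) (nat_lit 378) (nat_lit 350) (nat_lit 172)) (XT.nd (nat_lit 78) (nat_lit 0) (nat_lit 0) (XT.lf (nat_lit 0) (nat_lit 186568892488) (nat_lit 152) (nat_lit 6704963333) (nat_lit 228) (nat_lit 556987057652) (nat_lit 17) (nat_lit 5) (nat_lit 19) (nat_lit 5) (nat_lit 20) (nat_lit 5)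 (nat_lit 379) (nat_lit 350) (nat_lit 171)) (XT.lf (nat_lit 0) (nat_lit 351880319961) (nat_lit 228) (nat_lit 233293986000) (nat_lit 76) (nat_lit 207718512060) (nat_lit 17) (nat_lit 5) (nat_lit 20) (nat_lit 5) (nat_lit 18) (nat_lit 4) (nat_lit 380) (nat_lit 350) (nat_lit 170))))))))
noncomputable def xc222 : XT := (XT.nd (nat_lit 1326) (nat_lit 228) (nat_lit 0) (XT.nd (nat_lit 624) (nat_lit 304) (nat_lit 0) (XT.nd (nat_lit 312) (nat_lit 152) (nat_lit 0) (XT.nd (nat_lit 156) (nat_lit 152) (nat_lit 0) (XT.nd (nat_lit 78) (nat_lit 0) (nat_lit 0) (XT.lf (nat_lit 0) (nat_lit 129857688998) (nat_lit 76) (nat_lit 396614815513) (nat_lit 152) (nat_lit 312198994191) (nat_lit 16) (nat_lit 5) (nat_lit 17) (nat_lit 5) (nat_lit 18) (nat_lit 4) (nat_lit 381) (nat_lit 350) (nat_lit 169)) (XT.lf (nat_lit 0) (nat_lit 535329079676) (nat_lit 76) (nat_lit 186081624087) (nat_lit 152) (nat_lit 166191478911) (nat_lit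 16) (nat_lit 5) (nat_lit 17) (nat_lit 5) (nat_lit 18) (nat_lit 4) (nat_lit 382) (nat_lit 350) (nat_lit 168))) (XT.nd (nat_lit 78) (nat_lit 76) (nat_lit 0) (XT.lf (nat_lit 0) (nat_lit 33472090908) (nat_lit 76) (nat_lit 900269970404) (nat_lit 76) (nat_lit 6561411890) (nat_lit 15) (nat_lit 4) (nat_lit 16) (nat_lit 5) (nat_lit 16) (nat_lit 4) (nat_lit 383) (nat_lit 350) (nat_lit 167)) (XT.lf (nat_lit 0) (nat_lit 172258325667) (nat_lit 152) (nat_lit 535411291743) (nat_lit 76) (nat_lit 288054958383) (nat_lit 14) (nat_lit 5) (nat_lit 16) (nat_lit 5) (nat_lit 15) (nat_lit 4) (nat_lit 384) (nat_lit 350) (nat_lit 166)))) (XT.nd (nat_lit 156) (nat_lit 76) (nat_lit 0) (XT.nd (nat_lit 78) (nat_lit 76) (nat_lit 0) (XT.lf (nat_lit 0) (nat_lit 365029128629) (nat_lit 152) (nat_lit 134448068453) (nat_lit 76) (nat_lit 556088537585) (nat_lit 14) (nat_lit 5) (nat_lit 16) (nat_lit 5) (nat_lit 15) (nat_lit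 4) (nat_lit 385) (nat_lit 350) (nat_lit 165)) (XT.lf (nat_lit 0) (nat_lit 314315502466) (nat_lit 76) (nat_lit 266465363815) (nat_lit 152) (nat_lit 538808578353) (nat_lit 13) (nat_lit 5) (nat_lit 14) (nat_lit 5) (nat_lit 15) (nat_lit 4) (nat_lit 386) (nat_lit 350) (nat_lit 164))) (XT.nd (nat_lit 78) (nat_lit 76) (nat_lit 0) (XT.lf (nat_lit 0) (nat_lit 806626296324) (nat_lit 76) (nat_lit 10842470938) (nat_lit 152) (nat_lit 370972202210) (nat_lit 13) (nat_lit 5) (nat_lit 14) (nat_lit 5) (nat_lit 15) (nat_lit 4) (nat_lit 387) (nat_lit 350) (nat_lit 163)) (XT.lf (nat_lit 0) (nat_lit 72783423359) (nat_lit 76) (nat_lit 1008437491236) (nat_lit 76) (nat_lit 180929364579) (nat_lit 12) (nat_lit 4) (nat_lit 13) (nat_lit 5) (nat_lit 13) (nat_lit 4) (nat_lit 388) (nat_lit 350) (nat_lit 162))))) (XT.nd (nat_lit 312) (nat_lit 152) (nat_lit 0) (XT.nd (nat_lit 156) (nat_lit 76) (nat_lit 0) (XT.nd (nat_lit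 78) (nat_lit 0) (nat_lit 0) (XT.lf (nat_lit 0) (nat_lit 34092715576) (nat_lit 152) (nat_lit 756595310156) (nat_lit 76) (nat_lit 550142142544) (nat_lit 11) (nat_lit 5) (nat_lit 13) (nat_lit 5) (nat_lit 12) (nat_lit 4) (nat_lit 389) (nat_lit 350) (nat_lit 161)) (XT.lf (nat_lit 0) (nat_lit 256541656013) (nat_lit 152) (nat_lit 293901543584) (nat_lit 76) (nat_lit 874985293480) (nat_lit 11) (nat_lit 5) (nat_lit 13) (nat_lit 5) (nat_lit 12) (nat_lit 4) (nat_lit 390) (nat_lit 350) (nat_lit 160))) (XT.nd (nat_lit 78) (nat_lit 0) (nat_lit 0) (XT.lf (nat_lit 0) (nat_lit 216645156606) (nat_lit 76) (nat_lit 285351656877) (nat_lit 152) (nat_lit 1014381046249) (nat_lit 10) (nat_lit 5) (nat_lit 11) (nat_lit 5) (nat_lit 12) (nat_lit 4) (nat_lit 391) (nat_lit 350) (nat_lit 159)) (XT.lf (nat_lit 0) (nat_lit 775355655574) (nat_lit 152) (nat_lit 829441816859) (nat_lit 0) (nat_lit 9144321535) (nat_lit 10)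 (nat_lit 5) (nat_lit 12) (nat_lit 4) (nat_lit 10) (nat_lit 4) (nat_lit 392) (nat_lit 350) (nat_lit 158)))) (XT.nd (nat_lit 156) (nat_lit 76) (nat_lit 0) (XT.nd (nat_lit 78) (nat_lit 76) (nat_lit 0) (XT.lf (nat_lit 0) (nat_lit 1077994918587) (nat_lit 152) (nat_lit 328939424446) (nat_lit 0) (nat_lit 311783562838) (nat_lit 10) (nat_lit 5) (nat_lit 12) (nat_lit 4) (nat_lit 10) (nat_lit 4) (nat_lit 393) (nat_lit 350) (nat_lit 157)) (XT.lf (nat_lit 0) (nat_lit 222745774177) (nat_lit 76) (nat_lit 1187456573215) (nat_lit 76) (nat_lit 421245197365) (nat_lit 9) (nat_lit 4) (nat_lit 10) (nat_lit 5) (nat_lit 10) (nat_lit 4) (nat_lit 394) (nat_lit 350) (nat_lit 156))) (XT.nd (nat_lit 78) (nat_lit 76) (nat_lit 0) (XT.lf (nat_lit 0) (nat_lit 837272835074) (nat_lit 76) (nat_lit 940707306242) (nat_lit 76) (nat_lit 174495911779) (nat_lit 9) (nat_lit 4) (nat_lit 10) (nat_lit 5) (nat_lit 10) (nat_lit 4)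 (nat_lit 395) (nat_lit 350) (nat_lit 155)) (XT.nd (nat_lit 78) (nat_lit 0) (nat_lit 0) (XT.lf (nat_lit 0) (nat_lit 87391423189) (nat_lit 152) (nat_lit 584437251462) (nat_lit 76) (nat_lit 1411181173357) (nat_lit 8) (nat_lit 5) (nat_lit 10) (nat_lit 5) (nat_lit 9) (nat_lit 4) (nat_lit 396) (nat_lit 350) (nat_lit 154)) (XT.lf (nat_lit 0) (nat_lit 360802419295) (nat_lit 152) (nat_lit 15742395518) (nat_lit 76) (nat_lit 1847078943924) (nat_lit 8) (nat_lit 5) (nat_lit 10) (nat_lit 5) (nat_lit 9) (nat_lit 4) (nat_lit 397) (nat_lit 350) (nat_lit 153))))))) (XT.nd (nat_lit 43212) (nat_lit 0) (nat_lit 3040) (XT.nd (nat_lit 312) (nat_lit 152) (nat_lit 0) (XT.nd (nat_lit 156) (nat_lit 0) (nat_lit 0) (XT.nd (nat_lit 78) (nat_lit 0) (nat_lit 0) (XT.lf (nat_lit 0) (nat_lit 629961236691) (nat_lit 76) (nat_lit 41275628270) (nat_lit 152) (nat_lit 1703037871782) (nat_lit 7) (nat_lit 5) (nat_lit 8) (nat_lit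 5) (nat_lit 9) (nat_lit 4) (nat_lit 398) (nat_lit 350) (nat_lit 152)) (XT.lf (nat_lit 0) (nat_lit 1014663268942) (nat_lit 152) (nat_lit 1216453730853) (nat_lit 0) (nat_lit 305208216988) (nat_lit 7) (nat_lit 5) (nat_lit 9) (nat_lit 4) (nat_lit 7) (nat_lit 4) (nat_lit 399) (nat_lit 350) (nat_lit 151))) (XT.nd (nat_lit 78) (nat_lit 0) (nat_lit 0) (XT.lf (nat_lit 0) (nat_lit 1386635867529) (nat_lit 152) (nat_lit 647437297272) (nat_lit 0) (nat_lit 677180803846) (nat_lit 7) (nat_lit 5) (nat_lit 9) (nat_lit 4) (nat_lit 7) (nat_lit 4) (nat_lit 400) (nat_lit 350) (nat_lit 150)) (XT.lf (nat_lit 0) (nat_lit 1788366262937) (nat_lit 152) (nat_lit 32899570221) (nat_lit 0) (nat_lit 1078911188394) (nat_lit 7) (nat_lit 5) (nat_lit 9) (nat_lit 4) (nat_lit 7) (nat_lit 4) (nat_lit 401) (nat_lit 350) (nat_lit 149)))) (XT.nd (nat_lit 156) (nat_lit 76) (nat_lit 0) (XT.nd (nat_lit 78) (nat_lit 0) (nat_lit 0)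 (XT.lf (nat_lit 0) (nat_lit 664018026313) (nat_lit 76) (nat_lit 1574186702921) (nat_lit 76) (nat_lit 864731618322) (nat_lit 6) (nat_lit 4) (nat_lit 7) (nat_lit 5) (nat_lit 7) (nat_lit 4) (nat_lit 402) (nat_lit 350) (nat_lit 148)) (XT.lf (nat_lit 0) (nat_lit 1418560039134) (nat_lit 76) (nat_lit 1306369756305) (nat_lit 76) (nat_lit 596914662395) (nat_lit 6) (nat_lit 4) (nat_lit 7) (nat_lit 5) (nat_lit 7) (nat_lit 4) (nat_lit 403) (nat_lit 350) (nat_lit 147))) (XT.nd (nat_lit 78) (nat_lit 76) (nat_lit 0) (XT.lf (nat_lit 0) (nat_lit 2233465395252) (nat_lit 76) (nat_lit 1017127462478) (nat_lit 76) (nat_lit 307672359947) (nat_lit 6) (nat_lit 4) (nat_lit 7) (nat_lit 5) (nat_lit 7) (nat_lit 4) (nat_lit 404) (nat_lit 350) (nat_lit 146)) (XT.lf (nat_lit 0) (nat_lit 4473738347) (nat_lit 152) (nat_lit 700149734750) (nat_lit 76) (nat_lit 3108967105160) (nat_lit 5) (nat_lit 5) (nat_lit 7) (nat_lit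 5) (nat_lit 6) (nat_lit 4) (nat_lit 405) (nat_lit 350) (nat_lit 145))))) (XT.nd (nat_lit 312) (nat_lit 304) (nat_lit 0) (XT.nd (nat_lit 156) (nat_lit 0) (nat_lit 76) (XT.nd (nat_lit 78) (nat_lit 0) (nat_lit 0) (XT.lf (nat_lit 0) (nat_lit 71343153493) (nat_lit 532) (nat_lit 15999666499) (nat_lit 532) (nat_lit 15999666499) (nat_lit 49) (nat_lit 3) (nat_lit 56) (nat_lit 3) (nat_lit 56) (nat_lit 5) (nat_lit 351) (nat_lit 351) (nat_lit 198)) (XT.lf (nat_lit 76) (nat_lit 67310725390) (nat_lit 0) (nat_lit 82703266813) (nat_lit 532) (nat_lit 64808757556) (nat_lit 50) (nat_lit 5) (nat_lit 49) (nat_lit 3) (nat_lit 56) (nat_lit 5) (nat_lit 352) (nat_lit 351) (nat_lit 197))) (XT.nd (nat_lit 78) (nat_lit 0) (nat_lit 0) (XT.lf (nat_lit 0) (nat_lit 159225531528) (nat_lit 456) (nat_lit 47579092038) (nat_lit 532) (nat_lit 16703114318) (nat_lit 50) (nat_lit 5) (nat_lit 56) (nat_lit 5) (nat_lit 57) (nat_lit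 5) (nat_lit 353) (nat_lit 351) (nat_lit 196)) (XT.lf (nat_lit 76) (nat_lit 61264973547) (nat_lit 0) (nat_lit 111530450476) (nat_lit 532) (nat_lit 59802386960) (nat_lit 51) (nat_lit 5) (nat_lit 50) (nat_lit 5) (nat_lit 57) (nat_lit 5) (nat_lit 354) (nat_lit 351) (nat_lit 195)))) (XT.nd (nat_lit 156) (nat_lit 380) (nat_lit 0) (XT.nd (nat_lit 78) (nat_lit 0) (nat_lit 76) (XT.lf (nat_lit 76) (nat_lit 181522345065) (nat_lit 0) (nat_lit 7229336347) (nat_lit 532) (nat_lit 53559346938) (nat_lit 51) (nat_lit 5) (nat_lit 50) (nat_lit 5) (nat_lit 57) (nat_lit 5) (nat_lit 355) (nat_lit 351) (nat_lit 194)) (XT.lf (nat_lit 76) (nat_lit 59015873623) (nat_lit 0) (nat_lit 150923039874) (nat_lit 532) (nat_lit 42546031961) (nat_lit 52) (nat_lit 5) (nat_lit 51) (nat_lit 5) (nat_lit 58) (nat_lit 5) (nat_lit 356) (nat_lit 351) (nat_lit 193))) (XT.nd (nat_lit 78) (nat_lit 456) (nat_lit 0) (XT.lf (nat_lit 76)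 (nat_lit 191664152288) (nat_lit 0) (nat_lit 43001956464) (nat_lit 532) (nat_lit 28659068673) (nat_lit 52) (nat_lit 5) (nat_lit 51) (nat_lit 5) (nat_lit 58) (nat_lit 5) (nat_lit 357) (nat_lit 351) (nat_lit 192)) (XT.nd (nat_lit 78) (nat_lit 76) (nat_lit 0) (XT.lf (nat_lit 0) (nat_lit 61183264605) (nat_lit 456) (nat_lit 203428522423) (nat_lit 532) (nat_lit 10161616566) (nat_lit 46) (nat_lit 5) (nat_lit 52) (nat_lit 5) (nat_lit 53) (nat_lit 5) (nat_lit 358) (nat_lit 351) (nat_lit 191)) (XT.lf (nat_lit 0) (nat_lit 12451683419) (nat_lit 532) (nat_lit 79654200687) (nat_lit 76) (nat_lit 194762553113) (nat_lit 45) (nat_lit 5) (nat_lit 52) (nat_lit 5) (nat_lit 46) (nat_lit 5) (nat_lit 359) (nat_lit 351) (nat_lit 190))))))))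
noncomputable def xc223 : XT := (XT.nd (nat_lit 1326) (nat_lit 836) (nat_lit 0) (XT.nd (nat_lit 624) (nat_lit 912) (nat_lit 0) (XT.nd (nat_lit 312) (nat_lit 380) (nat_lit 0) (XT.nd (nat_lit 156) (nat_lit 228) (nat_lit 0) (XT.nd (nat_lit 78) (nat_lit 0) (nat_lit 0) (XT.lf (nat_lit 0) (nat_lit 38689537325) (nat_lit 380) (nat_lit 232363338669) (nat_lit 76) (nat_lit 28667924191) (nat_lit 41) (nat_lit 5) (nat_lit 46) (nat_lit 5) (nat_lit 42) (nat_lit 5) (nat_lit 360) (nat_lit 351) (nat_lit 189)) (XT.lf (nat_lit 0) (nat_lit 71653151482) (nat_lit 380) (nat_lit 85216078175) (nat_lit 76) (nat_lit 156361984151) (nat_lit 41) (nat_lit 5) (nat_lit 46) (nat_lit 5) (nat_lit 42) (nat_lit 5) (nat_lit 361) (nat_lit 351) (nat_lit 188))) (XT.nd (nat_lit 78) (nat_lit 0) (nat_lit 0) (XT.lf (nat_lit 0) (nat_lit 77583943354) (nat_lit 228) (nat_lit 31535729169) (nat_lit 304) (nat_lit 218553522739) (nat_lit 38)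 (nat_lit 5) (nat_lit 41) (nat_lit 5) (nat_lit 42) (nat_lit 5) (nat_lit 362) (nat_lit 351) (nat_lit 187)) (XT.lf (nat_lit 0) (nat_lit 154470898520) (nat_lit 304) (nat_lit 87387443714) (nat_lit 76) (nat_lit 101021202489) (nat_lit 38) (nat_lit 5) (nat_lit 42) (nat_lit 5) (nat_lit 39) (nat_lit 5) (nat_lit 363) (nat_lit 351) (nat_lit 186)))) (XT.nd (nat_lit 156) (nat_lit 152) (nat_lit 0) (XT.nd (nat_lit 78) (nat_lit 0) (nat_lit 0) (XT.lf (nat_lit 0) (nat_lit 92119509994) (nat_lit 228) (nat_lit 114365230103) (nat_lit 304) (nat_lit 152574900782) (nat_lit 35) (nat_lit 5) (nat_lit 38) (nat_lit 5) (nat_lit 39) (nat_lit 5) (nat_lit 364) (nat_lit 351) (nat_lit 185)) (XT.lf (nat_lit 0) (nat_lit 265672034035) (nat_lit 304) (nat_lit 86009343800) (nat_lit 76) (nat_lit 24611779419) (nat_lit 35) (nat_lit 5) (nat_lit 39) (nat_lit 5) (nat_lit 36) (nat_lit 5) (nat_lit 365) (nat_lit 351) (nat_lit 184))) (XT.nd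 (nat_lit 78) (nat_lit 0) (nat_lit 0) (XT.lf (nat_lit 0) (nat_lit 112029471548) (nat_lit 152) (nat_lit 223229615892) (nat_lit 228) (nat_lit 59193085543) (nat_lit 33) (nat_lit 5) (nat_lit 35) (nat_lit 5) (nat_lit 36) (nat_lit 5) (nat_lit 366) (nat_lit 351) (nat_lit 183)) (XT.lf (nat_lit 0) (nat_lit 330802744536) (nat_lit 152) (nat_lit 81961950183) (nat_lit 228) (nat_lit 1111088194) (nat_lit 33) (nat_lit 5) (nat_lit 35) (nat_lit 5) (nat_lit 36) (nat_lit 5) (nat_lit 367) (nat_lit 351) (nat_lit 182))))) (XT.nd (nat_lit 312) (nat_lit 456) (nat_lit 0) (XT.nd (nat_lit 156) (nat_lit 152) (nat_lit 0) (XT.nd (nat_lit 78) (nat_lit 0) (nat_lit 0) (XT.lf (nat_lit 0) (nat_lit 63667564112) (nat_lit 304) (nat_lit 298665206659) (nat_lit 76) (nat_lit 71991362791) (nat_lit 29) (nat_lit 5) (nat_lit 33) (nat_lit 5) (nat_lit 30) (nat_lit 5) (nat_lit 368) (nat_lit 351) (nat_lit 181)) (XT.lf (nat_lit 0) (nat_lit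 138027669880) (nat_lit 304) (nat_lit 81829568847) (nat_lit 76) (nat_lit 236192069756) (nat_lit 29) (nat_lit 5) (nat_lit 33) (nat_lit 5) (nat_lit 30) (nat_lit 5) (nat_lit 369) (nat_lit 351) (nat_lit 180))) (XT.nd (nat_lit 78) (nat_lit 0) (nat_lit 0) (XT.lf (nat_lit 0) (nat_lit 160375481957) (nat_lit 152) (nat_lit 61818086828) (nat_lit 228) (nat_lit 257010369921) (nat_lit 27) (nat_lit 5) (nat_lit 29) (nat_lit 5) (nat_lit 30) (nat_lit 5) (nat_lit 370) (nat_lit 351) (nat_lit 179)) (XT.lf (nat_lit 0) (nat_lit 318006357026) (nat_lit 228) (nat_lit 80097663953) (nat_lit 76) (nat_lit 105713829049) (nat_lit 27) (nat_lit 5) (nat_lit 30) (nat_lit 5) (nat_lit 28) (nat_lit 5) (nat_lit 371) (nat_lit 351) (nat_lit 178)))) (XT.nd (nat_lit 156) (nat_lit 304) (nat_lit 0) (XT.nd (nat_lit 78) (nat_lit 0) (nat_lit 0) (XT.lf (nat_lit 0) (nat_lit 185400337889) (nat_lit 152) (nat_lit 242148333212) (nat_lit 228)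 (nat_lit 102367043002) (nat_lit 25) (nat_lit 5) (nat_lit 27) (nat_lit 5) (nat_lit 28) (nat_lit 5) (nat_lit 372) (nat_lit 351) (nat_lit 177)) (XT.lf (nat_lit 0) (nat_lit 476693341101) (nat_lit 152) (nat_lit 71350998631) (nat_lit 228) (nat_lit 9881870083) (nat_lit 25) (nat_lit 5) (nat_lit 27) (nat_lit 5) (nat_lit 28) (nat_lit 5) (nat_lit 373) (nat_lit 351) (nat_lit 176))) (XT.nd (nat_lit 78) (nat_lit 152) (nat_lit 0) (XT.lf (nat_lit 0) (nat_lit 93495747368) (nat_lit 152) (nat_lit 378976890949) (nat_lit 76) (nat_lit 114892070590) (nat_lit 23) (nat_lit 5) (nat_lit 25) (nat_lit 5) (nat_lit 24) (nat_lit 5) (nat_lit 374) (nat_lit 351) (nat_lit 175)) (XT.nd (nat_lit 78) (nat_lit 152) (nat_lit 0) (XT.lf (nat_lit 0) (nat_lit 208741669960) (nat_lit 152) (nat_lit 95350355835) (nat_lit 76) (nat_lit 314715170555) (nat_lit 23) (nat_lit 5) (nat_lit 25) (nat_lit 5) (nat_lit 24) (nat_lit 5) (nat_lit 375)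 (nat_lit 351) (nat_lit 174)) (XT.lf (nat_lit 0) (nat_lit 222075352795) (nat_lit 152) (nat_lit 116472794559) (nat_lit 228) (nat_lit 313789665001) (nat_lit 21) (nat_lit 5) (nat_lit 23) (nat_lit 5) (nat_lit 24) (nat_lit 5) (nat_lit 376) (nat_lit 351) (nat_lit 173))))))) (XT.nd (nat_lit 702) (nat_lit 304) (nat_lit 0) (XT.nd (nat_lit 312) (nat_lit 228) (nat_lit 0) (XT.nd (nat_lit 156) (nat_lit 228) (nat_lit 0) (XT.nd (nat_lit 78) (nat_lit 76) (nat_lit 0) (XT.lf (nat_lit 0) (nat_lit 483485923710) (nat_lit 228) (nat_lit 120164364023) (nat_lit 76) (nat_lit 84520847491) (nat_lit 21) (nat_lit 5) (nat_lit 24) (nat_lit 5) (nat_lit 22) (nat_lit 4) (nat_lit 377) (nat_lit 351) (nat_lit 172)) (XT.lf (nat_lit 0) (nat_lit 222864860299) (nat_lit 76) (nat_lit 425539001427) (nat_lit 152) (nat_lit 77796451071) (nat_lit 20) (nat_lit 5) (nat_lit 21) (nat_lit 5) (nat_lit 22) (nat_lit 4) (nat_lit 378) (nat_lit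 351) (nat_lit 171))) (XT.nd (nat_lit 78) (nat_lit 152) (nat_lit 0) (XT.lf (nat_lit 0) (nat_lit 59650626611) (nat_lit 152) (nat_lit 168348905667) (nat_lit 76) (nat_lit 538888642962) (nat_lit 19) (nat_lit 5) (nat_lit 21) (nat_lit 5) (nat_lit 20) (nat_lit 5) (nat_lit 379) (nat_lit 351) (nat_lit 170)) (XT.lf (nat_lit 0) (nat_lit 201495445396) (nat_lit 152) (nat_lit 7240936027) (nat_lit 228) (nat_lit 601545355126) (nat_lit 17) (nat_lit 5) (nat_lit 19) (nat_lit 5) (nat_lit 20) (nat_lit 5) (nat_lit 380) (nat_lit 351) (nat_lit 169)))) (XT.nd (nat_lit 156) (nat_lit 152) (nat_lit 0) (XT.nd (nat_lit 78) (nat_lit 76) (nat_lit 0) (XT.lf (nat_lit 0) (nat_lit 380031326431) (nat_lit 228) (nat_lit 251956503672) (nat_lit 76) (nat_lit 224336366306) (nat_lit 17) (nat_lit 5) (nat_lit 20) (nat_lit 5) (nat_lit 18) (nat_lit 4) (nat_lit 381) (nat_lit 351) (nat_lit 168)) (XT.lf (nat_lit 0) (nat_lit 140247279979)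 (nat_lit 76) (nat_lit 428343586209) (nat_lit 152) (nat_lit 337174306966) (nat_lit 16) (nat_lit 5) (nat_lit 17) (nat_lit 5) (nat_lit 18) (nat_lit 4) (nat_lit 382) (nat_lit 351) (nat_lit 167))) (XT.nd (nat_lit 78) (nat_lit 152) (nat_lit 0) (XT.lf (nat_lit 0) (nat_lit 578156309625) (nat_lit 76) (nat_lit 200967770175) (nat_lit 152) (nat_lit 179486235408) (nat_lit 16) (nat_lit 5) (nat_lit 17) (nat_lit 5) (nat_lit 18) (nat_lit 4) (nat_lit 383) (nat_lit 351) (nat_lit 166)) (XT.nd (nat_lit 78) (nat_lit 76) (nat_lit 0) (XT.lf (nat_lit 0) (nat_lit 36150770896) (nat_lit 76) (nat_lit 972291167056) (nat_lit 76) (nat_lit 7085771704) (nat_lit 15) (nat_lit 4) (nat_lit 16) (nat_lit 5) (nat_lit 16) (nat_lit 4) (nat_lit 384) (nat_lit 351) (nat_lit 165)) (XT.lf (nat_lit 0) (nat_lit 186039478265) (nat_lit 152) (nat_lit 578243323958) (nat_lit 76) (nat_lit 311099700314) (nat_lit 14) (nat_lit 5) (nat_lit 16)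 (nat_lit 5) (nat_lit 15) (nat_lit 4) (nat_lit 385) (nat_lit 351) (nat_lit 164)))))) (XT.nd (nat_lit 312) (nat_lit 152) (nat_lit 0) (XT.nd (nat_lit 156) (nat_lit 76) (nat_lit 0) (XT.nd (nat_lit 78) (nat_lit 76) (nat_lit 0) (XT.lf (nat_lit 0) (nat_lit 394231909423) (nat_lit 152) (nat_lit 145203107332) (nat_lit 76) (nat_lit 600575940278) (nat_lit 14) (nat_lit 5) (nat_lit 16) (nat_lit 5) (nat_lit 15) (nat_lit 4) (nat_lit 386) (nat_lit 351) (nat_lit 163)) (XT.lf (nat_lit 0) (nat_lit 339461528841) (nat_lit 76) (nat_lit 287782242784) (nat_lit 152) (nat_lit 581912793357) (nat_lit 13) (nat_lit 5) (nat_lit 14) (nat_lit 5) (nat_lit 15) (nat_lit 4) (nat_lit 387) (nat_lit 351) (nat_lit 162))) (XT.nd (nat_lit 78) (nat_lit 76) (nat_lit 0) (XT.lf (nat_lit 0) (nat_lit 871157127972) (nat_lit 76) (nat_lit 11709544413) (nat_lit 152) (nat_lit 400649542031) (nat_lit 13) (nat_lit 5) (nat_lit 14) (nat_lit 5)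 (nat_lit 15) (nat_lit 4) (nat_lit 388) (nat_lit 351) (nat_lit 161)) (XT.lf (nat_lit 0) (nat_lit 78606830930) (nat_lit 76) (nat_lit 1089112155532) (nat_lit 76) (nat_lit 195403282857) (nat_lit 12) (nat_lit 4) (nat_lit 13) (nat_lit 5) (nat_lit 13) (nat_lit 4) (nat_lit 389) (nat_lit 351) (nat_lit 160)))) (XT.nd (nat_lit 156) (nat_lit 76) (nat_lit 0) (XT.nd (nat_lit 78) (nat_lit 0) (nat_lit 0) (XT.lf (nat_lit 0) (nat_lit 36820511834) (nat_lit 152) (nat_lit 817122235406) (nat_lit 76) (nat_lit 594153803926) (nat_lit 11) (nat_lit 5) (nat_lit 13) (nat_lit 5) (nat_lit 12) (nat_lit 4) (nat_lit 390) (nat_lit 351) (nat_lit 159)) (XT.lf (nat_lit 0) (nat_lit 277065339430) (nat_lit 152) (nat_lit 317413019328) (nat_lit 76) (nat_lit 944984385458) (nat_lit 11) (nat_lit 5) (nat_lit 13) (nat_lit 5) (nat_lit 12) (nat_lit 4) (nat_lit 391) (nat_lit 351) (nat_lit 158))) (XT.nd (nat_lit 78) (nat_lit 0) (nat_lit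 0) (XT.lf (nat_lit 0) (nat_lit 233977400479) (nat_lit 76) (nat_lit 308179498208) (nat_lit 152) (nat_lit 1095531162399) (nat_lit 10) (nat_lit 5) (nat_lit 11) (nat_lit 5) (nat_lit 12) (nat_lit 4) (nat_lit 392) (nat_lit 351) (nat_lit 157)) (XT.nd (nat_lit 78) (nat_lit 0) (nat_lit 0) (XT.lf (nat_lit 0) (nat_lit 837384429436) (nat_lit 152) (nat_lit 895796558722) (nat_lit 0) (nat_lit 9876123416) (nat_lit 10) (nat_lit 5) (nat_lit 12) (nat_lit 4) (nat_lit 10) (nat_lit 4) (nat_lit 393) (nat_lit 351) (nat_lit 156)) (XT.lf (nat_lit 0) (nat_lit 1164234809681) (nat_lit 152) (nat_lit 355254019618) (nat_lit 0) (nat_lit 336726485049) (nat_lit 10) (nat_lit 5) (nat_lit 12) (nat_lit 4) (nat_lit 10) (nat_lit 4) (nat_lit 394) (nat_lit 351) (nat_lit 155))))))))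
noncomputable def xc224 : XT := (XT.nd (nat_lit 43992) (nat_lit 0) (nat_lit 1444) (XT.nd (nat_lit 624) (nat_lit 76) (nat_lit 0) (XT.nd (nat_lit 312) (nat_lit 76) (nat_lit 0) (XT.nd (nat_lit 156) (nat_lit 76) (nat_lit 0) (XT.nd (nat_lit 78) (nat_lit 0) (nat_lit 0) (XT.lf (nat_lit 0) (nat_lit 240565980748) (nat_lit 76) (nat_lit 1282452843096) (nat_lit 76) (nat_lit 454944501230) (nat_lit 9) (nat_lit 4) (nat_lit 10) (nat_lit 5) (nat_lit 10) (nat_lit 4) (nat_lit 395) (nat_lit 351) (nat_lit 154)) (XT.lf (nat_lit 0) (nat_lit 904255166174) (nat_lit 76) (nat_lit 1015963653727) (nat_lit 76) (nat_lit 188455295903) (nat_lit 9) (nat_lit 4) (nat_lit 10) (nat_lit 5) (nat_lit 10) (nat_lit 4) (nat_lit 396) (nat_lit 351) (nat_lit 153))) (XT.nd (nat_lit 78) (nat_lit 0) (nat_lit 0) (XT.lf (nat_lit 0) (nat_lit 94382991091) (nat_lit 152) (nat_lit 631191751127) (nat_lit 76) (nat_lit 1524075873171) (nat_lit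 8) (nat_lit 5) (nat_lit 10) (nat_lit 5) (nat_lit 9) (nat_lit 4) (nat_lit 397) (nat_lit 351) (nat_lit 152)) (XT.lf (nat_lit 0) (nat_lit 389666848068) (nat_lit 152) (nat_lit 17001342297) (nat_lit 76) (nat_lit 1994845450128) (nat_lit 8) (nat_lit 5) (nat_lit 10) (nat_lit 5) (nat_lit 9) (nat_lit 4) (nat_lit 398) (nat_lit 351) (nat_lit 151)))) (XT.nd (nat_lit 156) (nat_lit 0) (nat_lit 0) (XT.nd (nat_lit 78) (nat_lit 0) (nat_lit 0) (XT.lf (nat_lit 0) (nat_lit 680358569227) (nat_lit 76) (nat_lit 44577473164) (nat_lit 152) (nat_lit 1839280654917) (nat_lit 7) (nat_lit 5) (nat_lit 8) (nat_lit 5) (nat_lit 9) (nat_lit 4) (nat_lit 399) (nat_lit 351) (nat_lit 150)) (XT.lf (nat_lit 0) (nat_lit 1095836546357) (nat_lit 152) (nat_lit 1313769615399) (nat_lit 0) (nat_lit 329625054990) (nat_lit 7) (nat_lit 5) (nat_lit 9) (nat_lit 4) (nat_lit 7) (nat_lit 4) (nat_lit 400) (nat_lit 351) (nat_lit 149))) (XT.nd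 (nat_lit 78) (nat_lit 0) (nat_lit 0) (XT.lf (nat_lit 0) (nat_lit 1497566936839) (nat_lit 152) (nat_lit 699231897793) (nat_lit 0) (nat_lit 731355435416) (nat_lit 7) (nat_lit 5) (nat_lit 9) (nat_lit 4) (nat_lit 7) (nat_lit 4) (nat_lit 401) (nat_lit 351) (nat_lit 148)) (XT.lf (nat_lit 0) (nat_lit 1931435749072) (nat_lit 152) (nat_lit 35531180968) (nat_lit 0) (nat_lit 1165224238338) (nat_lit 7) (nat_lit 5) (nat_lit 9) (nat_lit 4) (nat_lit 7) (nat_lit 4) (nat_lit 402) (nat_lit 351) (nat_lit 147))))) (XT.nd (nat_lit 42978) (nat_lit 0) (nat_lit 3268) (XT.nd (nat_lit 156) (nat_lit 0) (nat_lit 0) (XT.nd (nat_lit 78) (nat_lit 0) (nat_lit 0) (XT.lf (nat_lit 0) (nat_lit 717139814305) (nat_lit 76) (nat_lit 1700121472974) (nat_lit 76) (nat_lit 933909953619) (nat_lit 6) (nat_lit 4) (nat_lit 7) (nat_lit 5) (nat_lit 7) (nat_lit 4) (nat_lit 403) (nat_lit 351) (nat_lit 146)) (XT.lf (nat_lit 0) (nat_lit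 1532045162531) (nat_lit 76) (nat_lit 1410879182939) (nat_lit 76) (nat_lit 644667655601) (nat_lit 6) (nat_lit 4) (nat_lit 7) (nat_lit 5) (nat_lit 7) (nat_lit 4) (nat_lit 404) (nat_lit 351) (nat_lit 145))) (XT.nd (nat_lit 42744) (nat_lit 0) (nat_lit 3268) (XT.lf (nat_lit 0) (nat_lit 2412142923414) (nat_lit 76) (nat_lit 1098497517004) (nat_lit 76) (nat_lit 332285982275) (nat_lit 6) (nat_lit 4) (nat_lit 7) (nat_lit 5) (nat_lit 7) (nat_lit 4) (nat_lit 405) (nat_lit 351) (nat_lit 144)) (XT.lf (nat_lit 0) (nat_lit 77051980274) (nat_lit 532) (nat_lit 17278895876) (nat_lit 532) (nat_lit 17278895876) (nat_lit 49) (nat_lit 3) (nat_lit 56) (nat_lit 3) (nat_lit 56) (nat_lit 5) (nat_lit 352) (nat_lit 352) (nat_lit 196)))) (XT.nd (nat_lit 156) (nat_lit 0) (nat_lit 76) (XT.nd (nat_lit 78) (nat_lit 0) (nat_lit 76) (XT.lf (nat_lit 76) (nat_lit 72697033640) (nat_lit 0) (nat_lit 89320658191) (nat_lit 532)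 (nat_lit 69990665147) (nat_lit 50) (nat_lit 5) (nat_lit 49) (nat_lit 3) (nat_lit 56) (nat_lit 5) (nat_lit 353) (nat_lit 352) (nat_lit 195)) (XT.lf (nat_lit 0) (nat_lit 171965938008) (nat_lit 456) (nat_lit 51383854440) (nat_lit 532) (nat_lit 18038369478) (nat_lit 50) (nat_lit 5) (nat_lit 56) (nat_lit 5) (nat_lit 57) (nat_lit 5) (nat_lit 354) (nat_lit 352) (nat_lit 194))) (XT.nd (nat_lit 78) (nat_lit 0) (nat_lit 0) (XT.lf (nat_lit 76) (nat_lit 66167696773) (nat_lit 0) (nat_lit 120453586707) (nat_lit 532) (nat_lit 64584168902) (nat_lit 51) (nat_lit 5) (nat_lit 50) (nat_lit 5) (nat_lit 57) (nat_lit 5) (nat_lit 355) (nat_lit 352) (nat_lit 193)) (XT.nd (nat_lit 78) (nat_lit 0) (nat_lit 76) (XT.lf (nat_lit 76) (nat_lit 196045545024) (nat_lit 0) (nat_lit 7808331582) (nat_lit 532) (nat_lit 57841864124) (nat_lit 51) (nat_lit 5) (nat_lit 50) (nat_lit 5) (nat_lit 57) (nat_lit 5) (nat_lit 356) (nat_lit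 352) (nat_lit 192)) (XT.lf (nat_lit 76) (nat_lit 63738700895) (nat_lit 0) (nat_lit 162997256736) (nat_lit 532) (nat_lit 45947624318) (nat_lit 52) (nat_lit 5) (nat_lit 51) (nat_lit 5) (nat_lit 58) (nat_lit 5) (nat_lit 357) (nat_lit 352) (nat_lit 191))))))) (XT.nd (nat_lit 624) (nat_lit 760) (nat_lit 0) (XT.nd (nat_lit 312) (nat_lit 456) (nat_lit 0) (XT.nd (nat_lit 156) (nat_lit 380) (nat_lit 0) (XT.nd (nat_lit 78) (nat_lit 380) (nat_lit 0) (XT.lf (nat_lit 76) (nat_lit 206998726492) (nat_lit 0) (nat_lit 46442458973) (nat_lit 532) (nat_lit 30949858796) (nat_lit 52) (nat_lit 5) (nat_lit 51) (nat_lit 5) (nat_lit 58) (nat_lit 5) (nat_lit 358) (nat_lit 352) (nat_lit 190)) (XT.lf (nat_lit 0) (nat_lit 66079483025) (nat_lit 456) (nat_lit 219702932281) (nat_lit 532) (nat_lit 10972721754) (nat_lit 46) (nat_lit 5) (nat_lit 52) (nat_lit 5) (nat_lit 53) (nat_lit 5) (nat_lit 359) (nat_lit 352) (nat_lit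 189))) (XT.nd (nat_lit 78) (nat_lit 304) (nat_lit 0) (XT.lf (nat_lit 0) (nat_lit 13449422617) (nat_lit 532) (nat_lit 86025006925) (nat_lit 76) (nat_lit 210343350867) (nat_lit 45) (nat_lit 5) (nat_lit 52) (nat_lit 5) (nat_lit 46) (nat_lit 5) (nat_lit 360) (nat_lit 352) (nat_lit 188)) (XT.lf (nat_lit 0) (nat_lit 41786221110) (nat_lit 380) (nat_lit 250950789048) (nat_lit 76) (nat_lit 30961329205) (nat_lit 41) (nat_lit 5) (nat_lit 46) (nat_lit 5) (nat_lit 42) (nat_lit 5) (nat_lit 361) (nat_lit 352) (nat_lit 187)))) (XT.nd (nat_lit 156) (nat_lit 228) (nat_lit 0) (XT.nd (nat_lit 78) (nat_lit 228) (nat_lit 0) (XT.lf (nat_lit 0) (nat_lit 77386811748) (nat_lit 380) (nat_lit 92031867471) (nat_lit 76) (nat_lit 168870916104) (nat_lit 41) (nat_lit 5) (nat_lit 46) (nat_lit 5) (nat_lit 42) (nat_lit 5) (nat_lit 362) (nat_lit 352) (nat_lit 186)) (XT.lf (nat_lit 0) (nat_lit 83792117882) (nat_lit 228) (nat_lit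 34058467373) (nat_lit 304) (nat_lit 236036355793) (nat_lit 38) (nat_lit 5) (nat_lit 41) (nat_lit 5) (nat_lit 42) (nat_lit 5) (nat_lit 363) (nat_lit 352) (nat_lit 185))) (XT.nd (nat_lit 78) (nat_lit 228) (nat_lit 0) (XT.lf (nat_lit 0) (nat_lit 166829812827) (nat_lit 304) (nat_lit 94376989206) (nat_lit 76) (nat_lit 109103004355) (nat_lit 38) (nat_lit 5) (nat_lit 42) (nat_lit 5) (nat_lit 39) (nat_lit 5) (nat_lit 364) (nat_lit 352) (nat_lit 184)) (XT.lf (nat_lit 0) (nat_lit 99490484090) (nat_lit 228) (nat_lit 123514219599) (nat_lit 304) (nat_lit 164779611379) (nat_lit 35) (nat_lit 5) (nat_lit 38) (nat_lit 5) (nat_lit 39) (nat_lit 5) (nat_lit 365) (nat_lit 352) (nat_lit 183))))) (XT.nd (nat_lit 312) (nat_lit 304) (nat_lit 0) (XT.nd (nat_lit 156) (nat_lit 304) (nat_lit 0) (XT.nd (nat_lit 78) (nat_lit 152) (nat_lit 0) (XT.lf (nat_lit 0) (nat_lit 286926898508) (nat_lit 304) (nat_lit 92888697903)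 (nat_lit 76) (nat_lit 26580923126) (nat_lit 35) (nat_lit 5) (nat_lit 39) (nat_lit 5) (nat_lit 36) (nat_lit 5) (nat_lit 366) (nat_lit 352) (nat_lit 182)) (XT.lf (nat_lit 0) (nat_lit 120993187397) (nat_lit 152) (nat_lit 241087679840) (nat_lit 228) (nat_lit 63927393362) (nat_lit 33) (nat_lit 5) (nat_lit 35) (nat_lit 5) (nat_lit 36) (nat_lit 5) (nat_lit 367) (nat_lit 352) (nat_lit 181))) (XT.nd (nat_lit 78) (nat_lit 304) (nat_lit 0) (XT.lf (nat_lit 0) (nat_lit 357268221622) (nat_lit 152) (nat_lit 88518623491) (nat_lit 228) (nat_lit 1198920598) (nat_lit 33) (nat_lit 5) (nat_lit 35) (nat_lit 5) (nat_lit 36) (nat_lit 5) (nat_lit 368) (nat_lit 352) (nat_lit 180)) (XT.lf (nat_lit 0) (nat_lit 68761935380) (nat_lit 304) (nat_lit 322557073854) (nat_lit 76) (nat_lit 77750976135) (nat_lit 29) (nat_lit 5) (nat_lit 33) (nat_lit 5) (nat_lit 30) (nat_lit 5) (nat_lit 369) (nat_lit 352) (nat_lit 179))))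 (XT.nd (nat_lit 156) (nat_lit 152) (nat_lit 0) (XT.nd (nat_lit 78) (nat_lit 152) (nat_lit 0) (XT.lf (nat_lit 0) (nat_lit 149070778043) (nat_lit 304) (nat_lit 88374684969) (nat_lit 76) (nat_lit 255087717115) (nat_lit 29) (nat_lit 5) (nat_lit 33) (nat_lit 5) (nat_lit 30) (nat_lit 5) (nat_lit 370) (nat_lit 352) (nat_lit 178)) (XT.lf (nat_lit 0) (nat_lit 173206738270) (nat_lit 152) (nat_lit 66763173613) (nat_lit 228) (nat_lit 277570271951) (nat_lit 27) (nat_lit 5) (nat_lit 29) (nat_lit 5) (nat_lit 30) (nat_lit 5) (nat_lit 371) (nat_lit 352) (nat_lit 177))) (XT.nd (nat_lit 78) (nat_lit 152) (nat_lit 0) (XT.lf (nat_lit 0) (nat_lit 343447667678) (nat_lit 228) (nat_lit 86504292752) (nat_lit 76) (nat_lit 114171252173) (nat_lit 27) (nat_lit 5) (nat_lit 30) (nat_lit 5) (nat_lit 28) (nat_lit 5) (nat_lit 372) (nat_lit 352) (nat_lit 176)) (XT.nd (nat_lit 78) (nat_lit 0) (nat_lit 0) (XT.lf (nat_lit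 0) (nat_lit 200233519256) (nat_lit 152) (nat_lit 261519815972) (nat_lit 228) (nat_lit 110555573203) (nat_lit 25) (nat_lit 5) (nat_lit 27) (nat_lit 5) (nat_lit 28) (nat_lit 5) (nat_lit 373) (nat_lit 352) (nat_lit 175)) (XT.lf (nat_lit 0) (nat_lit 514829877218) (nat_lit 152) (nat_lit 77058723061) (nat_lit 228) (nat_lit 10671648172) (nat_lit 25) (nat_lit 5) (nat_lit 27) (nat_lit 5) (nat_lit 28) (nat_lit 5) (nat_lit 374) (nat_lit 352) (nat_lit 174))))))))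
noncomputable def xc225 : XT := (XT.nd (nat_lit 1326) (nat_lit 380) (nat_lit 0) (XT.nd (nat_lit 624) (nat_lit 456) (nat_lit 0) (XT.nd (nat_lit 312) (nat_lit 304) (nat_lit 0) (XT.nd (nat_lit 156) (nat_lit 152) (nat_lit 0) (XT.nd (nat_lit 78) (nat_lit 0) (nat_lit 0) (XT.lf (nat_lit 0) (nat_lit 100976120810) (nat_lit 152) (nat_lit 409293913605) (nat_lit 76) (nat_lit 124083793187) (nat_lit 23) (nat_lit 5) (nat_lit 25) (nat_lit 5) (nat_lit 24) (nat_lit 5) (nat_lit 375) (nat_lit 352) (nat_lit 173)) (XT.lf (nat_lit 0) (nat_lit 225441664346) (nat_lit 152) (nat_lit 102977339283) (nat_lit 76) (nat_lit 339892714708) (nat_lit 23) (nat_lit 5) (nat_lit 25) (nat_lit 5) (nat_lit 24) (nat_lit 5) (nat_lit 376) (nat_lit 352) (nat_lit 172))) (XT.nd (nat_lit 78) (nat_lit 0) (nat_lit 0) (XT.lf (nat_lit 0) (nat_lit 239842399581) (nat_lit 152) (nat_lit 125790235900) (nat_lit 228) (nat_lit 338892150162) (nat_lit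 21) (nat_lit 5) (nat_lit 23) (nat_lit 5) (nat_lit 24) (nat_lit 5) (nat_lit 377) (nat_lit 352) (nat_lit 171)) (XT.lf (nat_lit 0) (nat_lit 522165395320) (nat_lit 228) (nat_lit 129776530671) (nat_lit 76) (nat_lit 91282851498) (nat_lit 21) (nat_lit 5) (nat_lit 24) (nat_lit 5) (nat_lit 22) (nat_lit 4) (nat_lit 378) (nat_lit 352) (nat_lit 170)))) (XT.nd (nat_lit 156) (nat_lit 152) (nat_lit 0) (XT.nd (nat_lit 78) (nat_lit 76) (nat_lit 0) (XT.lf (nat_lit 0) (nat_lit 240695006724) (nat_lit 76) (nat_lit 459581740410) (nat_lit 152) (nat_lit 84019543890) (nat_lit 20) (nat_lit 5) (nat_lit 21) (nat_lit 5) (nat_lit 22) (nat_lit 4) (nat_lit 379) (nat_lit 352) (nat_lit 169)) (XT.lf (nat_lit 0) (nat_lit 64423224970) (nat_lit 152) (nat_lit 181815902001) (nat_lit 76) (nat_lit 582000057846) (nat_lit 19) (nat_lit 5) (nat_lit 21) (nat_lit 5) (nat_lit 20) (nat_lit 5) (nat_lit 380) (nat_lit 352) (nat_lit 168)))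 (XT.nd (nat_lit 78) (nat_lit 0) (nat_lit 0) (XT.lf (nat_lit 0) (nat_lit 217615973955) (nat_lit 152) (nat_lit 7819847078) (nat_lit 228) (nat_lit 649668411573) (nat_lit 17) (nat_lit 5) (nat_lit 19) (nat_lit 5) (nat_lit 20) (nat_lit 5) (nat_lit 381) (nat_lit 352) (nat_lit 167)) (XT.lf (nat_lit 0) (nat_lit 410434330551) (nat_lit 228) (nat_lit 272112165591) (nat_lit 76) (nat_lit 242283595639) (nat_lit 17) (nat_lit 5) (nat_lit 20) (nat_lit 5) (nat_lit 18) (nat_lit 4) (nat_lit 382) (nat_lit 352) (nat_lit 166))))) (XT.nd (nat_lit 312) (nat_lit 228) (nat_lit 0) (XT.nd (nat_lit 156) (nat_lit 152) (nat_lit 0) (XT.nd (nat_lit 78) (nat_lit 0) (nat_lit 0) (XT.lf (nat_lit 0) (nat_lit 151467899021) (nat_lit 76) (nat_lit 462610717699) (nat_lit 152) (nat_lit 364147731324) (nat_lit 16) (nat_lit 5) (nat_lit 17) (nat_lit 5) (nat_lit 18) (nat_lit 4) (nat_lit 383) (nat_lit 352) (nat_lit 165)) (XT.lf (nat_lit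 0) (nat_lit 624409589065) (nat_lit 76) (nat_lit 217044862710) (nat_lit 152) (nat_lit 193844652575) (nat_lit 16) (nat_lit 5) (nat_lit 17) (nat_lit 5) (nat_lit 18) (nat_lit 4) (nat_lit 384) (nat_lit 352) (nat_lit 164))) (XT.nd (nat_lit 78) (nat_lit 76) (nat_lit 0) (XT.lf (nat_lit 0) (nat_lit 39043615075) (nat_lit 76) (nat_lit 1050074116645) (nat_lit 76) (nat_lit 7652159214) (nat_lit 15) (nat_lit 4) (nat_lit 16) (nat_lit 5) (nat_lit 16) (nat_lit 4) (nat_lit 385) (nat_lit 352) (nat_lit 163)) (XT.lf (nat_lit 0) (nat_lit 200923053659) (nat_lit 152) (nat_lit 624502043025) (nat_lit 76) (nat_lit 335987972345) (nat_lit 14) (nat_lit 5) (nat_lit 16) (nat_lit 5) (nat_lit 15) (nat_lit 4) (nat_lit 386) (nat_lit 352) (nat_lit 162)))) (XT.nd (nat_lit 156) (nat_lit 152) (nat_lit 0) (XT.nd (nat_lit 78) (nat_lit 76) (nat_lit 0) (XT.lf (nat_lit 0) (nat_lit 425770848411) (nat_lit 152) (nat_lit 156818664392)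 (nat_lit 76) (nat_lit 648622289579) (nat_lit 14) (nat_lit 5) (nat_lit 16) (nat_lit 5) (nat_lit 15) (nat_lit 4) (nat_lit 387) (nat_lit 352) (nat_lit 161)) (XT.lf (nat_lit 0) (nat_lit 366619125168) (nat_lit 76) (nat_lit 310804522021) (nat_lit 152) (nat_lit 628465412793) (nat_lit 13) (nat_lit 5) (nat_lit 14) (nat_lit 5) (nat_lit 15) (nat_lit 4) (nat_lit 388) (nat_lit 352) (nat_lit 160))) (XT.nd (nat_lit 78) (nat_lit 152) (nat_lit 0) (XT.lf (nat_lit 0) (nat_lit 940850322302) (nat_lit 76) (nat_lit 12646030017) (nat_lit 152) (nat_lit 432701131289) (nat_lit 13) (nat_lit 5) (nat_lit 14) (nat_lit 5) (nat_lit 15) (nat_lit 4) (nat_lit 389) (nat_lit 352) (nat_lit 159)) (XT.nd (nat_lit 78) (nat_lit 76) (nat_lit 0) (XT.lf (nat_lit 0) (nat_lit 84896006435) (nat_lit 76) (nat_lit 1176240840764) (nat_lit 76) (nat_lit 211035176069) (nat_lit 12) (nat_lit 4) (nat_lit 13) (nat_lit 5) (nat_lit 13) (nat_lit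 4) (nat_lit 390) (nat_lit 352) (nat_lit 158)) (XT.lf (nat_lit 0) (nat_lit 39766477723) (nat_lit 152) (nat_lit 882491414477) (nat_lit 76) (nat_lit 641686356851) (nat_lit 11) (nat_lit 5) (nat_lit 13) (nat_lit 5) (nat_lit 12) (nat_lit 4) (nat_lit 391) (nat_lit 352) (nat_lit 157))))))) (XT.nd (nat_lit 624) (nat_lit 152) (nat_lit 0) (XT.nd (nat_lit 312) (nat_lit 152) (nat_lit 0) (XT.nd (nat_lit 156) (nat_lit 0) (nat_lit 0) (XT.nd (nat_lit 78) (nat_lit 76) (nat_lit 0) (XT.lf (nat_lit 0) (nat_lit 299230867457) (nat_lit 152) (nat_lit 342805505540) (nat_lit 76) (nat_lit 1020583366489) (nat_lit 11) (nat_lit 5) (nat_lit 13) (nat_lit 5) (nat_lit 12) (nat_lit 4) (nat_lit 392) (nat_lit 352) (nat_lit 156)) (XT.lf (nat_lit 0) (nat_lit 252696133793) (nat_lit 76) (nat_lit 332833608392) (nat_lit 152) (nat_lit 1183173340276) (nat_lit 10) (nat_lit 5) (nat_lit 11) (nat_lit 5) (nat_lit 12) (nat_lit 4) (nat_lit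 393) (nat_lit 352) (nat_lit 155))) (XT.nd (nat_lit 78) (nat_lit 0) (nat_lit 0) (XT.lf (nat_lit 0) (nat_lit 904375459353) (nat_lit 152) (nat_lit 967459766028) (nat_lit 0) (nat_lit 10666432904) (nat_lit 10) (nat_lit 5) (nat_lit 12) (nat_lit 4) (nat_lit 10) (nat_lit 4) (nat_lit 394) (nat_lit 352) (nat_lit 154)) (XT.lf (nat_lit 0) (nat_lit 1257373849606) (nat_lit 152) (nat_lit 383673862121) (nat_lit 0) (nat_lit 363664807199) (nat_lit 10) (nat_lit 5) (nat_lit 12) (nat_lit 4) (nat_lit 10) (nat_lit 4) (nat_lit 395) (nat_lit 352) (nat_lit 153)))) (XT.nd (nat_lit 156) (nat_lit 76) (nat_lit 0) (XT.nd (nat_lit 78) (nat_lit 0) (nat_lit 0) (XT.lf (nat_lit 0) (nat_lit 259811726146) (nat_lit 76) (nat_lit 1385048851085) (nat_lit 76) (nat_lit 491339793903) (nat_lit 9) (nat_lit 4) (nat_lit 10) (nat_lit 5) (nat_lit 10) (nat_lit 4) (nat_lit 396) (nat_lit 352) (nat_lit 152)) (XT.lf (nat_lit 0) (nat_lit 976596011818)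 (nat_lit 76) (nat_lit 1097240542823) (nat_lit 76) (nat_lit 203531471960) (nat_lit 9) (nat_lit 4) (nat_lit 10) (nat_lit 5) (nat_lit 10) (nat_lit 4) (nat_lit 397) (nat_lit 352) (nat_lit 151))) (XT.nd (nat_lit 78) (nat_lit 0) (nat_lit 0) (XT.lf (nat_lit 0) (nat_lit 101933848183) (nat_lit 152) (nat_lit 681686679308) (nat_lit 76) (nat_lit 1646002119589) (nat_lit 8) (nat_lit 5) (nat_lit 10) (nat_lit 5) (nat_lit 9) (nat_lit 4) (nat_lit 398) (nat_lit 352) (nat_lit 150)) (XT.lf (nat_lit 0) (nat_lit 420840397584) (nat_lit 152) (nat_lit 18361068283) (nat_lit 76) (nat_lit 2154433249625) (nat_lit 8) (nat_lit 5) (nat_lit 10) (nat_lit 5) (nat_lit 9) (nat_lit 4) (nat_lit 399) (nat_lit 352) (nat_lit 149))))) (XT.nd (nat_lit 312) (nat_lit 76) (nat_lit 0) (XT.nd (nat_lit 156) (nat_lit 0) (nat_lit 0) (XT.nd (nat_lit 78) (nat_lit 0) (nat_lit 0) (XT.lf (nat_lit 0) (nat_lit 734787626507) (nat_lit 76) (nat_lit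 48143494947) (nat_lit 152) (nat_lit 1986422895885) (nat_lit 7) (nat_lit 5) (nat_lit 8) (nat_lit 5) (nat_lit 9) (nat_lit 4) (nat_lit 400) (nat_lit 352) (nat_lit 148)) (XT.lf (nat_lit 0) (nat_lit 1183503655164) (nat_lit 152) (nat_lit 1418870829760) (nat_lit 0) (nat_lit 355995214261) (nat_lit 7) (nat_lit 5) (nat_lit 9) (nat_lit 4) (nat_lit 7) (nat_lit 4) (nat_lit 401) (nat_lit 352) (nat_lit 147))) (XT.nd (nat_lit 78) (nat_lit 0) (nat_lit 0) (XT.lf (nat_lit 0) (nat_lit 1617372463174) (nat_lit 152) (nat_lit 755170121032) (nat_lit 0) (nat_lit 789864013649) (nat_lit 7) (nat_lit 5) (nat_lit 9) (nat_lit 4) (nat_lit 7) (nat_lit 4) (nat_lit 402) (nat_lit 352) (nat_lit 146)) (XT.lf (nat_lit 0) (nat_lit 2085950767690) (nat_lit 152) (nat_lit 38373371201) (nat_lit 0) (nat_lit 1258442310183) (nat_lit 7) (nat_lit 5) (nat_lit 9) (nat_lit 4) (nat_lit 7) (nat_lit 4) (nat_lit 403) (nat_lit 352) (nat_lit 145))))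 (XT.nd (nat_lit 42900) (nat_lit 0) (nat_lit 3268) (XT.nd (nat_lit 78) (nat_lit 0) (nat_lit 0) (XT.lf (nat_lit 0) (nat_lit 774511295992) (nat_lit 76) (nat_lit 1836131048339) (nat_lit 76) (nat_lit 1008622583441) (nat_lit 6) (nat_lit 4) (nat_lit 7) (nat_lit 5) (nat_lit 7) (nat_lit 4) (nat_lit 404) (nat_lit 352) (nat_lit 144)) (XT.lf (nat_lit 0) (nat_lit 1654609050109) (nat_lit 76) (nat_lit 1523749385655) (nat_lit 76) (nat_lit 696240913913) (nat_lit 6) (nat_lit 4) (nat_lit 7) (nat_lit 5) (nat_lit 7) (nat_lit 4) (nat_lit 405) (nat_lit 352) (nat_lit 143))) (XT.nd (nat_lit 78) (nat_lit 0) (nat_lit 0) (XT.lf (nat_lit 0) (nat_lit 83217317110) (nat_lit 532) (nat_lit 18660569734) (nat_lit 532) (nat_lit 18660569734) (nat_lit 49) (nat_lit 3) (nat_lit 56) (nat_lit 3) (nat_lit 56) (nat_lit 5) (nat_lit 353) (nat_lit 353) (nat_lit 194)) (XT.nd (nat_lit 78) (nat_lit 0) (nat_lit 76) (XT.lf (nat_lit 76)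 (nat_lit 78514039660) (nat_lit 0) (nat_lit 96467279668) (nat_lit 532) (nat_lit 75587523799) (nat_lit 50) (nat_lit 5) (nat_lit 49) (nat_lit 3) (nat_lit 56) (nat_lit 5) (nat_lit 354) (nat_lit 353) (nat_lit 193)) (XT.lf (nat_lit 0) (nat_lit 185725239762) (nat_lit 456) (nat_lit 55493221094) (nat_lit 532) (nat_lit 19480586854) (nat_lit 50) (nat_lit 5) (nat_lit 56) (nat_lit 5) (nat_lit 57) (nat_lit 5) (nat_lit 355) (nat_lit 353) (nat_lit 192))))))))
noncomputable def xc226 : XT := (XT.nd (nat_lit 1326) (nat_lit 1064) (nat_lit 0) (XT.nd (nat_lit 624) (nat_lit 1064) (nat_lit 0) (XT.nd (nat_lit 312) (nat_lit 684) (nat_lit 0) (XT.nd (nat_lit 156) (nat_lit 0) (nat_lit 76) (XT.nd (nat_lit 78) (nat_lit 0) (nat_lit 0) (XT.lf (nat_lit 76) (nat_lit 71462420249) (nat_lit 0) (nat_lit 130090473946) (nat_lit 532) (nat_lit 69748837073) (nat_lit 51) (nat_lit 5) (nat_lit 50) (nat_lit 5) (nat_lit 57) (nat_lit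 5) (nat_lit 356) (nat_lit 353) (nat_lit 191)) (XT.lf (nat_lit 76) (nat_lit 211730399491) (nat_lit 0) (nat_lit 8433553944) (nat_lit 532) (nat_lit 62467300901) (nat_lit 51) (nat_lit 5) (nat_lit 50) (nat_lit 5) (nat_lit 57) (nat_lit 5) (nat_lit 357) (nat_lit 353) (nat_lit 190))) (XT.nd (nat_lit 78) (nat_lit 0) (nat_lit 0) (XT.lf (nat_lit 76) (nat_lit 68839132172) (nat_lit 0) (nat_lit 176037357639) (nat_lit 532) (nat_lit 49621642253) (nat_lit 52) (nat_lit 5) (nat_lit 51) (nat_lit 5) (nat_lit 58) (nat_lit 5) (nat_lit 358) (nat_lit 353) (nat_lit 189)) (XT.lf (nat_lit 76) (nat_lit 223559860912) (nat_lit 0) (nat_lit 50158152324) (nat_lit 532) (nat_lit 33424188231) (nat_lit 52) (nat_lit 5) (nat_lit 51) (nat_lit 5) (nat_lit 58) (nat_lit 5) (nat_lit 359) (nat_lit 353) (nat_lit 188)))) (XT.nd (nat_lit 156) (nat_lit 304) (nat_lit 0) (XT.nd (nat_lit 78) (nat_lit 76) (nat_lit 0) (XT.lf (nat_lit 0) (nat_lit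 71367176759) (nat_lit 456) (nat_lit 237279276658) (nat_lit 532) (nat_lit 11848975590) (nat_lit 46) (nat_lit 5) (nat_lit 52) (nat_lit 5) (nat_lit 53) (nat_lit 5) (nat_lit 360) (nat_lit 353) (nat_lit 187)) (XT.lf (nat_lit 0) (nat_lit 14526752047) (nat_lit 532) (nat_lit 92905695908) (nat_lit 76) (nat_lit 227170641900) (nat_lit 45) (nat_lit 5) (nat_lit 52) (nat_lit 5) (nat_lit 46) (nat_lit 5) (nat_lit 361) (nat_lit 353) (nat_lit 186))) (XT.nd (nat_lit 78) (nat_lit 0) (nat_lit 0) (XT.lf (nat_lit 0) (nat_lit 45130422639) (nat_lit 380) (nat_lit 271025466100) (nat_lit 76) (nat_lit 33438210746) (nat_lit 41) (nat_lit 5) (nat_lit 46) (nat_lit 5) (nat_lit 42) (nat_lit 5) (nat_lit 362) (nat_lit 353) (nat_lit 185)) (XT.lf (nat_lit 0) (nat_lit 83578963947) (nat_lit 380) (nat_lit 99393133469) (nat_lit 76) (nat_lit 182380566434) (nat_lit 41) (nat_lit 5) (nat_lit 46) (nat_lit 5) (nat_lit 42) (nat_lit 5)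 (nat_lit 363) (nat_lit 353) (nat_lit 184))))) (XT.nd (nat_lit 312) (nat_lit 608) (nat_lit 0) (XT.nd (nat_lit 156) (nat_lit 228) (nat_lit 0) (XT.nd (nat_lit 78) (nat_lit 0) (nat_lit 0) (XT.lf (nat_lit 0) (nat_lit 90496738222) (nat_lit 228) (nat_lit 36783041771) (nat_lit 304) (nat_lit 254918022174) (nat_lit 38) (nat_lit 5) (nat_lit 41) (nat_lit 5) (nat_lit 42) (nat_lit 5) (nat_lit 364) (nat_lit 353) (nat_lit 183)) (XT.lf (nat_lit 0) (nat_lit 180177263033) (nat_lit 304) (nat_lit 101925905197) (nat_lit 76) (nat_lit 117831335296) (nat_lit 38) (nat_lit 5) (nat_lit 42) (nat_lit 5) (nat_lit 39) (nat_lit 5) (nat_lit 365) (nat_lit 353) (nat_lit 182))) (XT.nd (nat_lit 78) (nat_lit 0) (nat_lit 0) (XT.lf (nat_lit 0) (nat_lit 107450934491) (nat_lit 228) (nat_lit 133395160912) (nat_lit 304) (nat_lit 177960881638) (nat_lit 35) (nat_lit 5) (nat_lit 38) (nat_lit 5) (nat_lit 39) (nat_lit 5) (nat_lit 366)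 (nat_lit 353) (nat_lit 181)) (XT.lf (nat_lit 0) (nat_lit 309881994961) (nat_lit 304) (nat_lit 100318599118) (nat_lit 76) (nat_lit 28707569603) (nat_lit 35) (nat_lit 5) (nat_lit 39) (nat_lit 5) (nat_lit 36) (nat_lit 5) (nat_lit 367) (nat_lit 353) (nat_lit 180)))) (XT.nd (nat_lit 156) (nat_lit 456) (nat_lit 0) (XT.nd (nat_lit 78) (nat_lit 0) (nat_lit 0) (XT.lf (nat_lit 0) (nat_lit 130673806762) (nat_lit 152) (nat_lit 260374432461) (nat_lit 228) (nat_lit 69040608301) (nat_lit 33) (nat_lit 5) (nat_lit 35) (nat_lit 5) (nat_lit 36) (nat_lit 5) (nat_lit 368) (nat_lit 353) (nat_lit 179)) (XT.lf (nat_lit 0) (nat_lit 385850757475) (nat_lit 152) (nat_lit 95599870994) (nat_lit 228) (nat_lit 1293930051) (nat_lit 33) (nat_lit 5) (nat_lit 35) (nat_lit 5) (nat_lit 36) (nat_lit 5) (nat_lit 369) (nat_lit 353) (nat_lit 178))) (XT.nd (nat_lit 78) (nat_lit 152) (nat_lit 0) (XT.lf (nat_lit 0) (nat_lit 74263718519)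 (nat_lit 304) (nat_lit 348360482923) (nat_lit 76) (nat_lit 83971315131) (nat_lit 29) (nat_lit 5) (nat_lit 33) (nat_lit 5) (nat_lit 30) (nat_lit 5) (nat_lit 370) (nat_lit 353) (nat_lit 177)) (XT.nd (nat_lit 78) (nat_lit 152) (nat_lit 0) (XT.lf (nat_lit 0) (nat_lit 160997207239) (nat_lit 304) (nat_lit 95443588618) (nat_lit 76) (nat_lit 275494976064) (nat_lit 29) (nat_lit 5) (nat_lit 33) (nat_lit 5) (nat_lit 30) (nat_lit 5) (nat_lit 371) (nat_lit 353) (nat_lit 176)) (XT.lf (nat_lit 0) (nat_lit 187064321362) (nat_lit 152) (nat_lit 72103918722) (nat_lit 228) (nat_lit 299775098471) (nat_lit 27) (nat_lit 5) (nat_lit 29) (nat_lit 5) (nat_lit 30) (nat_lit 5) (nat_lit 372) (nat_lit 353) (nat_lit 175))))))) (XT.nd (nat_lit 624) (nat_lit 532) (nat_lit 0) (XT.nd (nat_lit 312) (nat_lit 228) (nat_lit 0) (XT.nd (nat_lit 156) (nat_lit 152) (nat_lit 0) (XT.nd (nat_lit 78) (nat_lit 152) (nat_lit 0) (XT.lf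 (nat_lit 0) (nat_lit 370924168756) (nat_lit 228) (nat_lit 93423620811) (nat_lit 76) (nat_lit 123305223953) (nat_lit 27) (nat_lit 5) (nat_lit 30) (nat_lit 5) (nat_lit 28) (nat_lit 5) (nat_lit 373) (nat_lit 353) (nat_lit 174)) (XT.lf (nat_lit 0) (nat_lit 216253190452) (nat_lit 152) (nat_lit 282441072121) (nat_lit 228) (nat_lit 119399304691) (nat_lit 25) (nat_lit 5) (nat_lit 27) (nat_lit 5) (nat_lit 28) (nat_lit 5) (nat_lit 374) (nat_lit 353) (nat_lit 173))) (XT.nd (nat_lit 78) (nat_lit 152) (nat_lit 0) (XT.lf (nat_lit 0) (nat_lit 556017183744) (nat_lit 152) (nat_lit 83223116157) (nat_lit 228) (nat_lit 11524718573) (nat_lit 25) (nat_lit 5) (nat_lit 27) (nat_lit 5) (nat_lit 28) (nat_lit 5) (nat_lit 375) (nat_lit 353) (nat_lit 172)) (XT.lf (nat_lit 0) (nat_lit 109054822317) (nat_lit 152) (nat_lit 442036459083) (nat_lit 76) (nat_lit 134010802669) (nat_lit 23) (nat_lit 5) (nat_lit 25) (nat_lit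 5) (nat_lit 24) (nat_lit 5) (nat_lit 376) (nat_lit 353) (nat_lit 171)))) (XT.nd (nat_lit 156) (nat_lit 76) (nat_lit 0) (XT.nd (nat_lit 78) (nat_lit 152) (nat_lit 0) (XT.lf (nat_lit 0) (nat_lit 243477564014) (nat_lit 152) (nat_lit 111214630491) (nat_lit 76) (nat_lit 367084415243) (nat_lit 23) (nat_lit 5) (nat_lit 25) (nat_lit 5) (nat_lit 24) (nat_lit 5) (nat_lit 377) (nat_lit 353) (nat_lit 170)) (XT.lf (nat_lit 0) (nat_lit 259030664801) (nat_lit 152) (nat_lit 135853127076) (nat_lit 228) (nat_lit 366002932292) (nat_lit 21) (nat_lit 5) (nat_lit 23) (nat_lit 5) (nat_lit 24) (nat_lit 5) (nat_lit 378) (nat_lit 353) (nat_lit 169))) (XT.nd (nat_lit 78) (nat_lit 76) (nat_lit 0) (XT.lf (nat_lit 0) (nat_lit 563939139389) (nat_lit 228) (nat_lit 140157810813) (nat_lit 76) (nat_lit 98585767861) (nat_lit 21) (nat_lit 5) (nat_lit 24) (nat_lit 5) (nat_lit 22) (nat_lit 4) (nat_lit 379) (nat_lit 353) (nat_lit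 168)) (XT.lf (nat_lit 0) (nat_lit 259951428250) (nat_lit 76) (nat_lit 496347952883) (nat_lit 152) (nat_lit 90740573050) (nat_lit 20) (nat_lit 5) (nat_lit 21) (nat_lit 5) (nat_lit 22) (nat_lit 4) (nat_lit 380) (nat_lit 353) (nat_lit 167))))) (XT.nd (nat_lit 312) (nat_lit 228) (nat_lit 0) (XT.nd (nat_lit 156) (nat_lit 76) (nat_lit 0) (XT.nd (nat_lit 78) (nat_lit 152) (nat_lit 0) (XT.lf (nat_lit 0) (nat_lit 69577552987) (nat_lit 152) (nat_lit 196360388736) (nat_lit 76) (nat_lit 628560339778) (nat_lit 19) (nat_lit 5) (nat_lit 21) (nat_lit 5) (nat_lit 20) (nat_lit 5) (nat_lit 381) (nat_lit 353) (nat_lit 166)) (XT.lf (nat_lit 0) (nat_lit 235026017412) (nat_lit 152) (nat_lit 8445122918) (nat_lit 228) (nat_lit 701641394132) (nat_lit 17) (nat_lit 5) (nat_lit 19) (nat_lit 5) (nat_lit 20) (nat_lit 5) (nat_lit 382) (nat_lit 353) (nat_lit 165))) (XT.nd (nat_lit 78) (nat_lit 76) (nat_lit 0) (XT.lf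 (nat_lit 0) (nat_lit 443269503954) (nat_lit 228) (nat_lit 293880402921) (nat_lit 76) (nat_lit 261666557663) (nat_lit 17) (nat_lit 5) (nat_lit 20) (nat_lit 5) (nat_lit 18) (nat_lit 4) (nat_lit 383) (nat_lit 353) (nat_lit 164)) (XT.lf (nat_lit 0) (nat_lit 163586048229) (nat_lit 76) (nat_lit 499619270412) (nat_lit 152) (nat_lit 393279103842) (nat_lit 16) (nat_lit 5) (nat_lit 17) (nat_lit 5) (nat_lit 18) (nat_lit 4) (nat_lit 384) (nat_lit 353) (nat_lit 163)))) (XT.nd (nat_lit 156) (nat_lit 152) (nat_lit 0) (XT.nd (nat_lit 78) (nat_lit 76) (nat_lit 0) (XT.lf (nat_lit 0) (nat_lit 674363020345) (nat_lit 76) (nat_lit 234408169594) (nat_lit 152) (nat_lit 209351811830) (nat_lit 16) (nat_lit 5) (nat_lit 17) (nat_lit 5) (nat_lit 18) (nat_lit 4) (nat_lit 385) (nat_lit 353) (nat_lit 162)) (XT.lf (nat_lit 0) (nat_lit 42167775154) (nat_lit 76) (nat_lit 1134079751244) (nat_lit 76) (nat_lit 8263925378)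 (nat_lit 15) (nat_lit 4) (nat_lit 16) (nat_lit 5) (nat_lit 16) (nat_lit 4) (nat_lit 386) (nat_lit 353) (nat_lit 161))) (XT.nd (nat_lit 78) (nat_lit 76) (nat_lit 0) (XT.lf (nat_lit 0) (nat_lit 216997255576) (nat_lit 152) (nat_lit 674461566164) (nat_lit 76) (nat_lit 362867263909) (nat_lit 14) (nat_lit 5) (nat_lit 16) (nat_lit 5) (nat_lit 15) (nat_lit 4) (nat_lit 387) (nat_lit 353) (nat_lit 160)) (XT.nd (nat_lit 78) (nat_lit 76) (nat_lit 0) (XT.lf (nat_lit 0) (nat_lit 459832847418) (nat_lit 152) (nat_lit 169363564670) (nat_lit 76) (nat_lit 700512307723) (nat_lit 14) (nat_lit 5) (nat_lit 16) (nat_lit 5) (nat_lit 15) (nat_lit 4) (nat_lit 388) (nat_lit 353) (nat_lit 159)) (XT.lf (nat_lit 0) (nat_lit 395949233045) (nat_lit 76) (nat_lit 335668626422) (nat_lit 152) (nat_lit 678742299423) (nat_lit 13) (nat_lit 5) (nat_lit 14) (nat_lit 5) (nat_lit 15) (nat_lit 4) (nat_lit 389) (nat_lit 353) (nat_lit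 158))))))))
noncomputable def xc227 : XT := (XT.nd (nat_lit 44148) (nat_lit 0) (nat_lit 1748) (XT.nd (nat_lit 624) (nat_lit 228) (nat_lit 0) (XT.nd (nat_lit 312) (nat_lit 152) (nat_lit 0) (XT.nd (nat_lit 156) (nat_lit 76) (nat_lit 0) (XT.nd (nat_lit 78) (nat_lit 76) (nat_lit 0) (XT.lf (nat_lit 0) (nat_lit 1016118883145) (nat_lit 76) (nat_lit 13657474121) (nat_lit 152) (nat_lit 467316901057) (nat_lit 13) (nat_lit 5) (nat_lit 14) (nat_lit 5) (nat_lit 15) (nat_lit 4) (nat_lit 390) (nat_lit 353) (nat_lit 157)) (XT.lf (nat_lit 0) (nat_lit 91688226243) (nat_lit 76) (nat_lit 1270339861789) (nat_lit 76) (nat_lit 227917673440) (nat_lit 12) (nat_lit 4) (nat_lit 13) (nat_lit 5) (nat_lit 13) (nat_lit 4) (nat_lit 391) (nat_lit 353) (nat_lit 156))) (XT.nd (nat_lit 78) (nat_lit 0) (nat_lit 0) (XT.lf (nat_lit 0) (nat_lit 42948074526) (nat_lit 152) (nat_lit 953090213436) (nat_lit 76) (nat_lit 693021478542)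 (nat_lit 11) (nat_lit 5) (nat_lit 13) (nat_lit 5) (nat_lit 12) (nat_lit 4) (nat_lit 392) (nat_lit 353) (nat_lit 155)) (XT.lf (nat_lit 0) (nat_lit 323169594802) (nat_lit 152) (nat_lit 370229469873) (nat_lit 76) (nat_lit 1102230233163) (nat_lit 11) (nat_lit 5) (nat_lit 13) (nat_lit 5) (nat_lit 12) (nat_lit 4) (nat_lit 393) (nat_lit 353) (nat_lit 154)))) (XT.nd (nat_lit 156) (nat_lit 76) (nat_lit 0) (XT.nd (nat_lit 78) (nat_lit 0) (nat_lit 0) (XT.lf (nat_lit 0) (nat_lit 272912288553) (nat_lit 76) (nat_lit 359460083009) (nat_lit 152) (nat_lit 1277826937338) (nat_lit 10) (nat_lit 5) (nat_lit 11) (nat_lit 5) (nat_lit 12) (nat_lit 4) (nat_lit 394) (nat_lit 353) (nat_lit 153)) (XT.lf (nat_lit 0) (nat_lit 976725732352) (nat_lit 152) (nat_lit 1044856103730) (nat_lit 0) (nat_lit 11519935820) (nat_lit 10) (nat_lit 5) (nat_lit 12) (nat_lit 4) (nat_lit 10) (nat_lit 4) (nat_lit 395) (nat_lit 353) (nat_lit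 152))) (XT.nd (nat_lit 78) (nat_lit 76) (nat_lit 0) (XT.lf (nat_lit 0) (nat_lit 1357963976325) (nat_lit 152) (nat_lit 414367360369) (nat_lit 0) (nat_lit 392758166112) (nat_lit 10) (nat_lit 5) (nat_lit 12) (nat_lit 4) (nat_lit 10) (nat_lit 4) (nat_lit 396) (nat_lit 353) (nat_lit 151)) (XT.lf (nat_lit 0) (nat_lit 280597064562) (nat_lit 76) (nat_lit 1495852571022) (nat_lit 76) (nat_lit 530646748142) (nat_lit 9) (nat_lit 4) (nat_lit 10) (nat_lit 5) (nat_lit 10) (nat_lit 4) (nat_lit 397) (nat_lit 353) (nat_lit 150))))) (XT.nd (nat_lit 312) (nat_lit 76) (nat_lit 0) (XT.nd (nat_lit 156) (nat_lit 76) (nat_lit 0) (XT.nd (nat_lit 78) (nat_lit 76) (nat_lit 0) (XT.lf (nat_lit 0) (nat_lit 1054724063434) (nat_lit 76) (nat_lit 1185019612036) (nat_lit 76) (nat_lit 219813777427) (nat_lit 9) (nat_lit 4) (nat_lit 10) (nat_lit 5) (nat_lit 10) (nat_lit 4) (nat_lit 398) (nat_lit 353) (nat_lit 149)) (XT.lf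 (nat_lit 0) (nat_lit 110088742770) (nat_lit 152) (nat_lit 736221260507) (nat_lit 76) (nat_lit 1777682440533) (nat_lit 8) (nat_lit 5) (nat_lit 10) (nat_lit 5) (nat_lit 9) (nat_lit 4) (nat_lit 399) (nat_lit 353) (nat_lit 148))) (XT.nd (nat_lit 78) (nat_lit 76) (nat_lit 0) (XT.lf (nat_lit 0) (nat_lit 454507802291) (nat_lit 152) (nat_lit 19829626759) (nat_lit 76) (nat_lit 2326788049758) (nat_lit 8) (nat_lit 5) (nat_lit 10) (nat_lit 5) (nat_lit 9) (nat_lit 4) (nat_lit 400) (nat_lit 353) (nat_lit 147)) (XT.lf (nat_lit 0) (nat_lit 793570955337) (nat_lit 76) (nat_lit 51994823592) (nat_lit 152) (nat_lit 2145336546293) (nat_lit 7) (nat_lit 5) (nat_lit 8) (nat_lit 5) (nat_lit 9) (nat_lit 4) (nat_lit 401) (nat_lit 353) (nat_lit 146)))) (XT.nd (nat_lit 156) (nat_lit 76) (nat_lit 0) (XT.nd (nat_lit 78) (nat_lit 0) (nat_lit 0) (XT.lf (nat_lit 0) (nat_lit 1278184106270) (nat_lit 152) (nat_lit 1532380191896)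 (nat_lit 0) (nat_lit 384474964180) (nat_lit 7) (nat_lit 5) (nat_lit 9) (nat_lit 4) (nat_lit 7) (nat_lit 4) (nat_lit 402) (nat_lit 353) (nat_lit 145)) (XT.lf (nat_lit 0) (nat_lit 1746762407165) (nat_lit 152) (nat_lit 815583449007) (nat_lit 0) (nat_lit 853053257684) (nat_lit 7) (nat_lit 5) (nat_lit 9) (nat_lit 4) (nat_lit 7) (nat_lit 4) (nat_lit 403) (nat_lit 353) (nat_lit 144))) (XT.nd (nat_lit 78) (nat_lit 76) (nat_lit 0) (XT.lf (nat_lit 0) (nat_lit 2252826965159) (nat_lit 152) (nat_lit 41442980056) (nat_lit 0) (nat_lit 1359117808833) (nat_lit 7) (nat_lit 5) (nat_lit 9) (nat_lit 4) (nat_lit 7) (nat_lit 4) (nat_lit 404) (nat_lit 353) (nat_lit 143)) (XT.nd (nat_lit 42900) (nat_lit 0) (nat_lit 3268) (XT.lf (nat_lit 0) (nat_lit 836472453909) (nat_lit 76) (nat_lit 1983021410058) (nat_lit 76) (nat_lit 1089312247396) (nat_lit 6) (nat_lit 4) (nat_lit 7) (nat_lit 5) (nat_lit 7) (nat_lit 4) (nat_lit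 405) (nat_lit 353) (nat_lit 142)) (XT.lf (nat_lit 0) (nat_lit 89875712779) (nat_lit 532) (nat_lit 20152868492) (nat_lit 532) (nat_lit 20152868492) (nat_lit 49) (nat_lit 3) (nat_lit 56) (nat_lit 3) (nat_lit 56) (nat_lit 5) (nat_lit 354) (nat_lit 354) (nat_lit 192))))))) (XT.nd (nat_lit 702) (nat_lit 912) (nat_lit 0) (XT.nd (nat_lit 312) (nat_lit 608) (nat_lit 0) (XT.nd (nat_lit 156) (nat_lit 0) (nat_lit 76) (XT.nd (nat_lit 78) (nat_lit 0) (nat_lit 76) (XT.lf (nat_lit 76) (nat_lit 84796228787) (nat_lit 0) (nat_lit 104185492649) (nat_lit 532) (nat_lit 81632472755) (nat_lit 50) (nat_lit 5) (nat_lit 49) (nat_lit 3) (nat_lit 56) (nat_lit 5) (nat_lit 355) (nat_lit 354) (nat_lit 191)) (XT.lf (nat_lit 0) (nat_lit 200584996522) (nat_lit 456) (nat_lit 59931528488) (nat_lit 532) (nat_lit 21038303193) (nat_lit 50) (nat_lit 5) (nat_lit 56) (nat_lit 5) (nat_lit 57) (nat_lit 5) (nat_lit 356) (nat_lit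 354) (nat_lit 190))) (XT.nd (nat_lit 78) (nat_lit 0) (nat_lit 0) (XT.lf (nat_lit 76) (nat_lit 77180535041) (nat_lit 0) (nat_lit 140498226524) (nat_lit 532) (nat_lit 75326973342) (nat_lit 51) (nat_lit 5) (nat_lit 50) (nat_lit 5) (nat_lit 57) (nat_lit 5) (nat_lit 357) (nat_lit 354) (nat_lit 189)) (XT.lf (nat_lit 76) (nat_lit 228669869572) (nat_lit 0) (nat_lit 9108714799) (nat_lit 532) (nat_lit 67463045439) (nat_lit 51) (nat_lit 5) (nat_lit 50) (nat_lit 5) (nat_lit 57) (nat_lit 5) (nat_lit 358) (nat_lit 354) (nat_lit 188)))) (XT.nd (nat_lit 156) (nat_lit 760) (nat_lit 0) (XT.nd (nat_lit 78) (nat_lit 0) (nat_lit 0) (XT.lf (nat_lit 76) (nat_lit 74347407469) (nat_lit 0) (nat_lit 190120620910) (nat_lit 532) (nat_lit 53589837273) (nat_lit 52) (nat_lit 5) (nat_lit 51) (nat_lit 5) (nat_lit 58) (nat_lit 5) (nat_lit 359) (nat_lit 354) (nat_lit 187)) (XT.lf (nat_lit 76) (nat_lit 241445709713) (nat_lit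 0) (nat_lit 54171058825) (nat_lit 532) (nat_lit 36096700734) (nat_lit 52) (nat_lit 5) (nat_lit 51) (nat_lit 5) (nat_lit 58) (nat_lit 5) (nat_lit 360) (nat_lit 354) (nat_lit 186))) (XT.nd (nat_lit 78) (nat_lit 380) (nat_lit 0) (XT.lf (nat_lit 0) (nat_lit 77077695526) (nat_lit 456) (nat_lit 256261712922) (nat_lit 532) (nat_lit 12795552842) (nat_lit 46) (nat_lit 5) (nat_lit 52) (nat_lit 5) (nat_lit 53) (nat_lit 5) (nat_lit 361) (nat_lit 354) (nat_lit 185)) (XT.nd (nat_lit 78) (nat_lit 304) (nat_lit 0) (XT.lf (nat_lit 0) (nat_lit 15690071584) (nat_lit 532) (nat_lit 100337027119) (nat_lit 76) (nat_lit 245344141471) (nat_lit 45) (nat_lit 5) (nat_lit 52) (nat_lit 5) (nat_lit 46) (nat_lit 5) (nat_lit 362) (nat_lit 354) (nat_lit 184)) (XT.lf (nat_lit 0) (nat_lit 48741974283) (nat_lit 380) (nat_lit 292706315054) (nat_lit 76) (nat_lit 36113246348) (nat_lit 41) (nat_lit 5) (nat_lit 46) (nat_lit 5)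 (nat_lit 42) (nat_lit 5) (nat_lit 363) (nat_lit 354) (nat_lit 183)))))) (XT.nd (nat_lit 312) (nat_lit 456) (nat_lit 0) (XT.nd (nat_lit 156) (nat_lit 228) (nat_lit 0) (XT.nd (nat_lit 78) (nat_lit 228) (nat_lit 0) (XT.lf (nat_lit 0) (nat_lit 90266316093) (nat_lit 380) (nat_lit 107343483837) (nat_lit 76) (nat_lit 196970992065) (nat_lit 41) (nat_lit 5) (nat_lit 46) (nat_lit 5) (nat_lit 42) (nat_lit 5) (nat_lit 364) (nat_lit 354) (nat_lit 182)) (XT.lf (nat_lit 0) (nat_lit 97737549733) (nat_lit 228) (nat_lit 39725596814) (nat_lit 304) (nat_lit 275310399063) (nat_lit 38) (nat_lit 5) (nat_lit 41) (nat_lit 5) (nat_lit 42) (nat_lit 5) (nat_lit 365) (nat_lit 354) (nat_lit 181))) (XT.nd (nat_lit 78) (nat_lit 228) (nat_lit 0) (XT.lf (nat_lit 0) (nat_lit 194592357296) (nat_lit 304) (nat_lit 110078911816) (nat_lit 76) (nat_lit 127257919788) (nat_lit 38) (nat_lit 5) (nat_lit 42) (nat_lit 5) (nat_lit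 39) (nat_lit 5) (nat_lit 366) (nat_lit 354) (nat_lit 180)) (XT.lf (nat_lit 0) (nat_lit 116048048065) (nat_lit 228) (nat_lit 144066605527) (nat_lit 304) (nat_lit 192196810253) (nat_lit 35) (nat_lit 5) (nat_lit 38) (nat_lit 5) (nat_lit 39) (nat_lit 5) (nat_lit 367) (nat_lit 354) (nat_lit 179)))) (XT.nd (nat_lit 156) (nat_lit 304) (nat_lit 0) (XT.nd (nat_lit 78) (nat_lit 152) (nat_lit 0) (XT.lf (nat_lit 0) (nat_lit 334673364376) (nat_lit 304) (nat_lit 108343062856) (nat_lit 76) (nat_lit 31004323172) (nat_lit 35) (nat_lit 5) (nat_lit 39) (nat_lit 5) (nat_lit 36) (nat_lit 5) (nat_lit 368) (nat_lit 354) (nat_lit 178)) (XT.lf (nat_lit 0) (nat_lit 141128709566) (nat_lit 152) (nat_lit 281204162636) (nat_lit 228) (nat_lit 74563019748) (nat_lit 33) (nat_lit 5) (nat_lit 35) (nat_lit 5) (nat_lit 36) (nat_lit 5) (nat_lit 369) (nat_lit 354) (nat_lit 177))) (XT.nd (nat_lit 78) (nat_lit 304) (nat_lit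 0) (XT.lf (nat_lit 0) (nat_lit 416719742390) (nat_lit 152) (nat_lit 103247652875) (nat_lit 228) (nat_lit 1396669254) (nat_lit 33) (nat_lit 5) (nat_lit 35) (nat_lit 5) (nat_lit 36) (nat_lit 5) (nat_lit 370) (nat_lit 354) (nat_lit 176)) (XT.nd (nat_lit 78) (nat_lit 0) (nat_lit 0) (XT.lf (nat_lit 0) (nat_lit 80205526142) (nat_lit 304) (nat_lit 376228329753) (nat_lit 76) (nat_lit 90689244026) (nat_lit 29) (nat_lit 5) (nat_lit 33) (nat_lit 5) (nat_lit 30) (nat_lit 5) (nat_lit 371) (nat_lit 354) (nat_lit 175)) (XT.lf (nat_lit 0) (nat_lit 173877641356) (nat_lit 304) (nat_lit 103078157371) (nat_lit 76) (nat_lit 297534781264) (nat_lit 29) (nat_lit 5) (nat_lit 33) (nat_lit 5) (nat_lit 30) (nat_lit 5) (nat_lit 372) (nat_lit 354) (nat_lit 174))))))))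
noncomputable def xc228 : XT := (XT.nd (nat_lit 1326) (nat_lit 532) (nat_lit 0) (XT.nd (nat_lit 624) (nat_lit 532) (nat_lit 0) (XT.nd (nat_lit 312) (nat_lit 304) (nat_lit 0) (XT.nd (nat_lit 156) (nat_lit 152) (nat_lit 0) (XT.nd (nat_lit 78) (nat_lit 0) (nat_lit 0) (XT.lf (nat_lit 0) (nat_lit 202030362159) (nat_lit 152) (nat_lit 77871967491) (nat_lit 228) (nat_lit 323756424561) (nat_lit 27) (nat_lit 5) (nat_lit 29) (nat_lit 5) (nat_lit 30) (nat_lit 5) (nat_lit 373) (nat_lit 354) (nat_lit 173)) (XT.lf (nat_lit 0) (nat_lit 400598691817) (nat_lit 228) (nat_lit 100896639967) (nat_lit 76) (nat_lit 133169874727) (nat_lit 27) (nat_lit 5) (nat_lit 30) (nat_lit 5) (nat_lit 28) (nat_lit 5) (nat_lit 374) (nat_lit 354) (nat_lit 172))) (XT.nd (nat_lit 78) (nat_lit 0) (nat_lit 0) (XT.lf (nat_lit 0) (nat_lit 233554294159) (nat_lit 152) (nat_lit 305036075715) (nat_lit 228) (nat_lit 128950636610) (nat_lit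 25) (nat_lit 5) (nat_lit 27) (nat_lit 5) (nat_lit 28) (nat_lit 5) (nat_lit 375) (nat_lit 354) (nat_lit 171)) (XT.lf (nat_lit 0) (nat_lit 600499344064) (nat_lit 152) (nat_lit 89880704175) (nat_lit 228) (nat_lit 12446128971) (nat_lit 25) (nat_lit 5) (nat_lit 27) (nat_lit 5) (nat_lit 28) (nat_lit 5) (nat_lit 376) (nat_lit 354) (nat_lit 170)))) (XT.nd (nat_lit 156) (nat_lit 152) (nat_lit 0) (XT.nd (nat_lit 78) (nat_lit 0) (nat_lit 0) (XT.lf (nat_lit 0) (nat_lit 117779732658) (nat_lit 152) (nat_lit 477398546240) (nat_lit 76) (nat_lit 144731929251) (nat_lit 23) (nat_lit 5) (nat_lit 25) (nat_lit 5) (nat_lit 24) (nat_lit 5) (nat_lit 377) (nat_lit 354) (nat_lit 169)) (XT.lf (nat_lit 0) (nat_lit 262956254834) (nat_lit 152) (nat_lit 120111032810) (nat_lit 76) (nat_lit 396451411397) (nat_lit 23) (nat_lit 5) (nat_lit 25) (nat_lit 5) (nat_lit 24) (nat_lit 5) (nat_lit 378) (nat_lit 354) (nat_lit 168)))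 (XT.nd (nat_lit 78) (nat_lit 0) (nat_lit 0) (XT.lf (nat_lit 0) (nat_lit 279753866659) (nat_lit 152) (nat_lit 146721096296) (nat_lit 228) (nat_lit 395282661146) (nat_lit 21) (nat_lit 5) (nat_lit 23) (nat_lit 5) (nat_lit 24) (nat_lit 5) (nat_lit 379) (nat_lit 354) (nat_lit 167)) (XT.lf (nat_lit 0) (nat_lit 609054709878) (nat_lit 228) (nat_lit 151369713531) (nat_lit 76) (nat_lit 106472876412) (nat_lit 21) (nat_lit 5) (nat_lit 24) (nat_lit 5) (nat_lit 22) (nat_lit 4) (nat_lit 380) (nat_lit 354) (nat_lit 166))))) (XT.nd (nat_lit 312) (nat_lit 228) (nat_lit 0) (XT.nd (nat_lit 156) (nat_lit 152) (nat_lit 0) (XT.nd (nat_lit 78) (nat_lit 76) (nat_lit 0) (XT.lf (nat_lit 0) (nat_lit 280748246375) (nat_lit 76) (nat_lit 536055508971) (nat_lit 152) (nat_lit 97999360774) (nat_lit 20) (nat_lit 5) (nat_lit 21) (nat_lit 5) (nat_lit 22) (nat_lit 4) (nat_lit 381) (nat_lit 354) (nat_lit 165)) (XT.lf (nat_lit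 0) (nat_lit 75144160192) (nat_lit 152) (nat_lit 212068546460) (nat_lit 76) (nat_lit 678845404703) (nat_lit 19) (nat_lit 5) (nat_lit 21) (nat_lit 5) (nat_lit 20) (nat_lit 5) (nat_lit 382) (nat_lit 354) (nat_lit 164))) (XT.nd (nat_lit 78) (nat_lit 0) (nat_lit 0) (XT.lf (nat_lit 0) (nat_lit 253828755132) (nat_lit 152) (nat_lit 9120465325) (nat_lit 228) (nat_lit 757772285253) (nat_lit 17) (nat_lit 5) (nat_lit 19) (nat_lit 5) (nat_lit 20) (nat_lit 5) (nat_lit 383) (nat_lit 354) (nat_lit 163)) (XT.lf (nat_lit 0) (nat_lit 478731430319) (nat_lit 228) (nat_lit 317390204224) (nat_lit 76) (nat_lit 282600117506) (nat_lit 17) (nat_lit 5) (nat_lit 20) (nat_lit 5) (nat_lit 18) (nat_lit 4) (nat_lit 384) (nat_lit 354) (nat_lit 162)))) (XT.nd (nat_lit 156) (nat_lit 152) (nat_lit 0) (XT.nd (nat_lit 78) (nat_lit 0) (nat_lit 0) (XT.lf (nat_lit 0) (nat_lit 176673547046) (nat_lit 76) (nat_lit 539588550810)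 (nat_lit 152) (nat_lit 424741049788) (nat_lit 16) (nat_lit 5) (nat_lit 17) (nat_lit 5) (nat_lit 18) (nat_lit 4) (nat_lit 385) (nat_lit 354) (nat_lit 161)) (XT.lf (nat_lit 0) (nat_lit 728312631378) (nat_lit 76) (nat_lit 253160581278) (nat_lit 152) (nat_lit 226099602737) (nat_lit 16) (nat_lit 5) (nat_lit 17) (nat_lit 5) (nat_lit 18) (nat_lit 4) (nat_lit 386) (nat_lit 354) (nat_lit 160))) (XT.nd (nat_lit 78) (nat_lit 76) (nat_lit 0) (XT.lf (nat_lit 0) (nat_lit 45541772333) (nat_lit 76) (nat_lit 1224805878658) (nat_lit 76) (nat_lit 8924690838) (nat_lit 15) (nat_lit 4) (nat_lit 16) (nat_lit 5) (nat_lit 16) (nat_lit 4) (nat_lit 387) (nat_lit 354) (nat_lit 159)) (XT.nd (nat_lit 78) (nat_lit 0) (nat_lit 0) (XT.lf (nat_lit 0) (nat_lit 234357342628) (nat_lit 152) (nat_lit 728417942501) (nat_lit 76) (nat_lit 391896862594) (nat_lit 14) (nat_lit 5) (nat_lit 16) (nat_lit 5) (nat_lit 15) (nat_lit 4)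 (nat_lit 388) (nat_lit 354) (nat_lit 158)) (XT.lf (nat_lit 0) (nat_lit 496619759105) (nat_lit 152) (nat_lit 182912141551) (nat_lit 76) (nat_lit 756553493797) (nat_lit 14) (nat_lit 5) (nat_lit 16) (nat_lit 5) (nat_lit 15) (nat_lit 4) (nat_lit 389) (nat_lit 354) (nat_lit 157))))))) (XT.nd (nat_lit 624) (nat_lit 228) (nat_lit 0) (XT.nd (nat_lit 312) (nat_lit 76) (nat_lit 0) (XT.nd (nat_lit 156) (nat_lit 152) (nat_lit 0) (XT.nd (nat_lit 78) (nat_lit 0) (nat_lit 0) (XT.lf (nat_lit 0) (nat_lit 427625667114) (nat_lit 76) (nat_lit 362521895891) (nat_lit 152) (nat_lit 733041386400) (nat_lit 13) (nat_lit 5) (nat_lit 14) (nat_lit 5) (nat_lit 15) (nat_lit 4) (nat_lit 390) (nat_lit 354) (nat_lit 156)) (XT.lf (nat_lit 0) (nat_lit 1097408852523) (nat_lit 76) (nat_lit 14749867750) (nat_lit 152) (nat_lit 504701978164) (nat_lit 13) (nat_lit 5) (nat_lit 14) (nat_lit 5) (nat_lit 15) (nat_lit 4) (nat_lit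 391) (nat_lit 354) (nat_lit 155))) (XT.nd (nat_lit 78) (nat_lit 76) (nat_lit 0) (XT.lf (nat_lit 0) (nat_lit 99023746699) (nat_lit 76) (nat_lit 1371966839624) (nat_lit 76) (nat_lit 246150815783) (nat_lit 12) (nat_lit 4) (nat_lit 13) (nat_lit 5) (nat_lit 13) (nat_lit 4) (nat_lit 392) (nat_lit 354) (nat_lit 154)) (XT.lf (nat_lit 0) (nat_lit 46384159329) (nat_lit 152) (nat_lit 1029336989668) (nat_lit 76) (nat_lit 748463379562) (nat_lit 11) (nat_lit 5) (nat_lit 13) (nat_lit 5) (nat_lit 12) (nat_lit 4) (nat_lit 393) (nat_lit 354) (nat_lit 153)))) (XT.nd (nat_lit 156) (nat_lit 0) (nat_lit 0) (XT.nd (nat_lit 78) (nat_lit 76) (nat_lit 0) (XT.lf (nat_lit 0) (nat_lit 349023383536) (nat_lit 152) (nat_lit 399847419275) (nat_lit 76) (nat_lit 1190408821017) (nat_lit 11) (nat_lit 5) (nat_lit 13) (nat_lit 5) (nat_lit 12) (nat_lit 4) (nat_lit 394) (nat_lit 354) (nat_lit 152)) (XT.lf (nat_lit 0) (nat_lit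 294745669491) (nat_lit 76) (nat_lit 388216706132) (nat_lit 152) (nat_lit 1380052860706) (nat_lit 10) (nat_lit 5) (nat_lit 11) (nat_lit 5) (nat_lit 12) (nat_lit 4) (nat_lit 395) (nat_lit 354) (nat_lit 151))) (XT.nd (nat_lit 78) (nat_lit 0) (nat_lit 0) (XT.lf (nat_lit 0) (nat_lit 1054863993487) (nat_lit 152) (nat_lit 1128444211730) (nat_lit 0) (nat_lit 12441692109) (nat_lit 10) (nat_lit 5) (nat_lit 12) (nat_lit 4) (nat_lit 10) (nat_lit 4) (nat_lit 396) (nat_lit 354) (nat_lit 150)) (XT.lf (nat_lit 0) (nat_lit 1466601281974) (nat_lit 152) (nat_lit 447516397070) (nat_lit 0) (nat_lit 424178968867) (nat_lit 10) (nat_lit 5) (nat_lit 12) (nat_lit 4) (nat_lit 10) (nat_lit 4) (nat_lit 397) (nat_lit 354) (nat_lit 149))))) (XT.nd (nat_lit 312) (nat_lit 76) (nat_lit 0) (XT.nd (nat_lit 156) (nat_lit 76) (nat_lit 0) (XT.nd (nat_lit 78) (nat_lit 0) (nat_lit 0) (XT.lf (nat_lit 0) (nat_lit 303045172941)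 (nat_lit 76) (nat_lit 1615520615396) (nat_lit 76) (nat_lit 573098291429) (nat_lit 9) (nat_lit 4) (nat_lit 10) (nat_lit 5) (nat_lit 10) (nat_lit 4) (nat_lit 398) (nat_lit 354) (nat_lit 148)) (XT.lf (nat_lit 0) (nat_lit 1139102306300) (nat_lit 76) (nat_lit 1279821031639) (nat_lit 76) (nat_lit 237398697616) (nat_lit 9) (nat_lit 4) (nat_lit 10) (nat_lit 5) (nat_lit 10) (nat_lit 4) (nat_lit 399) (nat_lit 354) (nat_lit 147))) (XT.nd (nat_lit 78) (nat_lit 0) (nat_lit 0) (XT.lf (nat_lit 0) (nat_lit 118896002284) (nat_lit 152) (nat_lit 795118658581) (nat_lit 76) (nat_lit 1919897165556) (nat_lit 8) (nat_lit 5) (nat_lit 10) (nat_lit 5) (nat_lit 9) (nat_lit 4) (nat_lit 400) (nat_lit 354) (nat_lit 146)) (XT.lf (nat_lit 0) (nat_lit 490868574708) (nat_lit 152) (nat_lit 21415716561) (nat_lit 76) (nat_lit 2512931213905) (nat_lit 8) (nat_lit 5) (nat_lit 10) (nat_lit 5) (nat_lit 9) (nat_lit 4) (nat_lit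 401) (nat_lit 354) (nat_lit 145)))) (XT.nd (nat_lit 156) (nat_lit 0) (nat_lit 0) (XT.nd (nat_lit 78) (nat_lit 0) (nat_lit 0) (XT.lf (nat_lit 0) (nat_lit 857056905005) (nat_lit 76) (nat_lit 56154280063) (nat_lit 152) (nat_lit 2316963314592) (nat_lit 7) (nat_lit 5) (nat_lit 8) (nat_lit 5) (nat_lit 9) (nat_lit 4) (nat_lit 402) (nat_lit 354) (nat_lit 144)) (XT.lf (nat_lit 0) (nat_lit 1380438970825) (nat_lit 152) (nat_lit 1654970346407) (nat_lit 0) (nat_lit 415233075150) (nat_lit 7) (nat_lit 5) (nat_lit 9) (nat_lit 4) (nat_lit 7) (nat_lit 4) (nat_lit 403) (nat_lit 354) (nat_lit 143))) (XT.nd (nat_lit 78) (nat_lit 0) (nat_lit 0) (XT.lf (nat_lit 0) (nat_lit 1886503525714) (nat_lit 152) (nat_lit 880829883408) (nat_lit 0) (nat_lit 921297623702) (nat_lit 7) (nat_lit 5) (nat_lit 9) (nat_lit 4) (nat_lit 7) (nat_lit 4) (nat_lit 404) (nat_lit 354) (nat_lit 142)) (XT.nd (nat_lit 42978) (nat_lit 0) (nat_lit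 3192) (XT.lf (nat_lit 0) (nat_lit 2433053239015) (nat_lit 152) (nat_lit 44758194831) (nat_lit 0) (nat_lit 1467847331136) (nat_lit 7) (nat_lit 5) (nat_lit 9) (nat_lit 4) (nat_lit 7) (nat_lit 4) (nat_lit 405) (nat_lit 354) (nat_lit 141)) (XT.lf (nat_lit 0) (nat_lit 97066635971) (nat_lit 532) (nat_lit 21764629161) (nat_lit 532) (nat_lit 21764629161) (nat_lit 49) (nat_lit 3) (nat_lit 56) (nat_lit 3) (nat_lit 56) (nat_lit 5) (nat_lit 355) (nat_lit 355) (nat_lit 190))))))))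
noncomputable def xc229 : XT := (XT.nd (nat_lit 1326) (nat_lit 1140) (nat_lit 0) (XT.nd (nat_lit 624) (nat_lit 1216) (nat_lit 0) (XT.nd (nat_lit 312) (nat_lit 304) (nat_lit 0) (XT.nd (nat_lit 156) (nat_lit 0) (nat_lit 76) (XT.nd (nat_lit 78) (nat_lit 0) (nat_lit 76) (XT.lf (nat_lit 76) (nat_lit 91580840974) (nat_lit 0) (nat_lit 112521044174) (nat_lit 532) (nat_lit 88161310503) (nat_lit 50) (nat_lit 5) (nat_lit 49) (nat_lit 3) (nat_lit 56) (nat_lit 5) (nat_lit 356) (nat_lit 355) (nat_lit 189)) (XT.lf (nat_lit 0) (nat_lit 216633285939) (nat_lit 456) (nat_lit 64725064577) (nat_lit 532) (nat_lit 22720741069) (nat_lit 50) (nat_lit 5) (nat_lit 56) (nat_lit 5) (nat_lit 57) (nat_lit 5) (nat_lit 357) (nat_lit 355) (nat_lit 188))) (XT.nd (nat_lit 78) (nat_lit 0) (nat_lit 0) (XT.lf (nat_lit 76) (nat_lit 83355939068) (nat_lit 0) (nat_lit 151738525886) (nat_lit 532) (nat_lit 81351613121) (nat_lit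 51) (nat_lit 5) (nat_lit 50) (nat_lit 5) (nat_lit 57) (nat_lit 5) (nat_lit 358) (nat_lit 355) (nat_lit 187)) (XT.lf (nat_lit 76) (nat_lit 246964349160) (nat_lit 0) (nat_lit 9837820539) (nat_lit 532) (nat_lit 72858683437) (nat_lit 51) (nat_lit 5) (nat_lit 50) (nat_lit 5) (nat_lit 57) (nat_lit 5) (nat_lit 359) (nat_lit 355) (nat_lit 186)))) (XT.nd (nat_lit 156) (nat_lit 456) (nat_lit 0) (XT.nd (nat_lit 78) (nat_lit 0) (nat_lit 0) (XT.lf (nat_lit 76) (nat_lit 80296181482) (nat_lit 0) (nat_lit 205330506060) (nat_lit 532) (nat_lit 57875707074) (nat_lit 52) (nat_lit 5) (nat_lit 51) (nat_lit 5) (nat_lit 58) (nat_lit 5) (nat_lit 360) (nat_lit 355) (nat_lit 185)) (XT.lf (nat_lit 76) (nat_lit 260762275209) (nat_lit 0) (nat_lit 58504961565) (nat_lit 532) (nat_lit 38983217180) (nat_lit 52) (nat_lit 5) (nat_lit 51) (nat_lit 5) (nat_lit 58) (nat_lit 5) (nat_lit 361) (nat_lit 355) (nat_lit 184))) (XT.nd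 (nat_lit 78) (nat_lit 76) (nat_lit 0) (XT.lf (nat_lit 0) (nat_lit 83244892501) (nat_lit 456) (nat_lit 276762730658) (nat_lit 532) (nat_lit 13818047554) (nat_lit 46) (nat_lit 5) (nat_lit 52) (nat_lit 5) (nat_lit 53) (nat_lit 5) (nat_lit 362) (nat_lit 355) (nat_lit 183)) (XT.lf (nat_lit 0) (nat_lit 16946288434) (nat_lit 532) (nat_lit 108363025245) (nat_lit 76) (nat_lit 264971542662) (nat_lit 45) (nat_lit 5) (nat_lit 52) (nat_lit 5) (nat_lit 46) (nat_lit 5) (nat_lit 363) (nat_lit 355) (nat_lit 182))))) (XT.nd (nat_lit 312) (nat_lit 684) (nat_lit 0) (XT.nd (nat_lit 156) (nat_lit 228) (nat_lit 0) (XT.nd (nat_lit 78) (nat_lit 0) (nat_lit 0) (XT.lf (nat_lit 0) (nat_lit 52642290587) (nat_lit 380) (nat_lit 316121801454) (nat_lit 76) (nat_lit 39002287831) (nat_lit 41) (nat_lit 5) (nat_lit 46) (nat_lit 5) (nat_lit 42) (nat_lit 5) (nat_lit 364) (nat_lit 355) (nat_lit 181)) (XT.lf (nat_lit 0) (nat_lit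 97488508753) (nat_lit 380) (nat_lit 115930019207) (nat_lit 76) (nat_lit 212728654556) (nat_lit 41) (nat_lit 5) (nat_lit 46) (nat_lit 5) (nat_lit 42) (nat_lit 5) (nat_lit 365) (nat_lit 355) (nat_lit 180))) (XT.nd (nat_lit 78) (nat_lit 0) (nat_lit 0) (XT.lf (nat_lit 0) (nat_lit 105557473167) (nat_lit 228) (nat_lit 42903568858) (nat_lit 304) (nat_lit 297334318020) (nat_lit 38) (nat_lit 5) (nat_lit 41) (nat_lit 5) (nat_lit 42) (nat_lit 5) (nat_lit 366) (nat_lit 355) (nat_lit 179)) (XT.lf (nat_lit 0) (nat_lit 210160528818) (nat_lit 304) (nat_lit 118884311012) (nat_lit 76) (nat_lit 137438619959) (nat_lit 38) (nat_lit 5) (nat_lit 42) (nat_lit 5) (nat_lit 39) (nat_lit 5) (nat_lit 367) (nat_lit 355) (nat_lit 178)))) (XT.nd (nat_lit 156) (nat_lit 456) (nat_lit 0) (XT.nd (nat_lit 78) (nat_lit 0) (nat_lit 0) (XT.lf (nat_lit 0) (nat_lit 125332782526) (nat_lit 228) (nat_lit 155591789716) (nat_lit 304)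 (nat_lit 207571747532) (nat_lit 35) (nat_lit 5) (nat_lit 38) (nat_lit 5) (nat_lit 39) (nat_lit 5) (nat_lit 368) (nat_lit 355) (nat_lit 177)) (XT.lf (nat_lit 0) (nat_lit 361447927816) (nat_lit 304) (nat_lit 117009629806) (nat_lit 76) (nat_lit 33484795912) (nat_lit 35) (nat_lit 5) (nat_lit 39) (nat_lit 5) (nat_lit 36) (nat_lit 5) (nat_lit 369) (nat_lit 355) (nat_lit 176))) (XT.nd (nat_lit 78) (nat_lit 304) (nat_lit 0) (XT.lf (nat_lit 0) (nat_lit 152419862180) (nat_lit 152) (nat_lit 303700303241) (nat_lit 228) (nat_lit 80527343550) (nat_lit 33) (nat_lit 5) (nat_lit 35) (nat_lit 5) (nat_lit 36) (nat_lit 5) (nat_lit 370) (nat_lit 355) (nat_lit 175)) (XT.nd (nat_lit 78) (nat_lit 304) (nat_lit 0) (XT.lf (nat_lit 0) (nat_lit 450058114235) (nat_lit 152) (nat_lit 111507286952) (nat_lit 228) (nat_lit 1507738185) (nat_lit 33) (nat_lit 5) (nat_lit 35) (nat_lit 5) (nat_lit 36) (nat_lit 5) (nat_lit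 371) (nat_lit 355) (nat_lit 174)) (XT.lf (nat_lit 0) (nat_lit 86622577065) (nat_lit 304) (nat_lit 406325745822) (nat_lit 76) (nat_lit 97944575322) (nat_lit 29) (nat_lit 5) (nat_lit 33) (nat_lit 5) (nat_lit 30) (nat_lit 5) (nat_lit 372) (nat_lit 355) (nat_lit 173))))))) (XT.nd (nat_lit 624) (nat_lit 532) (nat_lit 0) (XT.nd (nat_lit 312) (nat_lit 304) (nat_lit 0) (XT.nd (nat_lit 156) (nat_lit 152) (nat_lit 0) (XT.nd (nat_lit 78) (nat_lit 152) (nat_lit 0) (XT.lf (nat_lit 0) (nat_lit 187788416398) (nat_lit 304) (nat_lit 111323622636) (nat_lit 76) (nat_lit 321337741334) (nat_lit 29) (nat_lit 5) (nat_lit 33) (nat_lit 5) (nat_lit 30) (nat_lit 5) (nat_lit 373) (nat_lit 355) (nat_lit 172)) (XT.lf (nat_lit 0) (nat_lit 218193558525) (nat_lit 152) (nat_lit 84101497928) (nat_lit 228) (nat_lit 349656354004) (nat_lit 27) (nat_lit 5) (nat_lit 29) (nat_lit 5) (nat_lit 30) (nat_lit 5) (nat_lit 374) (nat_lit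 355) (nat_lit 171))) (XT.nd (nat_lit 78) (nat_lit 152) (nat_lit 0) (XT.lf (nat_lit 0) (nat_lit 432647092615) (nat_lit 228) (nat_lit 108967624843) (nat_lit 76) (nat_lit 143823664343) (nat_lit 27) (nat_lit 5) (nat_lit 30) (nat_lit 5) (nat_lit 28) (nat_lit 5) (nat_lit 375) (nat_lit 355) (nat_lit 170)) (XT.lf (nat_lit 0) (nat_lit 252239365118) (nat_lit 152) (nat_lit 329438719851) (nat_lit 228) (nat_lit 139266162457) (nat_lit 25) (nat_lit 5) (nat_lit 27) (nat_lit 5) (nat_lit 28) (nat_lit 5) (nat_lit 376) (nat_lit 355) (nat_lit 169)))) (XT.nd (nat_lit 156) (nat_lit 152) (nat_lit 0) (XT.nd (nat_lit 78) (nat_lit 152) (nat_lit 0) (XT.lf (nat_lit 0) (nat_lit 648539965133) (nat_lit 152) (nat_lit 97070936509) (nat_lit 228) (nat_lit 13441333101) (nat_lit 25) (nat_lit 5) (nat_lit 27) (nat_lit 5) (nat_lit 28) (nat_lit 5) (nat_lit 377) (nat_lit 355) (nat_lit 168)) (XT.lf (nat_lit 0) (nat_lit 127202560993)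 (nat_lit 152) (nat_lit 515589718717) (nat_lit 76) (nat_lit 156310708530) (nat_lit 23) (nat_lit 5) (nat_lit 25) (nat_lit 5) (nat_lit 24) (nat_lit 5) (nat_lit 378) (nat_lit 355) (nat_lit 167))) (XT.nd (nat_lit 78) (nat_lit 152) (nat_lit 0) (XT.lf (nat_lit 0) (nat_lit 283993171631) (nat_lit 152) (nat_lit 129719256896) (nat_lit 76) (nat_lit 428167732585) (nat_lit 23) (nat_lit 5) (nat_lit 25) (nat_lit 5) (nat_lit 24) (nat_lit 5) (nat_lit 379) (nat_lit 355) (nat_lit 166)) (XT.lf (nat_lit 0) (nat_lit 302134817859) (nat_lit 152) (nat_lit 158458543133) (nat_lit 228) (nat_lit 426904840457) (nat_lit 21) (nat_lit 5) (nat_lit 23) (nat_lit 5) (nat_lit 24) (nat_lit 5) (nat_lit 380) (nat_lit 355) (nat_lit 165))))) (XT.nd (nat_lit 312) (nat_lit 228) (nat_lit 0) (XT.nd (nat_lit 156) (nat_lit 228) (nat_lit 0) (XT.nd (nat_lit 78) (nat_lit 76) (nat_lit 0) (XT.lf (nat_lit 0) (nat_lit 657779463329) (nat_lit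 228) (nat_lit 163478671488) (nat_lit 76) (nat_lit 114990918393) (nat_lit 21) (nat_lit 5) (nat_lit 24) (nat_lit 5) (nat_lit 22) (nat_lit 4) (nat_lit 381) (nat_lit 355) (nat_lit 164)) (XT.lf (nat_lit 0) (nat_lit 303208709536) (nat_lit 76) (nat_lit 578939709511) (nat_lit 152) (nat_lit 105838916872) (nat_lit 20) (nat_lit 5) (nat_lit 21) (nat_lit 5) (nat_lit 22) (nat_lit 4) (nat_lit 382) (nat_lit 355) (nat_lit 163))) (XT.nd (nat_lit 78) (nat_lit 152) (nat_lit 0) (XT.lf (nat_lit 0) (nat_lit 81156038485) (nat_lit 152) (nat_lit 229033452866) (nat_lit 76) (nat_lit 733153240906) (nat_lit 19) (nat_lit 5) (nat_lit 21) (nat_lit 5) (nat_lit 20) (nat_lit 5) (nat_lit 383) (nat_lit 355) (nat_lit 162)) (XT.lf (nat_lit 0) (nat_lit 274135618238) (nat_lit 152) (nat_lit 9849873275) (nat_lit 228) (nat_lit 818393707639) (nat_lit 17) (nat_lit 5) (nat_lit 19) (nat_lit 5) (nat_lit 20) (nat_lit 5) (nat_lit 384)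 (nat_lit 355) (nat_lit 161)))) (XT.nd (nat_lit 156) (nat_lit 152) (nat_lit 0) (XT.nd (nat_lit 78) (nat_lit 76) (nat_lit 0) (XT.lf (nat_lit 0) (nat_lit 517030258573) (nat_lit 228) (nat_lit 342780879640) (nat_lit 76) (nat_lit 305208328579) (nat_lit 17) (nat_lit 5) (nat_lit 20) (nat_lit 5) (nat_lit 18) (nat_lit 4) (nat_lit 385) (nat_lit 355) (nat_lit 160)) (XT.lf (nat_lit 0) (nat_lit 190807958036) (nat_lit 76) (nat_lit 582755410909) (nat_lit 152) (nat_lit 458720005957) (nat_lit 16) (nat_lit 5) (nat_lit 17) (nat_lit 5) (nat_lit 18) (nat_lit 4) (nat_lit 386) (nat_lit 355) (nat_lit 159))) (XT.nd (nat_lit 78) (nat_lit 152) (nat_lit 0) (XT.lf (nat_lit 0) (nat_lit 786578130061) (nat_lit 76) (nat_lit 273413220404) (nat_lit 152) (nat_lit 244187267425) (nat_lit 16) (nat_lit 5) (nat_lit 17) (nat_lit 5) (nat_lit 18) (nat_lit 4) (nat_lit 387) (nat_lit 355) (nat_lit 158)) (XT.nd (nat_lit 78) (nat_lit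 76) (nat_lit 0) (XT.lf (nat_lit 0) (nat_lit 49185607231) (nat_lit 76) (nat_lit 1322790132313) (nat_lit 76) (nat_lit 9638367262) (nat_lit 15) (nat_lit 4) (nat_lit 16) (nat_lit 5) (nat_lit 16) (nat_lit 4) (nat_lit 388) (nat_lit 355) (nat_lit 157)) (XT.lf (nat_lit 0) (nat_lit 253106192903) (nat_lit 152) (nat_lit 786690907259) (nat_lit 76) (nat_lit 423248798135) (nat_lit 14) (nat_lit 5) (nat_lit 16) (nat_lit 5) (nat_lit 15) (nat_lit 4) (nat_lit 389) (nat_lit 355) (nat_lit 156))))))))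
noncomputable def xc230 : XT := (XT.nd (nat_lit 44382) (nat_lit 0) (nat_lit 1672) (XT.nd (nat_lit 624) (nat_lit 228) (nat_lit 0) (XT.nd (nat_lit 312) (nat_lit 152) (nat_lit 0) (XT.nd (nat_lit 156) (nat_lit 76) (nat_lit 0) (XT.nd (nat_lit 78) (nat_lit 76) (nat_lit 0) (XT.lf (nat_lit 0) (nat_lit 536349583226) (nat_lit 152) (nat_lit 197544677096) (nat_lit 76) (nat_lit 817077946017) (nat_lit 14) (nat_lit 5) (nat_lit 16) (nat_lit 5) (nat_lit 15) (nat_lit 4) (nat_lit 390) (nat_lit 355) (nat_lit 155)) (XT.lf (nat_lit 0) (nat_lit 461836145230) (nat_lit 76) (nat_lit 391523458394) (nat_lit 152) (nat_lit 791684442702) (nat_lit 13) (nat_lit 5) (nat_lit 14) (nat_lit 5) (nat_lit 15) (nat_lit 4) (nat_lit 391) (nat_lit 355) (nat_lit 154))) (XT.nd (nat_lit 78) (nat_lit 76) (nat_lit 0) (XT.lf (nat_lit 0) (nat_lit 1185201954010) (nat_lit 76) (nat_lit 15929682014) (nat_lit 152) (nat_lit 545077900667) (nat_lit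 13) (nat_lit 5) (nat_lit 14) (nat_lit 5) (nat_lit 15) (nat_lit 4) (nat_lit 392) (nat_lit 355) (nat_lit 153)) (XT.lf (nat_lit 0) (nat_lit 106946042832) (nat_lit 76) (nat_lit 1481724005802) (nat_lit 76) (nat_lit 265842648250) (nat_lit 12) (nat_lit 4) (nat_lit 13) (nat_lit 5) (nat_lit 13) (nat_lit 4) (nat_lit 393) (nat_lit 355) (nat_lit 152)))) (XT.nd (nat_lit 156) (nat_lit 76) (nat_lit 0) (XT.nd (nat_lit 78) (nat_lit 0) (nat_lit 0) (XT.lf (nat_lit 0) (nat_lit 50095096844) (nat_lit 152) (nat_lit 1111683570890) (nat_lit 76) (nat_lit 808340606593) (nat_lit 11) (nat_lit 5) (nat_lit 13) (nat_lit 5) (nat_lit 12) (nat_lit 4) (nat_lit 394) (nat_lit 355) (nat_lit 151)) (XT.lf (nat_lit 0) (nat_lit 376945443820) (nat_lit 152) (nat_lit 431834862862) (nat_lit 76) (nat_lit 1285641671760) (nat_lit 11) (nat_lit 5) (nat_lit 13) (nat_lit 5) (nat_lit 12) (nat_lit 4) (nat_lit 395) (nat_lit 355) (nat_lit 150)))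 (XT.nd (nat_lit 78) (nat_lit 0) (nat_lit 0) (XT.lf (nat_lit 0) (nat_lit 318325664146) (nat_lit 76) (nat_lit 419273885287) (nat_lit 152) (nat_lit 1490456890987) (nat_lit 10) (nat_lit 5) (nat_lit 11) (nat_lit 5) (nat_lit 12) (nat_lit 4) (nat_lit 396) (nat_lit 355) (nat_lit 149)) (XT.lf (nat_lit 0) (nat_lit 1139253286617) (nat_lit 152) (nat_lit 1218719422624) (nat_lit 0) (nat_lit 13437165872) (nat_lit 10) (nat_lit 5) (nat_lit 12) (nat_lit 4) (nat_lit 10) (nat_lit 4) (nat_lit 397) (nat_lit 355) (nat_lit 148))))) (XT.nd (nat_lit 312) (nat_lit 76) (nat_lit 0) (XT.nd (nat_lit 156) (nat_lit 76) (nat_lit 0) (XT.nd (nat_lit 78) (nat_lit 76) (nat_lit 0) (XT.lf (nat_lit 0) (nat_lit 1583929545320) (nat_lit 152) (nat_lit 483317406942) (nat_lit 0) (nat_lit 458113414519) (nat_lit 10) (nat_lit 5) (nat_lit 12) (nat_lit 4) (nat_lit 10) (nat_lit 4) (nat_lit 398) (nat_lit 355) (nat_lit 147)) (XT.lf (nat_lit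 0) (nat_lit 327289081027) (nat_lit 76) (nat_lit 1744762126332) (nat_lit 76) (nat_lit 618945986220) (nat_lit 9) (nat_lit 4) (nat_lit 10) (nat_lit 5) (nat_lit 10) (nat_lit 4) (nat_lit 399) (nat_lit 355) (nat_lit 146))) (XT.nd (nat_lit 78) (nat_lit 76) (nat_lit 0) (XT.lf (nat_lit 0) (nat_lit 1230230763258) (nat_lit 76) (nat_lit 1382206586118) (nat_lit 76) (nat_lit 256390437386) (nat_lit 9) (nat_lit 4) (nat_lit 10) (nat_lit 5) (nat_lit 10) (nat_lit 4) (nat_lit 400) (nat_lit 355) (nat_lit 145)) (XT.lf (nat_lit 0) (nat_lit 128407819721) (nat_lit 152) (nat_lit 858727891695) (nat_lit 76) (nat_lit 2073489050066) (nat_lit 8) (nat_lit 5) (nat_lit 10) (nat_lit 5) (nat_lit 9) (nat_lit 4) (nat_lit 401) (nat_lit 355) (nat_lit 144)))) (XT.nd (nat_lit 156) (nat_lit 0) (nat_lit 0) (XT.nd (nat_lit 78) (nat_lit 76) (nat_lit 0) (XT.lf (nat_lit 0) (nat_lit 530138187771) (nat_lit 152) (nat_lit 23128733540)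 (nat_lit 76) (nat_lit 2713965814042) (nat_lit 8) (nat_lit 5) (nat_lit 10) (nat_lit 5) (nat_lit 9) (nat_lit 4) (nat_lit 402) (nat_lit 355) (nat_lit 143)) (XT.lf (nat_lit 0) (nat_lit 925621691666) (nat_lit 76) (nat_lit 60646511514) (nat_lit 152) (nat_lit 2502320246525) (nat_lit 7) (nat_lit 5) (nat_lit 8) (nat_lit 5) (nat_lit 9) (nat_lit 4) (nat_lit 403) (nat_lit 355) (nat_lit 142))) (XT.nd (nat_lit 43134) (nat_lit 0) (nat_lit 3192) (XT.lf (nat_lit 0) (nat_lit 1490874205135) (nat_lit 152) (nat_lit 1787367750491) (nat_lit 0) (nat_lit 448451818758) (nat_lit 7) (nat_lit 5) (nat_lit 9) (nat_lit 4) (nat_lit 7) (nat_lit 4) (nat_lit 404) (nat_lit 355) (nat_lit 141)) (XT.nd (nat_lit 78) (nat_lit 0) (nat_lit 0) (XT.lf (nat_lit 0) (nat_lit 104832709449) (nat_lit 532) (nat_lit 23505397565) (nat_lit 532) (nat_lit 23505397565) (nat_lit 49) (nat_lit 3) (nat_lit 56) (nat_lit 3) (nat_lit 56) (nat_lit 5)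 (nat_lit 356) (nat_lit 356) (nat_lit 188)) (XT.lf (nat_lit 76) (nat_lit 98908091760) (nat_lit 0) (nat_lit 121523338230) (nat_lit 532) (nat_lit 95212706364) (nat_lit 50) (nat_lit 5) (nat_lit 49) (nat_lit 3) (nat_lit 56) (nat_lit 5) (nat_lit 357) (nat_lit 356) (nat_lit 187))))))) (XT.nd (nat_lit 624) (nat_lit 912) (nat_lit 0) (XT.nd (nat_lit 312) (nat_lit 684) (nat_lit 0) (XT.nd (nat_lit 156) (nat_lit 0) (nat_lit 0) (XT.nd (nat_lit 78) (nat_lit 0) (nat_lit 0) (XT.lf (nat_lit 0) (nat_lit 233965225987) (nat_lit 456) (nat_lit 69902224243) (nat_lit 532) (nat_lit 24537863335) (nat_lit 50) (nat_lit 5) (nat_lit 56) (nat_lit 5) (nat_lit 57) (nat_lit 5) (nat_lit 358) (nat_lit 356) (nat_lit 186)) (XT.lf (nat_lit 76) (nat_lit 90025238289) (nat_lit 0) (nat_lit 163877986249) (nat_lit 532) (nat_lit 87858440656) (nat_lit 51) (nat_lit 5) (nat_lit 50) (nat_lit 5) (nat_lit 57) (nat_lit 5) (nat_lit 359) (nat_lit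 356) (nat_lit 185))) (XT.nd (nat_lit 78) (nat_lit 0) (nat_lit 76) (XT.lf (nat_lit 76) (nat_lit 266722260144) (nat_lit 0) (nat_lit 10625196453) (nat_lit 532) (nat_lit 78686173005) (nat_lit 51) (nat_lit 5) (nat_lit 50) (nat_lit 5) (nat_lit 57) (nat_lit 5) (nat_lit 360) (nat_lit 356) (nat_lit 184)) (XT.lf (nat_lit 76) (nat_lit 86720717406) (nat_lit 0) (nat_lit 221757148428) (nat_lit 532) (nat_lit 62504634370) (nat_lit 52) (nat_lit 5) (nat_lit 51) (nat_lit 5) (nat_lit 58) (nat_lit 5) (nat_lit 361) (nat_lit 356) (nat_lit 183)))) (XT.nd (nat_lit 156) (nat_lit 380) (nat_lit 0) (XT.nd (nat_lit 78) (nat_lit 380) (nat_lit 0) (XT.lf (nat_lit 76) (nat_lit 281624036304) (nat_lit 0) (nat_lit 63185545420) (nat_lit 532) (nat_lit 42100828934) (nat_lit 52) (nat_lit 5) (nat_lit 51) (nat_lit 5) (nat_lit 58) (nat_lit 5) (nat_lit 362) (nat_lit 356) (nat_lit 182)) (XT.lf (nat_lit 0) (nat_lit 89905325235) (nat_lit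 456) (nat_lit 298903818300) (nat_lit 532) (nat_lit 14922505834) (nat_lit 46) (nat_lit 5) (nat_lit 52) (nat_lit 5) (nat_lit 53) (nat_lit 5) (nat_lit 363) (nat_lit 356) (nat_lit 181))) (XT.nd (nat_lit 78) (nat_lit 304) (nat_lit 0) (XT.lf (nat_lit 0) (nat_lit 18302858383) (nat_lit 532) (nat_lit 117031240752) (nat_lit 76) (nat_lit 286169154511) (nat_lit 45) (nat_lit 5) (nat_lit 52) (nat_lit 5) (nat_lit 46) (nat_lit 5) (nat_lit 364) (nat_lit 356) (nat_lit 180)) (XT.lf (nat_lit 0) (nat_lit 56854495475) (nat_lit 380) (nat_lit 341410672110) (nat_lit 76) (nat_lit 42122455232) (nat_lit 41) (nat_lit 5) (nat_lit 46) (nat_lit 5) (nat_lit 42) (nat_lit 5) (nat_lit 365) (nat_lit 356) (nat_lit 179))))) (XT.nd (nat_lit 312) (nat_lit 456) (nat_lit 0) (XT.nd (nat_lit 156) (nat_lit 228) (nat_lit 0) (XT.nd (nat_lit 78) (nat_lit 228) (nat_lit 0) (XT.lf (nat_lit 0) (nat_lit 105288350231) (nat_lit 380) (nat_lit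 125203611984) (nat_lit 76) (nat_lit 229746932452) (nat_lit 41) (nat_lit 5) (nat_lit 46) (nat_lit 5) (nat_lit 42) (nat_lit 5) (nat_lit 366) (nat_lit 356) (nat_lit 178)) (XT.lf (nat_lit 0) (nat_lit 114002859305) (nat_lit 228) (nat_lit 46335789464) (nat_lit 304) (nat_lit 321120280739) (nat_lit 38) (nat_lit 5) (nat_lit 41) (nat_lit 5) (nat_lit 42) (nat_lit 5) (nat_lit 367) (nat_lit 356) (nat_lit 177))) (XT.nd (nat_lit 78) (nat_lit 228) (nat_lit 0) (XT.lf (nat_lit 0) (nat_lit 226974042368) (nat_lit 304) (nat_lit 128394272501) (nat_lit 76) (nat_lit 148433766644) (nat_lit 38) (nat_lit 5) (nat_lit 42) (nat_lit 5) (nat_lit 39) (nat_lit 5) (nat_lit 368) (nat_lit 356) (nat_lit 176)) (XT.lf (nat_lit 0) (nat_lit 135360168688) (nat_lit 228) (nat_lit 168039009220) (nat_lit 304) (nat_lit 224176794998) (nat_lit 35) (nat_lit 5) (nat_lit 38) (nat_lit 5) (nat_lit 39) (nat_lit 5) (nat_lit 369) (nat_lit 356)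 (nat_lit 175)))) (XT.nd (nat_lit 156) (nat_lit 304) (nat_lit 0) (XT.nd (nat_lit 78) (nat_lit 152) (nat_lit 0) (XT.lf (nat_lit 0) (nat_lit 390364357282) (nat_lit 304) (nat_lit 126369647379) (nat_lit 76) (nat_lit 36163688370) (nat_lit 35) (nat_lit 5) (nat_lit 39) (nat_lit 5) (nat_lit 36) (nat_lit 5) (nat_lit 370) (nat_lit 356) (nat_lit 174)) (XT.lf (nat_lit 0) (nat_lit 164614184908) (nat_lit 152) (nat_lit 327996162543) (nat_lit 228) (nat_lit 86968915654) (nat_lit 33) (nat_lit 5) (nat_lit 35) (nat_lit 5) (nat_lit 36) (nat_lit 5) (nat_lit 371) (nat_lit 356) (nat_lit 173))) (XT.nd (nat_lit 78) (nat_lit 304) (nat_lit 0) (XT.lf (nat_lit 0) (nat_lit 486063442774) (nat_lit 152) (nat_lit 120427717170) (nat_lit 228) (nat_lit 1627787444) (nat_lit 33) (nat_lit 5) (nat_lit 35) (nat_lit 5) (nat_lit 36) (nat_lit 5) (nat_lit 372) (nat_lit 356) (nat_lit 172)) (XT.nd (nat_lit 78) (nat_lit 0) (nat_lit 0)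 (XT.lf (nat_lit 0) (nat_lit 93552905205) (nat_lit 304) (nat_lit 438831076482) (nat_lit 76) (nat_lit 105780305763) (nat_lit 29) (nat_lit 5) (nat_lit 33) (nat_lit 5) (nat_lit 30) (nat_lit 5) (nat_lit 373) (nat_lit 356) (nat_lit 171)) (XT.lf (nat_lit 0) (nat_lit 202811973020) (nat_lit 304) (nat_lit 120228837442) (nat_lit 76) (nat_lit 347044912876) (nat_lit 29) (nat_lit 5) (nat_lit 33) (nat_lit 5) (nat_lit 30) (nat_lit 5) (nat_lit 374) (nat_lit 356) (nat_lit 170))))))))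
noncomputable def xc231 : XT := (XT.nd (nat_lit 1326) (nat_lit 532) (nat_lit 0) (XT.nd (nat_lit 624) (nat_lit 532) (nat_lit 0) (XT.nd (nat_lit 312) (nat_lit 304) (nat_lit 0) (XT.nd (nat_lit 156) (nat_lit 152) (nat_lit 0) (XT.nd (nat_lit 78) (nat_lit 0) (nat_lit 0) (XT.lf (nat_lit 0) (nat_lit 235649701123) (nat_lit 152) (nat_lit 90829423178) (nat_lit 228) (nat_lit 377628361190) (nat_lit 27) (nat_lit 5) (nat_lit 29) (nat_lit 5) (nat_lit 30) (nat_lit 5) (nat_lit 375) (nat_lit 356) (nat_lit 169)) (XT.lf (nat_lit 0) (nat_lit 467259293369) (nat_lit 228) (nat_lit 117684394981) (nat_lit 76) (nat_lit 155329728647) (nat_lit 27) (nat_lit 5) (nat_lit 30) (nat_lit 5) (nat_lit 28) (nat_lit 5) (nat_lit 376) (nat_lit 356) (nat_lit 168))) (XT.nd (nat_lit 78) (nat_lit 0) (nat_lit 0) (XT.lf (nat_lit 0) (nat_lit 272419137979) (nat_lit 152) (nat_lit 355793610032) (nat_lit 228) (nat_lit 150407005280) (nat_lit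 25) (nat_lit 5) (nat_lit 27) (nat_lit 5) (nat_lit 28) (nat_lit 5) (nat_lit 377) (nat_lit 356) (nat_lit 167)) (XT.lf (nat_lit 0) (nat_lit 700423739798) (nat_lit 152) (nat_lit 104836419386) (nat_lit 228) (nat_lit 14516222922) (nat_lit 25) (nat_lit 5) (nat_lit 27) (nat_lit 5) (nat_lit 28) (nat_lit 5) (nat_lit 378) (nat_lit 356) (nat_lit 166)))) (XT.nd (nat_lit 156) (nat_lit 152) (nat_lit 0) (XT.nd (nat_lit 78) (nat_lit 0) (nat_lit 0) (XT.lf (nat_lit 0) (nat_lit 137379151436) (nat_lit 152) (nat_lit 556836286456) (nat_lit 76) (nat_lit 168815758062) (nat_lit 23) (nat_lit 5) (nat_lit 25) (nat_lit 5) (nat_lit 24) (nat_lit 5) (nat_lit 379) (nat_lit 356) (nat_lit 165)) (XT.lf (nat_lit 0) (nat_lit 306712982365) (nat_lit 152) (nat_lit 140096232856) (nat_lit 76) (nat_lit 462421329756) (nat_lit 23) (nat_lit 5) (nat_lit 25) (nat_lit 5) (nat_lit 24) (nat_lit 5) (nat_lit 380) (nat_lit 356) (nat_lit 164)))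 (XT.nd (nat_lit 78) (nat_lit 0) (nat_lit 0) (XT.lf (nat_lit 0) (nat_lit 326306153585) (nat_lit 152) (nat_lit 171135020080) (nat_lit 228) (nat_lit 461056855967) (nat_lit 21) (nat_lit 5) (nat_lit 23) (nat_lit 5) (nat_lit 24) (nat_lit 5) (nat_lit 381) (nat_lit 356) (nat_lit 163)) (XT.lf (nat_lit 0) (nat_lit 710402143321) (nat_lit 228) (nat_lit 176556434408) (nat_lit 76) (nat_lit 124190373507) (nat_lit 21) (nat_lit 5) (nat_lit 24) (nat_lit 5) (nat_lit 22) (nat_lit 4) (nat_lit 382) (nat_lit 356) (nat_lit 162))))) (XT.nd (nat_lit 312) (nat_lit 228) (nat_lit 0) (XT.nd (nat_lit 156) (nat_lit 152) (nat_lit 0) (XT.nd (nat_lit 78) (nat_lit 76) (nat_lit 0) (XT.lf (nat_lit 0) (nat_lit 327465923660) (nat_lit 76) (nat_lit 625254680359) (nat_lit 152) (nat_lit 114305693490) (nat_lit 20) (nat_lit 5) (nat_lit 21) (nat_lit 5) (nat_lit 22) (nat_lit 4) (nat_lit 383) (nat_lit 356) (nat_lit 161)) (XT.lf (nat_lit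 0) (nat_lit 87648817756) (nat_lit 152) (nat_lit 247355634144) (nat_lit 76) (nat_lit 791805674927) (nat_lit 19) (nat_lit 5) (nat_lit 21) (nat_lit 5) (nat_lit 20) (nat_lit 5) (nat_lit 384) (nat_lit 356) (nat_lit 160))) (XT.nd (nat_lit 78) (nat_lit 0) (nat_lit 0) (XT.lf (nat_lit 0) (nat_lit 296066950118) (nat_lit 152) (nat_lit 10637666571) (nat_lit 228) (nat_lit 883864895236) (nat_lit 17) (nat_lit 5) (nat_lit 19) (nat_lit 5) (nat_lit 20) (nat_lit 5) (nat_lit 385) (nat_lit 356) (nat_lit 159)) (XT.lf (nat_lit 0) (nat_lit 558392948316) (nat_lit 228) (nat_lit 370202886259) (nat_lit 76) (nat_lit 329625167767) (nat_lit 17) (nat_lit 5) (nat_lit 20) (nat_lit 5) (nat_lit 18) (nat_lit 4) (nat_lit 386) (nat_lit 356) (nat_lit 158)))) (XT.nd (nat_lit 156) (nat_lit 152) (nat_lit 0) (XT.nd (nat_lit 78) (nat_lit 0) (nat_lit 0) (XT.lf (nat_lit 0) (nat_lit 206073046692) (nat_lit 76) (nat_lit 629375651767)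 (nat_lit 152) (nat_lit 495417325386) (nat_lit 16) (nat_lit 5) (nat_lit 17) (nat_lit 5) (nat_lit 18) (nat_lit 4) (nat_lit 387) (nat_lit 356) (nat_lit 157)) (XT.lf (nat_lit 0) (nat_lit 849504798996) (nat_lit 76) (nat_lit 295286100245) (nat_lit 152) (nat_lit 263721988589) (nat_lit 16) (nat_lit 5) (nat_lit 17) (nat_lit 5) (nat_lit 18) (nat_lit 4) (nat_lit 388) (nat_lit 356) (nat_lit 156))) (XT.nd (nat_lit 78) (nat_lit 76) (nat_lit 0) (XT.lf (nat_lit 0) (nat_lit 53120878574) (nat_lit 76) (nat_lit 1428613157167) (nat_lit 76) (nat_lit 10409180433) (nat_lit 15) (nat_lit 4) (nat_lit 16) (nat_lit 5) (nat_lit 16) (nat_lit 4) (nat_lit 389) (nat_lit 356) (nat_lit 155)) (XT.nd (nat_lit 78) (nat_lit 0) (nat_lit 0) (XT.lf (nat_lit 0) (nat_lit 273354913699) (nat_lit 152) (nat_lit 849625776340) (nat_lit 76) (nat_lit 457108861908) (nat_lit 14) (nat_lit 5) (nat_lit 16) (nat_lit 5) (nat_lit 15) (nat_lit 4)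 (nat_lit 390) (nat_lit 356) (nat_lit 154)) (XT.lf (nat_lit 0) (nat_lit 579257758555) (nat_lit 152) (nat_lit 213347877653) (nat_lit 76) (nat_lit 882444329775) (nat_lit 14) (nat_lit 5) (nat_lit 16) (nat_lit 5) (nat_lit 15) (nat_lit 4) (nat_lit 391) (nat_lit 356) (nat_lit 153))))))) (XT.nd (nat_lit 702) (nat_lit 152) (nat_lit 0) (XT.nd (nat_lit 312) (nat_lit 152) (nat_lit 0) (XT.nd (nat_lit 156) (nat_lit 152) (nat_lit 0) (XT.nd (nat_lit 78) (nat_lit 0) (nat_lit 0) (XT.lf (nat_lit 0) (nat_lit 498783401000) (nat_lit 76) (nat_lit 422845172885) (nat_lit 152) (nat_lit 855018979832) (nat_lit 13) (nat_lit 5) (nat_lit 14) (nat_lit 5) (nat_lit 15) (nat_lit 4) (nat_lit 392) (nat_lit 356) (nat_lit 152)) (XT.lf (nat_lit 0) (nat_lit 1280018447508) (nat_lit 76) (nat_lit 17203906408) (nat_lit 152) (nat_lit 588683930604) (nat_lit 13) (nat_lit 5) (nat_lit 14) (nat_lit 5) (nat_lit 15) (nat_lit 4) (nat_lit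 393) (nat_lit 356) (nat_lit 151))) (XT.nd (nat_lit 78) (nat_lit 76) (nat_lit 0) (XT.lf (nat_lit 0) (nat_lit 115502066104) (nat_lit 76) (nat_lit 1600261771095) (nat_lit 76) (nat_lit 287109860526) (nat_lit 12) (nat_lit 4) (nat_lit 13) (nat_lit 5) (nat_lit 13) (nat_lit 4) (nat_lit 394) (nat_lit 356) (nat_lit 150)) (XT.lf (nat_lit 0) (nat_lit 54102880147) (nat_lit 152) (nat_lit 1200617932528) (nat_lit 76) (nat_lit 873007989437) (nat_lit 11) (nat_lit 5) (nat_lit 13) (nat_lit 5) (nat_lit 12) (nat_lit 4) (nat_lit 395) (nat_lit 356) (nat_lit 149)))) (XT.nd (nat_lit 156) (nat_lit 76) (nat_lit 0) (XT.nd (nat_lit 78) (nat_lit 76) (nat_lit 0) (XT.lf (nat_lit 0) (nat_lit 407101241877) (nat_lit 152) (nat_lit 466381351860) (nat_lit 76) (nat_lit 1388493129868) (nat_lit 11) (nat_lit 5) (nat_lit 13) (nat_lit 5) (nat_lit 12) (nat_lit 4) (nat_lit 396) (nat_lit 356) (nat_lit 148)) (XT.lf (nat_lit 0) (nat_lit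 343792009712) (nat_lit 76) (nat_lit 452815661219) (nat_lit 152) (nat_lit 1609693272019) (nat_lit 10) (nat_lit 5) (nat_lit 11) (nat_lit 5) (nat_lit 12) (nat_lit 4) (nat_lit 397) (nat_lit 356) (nat_lit 147))) (XT.nd (nat_lit 78) (nat_lit 76) (nat_lit 0) (XT.lf (nat_lit 0) (nat_lit 1230393698424) (nat_lit 152) (nat_lit 1316216696903) (nat_lit 0) (nat_lit 14512257792) (nat_lit 10) (nat_lit 5) (nat_lit 12) (nat_lit 4) (nat_lit 10) (nat_lit 4) (nat_lit 398) (nat_lit 356) (nat_lit 146)) (XT.nd (nat_lit 78) (nat_lit 76) (nat_lit 0) (XT.lf (nat_lit 0) (nat_lit 1710644046795) (nat_lit 152) (nat_lit 521982540673) (nat_lit 0) (nat_lit 494762597543) (nat_lit 10) (nat_lit 5) (nat_lit 12) (nat_lit 4) (nat_lit 10) (nat_lit 4) (nat_lit 399) (nat_lit 356) (nat_lit 145)) (XT.lf (nat_lit 0) (nat_lit 353472459781) (nat_lit 76) (nat_lit 1884342977872) (nat_lit 76) (nat_lit 668461520636) (nat_lit 9) (nat_lit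 4) (nat_lit 10) (nat_lit 5) (nat_lit 10) (nat_lit 4) (nat_lit 400) (nat_lit 356) (nat_lit 144)))))) (XT.nd (nat_lit 43446) (nat_lit 0) (nat_lit 3192) (XT.nd (nat_lit 156) (nat_lit 76) (nat_lit 0) (XT.nd (nat_lit 78) (nat_lit 76) (nat_lit 0) (XT.lf (nat_lit 0) (nat_lit 1328649457904) (nat_lit 76) (nat_lit 1492783003224) (nat_lit 76) (nat_lit 276901538598) (nat_lit 9) (nat_lit 4) (nat_lit 10) (nat_lit 5) (nat_lit 10) (nat_lit 4) (nat_lit 401) (nat_lit 356) (nat_lit 143)) (XT.lf (nat_lit 0) (nat_lit 138680562971) (nat_lit 152) (nat_lit 927425900489) (nat_lit 76) (nat_lit 2239368269464) (nat_lit 8) (nat_lit 5) (nat_lit 10) (nat_lit 5) (nat_lit 9) (nat_lit 4) (nat_lit 402) (nat_lit 356) (nat_lit 142))) (XT.nd (nat_lit 78) (nat_lit 76) (nat_lit 0) (XT.lf (nat_lit 0) (nat_lit 572549351750) (nat_lit 152) (nat_lit 24978826166) (nat_lit 76) (nat_lit 2931083167492) (nat_lit 8) (nat_lit 5) (nat_lit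 10) (nat_lit 5) (nat_lit 9) (nat_lit 4) (nat_lit 403) (nat_lit 356) (nat_lit 141)) (XT.lf (nat_lit 0) (nat_lit 999671627840) (nat_lit 76) (nat_lit 65498137310) (nat_lit 152) (nat_lit 2702505752020) (nat_lit 7) (nat_lit 5) (nat_lit 8) (nat_lit 5) (nat_lit 9) (nat_lit 4) (nat_lit 404) (nat_lit 356) (nat_lit 140)))) (XT.nd (nat_lit 156) (nat_lit 0) (nat_lit 76) (XT.nd (nat_lit 78) (nat_lit 0) (nat_lit 0) (XT.lf (nat_lit 0) (nat_lit 113219962866) (nat_lit 532) (nat_lit 25385484780) (nat_lit 532) (nat_lit 25385484780) (nat_lit 49) (nat_lit 3) (nat_lit 56) (nat_lit 3) (nat_lit 56) (nat_lit 5) (nat_lit 357) (nat_lit 357) (nat_lit 186)) (XT.lf (nat_lit 76) (nat_lit 106821410833) (nat_lit 0) (nat_lit 131245728712) (nat_lit 532) (nat_lit 102828429168) (nat_lit 50) (nat_lit 5) (nat_lit 49) (nat_lit 3) (nat_lit 56) (nat_lit 5) (nat_lit 358) (nat_lit 357) (nat_lit 185))) (XT.nd (nat_lit 78) (nat_lit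 0) (nat_lit 0) (XT.lf (nat_lit 0) (nat_lit 252683539036) (nat_lit 456) (nat_lit 75493677303) (nat_lit 532) (nat_lit 26500431994) (nat_lit 50) (nat_lit 5) (nat_lit 56) (nat_lit 5) (nat_lit 57) (nat_lit 5) (nat_lit 359) (nat_lit 357) (nat_lit 184)) (XT.nd (nat_lit 78) (nat_lit 0) (nat_lit 0) (XT.lf (nat_lit 76) (nat_lit 97227963880) (nat_lit 0) (nat_lit 176988549474) (nat_lit 532) (nat_lit 94886000068) (nat_lit 51) (nat_lit 5) (nat_lit 50) (nat_lit 5) (nat_lit 57) (nat_lit 5) (nat_lit 360) (nat_lit 357) (nat_lit 183)) (XT.lf (nat_lit 76) (nat_lit 288060695148) (nat_lit 0) (nat_lit 11475512470) (nat_lit 532) (nat_lit 84980033661) (nat_lit 51) (nat_lit 5) (nat_lit 50) (nat_lit 5) (nat_lit 57) (nat_lit 5) (nat_lit 361) (nat_lit 357) (nat_lit 182))))))))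
noncomputable def xc232 : XT := (XT.nd (nat_lit 1326) (nat_lit 988) (nat_lit 0) (XT.nd (nat_lit 624) (nat_lit 988) (nat_lit 0) (XT.nd (nat_lit 312) (nat_lit 532) (nat_lit 0) (XT.nd (nat_lit 156) (nat_lit 456) (nat_lit 0) (XT.nd (nat_lit 78) (nat_lit 0) (nat_lit 0) (XT.lf (nat_lit 76) (nat_lit 93659096168) (nat_lit 0) (nat_lit 239497893385) (nat_lit 532) (nat_lit 67504036952) (nat_lit 52) (nat_lit 5) (nat_lit 51) (nat_lit 5) (nat_lit 58) (nat_lit 5) (nat_lit 362) (nat_lit 357) (nat_lit 181)) (XT.lf (nat_lit 76) (nat_lit 304154627144) (nat_lit 0) (nat_lit 68240549315) (nat_lit 532) (nat_lit 45467998798) (nat_lit 52) (nat_lit 5) (nat_lit 51) (nat_lit 5) (nat_lit 58) (nat_lit 5) (nat_lit 363) (nat_lit 357) (nat_lit 180))) (XT.nd (nat_lit 78) (nat_lit 76) (nat_lit 0) (XT.lf (nat_lit 0) (nat_lit 97098472563) (nat_lit 456) (nat_lit 322816183083) (nat_lit 532) (nat_lit 16115461372) (nat_lit 46)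 (nat_lit 5) (nat_lit 52) (nat_lit 5) (nat_lit 53) (nat_lit 5) (nat_lit 364) (nat_lit 357) (nat_lit 179)) (XT.lf (nat_lit 0) (nat_lit 19767830259) (nat_lit 532) (nat_lit 126393031411) (nat_lit 76) (nat_lit 309062591225) (nat_lit 45) (nat_lit 5) (nat_lit 52) (nat_lit 5) (nat_lit 46) (nat_lit 5) (nat_lit 365) (nat_lit 357) (nat_lit 178)))) (XT.nd (nat_lit 156) (nat_lit 228) (nat_lit 0) (XT.nd (nat_lit 78) (nat_lit 0) (nat_lit 0) (XT.lf (nat_lit 0) (nat_lit 61403559537) (nat_lit 380) (nat_lit 368722777027) (nat_lit 76) (nat_lit 45492238254) (nat_lit 41) (nat_lit 5) (nat_lit 46) (nat_lit 5) (nat_lit 42) (nat_lit 5) (nat_lit 366) (nat_lit 357) (nat_lit 177)) (XT.lf (nat_lit 0) (nat_lit 113712070495) (nat_lit 380) (nat_lit 135219207561) (nat_lit 76) (nat_lit 248126674645) (nat_lit 41) (nat_lit 5) (nat_lit 46) (nat_lit 5) (nat_lit 42) (nat_lit 5) (nat_lit 367) (nat_lit 357) (nat_lit 176))) (XT.nd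 (nat_lit 78) (nat_lit 0) (nat_lit 0) (XT.lf (nat_lit 0) (nat_lit 123123763877) (nat_lit 228) (nat_lit 50042596978) (nat_lit 304) (nat_lit 346809232140) (nat_lit 38) (nat_lit 5) (nat_lit 41) (nat_lit 5) (nat_lit 42) (nat_lit 5) (nat_lit 368) (nat_lit 357) (nat_lit 175)) (XT.lf (nat_lit 0) (nat_lit 245132541241) (nat_lit 304) (nat_lit 138665142668) (nat_lit 76) (nat_lit 160308516920) (nat_lit 38) (nat_lit 5) (nat_lit 42) (nat_lit 5) (nat_lit 39) (nat_lit 5) (nat_lit 369) (nat_lit 357) (nat_lit 174))))) (XT.nd (nat_lit 312) (nat_lit 608) (nat_lit 0) (XT.nd (nat_lit 156) (nat_lit 152) (nat_lit 0) (XT.nd (nat_lit 78) (nat_lit 0) (nat_lit 0) (XT.lf (nat_lit 0) (nat_lit 146189636813) (nat_lit 228) (nat_lit 181482023927) (nat_lit 304) (nat_lit 242110345030) (nat_lit 35) (nat_lit 5) (nat_lit 38) (nat_lit 5) (nat_lit 39) (nat_lit 5) (nat_lit 370) (nat_lit 357) (nat_lit 173)) (XT.lf (nat_lit 0)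 (nat_lit 421594016188) (nat_lit 304) (nat_lit 136478573755) (nat_lit 76) (nat_lit 39056876704) (nat_lit 35) (nat_lit 5) (nat_lit 39) (nat_lit 5) (nat_lit 36) (nat_lit 5) (nat_lit 371) (nat_lit 357) (nat_lit 172))) (XT.nd (nat_lit 78) (nat_lit 0) (nat_lit 0) (XT.lf (nat_lit 0) (nat_lit 177783948775) (nat_lit 152) (nat_lit 354235714122) (nat_lit 228) (nat_lit 93925901318) (nat_lit 33) (nat_lit 5) (nat_lit 35) (nat_lit 5) (nat_lit 36) (nat_lit 5) (nat_lit 372) (nat_lit 357) (nat_lit 171)) (XT.lf (nat_lit 0) (nat_lit 524949100673) (nat_lit 152) (nat_lit 130061803595) (nat_lit 228) (nat_lit 1757521931) (nat_lit 33) (nat_lit 5) (nat_lit 35) (nat_lit 5) (nat_lit 36) (nat_lit 5) (nat_lit 373) (nat_lit 357) (nat_lit 170)))) (XT.nd (nat_lit 156) (nat_lit 304) (nat_lit 0) (XT.nd (nat_lit 78) (nat_lit 0) (nat_lit 0) (XT.lf (nat_lit 0) (nat_lit 101037585130) (nat_lit 304) (nat_lit 473936937597) (nat_lit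 76) (nat_lit 114242871183) (nat_lit 29) (nat_lit 5) (nat_lit 33) (nat_lit 5) (nat_lit 30) (nat_lit 5) (nat_lit 374) (nat_lit 357) (nat_lit 169)) (XT.lf (nat_lit 0) (nat_lit 219037345222) (nat_lit 304) (nat_lit 129846565729) (nat_lit 76) (nat_lit 374808636424) (nat_lit 29) (nat_lit 5) (nat_lit 33) (nat_lit 5) (nat_lit 30) (nat_lit 5) (nat_lit 375) (nat_lit 357) (nat_lit 168))) (XT.nd (nat_lit 78) (nat_lit 152) (nat_lit 0) (XT.lf (nat_lit 0) (nat_lit 254502241269) (nat_lit 152) (nat_lit 98095610208) (nat_lit 228) (nat_lit 407838200444) (nat_lit 27) (nat_lit 5) (nat_lit 29) (nat_lit 5) (nat_lit 30) (nat_lit 5) (nat_lit 376) (nat_lit 357) (nat_lit 167)) (XT.nd (nat_lit 78) (nat_lit 152) (nat_lit 0) (XT.lf (nat_lit 0) (nat_lit 504640408361) (nat_lit 228) (nat_lit 127098598011) (nat_lit 76) (nat_lit 167756253679) (nat_lit 27) (nat_lit 5) (nat_lit 30) (nat_lit 5) (nat_lit 28) (nat_lit 5) (nat_lit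 377) (nat_lit 357) (nat_lit 166)) (XT.lf (nat_lit 0) (nat_lit 294213203698) (nat_lit 152) (nat_lit 384256921016) (nat_lit 228) (nat_lit 162439179751) (nat_lit 25) (nat_lit 5) (nat_lit 27) (nat_lit 5) (nat_lit 28) (nat_lit 5) (nat_lit 378) (nat_lit 357) (nat_lit 165))))))) (XT.nd (nat_lit 624) (nat_lit 380) (nat_lit 0) (XT.nd (nat_lit 312) (nat_lit 304) (nat_lit 0) (XT.nd (nat_lit 156) (nat_lit 152) (nat_lit 0) (XT.nd (nat_lit 78) (nat_lit 152) (nat_lit 0) (XT.lf (nat_lit 0) (nat_lit 756458134057) (nat_lit 152) (nat_lit 113223168290) (nat_lit 228) (nat_lit 15677163394) (nat_lit 25) (nat_lit 5) (nat_lit 27) (nat_lit 5) (nat_lit 28) (nat_lit 5) (nat_lit 379) (nat_lit 357) (nat_lit 164)) (XT.lf (nat_lit 0) (nat_lit 148369814110) (nat_lit 152) (nat_lit 601382666603) (nat_lit 76) (nat_lit 182321184043) (nat_lit 23) (nat_lit 5) (nat_lit 25) (nat_lit 5) (nat_lit 24) (nat_lit 5) (nat_lit 380)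 (nat_lit 357) (nat_lit 163))) (XT.nd (nat_lit 78) (nat_lit 152) (nat_lit 0) (XT.lf (nat_lit 0) (nat_lit 331250327027) (nat_lit 152) (nat_lit 151303447439) (nat_lit 76) (nat_lit 499415189226) (nat_lit 23) (nat_lit 5) (nat_lit 25) (nat_lit 5) (nat_lit 24) (nat_lit 5) (nat_lit 381) (nat_lit 357) (nat_lit 162)) (XT.lf (nat_lit 0) (nat_lit 352411117664) (nat_lit 152) (nat_lit 184825644643) (nat_lit 228) (nat_lit 497941085749) (nat_lit 21) (nat_lit 5) (nat_lit 23) (nat_lit 5) (nat_lit 24) (nat_lit 5) (nat_lit 382) (nat_lit 357) (nat_lit 161)))) (XT.nd (nat_lit 156) (nat_lit 228) (nat_lit 0) (XT.nd (nat_lit 78) (nat_lit 76) (nat_lit 0) (XT.lf (nat_lit 0) (nat_lit 767234591644) (nat_lit 228) (nat_lit 190680494085) (nat_lit 76) (nat_lit 134125759117) (nat_lit 21) (nat_lit 5) (nat_lit 24) (nat_lit 5) (nat_lit 22) (nat_lit 4) (nat_lit 383) (nat_lit 357) (nat_lit 160)) (XT.lf (nat_lit 0) (nat_lit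 353663641108) (nat_lit 76) (nat_lit 675274878250) (nat_lit 152) (nat_lit 123449860276) (nat_lit 20) (nat_lit 5) (nat_lit 21) (nat_lit 5) (nat_lit 22) (nat_lit 4) (nat_lit 384) (nat_lit 357) (nat_lit 159))) (XT.nd (nat_lit 78) (nat_lit 152) (nat_lit 0) (XT.lf (nat_lit 0) (nat_lit 94660977113) (nat_lit 152) (nat_lit 267143660535) (nat_lit 76) (nat_lit 855150278740) (nat_lit 19) (nat_lit 5) (nat_lit 21) (nat_lit 5) (nat_lit 20) (nat_lit 5) (nat_lit 385) (nat_lit 357) (nat_lit 158)) (XT.lf (nat_lit 0) (nat_lit 319752719725) (nat_lit 152) (nat_lit 11488511372) (nat_lit 228) (nat_lit 954573821925) (nat_lit 17) (nat_lit 5) (nat_lit 19) (nat_lit 5) (nat_lit 20) (nat_lit 5) (nat_lit 386) (nat_lit 357) (nat_lit 157))))) (XT.nd (nat_lit 312) (nat_lit 228) (nat_lit 0) (XT.nd (nat_lit 156) (nat_lit 76) (nat_lit 0) (XT.nd (nat_lit 78) (nat_lit 76) (nat_lit 0) (XT.lf (nat_lit 0) (nat_lit 603064614854)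 (nat_lit 228) (nat_lit 399818719566) (nat_lit 76) (nat_lit 355995329423) (nat_lit 17) (nat_lit 5) (nat_lit 20) (nat_lit 5) (nat_lit 18) (nat_lit 4) (nat_lit 387) (nat_lit 357) (nat_lit 156)) (XT.lf (nat_lit 0) (nat_lit 222559277955) (nat_lit 76) (nat_lit 679725539287) (nat_lit 152) (nat_lit 535050470464) (nat_lit 16) (nat_lit 5) (nat_lit 17) (nat_lit 5) (nat_lit 18) (nat_lit 4) (nat_lit 388) (nat_lit 357) (nat_lit 155))) (XT.nd (nat_lit 78) (nat_lit 76) (nat_lit 0) (XT.lf (nat_lit 0) (nat_lit 917465541738) (nat_lit 76) (nat_lit 318908835837) (nat_lit 152) (nat_lit 284819524572) (nat_lit 16) (nat_lit 5) (nat_lit 17) (nat_lit 5) (nat_lit 18) (nat_lit 4) (nat_lit 389) (nat_lit 357) (nat_lit 154)) (XT.lf (nat_lit 0) (nat_lit 57370911312) (nat_lit 76) (nat_lit 1542902050506) (nat_lit 76) (nat_lit 11241695209) (nat_lit 15) (nat_lit 4) (nat_lit 16) (nat_lit 5) (nat_lit 16) (nat_lit 4) (nat_lit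 390) (nat_lit 357) (nat_lit 153)))) (XT.nd (nat_lit 156) (nat_lit 152) (nat_lit 0) (XT.nd (nat_lit 78) (nat_lit 0) (nat_lit 0) (XT.lf (nat_lit 0) (nat_lit 295223500008) (nat_lit 152) (nat_lit 917595492512) (nat_lit 76) (nat_lit 493677707969) (nat_lit 14) (nat_lit 5) (nat_lit 16) (nat_lit 5) (nat_lit 15) (nat_lit 4) (nat_lit 391) (nat_lit 357) (nat_lit 152)) (XT.lf (nat_lit 0) (nat_lit 625598558141) (nat_lit 152) (nat_lit 230415387554) (nat_lit 76) (nat_lit 953040003108) (nat_lit 14) (nat_lit 5) (nat_lit 16) (nat_lit 5) (nat_lit 15) (nat_lit 4) (nat_lit 392) (nat_lit 357) (nat_lit 151))) (XT.nd (nat_lit 78) (nat_lit 76) (nat_lit 0) (XT.lf (nat_lit 0) (nat_lit 538686385282) (nat_lit 76) (nat_lit 456672647672) (nat_lit 152) (nat_lit 923420311073) (nat_lit 13) (nat_lit 5) (nat_lit 14) (nat_lit 5) (nat_lit 15) (nat_lit 4) (nat_lit 393) (nat_lit 357) (nat_lit 150)) (XT.nd (nat_lit 78) (nat_lit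 76) (nat_lit 0) (XT.lf (nat_lit 0) (nat_lit 1382420212385) (nat_lit 76) (nat_lit 18580090176) (nat_lit 152) (nat_lit 635778471769) (nat_lit 13) (nat_lit 5) (nat_lit 14) (nat_lit 5) (nat_lit 15) (nat_lit 4) (nat_lit 394) (nat_lit 357) (nat_lit 149)) (XT.lf (nat_lit 0) (nat_lit 124742522756) (nat_lit 76) (nat_lit 1728282579749) (nat_lit 76) (nat_lit 310078478257) (nat_lit 12) (nat_lit 4) (nat_lit 13) (nat_lit 5) (nat_lit 13) (nat_lit 4) (nat_lit 395) (nat_lit 357) (nat_lit 148))))))))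
noncomputable def xc233 : XT := (XT.nd (nat_lit 44538) (nat_lit 0) (nat_lit 1140) (XT.nd (nat_lit 624) (nat_lit 0) (nat_lit 0) (XT.nd (nat_lit 312) (nat_lit 152) (nat_lit 0) (XT.nd (nat_lit 156) (nat_lit 76) (nat_lit 0) (XT.nd (nat_lit 78) (nat_lit 0) (nat_lit 0) (XT.lf (nat_lit 0) (nat_lit 58431261070) (nat_lit 152) (nat_lit 1296667089325) (nat_lit 76) (nat_lit 942848743747) (nat_lit 11) (nat_lit 5) (nat_lit 13) (nat_lit 5) (nat_lit 12) (nat_lit 4) (nat_lit 396) (nat_lit 357) (nat_lit 147)) (XT.lf (nat_lit 0) (nat_lit 439669480589) (nat_lit 152) (nat_lit 503691602782) (nat_lit 76) (nat_lit 1499572686882) (nat_lit 11) (nat_lit 5) (nat_lit 13) (nat_lit 5) (nat_lit 12) (nat_lit 4) (nat_lit 397) (nat_lit 357) (nat_lit 146))) (XT.nd (nat_lit 78) (nat_lit 0) (nat_lit 0) (XT.lf (nat_lit 0) (nat_lit 371295621205) (nat_lit 76) (nat_lit 489040798469) (nat_lit 152) (nat_lit 1738468587822) (nat_lit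 10) (nat_lit 5) (nat_lit 11) (nat_lit 5) (nat_lit 12) (nat_lit 4) (nat_lit 398) (nat_lit 357) (nat_lit 145)) (XT.lf (nat_lit 0) (nat_lit 1328825321936) (nat_lit 152) (nat_lit 1421513793002) (nat_lit 0) (nat_lit 15673340140) (nat_lit 10) (nat_lit 5) (nat_lit 12) (nat_lit 4) (nat_lit 10) (nat_lit 4) (nat_lit 399) (nat_lit 357) (nat_lit 144)))) (XT.nd (nat_lit 156) (nat_lit 76) (nat_lit 0) (XT.nd (nat_lit 78) (nat_lit 76) (nat_lit 0) (XT.lf (nat_lit 0) (nat_lit 1847495688723) (nat_lit 152) (nat_lit 563740922026) (nat_lit 0) (nat_lit 534343699535) (nat_lit 10) (nat_lit 5) (nat_lit 12) (nat_lit 4) (nat_lit 10) (nat_lit 4) (nat_lit 400) (nat_lit 357) (nat_lit 143)) (XT.lf (nat_lit 0) (nat_lit 381750472846) (nat_lit 76) (nat_lit 2035090314450) (nat_lit 76) (nat_lit 721938318418) (nat_lit 9) (nat_lit 4) (nat_lit 10) (nat_lit 5) (nat_lit 10) (nat_lit 4) (nat_lit 401) (nat_lit 357) (nat_lit 142)))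 (XT.nd (nat_lit 78) (nat_lit 76) (nat_lit 0) (XT.lf (nat_lit 0) (nat_lit 1434941614798) (nat_lit 76) (nat_lit 1612205549360) (nat_lit 76) (nat_lit 299053546992) (nat_lit 9) (nat_lit 4) (nat_lit 10) (nat_lit 5) (nat_lit 10) (nat_lit 4) (nat_lit 402) (nat_lit 357) (nat_lit 141)) (XT.lf (nat_lit 0) (nat_lit 149775108894) (nat_lit 152) (nat_lit 1001619781734) (nat_lit 76) (nat_lit 2418517812805) (nat_lit 8) (nat_lit 5) (nat_lit 10) (nat_lit 5) (nat_lit 9) (nat_lit 4) (nat_lit 403) (nat_lit 357) (nat_lit 140))))) (XT.nd (nat_lit 43524) (nat_lit 0) (nat_lit 2888) (XT.nd (nat_lit 43368) (nat_lit 0) (nat_lit 3116) (XT.nd (nat_lit 43290) (nat_lit 0) (nat_lit 3116) (XT.lf (nat_lit 0) (nat_lit 618353393302) (nat_lit 152) (nat_lit 26976955599) (nat_lit 76) (nat_lit 3165569896617) (nat_lit 8) (nat_lit 5) (nat_lit 10) (nat_lit 5) (nat_lit 9) (nat_lit 4) (nat_lit 404) (nat_lit 357) (nat_lit 139)) (XT.lf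 (nat_lit 0) (nat_lit 122278105729) (nat_lit 532) (nat_lit 27416028133) (nat_lit 532) (nat_lit 27416028133) (nat_lit 49) (nat_lit 3) (nat_lit 56) (nat_lit 3) (nat_lit 56) (nat_lit 5) (nat_lit 358) (nat_lit 358) (nat_lit 184))) (XT.nd (nat_lit 78) (nat_lit 0) (nat_lit 76) (XT.lf (nat_lit 76) (nat_lit 115367699601) (nat_lit 0) (nat_lit 141745835761) (nat_lit 532) (nat_lit 111053594357) (nat_lit 50) (nat_lit 5) (nat_lit 49) (nat_lit 3) (nat_lit 56) (nat_lit 5) (nat_lit 359) (nat_lit 358) (nat_lit 183)) (XT.lf (nat_lit 0) (nat_lit 272899160919) (nat_lit 456) (nat_lit 81532550019) (nat_lit 532) (nat_lit 28620071829) (nat_lit 50) (nat_lit 5) (nat_lit 56) (nat_lit 5) (nat_lit 57) (nat_lit 5) (nat_lit 360) (nat_lit 358) (nat_lit 182)))) (XT.nd (nat_lit 156) (nat_lit 304) (nat_lit 0) (XT.nd (nat_lit 78) (nat_lit 0) (nat_lit 0) (XT.lf (nat_lit 76) (nat_lit 105006806725) (nat_lit 0) (nat_lit 191147911488)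 (nat_lit 532) (nat_lit 102475923421) (nat_lit 51) (nat_lit 5) (nat_lit 50) (nat_lit 5) (nat_lit 57) (nat_lit 5) (nat_lit 361) (nat_lit 358) (nat_lit 181)) (XT.lf (nat_lit 76) (nat_lit 311106111625) (nat_lit 0) (nat_lit 12393810927) (nat_lit 532) (nat_lit 91777550564) (nat_lit 51) (nat_lit 5) (nat_lit 50) (nat_lit 5) (nat_lit 57) (nat_lit 5) (nat_lit 362) (nat_lit 358) (nat_lit 180))) (XT.nd (nat_lit 78) (nat_lit 380) (nat_lit 0) (XT.lf (nat_lit 76) (nat_lit 101152442319) (nat_lit 0) (nat_lit 258657873246) (nat_lit 532) (nat_lit 72903529860) (nat_lit 52) (nat_lit 5) (nat_lit 51) (nat_lit 5) (nat_lit 58) (nat_lit 5) (nat_lit 363) (nat_lit 358) (nat_lit 179)) (XT.nd (nat_lit 78) (nat_lit 380) (nat_lit 0) (XT.lf (nat_lit 76) (nat_lit 328487569962) (nat_lit 0) (nat_lit 73699930659) (nat_lit 532) (nat_lit 49104670139) (nat_lit 52) (nat_lit 5) (nat_lit 51) (nat_lit 5) (nat_lit 58) (nat_lit 5)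 (nat_lit 364) (nat_lit 358) (nat_lit 178)) (XT.lf (nat_lit 0) (nat_lit 104866968774) (nat_lit 456) (nat_lit 348641528585) (nat_lit 532) (nat_lit 17403973892) (nat_lit 46) (nat_lit 5) (nat_lit 52) (nat_lit 5) (nat_lit 53) (nat_lit 5) (nat_lit 365) (nat_lit 358) (nat_lit 177))))))) (XT.nd (nat_lit 624) (nat_lit 760) (nat_lit 0) (XT.nd (nat_lit 312) (nat_lit 380) (nat_lit 0) (XT.nd (nat_lit 156) (nat_lit 228) (nat_lit 0) (XT.nd (nat_lit 78) (nat_lit 304) (nat_lit 0) (XT.lf (nat_lit 0) (nat_lit 21349893859) (nat_lit 532) (nat_lit 136503866412) (nat_lit 76) (nat_lit 333787516521) (nat_lit 45) (nat_lit 5) (nat_lit 52) (nat_lit 5) (nat_lit 46) (nat_lit 5) (nat_lit 366) (nat_lit 358) (nat_lit 176)) (XT.lf (nat_lit 0) (nat_lit 66316448231) (nat_lit 380) (nat_lit 398219957170) (nat_lit 76) (nat_lit 49131605830) (nat_lit 41) (nat_lit 5) (nat_lit 46) (nat_lit 5) (nat_lit 42) (nat_lit 5) (nat_lit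 367) (nat_lit 358) (nat_lit 175))) (XT.nd (nat_lit 78) (nat_lit 228) (nat_lit 0) (XT.lf (nat_lit 0) (nat_lit 122809595329) (nat_lit 380) (nat_lit 146036149704) (nat_lit 76) (nat_lit 267976797982) (nat_lit 41) (nat_lit 5) (nat_lit 46) (nat_lit 5) (nat_lit 42) (nat_lit 5) (nat_lit 368) (nat_lit 358) (nat_lit 174)) (XT.lf (nat_lit 0) (nat_lit 132974244400) (nat_lit 228) (nat_lit 54045957031) (nat_lit 304) (nat_lit 374553395387) (nat_lit 38) (nat_lit 5) (nat_lit 41) (nat_lit 5) (nat_lit 42) (nat_lit 5) (nat_lit 369) (nat_lit 358) (nat_lit 173)))) (XT.nd (nat_lit 156) (nat_lit 152) (nat_lit 0) (XT.nd (nat_lit 78) (nat_lit 228) (nat_lit 0) (XT.lf (nat_lit 0) (nat_lit 264743637925) (nat_lit 304) (nat_lit 149757778264) (nat_lit 76) (nat_lit 173133240235) (nat_lit 38) (nat_lit 5) (nat_lit 42) (nat_lit 5) (nat_lit 39) (nat_lit 5) (nat_lit 370) (nat_lit 358) (nat_lit 172)) (XT.lf (nat_lit 0) (nat_lit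 157885368997) (nat_lit 228) (nat_lit 196000494937) (nat_lit 304) (nat_lit 261478663745) (nat_lit 35) (nat_lit 5) (nat_lit 38) (nat_lit 5) (nat_lit 39) (nat_lit 5) (nat_lit 371) (nat_lit 358) (nat_lit 171))) (XT.nd (nat_lit 78) (nat_lit 152) (nat_lit 0) (XT.lf (nat_lit 0) (nat_lit 455321975002) (nat_lit 304) (nat_lit 147396306317) (nat_lit 76) (nat_lit 42181506801) (nat_lit 35) (nat_lit 5) (nat_lit 39) (nat_lit 5) (nat_lit 36) (nat_lit 5) (nat_lit 372) (nat_lit 358) (nat_lit 170)) (XT.lf (nat_lit 0) (nat_lit 192007204007) (nat_lit 152) (nat_lit 382574450004) (nat_lit 228) (nat_lit 101439521101) (nat_lit 33) (nat_lit 5) (nat_lit 35) (nat_lit 5) (nat_lit 36) (nat_lit 5) (nat_lit 373) (nat_lit 358) (nat_lit 169))))) (XT.nd (nat_lit 312) (nat_lit 304) (nat_lit 0) (XT.nd (nat_lit 156) (nat_lit 152) (nat_lit 0) (XT.nd (nat_lit 78) (nat_lit 304) (nat_lit 0) (XT.lf (nat_lit 0) (nat_lit 566945528106)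 (nat_lit 152) (nat_lit 140466635616) (nat_lit 228) (nat_lit 1897704869) (nat_lit 33) (nat_lit 5) (nat_lit 35) (nat_lit 5) (nat_lit 36) (nat_lit 5) (nat_lit 374) (nat_lit 358) (nat_lit 168)) (XT.lf (nat_lit 0) (nat_lit 109120975608) (nat_lit 304) (nat_lit 511851356764) (nat_lit 76) (nat_lit 123382421728) (nat_lit 29) (nat_lit 5) (nat_lit 33) (nat_lit 5) (nat_lit 30) (nat_lit 5) (nat_lit 375) (nat_lit 358) (nat_lit 167))) (XT.nd (nat_lit 78) (nat_lit 152) (nat_lit 0) (XT.lf (nat_lit 0) (nat_lit 236560688087) (nat_lit 304) (nat_lit 140233794839) (nat_lit 76) (nat_lit 404793439236) (nat_lit 29) (nat_lit 5) (nat_lit 33) (nat_lit 5) (nat_lit 30) (nat_lit 5) (nat_lit 376) (nat_lit 358) (nat_lit 166)) (XT.lf (nat_lit 0) (nat_lit 274862904159) (nat_lit 152) (nat_lit 105943116000) (nat_lit 228) (nat_lit 440464888131) (nat_lit 27) (nat_lit 5) (nat_lit 29) (nat_lit 5) (nat_lit 30) (nat_lit 5) (nat_lit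 377) (nat_lit 358) (nat_lit 165)))) (XT.nd (nat_lit 156) (nat_lit 152) (nat_lit 0) (XT.nd (nat_lit 78) (nat_lit 152) (nat_lit 0) (XT.lf (nat_lit 0) (nat_lit 545011959551) (nat_lit 228) (nat_lit 137266015543) (nat_lit 76) (nat_lit 181176879779) (nat_lit 27) (nat_lit 5) (nat_lit 30) (nat_lit 5) (nat_lit 28) (nat_lit 5) (nat_lit 378) (nat_lit 358) (nat_lit 164)) (XT.lf (nat_lit 0) (nat_lit 317750718396) (nat_lit 152) (nat_lit 414997322247) (nat_lit 228) (nat_lit 175433983241) (nat_lit 25) (nat_lit 5) (nat_lit 27) (nat_lit 5) (nat_lit 28) (nat_lit 5) (nat_lit 379) (nat_lit 358) (nat_lit 163))) (XT.nd (nat_lit 78) (nat_lit 152) (nat_lit 0) (XT.lf (nat_lit 0) (nat_lit 816975209228) (nat_lit 152) (nat_lit 122280880595) (nat_lit 228) (nat_lit 16931030085) (nat_lit 25) (nat_lit 5) (nat_lit 27) (nat_lit 5) (nat_lit 28) (nat_lit 5) (nat_lit 380) (nat_lit 358) (nat_lit 162)) (XT.nd (nat_lit 78) (nat_lit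 0) (nat_lit 0) (XT.lf (nat_lit 0) (nat_lit 160239682640) (nat_lit 152) (nat_lit 649492831741) (nat_lit 76) (nat_lit 196907020517) (nat_lit 23) (nat_lit 5) (nat_lit 25) (nat_lit 5) (nat_lit 24) (nat_lit 5) (nat_lit 381) (nat_lit 358) (nat_lit 161)) (XT.lf (nat_lit 0) (nat_lit 357750615598) (nat_lit 152) (nat_lit 163407308243) (nat_lit 76) (nat_lit 539368535614) (nat_lit 23) (nat_lit 5) (nat_lit 25) (nat_lit 5) (nat_lit 24) (nat_lit 5) (nat_lit 382) (nat_lit 358) (nat_lit 160))))))))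
noncomputable def xc234 : XT := (XT.nd (nat_lit 1326) (nat_lit 152) (nat_lit 0) (XT.nd (nat_lit 624) (nat_lit 456) (nat_lit 0) (XT.nd (nat_lit 312) (nat_lit 228) (nat_lit 0) (XT.nd (nat_lit 156) (nat_lit 152) (nat_lit 0) (XT.nd (nat_lit 78) (nat_lit 0) (nat_lit 0) (XT.lf (nat_lit 0) (nat_lit 380604411562) (nat_lit 152) (nat_lit 199611544428) (nat_lit 228) (nat_lit 537776099379) (nat_lit 21) (nat_lit 5) (nat_lit 23) (nat_lit 5) (nat_lit 24) (nat_lit 5) (nat_lit 383) (nat_lit 358) (nat_lit 159)) (XT.lf (nat_lit 0) (nat_lit 828613596336) (nat_lit 228) (nat_lit 205934543458) (nat_lit 76) (nat_lit 144855953358) (nat_lit 21) (nat_lit 5) (nat_lit 24) (nat_lit 5) (nat_lit 22) (nat_lit 4) (nat_lit 384) (nat_lit 358) (nat_lit 158))) (XT.nd (nat_lit 78) (nat_lit 76) (nat_lit 0) (XT.lf (nat_lit 0) (nat_lit 381957112673) (nat_lit 76) (nat_lit 729296717157) (nat_lit 152) (nat_lit 133325601590) (nat_lit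 20) (nat_lit 5) (nat_lit 21) (nat_lit 5) (nat_lit 22) (nat_lit 4) (nat_lit 385) (nat_lit 358) (nat_lit 157)) (XT.lf (nat_lit 0) (nat_lit 102234072992) (nat_lit 152) (nat_lit 288514789574) (nat_lit 76) (nat_lit 923562429485) (nat_lit 19) (nat_lit 5) (nat_lit 21) (nat_lit 5) (nat_lit 20) (nat_lit 5) (nat_lit 386) (nat_lit 358) (nat_lit 156)))) (XT.nd (nat_lit 156) (nat_lit 76) (nat_lit 0) (XT.nd (nat_lit 78) (nat_lit 0) (nat_lit 0) (XT.lf (nat_lit 0) (nat_lit 345333291896) (nat_lit 152) (nat_lit 12407447800) (nat_lit 228) (nat_lit 1030939500545) (nat_lit 17) (nat_lit 5) (nat_lit 19) (nat_lit 5) (nat_lit 20) (nat_lit 5) (nat_lit 387) (nat_lit 358) (nat_lit 155)) (XT.lf (nat_lit 0) (nat_lit 651309981807) (nat_lit 228) (nat_lit 431803876259) (nat_lit 76) (nat_lit 384475082865) (nat_lit 17) (nat_lit 5) (nat_lit 20) (nat_lit 5) (nat_lit 18) (nat_lit 4) (nat_lit 388) (nat_lit 358) (nat_lit 154)))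 (XT.nd (nat_lit 78) (nat_lit 0) (nat_lit 0) (XT.lf (nat_lit 0) (nat_lit 240364352434) (nat_lit 76) (nat_lit 734103441293) (nat_lit 152) (nat_lit 577854301522) (nat_lit 16) (nat_lit 5) (nat_lit 17) (nat_lit 5) (nat_lit 18) (nat_lit 4) (nat_lit 389) (nat_lit 358) (nat_lit 153)) (XT.lf (nat_lit 0) (nat_lit 990863092709) (nat_lit 76) (nat_lit 344421412022) (nat_lit 152) (nat_lit 307604895262) (nat_lit 16) (nat_lit 5) (nat_lit 17) (nat_lit 5) (nat_lit 18) (nat_lit 4) (nat_lit 390) (nat_lit 358) (nat_lit 152))))) (XT.nd (nat_lit 312) (nat_lit 228) (nat_lit 0) (XT.nd (nat_lit 156) (nat_lit 76) (nat_lit 0) (XT.nd (nat_lit 78) (nat_lit 76) (nat_lit 0) (XT.lf (nat_lit 0) (nat_lit 61960894961) (nat_lit 76) (nat_lit 1666334078028) (nat_lit 76) (nat_lit 12140842504) (nat_lit 15) (nat_lit 4) (nat_lit 16) (nat_lit 5) (nat_lit 16) (nat_lit 4) (nat_lit 391) (nat_lit 358) (nat_lit 151)) (XT.lf (nat_lit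 0) (nat_lit 318841545658) (nat_lit 152) (nat_lit 991002835329) (nat_lit 76) (nat_lit 533172042154) (nat_lit 14) (nat_lit 5) (nat_lit 16) (nat_lit 5) (nat_lit 15) (nat_lit 4) (nat_lit 392) (nat_lit 358) (nat_lit 150))) (XT.nd (nat_lit 78) (nat_lit 76) (nat_lit 0) (XT.lf (nat_lit 0) (nat_lit 675646596171) (nat_lit 152) (nat_lit 248848343944) (nat_lit 76) (nat_lit 1029283312198) (nat_lit 14) (nat_lit 5) (nat_lit 16) (nat_lit 5) (nat_lit 15) (nat_lit 4) (nat_lit 393) (nat_lit 358) (nat_lit 149)) (XT.lf (nat_lit 0) (nat_lit 581781563767) (nat_lit 76) (nat_lit 493206340278) (nat_lit 152) (nat_lit 997293775512) (nat_lit 13) (nat_lit 5) (nat_lit 14) (nat_lit 5) (nat_lit 15) (nat_lit 4) (nat_lit 394) (nat_lit 358) (nat_lit 148)))) (XT.nd (nat_lit 156) (nat_lit 152) (nat_lit 0) (XT.nd (nat_lit 78) (nat_lit 76) (nat_lit 0) (XT.lf (nat_lit 0) (nat_lit 1493014077211) (nat_lit 76) (nat_lit 20066387013)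 (nat_lit 152) (nat_lit 686640600948) (nat_lit 13) (nat_lit 5) (nat_lit 14) (nat_lit 5) (nat_lit 15) (nat_lit 4) (nat_lit 395) (nat_lit 358) (nat_lit 147)) (XT.lf (nat_lit 0) (nat_lit 134722174374) (nat_lit 76) (nat_lit 1866545072074) (nat_lit 76) (nat_lit 334884609817) (nat_lit 12) (nat_lit 4) (nat_lit 13) (nat_lit 5) (nat_lit 13) (nat_lit 4) (nat_lit 396) (nat_lit 358) (nat_lit 146))) (XT.nd (nat_lit 78) (nat_lit 76) (nat_lit 0) (XT.lf (nat_lit 0) (nat_lit 63105890995) (nat_lit 152) (nat_lit 1400400218297) (nat_lit 76) (nat_lit 1018276741973) (nat_lit 11) (nat_lit 5) (nat_lit 13) (nat_lit 5) (nat_lit 12) (nat_lit 4) (nat_lit 397) (nat_lit 358) (nat_lit 145)) (XT.nd (nat_lit 78) (nat_lit 76) (nat_lit 0) (XT.lf (nat_lit 0) (nat_lit 474843158516) (nat_lit 152) (nat_lit 543986710473) (nat_lit 76) (nat_lit 1619538593246) (nat_lit 11) (nat_lit 5) (nat_lit 13) (nat_lit 5) (nat_lit 12) (nat_lit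 4) (nat_lit 398) (nat_lit 358) (nat_lit 144)) (XT.lf (nat_lit 0) (nat_lit 400999485849) (nat_lit 76) (nat_lit 528163963198) (nat_lit 152) (nat_lit 1877545949711) (nat_lit 10) (nat_lit 5) (nat_lit 11) (nat_lit 5) (nat_lit 12) (nat_lit 4) (nat_lit 399) (nat_lit 358) (nat_lit 143))))))) (XT.nd (nat_lit 43914) (nat_lit 0) (nat_lit 2280) (XT.nd (nat_lit 312) (nat_lit 76) (nat_lit 0) (XT.nd (nat_lit 156) (nat_lit 76) (nat_lit 0) (XT.nd (nat_lit 78) (nat_lit 0) (nat_lit 0) (XT.lf (nat_lit 0) (nat_lit 1435131457121) (nat_lit 152) (nat_lit 1535234690979) (nat_lit 0) (nat_lit 16927294563) (nat_lit 10) (nat_lit 5) (nat_lit 12) (nat_lit 4) (nat_lit 10) (nat_lit 4) (nat_lit 400) (nat_lit 358) (nat_lit 142)) (XT.lf (nat_lit 0) (nat_lit 1995295445145) (nat_lit 152) (nat_lit 608840005544) (nat_lit 0) (nat_lit 577091276250) (nat_lit 10) (nat_lit 5) (nat_lit 12) (nat_lit 4) (nat_lit 10) (nat_lit 4) (nat_lit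 401) (nat_lit 358) (nat_lit 141))) (XT.nd (nat_lit 78) (nat_lit 0) (nat_lit 0) (XT.lf (nat_lit 0) (nat_lit 412290696102) (nat_lit 76) (nat_lit 2197897452456) (nat_lit 76) (nat_lit 779693277694) (nat_lit 9) (nat_lit 4) (nat_lit 10) (nat_lit 5) (nat_lit 10) (nat_lit 4) (nat_lit 402) (nat_lit 358) (nat_lit 140)) (XT.lf (nat_lit 0) (nat_lit 1549737115674) (nat_lit 76) (nat_lit 1741181912615) (nat_lit 76) (nat_lit 322977732420) (nat_lit 9) (nat_lit 4) (nat_lit 10) (nat_lit 5) (nat_lit 10) (nat_lit 4) (nat_lit 403) (nat_lit 358) (nat_lit 139)))) (XT.nd (nat_lit 43446) (nat_lit 0) (nat_lit 3116) (XT.nd (nat_lit 43368) (nat_lit 0) (nat_lit 3116) (XT.lf (nat_lit 0) (nat_lit 161757204099) (nat_lit 152) (nat_lit 1081749200698) (nat_lit 76) (nat_lit 2611999307946) (nat_lit 8) (nat_lit 5) (nat_lit 10) (nat_lit 5) (nat_lit 9) (nat_lit 4) (nat_lit 404) (nat_lit 358) (nat_lit 138)) (XT.lf (nat_lit 0)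 (nat_lit 132060822152) (nat_lit 532) (nat_lit 29609057100) (nat_lit 532) (nat_lit 29609057100) (nat_lit 49) (nat_lit 3) (nat_lit 56) (nat_lit 3) (nat_lit 56) (nat_lit 5) (nat_lit 359) (nat_lit 359) (nat_lit 182))) (XT.nd (nat_lit 78) (nat_lit 0) (nat_lit 76) (XT.lf (nat_lit 76) (nat_lit 124597609312) (nat_lit 0) (nat_lit 153085887355) (nat_lit 532) (nat_lit 119936930993) (nat_lit 50) (nat_lit 5) (nat_lit 49) (nat_lit 3) (nat_lit 56) (nat_lit 5) (nat_lit 360) (nat_lit 359) (nat_lit 181)) (XT.lf (nat_lit 0) (nat_lit 294731898629) (nat_lit 456) (nat_lit 88054621213) (nat_lit 532) (nat_lit 30909339162) (nat_lit 50) (nat_lit 5) (nat_lit 56) (nat_lit 5) (nat_lit 57) (nat_lit 5) (nat_lit 361) (nat_lit 359) (nat_lit 180))))) (XT.nd (nat_lit 312) (nat_lit 912) (nat_lit 0) (XT.nd (nat_lit 156) (nat_lit 0) (nat_lit 76) (XT.nd (nat_lit 78) (nat_lit 0) (nat_lit 0) (XT.lf (nat_lit 76) (nat_lit 113407870582)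 (nat_lit 0) (nat_lit 206439982796) (nat_lit 532) (nat_lit 110673177119) (nat_lit 51) (nat_lit 5) (nat_lit 50) (nat_lit 5) (nat_lit 57) (nat_lit 5) (nat_lit 362) (nat_lit 359) (nat_lit 179)) (XT.lf (nat_lit 76) (nat_lit 335995081407) (nat_lit 0) (nat_lit 13385536531) (nat_lit 532) (nat_lit 99118995187) (nat_lit 51) (nat_lit 5) (nat_lit 50) (nat_lit 5) (nat_lit 57) (nat_lit 5) (nat_lit 363) (nat_lit 359) (nat_lit 178))) (XT.nd (nat_lit 78) (nat_lit 0) (nat_lit 0) (XT.lf (nat_lit 76) (nat_lit 109245167933) (nat_lit 0) (nat_lit 279350630326) (nat_lit 532) (nat_lit 78735100617) (nat_lit 52) (nat_lit 5) (nat_lit 51) (nat_lit 5) (nat_lit 58) (nat_lit 5) (nat_lit 364) (nat_lit 359) (nat_lit 177)) (XT.lf (nat_lit 76) (nat_lit 354767066511) (nat_lit 0) (nat_lit 79596042908) (nat_lit 532) (nat_lit 53032384832) (nat_lit 52) (nat_lit 5) (nat_lit 51) (nat_lit 5) (nat_lit 58) (nat_lit 5) (nat_lit 365)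 (nat_lit 359) (nat_lit 176)))) (XT.nd (nat_lit 156) (nat_lit 532) (nat_lit 0) (XT.nd (nat_lit 78) (nat_lit 76) (nat_lit 0) (XT.lf (nat_lit 0) (nat_lit 113256856459) (nat_lit 456) (nat_lit 376532894473) (nat_lit 532) (nat_lit 18795670756) (nat_lit 46) (nat_lit 5) (nat_lit 52) (nat_lit 5) (nat_lit 53) (nat_lit 5) (nat_lit 366) (nat_lit 359) (nat_lit 175)) (XT.lf (nat_lit 0) (nat_lit 23058431645) (nat_lit 532) (nat_lit 147423654882) (nat_lit 76) (nat_lit 360490447539) (nat_lit 45) (nat_lit 5) (nat_lit 52) (nat_lit 5) (nat_lit 46) (nat_lit 5) (nat_lit 367) (nat_lit 359) (nat_lit 174))) (XT.nd (nat_lit 78) (nat_lit 228) (nat_lit 0) (XT.lf (nat_lit 0) (nat_lit 71622281862) (nat_lit 380) (nat_lit 430077003315) (nat_lit 76) (nat_lit 53062124450) (nat_lit 41) (nat_lit 5) (nat_lit 46) (nat_lit 5) (nat_lit 42) (nat_lit 5) (nat_lit 368) (nat_lit 359) (nat_lit 173)) (XT.nd (nat_lit 78) (nat_lit 228)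 (nat_lit 0) (XT.lf (nat_lit 0) (nat_lit 132634842375) (nat_lit 380) (nat_lit 157718532024) (nat_lit 76) (nat_lit 289414932704) (nat_lit 41) (nat_lit 5) (nat_lit 46) (nat_lit 5) (nat_lit 42) (nat_lit 5) (nat_lit 369) (nat_lit 359) (nat_lit 172)) (XT.lf (nat_lit 0) (nat_lit 143612680705) (nat_lit 228) (nat_lit 58369592694) (nat_lit 304) (nat_lit 404517173770) (nat_lit 38) (nat_lit 5) (nat_lit 41) (nat_lit 5) (nat_lit 42) (nat_lit 5) (nat_lit 370) (nat_lit 359) (nat_lit 171))))))))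
noncomputable def xc235 : XT := (XT.nd (nat_lit 1326) (nat_lit 760) (nat_lit 0) (XT.nd (nat_lit 624) (nat_lit 608) (nat_lit 0) (XT.nd (nat_lit 312) (nat_lit 456) (nat_lit 0) (XT.nd (nat_lit 156) (nat_lit 152) (nat_lit 0) (XT.nd (nat_lit 78) (nat_lit 228) (nat_lit 0) (XT.lf (nat_lit 0) (nat_lit 285923551956) (nat_lit 304) (nat_lit 161737906855) (nat_lit 76) (nat_lit 186983935429) (nat_lit 38) (nat_lit 5) (nat_lit 42) (nat_lit 5) (nat_lit 39) (nat_lit 5) (nat_lit 371) (nat_lit 359) (nat_lit 170)) (XT.lf (nat_lit 0) (nat_lit 170516679689) (nat_lit 228) (nat_lit 211680456596) (nat_lit 304) (nat_lit 282396520555) (nat_lit 35) (nat_lit 5) (nat_lit 38) (nat_lit 5) (nat_lit 39) (nat_lit 5) (nat_lit 372) (nat_lit 359) (nat_lit 169))) (XT.nd (nat_lit 78) (nat_lit 152) (nat_lit 0) (XT.lf (nat_lit 0) (nat_lit 491748108105) (nat_lit 304) (nat_lit 159187536423) (nat_lit 76) (nat_lit 45556095897) (nat_lit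 35) (nat_lit 5) (nat_lit 39) (nat_lit 5) (nat_lit 36) (nat_lit 5) (nat_lit 373) (nat_lit 359) (nat_lit 168)) (XT.lf (nat_lit 0) (nat_lit 207368242717) (nat_lit 152) (nat_lit 413180302053) (nat_lit 228) (nat_lit 109554294996) (nat_lit 33) (nat_lit 5) (nat_lit 35) (nat_lit 5) (nat_lit 36) (nat_lit 5) (nat_lit 374) (nat_lit 359) (nat_lit 167)))) (XT.nd (nat_lit 156) (nat_lit 152) (nat_lit 0) (XT.nd (nat_lit 78) (nat_lit 304) (nat_lit 0) (XT.lf (nat_lit 0) (nat_lit 612301598493) (nat_lit 152) (nat_lit 151703870215) (nat_lit 228) (nat_lit 2049162190) (nat_lit 33) (nat_lit 5) (nat_lit 35) (nat_lit 5) (nat_lit 36) (nat_lit 5) (nat_lit 375) (nat_lit 359) (nat_lit 166)) (XT.lf (nat_lit 0) (nat_lit 117850982589) (nat_lit 304) (nat_lit 552799005908) (nat_lit 76) (nat_lit 133253119075) (nat_lit 29) (nat_lit 5) (nat_lit 33) (nat_lit 5) (nat_lit 30) (nat_lit 5) (nat_lit 376) (nat_lit 359) (nat_lit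 165))) (XT.nd (nat_lit 78) (nat_lit 152) (nat_lit 0) (XT.lf (nat_lit 0) (nat_lit 255485847701) (nat_lit 304) (nat_lit 151452073059) (nat_lit 76) (nat_lit 437177010310) (nat_lit 29) (nat_lit 5) (nat_lit 33) (nat_lit 5) (nat_lit 30) (nat_lit 5) (nat_lit 377) (nat_lit 359) (nat_lit 164)) (XT.lf (nat_lit 0) (nat_lit 296852351090) (nat_lit 152) (nat_lit 114418442659) (nat_lit 228) (nat_lit 475701763383) (nat_lit 27) (nat_lit 5) (nat_lit 29) (nat_lit 5) (nat_lit 30) (nat_lit 5) (nat_lit 378) (nat_lit 359) (nat_lit 163))))) (XT.nd (nat_lit 312) (nat_lit 304) (nat_lit 0) (XT.nd (nat_lit 156) (nat_lit 152) (nat_lit 0) (XT.nd (nat_lit 78) (nat_lit 152) (nat_lit 0) (XT.lf (nat_lit 0) (nat_lit 588613189396) (nat_lit 228) (nat_lit 148246893573) (nat_lit 76) (nat_lit 195671138020) (nat_lit 27) (nat_lit 5) (nat_lit 30) (nat_lit 5) (nat_lit 28) (nat_lit 5) (nat_lit 379) (nat_lit 359) (nat_lit 162)) (XT.lf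 (nat_lit 0) (nat_lit 343171168874) (nat_lit 152) (nat_lit 448196977324) (nat_lit 228) (nat_lit 189468418214) (nat_lit 25) (nat_lit 5) (nat_lit 27) (nat_lit 5) (nat_lit 28) (nat_lit 5) (nat_lit 380) (nat_lit 359) (nat_lit 161))) (XT.nd (nat_lit 78) (nat_lit 152) (nat_lit 0) (XT.lf (nat_lit 0) (nat_lit 882333589861) (nat_lit 152) (nat_lit 132063230023) (nat_lit 228) (nat_lit 18285249820) (nat_lit 25) (nat_lit 5) (nat_lit 27) (nat_lit 5) (nat_lit 28) (nat_lit 5) (nat_lit 381) (nat_lit 359) (nat_lit 160)) (XT.lf (nat_lit 0) (nat_lit 173059100222) (nat_lit 152) (nat_lit 701451874029) (nat_lit 76) (nat_lit 212659703686) (nat_lit 23) (nat_lit 5) (nat_lit 25) (nat_lit 5) (nat_lit 24) (nat_lit 5) (nat_lit 382) (nat_lit 359) (nat_lit 159)))) (XT.nd (nat_lit 156) (nat_lit 152) (nat_lit 0) (XT.nd (nat_lit 78) (nat_lit 152) (nat_lit 0) (XT.lf (nat_lit 0) (nat_lit 386370889819) (nat_lit 152) (nat_lit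 176479537114) (nat_lit 76) (nat_lit 582518130989) (nat_lit 23) (nat_lit 5) (nat_lit 25) (nat_lit 5) (nat_lit 24) (nat_lit 5) (nat_lit 383) (nat_lit 359) (nat_lit 158)) (XT.lf (nat_lit 0) (nat_lit 411053111268) (nat_lit 152) (nat_lit 215580337849) (nat_lit 228) (nat_lit 580797953079) (nat_lit 21) (nat_lit 5) (nat_lit 23) (nat_lit 5) (nat_lit 24) (nat_lit 5) (nat_lit 384) (nat_lit 359) (nat_lit 157))) (XT.nd (nat_lit 78) (nat_lit 152) (nat_lit 0) (XT.lf (nat_lit 0) (nat_lit 894902887541) (nat_lit 228) (nat_lit 222408972441) (nat_lit 76) (nat_lit 156444544093) (nat_lit 21) (nat_lit 5) (nat_lit 24) (nat_lit 5) (nat_lit 22) (nat_lit 4) (nat_lit 385) (nat_lit 359) (nat_lit 156)) (XT.nd (nat_lit 78) (nat_lit 76) (nat_lit 0) (XT.lf (nat_lit 0) (nat_lit 412514007712) (nat_lit 76) (nat_lit 787640324769) (nat_lit 152) (nat_lit 143991437519) (nat_lit 20) (nat_lit 5) (nat_lit 21) (nat_lit 5) (nat_lit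 22) (nat_lit 4) (nat_lit 386) (nat_lit 359) (nat_lit 155)) (XT.lf (nat_lit 0) (nat_lit 110412985483) (nat_lit 152) (nat_lit 311595660837) (nat_lit 76) (nat_lit 997447533965) (nat_lit 19) (nat_lit 5) (nat_lit 21) (nat_lit 5) (nat_lit 20) (nat_lit 5) (nat_lit 387) (nat_lit 359) (nat_lit 154))))))) (XT.nd (nat_lit 702) (nat_lit 304) (nat_lit 0) (XT.nd (nat_lit 312) (nat_lit 228) (nat_lit 0) (XT.nd (nat_lit 156) (nat_lit 76) (nat_lit 0) (XT.nd (nat_lit 78) (nat_lit 0) (nat_lit 0) (XT.lf (nat_lit 0) (nat_lit 372960259255) (nat_lit 152) (nat_lit 13399919754) (nat_lit 228) (nat_lit 1113414465857) (nat_lit 17) (nat_lit 5) (nat_lit 19) (nat_lit 5) (nat_lit 20) (nat_lit 5) (nat_lit 388) (nat_lit 359) (nat_lit 153)) (XT.lf (nat_lit 0) (nat_lit 703414949903) (nat_lit 228) (nat_lit 466347894117) (nat_lit 76) (nat_lit 415233198452) (nat_lit 17) (nat_lit 5) (nat_lit 20) (nat_lit 5) (nat_lit 18) (nat_lit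 4) (nat_lit 389) (nat_lit 359) (nat_lit 152))) (XT.nd (nat_lit 78) (nat_lit 0) (nat_lit 0) (XT.lf (nat_lit 0) (nat_lit 259593785473) (nat_lit 76) (nat_lit 792831595595) (nat_lit 152) (nat_lit 624082468537) (nat_lit 16) (nat_lit 5) (nat_lit 17) (nat_lit 5) (nat_lit 18) (nat_lit 4) (nat_lit 390) (nat_lit 359) (nat_lit 151)) (XT.lf (nat_lit 0) (nat_lit 1070132403871) (nat_lit 76) (nat_lit 371975012944) (nat_lit 152) (nat_lit 332213122894) (nat_lit 16) (nat_lit 5) (nat_lit 17) (nat_lit 5) (nat_lit 18) (nat_lit 4) (nat_lit 391) (nat_lit 359) (nat_lit 150)))) (XT.nd (nat_lit 156) (nat_lit 76) (nat_lit 0) (XT.nd (nat_lit 78) (nat_lit 76) (nat_lit 0) (XT.lf (nat_lit 0) (nat_lit 66918032971) (nat_lit 76) (nat_lit 1799640687228) (nat_lit 76) (nat_lit 13111948448) (nat_lit 15) (nat_lit 4) (nat_lit 16) (nat_lit 5) (nat_lit 16) (nat_lit 4) (nat_lit 392) (nat_lit 359) (nat_lit 149)) (XT.lf (nat_lit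 0) (nat_lit 344349011329) (nat_lit 152) (nat_lit 1070282807882) (nat_lit 76) (nat_lit 575825906304) (nat_lit 14) (nat_lit 5) (nat_lit 16) (nat_lit 5) (nat_lit 15) (nat_lit 4) (nat_lit 393) (nat_lit 359) (nat_lit 148))) (XT.nd (nat_lit 78) (nat_lit 76) (nat_lit 0) (XT.lf (nat_lit 0) (nat_lit 729698455362) (nat_lit 152) (nat_lit 268755976021) (nat_lit 76) (nat_lit 1111626070486) (nat_lit 14) (nat_lit 5) (nat_lit 16) (nat_lit 5) (nat_lit 15) (nat_lit 4) (nat_lit 394) (nat_lit 359) (nat_lit 147)) (XT.nd (nat_lit 78) (nat_lit 0) (nat_lit 0) (XT.lf (nat_lit 0) (nat_lit 628324318346) (nat_lit 76) (nat_lit 532662745299) (nat_lit 152) (nat_lit 1077077139995) (nat_lit 13) (nat_lit 5) (nat_lit 14) (nat_lit 5) (nat_lit 15) (nat_lit 4) (nat_lit 395) (nat_lit 359) (nat_lit 146)) (XT.lf (nat_lit 0) (nat_lit 1612455415867) (nat_lit 76) (nat_lit 21671603343) (nat_lit 152) (nat_lit 741571721656) (nat_lit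 13) (nat_lit 5) (nat_lit 14) (nat_lit 5) (nat_lit 15) (nat_lit 4) (nat_lit 396) (nat_lit 359) (nat_lit 145)))))) (XT.nd (nat_lit 312) (nat_lit 76) (nat_lit 0) (XT.nd (nat_lit 156) (nat_lit 76) (nat_lit 0) (XT.nd (nat_lit 78) (nat_lit 76) (nat_lit 0) (XT.lf (nat_lit 0) (nat_lit 145500162484) (nat_lit 76) (nat_lit 2015868580056) (nat_lit 76) (nat_lit 361675252831) (nat_lit 12) (nat_lit 4) (nat_lit 13) (nat_lit 5) (nat_lit 13) (nat_lit 4) (nat_lit 397) (nat_lit 359) (nat_lit 144)) (XT.lf (nat_lit 0) (nat_lit 68154472904) (nat_lit 152) (nat_lit 1512432031566) (nat_lit 76) (nat_lit 1099738965973) (nat_lit 11) (nat_lit 5) (nat_lit 13) (nat_lit 5) (nat_lit 12) (nat_lit 4) (nat_lit 398) (nat_lit 359) (nat_lit 143))) (XT.nd (nat_lit 78) (nat_lit 76) (nat_lit 0) (XT.lf (nat_lit 0) (nat_lit 512830713633) (nat_lit 152) (nat_lit 587505458241) (nat_lit 76) (nat_lit 1749101759078) (nat_lit 11) (nat_lit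 5) (nat_lit 13) (nat_lit 5) (nat_lit 12) (nat_lit 4) (nat_lit 399) (nat_lit 359) (nat_lit 142)) (XT.lf (nat_lit 0) (nat_lit 433079629001) (nat_lit 76) (nat_lit 570416995250) (nat_lit 152) (nat_lit 2027749518403) (nat_lit 10) (nat_lit 5) (nat_lit 11) (nat_lit 5) (nat_lit 12) (nat_lit 4) (nat_lit 400) (nat_lit 359) (nat_lit 141)))) (XT.nd (nat_lit 156) (nat_lit 76) (nat_lit 0) (XT.nd (nat_lit 78) (nat_lit 0) (nat_lit 0) (XT.lf (nat_lit 0) (nat_lit 1549942067509) (nat_lit 152) (nat_lit 1658053290106) (nat_lit 0) (nat_lit 18281552898) (nat_lit 10) (nat_lit 5) (nat_lit 12) (nat_lit 4) (nat_lit 10) (nat_lit 4) (nat_lit 401) (nat_lit 359) (nat_lit 140)) (XT.lf (nat_lit 0) (nat_lit 2154919167625) (nat_lit 152) (nat_lit 657547042884) (nat_lit 0) (nat_lit 623258647581) (nat_lit 10) (nat_lit 5) (nat_lit 12) (nat_lit 4) (nat_lit 10) (nat_lit 4) (nat_lit 402) (nat_lit 359) (nat_lit 139))) (XT.nd (nat_lit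 43524) (nat_lit 0) (nat_lit 3040) (XT.lf (nat_lit 0) (nat_lit 445274110764) (nat_lit 76) (nat_lit 2373729173935) (nat_lit 76) (nat_lit 842068648861) (nat_lit 9) (nat_lit 4) (nat_lit 10) (nat_lit 5) (nat_lit 10) (nat_lit 4) (nat_lit 403) (nat_lit 359) (nat_lit 138)) (XT.nd (nat_lit 78) (nat_lit 0) (nat_lit 0) (XT.lf (nat_lit 0) (nat_lit 142626089128) (nat_lit 532) (nat_lit 31977564518) (nat_lit 532) (nat_lit 31977564518) (nat_lit 49) (nat_lit 3) (nat_lit 56) (nat_lit 3) (nat_lit 56) (nat_lit 5) (nat_lit 360) (nat_lit 360) (nat_lit 180)) (XT.lf (nat_lit 76) (nat_lit 134565841362) (nat_lit 0) (nat_lit 165333088189) (nat_lit 532) (nat_lit 129531070218) (nat_lit 50) (nat_lit 5) (nat_lit 49) (nat_lit 3) (nat_lit 56) (nat_lit 5) (nat_lit 361) (nat_lit 360) (nat_lit 179))))))))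
noncomputable def xc236 : XT := (XT.nd (nat_lit 1326) (nat_lit 1140) (nat_lit 0) (XT.nd (nat_lit 624) (nat_lit 912) (nat_lit 0) (XT.nd (nat_lit 312) (nat_lit 684) (nat_lit 0) (XT.nd (nat_lit 156) (nat_lit 0) (nat_lit 0) (XT.nd (nat_lit 78) (nat_lit 0) (nat_lit 0) (XT.lf (nat_lit 0) (nat_lit 318311140536) (nat_lit 456) (nat_lit 95098534113) (nat_lit 532) (nat_lit 33381796160) (nat_lit 50) (nat_lit 5) (nat_lit 56) (nat_lit 5) (nat_lit 57) (nat_lit 5) (nat_lit 362) (nat_lit 360) (nat_lit 178)) (XT.lf (nat_lit 76) (nat_lit 122480945462) (nat_lit 0) (nat_lit 222955385799) (nat_lit 532) (nat_lit 119526328120) (nat_lit 51) (nat_lit 5) (nat_lit 50) (nat_lit 5) (nat_lit 57) (nat_lit 5) (nat_lit 363) (nat_lit 360) (nat_lit 177))) (XT.nd (nat_lit 78) (nat_lit 0) (nat_lit 76) (XT.lf (nat_lit 76) (nat_lit 362875100172) (nat_lit 0) (nat_lit 14456568694) (nat_lit 532) (nat_lit 107047863721) (nat_lit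 51) (nat_lit 5) (nat_lit 50) (nat_lit 5) (nat_lit 57) (nat_lit 5) (nat_lit 364) (nat_lit 360) (nat_lit 176)) (XT.lf (nat_lit 76) (nat_lit 117985235953) (nat_lit 0) (nat_lit 301698789824) (nat_lit 532) (nat_lit 85033298557) (nat_lit 52) (nat_lit 5) (nat_lit 51) (nat_lit 5) (nat_lit 58) (nat_lit 5) (nat_lit 365) (nat_lit 360) (nat_lit 175)))) (XT.nd (nat_lit 156) (nat_lit 380) (nat_lit 0) (XT.nd (nat_lit 78) (nat_lit 380) (nat_lit 0) (XT.lf (nat_lit 76) (nat_lit 383148852744) (nat_lit 0) (nat_lit 85963827333) (nat_lit 532) (nat_lit 57274410702) (nat_lit 52) (nat_lit 5) (nat_lit 51) (nat_lit 5) (nat_lit 58) (nat_lit 5) (nat_lit 366) (nat_lit 360) (nat_lit 174)) (XT.lf (nat_lit 0) (nat_lit 122317859523) (nat_lit 456) (nat_lit 406655563412) (nat_lit 532) (nat_lit 20298791968) (nat_lit 46) (nat_lit 5) (nat_lit 52) (nat_lit 5) (nat_lit 53) (nat_lit 5) (nat_lit 367) (nat_lit 360) (nat_lit 173)))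 (XT.nd (nat_lit 78) (nat_lit 304) (nat_lit 0) (XT.lf (nat_lit 0) (nat_lit 24903574522) (nat_lit 532) (nat_lit 159217100734) (nat_lit 76) (nat_lit 389329623068) (nat_lit 45) (nat_lit 5) (nat_lit 52) (nat_lit 5) (nat_lit 46) (nat_lit 5) (nat_lit 368) (nat_lit 360) (nat_lit 172)) (XT.lf (nat_lit 0) (nat_lit 77352508318) (nat_lit 380) (nat_lit 464482691677) (nat_lit 76) (nat_lit 57307085964) (nat_lit 41) (nat_lit 5) (nat_lit 46) (nat_lit 5) (nat_lit 42) (nat_lit 5) (nat_lit 369) (nat_lit 360) (nat_lit 171))))) (XT.nd (nat_lit 312) (nat_lit 456) (nat_lit 0) (XT.nd (nat_lit 156) (nat_lit 228) (nat_lit 0) (XT.nd (nat_lit 78) (nat_lit 228) (nat_lit 0) (XT.lf (nat_lit 0) (nat_lit 143246040790) (nat_lit 380) (nat_lit 170335577638) (nat_lit 76) (nat_lit 312568119503) (nat_lit 41) (nat_lit 5) (nat_lit 46) (nat_lit 5) (nat_lit 42) (nat_lit 5) (nat_lit 370) (nat_lit 360) (nat_lit 170)) (XT.lf (nat_lit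 0) (nat_lit 155102121047) (nat_lit 228) (nat_lit 63039125045) (nat_lit 304) (nat_lit 436878124790) (nat_lit 38) (nat_lit 5) (nat_lit 41) (nat_lit 5) (nat_lit 42) (nat_lit 5) (nat_lit 371) (nat_lit 360) (nat_lit 169))) (XT.nd (nat_lit 78) (nat_lit 228) (nat_lit 0) (XT.lf (nat_lit 0) (nat_lit 308797798765) (nat_lit 304) (nat_lit 174676516161) (nat_lit 76) (nat_lit 201942681107) (nat_lit 38) (nat_lit 5) (nat_lit 42) (nat_lit 5) (nat_lit 39) (nat_lit 5) (nat_lit 372) (nat_lit 360) (nat_lit 168)) (XT.lf (nat_lit 0) (nat_lit 184158426592) (nat_lit 228) (nat_lit 228614826306) (nat_lit 304) (nat_lit 304987868152) (nat_lit 35) (nat_lit 5) (nat_lit 38) (nat_lit 5) (nat_lit 39) (nat_lit 5) (nat_lit 373) (nat_lit 360) (nat_lit 167)))) (XT.nd (nat_lit 156) (nat_lit 304) (nat_lit 0) (XT.nd (nat_lit 78) (nat_lit 152) (nat_lit 0) (XT.lf (nat_lit 0) (nat_lit 531088278344) (nat_lit 304) (nat_lit 171922132617)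 (nat_lit 76) (nat_lit 49200642342) (nat_lit 35) (nat_lit 5) (nat_lit 39) (nat_lit 5) (nat_lit 36) (nat_lit 5) (nat_lit 374) (nat_lit 360) (nat_lit 166)) (XT.lf (nat_lit 0) (nat_lit 223958098558) (nat_lit 152) (nat_lit 446234637097) (nat_lit 228) (nat_lit 118318306125) (nat_lit 33) (nat_lit 5) (nat_lit 35) (nat_lit 5) (nat_lit 36) (nat_lit 5) (nat_lit 375) (nat_lit 360) (nat_lit 165))) (XT.nd (nat_lit 78) (nat_lit 304) (nat_lit 0) (XT.lf (nat_lit 0) (nat_lit 661286093431) (nat_lit 152) (nat_lit 163840097312) (nat_lit 228) (nat_lit 2212787322) (nat_lit 33) (nat_lit 5) (nat_lit 35) (nat_lit 5) (nat_lit 36) (nat_lit 5) (nat_lit 376) (nat_lit 360) (nat_lit 164)) (XT.nd (nat_lit 78) (nat_lit 0) (nat_lit 0) (XT.lf (nat_lit 0) (nat_lit 127279343203) (nat_lit 304) (nat_lit 597022532522) (nat_lit 76) (nat_lit 143913457429) (nat_lit 29) (nat_lit 5) (nat_lit 33) (nat_lit 5) (nat_lit 30) (nat_lit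 5) (nat_lit 377) (nat_lit 360) (nat_lit 163)) (XT.lf (nat_lit 0) (nat_lit 275924976634) (nat_lit 304) (nat_lit 163567874219) (nat_lit 76) (nat_lit 472151253383) (nat_lit 29) (nat_lit 5) (nat_lit 33) (nat_lit 5) (nat_lit 30) (nat_lit 5) (nat_lit 378) (nat_lit 360) (nat_lit 162))))))) (XT.nd (nat_lit 624) (nat_lit 532) (nat_lit 0) (XT.nd (nat_lit 312) (nat_lit 304) (nat_lit 0) (XT.nd (nat_lit 156) (nat_lit 152) (nat_lit 0) (XT.nd (nat_lit 78) (nat_lit 0) (nat_lit 0) (XT.lf (nat_lit 0) (nat_lit 320600894629) (nat_lit 152) (nat_lit 123571812944) (nat_lit 228) (nat_lit 513757633706) (nat_lit 27) (nat_lit 5) (nat_lit 29) (nat_lit 5) (nat_lit 30) (nat_lit 5) (nat_lit 379) (nat_lit 360) (nat_lit 161)) (XT.lf (nat_lit 0) (nat_lit 635702478670) (nat_lit 228) (nat_lit 160106299367) (nat_lit 76) (nat_lit 211324921533) (nat_lit 27) (nat_lit 5) (nat_lit 30) (nat_lit 5) (nat_lit 28) (nat_lit 5) (nat_lit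 380) (nat_lit 360) (nat_lit 160))) (XT.nd (nat_lit 78) (nat_lit 0) (nat_lit 0) (XT.lf (nat_lit 0) (nat_lit 370625199323) (nat_lit 152) (nat_lit 484052623455) (nat_lit 228) (nat_lit 204625648457) (nat_lit 25) (nat_lit 5) (nat_lit 27) (nat_lit 5) (nat_lit 28) (nat_lit 5) (nat_lit 381) (nat_lit 360) (nat_lit 159)) (XT.lf (nat_lit 0) (nat_lit 952920589030) (nat_lit 152) (nat_lit 142628184669) (nat_lit 228) (nat_lit 19747844607) (nat_lit 25) (nat_lit 5) (nat_lit 27) (nat_lit 5) (nat_lit 28) (nat_lit 5) (nat_lit 382) (nat_lit 360) (nat_lit 158)))) (XT.nd (nat_lit 156) (nat_lit 152) (nat_lit 0) (XT.nd (nat_lit 78) (nat_lit 0) (nat_lit 0) (XT.lf (nat_lit 0) (nat_lit 186904036549) (nat_lit 152) (nat_lit 757567694518) (nat_lit 76) (nat_lit 229672584171) (nat_lit 23) (nat_lit 5) (nat_lit 25) (nat_lit 5) (nat_lit 24) (nat_lit 5) (nat_lit 383) (nat_lit 360) (nat_lit 157)) (XT.lf (nat_lit 0) (nat_lit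 417280753883) (nat_lit 152) (nat_lit 190597595052) (nat_lit 76) (nat_lit 629119677940) (nat_lit 23) (nat_lit 5) (nat_lit 25) (nat_lit 5) (nat_lit 24) (nat_lit 5) (nat_lit 384) (nat_lit 360) (nat_lit 156))) (XT.nd (nat_lit 78) (nat_lit 0) (nat_lit 0) (XT.lf (nat_lit 0) (nat_lit 443937657478) (nat_lit 152) (nat_lit 232826653310) (nat_lit 228) (nat_lit 627261588493) (nat_lit 21) (nat_lit 5) (nat_lit 23) (nat_lit 5) (nat_lit 24) (nat_lit 5) (nat_lit 385) (nat_lit 360) (nat_lit 155)) (XT.lf (nat_lit 0) (nat_lit 966495293012) (nat_lit 228) (nat_lit 240201403462) (nat_lit 76) (nat_lit 168960205756) (nat_lit 21) (nat_lit 5) (nat_lit 24) (nat_lit 5) (nat_lit 22) (nat_lit 4) (nat_lit 386) (nat_lit 360) (nat_lit 154))))) (XT.nd (nat_lit 312) (nat_lit 228) (nat_lit 0) (XT.nd (nat_lit 156) (nat_lit 152) (nat_lit 0) (XT.nd (nat_lit 78) (nat_lit 76) (nat_lit 0) (XT.lf (nat_lit 0) (nat_lit 445515407843)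 (nat_lit 76) (nat_lit 850651439502) (nat_lit 152) (nat_lit 155510570595) (nat_lit 20) (nat_lit 5) (nat_lit 21) (nat_lit 5) (nat_lit 22) (nat_lit 4) (nat_lit 387) (nat_lit 360) (nat_lit 153)) (XT.lf (nat_lit 0) (nat_lit 119246184345) (nat_lit 152) (nat_lit 336523046298) (nat_lit 76) (nat_lit 1077243431093) (nat_lit 19) (nat_lit 5) (nat_lit 21) (nat_lit 5) (nat_lit 20) (nat_lit 5) (nat_lit 388) (nat_lit 360) (nat_lit 152))) (XT.nd (nat_lit 78) (nat_lit 0) (nat_lit 0) (XT.lf (nat_lit 0) (nat_lit 402797340632) (nat_lit 152) (nat_lit 14471807135) (nat_lit 228) (nat_lit 1202487456175) (nat_lit 17) (nat_lit 5) (nat_lit 19) (nat_lit 5) (nat_lit 20) (nat_lit 5) (nat_lit 389) (nat_lit 360) (nat_lit 151)) (XT.lf (nat_lit 0) (nat_lit 759688291258) (nat_lit 228) (nat_lit 503655475095) (nat_lit 76) (nat_lit 448451947741) (nat_lit 17) (nat_lit 5) (nat_lit 20) (nat_lit 5) (nat_lit 18) (nat_lit 4) (nat_lit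 390) (nat_lit 360) (nat_lit 150)))) (XT.nd (nat_lit 156) (nat_lit 152) (nat_lit 0) (XT.nd (nat_lit 78) (nat_lit 0) (nat_lit 0) (XT.lf (nat_lit 0) (nat_lit 280361532520) (nat_lit 76) (nat_lit 856258019502) (nat_lit 152) (nat_lit 674008914178) (nat_lit 16) (nat_lit 5) (nat_lit 17) (nat_lit 5) (nat_lit 18) (nat_lit 4) (nat_lit 391) (nat_lit 360) (nat_lit 149)) (XT.lf (nat_lit 0) (nat_lit 1155743222299) (nat_lit 76) (nat_lit 401732917925) (nat_lit 152) (nat_lit 358790032132) (nat_lit 16) (nat_lit 5) (nat_lit 17) (nat_lit 5) (nat_lit 18) (nat_lit 4) (nat_lit 392) (nat_lit 360) (nat_lit 148))) (XT.nd (nat_lit 78) (nat_lit 76) (nat_lit 0) (XT.lf (nat_lit 0) (nat_lit 72271704015) (nat_lit 76) (nat_lit 1943611841861) (nat_lit 76) (nat_lit 14160765902) (nat_lit 15) (nat_lit 4) (nat_lit 16) (nat_lit 5) (nat_lit 16) (nat_lit 4) (nat_lit 393) (nat_lit 360) (nat_lit 147)) (XT.nd (nat_lit 78) (nat_lit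 0) (nat_lit 0) (XT.lf (nat_lit 0) (nat_lit 371897053992) (nat_lit 152) (nat_lit 1155905214515) (nat_lit 76) (nat_lit 621892065210) (nat_lit 14) (nat_lit 5) (nat_lit 16) (nat_lit 5) (nat_lit 15) (nat_lit 4) (nat_lit 394) (nat_lit 360) (nat_lit 146)) (XT.lf (nat_lit 0) (nat_lit 788074444529) (nat_lit 152) (nat_lit 290256252253) (nat_lit 76) (nat_lit 1200556236126) (nat_lit 14) (nat_lit 5) (nat_lit 16) (nat_lit 5) (nat_lit 15) (nat_lit 4) (nat_lit 395) (nat_lit 360) (nat_lit 145))))))))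
noncomputable def xc237 : XT := (XT.nd (nat_lit 44850) (nat_lit 0) (nat_lit 836) (XT.nd (nat_lit 44148) (nat_lit 0) (nat_lit 2660) (XT.nd (nat_lit 312) (nat_lit 76) (nat_lit 0) (XT.nd (nat_lit 156) (nat_lit 152) (nat_lit 0) (XT.nd (nat_lit 78) (nat_lit 0) (nat_lit 0) (XT.lf (nat_lit 0) (nat_lit 678590460554) (nat_lit 76) (nat_lit 575275677301) (nat_lit 152) (nat_lit 1163243193261) (nat_lit 13) (nat_lit 5) (nat_lit 14) (nat_lit 5) (nat_lit 15) (nat_lit 4) (nat_lit 396) (nat_lit 360) (nat_lit 144)) (XT.lf (nat_lit 0) (nat_lit 1741452031304) (nat_lit 76) (nat_lit 23405250480) (nat_lit 152) (nat_lit 800897350191) (nat_lit 13) (nat_lit 5) (nat_lit 14) (nat_lit 5) (nat_lit 15) (nat_lit 4) (nat_lit 397) (nat_lit 360) (nat_lit 143))) (XT.nd (nat_lit 78) (nat_lit 76) (nat_lit 0) (XT.lf (nat_lit 0) (nat_lit 157140359091) (nat_lit 76) (nat_lit 2177137982626) (nat_lit 76) (nat_lit 390609165228) (nat_lit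 12) (nat_lit 4) (nat_lit 13) (nat_lit 5) (nat_lit 13) (nat_lit 4) (nat_lit 398) (nat_lit 360) (nat_lit 142)) (XT.lf (nat_lit 0) (nat_lit 73606925584) (nat_lit 152) (nat_lit 1633426419026) (nat_lit 76) (nat_lit 1187718155818) (nat_lit 11) (nat_lit 5) (nat_lit 13) (nat_lit 5) (nat_lit 12) (nat_lit 4) (nat_lit 399) (nat_lit 360) (nat_lit 141)))) (XT.nd (nat_lit 156) (nat_lit 0) (nat_lit 0) (XT.nd (nat_lit 78) (nat_lit 76) (nat_lit 0) (XT.lf (nat_lit 0) (nat_lit 553857258545) (nat_lit 152) (nat_lit 634505732804) (nat_lit 76) (nat_lit 1889029966996) (nat_lit 11) (nat_lit 5) (nat_lit 13) (nat_lit 5) (nat_lit 12) (nat_lit 4) (nat_lit 400) (nat_lit 360) (nat_lit 140)) (XT.lf (nat_lit 0) (nat_lit 467726157314) (nat_lit 76) (nat_lit 616050281993) (nat_lit 152) (nat_lit 2189969387897) (nat_lit 10) (nat_lit 5) (nat_lit 11) (nat_lit 5) (nat_lit 12) (nat_lit 4) (nat_lit 401) (nat_lit 360) (nat_lit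 139))) (XT.nd (nat_lit 78) (nat_lit 0) (nat_lit 0) (XT.lf (nat_lit 0) (nat_lit 1673937513344) (nat_lit 152) (nat_lit 1790697402292) (nat_lit 0) (nat_lit 19744141233) (nat_lit 10) (nat_lit 5) (nat_lit 12) (nat_lit 4) (nat_lit 10) (nat_lit 4) (nat_lit 402) (nat_lit 360) (nat_lit 138)) (XT.lf (nat_lit 0) (nat_lit 2327312775511) (nat_lit 152) (nat_lit 710150666480) (nat_lit 0) (nat_lit 673119398743) (nat_lit 10) (nat_lit 5) (nat_lit 12) (nat_lit 4) (nat_lit 10) (nat_lit 4) (nat_lit 403) (nat_lit 360) (nat_lit 137))))) (XT.nd (nat_lit 312) (nat_lit 304) (nat_lit 0) (XT.nd (nat_lit 156) (nat_lit 0) (nat_lit 76) (XT.nd (nat_lit 78) (nat_lit 0) (nat_lit 0) (XT.lf (nat_lit 0) (nat_lit 154036520226) (nat_lit 532) (nat_lit 34535583508) (nat_lit 532) (nat_lit 34535583508) (nat_lit 49) (nat_lit 3) (nat_lit 56) (nat_lit 3) (nat_lit 56) (nat_lit 5) (nat_lit 361) (nat_lit 361) (nat_lit 178)) (XT.lf (nat_lit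 76) (nat_lit 145331471587) (nat_lit 0) (nat_lit 178560018034) (nat_lit 532) (nat_lit 139892856887) (nat_lit 50) (nat_lit 5) (nat_lit 49) (nat_lit 3) (nat_lit 56) (nat_lit 5) (nat_lit 362) (nat_lit 361) (nat_lit 177))) (XT.nd (nat_lit 78) (nat_lit 0) (nat_lit 0) (XT.lf (nat_lit 0) (nat_lit 343776623357) (nat_lit 456) (nat_lit 102706025212) (nat_lit 532) (nat_lit 36052091108) (nat_lit 50) (nat_lit 5) (nat_lit 56) (nat_lit 5) (nat_lit 57) (nat_lit 5) (nat_lit 363) (nat_lit 361) (nat_lit 176)) (XT.lf (nat_lit 76) (nat_lit 132279802814) (nat_lit 0) (nat_lit 240791991886) (nat_lit 532) (nat_lit 129087831517) (nat_lit 51) (nat_lit 5) (nat_lit 50) (nat_lit 5) (nat_lit 57) (nat_lit 5) (nat_lit 364) (nat_lit 361) (nat_lit 175)))) (XT.nd (nat_lit 156) (nat_lit 380) (nat_lit 0) (XT.nd (nat_lit 78) (nat_lit 0) (nat_lit 76) (XT.lf (nat_lit 76) (nat_lit 391905461626) (nat_lit 0) (nat_lit 15613256433)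 (nat_lit 532) (nat_lit 115611134621) (nat_lit 51) (nat_lit 5) (nat_lit 50) (nat_lit 5) (nat_lit 57) (nat_lit 5) (nat_lit 365) (nat_lit 361) (nat_lit 174)) (XT.lf (nat_lit 76) (nat_lit 127424444563) (nat_lit 0) (nat_lit 325834786521) (nat_lit 532) (nat_lit 91835439371) (nat_lit 52) (nat_lit 5) (nat_lit 51) (nat_lit 5) (nat_lit 58) (nat_lit 5) (nat_lit 366) (nat_lit 361) (nat_lit 173))) (XT.nd (nat_lit 78) (nat_lit 456) (nat_lit 0) (XT.lf (nat_lit 76) (nat_lit 413801121828) (nat_lit 0) (nat_lit 92841020104) (nat_lit 532) (nat_lit 61855879234) (nat_lit 52) (nat_lit 5) (nat_lit 51) (nat_lit 5) (nat_lit 58) (nat_lit 5) (nat_lit 367) (nat_lit 361) (nat_lit 172)) (XT.nd (nat_lit 78) (nat_lit 76) (nat_lit 0) (XT.lf (nat_lit 0) (nat_lit 132103677985) (nat_lit 456) (nat_lit 439188040533) (nat_lit 532) (nat_lit 21922238837) (nat_lit 46) (nat_lit 5) (nat_lit 52) (nat_lit 5) (nat_lit 53) (nat_lit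 5) (nat_lit 368) (nat_lit 361) (nat_lit 171)) (XT.lf (nat_lit 0) (nat_lit 26896262015) (nat_lit 532) (nat_lit 171954085957) (nat_lit 76) (nat_lit 420475941238) (nat_lit 45) (nat_lit 5) (nat_lit 52) (nat_lit 5) (nat_lit 46) (nat_lit 5) (nat_lit 369) (nat_lit 361) (nat_lit 170))))))) (XT.nd (nat_lit 702) (nat_lit 608) (nat_lit 0) (XT.nd (nat_lit 312) (nat_lit 684) (nat_lit 0) (XT.nd (nat_lit 156) (nat_lit 228) (nat_lit 0) (XT.nd (nat_lit 78) (nat_lit 0) (nat_lit 0) (XT.lf (nat_lit 0) (nat_lit 83541089562) (nat_lit 380) (nat_lit 501640902430) (nat_lit 76) (nat_lit 61891645604) (nat_lit 41) (nat_lit 5) (nat_lit 46) (nat_lit 5) (nat_lit 42) (nat_lit 5) (nat_lit 370) (nat_lit 361) (nat_lit 169)) (XT.lf (nat_lit 0) (nat_lit 154706076440) (nat_lit 380) (nat_lit 183962049237) (nat_lit 76) (nat_lit 337573562362) (nat_lit 41) (nat_lit 5) (nat_lit 46) (nat_lit 5) (nat_lit 42) (nat_lit 5) (nat_lit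 371) (nat_lit 361) (nat_lit 168))) (XT.nd (nat_lit 78) (nat_lit 0) (nat_lit 0) (XT.lf (nat_lit 0) (nat_lit 167510655860) (nat_lit 228) (nat_lit 68082224986) (nat_lit 304) (nat_lit 471828012222) (nat_lit 38) (nat_lit 5) (nat_lit 41) (nat_lit 5) (nat_lit 42) (nat_lit 5) (nat_lit 372) (nat_lit 361) (nat_lit 167)) (XT.lf (nat_lit 0) (nat_lit 333501933582) (nat_lit 304) (nat_lit 188650274592) (nat_lit 76) (nat_lit 218098122038) (nat_lit 38) (nat_lit 5) (nat_lit 42) (nat_lit 5) (nat_lit 39) (nat_lit 5) (nat_lit 373) (nat_lit 361) (nat_lit 166)))) (XT.nd (nat_lit 156) (nat_lit 456) (nat_lit 0) (XT.nd (nat_lit 78) (nat_lit 0) (nat_lit 0) (XT.lf (nat_lit 0) (nat_lit 198891454396) (nat_lit 228) (nat_lit 246903955126) (nat_lit 304) (nat_lit 329386576918) (nat_lit 35) (nat_lit 5) (nat_lit 38) (nat_lit 5) (nat_lit 39) (nat_lit 5) (nat_lit 374) (nat_lit 361) (nat_lit 165)) (XT.lf (nat_lit 0) (nat_lit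 573575616323) (nat_lit 304) (nat_lit 185675554529) (nat_lit 76) (nat_lit 53136744118) (nat_lit 35) (nat_lit 5) (nat_lit 39) (nat_lit 5) (nat_lit 36) (nat_lit 5) (nat_lit 375) (nat_lit 361) (nat_lit 164))) (XT.nd (nat_lit 78) (nat_lit 304) (nat_lit 0) (XT.lf (nat_lit 0) (nat_lit 241875086312) (nat_lit 152) (nat_lit 481933331657) (nat_lit 228) (nat_lit 127783485575) (nat_lit 33) (nat_lit 5) (nat_lit 35) (nat_lit 5) (nat_lit 36) (nat_lit 5) (nat_lit 376) (nat_lit 361) (nat_lit 163)) (XT.nd (nat_lit 78) (nat_lit 304) (nat_lit 0) (XT.lf (nat_lit 0) (nat_lit 714189295600) (nat_lit 152) (nat_lit 176947234350) (nat_lit 228) (nat_lit 2389546382) (nat_lit 33) (nat_lit 5) (nat_lit 35) (nat_lit 5) (nat_lit 36) (nat_lit 5) (nat_lit 377) (nat_lit 361) (nat_lit 162)) (XT.lf (nat_lit 0) (nat_lit 137461932435) (nat_lit 304) (nat_lit 644783997453) (nat_lit 76) (nat_lit 155426610180) (nat_lit 29) (nat_lit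 5) (nat_lit 33) (nat_lit 5) (nat_lit 30) (nat_lit 5) (nat_lit 378) (nat_lit 361) (nat_lit 161)))))) (XT.nd (nat_lit 312) (nat_lit 304) (nat_lit 0) (XT.nd (nat_lit 156) (nat_lit 152) (nat_lit 0) (XT.nd (nat_lit 78) (nat_lit 152) (nat_lit 0) (XT.lf (nat_lit 0) (nat_lit 297999198631) (nat_lit 304) (nat_lit 176652991499) (nat_lit 76) (nat_lit 509923424168) (nat_lit 29) (nat_lit 5) (nat_lit 33) (nat_lit 5) (nat_lit 30) (nat_lit 5) (nat_lit 379) (nat_lit 361) (nat_lit 160)) (XT.lf (nat_lit 0) (nat_lit 346249270942) (nat_lit 152) (nat_lit 133457467850) (nat_lit 228) (nat_lit 554858012281) (nat_lit 27) (nat_lit 5) (nat_lit 29) (nat_lit 5) (nat_lit 30) (nat_lit 5) (nat_lit 380) (nat_lit 361) (nat_lit 159))) (XT.nd (nat_lit 78) (nat_lit 152) (nat_lit 0) (XT.lf (nat_lit 0) (nat_lit 686558877686) (nat_lit 228) (nat_lit 172914506943) (nat_lit 76) (nat_lit 228230994534) (nat_lit 27) (nat_lit 5) (nat_lit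 30) (nat_lit 5) (nat_lit 28) (nat_lit 5) (nat_lit 381) (nat_lit 361) (nat_lit 158)) (XT.lf (nat_lit 0) (nat_lit 400275504140) (nat_lit 152) (nat_lit 522776737261) (nat_lit 228) (nat_lit 220995491816) (nat_lit 25) (nat_lit 5) (nat_lit 27) (nat_lit 5) (nat_lit 28) (nat_lit 5) (nat_lit 382) (nat_lit 361) (nat_lit 157)))) (XT.nd (nat_lit 156) (nat_lit 152) (nat_lit 0) (XT.nd (nat_lit 78) (nat_lit 152) (nat_lit 0) (XT.lf (nat_lit 0) (nat_lit 1029154503626) (nat_lit 152) (nat_lit 154038350489) (nat_lit 228) (nat_lit 21327479104) (nat_lit 25) (nat_lit 5) (nat_lit 27) (nat_lit 5) (nat_lit 28) (nat_lit 5) (nat_lit 383) (nat_lit 361) (nat_lit 156)) (XT.lf (nat_lit 0) (nat_lit 201856538063) (nat_lit 152) (nat_lit 818172827643) (nat_lit 76) (nat_lit 248046480231) (nat_lit 23) (nat_lit 5) (nat_lit 25) (nat_lit 5) (nat_lit 24) (nat_lit 5) (nat_lit 384) (nat_lit 361) (nat_lit 155))) (XT.nd (nat_lit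 78) (nat_lit 152) (nat_lit 0) (XT.lf (nat_lit 0) (nat_lit 450663379555) (nat_lit 152) (nat_lit 205845141142) (nat_lit 76) (nat_lit 679449334885) (nat_lit 23) (nat_lit 5) (nat_lit 25) (nat_lit 5) (nat_lit 24) (nat_lit 5) (nat_lit 385) (nat_lit 361) (nat_lit 154)) (XT.nd (nat_lit 78) (nat_lit 0) (nat_lit 0) (XT.lf (nat_lit 0) (nat_lit 479452924971) (nat_lit 152) (nat_lit 251452689923) (nat_lit 228) (nat_lit 677442343391) (nat_lit 21) (nat_lit 5) (nat_lit 23) (nat_lit 5) (nat_lit 24) (nat_lit 5) (nat_lit 386) (nat_lit 361) (nat_lit 153)) (XT.lf (nat_lit 0) (nat_lit 1043815066030) (nat_lit 228) (nat_lit 259417269876) (nat_lit 76) (nat_lit 182477106352) (nat_lit 21) (nat_lit 5) (nat_lit 24) (nat_lit 5) (nat_lit 22) (nat_lit 4) (nat_lit 387) (nat_lit 361) (nat_lit 152))))))))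
noncomputable def xc238 : XT := (XT.nd (nat_lit 44928) (nat_lit 0) (nat_lit 1444) (XT.nd (nat_lit 624) (nat_lit 304) (nat_lit 0) (XT.nd (nat_lit 312) (nat_lit 228) (nat_lit 0) (XT.nd (nat_lit 156) (nat_lit 152) (nat_lit 0) (XT.nd (nat_lit 78) (nat_lit 76) (nat_lit 0) (XT.lf (nat_lit 0) (nat_lit 481156880110) (nat_lit 76) (nat_lit 918703459285) (nat_lit 152) (nat_lit 167951260271) (nat_lit 20) (nat_lit 5) (nat_lit 21) (nat_lit 5) (nat_lit 22) (nat_lit 4) (nat_lit 388) (nat_lit 361) (nat_lit 151)) (XT.lf (nat_lit 0) (nat_lit 128786016286) (nat_lit 152) (nat_lit 363444660744) (nat_lit 76) (nat_lit 1163422986523) (nat_lit 19) (nat_lit 5) (nat_lit 21) (nat_lit 5) (nat_lit 20) (nat_lit 5) (nat_lit 389) (nat_lit 361) (nat_lit 150))) (XT.nd (nat_lit 78) (nat_lit 0) (nat_lit 0) (XT.lf (nat_lit 0) (nat_lit 435021351337) (nat_lit 152) (nat_lit 15629460658) (nat_lit 228) (nat_lit 1298686309535) (nat_lit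 17) (nat_lit 5) (nat_lit 19) (nat_lit 5) (nat_lit 20) (nat_lit 5) (nat_lit 390) (nat_lit 361) (nat_lit 149)) (XT.lf (nat_lit 0) (nat_lit 820463479184) (nat_lit 228) (nat_lit 543947698295) (nat_lit 76) (nat_lit 484328183647) (nat_lit 17) (nat_lit 5) (nat_lit 20) (nat_lit 5) (nat_lit 18) (nat_lit 4) (nat_lit 391) (nat_lit 361) (nat_lit 148)))) (XT.nd (nat_lit 156) (nat_lit 152) (nat_lit 0) (XT.nd (nat_lit 78) (nat_lit 0) (nat_lit 0) (XT.lf (nat_lit 0) (nat_lit 302790664490) (nat_lit 76) (nat_lit 924758572123) (nat_lit 152) (nat_lit 727929497133) (nat_lit 16) (nat_lit 5) (nat_lit 17) (nat_lit 5) (nat_lit 18) (nat_lit 4) (nat_lit 392) (nat_lit 361) (nat_lit 147)) (XT.lf (nat_lit 0) (nat_lit 1248202873944) (nat_lit 76) (nat_lit 433871469007) (nat_lit 152) (nat_lit 387493114166) (nat_lit 16) (nat_lit 5) (nat_lit 17) (nat_lit 5) (nat_lit 18) (nat_lit 4) (nat_lit 393) (nat_lit 361) (nat_lit 146)))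 (XT.nd (nat_lit 78) (nat_lit 76) (nat_lit 0) (XT.lf (nat_lit 0) (nat_lit 78053636158) (nat_lit 76) (nat_lit 2099100703181) (nat_lit 76) (nat_lit 15293508500) (nat_lit 15) (nat_lit 4) (nat_lit 16) (nat_lit 5) (nat_lit 16) (nat_lit 4) (nat_lit 394) (nat_lit 361) (nat_lit 145)) (XT.lf (nat_lit 0) (nat_lit 401648922699) (nat_lit 152) (nat_lit 1248377444777) (nat_lit 76) (nat_lit 671643504502) (nat_lit 14) (nat_lit 5) (nat_lit 16) (nat_lit 5) (nat_lit 15) (nat_lit 4) (nat_lit 395) (nat_lit 361) (nat_lit 144))))) (XT.nd (nat_lit 312) (nat_lit 152) (nat_lit 0) (XT.nd (nat_lit 156) (nat_lit 76) (nat_lit 0) (XT.nd (nat_lit 78) (nat_lit 76) (nat_lit 0) (XT.lf (nat_lit 0) (nat_lit 851120496747) (nat_lit 152) (nat_lit 313476579379) (nat_lit 76) (nat_lit 1296600803605) (nat_lit 14) (nat_lit 5) (nat_lit 16) (nat_lit 5) (nat_lit 15) (nat_lit 4) (nat_lit 396) (nat_lit 361) (nat_lit 143)) (XT.lf (nat_lit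 0) (nat_lit 732877866071) (nat_lit 76) (nat_lit 621297656364) (nat_lit 152) (nat_lit 1256302547613) (nat_lit 13) (nat_lit 5) (nat_lit 14) (nat_lit 5) (nat_lit 15) (nat_lit 4) (nat_lit 397) (nat_lit 361) (nat_lit 142))) (XT.nd (nat_lit 78) (nat_lit 76) (nat_lit 0) (XT.lf (nat_lit 0) (nat_lit 1880768349987) (nat_lit 76) (nat_lit 25277600962) (nat_lit 152) (nat_lit 864969044587) (nat_lit 13) (nat_lit 5) (nat_lit 14) (nat_lit 5) (nat_lit 15) (nat_lit 4) (nat_lit 398) (nat_lit 361) (nat_lit 141)) (XT.lf (nat_lit 0) (nat_lit 169711745233) (nat_lit 76) (nat_lit 2351308949362) (nat_lit 76) (nat_lit 421857806000) (nat_lit 12) (nat_lit 4) (nat_lit 13) (nat_lit 5) (nat_lit 13) (nat_lit 4) (nat_lit 399) (nat_lit 361) (nat_lit 140)))) (XT.nd (nat_lit 156) (nat_lit 76) (nat_lit 0) (XT.nd (nat_lit 78) (nat_lit 0) (nat_lit 0) (XT.lf (nat_lit 0) (nat_lit 79495560947) (nat_lit 152) (nat_lit 1764100382459)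 (nat_lit 76) (nat_lit 1282735670498) (nat_lit 11) (nat_lit 5) (nat_lit 13) (nat_lit 5) (nat_lit 12) (nat_lit 4) (nat_lit 400) (nat_lit 361) (nat_lit 139)) (XT.lf (nat_lit 0) (nat_lit 598165914522) (nat_lit 152) (nat_lit 685266052456) (nat_lit 76) (nat_lit 2040152421962) (nat_lit 11) (nat_lit 5) (nat_lit 13) (nat_lit 5) (nat_lit 12) (nat_lit 4) (nat_lit 401) (nat_lit 361) (nat_lit 138))) (XT.nd (nat_lit 78) (nat_lit 0) (nat_lit 0) (XT.lf (nat_lit 0) (nat_lit 505144385353) (nat_lit 76) (nat_lit 665334242072) (nat_lit 152) (nat_lit 2365166860071) (nat_lit 10) (nat_lit 5) (nat_lit 11) (nat_lit 5) (nat_lit 12) (nat_lit 4) (nat_lit 402) (nat_lit 361) (nat_lit 137)) (XT.nd (nat_lit 43680) (nat_lit 0) (nat_lit 2964) (XT.lf (nat_lit 0) (nat_lit 1807852583370) (nat_lit 152) (nat_lit 1933953064999) (nat_lit 0) (nat_lit 21323727490) (nat_lit 10) (nat_lit 5) (nat_lit 12) (nat_lit 4) (nat_lit 10) (nat_lit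 4) (nat_lit 403) (nat_lit 361) (nat_lit 136)) (XT.lf (nat_lit 0) (nat_lit 166359736741) (nat_lit 532) (nat_lit 37298270577) (nat_lit 532) (nat_lit 37298270577) (nat_lit 49) (nat_lit 3) (nat_lit 56) (nat_lit 3) (nat_lit 56) (nat_lit 5) (nat_lit 362) (nat_lit 362) (nat_lit 176))))))) (XT.nd (nat_lit 624) (nat_lit 1216) (nat_lit 0) (XT.nd (nat_lit 312) (nat_lit 304) (nat_lit 0) (XT.nd (nat_lit 156) (nat_lit 0) (nat_lit 76) (XT.nd (nat_lit 78) (nat_lit 0) (nat_lit 76) (XT.lf (nat_lit 76) (nat_lit 156958300456) (nat_lit 0) (nat_lit 192845061923) (nat_lit 532) (nat_lit 151083686202) (nat_lit 50) (nat_lit 5) (nat_lit 49) (nat_lit 3) (nat_lit 56) (nat_lit 5) (nat_lit 363) (nat_lit 362) (nat_lit 175)) (XT.lf (nat_lit 0) (nat_lit 371279260408) (nat_lit 456) (nat_lit 110922171469) (nat_lit 532) (nat_lit 38936045139) (nat_lit 50) (nat_lit 5) (nat_lit 56) (nat_lit 5) (nat_lit 57) (nat_lit 5) (nat_lit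 364) (nat_lit 362) (nat_lit 174))) (XT.nd (nat_lit 78) (nat_lit 0) (nat_lit 0) (XT.lf (nat_lit 76) (nat_lit 142862514298) (nat_lit 0) (nat_lit 260055501462) (nat_lit 532) (nat_lit 139414341188) (nat_lit 51) (nat_lit 5) (nat_lit 50) (nat_lit 5) (nat_lit 57) (nat_lit 5) (nat_lit 365) (nat_lit 362) (nat_lit 173)) (XT.lf (nat_lit 76) (nat_lit 423258201574) (nat_lit 0) (nat_lit 16862456045) (nat_lit 532) (nat_lit 124859546826) (nat_lit 51) (nat_lit 5) (nat_lit 50) (nat_lit 5) (nat_lit 57) (nat_lit 5) (nat_lit 366) (nat_lit 362) (nat_lit 172)))) (XT.nd (nat_lit 156) (nat_lit 456) (nat_lit 0) (XT.nd (nat_lit 78) (nat_lit 0) (nat_lit 0) (XT.lf (nat_lit 76) (nat_lit 137618734262) (nat_lit 0) (nat_lit 351901649613) (nat_lit 532) (nat_lit 99181826072) (nat_lit 52) (nat_lit 5) (nat_lit 51) (nat_lit 5) (nat_lit 58) (nat_lit 5) (nat_lit 367) (nat_lit 362) (nat_lit 171)) (XT.lf (nat_lit 76) (nat_lit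 446905520957) (nat_lit 0) (nat_lit 100268375945) (nat_lit 532) (nat_lit 66803934342) (nat_lit 52) (nat_lit 5) (nat_lit 51) (nat_lit 5) (nat_lit 58) (nat_lit 5) (nat_lit 368) (nat_lit 362) (nat_lit 170))) (XT.nd (nat_lit 78) (nat_lit 76) (nat_lit 0) (XT.lf (nat_lit 0) (nat_lit 142672306330) (nat_lit 456) (nat_lit 474323111251) (nat_lit 532) (nat_lit 23675626578) (nat_lit 46) (nat_lit 5) (nat_lit 52) (nat_lit 5) (nat_lit 53) (nat_lit 5) (nat_lit 369) (nat_lit 362) (nat_lit 169)) (XT.lf (nat_lit 0) (nat_lit 29048307224) (nat_lit 532) (nat_lit 185710084614) (nat_lit 76) (nat_lit 454113972234) (nat_lit 45) (nat_lit 5) (nat_lit 52) (nat_lit 5) (nat_lit 46) (nat_lit 5) (nat_lit 370) (nat_lit 362) (nat_lit 168))))) (XT.nd (nat_lit 312) (nat_lit 684) (nat_lit 0) (XT.nd (nat_lit 156) (nat_lit 228) (nat_lit 0) (XT.nd (nat_lit 78) (nat_lit 0) (nat_lit 0) (XT.lf (nat_lit 0) (nat_lit 90224703012) (nat_lit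 380) (nat_lit 541771827761) (nat_lit 76) (nat_lit 66842971047) (nat_lit 41) (nat_lit 5) (nat_lit 46) (nat_lit 5) (nat_lit 42) (nat_lit 5) (nat_lit 371) (nat_lit 362) (nat_lit 167)) (XT.lf (nat_lit 0) (nat_lit 167082864671) (nat_lit 380) (nat_lit 198678692006) (nat_lit 76) (nat_lit 364579441606) (nat_lit 41) (nat_lit 5) (nat_lit 46) (nat_lit 5) (nat_lit 42) (nat_lit 5) (nat_lit 372) (nat_lit 362) (nat_lit 166))) (XT.nd (nat_lit 78) (nat_lit 0) (nat_lit 0) (XT.lf (nat_lit 0) (nat_lit 180911821367) (nat_lit 228) (nat_lit 73528777212) (nat_lit 304) (nat_lit 509573942370) (nat_lit 38) (nat_lit 5) (nat_lit 41) (nat_lit 5) (nat_lit 42) (nat_lit 5) (nat_lit 373) (nat_lit 362) (nat_lit 165)) (XT.lf (nat_lit 0) (nat_lit 360182354829) (nat_lit 304) (nat_lit 203741985463) (nat_lit 76) (nat_lit 235545994472) (nat_lit 38) (nat_lit 5) (nat_lit 42) (nat_lit 5) (nat_lit 39) (nat_lit 5) (nat_lit 374) (nat_lit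 362) (nat_lit 164)))) (XT.nd (nat_lit 156) (nat_lit 456) (nat_lit 0) (XT.nd (nat_lit 78) (nat_lit 0) (nat_lit 0) (XT.lf (nat_lit 0) (nat_lit 214803073968) (nat_lit 228) (nat_lit 266656222423) (nat_lit 304) (nat_lit 355737228135) (nat_lit 35) (nat_lit 5) (nat_lit 38) (nat_lit 5) (nat_lit 39) (nat_lit 5) (nat_lit 375) (nat_lit 362) (nat_lit 163)) (XT.lf (nat_lit 0) (nat_lit 619461902008) (nat_lit 304) (nat_lit 200529299939) (nat_lit 76) (nat_lit 57387726847) (nat_lit 35) (nat_lit 5) (nat_lit 39) (nat_lit 5) (nat_lit 36) (nat_lit 5) (nat_lit 376) (nat_lit 362) (nat_lit 162))) (XT.nd (nat_lit 78) (nat_lit 304) (nat_lit 0) (XT.lf (nat_lit 0) (nat_lit 261225384600) (nat_lit 152) (nat_lit 520487932683) (nat_lit 228) (nat_lit 138005920045) (nat_lit 33) (nat_lit 5) (nat_lit 35) (nat_lit 5) (nat_lit 36) (nat_lit 5) (nat_lit 377) (nat_lit 362) (nat_lit 161)) (XT.nd (nat_lit 78) (nat_lit 304) (nat_lit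 0) (XT.lf (nat_lit 0) (nat_lit 771324709047) (nat_lit 152) (nat_lit 191102952444) (nat_lit 228) (nat_lit 2580483819) (nat_lit 33) (nat_lit 5) (nat_lit 35) (nat_lit 5) (nat_lit 36) (nat_lit 5) (nat_lit 378) (nat_lit 362) (nat_lit 160)) (XT.lf (nat_lit 0) (nat_lit 148459094313) (nat_lit 304) (nat_lit 696366427752) (nat_lit 76) (nat_lit 167860804286) (nat_lit 29) (nat_lit 5) (nat_lit 33) (nat_lit 5) (nat_lit 30) (nat_lit 5) (nat_lit 379) (nat_lit 362) (nat_lit 159))))))))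
noncomputable def xc239 : XT := (XT.nd (nat_lit 1326) (nat_lit 304) (nat_lit 0) (XT.nd (nat_lit 624) (nat_lit 532) (nat_lit 0) (XT.nd (nat_lit 312) (nat_lit 304) (nat_lit 0) (XT.nd (nat_lit 156) (nat_lit 152) (nat_lit 0) (XT.nd (nat_lit 78) (nat_lit 152) (nat_lit 0) (XT.lf (nat_lit 0) (nat_lit 321839326451) (nat_lit 304) (nat_lit 190784962766) (nat_lit 76) (nat_lit 550717358557) (nat_lit 29) (nat_lit 5) (nat_lit 33) (nat_lit 5) (nat_lit 30) (nat_lit 5) (nat_lit 380) (nat_lit 362) (nat_lit 158)) (XT.lf (nat_lit 0) (nat_lit 373949473885) (nat_lit 152) (nat_lit 144133988006) (nat_lit 228) (nat_lit 599246454256) (nat_lit 27) (nat_lit 5) (nat_lit 29) (nat_lit 5) (nat_lit 30) (nat_lit 5) (nat_lit 381) (nat_lit 362) (nat_lit 157))) (XT.nd (nat_lit 78) (nat_lit 152) (nat_lit 0) (XT.lf (nat_lit 0) (nat_lit 741483759988) (nat_lit 228) (nat_lit 186747413405) (nat_lit 76) (nat_lit 246489542066) (nat_lit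 27) (nat_lit 5) (nat_lit 30) (nat_lit 5) (nat_lit 28) (nat_lit 5) (nat_lit 382) (nat_lit 362) (nat_lit 156)) (XT.lf (nat_lit 0) (nat_lit 432297792132) (nat_lit 152) (nat_lit 564598793878) (nat_lit 228) (nat_lit 238674952391) (nat_lit 25) (nat_lit 5) (nat_lit 27) (nat_lit 5) (nat_lit 28) (nat_lit 5) (nat_lit 383) (nat_lit 362) (nat_lit 155)))) (XT.nd (nat_lit 156) (nat_lit 152) (nat_lit 0) (XT.nd (nat_lit 78) (nat_lit 152) (nat_lit 0) (XT.lf (nat_lit 0) (nat_lit 1111487093232) (nat_lit 152) (nat_lit 166361342265) (nat_lit 228) (nat_lit 23033511904) (nat_lit 25) (nat_lit 5) (nat_lit 27) (nat_lit 5) (nat_lit 28) (nat_lit 5) (nat_lit 384) (nat_lit 362) (nat_lit 154)) (XT.lf (nat_lit 0) (nat_lit 218005214221) (nat_lit 152) (nat_lit 883626411711) (nat_lit 76) (nat_lit 267890275232) (nat_lit 23) (nat_lit 5) (nat_lit 25) (nat_lit 5) (nat_lit 24) (nat_lit 5) (nat_lit 385) (nat_lit 362) (nat_lit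 153))) (XT.nd (nat_lit 78) (nat_lit 152) (nat_lit 0) (XT.lf (nat_lit 0) (nat_lit 486716591691) (nat_lit 152) (nat_lit 222312528226) (nat_lit 76) (nat_lit 733805352586) (nat_lit 23) (nat_lit 5) (nat_lit 25) (nat_lit 5) (nat_lit 24) (nat_lit 5) (nat_lit 386) (nat_lit 362) (nat_lit 152)) (XT.lf (nat_lit 0) (nat_lit 517809377499) (nat_lit 152) (nat_lit 271568823112) (nat_lit 228) (nat_lit 731637583245) (nat_lit 21) (nat_lit 5) (nat_lit 23) (nat_lit 5) (nat_lit 24) (nat_lit 5) (nat_lit 387) (nat_lit 362) (nat_lit 151))))) (XT.nd (nat_lit 312) (nat_lit 228) (nat_lit 0) (XT.nd (nat_lit 156) (nat_lit 228) (nat_lit 0) (XT.nd (nat_lit 78) (nat_lit 76) (nat_lit 0) (XT.lf (nat_lit 0) (nat_lit 1127320399551) (nat_lit 228) (nat_lit 280170440678) (nat_lit 76) (nat_lit 197075346993) (nat_lit 21) (nat_lit 5) (nat_lit 24) (nat_lit 5) (nat_lit 22) (nat_lit 4) (nat_lit 388) (nat_lit 362) (nat_lit 150)) (XT.lf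 (nat_lit 0) (nat_lit 519649635970) (nat_lit 76) (nat_lit 992199654257) (nat_lit 152) (nat_lit 181387227372) (nat_lit 20) (nat_lit 5) (nat_lit 21) (nat_lit 5) (nat_lit 22) (nat_lit 4) (nat_lit 389) (nat_lit 362) (nat_lit 149))) (XT.nd (nat_lit 78) (nat_lit 152) (nat_lit 0) (XT.lf (nat_lit 0) (nat_lit 139089015211) (nat_lit 152) (nat_lit 392520037051) (nat_lit 76) (nat_lit 1256496894840) (nat_lit 19) (nat_lit 5) (nat_lit 21) (nat_lit 5) (nat_lit 20) (nat_lit 5) (nat_lit 390) (nat_lit 362) (nat_lit 148)) (XT.lf (nat_lit 0) (nat_lit 469823251020) (nat_lit 152) (nat_lit 16879739451) (nat_lit 228) (nat_lit 1402581091585) (nat_lit 17) (nat_lit 5) (nat_lit 19) (nat_lit 5) (nat_lit 20) (nat_lit 5) (nat_lit 391) (nat_lit 362) (nat_lit 147)))) (XT.nd (nat_lit 156) (nat_lit 152) (nat_lit 0) (XT.nd (nat_lit 78) (nat_lit 76) (nat_lit 0) (XT.lf (nat_lit 0) (nat_lit 886100664365) (nat_lit 228) (nat_lit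 587463329996) (nat_lit 76) (nat_lit 523074507000) (nat_lit 17) (nat_lit 5) (nat_lit 20) (nat_lit 5) (nat_lit 18) (nat_lit 4) (nat_lit 392) (nat_lit 362) (nat_lit 146)) (XT.lf (nat_lit 0) (nat_lit 327014097150) (nat_lit 76) (nat_lit 998739181641) (nat_lit 152) (nat_lit 786163745296) (nat_lit 16) (nat_lit 5) (nat_lit 17) (nat_lit 5) (nat_lit 18) (nat_lit 4) (nat_lit 393) (nat_lit 362) (nat_lit 145))) (XT.nd (nat_lit 78) (nat_lit 152) (nat_lit 0) (XT.lf (nat_lit 0) (nat_lit 1348059270063) (nat_lit 76) (nat_lit 468581115924) (nat_lit 152) (nat_lit 418492459958) (nat_lit 16) (nat_lit 5) (nat_lit 17) (nat_lit 5) (nat_lit 18) (nat_lit 4) (nat_lit 394) (nat_lit 362) (nat_lit 144)) (XT.nd (nat_lit 78) (nat_lit 76) (nat_lit 0) (XT.lf (nat_lit 0) (nat_lit 84298094936) (nat_lit 76) (nat_lit 2267028685679) (nat_lit 76) (nat_lit 16516887435) (nat_lit 15) (nat_lit 4) (nat_lit 16) (nat_lit 5) (nat_lit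 16) (nat_lit 4) (nat_lit 395) (nat_lit 362) (nat_lit 143)) (XT.lf (nat_lit 0) (nat_lit 433780926010) (nat_lit 152) (nat_lit 1348247480125) (nat_lit 76) (nat_lit 725375048369) (nat_lit 14) (nat_lit 5) (nat_lit 16) (nat_lit 5) (nat_lit 15) (nat_lit 4) (nat_lit 396) (nat_lit 362) (nat_lit 142))))))) (XT.nd (nat_lit 44382) (nat_lit 0) (nat_lit 2356) (XT.nd (nat_lit 312) (nat_lit 152) (nat_lit 0) (XT.nd (nat_lit 156) (nat_lit 76) (nat_lit 0) (XT.nd (nat_lit 78) (nat_lit 76) (nat_lit 0) (XT.lf (nat_lit 0) (nat_lit 919210219352) (nat_lit 152) (nat_lit 338554557363) (nat_lit 76) (nat_lit 1400328926696) (nat_lit 14) (nat_lit 5) (nat_lit 16) (nat_lit 5) (nat_lit 15) (nat_lit 4) (nat_lit 397) (nat_lit 362) (nat_lit 141)) (XT.lf (nat_lit 0) (nat_lit 791508239967) (nat_lit 76) (nat_lit 671001404469) (nat_lit 152) (nat_lit 1356806664738) (nat_lit 13) (nat_lit 5) (nat_lit 14) (nat_lit 5) (nat_lit 15)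 (nat_lit 4) (nat_lit 398) (nat_lit 362) (nat_lit 140))) (XT.nd (nat_lit 78) (nat_lit 76) (nat_lit 0) (XT.lf (nat_lit 0) (nat_lit 2031229951883) (nat_lit 76) (nat_lit 27299749405) (nat_lit 152) (nat_lit 934166487890) (nat_lit 13) (nat_lit 5) (nat_lit 14) (nat_lit 5) (nat_lit 15) (nat_lit 4) (nat_lit 399) (nat_lit 362) (nat_lit 139)) (XT.lf (nat_lit 0) (nat_lit 183288819809) (nat_lit 76) (nat_lit 2539413603691) (nat_lit 76) (nat_lit 455606351222) (nat_lit 12) (nat_lit 4) (nat_lit 13) (nat_lit 5) (nat_lit 13) (nat_lit 4) (nat_lit 400) (nat_lit 362) (nat_lit 138)))) (XT.nd (nat_lit 156) (nat_lit 76) (nat_lit 0) (XT.nd (nat_lit 78) (nat_lit 0) (nat_lit 0) (XT.lf (nat_lit 0) (nat_lit 85855275538) (nat_lit 152) (nat_lit 1905228284378) (nat_lit 76) (nat_lit 1385354577477) (nat_lit 11) (nat_lit 5) (nat_lit 13) (nat_lit 5) (nat_lit 12) (nat_lit 4) (nat_lit 401) (nat_lit 362) (nat_lit 137)) (XT.lf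 (nat_lit 0) (nat_lit 646019252235) (nat_lit 152) (nat_lit 740087217506) (nat_lit 76) (nat_lit 2203364665106) (nat_lit 11) (nat_lit 5) (nat_lit 13) (nat_lit 5) (nat_lit 12) (nat_lit 4) (nat_lit 402) (nat_lit 362) (nat_lit 136))) (XT.nd (nat_lit 43758) (nat_lit 0) (nat_lit 2964) (XT.lf (nat_lit 0) (nat_lit 545556052311) (nat_lit 76) (nat_lit 718560927871) (nat_lit 152) (nat_lit 2554380141270) (nat_lit 10) (nat_lit 5) (nat_lit 11) (nat_lit 5) (nat_lit 12) (nat_lit 4) (nat_lit 403) (nat_lit 362) (nat_lit 135)) (XT.nd (nat_lit 78) (nat_lit 0) (nat_lit 0) (XT.lf (nat_lit 0) (nat_lit 179668768507) (nat_lit 532) (nat_lit 40281995382) (nat_lit 532) (nat_lit 40281995382) (nat_lit 49) (nat_lit 3) (nat_lit 56) (nat_lit 3) (nat_lit 56) (nat_lit 5) (nat_lit 363) (nat_lit 363) (nat_lit 174)) (XT.lf (nat_lit 76) (nat_lit 169515231246) (nat_lit 0) (nat_lit 208272874736) (nat_lit 532) (nat_lit 163169867350)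 (nat_lit 50) (nat_lit 5) (nat_lit 49) (nat_lit 3) (nat_lit 56) (nat_lit 5) (nat_lit 364) (nat_lit 363) (nat_lit 173)))))) (XT.nd (nat_lit 312) (nat_lit 684) (nat_lit 0) (XT.nd (nat_lit 156) (nat_lit 0) (nat_lit 0) (XT.nd (nat_lit 78) (nat_lit 0) (nat_lit 0) (XT.lf (nat_lit 0) (nat_lit 400982036069) (nat_lit 456) (nat_lit 119795657327) (nat_lit 532) (nat_lit 42050745916) (nat_lit 50) (nat_lit 5) (nat_lit 56) (nat_lit 5) (nat_lit 57) (nat_lit 5) (nat_lit 365) (nat_lit 363) (nat_lit 172)) (XT.lf (nat_lit 76) (nat_lit 154291796015) (nat_lit 0) (nat_lit 280860070373) (nat_lit 532) (nat_lit 150567045368) (nat_lit 51) (nat_lit 5) (nat_lit 50) (nat_lit 5) (nat_lit 57) (nat_lit 5) (nat_lit 366) (nat_lit 363) (nat_lit 171))) (XT.nd (nat_lit 78) (nat_lit 0) (nat_lit 76) (XT.lf (nat_lit 76) (nat_lit 457119117488) (nat_lit 0) (nat_lit 18211571782) (nat_lit 532) (nat_lit 134847900280) (nat_lit 51)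 (nat_lit 5) (nat_lit 50) (nat_lit 5) (nat_lit 57) (nat_lit 5) (nat_lit 367) (nat_lit 363) (nat_lit 170)) (XT.lf (nat_lit 76) (nat_lit 148628519468) (nat_lit 0) (nat_lit 380053850316) (nat_lit 532) (nat_lit 107115987685) (nat_lit 52) (nat_lit 5) (nat_lit 51) (nat_lit 5) (nat_lit 58) (nat_lit 5) (nat_lit 368) (nat_lit 363) (nat_lit 169)))) (XT.nd (nat_lit 156) (nat_lit 380) (nat_lit 0) (XT.nd (nat_lit 78) (nat_lit 380) (nat_lit 0) (XT.lf (nat_lit 76) (nat_lit 482658227880) (nat_lit 0) (nat_lit 108289909662) (nat_lit 532) (nat_lit 72147893096) (nat_lit 52) (nat_lit 5) (nat_lit 51) (nat_lit 5) (nat_lit 58) (nat_lit 5) (nat_lit 369) (nat_lit 363) (nat_lit 168)) (XT.lf (nat_lit 0) (nat_lit 154086377278) (nat_lit 456) (nat_lit 512268983708) (nat_lit 532) (nat_lit 25569341172) (nat_lit 46) (nat_lit 5) (nat_lit 52) (nat_lit 5) (nat_lit 53) (nat_lit 5) (nat_lit 370) (nat_lit 363) (nat_lit 167)))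 (XT.nd (nat_lit 78) (nat_lit 304) (nat_lit 0) (XT.lf (nat_lit 0) (nat_lit 31372466939) (nat_lit 532) (nat_lit 200566609988) (nat_lit 76) (nat_lit 490443052030) (nat_lit 45) (nat_lit 5) (nat_lit 52) (nat_lit 5) (nat_lit 46) (nat_lit 5) (nat_lit 371) (nat_lit 363) (nat_lit 166)) (XT.nd (nat_lit 78) (nat_lit 0) (nat_lit 0) (XT.lf (nat_lit 0) (nat_lit 97442958989) (nat_lit 380) (nat_lit 585113276603) (nat_lit 76) (nat_lit 72190403411) (nat_lit 41) (nat_lit 5) (nat_lit 46) (nat_lit 5) (nat_lit 42) (nat_lit 5) (nat_lit 372) (nat_lit 363) (nat_lit 165)) (XT.lf (nat_lit 0) (nat_lit 180449752860) (nat_lit 380) (nat_lit 214572712016) (nat_lit 76) (nat_lit 393745792009) (nat_lit 41) (nat_lit 5) (nat_lit 46) (nat_lit 5) (nat_lit 42) (nat_lit 5) (nat_lit 373) (nat_lit 363) (nat_lit 164))))))))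
noncomputable def xc240 : XT := (XT.nd (nat_lit 1326) (nat_lit 684) (nat_lit 0) (XT.nd (nat_lit 624) (nat_lit 684) (nat_lit 0) (XT.nd (nat_lit 312) (nat_lit 456) (nat_lit 0) (XT.nd (nat_lit 156) (nat_lit 228) (nat_lit 0) (XT.nd (nat_lit 78) (nat_lit 0) (nat_lit 0) (XT.lf (nat_lit 0) (nat_lit 195385035457) (nat_lit 228) (nat_lit 79411057292) (nat_lit 304) (nat_lit 550339591273) (nat_lit 38) (nat_lit 5) (nat_lit 41) (nat_lit 5) (nat_lit 42) (nat_lit 5) (nat_lit 374) (nat_lit 363) (nat_lit 163)) (XT.lf (nat_lit 0) (nat_lit 388997171748) (nat_lit 304) (nat_lit 220041077586) (nat_lit 76) (nat_lit 254389693466) (nat_lit 38) (nat_lit 5) (nat_lit 42) (nat_lit 5) (nat_lit 39) (nat_lit 5) (nat_lit 375) (nat_lit 363) (nat_lit 162))) (XT.nd (nat_lit 78) (nat_lit 0) (nat_lit 0) (XT.lf (nat_lit 0) (nat_lit 231987579847) (nat_lit 228) (nat_lit 287988678111) (nat_lit 304) (nat_lit 384195970672) (nat_lit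 35) (nat_lit 5) (nat_lit 38) (nat_lit 5) (nat_lit 39) (nat_lit 5) (nat_lit 376) (nat_lit 363) (nat_lit 161)) (XT.lf (nat_lit 0) (nat_lit 669019056825) (nat_lit 304) (nat_lit 216571387632) (nat_lit 76) (nat_lit 61978782032) (nat_lit 35) (nat_lit 5) (nat_lit 39) (nat_lit 5) (nat_lit 36) (nat_lit 5) (nat_lit 377) (nat_lit 363) (nat_lit 160)))) (XT.nd (nat_lit 156) (nat_lit 304) (nat_lit 0) (XT.nd (nat_lit 78) (nat_lit 0) (nat_lit 0) (XT.lf (nat_lit 0) (nat_lit 282123665183) (nat_lit 152) (nat_lit 562126911137) (nat_lit 228) (nat_lit 149046184136) (nat_lit 33) (nat_lit 5) (nat_lit 35) (nat_lit 5) (nat_lit 36) (nat_lit 5) (nat_lit 378) (nat_lit 363) (nat_lit 159)) (XT.lf (nat_lit 0) (nat_lit 833030917080) (nat_lit 152) (nat_lit 206391136638) (nat_lit 228) (nat_lit 2786728532) (nat_lit 33) (nat_lit 5) (nat_lit 35) (nat_lit 5) (nat_lit 36) (nat_lit 5) (nat_lit 379) (nat_lit 363) (nat_lit 158)))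 (XT.nd (nat_lit 78) (nat_lit 0) (nat_lit 0) (XT.lf (nat_lit 0) (nat_lit 160335999570) (nat_lit 304) (nat_lit 752075493774) (nat_lit 76) (nat_lit 181289724605) (nat_lit 29) (nat_lit 5) (nat_lit 33) (nat_lit 5) (nat_lit 30) (nat_lit 5) (nat_lit 380) (nat_lit 363) (nat_lit 157)) (XT.lf (nat_lit 0) (nat_lit 347586637115) (nat_lit 304) (nat_lit 206047529974) (nat_lit 76) (nat_lit 594774799072) (nat_lit 29) (nat_lit 5) (nat_lit 33) (nat_lit 5) (nat_lit 30) (nat_lit 5) (nat_lit 381) (nat_lit 363) (nat_lit 156))))) (XT.nd (nat_lit 312) (nat_lit 380) (nat_lit 0) (XT.nd (nat_lit 156) (nat_lit 152) (nat_lit 0) (XT.nd (nat_lit 78) (nat_lit 0) (nat_lit 0) (XT.lf (nat_lit 0) (nat_lit 403865655790) (nat_lit 152) (nat_lit 155664640798) (nat_lit 228) (nat_lit 647185999980) (nat_lit 27) (nat_lit 5) (nat_lit 29) (nat_lit 5) (nat_lit 30) (nat_lit 5) (nat_lit 382) (nat_lit 363) (nat_lit 155)) (XT.lf (nat_lit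 0) (nat_lit 800802608324) (nat_lit 228) (nat_lit 201686988633) (nat_lit 76) (nat_lit 266208763704) (nat_lit 27) (nat_lit 5) (nat_lit 30) (nat_lit 5) (nat_lit 28) (nat_lit 5) (nat_lit 383) (nat_lit 363) (nat_lit 154))) (XT.nd (nat_lit 78) (nat_lit 0) (nat_lit 0) (XT.lf (nat_lit 0) (nat_lit 466881827832) (nat_lit 152) (nat_lit 609766626774) (nat_lit 228) (nat_lit 257768795316) (nat_lit 25) (nat_lit 5) (nat_lit 27) (nat_lit 5) (nat_lit 28) (nat_lit 5) (nat_lit 384) (nat_lit 363) (nat_lit 153)) (XT.lf (nat_lit 0) (nat_lit 1200406257291) (nat_lit 152) (nat_lit 179670184263) (nat_lit 228) (nat_lit 24876050943) (nat_lit 25) (nat_lit 5) (nat_lit 27) (nat_lit 5) (nat_lit 28) (nat_lit 5) (nat_lit 385) (nat_lit 363) (nat_lit 152)))) (XT.nd (nat_lit 156) (nat_lit 228) (nat_lit 0) (XT.nd (nat_lit 78) (nat_lit 0) (nat_lit 0) (XT.lf (nat_lit 0) (nat_lit 235445762628) (nat_lit 152) (nat_lit 954316317049)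 (nat_lit 76) (nat_lit 289321562908) (nat_lit 23) (nat_lit 5) (nat_lit 25) (nat_lit 5) (nat_lit 24) (nat_lit 5) (nat_lit 386) (nat_lit 363) (nat_lit 151)) (XT.lf (nat_lit 0) (nat_lit 525654040572) (nat_lit 152) (nat_lit 240097338263) (nat_lit 76) (nat_lit 792509841587) (nat_lit 23) (nat_lit 5) (nat_lit 25) (nat_lit 5) (nat_lit 24) (nat_lit 5) (nat_lit 387) (nat_lit 363) (nat_lit 150))) (XT.nd (nat_lit 78) (nat_lit 76) (nat_lit 0) (XT.lf (nat_lit 0) (nat_lit 559234315054) (nat_lit 152) (nat_lit 293294258654) (nat_lit 228) (nat_lit 790168463347) (nat_lit 21) (nat_lit 5) (nat_lit 23) (nat_lit 5) (nat_lit 24) (nat_lit 5) (nat_lit 388) (nat_lit 363) (nat_lit 149)) (XT.nd (nat_lit 78) (nat_lit 76) (nat_lit 0) (XT.lf (nat_lit 0) (nat_lit 1217506141459) (nat_lit 228) (nat_lit 302583895216) (nat_lit 76) (nat_lit 212841436594) (nat_lit 21) (nat_lit 5) (nat_lit 24) (nat_lit 5) (nat_lit 22) (nat_lit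 4) (nat_lit 389) (nat_lit 363) (nat_lit 148)) (XT.lf (nat_lit 0) (nat_lit 561221782989) (nat_lit 76) (nat_lit 1071575556492) (nat_lit 152) (nat_lit 195898090918) (nat_lit 20) (nat_lit 5) (nat_lit 21) (nat_lit 5) (nat_lit 22) (nat_lit 4) (nat_lit 390) (nat_lit 363) (nat_lit 147))))))) (XT.nd (nat_lit 624) (nat_lit 228) (nat_lit 0) (XT.nd (nat_lit 312) (nat_lit 152) (nat_lit 0) (XT.nd (nat_lit 156) (nat_lit 76) (nat_lit 0) (XT.nd (nat_lit 78) (nat_lit 152) (nat_lit 0) (XT.lf (nat_lit 0) (nat_lit 150216237270) (nat_lit 152) (nat_lit 423921471504) (nat_lit 76) (nat_lit 1357016705922) (nat_lit 19) (nat_lit 5) (nat_lit 21) (nat_lit 5) (nat_lit 20) (nat_lit 5) (nat_lit 391) (nat_lit 363) (nat_lit 146)) (XT.lf (nat_lit 0) (nat_lit 507409275346) (nat_lit 152) (nat_lit 18230051684) (nat_lit 228) (nat_lit 1514787473704) (nat_lit 17) (nat_lit 5) (nat_lit 19) (nat_lit 5) (nat_lit 20) (nat_lit 5) (nat_lit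 392) (nat_lit 363) (nat_lit 145))) (XT.nd (nat_lit 78) (nat_lit 76) (nat_lit 0) (XT.lf (nat_lit 0) (nat_lit 956988809117) (nat_lit 228) (nat_lit 634460238506) (nat_lit 76) (nat_lit 564920526427) (nat_lit 17) (nat_lit 5) (nat_lit 20) (nat_lit 5) (nat_lit 18) (nat_lit 4) (nat_lit 393) (nat_lit 363) (nat_lit 144)) (XT.lf (nat_lit 0) (nat_lit 353175378815) (nat_lit 76) (nat_lit 1078638250798) (nat_lit 152) (nat_lit 849056749234) (nat_lit 16) (nat_lit 5) (nat_lit 17) (nat_lit 5) (nat_lit 18) (nat_lit 4) (nat_lit 394) (nat_lit 363) (nat_lit 143)))) (XT.nd (nat_lit 156) (nat_lit 76) (nat_lit 0) (XT.nd (nat_lit 78) (nat_lit 76) (nat_lit 0) (XT.lf (nat_lit 0) (nat_lit 1455904154162) (nat_lit 76) (nat_lit 506067544667) (nat_lit 152) (nat_lit 451971768157) (nat_lit 16) (nat_lit 5) (nat_lit 17) (nat_lit 5) (nat_lit 18) (nat_lit 4) (nat_lit 395) (nat_lit 363) (nat_lit 142)) (XT.lf (nat_lit 0) (nat_lit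 91042086465) (nat_lit 76) (nat_lit 2448390917299) (nat_lit 76) (nat_lit 17838151201) (nat_lit 15) (nat_lit 4) (nat_lit 16) (nat_lit 5) (nat_lit 16) (nat_lit 4) (nat_lit 396) (nat_lit 363) (nat_lit 141))) (XT.nd (nat_lit 78) (nat_lit 0) (nat_lit 0) (XT.lf (nat_lit 0) (nat_lit 468483476818) (nat_lit 152) (nat_lit 1456107141159) (nat_lit 76) (nat_lit 783405106686) (nat_lit 14) (nat_lit 5) (nat_lit 16) (nat_lit 5) (nat_lit 15) (nat_lit 4) (nat_lit 397) (nat_lit 363) (nat_lit 140)) (XT.lf (nat_lit 0) (nat_lit 992747107945) (nat_lit 152) (nat_lit 365638794753) (nat_lit 76) (nat_lit 1512355291246) (nat_lit 14) (nat_lit 5) (nat_lit 16) (nat_lit 5) (nat_lit 15) (nat_lit 4) (nat_lit 398) (nat_lit 363) (nat_lit 139))))) (XT.nd (nat_lit 44148) (nat_lit 0) (nat_lit 2888) (XT.nd (nat_lit 156) (nat_lit 152) (nat_lit 0) (XT.nd (nat_lit 78) (nat_lit 0) (nat_lit 0) (XT.lf (nat_lit 0) (nat_lit 854829023144)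 (nat_lit 76) (nat_lit 724681461610) (nat_lit 152) (nat_lit 1465351123599) (nat_lit 13) (nat_lit 5) (nat_lit 14) (nat_lit 5) (nat_lit 15) (nat_lit 4) (nat_lit 399) (nat_lit 363) (nat_lit 138)) (XT.lf (nat_lit 0) (nat_lit 2193728462830) (nat_lit 76) (nat_lit 29483678231) (nat_lit 152) (nat_lit 1008899738108) (nat_lit 13) (nat_lit 5) (nat_lit 14) (nat_lit 5) (nat_lit 15) (nat_lit 4) (nat_lit 400) (nat_lit 363) (nat_lit 137))) (XT.nd (nat_lit 78) (nat_lit 76) (nat_lit 0) (XT.lf (nat_lit 0) (nat_lit 197952041098) (nat_lit 76) (nat_lit 2742566639156) (nat_lit 76) (nat_lit 492054791370) (nat_lit 12) (nat_lit 4) (nat_lit 13) (nat_lit 5) (nat_lit 13) (nat_lit 4) (nat_lit 401) (nat_lit 363) (nat_lit 136)) (XT.lf (nat_lit 0) (nat_lit 92723757351) (nat_lit 152) (nat_lit 2057646436807) (nat_lit 76) (nat_lit 1496182989404) (nat_lit 11) (nat_lit 5) (nat_lit 13) (nat_lit 5) (nat_lit 12) (nat_lit 4) (nat_lit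 402) (nat_lit 363) (nat_lit 135)))) (XT.nd (nat_lit 156) (nat_lit 0) (nat_lit 76) (XT.nd (nat_lit 78) (nat_lit 0) (nat_lit 0) (XT.lf (nat_lit 0) (nat_lit 194042486746) (nat_lit 532) (nat_lit 43504437693) (nat_lit 532) (nat_lit 43504437693) (nat_lit 49) (nat_lit 3) (nat_lit 56) (nat_lit 3) (nat_lit 56) (nat_lit 5) (nat_lit 364) (nat_lit 364) (nat_lit 172)) (XT.lf (nat_lit 76) (nat_lit 183076678445) (nat_lit 0) (nat_lit 224934882920) (nat_lit 532) (nat_lit 176223016281) (nat_lit 50) (nat_lit 5) (nat_lit 49) (nat_lit 3) (nat_lit 56) (nat_lit 5) (nat_lit 365) (nat_lit 364) (nat_lit 171))) (XT.nd (nat_lit 78) (nat_lit 0) (nat_lit 0) (XT.lf (nat_lit 0) (nat_lit 433060971749) (nat_lit 456) (nat_lit 129379063120) (nat_lit 532) (nat_lit 45414648839) (nat_lit 50) (nat_lit 5) (nat_lit 56) (nat_lit 5) (nat_lit 57) (nat_lit 5) (nat_lit 366) (nat_lit 364) (nat_lit 170)) (XT.nd (nat_lit 78) (nat_lit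 0) (nat_lit 0) (XT.lf (nat_lit 76) (nat_lit 166635380241) (nat_lit 0) (nat_lit 303328986422) (nat_lit 532) (nat_lit 162612029098) (nat_lit 51) (nat_lit 5) (nat_lit 50) (nat_lit 5) (nat_lit 57) (nat_lit 5) (nat_lit 367) (nat_lit 364) (nat_lit 169)) (XT.lf (nat_lit 76) (nat_lit 493688869615) (nat_lit 0) (nat_lit 19668599765) (nat_lit 532) (nat_lit 145635380543) (nat_lit 51) (nat_lit 5) (nat_lit 50) (nat_lit 5) (nat_lit 57) (nat_lit 5) (nat_lit 368) (nat_lit 364) (nat_lit 168))))))))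
noncomputable def xc241 : XT := (XT.nd (nat_lit 1326) (nat_lit 988) (nat_lit 0) (XT.nd (nat_lit 624) (nat_lit 988) (nat_lit 0) (XT.nd (nat_lit 312) (nat_lit 532) (nat_lit 0) (XT.nd (nat_lit 156) (nat_lit 456) (nat_lit 0) (XT.nd (nat_lit 78) (nat_lit 0) (nat_lit 0) (XT.lf (nat_lit 76) (nat_lit 160519046624) (nat_lit 0) (nat_lit 410458217269) (nat_lit 532) (nat_lit 115684937077) (nat_lit 52) (nat_lit 5) (nat_lit 51) (nat_lit 5) (nat_lit 58) (nat_lit 5) (nat_lit 369) (nat_lit 364) (nat_lit 167)) (XT.lf (nat_lit 76) (nat_lit 521271113516) (nat_lit 0) (nat_lit 116953156998) (nat_lit 532) (nat_lit 77919419337) (nat_lit 52) (nat_lit 5) (nat_lit 51) (nat_lit 5) (nat_lit 58) (nat_lit 5) (nat_lit 370) (nat_lit 364) (nat_lit 166))) (XT.nd (nat_lit 78) (nat_lit 76) (nat_lit 0) (XT.lf (nat_lit 0) (nat_lit 166413533037) (nat_lit 456) (nat_lit 553250522600) (nat_lit 532) (nat_lit 27614600800) (nat_lit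 46) (nat_lit 5) (nat_lit 52) (nat_lit 5) (nat_lit 53) (nat_lit 5) (nat_lit 371) (nat_lit 364) (nat_lit 165)) (XT.lf (nat_lit 0) (nat_lit 33882517327) (nat_lit 532) (nat_lit 216611697536) (nat_lit 76) (nat_lit 529678463628) (nat_lit 45) (nat_lit 5) (nat_lit 52) (nat_lit 5) (nat_lit 46) (nat_lit 5) (nat_lit 372) (nat_lit 364) (nat_lit 164)))) (XT.nd (nat_lit 156) (nat_lit 228) (nat_lit 0) (XT.nd (nat_lit 78) (nat_lit 0) (nat_lit 0) (XT.lf (nat_lit 0) (nat_lit 105238635538) (nat_lit 380) (nat_lit 631922083776) (nat_lit 76) (nat_lit 77965631123) (nat_lit 41) (nat_lit 5) (nat_lit 46) (nat_lit 5) (nat_lit 42) (nat_lit 5) (nat_lit 373) (nat_lit 364) (nat_lit 163)) (XT.lf (nat_lit 0) (nat_lit 194885955153) (nat_lit 380) (nat_lit 231738292908) (nat_lit 76) (nat_lit 425245451147) (nat_lit 41) (nat_lit 5) (nat_lit 46) (nat_lit 5) (nat_lit 42) (nat_lit 5) (nat_lit 374) (nat_lit 364) (nat_lit 162)))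 (XT.nd (nat_lit 78) (nat_lit 0) (nat_lit 0) (XT.lf (nat_lit 0) (nat_lit 211016068386) (nat_lit 228) (nat_lit 85763922931) (nat_lit 304) (nat_lit 594366530105) (nat_lit 38) (nat_lit 5) (nat_lit 41) (nat_lit 5) (nat_lit 42) (nat_lit 5) (nat_lit 375) (nat_lit 364) (nat_lit 161)) (XT.lf (nat_lit 0) (nat_lit 420117141417) (nat_lit 304) (nat_lit 237644135128) (nat_lit 76) (nat_lit 274740885607) (nat_lit 38) (nat_lit 5) (nat_lit 42) (nat_lit 5) (nat_lit 39) (nat_lit 5) (nat_lit 376) (nat_lit 364) (nat_lit 160))))) (XT.nd (nat_lit 312) (nat_lit 608) (nat_lit 0) (XT.nd (nat_lit 156) (nat_lit 152) (nat_lit 0) (XT.nd (nat_lit 78) (nat_lit 0) (nat_lit 0) (XT.lf (nat_lit 0) (nat_lit 250546809111) (nat_lit 228) (nat_lit 311027736261) (nat_lit 304) (nat_lit 414931446240) (nat_lit 35) (nat_lit 5) (nat_lit 38) (nat_lit 5) (nat_lit 39) (nat_lit 5) (nat_lit 377) (nat_lit 364) (nat_lit 159)) (XT.lf (nat_lit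 0) (nat_lit 722540755116) (nat_lit 304) (nat_lit 233896878904) (nat_lit 76) (nat_lit 66937116348) (nat_lit 35) (nat_lit 5) (nat_lit 39) (nat_lit 5) (nat_lit 36) (nat_lit 5) (nat_lit 378) (nat_lit 364) (nat_lit 158))) (XT.nd (nat_lit 78) (nat_lit 0) (nat_lit 0) (XT.lf (nat_lit 0) (nat_lit 304693772573) (nat_lit 152) (nat_lit 607097015878) (nat_lit 228) (nat_lit 160969699244) (nat_lit 33) (nat_lit 5) (nat_lit 35) (nat_lit 5) (nat_lit 36) (nat_lit 5) (nat_lit 379) (nat_lit 364) (nat_lit 157)) (XT.lf (nat_lit 0) (nat_lit 899673588757) (nat_lit 152) (nat_lit 222902382986) (nat_lit 228) (nat_lit 3009500496) (nat_lit 33) (nat_lit 5) (nat_lit 35) (nat_lit 5) (nat_lit 36) (nat_lit 5) (nat_lit 380) (nat_lit 364) (nat_lit 156)))) (XT.nd (nat_lit 156) (nat_lit 304) (nat_lit 0) (XT.nd (nat_lit 78) (nat_lit 0) (nat_lit 0) (XT.lf (nat_lit 0) (nat_lit 173163031896) (nat_lit 304) (nat_lit 812241320486)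 (nat_lit 76) (nat_lit 195792950565) (nat_lit 29) (nat_lit 5) (nat_lit 33) (nat_lit 5) (nat_lit 30) (nat_lit 5) (nat_lit 381) (nat_lit 364) (nat_lit 155)) (XT.lf (nat_lit 0) (nat_lit 375393709158) (nat_lit 304) (nat_lit 222531135344) (nat_lit 76) (nat_lit 642356827434) (nat_lit 29) (nat_lit 5) (nat_lit 33) (nat_lit 5) (nat_lit 30) (nat_lit 5) (nat_lit 382) (nat_lit 364) (nat_lit 154))) (XT.nd (nat_lit 78) (nat_lit 152) (nat_lit 0) (XT.lf (nat_lit 0) (nat_lit 436175100293) (nat_lit 152) (nat_lit 168117755265) (nat_lit 228) (nat_lit 698960733702) (nat_lit 27) (nat_lit 5) (nat_lit 29) (nat_lit 5) (nat_lit 30) (nat_lit 5) (nat_lit 383) (nat_lit 364) (nat_lit 153)) (XT.nd (nat_lit 78) (nat_lit 152) (nat_lit 0) (XT.lf (nat_lit 0) (nat_lit 864866943479) (nat_lit 228) (nat_lit 217821760958) (nat_lit 76) (nat_lit 287505514759) (nat_lit 27) (nat_lit 5) (nat_lit 30) (nat_lit 5) (nat_lit 28) (nat_lit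 5) (nat_lit 384) (nat_lit 364) (nat_lit 152)) (XT.lf (nat_lit 0) (nat_lit 504232556096) (nat_lit 152) (nat_lit 658547896375) (nat_lit 228) (nat_lit 278390167540) (nat_lit 25) (nat_lit 5) (nat_lit 27) (nat_lit 5) (nat_lit 28) (nat_lit 5) (nat_lit 385) (nat_lit 364) (nat_lit 151))))))) (XT.nd (nat_lit 624) (nat_lit 380) (nat_lit 0) (XT.nd (nat_lit 312) (nat_lit 304) (nat_lit 0) (XT.nd (nat_lit 156) (nat_lit 152) (nat_lit 0) (XT.nd (nat_lit 78) (nat_lit 152) (nat_lit 0) (XT.lf (nat_lit 0) (nat_lit 1296438926428) (nat_lit 152) (nat_lit 194043742948) (nat_lit 228) (nat_lit 26866013351) (nat_lit 25) (nat_lit 5) (nat_lit 27) (nat_lit 5) (nat_lit 28) (nat_lit 5) (nat_lit 386) (nat_lit 364) (nat_lit 150)) (XT.lf (nat_lit 0) (nat_lit 254281536181) (nat_lit 152) (nat_lit 1030661444431) (nat_lit 76) (nat_lit 312467344232) (nat_lit 23) (nat_lit 5) (nat_lit 25) (nat_lit 5) (nat_lit 24) (nat_lit 5)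 (nat_lit 387) (nat_lit 364) (nat_lit 149))) (XT.nd (nat_lit 78) (nat_lit 152) (nat_lit 0) (XT.lf (nat_lit 0) (nat_lit 567706468024) (nat_lit 152) (nat_lit 259304960525) (nat_lit 76) (nat_lit 855910681035) (nat_lit 23) (nat_lit 5) (nat_lit 25) (nat_lit 5) (nat_lit 24) (nat_lit 5) (nat_lit 388) (nat_lit 364) (nat_lit 148)) (XT.lf (nat_lit 0) (nat_lit 603973220885) (nat_lit 152) (nat_lit 316757739070) (nat_lit 228) (nat_lit 853381831911) (nat_lit 21) (nat_lit 5) (nat_lit 23) (nat_lit 5) (nat_lit 24) (nat_lit 5) (nat_lit 389) (nat_lit 364) (nat_lit 147)))) (XT.nd (nat_lit 156) (nat_lit 228) (nat_lit 0) (XT.nd (nat_lit 78) (nat_lit 76) (nat_lit 0) (XT.lf (nat_lit 0) (nat_lit 1314906727034) (nat_lit 228) (nat_lit 326790451898) (nat_lit 76) (nat_lit 229868804542) (nat_lit 21) (nat_lit 5) (nat_lit 24) (nat_lit 5) (nat_lit 22) (nat_lit 4) (nat_lit 390) (nat_lit 364) (nat_lit 146)) (XT.lf (nat_lit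 0) (nat_lit 606119676641) (nat_lit 76) (nat_lit 1157301540907) (nat_lit 152) (nat_lit 211569839902) (nat_lit 20) (nat_lit 5) (nat_lit 21) (nat_lit 5) (nat_lit 22) (nat_lit 4) (nat_lit 391) (nat_lit 364) (nat_lit 145))) (XT.nd (nat_lit 78) (nat_lit 152) (nat_lit 0) (XT.lf (nat_lit 0) (nat_lit 162233622707) (nat_lit 152) (nat_lit 457835044753) (nat_lit 76) (nat_lit 1465578093403) (nat_lit 19) (nat_lit 5) (nat_lit 21) (nat_lit 5) (nat_lit 20) (nat_lit 5) (nat_lit 392) (nat_lit 364) (nat_lit 144)) (XT.lf (nat_lit 0) (nat_lit 548002158188) (nat_lit 152) (nat_lit 19688398443) (nat_lit 228) (nat_lit 1635970381402) (nat_lit 17) (nat_lit 5) (nat_lit 19) (nat_lit 5) (nat_lit 20) (nat_lit 5) (nat_lit 393) (nat_lit 364) (nat_lit 143))))) (XT.nd (nat_lit 312) (nat_lit 228) (nat_lit 0) (XT.nd (nat_lit 156) (nat_lit 76) (nat_lit 0) (XT.nd (nat_lit 78) (nat_lit 76) (nat_lit 0) (XT.lf (nat_lit 0) (nat_lit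 1033547992382) (nat_lit 228) (nat_lit 685216922221) (nat_lit 76) (nat_lit 610114219009) (nat_lit 17) (nat_lit 5) (nat_lit 20) (nat_lit 5) (nat_lit 18) (nat_lit 4) (nat_lit 394) (nat_lit 364) (nat_lit 142)) (XT.lf (nat_lit 0) (nat_lit 381429541058) (nat_lit 76) (nat_lit 1164929254815) (nat_lit 152) (nat_lit 916981207138) (nat_lit 16) (nat_lit 5) (nat_lit 17) (nat_lit 5) (nat_lit 18) (nat_lit 4) (nat_lit 395) (nat_lit 364) (nat_lit 141))) (XT.nd (nat_lit 78) (nat_lit 76) (nat_lit 0) (XT.lf (nat_lit 0) (nat_lit 1572376608660) (nat_lit 76) (nat_lit 546552896345) (nat_lit 152) (nat_lit 488129433651) (nat_lit 16) (nat_lit 5) (nat_lit 17) (nat_lit 5) (nat_lit 18) (nat_lit 4) (nat_lit 396) (nat_lit 364) (nat_lit 140)) (XT.lf (nat_lit 0) (nat_lit 98325576784) (nat_lit 76) (nat_lit 2644262136470) (nat_lit 76) (nat_lit 19265128511) (nat_lit 15) (nat_lit 4) (nat_lit 16) (nat_lit 5) (nat_lit 16) (nat_lit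 4) (nat_lit 397) (nat_lit 364) (nat_lit 139)))) (XT.nd (nat_lit 156) (nat_lit 152) (nat_lit 0) (XT.nd (nat_lit 78) (nat_lit 0) (nat_lit 0) (XT.lf (nat_lit 0) (nat_lit 505962220745) (nat_lit 152) (nat_lit 1572595594674) (nat_lit 76) (nat_lit 846077561901) (nat_lit 14) (nat_lit 5) (nat_lit 16) (nat_lit 5) (nat_lit 15) (nat_lit 4) (nat_lit 398) (nat_lit 364) (nat_lit 138)) (XT.lf (nat_lit 0) (nat_lit 1072166937489) (nat_lit 152) (nat_lit 394889789280) (nat_lit 76) (nat_lit 1633343757768) (nat_lit 14) (nat_lit 5) (nat_lit 16) (nat_lit 5) (nat_lit 15) (nat_lit 4) (nat_lit 399) (nat_lit 364) (nat_lit 137))) (XT.nd (nat_lit 78) (nat_lit 76) (nat_lit 0) (XT.lf (nat_lit 0) (nat_lit 923215451288) (nat_lit 76) (nat_lit 782655931200) (nat_lit 152) (nat_lit 1582579149771) (nat_lit 13) (nat_lit 5) (nat_lit 14) (nat_lit 5) (nat_lit 15) (nat_lit 4) (nat_lit 400) (nat_lit 364) (nat_lit 136)) (XT.nd (nat_lit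 78) (nat_lit 76) (nat_lit 0) (XT.lf (nat_lit 0) (nat_lit 2369226838276) (nat_lit 76) (nat_lit 31842328657) (nat_lit 152) (nat_lit 1089611658161) (nat_lit 13) (nat_lit 5) (nat_lit 14) (nat_lit 5) (nat_lit 15) (nat_lit 4) (nat_lit 401) (nat_lit 364) (nat_lit 135)) (XT.lf (nat_lit 0) (nat_lit 213788303584) (nat_lit 76) (nat_lit 2961971924996) (nat_lit 76) (nat_lit 531419116422) (nat_lit 12) (nat_lit 4) (nat_lit 13) (nat_lit 5) (nat_lit 13) (nat_lit 4) (nat_lit 402) (nat_lit 364) (nat_lit 134))))))))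
noncomputable def xc242 : XT := (XT.nd (nat_lit 1326) (nat_lit 1368) (nat_lit 0) (XT.nd (nat_lit 624) (nat_lit 988) (nat_lit 0) (XT.nd (nat_lit 312) (nat_lit 228) (nat_lit 0) (XT.nd (nat_lit 156) (nat_lit 0) (nat_lit 76) (XT.nd (nat_lit 78) (nat_lit 0) (nat_lit 0) (XT.lf (nat_lit 0) (nat_lit 209566071520) (nat_lit 532) (nat_lit 46984692126) (nat_lit 532) (nat_lit 46984692126) (nat_lit 49) (nat_lit 3) (nat_lit 56) (nat_lit 3) (nat_lit 56) (nat_lit 5) (nat_lit 365) (nat_lit 365) (nat_lit 170)) (XT.lf (nat_lit 76) (nat_lit 197723008792) (nat_lit 0) (nat_lit 242929826337) (nat_lit 532) (nat_lit 190320479963) (nat_lit 50) (nat_lit 5) (nat_lit 49) (nat_lit 3) (nat_lit 56) (nat_lit 5) (nat_lit 366) (nat_lit 365) (nat_lit 169))) (XT.nd (nat_lit 78) (nat_lit 0) (nat_lit 0) (XT.lf (nat_lit 0) (nat_lit 467706169100) (nat_lit 456) (nat_lit 139729176584) (nat_lit 532) (nat_lit 49047686357) (nat_lit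 50) (nat_lit 5) (nat_lit 56) (nat_lit 5) (nat_lit 57) (nat_lit 5) (nat_lit 367) (nat_lit 365) (nat_lit 168)) (XT.lf (nat_lit 76) (nat_lit 179966416889) (nat_lit 0) (nat_lit 327595400004) (nat_lit 532) (nat_lit 175620665722) (nat_lit 51) (nat_lit 5) (nat_lit 50) (nat_lit 5) (nat_lit 57) (nat_lit 5) (nat_lit 368) (nat_lit 365) (nat_lit 167)))) (XT.nd (nat_lit 156) (nat_lit 304) (nat_lit 0) (XT.nd (nat_lit 78) (nat_lit 0) (nat_lit 76) (XT.lf (nat_lit 76) (nat_lit 533184170137) (nat_lit 0) (nat_lit 21242175402) (nat_lit 532) (nat_lit 157285909410) (nat_lit 51) (nat_lit 5) (nat_lit 50) (nat_lit 5) (nat_lit 57) (nat_lit 5) (nat_lit 369) (nat_lit 365) (nat_lit 166)) (XT.lf (nat_lit 76) (nat_lit 173360780915) (nat_lit 0) (nat_lit 443294925172) (nat_lit 532) (nat_lit 124939449444) (nat_lit 52) (nat_lit 5) (nat_lit 51) (nat_lit 5) (nat_lit 58) (nat_lit 5) (nat_lit 370) (nat_lit 365) (nat_lit 165)))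 (XT.nd (nat_lit 78) (nat_lit 380) (nat_lit 0) (XT.lf (nat_lit 76) (nat_lit 562972997561) (nat_lit 0) (nat_lit 126309456337) (nat_lit 532) (nat_lit 84152711219) (nat_lit 52) (nat_lit 5) (nat_lit 51) (nat_lit 5) (nat_lit 58) (nat_lit 5) (nat_lit 371) (nat_lit 365) (nat_lit 164)) (XT.lf (nat_lit 0) (nat_lit 179726826224) (nat_lit 456) (nat_lit 597510581723) (nat_lit 532) (nat_lit 29823522238) (nat_lit 46) (nat_lit 5) (nat_lit 52) (nat_lit 5) (nat_lit 53) (nat_lit 5) (nat_lit 372) (nat_lit 365) (nat_lit 163))))) (XT.nd (nat_lit 312) (nat_lit 380) (nat_lit 0) (XT.nd (nat_lit 156) (nat_lit 228) (nat_lit 0) (XT.nd (nat_lit 78) (nat_lit 304) (nat_lit 0) (XT.lf (nat_lit 0) (nat_lit 36593335647) (nat_lit 532) (nat_lit 233940426505) (nat_lit 76) (nat_lit 572052712799) (nat_lit 45) (nat_lit 5) (nat_lit 52) (nat_lit 5) (nat_lit 46) (nat_lit 5) (nat_lit 373) (nat_lit 365) (nat_lit 162)) (XT.lf (nat_lit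 0) (nat_lit 113657931995) (nat_lit 380) (nat_lit 682475631896) (nat_lit 76) (nat_lit 84202877703) (nat_lit 41) (nat_lit 5) (nat_lit 46) (nat_lit 5) (nat_lit 42) (nat_lit 5) (nat_lit 374) (nat_lit 365) (nat_lit 161))) (XT.nd (nat_lit 78) (nat_lit 228) (nat_lit 0) (XT.lf (nat_lit 0) (nat_lit 210477021949) (nat_lit 380) (nat_lit 250277153949) (nat_lit 76) (nat_lit 459265083618) (nat_lit 41) (nat_lit 5) (nat_lit 46) (nat_lit 5) (nat_lit 42) (nat_lit 5) (nat_lit 375) (nat_lit 365) (nat_lit 160)) (XT.lf (nat_lit 0) (nat_lit 227897551125) (nat_lit 228) (nat_lit 92625020524) (nat_lit 304) (nat_lit 641915656638) (nat_lit 38) (nat_lit 5) (nat_lit 41) (nat_lit 5) (nat_lit 42) (nat_lit 5) (nat_lit 376) (nat_lit 365) (nat_lit 159)))) (XT.nd (nat_lit 156) (nat_lit 152) (nat_lit 0) (XT.nd (nat_lit 78) (nat_lit 228) (nat_lit 0) (XT.lf (nat_lit 0) (nat_lit 453726680709) (nat_lit 304) (nat_lit 256655469895)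 (nat_lit 76) (nat_lit 296720170742) (nat_lit 38) (nat_lit 5) (nat_lit 42) (nat_lit 5) (nat_lit 39) (nat_lit 5) (nat_lit 377) (nat_lit 365) (nat_lit 158)) (XT.lf (nat_lit 0) (nat_lit 270590744920) (nat_lit 228) (nat_lit 335909924212) (nat_lit 304) (nat_lit 448125788683) (nat_lit 35) (nat_lit 5) (nat_lit 38) (nat_lit 5) (nat_lit 39) (nat_lit 5) (nat_lit 378) (nat_lit 365) (nat_lit 157))) (XT.nd (nat_lit 78) (nat_lit 152) (nat_lit 0) (XT.lf (nat_lit 0) (nat_lit 780344164484) (nat_lit 304) (nat_lit 252608440826) (nat_lit 76) (nat_lit 72292112879) (nat_lit 35) (nat_lit 5) (nat_lit 39) (nat_lit 5) (nat_lit 36) (nat_lit 5) (nat_lit 379) (nat_lit 365) (nat_lit 156)) (XT.nd (nat_lit 78) (nat_lit 0) (nat_lit 0) (XT.lf (nat_lit 0) (nat_lit 329069457999) (nat_lit 152) (nat_lit 655664735868) (nat_lit 228) (nat_lit 173847121185) (nat_lit 33) (nat_lit 5) (nat_lit 35) (nat_lit 5) (nat_lit 36) (nat_lit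 5) (nat_lit 380) (nat_lit 365) (nat_lit 155)) (XT.lf (nat_lit 0) (nat_lit 971647645877) (nat_lit 152) (nat_lit 240734535403) (nat_lit 228) (nat_lit 3250117945) (nat_lit 33) (nat_lit 5) (nat_lit 35) (nat_lit 5) (nat_lit 36) (nat_lit 5) (nat_lit 381) (nat_lit 365) (nat_lit 154))))))) (XT.nd (nat_lit 624) (nat_lit 608) (nat_lit 0) (XT.nd (nat_lit 312) (nat_lit 304) (nat_lit 0) (XT.nd (nat_lit 156) (nat_lit 152) (nat_lit 0) (XT.nd (nat_lit 78) (nat_lit 0) (nat_lit 0) (XT.lf (nat_lit 0) (nat_lit 187016205071) (nat_lit 304) (nat_lit 877220443692) (nat_lit 76) (nat_lit 211456427755) (nat_lit 29) (nat_lit 5) (nat_lit 33) (nat_lit 5) (nat_lit 30) (nat_lit 5) (nat_lit 382) (nat_lit 365) (nat_lit 153)) (XT.lf (nat_lit 0) (nat_lit 405425326839) (nat_lit 304) (nat_lit 240333457253) (nat_lit 76) (nat_lit 693745411726) (nat_lit 29) (nat_lit 5) (nat_lit 33) (nat_lit 5) (nat_lit 30) (nat_lit 5) (nat_lit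 383) (nat_lit 365) (nat_lit 152))) (XT.nd (nat_lit 78) (nat_lit 0) (nat_lit 0) (XT.lf (nat_lit 0) (nat_lit 471069272959) (nat_lit 152) (nat_lit 181567126992) (nat_lit 228) (nat_lit 754877466990) (nat_lit 27) (nat_lit 5) (nat_lit 29) (nat_lit 5) (nat_lit 30) (nat_lit 5) (nat_lit 384) (nat_lit 365) (nat_lit 151)) (XT.lf (nat_lit 0) (nat_lit 934056407401) (nat_lit 228) (nat_lit 235247341713) (nat_lit 76) (nat_lit 310505998772) (nat_lit 27) (nat_lit 5) (nat_lit 30) (nat_lit 5) (nat_lit 28) (nat_lit 5) (nat_lit 385) (nat_lit 365) (nat_lit 150)))) (XT.nd (nat_lit 156) (nat_lit 152) (nat_lit 0) (XT.nd (nat_lit 78) (nat_lit 0) (nat_lit 0) (XT.lf (nat_lit 0) (nat_lit 544571316652) (nat_lit 152) (nat_lit 711231676182) (nat_lit 228) (nat_lit 300661268288) (nat_lit 25) (nat_lit 5) (nat_lit 27) (nat_lit 5) (nat_lit 28) (nat_lit 5) (nat_lit 386) (nat_lit 365) (nat_lit 149)) (XT.lf (nat_lit 0) (nat_lit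 1400154185050) (nat_lit 152) (nat_lit 209567194325) (nat_lit 228) (nat_lit 29015190108) (nat_lit 25) (nat_lit 5) (nat_lit 27) (nat_lit 5) (nat_lit 28) (nat_lit 5) (nat_lit 387) (nat_lit 365) (nat_lit 148))) (XT.nd (nat_lit 78) (nat_lit 0) (nat_lit 0) (XT.lf (nat_lit 0) (nat_lit 274624155563) (nat_lit 152) (nat_lit 1113114207394) (nat_lit 76) (nat_lit 337464780030) (nat_lit 23) (nat_lit 5) (nat_lit 25) (nat_lit 5) (nat_lit 24) (nat_lit 5) (nat_lit 388) (nat_lit 365) (nat_lit 147)) (XT.lf (nat_lit 0) (nat_lit 613123074806) (nat_lit 152) (nat_lit 280049216079) (nat_lit 76) (nat_lit 924383580203) (nat_lit 23) (nat_lit 5) (nat_lit 25) (nat_lit 5) (nat_lit 24) (nat_lit 5) (nat_lit 389) (nat_lit 365) (nat_lit 146))))) (XT.nd (nat_lit 312) (nat_lit 304) (nat_lit 0) (XT.nd (nat_lit 156) (nat_lit 152) (nat_lit 0) (XT.nd (nat_lit 78) (nat_lit 0) (nat_lit 0) (XT.lf (nat_lit 0) (nat_lit 652291216268)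 (nat_lit 152) (nat_lit 342098306518) (nat_lit 228) (nat_lit 921652285440) (nat_lit 21) (nat_lit 5) (nat_lit 23) (nat_lit 5) (nat_lit 24) (nat_lit 5) (nat_lit 390) (nat_lit 365) (nat_lit 145)) (XT.lf (nat_lit 0) (nat_lit 1420099346009) (nat_lit 228) (nat_lit 352933555218) (nat_lit 76) (nat_lit 248258354361) (nat_lit 21) (nat_lit 5) (nat_lit 24) (nat_lit 5) (nat_lit 22) (nat_lit 4) (nat_lit 391) (nat_lit 365) (nat_lit 144))) (XT.nd (nat_lit 78) (nat_lit 76) (nat_lit 0) (XT.lf (nat_lit 0) (nat_lit 654609380242) (nat_lit 76) (nat_lit 1249885612650) (nat_lit 152) (nat_lit 228495342828) (nat_lit 20) (nat_lit 5) (nat_lit 21) (nat_lit 5) (nat_lit 22) (nat_lit 4) (nat_lit 392) (nat_lit 365) (nat_lit 143)) (XT.lf (nat_lit 0) (nat_lit 175212386645) (nat_lit 152) (nat_lit 494461724472) (nat_lit 76) (nat_lit 1582824384606) (nat_lit 19) (nat_lit 5) (nat_lit 21) (nat_lit 5) (nat_lit 20) (nat_lit 5)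 (nat_lit 393) (nat_lit 365) (nat_lit 142)))) (XT.nd (nat_lit 156) (nat_lit 152) (nat_lit 0) (XT.nd (nat_lit 78) (nat_lit 0) (nat_lit 0) (XT.lf (nat_lit 0) (nat_lit 591842451569) (nat_lit 152) (nat_lit 21263421128) (nat_lit 228) (nat_lit 1766847934584) (nat_lit 17) (nat_lit 5) (nat_lit 19) (nat_lit 5) (nat_lit 20) (nat_lit 5) (nat_lit 394) (nat_lit 365) (nat_lit 141)) (XT.lf (nat_lit 0) (nat_lit 1116231899104) (nat_lit 228) (nat_lit 740034159945) (nat_lit 76) (nat_lit 658923399798) (nat_lit 17) (nat_lit 5) (nat_lit 20) (nat_lit 5) (nat_lit 18) (nat_lit 4) (nat_lit 395) (nat_lit 365) (nat_lit 140))) (XT.nd (nat_lit 78) (nat_lit 76) (nat_lit 0) (XT.lf (nat_lit 0) (nat_lit 411944017458) (nat_lit 76) (nat_lit 1258123547149) (nat_lit 152) (nat_lit 990339633377) (nat_lit 16) (nat_lit 5) (nat_lit 17) (nat_lit 5) (nat_lit 18) (nat_lit 4) (nat_lit 396) (nat_lit 365) (nat_lit 139)) (XT.nd (nat_lit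 78) (nat_lit 76) (nat_lit 0) (XT.lf (nat_lit 0) (nat_lit 1698166842089) (nat_lit 76) (nat_lit 590277083560) (nat_lit 152) (nat_lit 527179723221) (nat_lit 16) (nat_lit 5) (nat_lit 17) (nat_lit 5) (nat_lit 18) (nat_lit 4) (nat_lit 397) (nat_lit 365) (nat_lit 138)) (XT.lf (nat_lit 0) (nat_lit 106191728723) (nat_lit 76) (nat_lit 2855803060908) (nat_lit 76) (nat_lit 20806274676) (nat_lit 15) (nat_lit 4) (nat_lit 16) (nat_lit 5) (nat_lit 16) (nat_lit 4) (nat_lit 398) (nat_lit 365) (nat_lit 137))))))))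
noncomputable def xc243 : XT := (XT.nd (nat_lit 45318) (nat_lit 0) (nat_lit 304) (XT.nd (nat_lit 44616) (nat_lit 0) (nat_lit 1900) (XT.nd (nat_lit 44304) (nat_lit 0) (nat_lit 2736) (XT.nd (nat_lit 156) (nat_lit 76) (nat_lit 0) (XT.nd (nat_lit 78) (nat_lit 0) (nat_lit 0) (XT.lf (nat_lit 0) (nat_lit 546439254802) (nat_lit 152) (nat_lit 1698403141272) (nat_lit 76) (nat_lit 913763806873) (nat_lit 14) (nat_lit 5) (nat_lit 16) (nat_lit 5) (nat_lit 15) (nat_lit 4) (nat_lit 399) (nat_lit 365) (nat_lit 136)) (XT.lf (nat_lit 0) (nat_lit 1157940344708) (nat_lit 152) (nat_lit 426480878926) (nat_lit 76) (nat_lit 1764011295445) (nat_lit 14) (nat_lit 5) (nat_lit 16) (nat_lit 5) (nat_lit 15) (nat_lit 4) (nat_lit 400) (nat_lit 365) (nat_lit 135))) (XT.nd (nat_lit 78) (nat_lit 0) (nat_lit 0) (XT.lf (nat_lit 0) (nat_lit 997072778519) (nat_lit 76) (nat_lit 845268365111) (nat_lit 152) (nat_lit 1709185427127)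 (nat_lit 13) (nat_lit 5) (nat_lit 14) (nat_lit 5) (nat_lit 15) (nat_lit 4) (nat_lit 401) (nat_lit 365) (nat_lit 134)) (XT.lf (nat_lit 0) (nat_lit 2558765069716) (nat_lit 76) (nat_lit 34389677371) (nat_lit 152) (nat_lit 1176780540234) (nat_lit 13) (nat_lit 5) (nat_lit 14) (nat_lit 5) (nat_lit 15) (nat_lit 4) (nat_lit 402) (nat_lit 365) (nat_lit 133)))) (XT.nd (nat_lit 156) (nat_lit 0) (nat_lit 76) (XT.nd (nat_lit 78) (nat_lit 0) (nat_lit 0) (XT.lf (nat_lit 0) (nat_lit 226331516566) (nat_lit 532) (nat_lit 50743381263) (nat_lit 532) (nat_lit 50743381263) (nat_lit 49) (nat_lit 3) (nat_lit 56) (nat_lit 3) (nat_lit 56) (nat_lit 5) (nat_lit 366) (nat_lit 366) (nat_lit 168)) (XT.lf (nat_lit 76) (nat_lit 213541017596) (nat_lit 0) (nat_lit 262364343430) (nat_lit 532) (nat_lit 205545794612) (nat_lit 50) (nat_lit 5) (nat_lit 49) (nat_lit 3) (nat_lit 56) (nat_lit 5) (nat_lit 367) (nat_lit 366) (nat_lit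 167))) (XT.nd (nat_lit 78) (nat_lit 0) (nat_lit 0) (XT.lf (nat_lit 0) (nat_lit 505122936643) (nat_lit 456) (nat_lit 150907329310) (nat_lit 532) (nat_lit 52971386049) (nat_lit 50) (nat_lit 5) (nat_lit 56) (nat_lit 5) (nat_lit 57) (nat_lit 5) (nat_lit 368) (nat_lit 366) (nat_lit 166)) (XT.lf (nat_lit 76) (nat_lit 194363907049) (nat_lit 0) (nat_lit 353803113166) (nat_lit 532) (nat_lit 189670039743) (nat_lit 51) (nat_lit 5) (nat_lit 50) (nat_lit 5) (nat_lit 57) (nat_lit 5) (nat_lit 369) (nat_lit 366) (nat_lit 165))))) (XT.nd (nat_lit 312) (nat_lit 608) (nat_lit 0) (XT.nd (nat_lit 156) (nat_lit 304) (nat_lit 0) (XT.nd (nat_lit 78) (nat_lit 0) (nat_lit 76) (XT.lf (nat_lit 76) (nat_lit 575839067459) (nat_lit 0) (nat_lit 22941624584) (nat_lit 532) (nat_lit 169868523609) (nat_lit 51) (nat_lit 5) (nat_lit 50) (nat_lit 5) (nat_lit 57) (nat_lit 5) (nat_lit 370) (nat_lit 366) (nat_lit 164)) (XT.lf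 (nat_lit 76) (nat_lit 187229823910) (nat_lit 0) (nat_lit 478758562499) (nat_lit 532) (nat_lit 134934363117) (nat_lit 52) (nat_lit 5) (nat_lit 51) (nat_lit 5) (nat_lit 58) (nat_lit 5) (nat_lit 371) (nat_lit 366) (nat_lit 163))) (XT.nd (nat_lit 78) (nat_lit 380) (nat_lit 0) (XT.lf (nat_lit 76) (nat_lit 608011004516) (nat_lit 0) (nat_lit 136414252949) (nat_lit 532) (nat_lit 90884703780) (nat_lit 52) (nat_lit 5) (nat_lit 51) (nat_lit 5) (nat_lit 58) (nat_lit 5) (nat_lit 372) (nat_lit 366) (nat_lit 162)) (XT.lf (nat_lit 0) (nat_lit 194105152828) (nat_lit 456) (nat_lit 645311443105) (nat_lit 532) (nat_lit 32209192574) (nat_lit 46) (nat_lit 5) (nat_lit 52) (nat_lit 5) (nat_lit 53) (nat_lit 5) (nat_lit 373) (nat_lit 366) (nat_lit 161)))) (XT.nd (nat_lit 156) (nat_lit 228) (nat_lit 0) (XT.nd (nat_lit 78) (nat_lit 304) (nat_lit 0) (XT.lf (nat_lit 0) (nat_lit 39520988486) (nat_lit 532) (nat_lit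 252655483299) (nat_lit 76) (nat_lit 617816905888) (nat_lit 45) (nat_lit 5) (nat_lit 52) (nat_lit 5) (nat_lit 46) (nat_lit 5) (nat_lit 374) (nat_lit 366) (nat_lit 160)) (XT.lf (nat_lit 0) (nat_lit 122750742836) (nat_lit 380) (nat_lit 737073495048) (nat_lit 76) (nat_lit 90939104567) (nat_lit 41) (nat_lit 5) (nat_lit 46) (nat_lit 5) (nat_lit 42) (nat_lit 5) (nat_lit 375) (nat_lit 366) (nat_lit 159))) (XT.nd (nat_lit 78) (nat_lit 228) (nat_lit 0) (XT.lf (nat_lit 0) (nat_lit 227315346929) (nat_lit 380) (nat_lit 270299152747) (nat_lit 76) (nat_lit 496006287203) (nat_lit 41) (nat_lit 5) (nat_lit 46) (nat_lit 5) (nat_lit 42) (nat_lit 5) (nat_lit 376) (nat_lit 366) (nat_lit 158)) (XT.nd (nat_lit 78) (nat_lit 0) (nat_lit 0) (XT.lf (nat_lit 0) (nat_lit 246129524340) (nat_lit 228) (nat_lit 100035008241) (nat_lit 304) (nat_lit 693268741237) (nat_lit 38) (nat_lit 5) (nat_lit 41) (nat_lit 5) (nat_lit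 42) (nat_lit 5) (nat_lit 377) (nat_lit 366) (nat_lit 157)) (XT.lf (nat_lit 0) (nat_lit 490024959180) (nat_lit 304) (nat_lit 277187739411) (nat_lit 76) (nat_lit 320457796650) (nat_lit 38) (nat_lit 5) (nat_lit 42) (nat_lit 5) (nat_lit 39) (nat_lit 5) (nat_lit 378) (nat_lit 366) (nat_lit 156))))))) (XT.nd (nat_lit 702) (nat_lit 608) (nat_lit 0) (XT.nd (nat_lit 312) (nat_lit 608) (nat_lit 0) (XT.nd (nat_lit 156) (nat_lit 152) (nat_lit 0) (XT.nd (nat_lit 78) (nat_lit 0) (nat_lit 0) (XT.lf (nat_lit 0) (nat_lit 292238168334) (nat_lit 228) (nat_lit 362782691615) (nat_lit 304) (nat_lit 483975703238) (nat_lit 35) (nat_lit 5) (nat_lit 38) (nat_lit 5) (nat_lit 39) (nat_lit 5) (nat_lit 379) (nat_lit 366) (nat_lit 155)) (XT.lf (nat_lit 0) (nat_lit 842771825350) (nat_lit 304) (nat_lit 272816954578) (nat_lit 76) (nat_lit 78075505249) (nat_lit 35) (nat_lit 5) (nat_lit 39) (nat_lit 5) (nat_lit 36) (nat_lit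 5) (nat_lit 380) (nat_lit 366) (nat_lit 154))) (XT.nd (nat_lit 78) (nat_lit 0) (nat_lit 0) (XT.lf (nat_lit 0) (nat_lit 355395172065) (nat_lit 152) (nat_lit 708117879346) (nat_lit 228) (nat_lit 187754758852) (nat_lit 33) (nat_lit 5) (nat_lit 35) (nat_lit 5) (nat_lit 36) (nat_lit 5) (nat_lit 381) (nat_lit 366) (nat_lit 153)) (XT.lf (nat_lit 0) (nat_lit 1049379603312) (nat_lit 152) (nat_lit 259993265465) (nat_lit 228) (nat_lit 3510005132) (nat_lit 33) (nat_lit 5) (nat_lit 35) (nat_lit 5) (nat_lit 36) (nat_lit 5) (nat_lit 382) (nat_lit 366) (nat_lit 152)))) (XT.nd (nat_lit 156) (nat_lit 304) (nat_lit 0) (XT.nd (nat_lit 78) (nat_lit 0) (nat_lit 0) (XT.lf (nat_lit 0) (nat_lit 201977613465) (nat_lit 304) (nat_lit 947397922781) (nat_lit 76) (nat_lit 228372977250) (nat_lit 29) (nat_lit 5) (nat_lit 33) (nat_lit 5) (nat_lit 30) (nat_lit 5) (nat_lit 383) (nat_lit 366) (nat_lit 151)) (XT.lf (nat_lit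 0) (nat_lit 437859456679) (nat_lit 304) (nat_lit 259559989012) (nat_lit 76) (nat_lit 749245077326) (nat_lit 29) (nat_lit 5) (nat_lit 33) (nat_lit 5) (nat_lit 30) (nat_lit 5) (nat_lit 384) (nat_lit 366) (nat_lit 150))) (XT.nd (nat_lit 78) (nat_lit 152) (nat_lit 0) (XT.lf (nat_lit 0) (nat_lit 508754955951) (nat_lit 152) (nat_lit 196092455404) (nat_lit 228) (nat_lit 815267556832) (nat_lit 27) (nat_lit 5) (nat_lit 29) (nat_lit 5) (nat_lit 30) (nat_lit 5) (nat_lit 385) (nat_lit 366) (nat_lit 149)) (XT.nd (nat_lit 78) (nat_lit 152) (nat_lit 0) (XT.lf (nat_lit 0) (nat_lit 1008781012966) (nat_lit 228) (nat_lit 254066991771) (nat_lit 76) (nat_lit 335346515395) (nat_lit 27) (nat_lit 5) (nat_lit 30) (nat_lit 5) (nat_lit 28) (nat_lit 5) (nat_lit 386) (nat_lit 366) (nat_lit 148)) (XT.lf (nat_lit 0) (nat_lit 588137155787) (nat_lit 152) (nat_lit 768130165778) (nat_lit 228) (nat_lit 324714073167) (nat_lit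 25) (nat_lit 5) (nat_lit 27) (nat_lit 5) (nat_lit 28) (nat_lit 5) (nat_lit 387) (nat_lit 366) (nat_lit 147)))))) (XT.nd (nat_lit 312) (nat_lit 304) (nat_lit 0) (XT.nd (nat_lit 156) (nat_lit 152) (nat_lit 0) (XT.nd (nat_lit 78) (nat_lit 152) (nat_lit 0) (XT.lf (nat_lit 0) (nat_lit 1512166643746) (nat_lit 152) (nat_lit 226332528668) (nat_lit 228) (nat_lit 31336315888) (nat_lit 25) (nat_lit 5) (nat_lit 27) (nat_lit 5) (nat_lit 28) (nat_lit 5) (nat_lit 388) (nat_lit 366) (nat_lit 146)) (XT.lf (nat_lit 0) (nat_lit 296594170730) (nat_lit 152) (nat_lit 1202163213163) (nat_lit 76) (nat_lit 364462003808) (nat_lit 23) (nat_lit 5) (nat_lit 25) (nat_lit 5) (nat_lit 24) (nat_lit 5) (nat_lit 389) (nat_lit 366) (nat_lit 145))) (XT.nd (nat_lit 78) (nat_lit 152) (nat_lit 0) (XT.lf (nat_lit 0) (nat_lit 662172997385) (nat_lit 152) (nat_lit 302453032233) (nat_lit 76) (nat_lit 998334304930) (nat_lit 23) (nat_lit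 5) (nat_lit 25) (nat_lit 5) (nat_lit 24) (nat_lit 5) (nat_lit 390) (nat_lit 366) (nat_lit 144)) (XT.lf (nat_lit 0) (nat_lit 704474631634) (nat_lit 152) (nat_lit 369466126735) (nat_lit 228) (nat_lit 995384388522) (nat_lit 21) (nat_lit 5) (nat_lit 23) (nat_lit 5) (nat_lit 24) (nat_lit 5) (nat_lit 391) (nat_lit 366) (nat_lit 143)))) (XT.nd (nat_lit 156) (nat_lit 228) (nat_lit 0) (XT.nd (nat_lit 78) (nat_lit 76) (nat_lit 0) (XT.lf (nat_lit 0) (nat_lit 1533707362973) (nat_lit 228) (nat_lit 381168125753) (nat_lit 76) (nat_lit 268119061681) (nat_lit 21) (nat_lit 5) (nat_lit 24) (nat_lit 5) (nat_lit 22) (nat_lit 4) (nat_lit 392) (nat_lit 366) (nat_lit 142)) (XT.lf (nat_lit 0) (nat_lit 706978241660) (nat_lit 76) (nat_lit 1349876417483) (nat_lit 152) (nat_lit 246774898009) (nat_lit 20) (nat_lit 5) (nat_lit 21) (nat_lit 5) (nat_lit 22) (nat_lit 4) (nat_lit 393) (nat_lit 366) (nat_lit 141))) (XT.nd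 (nat_lit 78) (nat_lit 152) (nat_lit 0) (XT.lf (nat_lit 0) (nat_lit 189229441124) (nat_lit 152) (nat_lit 534018556239) (nat_lit 76) (nat_lit 1709450372866) (nat_lit 19) (nat_lit 5) (nat_lit 21) (nat_lit 5) (nat_lit 20) (nat_lit 5) (nat_lit 394) (nat_lit 366) (nat_lit 140)) (XT.nd (nat_lit 78) (nat_lit 0) (nat_lit 0) (XT.lf (nat_lit 0) (nat_lit 639189951196) (nat_lit 152) (nat_lit 22964452645) (nat_lit 228) (nat_lit 1908195703052) (nat_lit 17) (nat_lit 5) (nat_lit 19) (nat_lit 5) (nat_lit 20) (nat_lit 5) (nat_lit 395) (nat_lit 366) (nat_lit 139)) (XT.lf (nat_lit 0) (nat_lit 1205530508758) (nat_lit 228) (nat_lit 799236793243) (nat_lit 76) (nat_lit 711637308878) (nat_lit 17) (nat_lit 5) (nat_lit 20) (nat_lit 5) (nat_lit 18) (nat_lit 4) (nat_lit 396) (nat_lit 366) (nat_lit 138))))))))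
noncomputable def xc244 : XT := (XT.nd (nat_lit 45474) (nat_lit 0) (nat_lit 380) (XT.nd (nat_lit 44772) (nat_lit 0) (nat_lit 1824) (XT.nd (nat_lit 312) (nat_lit 0) (nat_lit 0) (XT.nd (nat_lit 156) (nat_lit 152) (nat_lit 0) (XT.nd (nat_lit 78) (nat_lit 0) (nat_lit 0) (XT.lf (nat_lit 0) (nat_lit 444899635833) (nat_lit 76) (nat_lit 1358773389724) (nat_lit 152) (nat_lit 1069566743749) (nat_lit 16) (nat_lit 5) (nat_lit 17) (nat_lit 5) (nat_lit 18) (nat_lit 4) (nat_lit 397) (nat_lit 366) (nat_lit 137)) (XT.lf (nat_lit 0) (nat_lit 1834020279251) (nat_lit 76) (nat_lit 637499212100) (nat_lit 152) (nat_lit 569354045247) (nat_lit 16) (nat_lit 5) (nat_lit 17) (nat_lit 5) (nat_lit 18) (nat_lit 4) (nat_lit 398) (nat_lit 366) (nat_lit 136))) (XT.nd (nat_lit 78) (nat_lit 76) (nat_lit 0) (XT.lf (nat_lit 0) (nat_lit 114687157724) (nat_lit 76) (nat_lit 3084267265932) (nat_lit 76) (nat_lit 22470721681) (nat_lit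 15) (nat_lit 4) (nat_lit 16) (nat_lit 5) (nat_lit 16) (nat_lit 4) (nat_lit 399) (nat_lit 366) (nat_lit 135)) (XT.lf (nat_lit 0) (nat_lit 590154443538) (nat_lit 152) (nat_lit 1834275306004) (nat_lit 76) (nat_lit 986864945734) (nat_lit 14) (nat_lit 5) (nat_lit 16) (nat_lit 5) (nat_lit 15) (nat_lit 4) (nat_lit 400) (nat_lit 366) (nat_lit 134)))) (XT.nd (nat_lit 44304) (nat_lit 0) (nat_lit 2660) (XT.nd (nat_lit 44226) (nat_lit 0) (nat_lit 2660) (XT.lf (nat_lit 0) (nat_lit 1250575617054) (nat_lit 152) (nat_lit 460599269083) (nat_lit 76) (nat_lit 1905132230850) (nat_lit 14) (nat_lit 5) (nat_lit 16) (nat_lit 5) (nat_lit 15) (nat_lit 4) (nat_lit 401) (nat_lit 366) (nat_lit 133)) (XT.lf (nat_lit 0) (nat_lit 244438174485) (nat_lit 532) (nat_lit 54802777833) (nat_lit 532) (nat_lit 54802777833) (nat_lit 49) (nat_lit 3) (nat_lit 56) (nat_lit 3) (nat_lit 56) (nat_lit 5) (nat_lit 367) (nat_lit 367)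 (nat_lit 166))) (XT.nd (nat_lit 78) (nat_lit 0) (nat_lit 76) (XT.lf (nat_lit 76) (nat_lit 230624443123) (nat_lit 0) (nat_lit 283353603204) (nat_lit 532) (nat_lit 221989180619) (nat_lit 50) (nat_lit 5) (nat_lit 49) (nat_lit 3) (nat_lit 56) (nat_lit 5) (nat_lit 368) (nat_lit 367) (nat_lit 165)) (XT.lf (nat_lit 0) (nat_lit 545533006499) (nat_lit 456) (nat_lit 162979760133) (nat_lit 532) (nat_lit 57208998154) (nat_lit 50) (nat_lit 5) (nat_lit 56) (nat_lit 5) (nat_lit 57) (nat_lit 5) (nat_lit 369) (nat_lit 367) (nat_lit 164))))) (XT.nd (nat_lit 312) (nat_lit 912) (nat_lit 0) (XT.nd (nat_lit 156) (nat_lit 0) (nat_lit 76) (XT.nd (nat_lit 78) (nat_lit 0) (nat_lit 0) (XT.lf (nat_lit 76) (nat_lit 209913171197) (nat_lit 0) (nat_lit 382107431803) (nat_lit 532) (nat_lit 204843403521) (nat_lit 51) (nat_lit 5) (nat_lit 50) (nat_lit 5) (nat_lit 57) (nat_lit 5) (nat_lit 370) (nat_lit 367) (nat_lit 163))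 (XT.lf (nat_lit 76) (nat_lit 621906333212) (nat_lit 0) (nat_lit 24777018979) (nat_lit 532) (nat_lit 183457783830) (nat_lit 51) (nat_lit 5) (nat_lit 50) (nat_lit 5) (nat_lit 57) (nat_lit 5) (nat_lit 371) (nat_lit 367) (nat_lit 162))) (XT.nd (nat_lit 78) (nat_lit 0) (nat_lit 0) (XT.lf (nat_lit 76) (nat_lit 202208364592) (nat_lit 0) (nat_lit 517059284634) (nat_lit 532) (nat_lit 145728904448) (nat_lit 52) (nat_lit 5) (nat_lit 51) (nat_lit 5) (nat_lit 58) (nat_lit 5) (nat_lit 372) (nat_lit 367) (nat_lit 161)) (XT.lf (nat_lit 76) (nat_lit 656652028182) (nat_lit 0) (nat_lit 147327427569) (nat_lit 532) (nat_lit 98155287750) (nat_lit 52) (nat_lit 5) (nat_lit 51) (nat_lit 5) (nat_lit 58) (nat_lit 5) (nat_lit 373) (nat_lit 367) (nat_lit 160)))) (XT.nd (nat_lit 156) (nat_lit 532) (nat_lit 0) (XT.nd (nat_lit 78) (nat_lit 76) (nat_lit 0) (XT.lf (nat_lit 0) (nat_lit 209633719810) (nat_lit 456) (nat_lit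 696936371280) (nat_lit 532) (nat_lit 34785746703) (nat_lit 46) (nat_lit 5) (nat_lit 52) (nat_lit 5) (nat_lit 53) (nat_lit 5) (nat_lit 374) (nat_lit 367) (nat_lit 159)) (XT.lf (nat_lit 0) (nat_lit 42682827018) (nat_lit 532) (nat_lit 272867769933) (nat_lit 76) (nat_lit 667242237838) (nat_lit 45) (nat_lit 5) (nat_lit 52) (nat_lit 5) (nat_lit 46) (nat_lit 5) (nat_lit 375) (nat_lit 367) (nat_lit 158))) (XT.nd (nat_lit 78) (nat_lit 228) (nat_lit 0) (XT.lf (nat_lit 0) (nat_lit 132570953396) (nat_lit 380) (nat_lit 796039213987) (nat_lit 76) (nat_lit 98214230058) (nat_lit 41) (nat_lit 5) (nat_lit 46) (nat_lit 5) (nat_lit 42) (nat_lit 5) (nat_lit 376) (nat_lit 367) (nat_lit 157)) (XT.nd (nat_lit 78) (nat_lit 228) (nat_lit 0) (XT.lf (nat_lit 0) (nat_lit 245500714621) (nat_lit 380) (nat_lit 291922936203) (nat_lit 76) (nat_lit 535686787518) (nat_lit 41) (nat_lit 5) (nat_lit 46) (nat_lit 5) (nat_lit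 42) (nat_lit 5) (nat_lit 377) (nat_lit 367) (nat_lit 156)) (XT.lf (nat_lit 0) (nat_lit 265820031285) (nat_lit 228) (nat_lit 108037796962) (nat_lit 304) (nat_lit 748730096562) (nat_lit 38) (nat_lit 5) (nat_lit 41) (nat_lit 5) (nat_lit 42) (nat_lit 5) (nat_lit 378) (nat_lit 367) (nat_lit 155))))))) (XT.nd (nat_lit 624) (nat_lit 608) (nat_lit 0) (XT.nd (nat_lit 312) (nat_lit 456) (nat_lit 0) (XT.nd (nat_lit 156) (nat_lit 152) (nat_lit 0) (XT.nd (nat_lit 78) (nat_lit 228) (nat_lit 0) (XT.lf (nat_lit 0) (nat_lit 529227079383) (nat_lit 304) (nat_lit 299362614466) (nat_lit 76) (nat_lit 346094430883) (nat_lit 38) (nat_lit 5) (nat_lit 42) (nat_lit 5) (nat_lit 39) (nat_lit 5) (nat_lit 379) (nat_lit 367) (nat_lit 154)) (XT.lf (nat_lit 0) (nat_lit 315617362251) (nat_lit 228) (nat_lit 391805284196) (nat_lit 304) (nat_lit 522693632148) (nat_lit 35) (nat_lit 5) (nat_lit 38) (nat_lit 5) (nat_lit 39)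 (nat_lit 5) (nat_lit 380) (nat_lit 367) (nat_lit 153))) (XT.nd (nat_lit 78) (nat_lit 152) (nat_lit 0) (XT.lf (nat_lit 0) (nat_lit 910193680867) (nat_lit 304) (nat_lit 294642172471) (nat_lit 76) (nat_lit 84321565679) (nat_lit 35) (nat_lit 5) (nat_lit 39) (nat_lit 5) (nat_lit 36) (nat_lit 5) (nat_lit 381) (nat_lit 367) (nat_lit 152)) (XT.lf (nat_lit 0) (nat_lit 383826920797) (nat_lit 152) (nat_lit 764767279352) (nat_lit 228) (nat_lit 202775026366) (nat_lit 33) (nat_lit 5) (nat_lit 35) (nat_lit 5) (nat_lit 36) (nat_lit 5) (nat_lit 382) (nat_lit 367) (nat_lit 151)))) (XT.nd (nat_lit 156) (nat_lit 152) (nat_lit 0) (XT.nd (nat_lit 78) (nat_lit 304) (nat_lit 0) (XT.lf (nat_lit 0) (nat_lit 1133330096546) (nat_lit 152) (nat_lit 280792698608) (nat_lit 228) (nat_lit 3790700734) (nat_lit 33) (nat_lit 5) (nat_lit 35) (nat_lit 5) (nat_lit 36) (nat_lit 5) (nat_lit 383) (nat_lit 367) (nat_lit 150)) (XT.lf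 (nat_lit 0) (nat_lit 218135918555) (nat_lit 304) (nat_lit 1023189622510) (nat_lit 76) (nat_lit 246642845673) (nat_lit 29) (nat_lit 5) (nat_lit 33) (nat_lit 5) (nat_lit 30) (nat_lit 5) (nat_lit 384) (nat_lit 367) (nat_lit 149))) (XT.nd (nat_lit 78) (nat_lit 152) (nat_lit 0) (XT.lf (nat_lit 0) (nat_lit 472888302114) (nat_lit 304) (nat_lit 280324663972) (nat_lit 76) (nat_lit 809184711514) (nat_lit 29) (nat_lit 5) (nat_lit 33) (nat_lit 5) (nat_lit 30) (nat_lit 5) (nat_lit 385) (nat_lit 367) (nat_lit 148)) (XT.lf (nat_lit 0) (nat_lit 549455473444) (nat_lit 152) (nat_lit 211779816044) (nat_lit 228) (nat_lit 880488869200) (nat_lit 27) (nat_lit 5) (nat_lit 29) (nat_lit 5) (nat_lit 30) (nat_lit 5) (nat_lit 386) (nat_lit 367) (nat_lit 147))))) (XT.nd (nat_lit 312) (nat_lit 304) (nat_lit 0) (XT.nd (nat_lit 156) (nat_lit 152) (nat_lit 0) (XT.nd (nat_lit 78) (nat_lit 152) (nat_lit 0) (XT.lf (nat_lit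 0) (nat_lit 1089483573713) (nat_lit 228) (nat_lit 274392233419) (nat_lit 76) (nat_lit 362174268110) (nat_lit 27) (nat_lit 5) (nat_lit 30) (nat_lit 5) (nat_lit 28) (nat_lit 5) (nat_lit 387) (nat_lit 367) (nat_lit 146)) (XT.lf (nat_lit 0) (nat_lit 635188242965) (nat_lit 152) (nat_lit 829580540889) (nat_lit 228) (nat_lit 350691116216) (nat_lit 25) (nat_lit 5) (nat_lit 27) (nat_lit 5) (nat_lit 28) (nat_lit 5) (nat_lit 388) (nat_lit 367) (nat_lit 145))) (XT.nd (nat_lit 78) (nat_lit 152) (nat_lit 0) (XT.lf (nat_lit 0) (nat_lit 1633140081463) (nat_lit 152) (nat_lit 244439095637) (nat_lit 228) (nat_lit 33843144487) (nat_lit 25) (nat_lit 5) (nat_lit 27) (nat_lit 5) (nat_lit 28) (nat_lit 5) (nat_lit 389) (nat_lit 367) (nat_lit 144)) (XT.lf (nat_lit 0) (nat_lit 320321775309) (nat_lit 152) (nat_lit 1298336158056) (nat_lit 76) (nat_lit 393618999586) (nat_lit 23) (nat_lit 5) (nat_lit 25) (nat_lit 5)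 (nat_lit 24) (nat_lit 5) (nat_lit 390) (nat_lit 367) (nat_lit 143)))) (XT.nd (nat_lit 156) (nat_lit 152) (nat_lit 0) (XT.nd (nat_lit 78) (nat_lit 152) (nat_lit 0) (XT.lf (nat_lit 0) (nat_lit 715146902843) (nat_lit 152) (nat_lit 326649170961) (nat_lit 76) (nat_lit 1078201082170) (nat_lit 23) (nat_lit 5) (nat_lit 25) (nat_lit 5) (nat_lit 24) (nat_lit 5) (nat_lit 391) (nat_lit 367) (nat_lit 142)) (XT.lf (nat_lit 0) (nat_lit 760832703387) (nat_lit 152) (nat_lit 399023378889) (nat_lit 228) (nat_lit 1075015071228) (nat_lit 21) (nat_lit 5) (nat_lit 23) (nat_lit 5) (nat_lit 24) (nat_lit 5) (nat_lit 392) (nat_lit 367) (nat_lit 141))) (XT.nd (nat_lit 78) (nat_lit 152) (nat_lit 0) (XT.lf (nat_lit 0) (nat_lit 1656404011410) (nat_lit 228) (nat_lit 411661478178) (nat_lit 76) (nat_lit 289568620027) (nat_lit 21) (nat_lit 5) (nat_lit 24) (nat_lit 5) (nat_lit 22) (nat_lit 4) (nat_lit 393) (nat_lit 367)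 (nat_lit 140)) (XT.nd (nat_lit 78) (nat_lit 76) (nat_lit 0) (XT.lf (nat_lit 0) (nat_lit 763536596157) (nat_lit 76) (nat_lit 1457866493006) (nat_lit 152) (nat_lit 266516827911) (nat_lit 20) (nat_lit 5) (nat_lit 21) (nat_lit 5) (nat_lit 22) (nat_lit 4) (nat_lit 394) (nat_lit 367) (nat_lit 139)) (XT.lf (nat_lit 0) (nat_lit 204367850896) (nat_lit 152) (nat_lit 576739949697) (nat_lit 76) (nat_lit 1846206434839) (nat_lit 19) (nat_lit 5) (nat_lit 21) (nat_lit 5) (nat_lit 20) (nat_lit 5) (nat_lit 395) (nat_lit 367) (nat_lit 138))))))))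
noncomputable def xc245 : XT := (XT.nd (nat_lit 45552) (nat_lit 0) (nat_lit 380) (XT.nd (nat_lit 44850) (nat_lit 0) (nat_lit 2052) (XT.nd (nat_lit 312) (nat_lit 152) (nat_lit 0) (XT.nd (nat_lit 156) (nat_lit 76) (nat_lit 0) (XT.nd (nat_lit 78) (nat_lit 0) (nat_lit 0) (XT.lf (nat_lit 0) (nat_lit 690325236029) (nat_lit 152) (nat_lit 24801572700) (nat_lit 228) (nat_lit 2060851302456) (nat_lit 17) (nat_lit 5) (nat_lit 19) (nat_lit 5) (nat_lit 20) (nat_lit 5) (nat_lit 396) (nat_lit 367) (nat_lit 137)) (XT.lf (nat_lit 0) (nat_lit 1301972998949) (nat_lit 228) (nat_lit 863175651400) (nat_lit 76) (nat_lit 768568325392) (nat_lit 17) (nat_lit 5) (nat_lit 20) (nat_lit 5) (nat_lit 18) (nat_lit 4) (nat_lit 397) (nat_lit 367) (nat_lit 136))) (XT.nd (nat_lit 78) (nat_lit 0) (nat_lit 0) (XT.lf (nat_lit 0) (nat_lit 480491689844) (nat_lit 76) (nat_lit 1467475225583) (nat_lit 152) (nat_lit 1155132031552)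 (nat_lit 16) (nat_lit 5) (nat_lit 17) (nat_lit 5) (nat_lit 18) (nat_lit 4) (nat_lit 398) (nat_lit 367) (nat_lit 135)) (XT.lf (nat_lit 0) (nat_lit 1980741978576) (nat_lit 76) (nat_lit 688499116365) (nat_lit 152) (nat_lit 614902321001) (nat_lit 16) (nat_lit 5) (nat_lit 17) (nat_lit 5) (nat_lit 18) (nat_lit 4) (nat_lit 399) (nat_lit 367) (nat_lit 134)))) (XT.nd (nat_lit 44382) (nat_lit 0) (nat_lit 2660) (XT.nd (nat_lit 78) (nat_lit 76) (nat_lit 0) (XT.lf (nat_lit 0) (nat_lit 123862208105) (nat_lit 76) (nat_lit 3331008613043) (nat_lit 76) (nat_lit 24268332288) (nat_lit 15) (nat_lit 4) (nat_lit 16) (nat_lit 5) (nat_lit 16) (nat_lit 4) (nat_lit 400) (nat_lit 367) (nat_lit 133)) (XT.lf (nat_lit 0) (nat_lit 637366840474) (nat_lit 152) (nat_lit 1981017256265) (nat_lit 76) (nat_lit 1065814170809) (nat_lit 14) (nat_lit 5) (nat_lit 16) (nat_lit 5) (nat_lit 15) (nat_lit 4) (nat_lit 401) (nat_lit 367)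 (nat_lit 132))) (XT.nd (nat_lit 78) (nat_lit 0) (nat_lit 0) (XT.lf (nat_lit 0) (nat_lit 263993345552) (nat_lit 532) (nat_lit 59186936676) (nat_lit 532) (nat_lit 59186936676) (nat_lit 49) (nat_lit 3) (nat_lit 56) (nat_lit 3) (nat_lit 56) (nat_lit 5) (nat_lit 368) (nat_lit 368) (nat_lit 164)) (XT.lf (nat_lit 76) (nat_lit 249074522131) (nat_lit 0) (nat_lit 306021987739) (nat_lit 532) (nat_lit 239748077103) (nat_lit 50) (nat_lit 5) (nat_lit 49) (nat_lit 3) (nat_lit 56) (nat_lit 5) (nat_lit 369) (nat_lit 368) (nat_lit 163))))) (XT.nd (nat_lit 312) (nat_lit 684) (nat_lit 0) (XT.nd (nat_lit 156) (nat_lit 0) (nat_lit 0) (XT.nd (nat_lit 78) (nat_lit 0) (nat_lit 0) (XT.lf (nat_lit 0) (nat_lit 589175848428) (nat_lit 456) (nat_lit 176018007609) (nat_lit 532) (nat_lit 61785633318) (nat_lit 50) (nat_lit 5) (nat_lit 56) (nat_lit 5) (nat_lit 57) (nat_lit 5) (nat_lit 370) (nat_lit 368) (nat_lit 162))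 (XT.lf (nat_lit 76) (nat_lit 226706354852) (nat_lit 0) (nat_lit 412676086003) (nat_lit 532) (nat_lit 221230670554) (nat_lit 51) (nat_lit 5) (nat_lit 50) (nat_lit 5) (nat_lit 57) (nat_lit 5) (nat_lit 371) (nat_lit 368) (nat_lit 161))) (XT.nd (nat_lit 78) (nat_lit 0) (nat_lit 76) (XT.lf (nat_lit 76) (nat_lit 671658960201) (nat_lit 0) (nat_lit 26759235735) (nat_lit 532) (nat_lit 198134216492) (nat_lit 51) (nat_lit 5) (nat_lit 50) (nat_lit 5) (nat_lit 57) (nat_lit 5) (nat_lit 372) (nat_lit 368) (nat_lit 160)) (XT.lf (nat_lit 76) (nat_lit 218385166448) (nat_lit 0) (nat_lit 558424059241) (nat_lit 532) (nat_lit 157387038718) (nat_lit 52) (nat_lit 5) (nat_lit 51) (nat_lit 5) (nat_lit 58) (nat_lit 5) (nat_lit 373) (nat_lit 368) (nat_lit 159)))) (XT.nd (nat_lit 156) (nat_lit 380) (nat_lit 0) (XT.nd (nat_lit 78) (nat_lit 380) (nat_lit 0) (XT.lf (nat_lit 76) (nat_lit 709184313296) (nat_lit 0) (nat_lit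 159113651253) (nat_lit 532) (nat_lit 106007545877) (nat_lit 52) (nat_lit 5) (nat_lit 51) (nat_lit 5) (nat_lit 58) (nat_lit 5) (nat_lit 374) (nat_lit 368) (nat_lit 158)) (XT.lf (nat_lit 0) (nat_lit 226404550073) (nat_lit 456) (nat_lit 752691291893) (nat_lit 532) (nat_lit 37568451022) (nat_lit 46) (nat_lit 5) (nat_lit 52) (nat_lit 5) (nat_lit 53) (nat_lit 5) (nat_lit 375) (nat_lit 368) (nat_lit 157))) (XT.nd (nat_lit 78) (nat_lit 304) (nat_lit 0) (XT.lf (nat_lit 0) (nat_lit 46097589885) (nat_lit 532) (nat_lit 294697061188) (nat_lit 76) (nat_lit 720621599271) (nat_lit 45) (nat_lit 5) (nat_lit 52) (nat_lit 5) (nat_lit 46) (nat_lit 5) (nat_lit 376) (nat_lit 368) (nat_lit 156)) (XT.nd (nat_lit 78) (nat_lit 0) (nat_lit 0) (XT.lf (nat_lit 0) (nat_lit 143176759240) (nat_lit 380) (nat_lit 859722213362) (nat_lit 76) (nat_lit 106071365999) (nat_lit 41) (nat_lit 5) (nat_lit 46) (nat_lit 5) (nat_lit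 42) (nat_lit 5) (nat_lit 377) (nat_lit 368) (nat_lit 155)) (XT.lf (nat_lit 0) (nat_lit 265140891765) (nat_lit 380) (nat_lit 315276643559) (nat_lit 76) (nat_lit 578541728238) (nat_lit 41) (nat_lit 5) (nat_lit 46) (nat_lit 5) (nat_lit 42) (nat_lit 5) (nat_lit 378) (nat_lit 368) (nat_lit 154))))))) (XT.nd (nat_lit 702) (nat_lit 608) (nat_lit 0) (XT.nd (nat_lit 312) (nat_lit 608) (nat_lit 0) (XT.nd (nat_lit 156) (nat_lit 228) (nat_lit 0) (XT.nd (nat_lit 78) (nat_lit 0) (nat_lit 0) (XT.lf (nat_lit 0) (nat_lit 287085758100) (nat_lit 228) (nat_lit 116680810484) (nat_lit 304) (nat_lit 808628380852) (nat_lit 38) (nat_lit 5) (nat_lit 41) (nat_lit 5) (nat_lit 42) (nat_lit 5) (nat_lit 379) (nat_lit 368) (nat_lit 153)) (XT.lf (nat_lit 0) (nat_lit 571565351589) (nat_lit 304) (nat_lit 323311500083) (nat_lit 76) (nat_lit 373781994356) (nat_lit 38) (nat_lit 5) (nat_lit 42) (nat_lit 5) (nat_lit 39) (nat_lit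 5) (nat_lit 380) (nat_lit 368) (nat_lit 152))) (XT.nd (nat_lit 78) (nat_lit 0) (nat_lit 0) (XT.lf (nat_lit 0) (nat_lit 340866871643) (nat_lit 228) (nat_lit 423149687429) (nat_lit 304) (nat_lit 564509013539) (nat_lit 35) (nat_lit 5) (nat_lit 38) (nat_lit 5) (nat_lit 39) (nat_lit 5) (nat_lit 381) (nat_lit 368) (nat_lit 151)) (XT.lf (nat_lit 0) (nat_lit 983009269206) (nat_lit 304) (nat_lit 318213427551) (nat_lit 76) (nat_lit 91067308088) (nat_lit 35) (nat_lit 5) (nat_lit 39) (nat_lit 5) (nat_lit 36) (nat_lit 5) (nat_lit 382) (nat_lit 368) (nat_lit 150)))) (XT.nd (nat_lit 156) (nat_lit 456) (nat_lit 0) (XT.nd (nat_lit 78) (nat_lit 0) (nat_lit 0) (XT.lf (nat_lit 0) (nat_lit 414533190173) (nat_lit 152) (nat_lit 825948635686) (nat_lit 228) (nat_lit 218996931431) (nat_lit 33) (nat_lit 5) (nat_lit 35) (nat_lit 5) (nat_lit 36) (nat_lit 5) (nat_lit 383) (nat_lit 368) (nat_lit 149)) (XT.lf (nat_lit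 0) (nat_lit 1223996611411) (nat_lit 152) (nat_lit 303256090410) (nat_lit 228) (nat_lit 4093866936) (nat_lit 33) (nat_lit 5) (nat_lit 35) (nat_lit 5) (nat_lit 36) (nat_lit 5) (nat_lit 384) (nat_lit 368) (nat_lit 148))) (XT.nd (nat_lit 78) (nat_lit 152) (nat_lit 0) (XT.lf (nat_lit 0) (nat_lit 235586874355) (nat_lit 304) (nat_lit 1105044677347) (nat_lit 76) (nat_lit 266374299255) (nat_lit 29) (nat_lit 5) (nat_lit 33) (nat_lit 5) (nat_lit 30) (nat_lit 5) (nat_lit 385) (nat_lit 368) (nat_lit 147)) (XT.nd (nat_lit 78) (nat_lit 152) (nat_lit 0) (XT.lf (nat_lit 0) (nat_lit 510719442501) (nat_lit 304) (nat_lit 302750530642) (nat_lit 76) (nat_lit 873919512443) (nat_lit 29) (nat_lit 5) (nat_lit 33) (nat_lit 5) (nat_lit 30) (nat_lit 5) (nat_lit 386) (nat_lit 368) (nat_lit 146)) (XT.lf (nat_lit 0) (nat_lit 593412015073) (nat_lit 152) (nat_lit 228722170642) (nat_lit 228) (nat_lit 950927899708) (nat_lit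 27) (nat_lit 5) (nat_lit 29) (nat_lit 5) (nat_lit 30) (nat_lit 5) (nat_lit 387) (nat_lit 368) (nat_lit 145)))))) (XT.nd (nat_lit 312) (nat_lit 304) (nat_lit 0) (XT.nd (nat_lit 156) (nat_lit 152) (nat_lit 0) (XT.nd (nat_lit 78) (nat_lit 152) (nat_lit 0) (XT.lf (nat_lit 0) (nat_lit 1176642327948) (nat_lit 228) (nat_lit 296343511188) (nat_lit 76) (nat_lit 391148236550) (nat_lit 27) (nat_lit 5) (nat_lit 30) (nat_lit 5) (nat_lit 28) (nat_lit 5) (nat_lit 388) (nat_lit 368) (nat_lit 144)) (XT.lf (nat_lit 0) (nat_lit 686003400752) (nat_lit 152) (nat_lit 895946951452) (nat_lit 228) (nat_lit 378746334521) (nat_lit 25) (nat_lit 5) (nat_lit 27) (nat_lit 5) (nat_lit 28) (nat_lit 5) (nat_lit 389) (nat_lit 368) (nat_lit 143))) (XT.nd (nat_lit 78) (nat_lit 152) (nat_lit 0) (XT.lf (nat_lit 0) (nat_lit 1763791379044) (nat_lit 152) (nat_lit 263994193003) (nat_lit 228) (nat_lit 36550530313) (nat_lit 25)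 (nat_lit 5) (nat_lit 27) (nat_lit 5) (nat_lit 28) (nat_lit 5) (nat_lit 390) (nat_lit 368) (nat_lit 142)) (XT.lf (nat_lit 0) (nat_lit 345947578137) (nat_lit 152) (nat_lit 1402202954543) (nat_lit 76) (nat_lit 425108549965) (nat_lit 23) (nat_lit 5) (nat_lit 25) (nat_lit 5) (nat_lit 24) (nat_lit 5) (nat_lit 391) (nat_lit 368) (nat_lit 141)))) (XT.nd (nat_lit 156) (nat_lit 152) (nat_lit 0) (XT.nd (nat_lit 78) (nat_lit 152) (nat_lit 0) (XT.lf (nat_lit 0) (nat_lit 772358711370) (nat_lit 152) (nat_lit 352781015602) (nat_lit 76) (nat_lit 1164457196903) (nat_lit 23) (nat_lit 5) (nat_lit 25) (nat_lit 5) (nat_lit 24) (nat_lit 5) (nat_lit 392) (nat_lit 368) (nat_lit 140)) (XT.lf (nat_lit 0) (nat_lit 821699406440) (nat_lit 152) (nat_lit 430945216635) (nat_lit 228) (nat_lit 1161016218306) (nat_lit 21) (nat_lit 5) (nat_lit 23) (nat_lit 5) (nat_lit 24) (nat_lit 5) (nat_lit 393) (nat_lit 368) (nat_lit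 139))) (XT.nd (nat_lit 78) (nat_lit 152) (nat_lit 0) (XT.lf (nat_lit 0) (nat_lit 1788916383248) (nat_lit 228) (nat_lit 444594312725) (nat_lit 76) (nat_lit 312734138274) (nat_lit 21) (nat_lit 5) (nat_lit 24) (nat_lit 5) (nat_lit 22) (nat_lit 4) (nat_lit 394) (nat_lit 368) (nat_lit 138)) (XT.nd (nat_lit 78) (nat_lit 76) (nat_lit 0) (XT.lf (nat_lit 0) (nat_lit 824619605437) (nat_lit 76) (nat_lit 1574495779974) (nat_lit 152) (nat_lit 287838121041) (nat_lit 20) (nat_lit 5) (nat_lit 21) (nat_lit 5) (nat_lit 22) (nat_lit 4) (nat_lit 395) (nat_lit 368) (nat_lit 137)) (XT.lf (nat_lit 0) (nat_lit 220717325677) (nat_lit 152) (nat_lit 622879067619) (nat_lit 76) (nat_lit 1993902977184) (nat_lit 19) (nat_lit 5) (nat_lit 21) (nat_lit 5) (nat_lit 20) (nat_lit 5) (nat_lit 396) (nat_lit 368) (nat_lit 136))))))))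
noncomputable def xc246 : XT := (XT.nd (nat_lit 45708) (nat_lit 0) (nat_lit 76) (XT.nd (nat_lit 45006) (nat_lit 0) (nat_lit 1672) (XT.nd (nat_lit 44694) (nat_lit 0) (nat_lit 2508) (XT.nd (nat_lit 156) (nat_lit 76) (nat_lit 0) (XT.nd (nat_lit 78) (nat_lit 0) (nat_lit 0) (XT.lf (nat_lit 0) (nat_lit 745551330989) (nat_lit 152) (nat_lit 26785667518) (nat_lit 228) (nat_lit 2225719357921) (nat_lit 17) (nat_lit 5) (nat_lit 19) (nat_lit 5) (nat_lit 20) (nat_lit 5) (nat_lit 397) (nat_lit 368) (nat_lit 135)) (XT.lf (nat_lit 0) (nat_lit 1406130881295) (nat_lit 228) (nat_lit 932229630378) (nat_lit 76) (nat_lit 830053818690) (nat_lit 17) (nat_lit 5) (nat_lit 20) (nat_lit 5) (nat_lit 18) (nat_lit 4) (nat_lit 398) (nat_lit 368) (nat_lit 134))) (XT.nd (nat_lit 78) (nat_lit 0) (nat_lit 0) (XT.lf (nat_lit 0) (nat_lit 518931096313) (nat_lit 76) (nat_lit 1584873213349) (nat_lit 152) (nat_lit 1247542549756)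 (nat_lit 16) (nat_lit 5) (nat_lit 17) (nat_lit 5) (nat_lit 18) (nat_lit 4) (nat_lit 399) (nat_lit 368) (nat_lit 133)) (XT.lf (nat_lit 0) (nat_lit 2139201402864) (nat_lit 76) (nat_lit 743579017637) (nat_lit 152) (nat_lit 664094465643) (nat_lit 16) (nat_lit 5) (nat_lit 17) (nat_lit 5) (nat_lit 18) (nat_lit 4) (nat_lit 400) (nat_lit 368) (nat_lit 132)))) (XT.nd (nat_lit 156) (nat_lit 0) (nat_lit 76) (XT.nd (nat_lit 78) (nat_lit 0) (nat_lit 0) (XT.lf (nat_lit 0) (nat_lit 285112913597) (nat_lit 532) (nat_lit 63921837268) (nat_lit 532) (nat_lit 63921837268) (nat_lit 49) (nat_lit 3) (nat_lit 56) (nat_lit 3) (nat_lit 56) (nat_lit 5) (nat_lit 369) (nat_lit 369) (nat_lit 162)) (XT.lf (nat_lit 76) (nat_lit 269000589833) (nat_lit 0) (nat_lit 330503829302) (nat_lit 532) (nat_lit 258927719255) (nat_lit 50) (nat_lit 5) (nat_lit 49) (nat_lit 3) (nat_lit 56) (nat_lit 5) (nat_lit 370) (nat_lit 369) (nat_lit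 161))) (XT.nd (nat_lit 78) (nat_lit 0) (nat_lit 0) (XT.lf (nat_lit 0) (nat_lit 636310088978) (nat_lit 456) (nat_lit 190099333905) (nat_lit 532) (nat_lit 66728411378) (nat_lit 50) (nat_lit 5) (nat_lit 56) (nat_lit 5) (nat_lit 57) (nat_lit 5) (nat_lit 371) (nat_lit 369) (nat_lit 160)) (XT.lf (nat_lit 76) (nat_lit 244842974659) (nat_lit 0) (nat_lit 445690224029) (nat_lit 532) (nat_lit 238928948231) (nat_lit 51) (nat_lit 5) (nat_lit 50) (nat_lit 5) (nat_lit 57) (nat_lit 5) (nat_lit 372) (nat_lit 369) (nat_lit 159))))) (XT.nd (nat_lit 312) (nat_lit 608) (nat_lit 0) (XT.nd (nat_lit 156) (nat_lit 304) (nat_lit 0) (XT.nd (nat_lit 78) (nat_lit 0) (nat_lit 76) (XT.lf (nat_lit 76) (nat_lit 725391780183) (nat_lit 0) (nat_lit 28900021951) (nat_lit 532) (nat_lit 213984790879) (nat_lit 51) (nat_lit 5) (nat_lit 50) (nat_lit 5) (nat_lit 57) (nat_lit 5) (nat_lit 373) (nat_lit 369) (nat_lit 158)) (XT.lf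 (nat_lit 76) (nat_lit 235856093524) (nat_lit 0) (nat_lit 603098011275) (nat_lit 532) (nat_lit 169977849136) (nat_lit 52) (nat_lit 5) (nat_lit 51) (nat_lit 5) (nat_lit 58) (nat_lit 5) (nat_lit 374) (nat_lit 369) (nat_lit 157))) (XT.nd (nat_lit 78) (nat_lit 380) (nat_lit 0) (XT.lf (nat_lit 76) (nat_lit 765919163693) (nat_lit 0) (nat_lit 171842768627) (nat_lit 532) (nat_lit 114488008177) (nat_lit 52) (nat_lit 5) (nat_lit 51) (nat_lit 5) (nat_lit 58) (nat_lit 5) (nat_lit 375) (nat_lit 369) (nat_lit 156)) (XT.lf (nat_lit 0) (nat_lit 244517027829) (nat_lit 456) (nat_lit 812906604599) (nat_lit 532) (nat_lit 40573793859) (nat_lit 46) (nat_lit 5) (nat_lit 52) (nat_lit 5) (nat_lit 53) (nat_lit 5) (nat_lit 376) (nat_lit 369) (nat_lit 155)))) (XT.nd (nat_lit 156) (nat_lit 228) (nat_lit 0) (XT.nd (nat_lit 78) (nat_lit 304) (nat_lit 0) (XT.lf (nat_lit 0) (nat_lit 49785514279) (nat_lit 532) (nat_lit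 318272714337) (nat_lit 76) (nat_lit 778271312130) (nat_lit 45) (nat_lit 5) (nat_lit 52) (nat_lit 5) (nat_lit 46) (nat_lit 5) (nat_lit 377) (nat_lit 369) (nat_lit 154)) (XT.lf (nat_lit 0) (nat_lit 154631011067) (nat_lit 380) (nat_lit 928499872338) (nat_lit 76) (nat_lit 114557073166) (nat_lit 41) (nat_lit 5) (nat_lit 46) (nat_lit 5) (nat_lit 42) (nat_lit 5) (nat_lit 378) (nat_lit 369) (nat_lit 153))) (XT.nd (nat_lit 78) (nat_lit 228) (nat_lit 0) (XT.lf (nat_lit 0) (nat_lit 286352265965) (nat_lit 380) (nat_lit 340498665697) (nat_lit 76) (nat_lit 624825064541) (nat_lit 41) (nat_lit 5) (nat_lit 46) (nat_lit 5) (nat_lit 42) (nat_lit 5) (nat_lit 379) (nat_lit 369) (nat_lit 152)) (XT.nd (nat_lit 78) (nat_lit 0) (nat_lit 0) (XT.lf (nat_lit 0) (nat_lit 310052725325) (nat_lit 228) (nat_lit 126015266548) (nat_lit 304) (nat_lit 873318545495) (nat_lit 38) (nat_lit 5) (nat_lit 41) (nat_lit 5) (nat_lit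 42) (nat_lit 5) (nat_lit 380) (nat_lit 369) (nat_lit 151)) (XT.lf (nat_lit 0) (nat_lit 617290670469) (nat_lit 304) (nat_lit 349176314174) (nat_lit 76) (nat_lit 403684561623) (nat_lit 38) (nat_lit 5) (nat_lit 42) (nat_lit 5) (nat_lit 39) (nat_lit 5) (nat_lit 381) (nat_lit 369) (nat_lit 150))))))) (XT.nd (nat_lit 624) (nat_lit 760) (nat_lit 0) (XT.nd (nat_lit 312) (nat_lit 456) (nat_lit 0) (XT.nd (nat_lit 156) (nat_lit 152) (nat_lit 0) (XT.nd (nat_lit 78) (nat_lit 0) (nat_lit 0) (XT.lf (nat_lit 0) (nat_lit 368136324610) (nat_lit 228) (nat_lit 457001645702) (nat_lit 304) (nat_lit 609669641017) (nat_lit 35) (nat_lit 5) (nat_lit 38) (nat_lit 5) (nat_lit 39) (nat_lit 5) (nat_lit 382) (nat_lit 369) (nat_lit 149)) (XT.lf (nat_lit 0) (nat_lit 1061650091220) (nat_lit 304) (nat_lit 343670399974) (nat_lit 76) (nat_lit 98352707443) (nat_lit 35) (nat_lit 5) (nat_lit 39) (nat_lit 5) (nat_lit 36) (nat_lit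 5) (nat_lit 383) (nat_lit 369) (nat_lit 148))) (XT.nd (nat_lit 78) (nat_lit 0) (nat_lit 0) (XT.lf (nat_lit 0) (nat_lit 447695944592) (nat_lit 152) (nat_lit 892024504239) (nat_lit 228) (nat_lit 236516602745) (nat_lit 33) (nat_lit 5) (nat_lit 35) (nat_lit 5) (nat_lit 36) (nat_lit 5) (nat_lit 384) (nat_lit 369) (nat_lit 147)) (XT.lf (nat_lit 0) (nat_lit 1321916432180) (nat_lit 152) (nat_lit 327516556992) (nat_lit 228) (nat_lit 4421299254) (nat_lit 33) (nat_lit 5) (nat_lit 35) (nat_lit 5) (nat_lit 36) (nat_lit 5) (nat_lit 385) (nat_lit 369) (nat_lit 146)))) (XT.nd (nat_lit 156) (nat_lit 152) (nat_lit 0) (XT.nd (nat_lit 78) (nat_lit 0) (nat_lit 0) (XT.lf (nat_lit 0) (nat_lit 254433894875) (nat_lit 304) (nat_lit 1193448152972) (nat_lit 76) (nat_lit 287684265424) (nat_lit 29) (nat_lit 5) (nat_lit 33) (nat_lit 5) (nat_lit 30) (nat_lit 5) (nat_lit 386) (nat_lit 369) (nat_lit 145)) (XT.lf (nat_lit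 0) (nat_lit 551577063245) (nat_lit 304) (nat_lit 326970481832) (nat_lit 76) (nat_lit 943833094021) (nat_lit 29) (nat_lit 5) (nat_lit 33) (nat_lit 5) (nat_lit 30) (nat_lit 5) (nat_lit 387) (nat_lit 369) (nat_lit 144))) (XT.nd (nat_lit 78) (nat_lit 0) (nat_lit 0) (XT.lf (nat_lit 0) (nat_lit 640885065230) (nat_lit 152) (nat_lit 247019917985) (nat_lit 228) (nat_lit 1027002063930) (nat_lit 27) (nat_lit 5) (nat_lit 29) (nat_lit 5) (nat_lit 30) (nat_lit 5) (nat_lit 388) (nat_lit 369) (nat_lit 143)) (XT.lf (nat_lit 0) (nat_lit 1270773772773) (nat_lit 228) (nat_lit 320050905574) (nat_lit 76) (nat_lit 422440118615) (nat_lit 27) (nat_lit 5) (nat_lit 30) (nat_lit 5) (nat_lit 28) (nat_lit 5) (nat_lit 389) (nat_lit 369) (nat_lit 142))))) (XT.nd (nat_lit 312) (nat_lit 456) (nat_lit 0) (XT.nd (nat_lit 156) (nat_lit 152) (nat_lit 0) (XT.nd (nat_lit 78) (nat_lit 0) (nat_lit 0) (XT.lf (nat_lit 0) (nat_lit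 740883757130) (nat_lit 152) (nat_lit 967622679527) (nat_lit 228) (nat_lit 409045980418) (nat_lit 25) (nat_lit 5) (nat_lit 27) (nat_lit 5) (nat_lit 28) (nat_lit 5) (nat_lit 390) (nat_lit 369) (nat_lit 141)) (XT.lf (nat_lit 0) (nat_lit 1904894767440) (nat_lit 152) (nat_lit 285113702478) (nat_lit 228) (nat_lit 39474516382) (nat_lit 25) (nat_lit 5) (nat_lit 27) (nat_lit 5) (nat_lit 28) (nat_lit 5) (nat_lit 391) (nat_lit 369) (nat_lit 140))) (XT.nd (nat_lit 78) (nat_lit 0) (nat_lit 0) (XT.lf (nat_lit 0) (nat_lit 373623436517) (nat_lit 152) (nat_lit 1514379108466) (nat_lit 76) (nat_lit 459117260036) (nat_lit 23) (nat_lit 5) (nat_lit 25) (nat_lit 5) (nat_lit 24) (nat_lit 5) (nat_lit 392) (nat_lit 369) (nat_lit 139)) (XT.lf (nat_lit 0) (nat_lit 834147456547) (nat_lit 152) (nat_lit 381003420516) (nat_lit 76) (nat_lit 1257613796797) (nat_lit 23) (nat_lit 5) (nat_lit 25) (nat_lit 5) (nat_lit 24)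 (nat_lit 5) (nat_lit 393) (nat_lit 369) (nat_lit 138)))) (XT.nd (nat_lit 156) (nat_lit 304) (nat_lit 0) (XT.nd (nat_lit 78) (nat_lit 0) (nat_lit 0) (XT.lf (nat_lit 0) (nat_lit 887435433356) (nat_lit 152) (nat_lit 465420806046) (nat_lit 228) (nat_lit 1253897465512) (nat_lit 21) (nat_lit 5) (nat_lit 23) (nat_lit 5) (nat_lit 24) (nat_lit 5) (nat_lit 394) (nat_lit 369) (nat_lit 137)) (XT.lf (nat_lit 0) (nat_lit 1932029737569) (nat_lit 228) (nat_lit 480161785978) (nat_lit 76) (nat_lit 337752893894) (nat_lit 21) (nat_lit 5) (nat_lit 24) (nat_lit 5) (nat_lit 22) (nat_lit 4) (nat_lit 395) (nat_lit 369) (nat_lit 136))) (XT.nd (nat_lit 78) (nat_lit 228) (nat_lit 0) (XT.lf (nat_lit 0) (nat_lit 890589243820) (nat_lit 76) (nat_lit 1700455414532) (nat_lit 152) (nat_lit 310865125198) (nat_lit 20) (nat_lit 5) (nat_lit 21) (nat_lit 5) (nat_lit 22) (nat_lit 4) (nat_lit 396) (nat_lit 369) (nat_lit 135))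 (XT.nd (nat_lit 78) (nat_lit 152) (nat_lit 0) (XT.lf (nat_lit 0) (nat_lit 238374751777) (nat_lit 152) (nat_lit 672709326111) (nat_lit 76) (nat_lit 2153415238985) (nat_lit 19) (nat_lit 5) (nat_lit 21) (nat_lit 5) (nat_lit 20) (nat_lit 5) (nat_lit 397) (nat_lit 369) (nat_lit 134)) (XT.lf (nat_lit 0) (nat_lit 805195502692) (nat_lit 152) (nat_lit 28928494343) (nat_lit 228) (nat_lit 2403776864776) (nat_lit 17) (nat_lit 5) (nat_lit 19) (nat_lit 5) (nat_lit 20) (nat_lit 5) (nat_lit 398) (nat_lit 369) (nat_lit 133))))))))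
noncomputable def xc247 : XT := (XT.nd (nat_lit 45786) (nat_lit 0) (nat_lit 76) (XT.nd (nat_lit 45084) (nat_lit 0) (nat_lit 1444) (XT.nd (nat_lit 44772) (nat_lit 0) (nat_lit 2584) (XT.nd (nat_lit 44616) (nat_lit 0) (nat_lit 2508) (XT.nd (nat_lit 78) (nat_lit 76) (nat_lit 0) (XT.lf (nat_lit 0) (nat_lit 1518621388175) (nat_lit 228) (nat_lit 1006807938108) (nat_lit 76) (nat_lit 896458147561) (nat_lit 17) (nat_lit 5) (nat_lit 20) (nat_lit 5) (nat_lit 18) (nat_lit 4) (nat_lit 399) (nat_lit 369) (nat_lit 132)) (XT.lf (nat_lit 0) (nat_lit 560445645131) (nat_lit 76) (nat_lit 1711663044456) (nat_lit 152) (nat_lit 1347345915738) (nat_lit 16) (nat_lit 5) (nat_lit 17) (nat_lit 5) (nat_lit 18) (nat_lit 4) (nat_lit 400) (nat_lit 369) (nat_lit 131))) (XT.nd (nat_lit 78) (nat_lit 0) (nat_lit 0) (XT.lf (nat_lit 0) (nat_lit 307922032762) (nat_lit 532) (nat_lit 69035537660) (nat_lit 532) (nat_lit 69035537660)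 (nat_lit 49) (nat_lit 3) (nat_lit 56) (nat_lit 3) (nat_lit 56) (nat_lit 5) (nat_lit 370) (nat_lit 370) (nat_lit 160)) (XT.lf (nat_lit 76) (nat_lit 290520727839) (nat_lit 0) (nat_lit 356944206414) (nat_lit 532) (nat_lit 279641761884) (nat_lit 50) (nat_lit 5) (nat_lit 49) (nat_lit 3) (nat_lit 56) (nat_lit 5) (nat_lit 371) (nat_lit 370) (nat_lit 159)))) (XT.nd (nat_lit 156) (nat_lit 0) (nat_lit 0) (XT.nd (nat_lit 78) (nat_lit 0) (nat_lit 0) (XT.lf (nat_lit 0) (nat_lit 687215044139) (nat_lit 456) (nat_lit 205307182612) (nat_lit 532) (nat_lit 72066622040) (nat_lit 50) (nat_lit 5) (nat_lit 56) (nat_lit 5) (nat_lit 57) (nat_lit 5) (nat_lit 372) (nat_lit 370) (nat_lit 158)) (XT.lf (nat_lit 76) (nat_lit 264430508156) (nat_lit 0) (nat_lit 481345485801) (nat_lit 532) (nat_lit 258043113226) (nat_lit 51) (nat_lit 5) (nat_lit 50) (nat_lit 5) (nat_lit 57) (nat_lit 5) (nat_lit 373) (nat_lit 370) (nat_lit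 157))) (XT.nd (nat_lit 78) (nat_lit 0) (nat_lit 76) (XT.lf (nat_lit 76) (nat_lit 783423211046) (nat_lit 0) (nat_lit 31212064309) (nat_lit 532) (nat_lit 231103434461) (nat_lit 51) (nat_lit 5) (nat_lit 50) (nat_lit 5) (nat_lit 57) (nat_lit 5) (nat_lit 374) (nat_lit 370) (nat_lit 156)) (XT.lf (nat_lit 76) (nat_lit 254724678536) (nat_lit 0) (nat_lit 651345875579) (nat_lit 532) (nat_lit 183575946170) (nat_lit 52) (nat_lit 5) (nat_lit 51) (nat_lit 5) (nat_lit 58) (nat_lit 5) (nat_lit 375) (nat_lit 370) (nat_lit 155))))) (XT.nd (nat_lit 312) (nat_lit 456) (nat_lit 0) (XT.nd (nat_lit 156) (nat_lit 380) (nat_lit 0) (XT.nd (nat_lit 78) (nat_lit 380) (nat_lit 0) (XT.lf (nat_lit 76) (nat_lit 827192787095) (nat_lit 0) (nat_lit 185590211785) (nat_lit 532) (nat_lit 123646927630) (nat_lit 52) (nat_lit 5) (nat_lit 51) (nat_lit 5) (nat_lit 58) (nat_lit 5) (nat_lit 376) (nat_lit 370) (nat_lit 154)) (XT.lf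 (nat_lit 0) (nat_lit 264078487577) (nat_lit 456) (nat_lit 877939140987) (nat_lit 532) (nat_lit 43819583132) (nat_lit 46) (nat_lit 5) (nat_lit 52) (nat_lit 5) (nat_lit 53) (nat_lit 5) (nat_lit 377) (nat_lit 370) (nat_lit 153))) (XT.nd (nat_lit 78) (nat_lit 304) (nat_lit 0) (XT.lf (nat_lit 0) (nat_lit 53768455904) (nat_lit 532) (nat_lit 343734435680) (nat_lit 76) (nat_lit 840533004168) (nat_lit 45) (nat_lit 5) (nat_lit 52) (nat_lit 5) (nat_lit 46) (nat_lit 5) (nat_lit 378) (nat_lit 370) (nat_lit 152)) (XT.lf (nat_lit 0) (nat_lit 167001587192) (nat_lit 380) (nat_lit 1002779760879) (nat_lit 76) (nat_lit 123721637208) (nat_lit 41) (nat_lit 5) (nat_lit 46) (nat_lit 5) (nat_lit 42) (nat_lit 5) (nat_lit 379) (nat_lit 370) (nat_lit 151)))) (XT.nd (nat_lit 156) (nat_lit 228) (nat_lit 0) (XT.nd (nat_lit 78) (nat_lit 228) (nat_lit 0) (XT.lf (nat_lit 0) (nat_lit 309260535427) (nat_lit 380) (nat_lit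 367738465207) (nat_lit 76) (nat_lit 674811068028) (nat_lit 41) (nat_lit 5) (nat_lit 46) (nat_lit 5) (nat_lit 42) (nat_lit 5) (nat_lit 380) (nat_lit 370) (nat_lit 150)) (XT.lf (nat_lit 0) (nat_lit 334857034724) (nat_lit 228) (nat_lit 136096480349) (nat_lit 304) (nat_lit 943183938406) (nat_lit 38) (nat_lit 5) (nat_lit 41) (nat_lit 5) (nat_lit 42) (nat_lit 5) (nat_lit 381) (nat_lit 370) (nat_lit 149))) (XT.nd (nat_lit 78) (nat_lit 228) (nat_lit 0) (XT.lf (nat_lit 0) (nat_lit 666674001913) (nat_lit 304) (nat_lit 377110328502) (nat_lit 76) (nat_lit 435979333171) (nat_lit 38) (nat_lit 5) (nat_lit 42) (nat_lit 5) (nat_lit 39) (nat_lit 5) (nat_lit 382) (nat_lit 370) (nat_lit 148)) (XT.nd (nat_lit 78) (nat_lit 0) (nat_lit 0) (XT.lf (nat_lit 0) (nat_lit 397587319086) (nat_lit 228) (nat_lit 493561763023) (nat_lit 304) (nat_lit 658443132047) (nat_lit 35) (nat_lit 5) (nat_lit 38) (nat_lit 5) (nat_lit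 39) (nat_lit 5) (nat_lit 383) (nat_lit 370) (nat_lit 147)) (XT.lf (nat_lit 0) (nat_lit 1146582167514) (nat_lit 304) (nat_lit 371163944711) (nat_lit 76) (nat_lit 106220936648) (nat_lit 35) (nat_lit 5) (nat_lit 39) (nat_lit 5) (nat_lit 36) (nat_lit 5) (nat_lit 384) (nat_lit 370) (nat_lit 146))))))) (XT.nd (nat_lit 702) (nat_lit 456) (nat_lit 0) (XT.nd (nat_lit 312) (nat_lit 456) (nat_lit 0) (XT.nd (nat_lit 156) (nat_lit 304) (nat_lit 0) (XT.nd (nat_lit 78) (nat_lit 0) (nat_lit 0) (XT.lf (nat_lit 0) (nat_lit 483511705211) (nat_lit 152) (nat_lit 963386445457) (nat_lit 228) (nat_lit 255437859634) (nat_lit 33) (nat_lit 5) (nat_lit 35) (nat_lit 5) (nat_lit 36) (nat_lit 5) (nat_lit 385) (nat_lit 370) (nat_lit 145)) (XT.lf (nat_lit 0) (nat_lit 1427669825506) (nat_lit 152) (nat_lit 353717863847) (nat_lit 228) (nat_lit 4774937147) (nat_lit 33) (nat_lit 5) (nat_lit 35) (nat_lit 5) (nat_lit 36) (nat_lit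 5) (nat_lit 386) (nat_lit 370) (nat_lit 144))) (XT.nd (nat_lit 78) (nat_lit 0) (nat_lit 0) (XT.lf (nat_lit 0) (nat_lit 274788666969) (nat_lit 304) (nat_lit 1288923920708) (nat_lit 76) (nat_lit 310699025716) (nat_lit 29) (nat_lit 5) (nat_lit 33) (nat_lit 5) (nat_lit 30) (nat_lit 5) (nat_lit 387) (nat_lit 370) (nat_lit 143)) (XT.lf (nat_lit 0) (nat_lit 595703284327) (nat_lit 304) (nat_lit 353128042136) (nat_lit 76) (nat_lit 1019339759189) (nat_lit 29) (nat_lit 5) (nat_lit 33) (nat_lit 5) (nat_lit 30) (nat_lit 5) (nat_lit 388) (nat_lit 370) (nat_lit 142)))) (XT.nd (nat_lit 156) (nat_lit 304) (nat_lit 0) (XT.nd (nat_lit 78) (nat_lit 0) (nat_lit 0) (XT.lf (nat_lit 0) (nat_lit 692155946710) (nat_lit 152) (nat_lit 266781488869) (nat_lit 228) (nat_lit 1109162170956) (nat_lit 27) (nat_lit 5) (nat_lit 29) (nat_lit 5) (nat_lit 30) (nat_lit 5) (nat_lit 389) (nat_lit 370) (nat_lit 141)) (XT.lf (nat_lit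 0) (nat_lit 1372435724826) (nat_lit 228) (nat_lit 345654903853) (nat_lit 76) (nat_lit 456235347943) (nat_lit 27) (nat_lit 5) (nat_lit 30) (nat_lit 5) (nat_lit 28) (nat_lit 5) (nat_lit 390) (nat_lit 370) (nat_lit 140))) (XT.nd (nat_lit 78) (nat_lit 152) (nat_lit 0) (XT.lf (nat_lit 0) (nat_lit 800154529991) (nat_lit 152) (nat_lit 1045032469848) (nat_lit 228) (nat_lit 441769606671) (nat_lit 25) (nat_lit 5) (nat_lit 27) (nat_lit 5) (nat_lit 28) (nat_lit 5) (nat_lit 391) (nat_lit 370) (nat_lit 139)) (XT.nd (nat_lit 78) (nat_lit 152) (nat_lit 0) (XT.lf (nat_lit 0) (nat_lit 2057286415771) (nat_lit 152) (nat_lit 307922776416) (nat_lit 228) (nat_lit 42632429377) (nat_lit 25) (nat_lit 5) (nat_lit 27) (nat_lit 5) (nat_lit 28) (nat_lit 5) (nat_lit 392) (nat_lit 370) (nat_lit 138)) (XT.lf (nat_lit 0) (nat_lit 403513356131) (nat_lit 152) (nat_lit 1635529366463) (nat_lit 76) (nat_lit 495846663192) (nat_lit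 23) (nat_lit 5) (nat_lit 25) (nat_lit 5) (nat_lit 24) (nat_lit 5) (nat_lit 393) (nat_lit 370) (nat_lit 137)))))) (XT.nd (nat_lit 312) (nat_lit 228) (nat_lit 0) (XT.nd (nat_lit 156) (nat_lit 76) (nat_lit 0) (XT.nd (nat_lit 78) (nat_lit 152) (nat_lit 0) (XT.lf (nat_lit 0) (nat_lit 900879294452) (nat_lit 152) (nat_lit 411483628714) (nat_lit 76) (nat_lit 1358222921239) (nat_lit 23) (nat_lit 5) (nat_lit 25) (nat_lit 5) (nat_lit 24) (nat_lit 5) (nat_lit 394) (nat_lit 370) (nat_lit 136)) (XT.lf (nat_lit 0) (nat_lit 958430331812) (nat_lit 152) (nat_lit 502654446593) (nat_lit 228) (nat_lit 1354209219665) (nat_lit 21) (nat_lit 5) (nat_lit 23) (nat_lit 5) (nat_lit 24) (nat_lit 5) (nat_lit 395) (nat_lit 370) (nat_lit 135))) (XT.nd (nat_lit 78) (nat_lit 76) (nat_lit 0) (XT.lf (nat_lit 0) (nat_lit 2086592154006) (nat_lit 228) (nat_lit 518574667329) (nat_lit 76) (nat_lit 364773146461) (nat_lit 21) (nat_lit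 5) (nat_lit 24) (nat_lit 5) (nat_lit 22) (nat_lit 4) (nat_lit 396) (nat_lit 370) (nat_lit 134)) (XT.lf (nat_lit 0) (nat_lit 961836443295) (nat_lit 76) (nat_lit 1836491823827) (nat_lit 152) (nat_lit 335734296182) (nat_lit 20) (nat_lit 5) (nat_lit 21) (nat_lit 5) (nat_lit 22) (nat_lit 4) (nat_lit 397) (nat_lit 370) (nat_lit 133)))) (XT.nd (nat_lit 44772) (nat_lit 0) (nat_lit 2432) (XT.nd (nat_lit 78) (nat_lit 152) (nat_lit 0) (XT.lf (nat_lit 0) (nat_lit 257444766252) (nat_lit 152) (nat_lit 726526014828) (nat_lit 76) (nat_lit 2325688478360) (nat_lit 19) (nat_lit 5) (nat_lit 21) (nat_lit 5) (nat_lit 20) (nat_lit 5) (nat_lit 398) (nat_lit 370) (nat_lit 132)) (XT.lf (nat_lit 0) (nat_lit 869611198826) (nat_lit 152) (nat_lit 31242751106) (nat_lit 228) (nat_lit 2596078978139) (nat_lit 17) (nat_lit 5) (nat_lit 19) (nat_lit 5) (nat_lit 20) (nat_lit 5) (nat_lit 399) (nat_lit 370) (nat_lit 131)))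 (XT.nd (nat_lit 78) (nat_lit 0) (nat_lit 0) (XT.lf (nat_lit 0) (nat_lit 332555869181) (nat_lit 532) (nat_lit 74558340731) (nat_lit 532) (nat_lit 74558340731) (nat_lit 49) (nat_lit 3) (nat_lit 56) (nat_lit 3) (nat_lit 56) (nat_lit 5) (nat_lit 371) (nat_lit 371) (nat_lit 158)) (XT.nd (nat_lit 78) (nat_lit 0) (nat_lit 76) (XT.lf (nat_lit 76) (nat_lit 313762463930) (nat_lit 0) (nat_lit 385499803599) (nat_lit 532) (nat_lit 302012952877) (nat_lit 50) (nat_lit 5) (nat_lit 49) (nat_lit 3) (nat_lit 56) (nat_lit 5) (nat_lit 372) (nat_lit 371) (nat_lit 157)) (XT.lf (nat_lit 0) (nat_lit 742192374592) (nat_lit 456) (nat_lit 221731673198) (nat_lit 532) (nat_lit 77831898436) (nat_lit 50) (nat_lit 5) (nat_lit 56) (nat_lit 5) (nat_lit 57) (nat_lit 5) (nat_lit 373) (nat_lit 371) (nat_lit 156))))))))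
noncomputable def xc248 : XT := (XT.nd (nat_lit 1326) (nat_lit 608) (nat_lit 0) (XT.nd (nat_lit 624) (nat_lit 1064) (nat_lit 0) (XT.nd (nat_lit 312) (nat_lit 684) (nat_lit 0) (XT.nd (nat_lit 156) (nat_lit 0) (nat_lit 76) (XT.nd (nat_lit 78) (nat_lit 0) (nat_lit 0) (XT.lf (nat_lit 76) (nat_lit 285585030705) (nat_lit 0) (nat_lit 519853162259) (nat_lit 532) (nat_lit 278686432943) (nat_lit 51) (nat_lit 5) (nat_lit 50) (nat_lit 5) (nat_lit 57) (nat_lit 5) (nat_lit 374) (nat_lit 371) (nat_lit 155)) (XT.lf (nat_lit 76) (nat_lit 846097143759) (nat_lit 0) (nat_lit 33709064262) (nat_lit 532) (nat_lit 249591589457) (nat_lit 51) (nat_lit 5) (nat_lit 50) (nat_lit 5) (nat_lit 57) (nat_lit 5) (nat_lit 375) (nat_lit 371) (nat_lit 154))) (XT.nd (nat_lit 78) (nat_lit 0) (nat_lit 0) (XT.lf (nat_lit 76) (nat_lit 275102736436) (nat_lit 0) (nat_lit 703453565688) (nat_lit 532) (nat_lit 198261909639) (nat_lit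 52) (nat_lit 5) (nat_lit 51) (nat_lit 5) (nat_lit 58) (nat_lit 5) (nat_lit 376) (nat_lit 371) (nat_lit 153)) (XT.lf (nat_lit 76) (nat_lit 893368287485) (nat_lit 0) (nat_lit 200437447304) (nat_lit 532) (nat_lit 133538577929) (nat_lit 52) (nat_lit 5) (nat_lit 51) (nat_lit 5) (nat_lit 58) (nat_lit 5) (nat_lit 377) (nat_lit 371) (nat_lit 152)))) (XT.nd (nat_lit 156) (nat_lit 304) (nat_lit 0) (XT.nd (nat_lit 78) (nat_lit 76) (nat_lit 0) (XT.lf (nat_lit 0) (nat_lit 285204850193) (nat_lit 456) (nat_lit 948174279142) (nat_lit 532) (nat_lit 47325051844) (nat_lit 46) (nat_lit 5) (nat_lit 52) (nat_lit 5) (nat_lit 53) (nat_lit 5) (nat_lit 378) (nat_lit 371) (nat_lit 151)) (XT.lf (nat_lit 0) (nat_lit 58070018524) (nat_lit 532) (nat_lit 371233108397) (nat_lit 76) (nat_lit 907775633415) (nat_lit 45) (nat_lit 5) (nat_lit 52) (nat_lit 5) (nat_lit 46) (nat_lit 5) (nat_lit 379) (nat_lit 371) (nat_lit 150)))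 (XT.nd (nat_lit 78) (nat_lit 0) (nat_lit 0) (XT.lf (nat_lit 0) (nat_lit 180361795820) (nat_lit 380) (nat_lit 1083002054947) (nat_lit 76) (nat_lit 133619366632) (nat_lit 41) (nat_lit 5) (nat_lit 46) (nat_lit 5) (nat_lit 42) (nat_lit 5) (nat_lit 380) (nat_lit 371) (nat_lit 149)) (XT.lf (nat_lit 0) (nat_lit 334001453865) (nat_lit 380) (nat_lit 397157462051) (nat_lit 76) (nat_lit 728795952032) (nat_lit 41) (nat_lit 5) (nat_lit 46) (nat_lit 5) (nat_lit 42) (nat_lit 5) (nat_lit 381) (nat_lit 371) (nat_lit 148))))) (XT.nd (nat_lit 312) (nat_lit 608) (nat_lit 0) (XT.nd (nat_lit 156) (nat_lit 228) (nat_lit 0) (XT.nd (nat_lit 78) (nat_lit 0) (nat_lit 0) (XT.lf (nat_lit 0) (nat_lit 361645675840) (nat_lit 228) (nat_lit 146984192327) (nat_lit 304) (nat_lit 1018638575694) (nat_lit 38) (nat_lit 5) (nat_lit 41) (nat_lit 5) (nat_lit 42) (nat_lit 5) (nat_lit 382) (nat_lit 371) (nat_lit 147)) (XT.lf (nat_lit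 0) (nat_lit 720007988773) (nat_lit 304) (nat_lit 407279076930) (nat_lit 76) (nat_lit 470857685498) (nat_lit 38) (nat_lit 5) (nat_lit 42) (nat_lit 5) (nat_lit 39) (nat_lit 5) (nat_lit 383) (nat_lit 371) (nat_lit 146))) (XT.nd (nat_lit 78) (nat_lit 0) (nat_lit 0) (XT.lf (nat_lit 0) (nat_lit 429394380493) (nat_lit 228) (nat_lit 533046691774) (nat_lit 304) (nat_lit 711118513808) (nat_lit 35) (nat_lit 5) (nat_lit 38) (nat_lit 5) (nat_lit 39) (nat_lit 5) (nat_lit 384) (nat_lit 371) (nat_lit 145)) (XT.lf (nat_lit 0) (nat_lit 1238308800069) (nat_lit 304) (nat_lit 400856985475) (nat_lit 76) (nat_lit 114718622391) (nat_lit 35) (nat_lit 5) (nat_lit 39) (nat_lit 5) (nat_lit 36) (nat_lit 5) (nat_lit 385) (nat_lit 371) (nat_lit 144)))) (XT.nd (nat_lit 156) (nat_lit 456) (nat_lit 0) (XT.nd (nat_lit 78) (nat_lit 0) (nat_lit 0) (XT.lf (nat_lit 0) (nat_lit 522192714546) (nat_lit 152) (nat_lit 1040457344701)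 (nat_lit 228) (nat_lit 275872827250) (nat_lit 33) (nat_lit 5) (nat_lit 35) (nat_lit 5) (nat_lit 36) (nat_lit 5) (nat_lit 386) (nat_lit 371) (nat_lit 143)) (XT.lf (nat_lit 0) (nat_lit 1541883479064) (nat_lit 152) (nat_lit 382015277777) (nat_lit 228) (nat_lit 5156875494) (nat_lit 33) (nat_lit 5) (nat_lit 35) (nat_lit 5) (nat_lit 36) (nat_lit 5) (nat_lit 387) (nat_lit 371) (nat_lit 142))) (XT.nd (nat_lit 78) (nat_lit 152) (nat_lit 0) (XT.lf (nat_lit 0) (nat_lit 296771812199) (nat_lit 304) (nat_lit 1392037761919) (nat_lit 76) (nat_lit 335554964113) (nat_lit 29) (nat_lit 5) (nat_lit 33) (nat_lit 5) (nat_lit 30) (nat_lit 5) (nat_lit 388) (nat_lit 371) (nat_lit 141)) (XT.nd (nat_lit 78) (nat_lit 152) (nat_lit 0) (XT.lf (nat_lit 0) (nat_lit 643359595103) (nat_lit 304) (nat_lit 381378218427) (nat_lit 76) (nat_lit 1100886955053) (nat_lit 29) (nat_lit 5) (nat_lit 33) (nat_lit 5) (nat_lit 30) (nat_lit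 5) (nat_lit 389) (nat_lit 371) (nat_lit 140)) (XT.lf (nat_lit 0) (nat_lit 747528487829) (nat_lit 152) (nat_lit 288123988641) (nat_lit 228) (nat_lit 1197895094831) (nat_lit 27) (nat_lit 5) (nat_lit 29) (nat_lit 5) (nat_lit 30) (nat_lit 5) (nat_lit 390) (nat_lit 371) (nat_lit 139))))))) (XT.nd (nat_lit 624) (nat_lit 76) (nat_lit 0) (XT.nd (nat_lit 312) (nat_lit 228) (nat_lit 0) (XT.nd (nat_lit 156) (nat_lit 152) (nat_lit 0) (XT.nd (nat_lit 78) (nat_lit 152) (nat_lit 0) (XT.lf (nat_lit 0) (nat_lit 1482230625876) (nat_lit 228) (nat_lit 373307232575) (nat_lit 76) (nat_lit 492734192788) (nat_lit 27) (nat_lit 5) (nat_lit 30) (nat_lit 5) (nat_lit 28) (nat_lit 5) (nat_lit 391) (nat_lit 371) (nat_lit 138)) (XT.lf (nat_lit 0) (nat_lit 864166954367) (nat_lit 152) (nat_lit 1128635046824) (nat_lit 228) (nat_lit 477111130467) (nat_lit 25) (nat_lit 5) (nat_lit 27) (nat_lit 5) (nat_lit 28) (nat_lit 5)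 (nat_lit 392) (nat_lit 371) (nat_lit 137))) (XT.nd (nat_lit 78) (nat_lit 152) (nat_lit 0) (XT.lf (nat_lit 0) (nat_lit 2221869386418) (nat_lit 152) (nat_lit 332556579444) (nat_lit 228) (nat_lit 46042982304) (nat_lit 25) (nat_lit 5) (nat_lit 27) (nat_lit 5) (nat_lit 28) (nat_lit 5) (nat_lit 393) (nat_lit 371) (nat_lit 136)) (XT.lf (nat_lit 0) (nat_lit 435794462938) (nat_lit 152) (nat_lit 1766371655184) (nat_lit 76) (nat_lit 535514415412) (nat_lit 23) (nat_lit 5) (nat_lit 25) (nat_lit 5) (nat_lit 24) (nat_lit 5) (nat_lit 394) (nat_lit 371) (nat_lit 135)))) (XT.nd (nat_lit 156) (nat_lit 76) (nat_lit 0) (XT.nd (nat_lit 78) (nat_lit 152) (nat_lit 0) (XT.lf (nat_lit 0) (nat_lit 972949673486) (nat_lit 152) (nat_lit 444402262903) (nat_lit 76) (nat_lit 1466880772683) (nat_lit 23) (nat_lit 5) (nat_lit 25) (nat_lit 5) (nat_lit 24) (nat_lit 5) (nat_lit 395) (nat_lit 371) (nat_lit 134)) (XT.lf (nat_lit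 0) (nat_lit 1035104813044) (nat_lit 152) (nat_lit 542866781799) (nat_lit 228) (nat_lit 1462545920297) (nat_lit 21) (nat_lit 5) (nat_lit 23) (nat_lit 5) (nat_lit 24) (nat_lit 5) (nat_lit 396) (nat_lit 371) (nat_lit 133))) (XT.nd (nat_lit 78) (nat_lit 76) (nat_lit 0) (XT.lf (nat_lit 0) (nat_lit 2253519558418) (nat_lit 228) (nat_lit 560060587966) (nat_lit 76) (nat_lit 393955016229) (nat_lit 21) (nat_lit 5) (nat_lit 24) (nat_lit 5) (nat_lit 22) (nat_lit 4) (nat_lit 397) (nat_lit 371) (nat_lit 132)) (XT.lf (nat_lit 0) (nat_lit 1038783410173) (nat_lit 76) (nat_lit 1983411149270) (nat_lit 152) (nat_lit 362593006413) (nat_lit 20) (nat_lit 5) (nat_lit 21) (nat_lit 5) (nat_lit 22) (nat_lit 4) (nat_lit 398) (nat_lit 371) (nat_lit 131))))) (XT.nd (nat_lit 45006) (nat_lit 0) (nat_lit 2052) (XT.nd (nat_lit 44850) (nat_lit 0) (nat_lit 2280) (XT.nd (nat_lit 44772) (nat_lit 0) (nat_lit 2280) (XT.lf (nat_lit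 0) (nat_lit 278040376987) (nat_lit 152) (nat_lit 784648046827) (nat_lit 76) (nat_lit 2511743573994) (nat_lit 19) (nat_lit 5) (nat_lit 21) (nat_lit 5) (nat_lit 20) (nat_lit 5) (nat_lit 399) (nat_lit 371) (nat_lit 130)) (XT.lf (nat_lit 0) (nat_lit 359160401985) (nat_lit 532) (nat_lit 80522973745) (nat_lit 532) (nat_lit 80522973745) (nat_lit 49) (nat_lit 3) (nat_lit 56) (nat_lit 3) (nat_lit 56) (nat_lit 5) (nat_lit 372) (nat_lit 372) (nat_lit 156))) (XT.nd (nat_lit 78) (nat_lit 0) (nat_lit 76) (XT.lf (nat_lit 76) (nat_lit 338863527799) (nat_lit 0) (nat_lit 416339839904) (nat_lit 532) (nat_lit 326173860542) (nat_lit 50) (nat_lit 5) (nat_lit 49) (nat_lit 3) (nat_lit 56) (nat_lit 5) (nat_lit 373) (nat_lit 372) (nat_lit 155)) (XT.lf (nat_lit 0) (nat_lit 801567873374) (nat_lit 456) (nat_lit 239470135017) (nat_lit 532) (nat_lit 84058404557) (nat_lit 50) (nat_lit 5) (nat_lit 56) (nat_lit 5) (nat_lit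 57) (nat_lit 5) (nat_lit 374) (nat_lit 372) (nat_lit 154)))) (XT.nd (nat_lit 156) (nat_lit 304) (nat_lit 0) (XT.nd (nat_lit 78) (nat_lit 0) (nat_lit 0) (XT.lf (nat_lit 76) (nat_lit 308431903374) (nat_lit 0) (nat_lit 561441447470) (nat_lit 532) (nat_lit 300981236690) (nat_lit 51) (nat_lit 5) (nat_lit 50) (nat_lit 5) (nat_lit 57) (nat_lit 5) (nat_lit 375) (nat_lit 372) (nat_lit 153)) (XT.lf (nat_lit 76) (nat_lit 913784980272) (nat_lit 0) (nat_lit 36405819246) (nat_lit 532) (nat_lit 269558813939) (nat_lit 51) (nat_lit 5) (nat_lit 50) (nat_lit 5) (nat_lit 57) (nat_lit 5) (nat_lit 376) (nat_lit 372) (nat_lit 152))) (XT.nd (nat_lit 78) (nat_lit 380) (nat_lit 0) (XT.lf (nat_lit 76) (nat_lit 297111027038) (nat_lit 0) (nat_lit 759729868143) (nat_lit 532) (nat_lit 214122766197) (nat_lit 52) (nat_lit 5) (nat_lit 51) (nat_lit 5) (nat_lit 58) (nat_lit 5) (nat_lit 377) (nat_lit 372) (nat_lit 151))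 (XT.nd (nat_lit 78) (nat_lit 380) (nat_lit 0) (XT.lf (nat_lit 76) (nat_lit 964837816861) (nat_lit 0) (nat_lit 216472459015) (nat_lit 532) (nat_lit 144221575076) (nat_lit 52) (nat_lit 5) (nat_lit 51) (nat_lit 5) (nat_lit 58) (nat_lit 5) (nat_lit 378) (nat_lit 372) (nat_lit 150)) (XT.lf (nat_lit 0) (nat_lit 308021309890) (nat_lit 456) (nat_lit 1024028227369) (nat_lit 532) (nat_lit 51110972025) (nat_lit 46) (nat_lit 5) (nat_lit 52) (nat_lit 5) (nat_lit 53) (nat_lit 5) (nat_lit 379) (nat_lit 372) (nat_lit 149))))))))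
noncomputable def xc249 : XT := (XT.nd (nat_lit 1326) (nat_lit 152) (nat_lit 0) (XT.nd (nat_lit 624) (nat_lit 760) (nat_lit 0) (XT.nd (nat_lit 312) (nat_lit 380) (nat_lit 0) (XT.nd (nat_lit 156) (nat_lit 228) (nat_lit 0) (XT.nd (nat_lit 78) (nat_lit 304) (nat_lit 0) (XT.lf (nat_lit 0) (nat_lit 62715693863) (nat_lit 532) (nat_lit 400931686650) (nat_lit 76) (nat_lit 980397674583) (nat_lit 45) (nat_lit 5) (nat_lit 52) (nat_lit 5) (nat_lit 46) (nat_lit 5) (nat_lit 380) (nat_lit 372) (nat_lit 148)) (XT.lf (nat_lit 0) (nat_lit 194790809489) (nat_lit 380) (nat_lit 1169642144924) (nat_lit 76) (nat_lit 144308914631) (nat_lit 41) (nat_lit 5) (nat_lit 46) (nat_lit 5) (nat_lit 42) (nat_lit 5) (nat_lit 381) (nat_lit 372) (nat_lit 147))) (XT.nd (nat_lit 78) (nat_lit 228) (nat_lit 0) (XT.lf (nat_lit 0) (nat_lit 360721634993) (nat_lit 380) (nat_lit 428929990109) (nat_lit 76) (nat_lit 787099626962) (nat_lit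 41) (nat_lit 5) (nat_lit 46) (nat_lit 5) (nat_lit 42) (nat_lit 5) (nat_lit 382) (nat_lit 372) (nat_lit 146)) (XT.lf (nat_lit 0) (nat_lit 390577397069) (nat_lit 228) (nat_lit 158742922184) (nat_lit 304) (nat_lit 1100129595061) (nat_lit 38) (nat_lit 5) (nat_lit 41) (nat_lit 5) (nat_lit 42) (nat_lit 5) (nat_lit 383) (nat_lit 372) (nat_lit 145)))) (XT.nd (nat_lit 156) (nat_lit 152) (nat_lit 0) (XT.nd (nat_lit 78) (nat_lit 228) (nat_lit 0) (XT.lf (nat_lit 0) (nat_lit 777608685065) (nat_lit 304) (nat_lit 439861336340) (nat_lit 76) (nat_lit 508526305202) (nat_lit 38) (nat_lit 5) (nat_lit 42) (nat_lit 5) (nat_lit 39) (nat_lit 5) (nat_lit 384) (nat_lit 372) (nat_lit 144)) (XT.lf (nat_lit 0) (nat_lit 463745995988) (nat_lit 228) (nat_lit 575690416579) (nat_lit 304) (nat_lit 768007935926) (nat_lit 35) (nat_lit 5) (nat_lit 38) (nat_lit 5) (nat_lit 39) (nat_lit 5) (nat_lit 385) (nat_lit 372) (nat_lit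 143))) (XT.nd (nat_lit 78) (nat_lit 152) (nat_lit 0) (XT.lf (nat_lit 0) (nat_lit 1337373554789) (nat_lit 304) (nat_lit 432925480174) (nat_lit 76) (nat_lit 123896121451) (nat_lit 35) (nat_lit 5) (nat_lit 39) (nat_lit 5) (nat_lit 36) (nat_lit 5) (nat_lit 386) (nat_lit 372) (nat_lit 142)) (XT.lf (nat_lit 0) (nat_lit 563968194226) (nat_lit 152) (nat_lit 1123693918223) (nat_lit 228) (nat_lit 297942600999) (nat_lit 33) (nat_lit 5) (nat_lit 35) (nat_lit 5) (nat_lit 36) (nat_lit 5) (nat_lit 387) (nat_lit 372) (nat_lit 141))))) (XT.nd (nat_lit 312) (nat_lit 304) (nat_lit 0) (XT.nd (nat_lit 156) (nat_lit 152) (nat_lit 0) (XT.nd (nat_lit 78) (nat_lit 304) (nat_lit 0) (XT.lf (nat_lit 0) (nat_lit 1665234215274) (nat_lit 152) (nat_lit 412576486985) (nat_lit 228) (nat_lit 5569376987) (nat_lit 33) (nat_lit 5) (nat_lit 35) (nat_lit 5) (nat_lit 36) (nat_lit 5) (nat_lit 388) (nat_lit 372) (nat_lit 140))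 (XT.lf (nat_lit 0) (nat_lit 320513601647) (nat_lit 304) (nat_lit 1503400720761) (nat_lit 76) (nat_lit 362399375250) (nat_lit 29) (nat_lit 5) (nat_lit 33) (nat_lit 5) (nat_lit 30) (nat_lit 5) (nat_lit 389) (nat_lit 372) (nat_lit 139))) (XT.nd (nat_lit 78) (nat_lit 152) (nat_lit 0) (XT.lf (nat_lit 0) (nat_lit 694828403890) (nat_lit 304) (nat_lit 411888418391) (nat_lit 76) (nat_lit 1188957924428) (nat_lit 29) (nat_lit 5) (nat_lit 33) (nat_lit 5) (nat_lit 30) (nat_lit 5) (nat_lit 390) (nat_lit 372) (nat_lit 138)) (XT.lf (nat_lit 0) (nat_lit 807330822910) (nat_lit 152) (nat_lit 311173891154) (nat_lit 228) (nat_lit 1293726659721) (nat_lit 27) (nat_lit 5) (nat_lit 29) (nat_lit 5) (nat_lit 30) (nat_lit 5) (nat_lit 391) (nat_lit 372) (nat_lit 137)))) (XT.nd (nat_lit 156) (nat_lit 152) (nat_lit 0) (XT.nd (nat_lit 78) (nat_lit 152) (nat_lit 0) (XT.lf (nat_lit 0) (nat_lit 1600809112868) (nat_lit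 228) (nat_lit 403171756665) (nat_lit 76) (nat_lit 532152942794) (nat_lit 27) (nat_lit 5) (nat_lit 30) (nat_lit 5) (nat_lit 28) (nat_lit 5) (nat_lit 392) (nat_lit 372) (nat_lit 136)) (XT.lf (nat_lit 0) (nat_lit 933300363851) (nat_lit 152) (nat_lit 1218925832899) (nat_lit 228) (nat_lit 515279982550) (nat_lit 25) (nat_lit 5) (nat_lit 27) (nat_lit 5) (nat_lit 28) (nat_lit 5) (nat_lit 393) (nat_lit 372) (nat_lit 135))) (XT.nd (nat_lit 78) (nat_lit 152) (nat_lit 0) (XT.lf (nat_lit 0) (nat_lit 2399618986531) (nat_lit 152) (nat_lit 359161089438) (nat_lit 228) (nat_lit 49726385375) (nat_lit 25) (nat_lit 5) (nat_lit 27) (nat_lit 5) (nat_lit 28) (nat_lit 5) (nat_lit 394) (nat_lit 372) (nat_lit 134)) (XT.nd (nat_lit 78) (nat_lit 0) (nat_lit 0) (XT.lf (nat_lit 0) (nat_lit 470658052823) (nat_lit 152) (nat_lit 1907681335648) (nat_lit 76) (nat_lit 578355585076) (nat_lit 23) (nat_lit 5) (nat_lit 25) (nat_lit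 5) (nat_lit 24) (nat_lit 5) (nat_lit 395) (nat_lit 372) (nat_lit 133)) (XT.lf (nat_lit 0) (nat_lit 1050785677782) (nat_lit 152) (nat_lit 479954395833) (nat_lit 76) (nat_lit 1584231249712) (nat_lit 23) (nat_lit 5) (nat_lit 25) (nat_lit 5) (nat_lit 24) (nat_lit 5) (nat_lit 396) (nat_lit 372) (nat_lit 132))))))) (XT.nd (nat_lit 45474) (nat_lit 0) (nat_lit 1064) (XT.nd (nat_lit 45162) (nat_lit 0) (nat_lit 2204) (XT.nd (nat_lit 45006) (nat_lit 0) (nat_lit 2128) (XT.nd (nat_lit 78) (nat_lit 0) (nat_lit 0) (XT.lf (nat_lit 0) (nat_lit 1117913244973) (nat_lit 152) (nat_lit 586296106748) (nat_lit 228) (nat_lit 1579549562250) (nat_lit 21) (nat_lit 5) (nat_lit 23) (nat_lit 5) (nat_lit 24) (nat_lit 5) (nat_lit 397) (nat_lit 372) (nat_lit 131)) (XT.lf (nat_lit 0) (nat_lit 2433801150604) (nat_lit 228) (nat_lit 604865389779) (nat_lit 76) (nat_lit 425471433003) (nat_lit 21) (nat_lit 5) (nat_lit 24) (nat_lit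 5) (nat_lit 22) (nat_lit 4) (nat_lit 398) (nat_lit 372) (nat_lit 130))) (XT.nd (nat_lit 78) (nat_lit 0) (nat_lit 0) (XT.lf (nat_lit 0) (nat_lit 387893288388) (nat_lit 532) (nat_lit 86964782285) (nat_lit 532) (nat_lit 86964782285) (nat_lit 49) (nat_lit 3) (nat_lit 56) (nat_lit 3) (nat_lit 56) (nat_lit 5) (nat_lit 373) (nat_lit 373) (nat_lit 154)) (XT.lf (nat_lit 76) (nat_lit 365972667254) (nat_lit 0) (nat_lit 449647071692) (nat_lit 532) (nat_lit 352267659161) (nat_lit 50) (nat_lit 5) (nat_lit 49) (nat_lit 3) (nat_lit 56) (nat_lit 5) (nat_lit 374) (nat_lit 373) (nat_lit 153)))) (XT.nd (nat_lit 156) (nat_lit 0) (nat_lit 0) (XT.nd (nat_lit 78) (nat_lit 0) (nat_lit 0) (XT.lf (nat_lit 0) (nat_lit 865693396536) (nat_lit 456) (nat_lit 258627684059) (nat_lit 532) (nat_lit 90783037695) (nat_lit 50) (nat_lit 5) (nat_lit 56) (nat_lit 5) (nat_lit 57) (nat_lit 5) (nat_lit 375) (nat_lit 373) (nat_lit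 152)) (XT.lf (nat_lit 76) (nat_lit 333106515840) (nat_lit 0) (nat_lit 606356790900) (nat_lit 532) (nat_lit 325059640555) (nat_lit 51) (nat_lit 5) (nat_lit 50) (nat_lit 5) (nat_lit 57) (nat_lit 5) (nat_lit 376) (nat_lit 373) (nat_lit 151))) (XT.nd (nat_lit 78) (nat_lit 0) (nat_lit 76) (XT.lf (nat_lit 76) (nat_lit 986887834431) (nat_lit 0) (nat_lit 39318310372) (nat_lit 532) (nat_lit 291123431026) (nat_lit 51) (nat_lit 5) (nat_lit 50) (nat_lit 5) (nat_lit 57) (nat_lit 5) (nat_lit 377) (nat_lit 373) (nat_lit 150)) (XT.lf (nat_lit 76) (nat_lit 320879970662) (nat_lit 0) (nat_lit 820508272341) (nat_lit 532) (nat_lit 231252505004) (nat_lit 52) (nat_lit 5) (nat_lit 51) (nat_lit 5) (nat_lit 58) (nat_lit 5) (nat_lit 378) (nat_lit 373) (nat_lit 149))))) (XT.nd (nat_lit 312) (nat_lit 456) (nat_lit 0) (XT.nd (nat_lit 156) (nat_lit 380) (nat_lit 0) (XT.nd (nat_lit 78) (nat_lit 380) (nat_lit 0) (XT.lf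 (nat_lit 76) (nat_lit 1042024899118) (nat_lit 0) (nat_lit 233790269390) (nat_lit 532) (nat_lit 155759224705) (nat_lit 52) (nat_lit 5) (nat_lit 51) (nat_lit 5) (nat_lit 58) (nat_lit 5) (nat_lit 379) (nat_lit 373) (nat_lit 148)) (XT.lf (nat_lit 0) (nat_lit 332663076137) (nat_lit 456) (nat_lit 1105950490612) (nat_lit 532) (nat_lit 55199777799) (nat_lit 46) (nat_lit 5) (nat_lit 52) (nat_lit 5) (nat_lit 53) (nat_lit 5) (nat_lit 380) (nat_lit 373) (nat_lit 147))) (XT.nd (nat_lit 78) (nat_lit 304) (nat_lit 0) (XT.lf (nat_lit 0) (nat_lit 67733012694) (nat_lit 532) (nat_lit 433006161209) (nat_lit 76) (nat_lit 1058829480401) (nat_lit 45) (nat_lit 5) (nat_lit 52) (nat_lit 5) (nat_lit 46) (nat_lit 5) (nat_lit 381) (nat_lit 373) (nat_lit 146)) (XT.lf (nat_lit 0) (nat_lit 210374134265) (nat_lit 380) (nat_lit 1263213452715) (nat_lit 76) (nat_lit 155853626661) (nat_lit 41) (nat_lit 5) (nat_lit 46) (nat_lit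 5) (nat_lit 42) (nat_lit 5) (nat_lit 382) (nat_lit 373) (nat_lit 145)))) (XT.nd (nat_lit 156) (nat_lit 228) (nat_lit 0) (XT.nd (nat_lit 78) (nat_lit 228) (nat_lit 0) (XT.lf (nat_lit 0) (nat_lit 389579421363) (nat_lit 380) (nat_lit 463244330242) (nat_lit 76) (nat_lit 850067596062) (nat_lit 41) (nat_lit 5) (nat_lit 46) (nat_lit 5) (nat_lit 42) (nat_lit 5) (nat_lit 383) (nat_lit 373) (nat_lit 144)) (XT.lf (nat_lit 0) (nat_lit 421823646415) (nat_lit 228) (nat_lit 171442351218) (nat_lit 304) (nat_lit 1188139905492) (nat_lit 38) (nat_lit 5) (nat_lit 41) (nat_lit 5) (nat_lit 42) (nat_lit 5) (nat_lit 384) (nat_lit 373) (nat_lit 143))) (XT.nd (nat_lit 78) (nat_lit 228) (nat_lit 0) (XT.lf (nat_lit 0) (nat_lit 839817428901) (nat_lit 304) (nat_lit 475050186024) (nat_lit 76) (nat_lit 549208413788) (nat_lit 38) (nat_lit 5) (nat_lit 42) (nat_lit 5) (nat_lit 39) (nat_lit 5) (nat_lit 385) (nat_lit 373)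 (nat_lit 142)) (XT.nd (nat_lit 78) (nat_lit 0) (nat_lit 0) (XT.lf (nat_lit 0) (nat_lit 500845731441) (nat_lit 228) (nat_lit 621745640871) (nat_lit 304) (nat_lit 829448520228) (nat_lit 35) (nat_lit 5) (nat_lit 38) (nat_lit 5) (nat_lit 39) (nat_lit 5) (nat_lit 386) (nat_lit 373) (nat_lit 141)) (XT.lf (nat_lit 0) (nat_lit 1444363482651) (nat_lit 304) (nat_lit 467559463598) (nat_lit 76) (nat_lit 133807819113) (nat_lit 35) (nat_lit 5) (nat_lit 39) (nat_lit 5) (nat_lit 36) (nat_lit 5) (nat_lit 387) (nat_lit 373) (nat_lit 140))))))))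
noncomputable def xc250 : XT := (XT.nd (nat_lit 46254) (nat_lit 0) (nat_lit 304) (XT.nd (nat_lit 624) (nat_lit 304) (nat_lit 0) (XT.nd (nat_lit 312) (nat_lit 304) (nat_lit 0) (XT.nd (nat_lit 156) (nat_lit 304) (nat_lit 0) (XT.nd (nat_lit 78) (nat_lit 0) (nat_lit 0) (XT.lf (nat_lit 0) (nat_lit 609085703361) (nat_lit 152) (nat_lit 1213589419631) (nat_lit 228) (nat_lit 321777964129) (nat_lit 33) (nat_lit 5) (nat_lit 35) (nat_lit 5) (nat_lit 36) (nat_lit 5) (nat_lit 388) (nat_lit 373) (nat_lit 139)) (XT.lf (nat_lit 0) (nat_lit 1798453002123) (nat_lit 152) (nat_lit 445582594788) (nat_lit 228) (nat_lit 6014885525) (nat_lit 33) (nat_lit 5) (nat_lit 35) (nat_lit 5) (nat_lit 36) (nat_lit 5) (nat_lit 389) (nat_lit 373) (nat_lit 138))) (XT.nd (nat_lit 78) (nat_lit 0) (nat_lit 0) (XT.lf (nat_lit 0) (nat_lit 346154727907) (nat_lit 304) (nat_lit 1623672725171) (nat_lit 76) (nat_lit 391391337280) (nat_lit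 29) (nat_lit 5) (nat_lit 33) (nat_lit 5) (nat_lit 30) (nat_lit 5) (nat_lit 390) (nat_lit 373) (nat_lit 137)) (XT.lf (nat_lit 0) (nat_lit 750414711504) (nat_lit 304) (nat_lit 444839442556) (nat_lit 76) (nat_lit 1284074569502) (nat_lit 29) (nat_lit 5) (nat_lit 33) (nat_lit 5) (nat_lit 30) (nat_lit 5) (nat_lit 391) (nat_lit 373) (nat_lit 136)))) (XT.nd (nat_lit 156) (nat_lit 152) (nat_lit 0) (XT.nd (nat_lit 78) (nat_lit 0) (nat_lit 0) (XT.lf (nat_lit 0) (nat_lit 871917336800) (nat_lit 152) (nat_lit 336067788233) (nat_lit 228) (nat_lit 1397224755894) (nat_lit 27) (nat_lit 5) (nat_lit 29) (nat_lit 5) (nat_lit 30) (nat_lit 5) (nat_lit 392) (nat_lit 373) (nat_lit 135)) (XT.lf (nat_lit 0) (nat_lit 1728873873551) (nat_lit 228) (nat_lit 435425450461) (nat_lit 76) (nat_lit 574725190719) (nat_lit 27) (nat_lit 5) (nat_lit 30) (nat_lit 5) (nat_lit 28) (nat_lit 5) (nat_lit 393) (nat_lit 373) (nat_lit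 134))) (XT.nd (nat_lit 78) (nat_lit 0) (nat_lit 0) (XT.lf (nat_lit 0) (nat_lit 1007964438514) (nat_lit 152) (nat_lit 1316439884380) (nat_lit 228) (nat_lit 556502348271) (nat_lit 25) (nat_lit 5) (nat_lit 27) (nat_lit 5) (nat_lit 28) (nat_lit 5) (nat_lit 394) (nat_lit 373) (nat_lit 133)) (XT.lf (nat_lit 0) (nat_lit 2591588547634) (nat_lit 152) (nat_lit 387893962565) (nat_lit 228) (nat_lit 53704465757) (nat_lit 25) (nat_lit 5) (nat_lit 27) (nat_lit 5) (nat_lit 28) (nat_lit 5) (nat_lit 395) (nat_lit 373) (nat_lit 132))))) (XT.nd (nat_lit 45240) (nat_lit 0) (nat_lit 2128) (XT.nd (nat_lit 156) (nat_lit 152) (nat_lit 0) (XT.nd (nat_lit 78) (nat_lit 0) (nat_lit 0) (XT.lf (nat_lit 0) (nat_lit 508310725213) (nat_lit 152) (nat_lit 2060295797960) (nat_lit 76) (nat_lit 624624045969) (nat_lit 23) (nat_lit 5) (nat_lit 25) (nat_lit 5) (nat_lit 24) (nat_lit 5) (nat_lit 396) (nat_lit 373) (nat_lit 131))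 (XT.lf (nat_lit 0) (nat_lit 1134848558082) (nat_lit 152) (nat_lit 518350706258) (nat_lit 76) (nat_lit 1710969762732) (nat_lit 23) (nat_lit 5) (nat_lit 25) (nat_lit 5) (nat_lit 24) (nat_lit 5) (nat_lit 397) (nat_lit 373) (nat_lit 130))) (XT.nd (nat_lit 45006) (nat_lit 0) (nat_lit 2128) (XT.lf (nat_lit 0) (nat_lit 1207346344768) (nat_lit 152) (nat_lit 633199780204) (nat_lit 228) (nat_lit 1705913500077) (nat_lit 21) (nat_lit 5) (nat_lit 23) (nat_lit 5) (nat_lit 24) (nat_lit 5) (nat_lit 398) (nat_lit 373) (nat_lit 129)) (XT.lf (nat_lit 0) (nat_lit 418924797964) (nat_lit 532) (nat_lit 93921939697) (nat_lit 532) (nat_lit 93921939697) (nat_lit 49) (nat_lit 3) (nat_lit 56) (nat_lit 3) (nat_lit 56) (nat_lit 5) (nat_lit 374) (nat_lit 374) (nat_lit 152)))) (XT.nd (nat_lit 156) (nat_lit 0) (nat_lit 76) (XT.nd (nat_lit 78) (nat_lit 0) (nat_lit 76) (XT.lf (nat_lit 76) (nat_lit 395250529702) (nat_lit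 0) (nat_lit 485618875661) (nat_lit 532) (nat_lit 380448977395) (nat_lit 50) (nat_lit 5) (nat_lit 49) (nat_lit 3) (nat_lit 56) (nat_lit 5) (nat_lit 375) (nat_lit 374) (nat_lit 151)) (XT.lf (nat_lit 0) (nat_lit 934948948241) (nat_lit 456) (nat_lit 279317845834) (nat_lit 532) (nat_lit 98045647080) (nat_lit 50) (nat_lit 5) (nat_lit 56) (nat_lit 5) (nat_lit 57) (nat_lit 5) (nat_lit 376) (nat_lit 374) (nat_lit 150))) (XT.nd (nat_lit 78) (nat_lit 0) (nat_lit 0) (XT.lf (nat_lit 76) (nat_lit 359755088716) (nat_lit 0) (nat_lit 654865357863) (nat_lit 532) (nat_lit 351064330293) (nat_lit 51) (nat_lit 5) (nat_lit 50) (nat_lit 5) (nat_lit 57) (nat_lit 5) (nat_lit 377) (nat_lit 374) (nat_lit 149)) (XT.nd (nat_lit 78) (nat_lit 0) (nat_lit 76) (XT.lf (nat_lit 76) (nat_lit 1065838908971) (nat_lit 0) (nat_lit 42463797137) (nat_lit 532) (nat_lit 314413230039) (nat_lit 51) (nat_lit 5) (nat_lit 50) (nat_lit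 5) (nat_lit 57) (nat_lit 5) (nat_lit 378) (nat_lit 374) (nat_lit 148)) (XT.lf (nat_lit 76) (nat_lit 346550421008) (nat_lit 0) (nat_lit 886148946771) (nat_lit 532) (nat_lit 249752634685) (nat_lit 52) (nat_lit 5) (nat_lit 51) (nat_lit 5) (nat_lit 58) (nat_lit 5) (nat_lit 379) (nat_lit 374) (nat_lit 147))))))) (XT.nd (nat_lit 624) (nat_lit 760) (nat_lit 0) (XT.nd (nat_lit 312) (nat_lit 456) (nat_lit 0) (XT.nd (nat_lit 156) (nat_lit 380) (nat_lit 0) (XT.nd (nat_lit 78) (nat_lit 380) (nat_lit 0) (XT.lf (nat_lit 76) (nat_lit 1125386939837) (nat_lit 0) (nat_lit 252493502648) (nat_lit 532) (nat_lit 168219897200) (nat_lit 52) (nat_lit 5) (nat_lit 51) (nat_lit 5) (nat_lit 58) (nat_lit 5) (nat_lit 380) (nat_lit 374) (nat_lit 146)) (XT.lf (nat_lit 0) (nat_lit 359276174916) (nat_lit 456) (nat_lit 1194426534194) (nat_lit 532) (nat_lit 59615698305) (nat_lit 46) (nat_lit 5) (nat_lit 52) (nat_lit 5) (nat_lit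 53) (nat_lit 5) (nat_lit 381) (nat_lit 374) (nat_lit 145))) (XT.nd (nat_lit 78) (nat_lit 304) (nat_lit 0) (XT.lf (nat_lit 0) (nat_lit 73151707997) (nat_lit 532) (nat_lit 467646602346) (nat_lit 76) (nat_lit 1143535831846) (nat_lit 45) (nat_lit 5) (nat_lit 52) (nat_lit 5) (nat_lit 46) (nat_lit 5) (nat_lit 382) (nat_lit 374) (nat_lit 144)) (XT.lf (nat_lit 0) (nat_lit 227204116461) (nat_lit 380) (nat_lit 1364270474233) (nat_lit 76) (nat_lit 168321915815) (nat_lit 41) (nat_lit 5) (nat_lit 46) (nat_lit 5) (nat_lit 42) (nat_lit 5) (nat_lit 383) (nat_lit 374) (nat_lit 143)))) (XT.nd (nat_lit 156) (nat_lit 228) (nat_lit 0) (XT.nd (nat_lit 78) (nat_lit 228) (nat_lit 0) (XT.lf (nat_lit 0) (nat_lit 420745822716) (nat_lit 380) (nat_lit 500303826013) (nat_lit 76) (nat_lit 918073002841) (nat_lit 41) (nat_lit 5) (nat_lit 46) (nat_lit 5) (nat_lit 42) (nat_lit 5) (nat_lit 384) (nat_lit 374) (nat_lit 142))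 (XT.lf (nat_lit 0) (nat_lit 455569587494) (nat_lit 228) (nat_lit 185157735251) (nat_lit 304) (nat_lit 1283191048914) (nat_lit 38) (nat_lit 5) (nat_lit 41) (nat_lit 5) (nat_lit 42) (nat_lit 5) (nat_lit 385) (nat_lit 374) (nat_lit 141))) (XT.nd (nat_lit 78) (nat_lit 228) (nat_lit 0) (XT.lf (nat_lit 0) (nat_lit 907002865250) (nat_lit 304) (nat_lit 513054151846) (nat_lit 76) (nat_lit 593145090466) (nat_lit 38) (nat_lit 5) (nat_lit 42) (nat_lit 5) (nat_lit 39) (nat_lit 5) (nat_lit 386) (nat_lit 374) (nat_lit 140)) (XT.lf (nat_lit 0) (nat_lit 540913437774) (nat_lit 228) (nat_lit 671485284396) (nat_lit 304) (nat_lit 895804358489) (nat_lit 35) (nat_lit 5) (nat_lit 38) (nat_lit 5) (nat_lit 39) (nat_lit 5) (nat_lit 387) (nat_lit 374) (nat_lit 139))))) (XT.nd (nat_lit 312) (nat_lit 304) (nat_lit 0) (XT.nd (nat_lit 156) (nat_lit 304) (nat_lit 0) (XT.nd (nat_lit 78) (nat_lit 152) (nat_lit 0) (XT.lf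 (nat_lit 0) (nat_lit 1559912598540) (nat_lit 304) (nat_lit 504964173542) (nat_lit 76) (nat_lit 144512451455) (nat_lit 35) (nat_lit 5) (nat_lit 39) (nat_lit 5) (nat_lit 36) (nat_lit 5) (nat_lit 388) (nat_lit 374) (nat_lit 138)) (XT.lf (nat_lit 0) (nat_lit 657812605581) (nat_lit 152) (nat_lit 1310676562871) (nat_lit 228) (nat_lit 347520162721) (nat_lit 33) (nat_lit 5) (nat_lit 35) (nat_lit 5) (nat_lit 36) (nat_lit 5) (nat_lit 389) (nat_lit 374) (nat_lit 137))) (XT.nd (nat_lit 78) (nat_lit 304) (nat_lit 0) (XT.lf (nat_lit 0) (nat_lit 1942329284840) (nat_lit 152) (nat_lit 481229192805) (nat_lit 228) (nat_lit 6496040684) (nat_lit 33) (nat_lit 5) (nat_lit 35) (nat_lit 5) (nat_lit 36) (nat_lit 5) (nat_lit 390) (nat_lit 374) (nat_lit 136)) (XT.lf (nat_lit 0) (nat_lit 373847138828) (nat_lit 304) (nat_lit 1753566497531) (nat_lit 76) (nat_lit 422702654559) (nat_lit 29) (nat_lit 5) (nat_lit 33) (nat_lit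 5) (nat_lit 30) (nat_lit 5) (nat_lit 391) (nat_lit 374) (nat_lit 135)))) (XT.nd (nat_lit 156) (nat_lit 152) (nat_lit 0) (XT.nd (nat_lit 78) (nat_lit 152) (nat_lit 0) (XT.lf (nat_lit 0) (nat_lit 810447918692) (nat_lit 304) (nat_lit 480426555689) (nat_lit 76) (nat_lit 1386800544596) (nat_lit 29) (nat_lit 5) (nat_lit 33) (nat_lit 5) (nat_lit 30) (nat_lit 5) (nat_lit 392) (nat_lit 374) (nat_lit 134)) (XT.lf (nat_lit 0) (nat_lit 941670764946) (nat_lit 152) (nat_lit 362953199106) (nat_lit 228) (nat_lit 1509002704982) (nat_lit 27) (nat_lit 5) (nat_lit 29) (nat_lit 5) (nat_lit 30) (nat_lit 5) (nat_lit 393) (nat_lit 374) (nat_lit 133))) (XT.nd (nat_lit 78) (nat_lit 152) (nat_lit 0) (XT.lf (nat_lit 0) (nat_lit 1867183810573) (nat_lit 228) (nat_lit 470259446427) (nat_lit 76) (nat_lit 620703216696) (nat_lit 27) (nat_lit 5) (nat_lit 30) (nat_lit 5) (nat_lit 28) (nat_lit 5) (nat_lit 394) (nat_lit 374)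 (nat_lit 132)) (XT.nd (nat_lit 78) (nat_lit 0) (nat_lit 0) (XT.lf (nat_lit 0) (nat_lit 1088601632651) (nat_lit 152) (nat_lit 1421755062142) (nat_lit 228) (nat_lit 601022507941) (nat_lit 25) (nat_lit 5) (nat_lit 27) (nat_lit 5) (nat_lit 28) (nat_lit 5) (nat_lit 395) (nat_lit 374) (nat_lit 131)) (XT.lf (nat_lit 0) (nat_lit 2798915667607) (nat_lit 152) (nat_lit 418925467544) (nat_lit 228) (nat_lit 58000796914) (nat_lit 25) (nat_lit 5) (nat_lit 27) (nat_lit 5) (nat_lit 28) (nat_lit 5) (nat_lit 396) (nat_lit 374) (nat_lit 130))))))))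
noncomputable def xc251 : XT := (XT.nd (nat_lit 46410) (nat_lit 0) (nat_lit 152) (XT.nd (nat_lit 45708) (nat_lit 0) (nat_lit 760) (XT.nd (nat_lit 45396) (nat_lit 0) (nat_lit 2052) (XT.nd (nat_lit 45240) (nat_lit 0) (nat_lit 1976) (XT.nd (nat_lit 45162) (nat_lit 0) (nat_lit 1976) (XT.lf (nat_lit 0) (nat_lit 548975607375) (nat_lit 152) (nat_lit 2225119423611) (nat_lit 76) (nat_lit 674593981724) (nat_lit 23) (nat_lit 5) (nat_lit 25) (nat_lit 5) (nat_lit 24) (nat_lit 5) (nat_lit 397) (nat_lit 374) (nat_lit 129)) (XT.lf (nat_lit 0) (nat_lit 452438821671) (nat_lit 532) (nat_lit 101435673293) (nat_lit 532) (nat_lit 101435673293) (nat_lit 49) (nat_lit 3) (nat_lit 56) (nat_lit 3) (nat_lit 56) (nat_lit 5) (nat_lit 375) (nat_lit 375) (nat_lit 150))) (XT.nd (nat_lit 78) (nat_lit 0) (nat_lit 76) (XT.lf (nat_lit 76) (nat_lit 426870614145) (nat_lit 0) (nat_lit 524468418493) (nat_lit 532) (nat_lit 410884814569)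 (nat_lit 50) (nat_lit 5) (nat_lit 49) (nat_lit 3) (nat_lit 56) (nat_lit 5) (nat_lit 376) (nat_lit 375) (nat_lit 149)) (XT.lf (nat_lit 0) (nat_lit 1009744932673) (nat_lit 456) (nat_lit 301663228106) (nat_lit 532) (nat_lit 105889270013) (nat_lit 50) (nat_lit 5) (nat_lit 56) (nat_lit 5) (nat_lit 57) (nat_lit 5) (nat_lit 377) (nat_lit 375) (nat_lit 148)))) (XT.nd (nat_lit 156) (nat_lit 0) (nat_lit 76) (XT.nd (nat_lit 78) (nat_lit 0) (nat_lit 0) (XT.lf (nat_lit 76) (nat_lit 388535540059) (nat_lit 0) (nat_lit 707254606802) (nat_lit 532) (nat_lit 379149406837) (nat_lit 51) (nat_lit 5) (nat_lit 50) (nat_lit 5) (nat_lit 57) (nat_lit 5) (nat_lit 378) (nat_lit 375) (nat_lit 147)) (XT.lf (nat_lit 76) (nat_lit 1151106062658) (nat_lit 0) (nat_lit 45860919714) (nat_lit 532) (nat_lit 339566223740) (nat_lit 51) (nat_lit 5) (nat_lit 50) (nat_lit 5) (nat_lit 57) (nat_lit 5) (nat_lit 379) (nat_lit 375) (nat_lit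 146))) (XT.nd (nat_lit 78) (nat_lit 0) (nat_lit 0) (XT.lf (nat_lit 76) (nat_lit 374274499864) (nat_lit 0) (nat_lit 957040873352) (nat_lit 532) (nat_lit 269732784828) (nat_lit 52) (nat_lit 5) (nat_lit 51) (nat_lit 5) (nat_lit 58) (nat_lit 5) (nat_lit 380) (nat_lit 375) (nat_lit 145)) (XT.lf (nat_lit 76) (nat_lit 1215417936854) (nat_lit 0) (nat_lit 272692992896) (nat_lit 532) (nat_lit 181677432836) (nat_lit 52) (nat_lit 5) (nat_lit 51) (nat_lit 5) (nat_lit 58) (nat_lit 5) (nat_lit 381) (nat_lit 375) (nat_lit 144))))) (XT.nd (nat_lit 312) (nat_lit 608) (nat_lit 0) (XT.nd (nat_lit 156) (nat_lit 304) (nat_lit 0) (XT.nd (nat_lit 78) (nat_lit 76) (nat_lit 0) (XT.lf (nat_lit 0) (nat_lit 388018314081) (nat_lit 456) (nat_lit 1289980660644) (nat_lit 532) (nat_lit 64384901256) (nat_lit 46) (nat_lit 5) (nat_lit 52) (nat_lit 5) (nat_lit 53) (nat_lit 5) (nat_lit 382) (nat_lit 375) (nat_lit 143)) (XT.lf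 (nat_lit 0) (nat_lit 79003891179) (nat_lit 532) (nat_lit 505058286158) (nat_lit 76) (nat_lit 1235018692404) (nat_lit 45) (nat_lit 5) (nat_lit 52) (nat_lit 5) (nat_lit 46) (nat_lit 5) (nat_lit 383) (nat_lit 375) (nat_lit 142))) (XT.nd (nat_lit 78) (nat_lit 0) (nat_lit 0) (XT.lf (nat_lit 0) (nat_lit 245380489892) (nat_lit 380) (nat_lit 1473412065275) (nat_lit 76) (nat_lit 181787668241) (nat_lit 41) (nat_lit 5) (nat_lit 46) (nat_lit 5) (nat_lit 42) (nat_lit 5) (nat_lit 384) (nat_lit 375) (nat_lit 141)) (XT.lf (nat_lit 0) (nat_lit 454405529380) (nat_lit 380) (nat_lit 540328088671) (nat_lit 76) (nat_lit 991518842292) (nat_lit 41) (nat_lit 5) (nat_lit 46) (nat_lit 5) (nat_lit 42) (nat_lit 5) (nat_lit 385) (nat_lit 375) (nat_lit 140)))) (XT.nd (nat_lit 156) (nat_lit 380) (nat_lit 0) (XT.nd (nat_lit 78) (nat_lit 0) (nat_lit 0) (XT.lf (nat_lit 0) (nat_lit 492015196817) (nat_lit 228) (nat_lit 199970350586)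 (nat_lit 304) (nat_lit 1385846290802) (nat_lit 38) (nat_lit 5) (nat_lit 41) (nat_lit 5) (nat_lit 42) (nat_lit 5) (nat_lit 386) (nat_lit 375) (nat_lit 139)) (XT.lf (nat_lit 0) (nat_lit 979563130509) (nat_lit 304) (nat_lit 554098441933) (nat_lit 76) (nat_lit 640596700768) (nat_lit 38) (nat_lit 5) (nat_lit 42) (nat_lit 5) (nat_lit 39) (nat_lit 5) (nat_lit 387) (nat_lit 375) (nat_lit 138))) (XT.nd (nat_lit 78) (nat_lit 152) (nat_lit 0) (XT.lf (nat_lit 0) (nat_lit 584186553792) (nat_lit 228) (nat_lit 725204100508) (nat_lit 304) (nat_lit 967468669996) (nat_lit 35) (nat_lit 5) (nat_lit 38) (nat_lit 5) (nat_lit 39) (nat_lit 5) (nat_lit 388) (nat_lit 375) (nat_lit 137)) (XT.nd (nat_lit 78) (nat_lit 152) (nat_lit 0) (XT.lf (nat_lit 0) (nat_lit 1684705638382) (nat_lit 304) (nat_lit 545361267006) (nat_lit 76) (nat_lit 156073453412) (nat_lit 35) (nat_lit 5) (nat_lit 39) (nat_lit 5) (nat_lit 36) (nat_lit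 5) (nat_lit 389) (nat_lit 375) (nat_lit 136)) (XT.lf (nat_lit 0) (nat_lit 710437653423) (nat_lit 152) (nat_lit 1415530679045) (nat_lit 228) (nat_lit 375321742699) (nat_lit 33) (nat_lit 5) (nat_lit 35) (nat_lit 5) (nat_lit 36) (nat_lit 5) (nat_lit 390) (nat_lit 375) (nat_lit 135))))))) (XT.nd (nat_lit 45864) (nat_lit 0) (nat_lit 1216) (XT.nd (nat_lit 312) (nat_lit 152) (nat_lit 0) (XT.nd (nat_lit 156) (nat_lit 152) (nat_lit 0) (XT.nd (nat_lit 78) (nat_lit 304) (nat_lit 0) (XT.lf (nat_lit 0) (nat_lit 2097715664104) (nat_lit 152) (nat_lit 519727520029) (nat_lit 228) (nat_lit 7015693346) (nat_lit 33) (nat_lit 5) (nat_lit 35) (nat_lit 5) (nat_lit 36) (nat_lit 5) (nat_lit 391) (nat_lit 375) (nat_lit 134)) (XT.lf (nat_lit 0) (nat_lit 403754937959) (nat_lit 304) (nat_lit 1893851778193) (nat_lit 76) (nat_lit 456518875751) (nat_lit 29) (nat_lit 5) (nat_lit 33) (nat_lit 5) (nat_lit 30) (nat_lit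 5) (nat_lit 392) (nat_lit 375) (nat_lit 133))) (XT.nd (nat_lit 78) (nat_lit 152) (nat_lit 0) (XT.lf (nat_lit 0) (nat_lit 875283778136) (nat_lit 304) (nat_lit 518860643903) (nat_lit 76) (nat_lit 1497744596338) (nat_lit 29) (nat_lit 5) (nat_lit 33) (nat_lit 5) (nat_lit 30) (nat_lit 5) (nat_lit 393) (nat_lit 375) (nat_lit 132)) (XT.lf (nat_lit 0) (nat_lit 1017004461466) (nat_lit 152) (nat_lit 391989444587) (nat_lit 228) (nat_lit 1629722894474) (nat_lit 27) (nat_lit 5) (nat_lit 29) (nat_lit 5) (nat_lit 30) (nat_lit 5) (nat_lit 394) (nat_lit 375) (nat_lit 131)))) (XT.nd (nat_lit 156) (nat_lit 0) (nat_lit 0) (XT.nd (nat_lit 78) (nat_lit 152) (nat_lit 0) (XT.lf (nat_lit 0) (nat_lit 2016558538685) (nat_lit 228) (nat_lit 507880167788) (nat_lit 76) (nat_lit 670359483221) (nat_lit 27) (nat_lit 5) (nat_lit 30) (nat_lit 5) (nat_lit 28) (nat_lit 5) (nat_lit 395) (nat_lit 375) (nat_lit 130)) (XT.lf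 (nat_lit 0) (nat_lit 1175689796748) (nat_lit 152) (nat_lit 1535495455978) (nat_lit 228) (nat_lit 649104284406) (nat_lit 25) (nat_lit 5) (nat_lit 27) (nat_lit 5) (nat_lit 28) (nat_lit 5) (nat_lit 396) (nat_lit 375) (nat_lit 129))) (XT.nd (nat_lit 45240) (nat_lit 0) (nat_lit 1824) (XT.lf (nat_lit 0) (nat_lit 3022828952020) (nat_lit 152) (nat_lit 452439494636) (nat_lit 228) (nat_lit 62640838288) (nat_lit 25) (nat_lit 5) (nat_lit 27) (nat_lit 5) (nat_lit 28) (nat_lit 5) (nat_lit 397) (nat_lit 375) (nat_lit 128)) (XT.nd (nat_lit 78) (nat_lit 0) (nat_lit 0) (XT.lf (nat_lit 0) (nat_lit 488633961588) (nat_lit 532) (nat_lit 109550508656) (nat_lit 532) (nat_lit 109550508656) (nat_lit 49) (nat_lit 3) (nat_lit 56) (nat_lit 3) (nat_lit 56) (nat_lit 5) (nat_lit 376) (nat_lit 376) (nat_lit 148)) (XT.lf (nat_lit 76) (nat_lit 461020299342) (nat_lit 0) (nat_lit 566425920075) (nat_lit 532) (nat_lit 443755530275)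 (nat_lit 50) (nat_lit 5) (nat_lit 49) (nat_lit 3) (nat_lit 56) (nat_lit 5) (nat_lit 377) (nat_lit 376) (nat_lit 147)))))) (XT.nd (nat_lit 312) (nat_lit 684) (nat_lit 0) (XT.nd (nat_lit 156) (nat_lit 0) (nat_lit 0) (XT.nd (nat_lit 78) (nat_lit 0) (nat_lit 0) (XT.lf (nat_lit 0) (nat_lit 1090524586076) (nat_lit 456) (nat_lit 325796247435) (nat_lit 532) (nat_lit 114360386895) (nat_lit 50) (nat_lit 5) (nat_lit 56) (nat_lit 5) (nat_lit 57) (nat_lit 5) (nat_lit 378) (nat_lit 376) (nat_lit 146)) (XT.lf (nat_lit 76) (nat_lit 419618421198) (nat_lit 0) (nat_lit 763834992760) (nat_lit 532) (nat_lit 409481299474) (nat_lit 51) (nat_lit 5) (nat_lit 50) (nat_lit 5) (nat_lit 57) (nat_lit 5) (nat_lit 379) (nat_lit 376) (nat_lit 145))) (XT.nd (nat_lit 78) (nat_lit 0) (nat_lit 76) (XT.lf (nat_lit 76) (nat_lit 1243194582794) (nat_lit 0) (nat_lit 49529809415) (nat_lit 532) (nat_lit 366731466167) (nat_lit 51)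 (nat_lit 5) (nat_lit 50) (nat_lit 5) (nat_lit 57) (nat_lit 5) (nat_lit 380) (nat_lit 376) (nat_lit 144)) (XT.lf (nat_lit 76) (nat_lit 404216498584) (nat_lit 0) (nat_lit 1033604152514) (nat_lit 532) (nat_lit 291311355633) (nat_lit 52) (nat_lit 5) (nat_lit 51) (nat_lit 5) (nat_lit 58) (nat_lit 5) (nat_lit 381) (nat_lit 376) (nat_lit 143)))) (XT.nd (nat_lit 156) (nat_lit 380) (nat_lit 0) (XT.nd (nat_lit 78) (nat_lit 380) (nat_lit 0) (XT.lf (nat_lit 76) (nat_lit 1312651407664) (nat_lit 0) (nat_lit 294508440932) (nat_lit 532) (nat_lit 196211579332) (nat_lit 52) (nat_lit 5) (nat_lit 51) (nat_lit 5) (nat_lit 58) (nat_lit 5) (nat_lit 382) (nat_lit 376) (nat_lit 142)) (XT.lf (nat_lit 0) (nat_lit 419059817935) (nat_lit 456) (nat_lit 1393179116681) (nat_lit 532) (nat_lit 69535647992) (nat_lit 46) (nat_lit 5) (nat_lit 52) (nat_lit 5) (nat_lit 53) (nat_lit 5) (nat_lit 383) (nat_lit 376) (nat_lit 141)))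 (XT.nd (nat_lit 78) (nat_lit 304) (nat_lit 0) (XT.lf (nat_lit 0) (nat_lit 85324242377) (nat_lit 532) (nat_lit 545462911006) (nat_lit 76) (nat_lit 1333820182661) (nat_lit 45) (nat_lit 5) (nat_lit 52) (nat_lit 5) (nat_lit 46) (nat_lit 5) (nat_lit 384) (nat_lit 376) (nat_lit 140)) (XT.nd (nat_lit 78) (nat_lit 0) (nat_lit 0) (XT.lf (nat_lit 0) (nat_lit 265010966905) (nat_lit 380) (nat_lit 1591284990291) (nat_lit 76) (nat_lit 196330680981) (nat_lit 41) (nat_lit 5) (nat_lit 46) (nat_lit 5) (nat_lit 42) (nat_lit 5) (nat_lit 385) (nat_lit 376) (nat_lit 139)) (XT.lf (nat_lit 0) (nat_lit 490758006750) (nat_lit 380) (nat_lit 583554298537) (nat_lit 76) (nat_lit 1070840349009) (nat_lit 41) (nat_lit 5) (nat_lit 46) (nat_lit 5) (nat_lit 42) (nat_lit 5) (nat_lit 386) (nat_lit 376) (nat_lit 138))))))))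
noncomputable def xc252 : XT := (XT.nd (nat_lit 46644) (nat_lit 0) (nat_lit 0) (XT.nd (nat_lit 624) (nat_lit 152) (nat_lit 0) (XT.nd (nat_lit 312) (nat_lit 456) (nat_lit 0) (XT.nd (nat_lit 156) (nat_lit 228) (nat_lit 0) (XT.nd (nat_lit 78) (nat_lit 0) (nat_lit 0) (XT.lf (nat_lit 0) (nat_lit 531376448848) (nat_lit 228) (nat_lit 215967975646) (nat_lit 304) (nat_lit 1496713958037) (nat_lit 38) (nat_lit 5) (nat_lit 41) (nat_lit 5) (nat_lit 42) (nat_lit 5) (nat_lit 387) (nat_lit 376) (nat_lit 137)) (XT.lf (nat_lit 0) (nat_lit 1057928211848) (nat_lit 304) (nat_lit 598426281228) (nat_lit 76) (nat_lit 691844439458) (nat_lit 38) (nat_lit 5) (nat_lit 42) (nat_lit 5) (nat_lit 39) (nat_lit 5) (nat_lit 388) (nat_lit 376) (nat_lit 136))) (XT.nd (nat_lit 78) (nat_lit 0) (nat_lit 0) (XT.lf (nat_lit 0) (nat_lit 630921513243) (nat_lit 228) (nat_lit 783220422856) (nat_lit 304) (nat_lit 1044866131727) (nat_lit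 35) (nat_lit 5) (nat_lit 38) (nat_lit 5) (nat_lit 39) (nat_lit 5) (nat_lit 389) (nat_lit 376) (nat_lit 135)) (XT.lf (nat_lit 0) (nat_lit 1819482116853) (nat_lit 304) (nat_lit 588990133714) (nat_lit 76) (nat_lit 168559334692) (nat_lit 35) (nat_lit 5) (nat_lit 39) (nat_lit 5) (nat_lit 36) (nat_lit 5) (nat_lit 390) (nat_lit 376) (nat_lit 134)))) (XT.nd (nat_lit 156) (nat_lit 304) (nat_lit 0) (XT.nd (nat_lit 78) (nat_lit 0) (nat_lit 0) (XT.lf (nat_lit 0) (nat_lit 767272699472) (nat_lit 152) (nat_lit 1528773125775) (nat_lit 228) (nat_lit 405347453788) (nat_lit 33) (nat_lit 5) (nat_lit 35) (nat_lit 5) (nat_lit 36) (nat_lit 5) (nat_lit 391) (nat_lit 376) (nat_lit 133)) (XT.lf (nat_lit 0) (nat_lit 2265532948506) (nat_lit 152) (nat_lit 561305714601) (nat_lit 228) (nat_lit 7576922586) (nat_lit 33) (nat_lit 5) (nat_lit 35) (nat_lit 5) (nat_lit 36) (nat_lit 5) (nat_lit 392) (nat_lit 376) (nat_lit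 132))) (XT.nd (nat_lit 78) (nat_lit 0) (nat_lit 0) (XT.lf (nat_lit 0) (nat_lit 436055357023) (nat_lit 304) (nat_lit 2045359886892) (nat_lit 76) (nat_lit 493040393379) (nat_lit 29) (nat_lit 5) (nat_lit 33) (nat_lit 5) (nat_lit 30) (nat_lit 5) (nat_lit 393) (nat_lit 376) (nat_lit 131)) (XT.lf (nat_lit 0) (nat_lit 945306502635) (nat_lit 304) (nat_lit 560369464344) (nat_lit 76) (nat_lit 1617564171052) (nat_lit 29) (nat_lit 5) (nat_lit 33) (nat_lit 5) (nat_lit 30) (nat_lit 5) (nat_lit 394) (nat_lit 376) (nat_lit 130))))) (XT.nd (nat_lit 45630) (nat_lit 0) (nat_lit 1748) (XT.nd (nat_lit 45474) (nat_lit 0) (nat_lit 1672) (XT.nd (nat_lit 78) (nat_lit 0) (nat_lit 0) (XT.lf (nat_lit 0) (nat_lit 1098364848667) (nat_lit 152) (nat_lit 423348591198) (nat_lit 228) (nat_lit 1760100702965) (nat_lit 27) (nat_lit 5) (nat_lit 29) (nat_lit 5) (nat_lit 30) (nat_lit 5) (nat_lit 395) (nat_lit 376) (nat_lit 129))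 (XT.lf (nat_lit 0) (nat_lit 2177883241727) (nat_lit 228) (nat_lit 548510551758) (nat_lit 76) (nat_lit 723988249757) (nat_lit 27) (nat_lit 5) (nat_lit 30) (nat_lit 5) (nat_lit 28) (nat_lit 5) (nat_lit 396) (nat_lit 376) (nat_lit 128))) (XT.nd (nat_lit 78) (nat_lit 0) (nat_lit 0) (XT.lf (nat_lit 0) (nat_lit 527724707821) (nat_lit 532) (nat_lit 118314533487) (nat_lit 532) (nat_lit 118314533487) (nat_lit 49) (nat_lit 3) (nat_lit 56) (nat_lit 3) (nat_lit 56) (nat_lit 5) (nat_lit 377) (nat_lit 377) (nat_lit 146)) (XT.lf (nat_lit 76) (nat_lit 497901954210) (nat_lit 0) (nat_lit 611740017775) (nat_lit 532) (nat_lit 479255913146) (nat_lit 50) (nat_lit 5) (nat_lit 49) (nat_lit 3) (nat_lit 56) (nat_lit 5) (nat_lit 378) (nat_lit 377) (nat_lit 145)))) (XT.nd (nat_lit 156) (nat_lit 0) (nat_lit 0) (XT.nd (nat_lit 78) (nat_lit 0) (nat_lit 0) (XT.lf (nat_lit 0) (nat_lit 1177766603364) (nat_lit 456) (nat_lit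 351859913863) (nat_lit 532) (nat_lit 123509196653) (nat_lit 50) (nat_lit 5) (nat_lit 56) (nat_lit 5) (nat_lit 57) (nat_lit 5) (nat_lit 379) (nat_lit 377) (nat_lit 144)) (XT.lf (nat_lit 76) (nat_lit 453187927416) (nat_lit 0) (nat_lit 824941807110) (nat_lit 532) (nat_lit 442239752069) (nat_lit 51) (nat_lit 5) (nat_lit 50) (nat_lit 5) (nat_lit 57) (nat_lit 5) (nat_lit 380) (nat_lit 377) (nat_lit 143))) (XT.nd (nat_lit 78) (nat_lit 0) (nat_lit 76) (XT.lf (nat_lit 76) (nat_lit 1342650179531) (nat_lit 0) (nat_lit 53492207991) (nat_lit 532) (nat_lit 396069935901) (nat_lit 51) (nat_lit 5) (nat_lit 50) (nat_lit 5) (nat_lit 57) (nat_lit 5) (nat_lit 381) (nat_lit 377) (nat_lit 142)) (XT.nd (nat_lit 78) (nat_lit 0) (nat_lit 0) (XT.lf (nat_lit 76) (nat_lit 436553851676) (nat_lit 0) (nat_lit 1116292492682) (nat_lit 532) (nat_lit 314616219518) (nat_lit 52) (nat_lit 5) (nat_lit 51) (nat_lit 5) (nat_lit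 58) (nat_lit 5) (nat_lit 382) (nat_lit 377) (nat_lit 141)) (XT.lf (nat_lit 76) (nat_lit 1417663551022) (nat_lit 0) (nat_lit 318069123584) (nat_lit 532) (nat_lit 211908464414) (nat_lit 52) (nat_lit 5) (nat_lit 51) (nat_lit 5) (nat_lit 58) (nat_lit 5) (nat_lit 383) (nat_lit 377) (nat_lit 140))))))) (XT.nd (nat_lit 624) (nat_lit 608) (nat_lit 0) (XT.nd (nat_lit 312) (nat_lit 456) (nat_lit 0) (XT.nd (nat_lit 156) (nat_lit 304) (nat_lit 0) (XT.nd (nat_lit 78) (nat_lit 76) (nat_lit 0) (XT.lf (nat_lit 0) (nat_lit 452584636572) (nat_lit 456) (nat_lit 1504633448746) (nat_lit 532) (nat_lit 75098460939) (nat_lit 46) (nat_lit 5) (nat_lit 52) (nat_lit 5) (nat_lit 53) (nat_lit 5) (nat_lit 384) (nat_lit 377) (nat_lit 139)) (XT.lf (nat_lit 0) (nat_lit 92150215978) (nat_lit 532) (nat_lit 589099911269) (nat_lit 76) (nat_lit 1440525792871) (nat_lit 45) (nat_lit 5) (nat_lit 52) (nat_lit 5) (nat_lit 46) (nat_lit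 5) (nat_lit 385) (nat_lit 377) (nat_lit 138))) (XT.nd (nat_lit 78) (nat_lit 0) (nat_lit 0) (XT.lf (nat_lit 0) (nat_lit 286211876682) (nat_lit 380) (nat_lit 1718587755044) (nat_lit 76) (nat_lit 212037134843) (nat_lit 41) (nat_lit 5) (nat_lit 46) (nat_lit 5) (nat_lit 42) (nat_lit 5) (nat_lit 386) (nat_lit 377) (nat_lit 137)) (XT.lf (nat_lit 0) (nat_lit 530018677313) (nat_lit 380) (nat_lit 630238610503) (nat_lit 76) (nat_lit 1156507576359) (nat_lit 41) (nat_lit 5) (nat_lit 46) (nat_lit 5) (nat_lit 42) (nat_lit 5) (nat_lit 387) (nat_lit 377) (nat_lit 136)))) (XT.nd (nat_lit 156) (nat_lit 228) (nat_lit 0) (XT.nd (nat_lit 78) (nat_lit 0) (nat_lit 0) (XT.lf (nat_lit 0) (nat_lit 573886595865) (nat_lit 228) (nat_lit 233245411136) (nat_lit 304) (nat_lit 1616451043790) (nat_lit 38) (nat_lit 5) (nat_lit 41) (nat_lit 5) (nat_lit 42) (nat_lit 5) (nat_lit 388) (nat_lit 377) (nat_lit 135)) (XT.lf (nat_lit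 0) (nat_lit 1142562495286) (nat_lit 304) (nat_lit 646300352810) (nat_lit 76) (nat_lit 747191996867) (nat_lit 38) (nat_lit 5) (nat_lit 42) (nat_lit 5) (nat_lit 39) (nat_lit 5) (nat_lit 389) (nat_lit 377) (nat_lit 134))) (XT.nd (nat_lit 78) (nat_lit 0) (nat_lit 0) (XT.lf (nat_lit 0) (nat_lit 681395264436) (nat_lit 228) (nat_lit 845878051803) (nat_lit 304) (nat_lit 1128455394943) (nat_lit 35) (nat_lit 5) (nat_lit 38) (nat_lit 5) (nat_lit 39) (nat_lit 5) (nat_lit 390) (nat_lit 377) (nat_lit 133)) (XT.lf (nat_lit 0) (nat_lit 1965040709691) (nat_lit 304) (nat_lit 636109314702) (nat_lit 76) (nat_lit 182044085761) (nat_lit 35) (nat_lit 5) (nat_lit 39) (nat_lit 5) (nat_lit 36) (nat_lit 5) (nat_lit 391) (nat_lit 377) (nat_lit 132))))) (XT.nd (nat_lit 45786) (nat_lit 0) (nat_lit 1672) (XT.nd (nat_lit 234) (nat_lit 456) (nat_lit 0) (XT.nd (nat_lit 78) (nat_lit 0) (nat_lit 0) (XT.lf (nat_lit 0) (nat_lit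 828654544387) (nat_lit 152) (nat_lit 1651074969327) (nat_lit 228) (nat_lit 437775225806) (nat_lit 33) (nat_lit 5) (nat_lit 35) (nat_lit 5) (nat_lit 36) (nat_lit 5) (nat_lit 392) (nat_lit 377) (nat_lit 131)) (XT.lf (nat_lit 0) (nat_lit 2446775611199) (nat_lit 152) (nat_lit 606210165741) (nat_lit 228) (nat_lit 8183053906) (nat_lit 33) (nat_lit 5) (nat_lit 35) (nat_lit 5) (nat_lit 36) (nat_lit 5) (nat_lit 393) (nat_lit 377) (nat_lit 130))) (XT.nd (nat_lit 78) (nat_lit 152) (nat_lit 0) (XT.lf (nat_lit 0) (nat_lit 1020931041919) (nat_lit 304) (nat_lit 605198994853) (nat_lit 76) (nat_lit 1746969310744) (nat_lit 29) (nat_lit 5) (nat_lit 33) (nat_lit 5) (nat_lit 30) (nat_lit 5) (nat_lit 395) (nat_lit 377) (nat_lit 128)) (XT.lf (nat_lit 0) (nat_lit 1186234062525) (nat_lit 152) (nat_lit 457216470814) (nat_lit 228) (nat_lit 1900908739425) (nat_lit 27) (nat_lit 5) (nat_lit 29) (nat_lit 5) (nat_lit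 30) (nat_lit 5) (nat_lit 396) (nat_lit 377) (nat_lit 127)))) (XT.nd (nat_lit 156) (nat_lit 0) (nat_lit 76) (XT.nd (nat_lit 78) (nat_lit 0) (nat_lit 0) (XT.lf (nat_lit 0) (nat_lit 569942709572) (nat_lit 532) (nat_lit 127779682567) (nat_lit 532) (nat_lit 127779682567) (nat_lit 49) (nat_lit 3) (nat_lit 56) (nat_lit 3) (nat_lit 56) (nat_lit 5) (nat_lit 378) (nat_lit 378) (nat_lit 144)) (XT.lf (nat_lit 76) (nat_lit 537734137056) (nat_lit 0) (nat_lit 660679239854) (nat_lit 532) (nat_lit 517596335143) (nat_lit 50) (nat_lit 5) (nat_lit 49) (nat_lit 3) (nat_lit 56) (nat_lit 5) (nat_lit 379) (nat_lit 378) (nat_lit 143))) (XT.nd (nat_lit 78) (nat_lit 0) (nat_lit 0) (XT.lf (nat_lit 0) (nat_lit 1271987974846) (nat_lit 456) (nat_lit 380008678366) (nat_lit 532) (nat_lit 133389914216) (nat_lit 50) (nat_lit 5) (nat_lit 56) (nat_lit 5) (nat_lit 57) (nat_lit 5) (nat_lit 380) (nat_lit 378) (nat_lit 142))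 (XT.nd (nat_lit 78) (nat_lit 0) (nat_lit 0) (XT.lf (nat_lit 76) (nat_lit 489442989492) (nat_lit 0) (nat_lit 890937164478) (nat_lit 532) (nat_lit 477618888199) (nat_lit 51) (nat_lit 5) (nat_lit 50) (nat_lit 5) (nat_lit 57) (nat_lit 5) (nat_lit 381) (nat_lit 378) (nat_lit 141)) (XT.lf (nat_lit 76) (nat_lit 1450062219711) (nat_lit 0) (nat_lit 57771596482) (nat_lit 532) (nat_lit 427755490000) (nat_lit 51) (nat_lit 5) (nat_lit 50) (nat_lit 5) (nat_lit 57) (nat_lit 5) (nat_lit 382) (nat_lit 378) (nat_lit 140))))))))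
noncomputable def xc253 : XT := (XT.nd (nat_lit 46878) (nat_lit 0) (nat_lit 304) (XT.nd (nat_lit 624) (nat_lit 684) (nat_lit 0) (XT.nd (nat_lit 312) (nat_lit 532) (nat_lit 0) (XT.nd (nat_lit 156) (nat_lit 456) (nat_lit 0) (XT.nd (nat_lit 78) (nat_lit 0) (nat_lit 0) (XT.lf (nat_lit 76) (nat_lit 471478188278) (nat_lit 0) (nat_lit 1205595898927) (nat_lit 532) (nat_lit 339785478872) (nat_lit 52) (nat_lit 5) (nat_lit 51) (nat_lit 5) (nat_lit 58) (nat_lit 5) (nat_lit 383) (nat_lit 378) (nat_lit 139)) (XT.lf (nat_lit 76) (nat_lit 1531076661464) (nat_lit 0) (nat_lit 343514659795) (nat_lit 532) (nat_lit 228861106190) (nat_lit 52) (nat_lit 5) (nat_lit 51) (nat_lit 5) (nat_lit 58) (nat_lit 5) (nat_lit 384) (nat_lit 378) (nat_lit 138))) (XT.nd (nat_lit 78) (nat_lit 76) (nat_lit 0) (XT.lf (nat_lit 0) (nat_lit 488791435964) (nat_lit 456) (nat_lit 1625004126986) (nat_lit 532) (nat_lit 81106304469) (nat_lit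 46) (nat_lit 5) (nat_lit 52) (nat_lit 5) (nat_lit 53) (nat_lit 5) (nat_lit 385) (nat_lit 378) (nat_lit 137)) (XT.lf (nat_lit 0) (nat_lit 99522262586) (nat_lit 532) (nat_lit 636227876206) (nat_lit 76) (nat_lit 1555767852526) (nat_lit 45) (nat_lit 5) (nat_lit 52) (nat_lit 5) (nat_lit 46) (nat_lit 5) (nat_lit 386) (nat_lit 378) (nat_lit 136)))) (XT.nd (nat_lit 156) (nat_lit 228) (nat_lit 0) (XT.nd (nat_lit 78) (nat_lit 0) (nat_lit 0) (XT.lf (nat_lit 0) (nat_lit 309108854617) (nat_lit 380) (nat_lit 1856074745894) (nat_lit 76) (nat_lit 229000105102) (nat_lit 41) (nat_lit 5) (nat_lit 46) (nat_lit 5) (nat_lit 42) (nat_lit 5) (nat_lit 387) (nat_lit 378) (nat_lit 135)) (XT.lf (nat_lit 0) (nat_lit 572420197238) (nat_lit 380) (nat_lit 680657671979) (nat_lit 76) (nat_lit 1249028181978) (nat_lit 41) (nat_lit 5) (nat_lit 46) (nat_lit 5) (nat_lit 42) (nat_lit 5) (nat_lit 388) (nat_lit 378) (nat_lit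 134))) (XT.nd (nat_lit 78) (nat_lit 0) (nat_lit 0) (XT.lf (nat_lit 0) (nat_lit 619797550205) (nat_lit 228) (nat_lit 251905041831) (nat_lit 304) (nat_lit 1745767100811) (nat_lit 38) (nat_lit 5) (nat_lit 41) (nat_lit 5) (nat_lit 42) (nat_lit 5) (nat_lit 389) (nat_lit 378) (nat_lit 133)) (XT.lf (nat_lit 0) (nat_lit 1233967517620) (nat_lit 304) (nat_lit 698004354529) (nat_lit 76) (nat_lit 806967358548) (nat_lit 38) (nat_lit 5) (nat_lit 42) (nat_lit 5) (nat_lit 39) (nat_lit 5) (nat_lit 390) (nat_lit 378) (nat_lit 132))))) (XT.nd (nat_lit 312) (nat_lit 304) (nat_lit 0) (XT.nd (nat_lit 156) (nat_lit 152) (nat_lit 0) (XT.nd (nat_lit 78) (nat_lit 0) (nat_lit 0) (XT.lf (nat_lit 0) (nat_lit 735906911425) (nat_lit 228) (nat_lit 913548291763) (nat_lit 304) (nat_lit 1218731803114) (nat_lit 35) (nat_lit 5) (nat_lit 38) (nat_lit 5) (nat_lit 39) (nat_lit 5) (nat_lit 391) (nat_lit 378) (nat_lit 131)) (XT.lf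 (nat_lit 0) (nat_lit 2122243986606) (nat_lit 304) (nat_lit 686998034408) (nat_lit 76) (nat_lit 196607616302) (nat_lit 35) (nat_lit 5) (nat_lit 39) (nat_lit 5) (nat_lit 36) (nat_lit 5) (nat_lit 392) (nat_lit 378) (nat_lit 130))) (XT.nd (nat_lit 78) (nat_lit 0) (nat_lit 0) (XT.lf (nat_lit 0) (nat_lit 894946932764) (nat_lit 152) (nat_lit 1783160961292) (nat_lit 228) (nat_lit 472797223050) (nat_lit 33) (nat_lit 5) (nat_lit 35) (nat_lit 5) (nat_lit 36) (nat_lit 5) (nat_lit 393) (nat_lit 378) (nat_lit 129)) (XT.lf (nat_lit 0) (nat_lit 2642517683082) (nat_lit 152) (nat_lit 654706973833) (nat_lit 228) (nat_lit 8837678940) (nat_lit 33) (nat_lit 5) (nat_lit 35) (nat_lit 5) (nat_lit 36) (nat_lit 5) (nat_lit 394) (nat_lit 378) (nat_lit 128)))) (XT.nd (nat_lit 45708) (nat_lit 0) (nat_lit 1520) (XT.nd (nat_lit 45630) (nat_lit 0) (nat_lit 1520) (XT.lf (nat_lit 0) (nat_lit 508615008339) (nat_lit 304)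 (nat_lit 2385707716335) (nat_lit 76) (nat_lit 575082327408) (nat_lit 29) (nat_lit 5) (nat_lit 33) (nat_lit 5) (nat_lit 30) (nat_lit 5) (nat_lit 395) (nat_lit 378) (nat_lit 127)) (XT.lf (nat_lit 0) (nat_lit 615538147878) (nat_lit 532) (nat_lit 138002045513) (nat_lit 532) (nat_lit 138002045513) (nat_lit 49) (nat_lit 3) (nat_lit 56) (nat_lit 3) (nat_lit 56) (nat_lit 5) (nat_lit 379) (nat_lit 379) (nat_lit 142))) (XT.nd (nat_lit 78) (nat_lit 0) (nat_lit 76) (XT.lf (nat_lit 76) (nat_lit 580752890748) (nat_lit 0) (nat_lit 713533596752) (nat_lit 532) (nat_lit 559003998183) (nat_lit 50) (nat_lit 5) (nat_lit 49) (nat_lit 3) (nat_lit 56) (nat_lit 5) (nat_lit 380) (nat_lit 379) (nat_lit 141)) (XT.nd (nat_lit 78) (nat_lit 0) (nat_lit 0) (XT.lf (nat_lit 0) (nat_lit 1373747049881) (nat_lit 456) (nat_lit 410409348109) (nat_lit 532) (nat_lit 144061091776) (nat_lit 50) (nat_lit 5) (nat_lit 56) (nat_lit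 5) (nat_lit 57) (nat_lit 5) (nat_lit 381) (nat_lit 379) (nat_lit 140)) (XT.lf (nat_lit 76) (nat_lit 528598452556) (nat_lit 0) (nat_lit 962212148609) (nat_lit 532) (nat_lit 515828361502) (nat_lit 51) (nat_lit 5) (nat_lit 50) (nat_lit 5) (nat_lit 57) (nat_lit 5) (nat_lit 382) (nat_lit 379) (nat_lit 139))))))) (XT.nd (nat_lit 702) (nat_lit 380) (nat_lit 0) (XT.nd (nat_lit 312) (nat_lit 608) (nat_lit 0) (XT.nd (nat_lit 156) (nat_lit 304) (nat_lit 0) (XT.nd (nat_lit 78) (nat_lit 0) (nat_lit 76) (XT.lf (nat_lit 76) (nat_lit 1566067219422) (nat_lit 0) (nat_lit 62393334361) (nat_lit 532) (nat_lit 461975894243) (nat_lit 51) (nat_lit 5) (nat_lit 50) (nat_lit 5) (nat_lit 57) (nat_lit 5) (nat_lit 383) (nat_lit 379) (nat_lit 138)) (XT.lf (nat_lit 76) (nat_lit 509196467747) (nat_lit 0) (nat_lit 1302043576697) (nat_lit 532) (nat_lit 366968284425) (nat_lit 52) (nat_lit 5) (nat_lit 51) (nat_lit 5) (nat_lit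 58) (nat_lit 5) (nat_lit 384) (nat_lit 379) (nat_lit 137))) (XT.nd (nat_lit 78) (nat_lit 380) (nat_lit 0) (XT.lf (nat_lit 76) (nat_lit 1653562816980) (nat_lit 0) (nat_lit 370995838001) (nat_lit 532) (nat_lit 247169964354) (nat_lit 52) (nat_lit 5) (nat_lit 51) (nat_lit 5) (nat_lit 58) (nat_lit 5) (nat_lit 385) (nat_lit 379) (nat_lit 136)) (XT.lf (nat_lit 0) (nat_lit 527894775246) (nat_lit 456) (nat_lit 1755004459152) (nat_lit 532) (nat_lit 87594780240) (nat_lit 46) (nat_lit 5) (nat_lit 52) (nat_lit 5) (nat_lit 53) (nat_lit 5) (nat_lit 386) (nat_lit 379) (nat_lit 135)))) (XT.nd (nat_lit 156) (nat_lit 228) (nat_lit 0) (XT.nd (nat_lit 78) (nat_lit 304) (nat_lit 0) (XT.lf (nat_lit 0) (nat_lit 107484068738) (nat_lit 532) (nat_lit 687126082327) (nat_lit 76) (nat_lit 1680229277492) (nat_lit 45) (nat_lit 5) (nat_lit 52) (nat_lit 5) (nat_lit 46) (nat_lit 5) (nat_lit 387) (nat_lit 379) (nat_lit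 134)) (XT.lf (nat_lit 0) (nat_lit 333837586819) (nat_lit 380) (nat_lit 2004560700229) (nat_lit 76) (nat_lit 247320113057) (nat_lit 41) (nat_lit 5) (nat_lit 46) (nat_lit 5) (nat_lit 42) (nat_lit 5) (nat_lit 388) (nat_lit 379) (nat_lit 133))) (XT.nd (nat_lit 78) (nat_lit 228) (nat_lit 0) (XT.lf (nat_lit 0) (nat_lit 618213835086) (nat_lit 380) (nat_lit 735110262278) (nat_lit 76) (nat_lit 1348950436117) (nat_lit 41) (nat_lit 5) (nat_lit 46) (nat_lit 5) (nat_lit 42) (nat_lit 5) (nat_lit 389) (nat_lit 379) (nat_lit 132)) (XT.nd (nat_lit 78) (nat_lit 0) (nat_lit 0) (XT.lf (nat_lit 0) (nat_lit 669381377088) (nat_lit 228) (nat_lit 272057443295) (nat_lit 304) (nat_lit 1885428446171) (nat_lit 38) (nat_lit 5) (nat_lit 41) (nat_lit 5) (nat_lit 42) (nat_lit 5) (nat_lit 390) (nat_lit 379) (nat_lit 131)) (XT.lf (nat_lit 0) (nat_lit 1332684938500) (nat_lit 304) (nat_lit 753844680168) (nat_lit 76) (nat_lit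 871524748888) (nat_lit 38) (nat_lit 5) (nat_lit 42) (nat_lit 5) (nat_lit 39) (nat_lit 5) (nat_lit 391) (nat_lit 379) (nat_lit 130)))))) (XT.nd (nat_lit 45942) (nat_lit 0) (nat_lit 1216) (XT.nd (nat_lit 156) (nat_lit 152) (nat_lit 0) (XT.nd (nat_lit 78) (nat_lit 0) (nat_lit 0) (XT.lf (nat_lit 0) (nat_lit 794779486488) (nat_lit 228) (nat_lit 986632151517) (nat_lit 304) (nat_lit 1316230327280) (nat_lit 35) (nat_lit 5) (nat_lit 38) (nat_lit 5) (nat_lit 39) (nat_lit 5) (nat_lit 392) (nat_lit 379) (nat_lit 129)) (XT.lf (nat_lit 0) (nat_lit 2292023522801) (nat_lit 304) (nat_lit 741957855324) (nat_lit 76) (nat_lit 212336228762) (nat_lit 35) (nat_lit 5) (nat_lit 39) (nat_lit 5) (nat_lit 36) (nat_lit 5) (nat_lit 393) (nat_lit 379) (nat_lit 128))) (XT.nd (nat_lit 78) (nat_lit 0) (nat_lit 0) (XT.lf (nat_lit 0) (nat_lit 966542708669) (nat_lit 152) (nat_lit 1925813833411) (nat_lit 228) (nat_lit 510620983043)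 (nat_lit 33) (nat_lit 5) (nat_lit 35) (nat_lit 5) (nat_lit 36) (nat_lit 5) (nat_lit 394) (nat_lit 379) (nat_lit 127)) (XT.lf (nat_lit 0) (nat_lit 2853919117436) (nat_lit 152) (nat_lit 707083527309) (nat_lit 228) (nat_lit 9544676727) (nat_lit 33) (nat_lit 5) (nat_lit 35) (nat_lit 5) (nat_lit 36) (nat_lit 5) (nat_lit 395) (nat_lit 379) (nat_lit 126)))) (XT.nd (nat_lit 156) (nat_lit 0) (nat_lit 76) (XT.nd (nat_lit 78) (nat_lit 0) (nat_lit 0) (XT.lf (nat_lit 0) (nat_lit 664781218177) (nat_lit 532) (nat_lit 149042199159) (nat_lit 532) (nat_lit 149042199159) (nat_lit 49) (nat_lit 3) (nat_lit 56) (nat_lit 3) (nat_lit 56) (nat_lit 5) (nat_lit 380) (nat_lit 380) (nat_lit 140)) (XT.lf (nat_lit 76) (nat_lit 627213141493) (nat_lit 0) (nat_lit 770616299675) (nat_lit 532) (nat_lit 603724280511) (nat_lit 50) (nat_lit 5) (nat_lit 49) (nat_lit 3) (nat_lit 56) (nat_lit 5) (nat_lit 381) (nat_lit 380) (nat_lit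 139))) (XT.nd (nat_lit 78) (nat_lit 0) (nat_lit 0) (XT.lf (nat_lit 0) (nat_lit 1483646845633) (nat_lit 456) (nat_lit 443242074931) (nat_lit 532) (nat_lit 155585965763) (nat_lit 50) (nat_lit 5) (nat_lit 56) (nat_lit 5) (nat_lit 57) (nat_lit 5) (nat_lit 382) (nat_lit 380) (nat_lit 138)) (XT.nd (nat_lit 78) (nat_lit 0) (nat_lit 0) (XT.lf (nat_lit 76) (nat_lit 570886349255) (nat_lit 0) (nat_lit 1039189129906) (nat_lit 532) (nat_lit 557094598054) (nat_lit 51) (nat_lit 5) (nat_lit 50) (nat_lit 5) (nat_lit 57) (nat_lit 5) (nat_lit 383) (nat_lit 380) (nat_lit 137)) (XT.lf (nat_lit 76) (nat_lit 1691352615952) (nat_lit 0) (nat_lit 67384809820) (nat_lit 532) (nat_lit 498933935813) (nat_lit 51) (nat_lit 5) (nat_lit 50) (nat_lit 5) (nat_lit 57) (nat_lit 5) (nat_lit 384) (nat_lit 380) (nat_lit 136))))))))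
noncomputable def xc254 : XT := (XT.nd (nat_lit 47190) (nat_lit 0) (nat_lit 0) (XT.nd (nat_lit 702) (nat_lit 228) (nat_lit 0) (XT.nd (nat_lit 312) (nat_lit 532) (nat_lit 0) (XT.nd (nat_lit 156) (nat_lit 456) (nat_lit 0) (XT.nd (nat_lit 78) (nat_lit 0) (nat_lit 0) (XT.lf (nat_lit 76) (nat_lit 549932206092) (nat_lit 0) (nat_lit 1406207067854) (nat_lit 532) (nat_lit 396325719095) (nat_lit 52) (nat_lit 5) (nat_lit 51) (nat_lit 5) (nat_lit 58) (nat_lit 5) (nat_lit 385) (nat_lit 380) (nat_lit 135)) (XT.lf (nat_lit 76) (nat_lit 1785847861713) (nat_lit 0) (nat_lit 400675509690) (nat_lit 532) (nat_lit 266943535499) (nat_lit 52) (nat_lit 5) (nat_lit 51) (nat_lit 5) (nat_lit 58) (nat_lit 5) (nat_lit 386) (nat_lit 380) (nat_lit 134))) (XT.nd (nat_lit 78) (nat_lit 76) (nat_lit 0) (XT.lf (nat_lit 0) (nat_lit 570126378189) (nat_lit 456) (nat_lit 1895404817605) (nat_lit 532) (nat_lit 94602338150) (nat_lit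 46) (nat_lit 5) (nat_lit 52) (nat_lit 5) (nat_lit 53) (nat_lit 5) (nat_lit 387) (nat_lit 380) (nat_lit 133)) (XT.lf (nat_lit 0) (nat_lit 116082815796) (nat_lit 532) (nat_lit 742096148359) (nat_lit 76) (nat_lit 1814647616917) (nat_lit 45) (nat_lit 5) (nat_lit 52) (nat_lit 5) (nat_lit 46) (nat_lit 5) (nat_lit 388) (nat_lit 380) (nat_lit 132)))) (XT.nd (nat_lit 156) (nat_lit 228) (nat_lit 0) (XT.nd (nat_lit 78) (nat_lit 0) (nat_lit 0) (XT.lf (nat_lit 0) (nat_lit 360544614199) (nat_lit 380) (nat_lit 2164925534525) (nat_lit 76) (nat_lit 267105721713) (nat_lit 41) (nat_lit 5) (nat_lit 46) (nat_lit 5) (nat_lit 42) (nat_lit 5) (nat_lit 389) (nat_lit 380) (nat_lit 131)) (XT.lf (nat_lit 0) (nat_lit 667670960812) (nat_lit 380) (nat_lit 793919063147) (nat_lit 76) (nat_lit 1456866470647) (nat_lit 41) (nat_lit 5) (nat_lit 46) (nat_lit 5) (nat_lit 42) (nat_lit 5) (nat_lit 390) (nat_lit 380) (nat_lit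 130))) (XT.nd (nat_lit 78) (nat_lit 0) (nat_lit 0) (XT.lf (nat_lit 0) (nat_lit 722931906859) (nat_lit 228) (nat_lit 293822037145) (nat_lit 304) (nat_lit 2036262702399) (nat_lit 38) (nat_lit 5) (nat_lit 41) (nat_lit 5) (nat_lit 42) (nat_lit 5) (nat_lit 391) (nat_lit 380) (nat_lit 129)) (XT.lf (nat_lit 0) (nat_lit 1439299750273) (nat_lit 304) (nat_lit 814152235099) (nat_lit 76) (nat_lit 941246730219) (nat_lit 38) (nat_lit 5) (nat_lit 42) (nat_lit 5) (nat_lit 39) (nat_lit 5) (nat_lit 392) (nat_lit 380) (nat_lit 128))))) (XT.nd (nat_lit 46098) (nat_lit 0) (nat_lit 836) (XT.nd (nat_lit 45942) (nat_lit 0) (nat_lit 1064) (XT.nd (nat_lit 45864) (nat_lit 0) (nat_lit 1064) (XT.lf (nat_lit 0) (nat_lit 2475385419428) (nat_lit 304) (nat_lit 801314465028) (nat_lit 76) (nat_lit 229323129769) (nat_lit 35) (nat_lit 5) (nat_lit 39) (nat_lit 5) (nat_lit 36) (nat_lit 5) (nat_lit 394) (nat_lit 380) (nat_lit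 126)) (XT.lf (nat_lit 0) (nat_lit 717963731464) (nat_lit 532) (nat_lit 160965566522) (nat_lit 532) (nat_lit 160965566522) (nat_lit 49) (nat_lit 3) (nat_lit 56) (nat_lit 3) (nat_lit 56) (nat_lit 5) (nat_lit 381) (nat_lit 381) (nat_lit 138))) (XT.nd (nat_lit 78) (nat_lit 0) (nat_lit 76) (XT.lf (nat_lit 76) (nat_lit 677390209518) (nat_lit 0) (nat_lit 832265616666) (nat_lit 532) (nat_lit 652022190779) (nat_lit 50) (nat_lit 5) (nat_lit 49) (nat_lit 3) (nat_lit 56) (nat_lit 5) (nat_lit 382) (nat_lit 381) (nat_lit 137)) (XT.lf (nat_lit 0) (nat_lit 1602338620515) (nat_lit 456) (nat_lit 478701422899) (nat_lit 532) (nat_lit 168032831574) (nat_lit 50) (nat_lit 5) (nat_lit 56) (nat_lit 5) (nat_lit 57) (nat_lit 5) (nat_lit 383) (nat_lit 381) (nat_lit 136)))) (XT.nd (nat_lit 156) (nat_lit 304) (nat_lit 0) (XT.nd (nat_lit 78) (nat_lit 0) (nat_lit 0) (XT.lf (nat_lit 76) (nat_lit 616557274766) (nat_lit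 0) (nat_lit 1122324268364) (nat_lit 532) (nat_lit 601662138149) (nat_lit 51) (nat_lit 5) (nat_lit 50) (nat_lit 5) (nat_lit 57) (nat_lit 5) (nat_lit 384) (nat_lit 381) (nat_lit 135)) (XT.lf (nat_lit 76) (nat_lit 1826660841497) (nat_lit 0) (nat_lit 72775602074) (nat_lit 532) (nat_lit 538848624983) (nat_lit 51) (nat_lit 5) (nat_lit 50) (nat_lit 5) (nat_lit 57) (nat_lit 5) (nat_lit 385) (nat_lit 381) (nat_lit 134))) (XT.nd (nat_lit 78) (nat_lit 380) (nat_lit 0) (XT.lf (nat_lit 76) (nat_lit 593926800520) (nat_lit 0) (nat_lit 1518703637586) (nat_lit 532) (nat_lit 428031752545) (nat_lit 52) (nat_lit 5) (nat_lit 51) (nat_lit 5) (nat_lit 58) (nat_lit 5) (nat_lit 386) (nat_lit 381) (nat_lit 133)) (XT.nd (nat_lit 78) (nat_lit 380) (nat_lit 0) (XT.lf (nat_lit 76) (nat_lit 1928715707261) (nat_lit 0) (nat_lit 432729554451) (nat_lit 532) (nat_lit 288298996045) (nat_lit 52) (nat_lit 5) (nat_lit 51) (nat_lit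 5) (nat_lit 58) (nat_lit 5) (nat_lit 387) (nat_lit 381) (nat_lit 132)) (XT.lf (nat_lit 0) (nat_lit 615736506382) (nat_lit 456) (nat_lit 2047037204489) (nat_lit 532) (nat_lit 102170504189) (nat_lit 46) (nat_lit 5) (nat_lit 52) (nat_lit 5) (nat_lit 53) (nat_lit 5) (nat_lit 388) (nat_lit 381) (nat_lit 131))))))) (XT.nd (nat_lit 46488) (nat_lit 0) (nat_lit 228) (XT.nd (nat_lit 312) (nat_lit 228) (nat_lit 0) (XT.nd (nat_lit 156) (nat_lit 228) (nat_lit 0) (XT.nd (nat_lit 78) (nat_lit 304) (nat_lit 0) (XT.lf (nat_lit 0) (nat_lit 125369459542) (nat_lit 532) (nat_lit 801463822605) (nat_lit 76) (nat_lit 1959819423892) (nat_lit 45) (nat_lit 5) (nat_lit 52) (nat_lit 5) (nat_lit 46) (nat_lit 5) (nat_lit 389) (nat_lit 381) (nat_lit 130)) (XT.lf (nat_lit 0) (nat_lit 389388200853) (nat_lit 380) (nat_lit 2338119558664) (nat_lit 76) (nat_lit 288474179117) (nat_lit 41) (nat_lit 5) (nat_lit 46) (nat_lit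 5) (nat_lit 42) (nat_lit 5) (nat_lit 390) (nat_lit 381) (nat_lit 129))) (XT.nd (nat_lit 78) (nat_lit 228) (nat_lit 0) (XT.lf (nat_lit 0) (nat_lit 721084653898) (nat_lit 380) (nat_lit 857432570955) (nat_lit 76) (nat_lit 1573415787990) (nat_lit 41) (nat_lit 5) (nat_lit 46) (nat_lit 5) (nat_lit 42) (nat_lit 5) (nat_lit 391) (nat_lit 381) (nat_lit 128)) (XT.lf (nat_lit 0) (nat_lit 780766476215) (nat_lit 228) (nat_lit 317327798733) (nat_lit 304) (nat_lit 2199163701903) (nat_lit 38) (nat_lit 5) (nat_lit 41) (nat_lit 5) (nat_lit 42) (nat_lit 5) (nat_lit 392) (nat_lit 381) (nat_lit 127)))) (XT.nd (nat_lit 46020) (nat_lit 0) (nat_lit 1064) (XT.nd (nat_lit 78) (nat_lit 228) (nat_lit 0) (XT.lf (nat_lit 0) (nat_lit 1554443744607) (nat_lit 304) (nat_lit 879284397204) (nat_lit 76) (nat_lit 1016546469854) (nat_lit 38) (nat_lit 5) (nat_lit 42) (nat_lit 5) (nat_lit 39) (nat_lit 5) (nat_lit 393) (nat_lit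 381) (nat_lit 126)) (XT.lf (nat_lit 0) (nat_lit 927030829828) (nat_lit 228) (nat_lit 1150807735571) (nat_lit 304) (nat_lit 1535251020383) (nat_lit 35) (nat_lit 5) (nat_lit 38) (nat_lit 5) (nat_lit 39) (nat_lit 5) (nat_lit 394) (nat_lit 381) (nat_lit 125))) (XT.nd (nat_lit 78) (nat_lit 0) (nat_lit 0) (XT.lf (nat_lit 0) (nat_lit 775400843555) (nat_lit 532) (nat_lit 173842804496) (nat_lit 532) (nat_lit 173842804496) (nat_lit 49) (nat_lit 3) (nat_lit 56) (nat_lit 3) (nat_lit 56) (nat_lit 5) (nat_lit 382) (nat_lit 382) (nat_lit 136)) (XT.lf (nat_lit 76) (nat_lit 731581440602) (nat_lit 0) (nat_lit 898846877159) (nat_lit 532) (nat_lit 704183938458) (nat_lit 50) (nat_lit 5) (nat_lit 49) (nat_lit 3) (nat_lit 56) (nat_lit 5) (nat_lit 383) (nat_lit 382) (nat_lit 135))))) (XT.nd (nat_lit 312) (nat_lit 912) (nat_lit 0) (XT.nd (nat_lit 156) (nat_lit 0) (nat_lit 0) (XT.nd (nat_lit 78) (nat_lit 0) (nat_lit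 0) (XT.lf (nat_lit 0) (nat_lit 1730525733502) (nat_lit 456) (nat_lit 516997521275) (nat_lit 532) (nat_lit 181475448284) (nat_lit 50) (nat_lit 5) (nat_lit 56) (nat_lit 5) (nat_lit 57) (nat_lit 5) (nat_lit 384) (nat_lit 382) (nat_lit 134)) (XT.lf (nat_lit 76) (nat_lit 665881871811) (nat_lit 0) (nat_lit 1212110216748) (nat_lit 532) (nat_lit 649795085410) (nat_lit 51) (nat_lit 5) (nat_lit 50) (nat_lit 5) (nat_lit 57) (nat_lit 5) (nat_lit 385) (nat_lit 382) (nat_lit 133))) (XT.nd (nat_lit 78) (nat_lit 0) (nat_lit 76) (XT.lf (nat_lit 76) (nat_lit 1972793722765) (nat_lit 0) (nat_lit 78597656643) (nat_lit 532) (nat_lit 581956492953) (nat_lit 51) (nat_lit 5) (nat_lit 50) (nat_lit 5) (nat_lit 57) (nat_lit 5) (nat_lit 386) (nat_lit 382) (nat_lit 132)) (XT.lf (nat_lit 76) (nat_lit 641440959942) (nat_lit 0) (nat_lit 1640199932284) (nat_lit 532) (nat_lit 462274272106) (nat_lit 52) (nat_lit 5) (nat_lit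 51) (nat_lit 5) (nat_lit 58) (nat_lit 5) (nat_lit 387) (nat_lit 382) (nat_lit 131)))) (XT.nd (nat_lit 156) (nat_lit 608) (nat_lit 0) (XT.nd (nat_lit 78) (nat_lit 380) (nat_lit 0) (XT.lf (nat_lit 76) (nat_lit 2083012978083) (nat_lit 0) (nat_lit 467347922224) (nat_lit 532) (nat_lit 311362896615) (nat_lit 52) (nat_lit 5) (nat_lit 51) (nat_lit 5) (nat_lit 58) (nat_lit 5) (nat_lit 388) (nat_lit 382) (nat_lit 130)) (XT.lf (nat_lit 0) (nat_lit 664995442272) (nat_lit 456) (nat_lit 2210800182113) (nat_lit 532) (nat_lit 110344126509) (nat_lit 46) (nat_lit 5) (nat_lit 52) (nat_lit 5) (nat_lit 53) (nat_lit 5) (nat_lit 389) (nat_lit 382) (nat_lit 129))) (XT.nd (nat_lit 78) (nat_lit 532) (nat_lit 0) (XT.lf (nat_lit 0) (nat_lit 135399032152) (nat_lit 532) (nat_lit 865580913306) (nat_lit 76) (nat_lit 2116604975764) (nat_lit 45) (nat_lit 5) (nat_lit 52) (nat_lit 5) (nat_lit 46) (nat_lit 5) (nat_lit 390)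 (nat_lit 382) (nat_lit 128)) (XT.nd (nat_lit 156) (nat_lit 228) (nat_lit 0) (XT.lf (nat_lit 0) (nat_lit 420539271940) (nat_lit 380) (nat_lit 2525169107391) (nat_lit 76) (nat_lit 311552113161) (nat_lit 41) (nat_lit 5) (nat_lit 46) (nat_lit 5) (nat_lit 42) (nat_lit 5) (nat_lit 391) (nat_lit 382) (nat_lit 127)) (XT.lf (nat_lit 0) (nat_lit 843227808721) (nat_lit 228) (nat_lit 342714021445) (nat_lit 304) (nat_lit 2375096783747) (nat_lit 38) (nat_lit 5) (nat_lit 41) (nat_lit 5) (nat_lit 42) (nat_lit 5) (nat_lit 393) (nat_lit 382) (nat_lit 125))))))))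
noncomputable def xc255 : XT := (XT.nd (nat_lit 47580) (nat_lit 0) (nat_lit 304) (XT.nd (nat_lit 624) (nat_lit 380) (nat_lit 0) (XT.nd (nat_lit 312) (nat_lit 228) (nat_lit 0) (XT.nd (nat_lit 156) (nat_lit 0) (nat_lit 76) (XT.nd (nat_lit 78) (nat_lit 0) (nat_lit 0) (XT.lf (nat_lit 0) (nat_lit 837432922678) (nat_lit 532) (nat_lit 187750222557) (nat_lit 532) (nat_lit 187750222557) (nat_lit 49) (nat_lit 3) (nat_lit 56) (nat_lit 3) (nat_lit 56) (nat_lit 5) (nat_lit 383) (nat_lit 383) (nat_lit 134)) (XT.lf (nat_lit 76) (nat_lit 790107968129) (nat_lit 0) (nat_lit 970754636900) (nat_lit 532) (nat_lit 760518629886) (nat_lit 50) (nat_lit 5) (nat_lit 49) (nat_lit 3) (nat_lit 56) (nat_lit 5) (nat_lit 384) (nat_lit 383) (nat_lit 133))) (XT.nd (nat_lit 78) (nat_lit 0) (nat_lit 0) (XT.lf (nat_lit 0) (nat_lit 1868967812198) (nat_lit 456) (nat_lit 558357309727) (nat_lit 532) (nat_lit 195993475730) (nat_lit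 50) (nat_lit 5) (nat_lit 56) (nat_lit 5) (nat_lit 57) (nat_lit 5) (nat_lit 385) (nat_lit 383) (nat_lit 132)) (XT.lf (nat_lit 76) (nat_lit 719152434471) (nat_lit 0) (nat_lit 1309079040016) (nat_lit 532) (nat_lit 701778671846) (nat_lit 51) (nat_lit 5) (nat_lit 50) (nat_lit 5) (nat_lit 57) (nat_lit 5) (nat_lit 386) (nat_lit 383) (nat_lit 131)))) (XT.nd (nat_lit 156) (nat_lit 304) (nat_lit 0) (XT.nd (nat_lit 78) (nat_lit 0) (nat_lit 76) (XT.lf (nat_lit 76) (nat_lit 2130617232545) (nat_lit 0) (nat_lit 84885474664) (nat_lit 532) (nat_lit 628512993503) (nat_lit 51) (nat_lit 5) (nat_lit 50) (nat_lit 5) (nat_lit 57) (nat_lit 5) (nat_lit 387) (nat_lit 383) (nat_lit 130)) (XT.lf (nat_lit 76) (nat_lit 692756249923) (nat_lit 0) (nat_lit 1771415930030) (nat_lit 532) (nat_lit 499256196177) (nat_lit 52) (nat_lit 5) (nat_lit 51) (nat_lit 5) (nat_lit 58) (nat_lit 5) (nat_lit 388) (nat_lit 383) (nat_lit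 129))) (XT.nd (nat_lit 78) (nat_lit 380) (nat_lit 0) (XT.lf (nat_lit 76) (nat_lit 2249654028540) (nat_lit 0) (nat_lit 504735758931) (nat_lit 532) (nat_lit 336271911958) (nat_lit 52) (nat_lit 5) (nat_lit 51) (nat_lit 5) (nat_lit 58) (nat_lit 5) (nat_lit 389) (nat_lit 383) (nat_lit 128)) (XT.lf (nat_lit 0) (nat_lit 718195090839) (nat_lit 456) (nat_lit 2387664197766) (nat_lit 532) (nat_lit 119171641185) (nat_lit 46) (nat_lit 5) (nat_lit 52) (nat_lit 5) (nat_lit 53) (nat_lit 5) (nat_lit 390) (nat_lit 383) (nat_lit 127))))) (XT.nd (nat_lit 46488) (nat_lit 0) (nat_lit 684) (XT.nd (nat_lit 46332) (nat_lit 0) (nat_lit 608) (XT.nd (nat_lit 156) (nat_lit 304) (nat_lit 0) (XT.lf (nat_lit 0) (nat_lit 146230968309) (nat_lit 532) (nat_lit 934827373417) (nat_lit 76) (nat_lit 2285933372077) (nat_lit 45) (nat_lit 5) (nat_lit 52) (nat_lit 5) (nat_lit 46) (nat_lit 5) (nat_lit 391) (nat_lit 383) (nat_lit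 126)) (XT.lf (nat_lit 0) (nat_lit 841073167249) (nat_lit 380) (nat_lit 1000109322121) (nat_lit 76) (nat_lit 1835232174599) (nat_lit 41) (nat_lit 5) (nat_lit 46) (nat_lit 5) (nat_lit 42) (nat_lit 5) (nat_lit 393) (nat_lit 383) (nat_lit 124))) (XT.nd (nat_lit 78) (nat_lit 0) (nat_lit 0) (XT.lf (nat_lit 0) (nat_lit 904427566470) (nat_lit 532) (nat_lit 202770234961) (nat_lit 532) (nat_lit 202770234961) (nat_lit 49) (nat_lit 3) (nat_lit 56) (nat_lit 3) (nat_lit 56) (nat_lit 5) (nat_lit 384) (nat_lit 384) (nat_lit 132)) (XT.lf (nat_lit 76) (nat_lit 853316616106) (nat_lit 0) (nat_lit 1048415016055) (nat_lit 532) (nat_lit 821360100002) (nat_lit 50) (nat_lit 5) (nat_lit 49) (nat_lit 3) (nat_lit 56) (nat_lit 5) (nat_lit 385) (nat_lit 384) (nat_lit 131)))) (XT.nd (nat_lit 156) (nat_lit 0) (nat_lit 0) (XT.nd (nat_lit 78) (nat_lit 0) (nat_lit 0) (XT.lf (nat_lit 0) (nat_lit 2018485254334) (nat_lit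 456) (nat_lit 603025883145) (nat_lit 532) (nat_lit 211672946573) (nat_lit 50) (nat_lit 5) (nat_lit 56) (nat_lit 5) (nat_lit 57) (nat_lit 5) (nat_lit 386) (nat_lit 384) (nat_lit 130)) (XT.lf (nat_lit 76) (nat_lit 776684640302) (nat_lit 0) (nat_lit 1413805368300) (nat_lit 532) (nat_lit 757920948106) (nat_lit 51) (nat_lit 5) (nat_lit 50) (nat_lit 5) (nat_lit 57) (nat_lit 5) (nat_lit 387) (nat_lit 384) (nat_lit 129))) (XT.nd (nat_lit 78) (nat_lit 0) (nat_lit 76) (XT.lf (nat_lit 76) (nat_lit 2301066621401) (nat_lit 0) (nat_lit 91676317343) (nat_lit 532) (nat_lit 678794016792) (nat_lit 51) (nat_lit 5) (nat_lit 50) (nat_lit 5) (nat_lit 57) (nat_lit 5) (nat_lit 388) (nat_lit 384) (nat_lit 128)) (XT.nd (nat_lit 78) (nat_lit 0) (nat_lit 0) (XT.lf (nat_lit 76) (nat_lit 748176761222) (nat_lit 0) (nat_lit 1913129207145) (nat_lit 532) (nat_lit 539196676699) (nat_lit 52) (nat_lit 5) (nat_lit 51) (nat_lit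 5) (nat_lit 58) (nat_lit 5) (nat_lit 389) (nat_lit 384) (nat_lit 127)) (XT.lf (nat_lit 76) (nat_lit 2429626361291) (nat_lit 0) (nat_lit 545114622157) (nat_lit 532) (nat_lit 363173650865) (nat_lit 52) (nat_lit 5) (nat_lit 51) (nat_lit 5) (nat_lit 58) (nat_lit 5) (nat_lit 390) (nat_lit 384) (nat_lit 126))))))) (XT.nd (nat_lit 93366) (nat_lit 0) (nat_lit 304) (XT.nd (nat_lit 46566) (nat_lit 0) (nat_lit 304) (XT.nd (nat_lit 46410) (nat_lit 0) (nat_lit 304) (XT.nd (nat_lit 46332) (nat_lit 0) (nat_lit 304) (XT.lf (nat_lit 0) (nat_lit 157929457422) (nat_lit 532) (nat_lit 1009613552186) (nat_lit 76) (nat_lit 2468808040344) (nat_lit 45) (nat_lit 5) (nat_lit 52) (nat_lit 5) (nat_lit 46) (nat_lit 5) (nat_lit 392) (nat_lit 384) (nat_lit 124)) (XT.lf (nat_lit 0) (nat_lit 976781780341) (nat_lit 532) (nat_lit 218991849128) (nat_lit 532) (nat_lit 218991849128) (nat_lit 49) (nat_lit 3) (nat_lit 56) (nat_lit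 3) (nat_lit 56) (nat_lit 5) (nat_lit 385) (nat_lit 385) (nat_lit 130))) (XT.nd (nat_lit 78) (nat_lit 0) (nat_lit 76) (XT.lf (nat_lit 76) (nat_lit 921581954420) (nat_lit 0) (nat_lit 1132288224372) (nat_lit 532) (nat_lit 887068890620) (nat_lit 50) (nat_lit 5) (nat_lit 49) (nat_lit 3) (nat_lit 56) (nat_lit 5) (nat_lit 386) (nat_lit 385) (nat_lit 129)) (XT.lf (nat_lit 0) (nat_lit 2179964089393) (nat_lit 456) (nat_lit 651267944057) (nat_lit 532) (nat_lit 228606776113) (nat_lit 50) (nat_lit 5) (nat_lit 56) (nat_lit 5) (nat_lit 57) (nat_lit 5) (nat_lit 387) (nat_lit 385) (nat_lit 128)))) (XT.nd (nat_lit 156) (nat_lit 76) (nat_lit 0) (XT.nd (nat_lit 78) (nat_lit 0) (nat_lit 0) (XT.lf (nat_lit 76) (nat_lit 838819421019) (nat_lit 0) (nat_lit 1526909802122) (nat_lit 532) (nat_lit 818554608962) (nat_lit 51) (nat_lit 5) (nat_lit 50) (nat_lit 5) (nat_lit 57) (nat_lit 5) (nat_lit 388) (nat_lit 385)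 (nat_lit 127)) (XT.lf (nat_lit 76) (nat_lit 2485151959902) (nat_lit 0) (nat_lit 99010426766) (nat_lit 532) (nat_lit 733097524253) (nat_lit 51) (nat_lit 5) (nat_lit 50) (nat_lit 5) (nat_lit 57) (nat_lit 5) (nat_lit 389) (nat_lit 385) (nat_lit 126))) (XT.nd (nat_lit 78) (nat_lit 152) (nat_lit 0) (XT.lf (nat_lit 76) (nat_lit 808030911812) (nat_lit 0) (nat_lit 2066179546042) (nat_lit 532) (nat_lit 582332397826) (nat_lit 52) (nat_lit 5) (nat_lit 51) (nat_lit 5) (nat_lit 58) (nat_lit 5) (nat_lit 390) (nat_lit 385) (nat_lit 125)) (XT.nd (nat_lit 46488) (nat_lit 152) (nat_lit 0) (XT.lf (nat_lit 76) (nat_lit 2623996479168) (nat_lit 0) (nat_lit 588723794083) (nat_lit 532) (nat_lit 392227530890) (nat_lit 52) (nat_lit 5) (nat_lit 51) (nat_lit 5) (nat_lit 58) (nat_lit 5) (nat_lit 391) (nat_lit 385) (nat_lit 124)) (XT.lf (nat_lit 0) (nat_lit 1054924330102) (nat_lit 532) (nat_lit 236511193089) (nat_lit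 532) (nat_lit 236511193089) (nat_lit 49) (nat_lit 3) (nat_lit 56) (nat_lit 3) (nat_lit 56) (nat_lit 5) (nat_lit 386) (nat_lit 386) (nat_lit 128)))))) (XT.nd (nat_lit 46878) (nat_lit 0) (nat_lit 0) (XT.nd (nat_lit 156) (nat_lit 0) (nat_lit 76) (XT.nd (nat_lit 78) (nat_lit 0) (nat_lit 76) (XT.lf (nat_lit 76) (nat_lit 995308518512) (nat_lit 0) (nat_lit 1222871288352) (nat_lit 532) (nat_lit 958034386967) (nat_lit 50) (nat_lit 5) (nat_lit 49) (nat_lit 3) (nat_lit 56) (nat_lit 5) (nat_lit 387) (nat_lit 386) (nat_lit 127)) (XT.lf (nat_lit 0) (nat_lit 2354361229157) (nat_lit 456) (nat_lit 703369371232) (nat_lit 532) (nat_lit 246895312899) (nat_lit 50) (nat_lit 5) (nat_lit 56) (nat_lit 5) (nat_lit 57) (nat_lit 5) (nat_lit 388) (nat_lit 386) (nat_lit 126))) (XT.nd (nat_lit 156) (nat_lit 0) (nat_lit 76) (XT.lf (nat_lit 76) (nat_lit 905924982839) (nat_lit 0) (nat_lit 1649062590028) (nat_lit 532)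 (nat_lit 884038964826) (nat_lit 51) (nat_lit 5) (nat_lit 50) (nat_lit 5) (nat_lit 57) (nat_lit 5) (nat_lit 389) (nat_lit 386) (nat_lit 125)) (XT.lf (nat_lit 76) (nat_lit 872673393067) (nat_lit 0) (nat_lit 2231473911720) (nat_lit 532) (nat_lit 628918978500) (nat_lit 52) (nat_lit 5) (nat_lit 51) (nat_lit 5) (nat_lit 58) (nat_lit 5) (nat_lit 391) (nat_lit 386) (nat_lit 123)))) (XT.nd (nat_lit 156) (nat_lit 0) (nat_lit 0) (XT.nd (nat_lit 78) (nat_lit 0) (nat_lit 0) (XT.lf (nat_lit 0) (nat_lit 1139318282798) (nat_lit 532) (nat_lit 255432085133) (nat_lit 532) (nat_lit 255432085133) (nat_lit 49) (nat_lit 3) (nat_lit 56) (nat_lit 3) (nat_lit 56) (nat_lit 5) (nat_lit 387) (nat_lit 387) (nat_lit 126)) (XT.lf (nat_lit 76) (nat_lit 1074933206626) (nat_lit 0) (nat_lit 1320700996589) (nat_lit 532) (nat_lit 1034677125148) (nat_lit 50) (nat_lit 5) (nat_lit 49) (nat_lit 3) (nat_lit 56) (nat_lit 5) (nat_lit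 388) (nat_lit 387) (nat_lit 125))) (XT.nd (nat_lit 78) (nat_lit 76) (nat_lit 0) (XT.lf (nat_lit 0) (nat_lit 2542710138304) (nat_lit 456) (nat_lit 759638913771) (nat_lit 532) (nat_lit 266646933384) (nat_lit 50) (nat_lit 5) (nat_lit 56) (nat_lit 5) (nat_lit 57) (nat_lit 5) (nat_lit 389) (nat_lit 387) (nat_lit 124)) (XT.nd (nat_lit 46800) (nat_lit 76) (nat_lit 0) (XT.lf (nat_lit 76) (nat_lit 978398988444) (nat_lit 0) (nat_lit 1780987600433) (nat_lit 532) (nat_lit 954762070992) (nat_lit 51) (nat_lit 5) (nat_lit 50) (nat_lit 5) (nat_lit 57) (nat_lit 5) (nat_lit 390) (nat_lit 387) (nat_lit 123)) (XT.lf (nat_lit 76) (nat_lit 1160927868844) (nat_lit 0) (nat_lit 1426357080748) (nat_lit 532) (nat_lit 1117451284206) (nat_lit 50) (nat_lit 5) (nat_lit 49) (nat_lit 3) (nat_lit 56) (nat_lit 5) (nat_lit 389) (nat_lit 388) (nat_lit 123))))))))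

set_option maxRecDepth 10000000 in
noncomputable def Tp : PT := (PT.nd (nat_lit 7183254) (PT.nd (nat_lit 6809166) (PT.nd (nat_lit 6434610) pc0 pc1) (PT.nd (nat_lit 233766) pc2 pc3)) (PT.nd (nat_lit 187590) (PT.nd (nat_lit 94068) pc4 pc5) (PT.nd (nat_lit 141882) pc6 pc7)))

set_option maxRecDepth 10000000 in
noncomputable def Tx : XT := (XT.nd (nat_lit 11423646) (nat_lit 0) (nat_lit 76) XT.nil (XT.nd (nat_lit 6795438) (nat_lit 0) (nat_lit 0) (XT.nd (nat_lit 3134898) (nat_lit 0) (nat_lit 0) (XT.nd (nat_lit 2152956) (nat_lit 0) (nat_lit 0) (XT.nd (nat_lit 1498380) (nat_lit 0) (nat_lit 0) (XT.nd (nat_lit 1031238) (nat_lit 0) (nat_lit 0) (XT.nd (nat_lit 747708) (nat_lit 0) (nat_lit 0) (XT.nd (nat_lit 514332) (nat_lit 0) (nat_lit 0) (XT.nd (nat_lit 327990) (nat_lit 0) (nat_lit 0) (XT.nd (nat_lit 233922) (nat_lit 0) (nat_lit 0) xc0 xc1) (XT.nd (nat_lit 93444) (nat_lit 0) (nat_lit 0) xc2 xc3))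 (XT.nd (nat_lit 94848) (nat_lit 0) (nat_lit 0) (XT.nd (nat_lit 47502) (nat_lit 0) (nat_lit 0) xc4 xc5) (XT.nd (nat_lit 47190) (nat_lit 0) (nat_lit 0) xc6 xc7))) (XT.nd (nat_lit 142428) (nat_lit 0) (nat_lit 0) (XT.nd (nat_lit 93288) (nat_lit 0) (nat_lit 0) (XT.nd (nat_lit 46722) (nat_lit 0) (nat_lit 0) xc8 xc9) (XT.nd (nat_lit 2652) (nat_lit 0) (nat_lit 0) xc10 xc11)) (XT.nd (nat_lit 92430) (nat_lit 0) (nat_lit 0) (XT.nd (nat_lit 46254) (nat_lit 0) (nat_lit 0) xc12 xc13) (XT.nd (nat_lit 45942) (nat_lit 0) (nat_lit 0) xc14 xc15)))) (XT.nd (nat_lit 277836) (nat_lit 0) (nat_lit 0) (XT.nd (nat_lit 139620) (nat_lit 0) (nat_lit 0) (XT.nd (nat_lit 91416) (nat_lit 0) (nat_lit 0) (XT.nd (nat_lit 45786) (nat_lit 0) (nat_lit 0) xc16 xc17) (XT.nd (nat_lit 45474) (nat_lit 0) (nat_lit 0) xc18 xc19)) (XT.nd (nat_lit 47970) (nat_lit 0) (nat_lit 0) (XT.nd (nat_lit 45318) (nat_lit 0) (nat_lit 0) xc20 xc21)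 (XT.nd (nat_lit 45162) (nat_lit 0) (nat_lit 0) xc22 xc23))) (XT.nd (nat_lit 94926) (nat_lit 0) (nat_lit 0) (XT.nd (nat_lit 47502) (nat_lit 0) (nat_lit 0) (XT.nd (nat_lit 2652) (nat_lit 0) (nat_lit 0) xc24 xc25) (XT.nd (nat_lit 2652) (nat_lit 0) (nat_lit 0) xc26 xc27)) (XT.nd (nat_lit 47268) (nat_lit 0) (nat_lit 0) (XT.nd (nat_lit 44538) (nat_lit 0) (nat_lit 0) xc28 xc29) (XT.nd (nat_lit 44382) (nat_lit 0) (nat_lit 0) xc30 xc31))))) (XT.nd (nat_lit 371670) (nat_lit 0) (nat_lit 0) (XT.nd (nat_lit 187044) (nat_lit 0) (nat_lit 0) (XT.nd (nat_lit 93834) (nat_lit 0) (nat_lit 0) (XT.nd (nat_lit 46956) (nat_lit 0) (nat_lit 0) (XT.nd (nat_lit 44304) (nat_lit 0) (nat_lit 0) xc32 xc33) (XT.nd (nat_lit 44148) (nat_lit 0) (nat_lit 0) xc34 xc35)) (XT.nd (nat_lit 46644) (nat_lit 0) (nat_lit 0) (XT.nd (nat_lit 43992) (nat_lit 0) (nat_lit 0) xc36 xc37) (XT.nd (nat_lit 43836) (nat_lit 0) (nat_lit 0) xc38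 xc39))) (XT.nd (nat_lit 92586) (nat_lit 0) (nat_lit 0) (XT.nd (nat_lit 46332) (nat_lit 0) (nat_lit 0) (XT.nd (nat_lit 43680) (nat_lit 0) (nat_lit 0) xc40 xc41) (XT.nd (nat_lit 2652) (nat_lit 0) (nat_lit 0) xc42 xc43)) (XT.nd (nat_lit 46098) (nat_lit 0) (nat_lit 0) (XT.nd (nat_lit 2652) (nat_lit 0) (nat_lit 0) xc44 xc45) (XT.nd (nat_lit 2652) (nat_lit 0) (nat_lit 0) xc46 xc47)))) (XT.nd (nat_lit 142116) (nat_lit 0) (nat_lit 0) (XT.nd (nat_lit 51090) (nat_lit 0) (nat_lit 0) (XT.nd (nat_lit 45708) (nat_lit 0) (nat_lit 0) (XT.nd (nat_lit 2652) (nat_lit 0) (nat_lit 0) xc48 xc49) (XT.nd (nat_lit 2652) (nat_lit 0) (nat_lit 0) xc50 xc51)) (XT.nd (nat_lit 45552) (nat_lit 0) (nat_lit 0) (XT.nd (nat_lit 42900) (nat_lit 0) (nat_lit 0) xc52 xc53) (XT.nd (nat_lit 42744) (nat_lit 0) (nat_lit 0) xc54 xc55))) (XT.nd (nat_lit 90402) (nat_lit 0) (nat_lit 0) (XT.nd (nat_lit 45240) (nat_lit 0) (nat_lit 0)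 (XT.nd (nat_lit 2652) (nat_lit 0) (nat_lit 0) xc56 xc57) (XT.nd (nat_lit 2652) (nat_lit 0) (nat_lit 0) xc58 xc59)) (XT.nd (nat_lit 5382) (nat_lit 0) (nat_lit 0) (XT.nd (nat_lit 2652) (nat_lit 152) (nat_lit 0) xc60 xc61) (XT.nd (nat_lit 42276) (nat_lit 0) (nat_lit 0) xc62 xc63)))))) (XT.nd (nat_lit 511758) (nat_lit 0) (nat_lit 0) (XT.nd (nat_lit 277446) (nat_lit 0) (nat_lit 0) (XT.nd (nat_lit 139308) (nat_lit 0) (nat_lit 0) (XT.nd (nat_lit 50154) (nat_lit 0) (nat_lit 0) (XT.nd (nat_lit 44772) (nat_lit 0) (nat_lit 0) (XT.nd (nat_lit 2652) (nat_lit 0) (nat_lit 0) xc64 xc65) (XT.nd (nat_lit 2652) (nat_lit 0) (nat_lit 0) xc66 xc67)) (XT.nd (nat_lit 44616) (nat_lit 0) (nat_lit 0) (XT.nd (nat_lit 41964) (nat_lit 0) (nat_lit 0) xc68 xc69) (XT.nd (nat_lit 41808) (nat_lit 0) (nat_lit 228) xc70 xc71))) (XT.nd (nat_lit 49686) (nat_lit 0) (nat_lit 0) (XT.nd (nat_lit 44304) (nat_lit 0) (nat_lit 0)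 (XT.nd (nat_lit 2652) (nat_lit 0) (nat_lit 0) xc72 xc73) (XT.nd (nat_lit 2652) (nat_lit 228) (nat_lit 0) xc74 xc75)) (XT.nd (nat_lit 44304) (nat_lit 0) (nat_lit 0) (XT.nd (nat_lit 41574) (nat_lit 0) (nat_lit 228) xc76 xc77) (XT.nd (nat_lit 2652) (nat_lit 0) (nat_lit 0) xc78 xc79)))) (XT.nd (nat_lit 98436) (nat_lit 0) (nat_lit 0) (XT.nd (nat_lit 49296) (nat_lit 0) (nat_lit 0) (XT.nd (nat_lit 5304) (nat_lit 0) (nat_lit 0) (XT.nd (nat_lit 2652) (nat_lit 228) (nat_lit 0) xc80 xc81) (XT.nd (nat_lit 41262) (nat_lit 0) (nat_lit 380) xc82 xc83)) (XT.nd (nat_lit 43758) (nat_lit 0) (nat_lit 0) (XT.nd (nat_lit 2652) (nat_lit 0) (nat_lit 0) xc84 xc85) (XT.nd (nat_lit 2652) (nat_lit 456) (nat_lit 0) xc86 xc87))) (XT.nd (nat_lit 48984) (nat_lit 0) (nat_lit 0) (XT.nd (nat_lit 43602) (nat_lit 0) (nat_lit 0) (XT.nd (nat_lit 40950) (nat_lit 0) (nat_lit 836) xc88 xc89) (XT.nd (nat_lit 2652) (nat_lit 152)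 (nat_lit 0) xc90 xc91)) (XT.nd (nat_lit 43524) (nat_lit 0) (nat_lit 0) (XT.nd (nat_lit 40794) (nat_lit 0) (nat_lit 152) xc92 xc93) (XT.nd (nat_lit 2652) (nat_lit 0) (nat_lit 0) xc94 xc95))))) (XT.nd (nat_lit 233922) (nat_lit 0) (nat_lit 0) (XT.nd (nat_lit 97578) (nat_lit 0) (nat_lit 0) (XT.nd (nat_lit 48750) (nat_lit 0) (nat_lit 0) (XT.nd (nat_lit 5304) (nat_lit 0) (nat_lit 0) (XT.nd (nat_lit 2652) (nat_lit 380) (nat_lit 0) xc96 xc97) (XT.nd (nat_lit 40716) (nat_lit 0) (nat_lit 684) xc98 xc99)) (XT.nd (nat_lit 5304) (nat_lit 0) (nat_lit 0) (XT.nd (nat_lit 2652) (nat_lit 76) (nat_lit 0) xc100 xc101) (XT.nd (nat_lit 40794) (nat_lit 0) (nat_lit 152) xc102 xc103))) (XT.nd (nat_lit 48906) (nat_lit 0) (nat_lit 0) (XT.nd (nat_lit 43524) (nat_lit 0) (nat_lit 0) (XT.nd (nat_lit 2652) (nat_lit 0) (nat_lit 0) xc104 xc105) (XT.nd (nat_lit 2652) (nat_lit 304) (nat_lit 0) xc106 xc107)) (XT.nd (nat_lit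 43680) (nat_lit 0) (nat_lit 0) (XT.nd (nat_lit 40950) (nat_lit 0) (nat_lit 456) xc108 xc109) (XT.nd (nat_lit 2652) (nat_lit 0) (nat_lit 0) xc110 xc111)))) (XT.nd (nat_lit 98514) (nat_lit 0) (nat_lit 0) (XT.nd (nat_lit 49218) (nat_lit 0) (nat_lit 0) (XT.nd (nat_lit 5304) (nat_lit 76) (nat_lit 0) (XT.nd (nat_lit 2652) (nat_lit 608) (nat_lit 0) xc112 xc113) (XT.nd (nat_lit 41184) (nat_lit 0) (nat_lit 912) xc114 xc115)) (XT.nd (nat_lit 5304) (nat_lit 0) (nat_lit 0) (XT.nd (nat_lit 2652) (nat_lit 152) (nat_lit 0) xc116 xc117) (XT.nd (nat_lit 41262) (nat_lit 0) (nat_lit 152) xc118 xc119))) (XT.nd (nat_lit 49374) (nat_lit 0) (nat_lit 0) (XT.nd (nat_lit 43992) (nat_lit 0) (nat_lit 0) (XT.nd (nat_lit 2652) (nat_lit 0) (nat_lit 0) xc120 xc121) (XT.nd (nat_lit 2652) (nat_lit 228) (nat_lit 0) xc122 xc123)) (XT.nd (nat_lit 44148) (nat_lit 0) (nat_lit 0) (XT.nd (nat_lit 41418) (nat_lit 0) (nat_lit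 228) xc124 xc125) (XT.nd (nat_lit 2652) (nat_lit 0) (nat_lit 0) xc126 xc127))))))) (XT.nd (nat_lit 1129830) (nat_lit 0) (nat_lit 152) (XT.nd (nat_lit 518622) (nat_lit 0) (nat_lit 0) (XT.nd (nat_lit 238290) (nat_lit 0) (nat_lit 0) (XT.nd (nat_lit 99294) (nat_lit 0) (nat_lit 0) (XT.nd (nat_lit 49608) (nat_lit 0) (nat_lit 0) (XT.nd (nat_lit 5304) (nat_lit 0) (nat_lit 0) (XT.nd (nat_lit 2652) (nat_lit 228) (nat_lit 0) xc128 xc129) (XT.nd (nat_lit 41574) (nat_lit 0) (nat_lit 228) xc130 xc131)) (XT.nd (nat_lit 44304) (nat_lit 0) (nat_lit 0) (XT.nd (nat_lit 2652) (nat_lit 0) (nat_lit 0) xc132 xc133) (XT.nd (nat_lit 2652) (nat_lit 228) (nat_lit 0) xc134 xc135))) (XT.nd (nat_lit 88920) (nat_lit 0) (nat_lit 0) (XT.nd (nat_lit 44382) (nat_lit 0) (nat_lit 0) (XT.nd (nat_lit 41730) (nat_lit 0) (nat_lit 228) xc136 xc137) (XT.nd (nat_lit 2652) (nat_lit 0) (nat_lit 0) xc138 xc139)) (XT.nd (nat_lit 44694)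 (nat_lit 0) (nat_lit 152) (XT.nd (nat_lit 2652) (nat_lit 152) (nat_lit 0) xc140 xc141) (XT.nd (nat_lit 2652) (nat_lit 760) (nat_lit 0) xc142 xc143)))) (XT.nd (nat_lit 139776) (nat_lit 0) (nat_lit 0) (XT.nd (nat_lit 89544) (nat_lit 0) (nat_lit 0) (XT.nd (nat_lit 44694) (nat_lit 0) (nat_lit 0) (XT.nd (nat_lit 42042) (nat_lit 0) (nat_lit 684) xc144 xc145) (XT.nd (nat_lit 2652) (nat_lit 0) (nat_lit 0) xc146 xc147)) (XT.nd (nat_lit 5304) (nat_lit 0) (nat_lit 0) (XT.nd (nat_lit 2652) (nat_lit 456) (nat_lit 0) xc148 xc149) (XT.nd (nat_lit 42198) (nat_lit 0) (nat_lit 228) xc150 xc151))) (XT.nd (nat_lit 90012) (nat_lit 0) (nat_lit 0) (XT.nd (nat_lit 44928) (nat_lit 0) (nat_lit 0) (XT.nd (nat_lit 2652) (nat_lit 0) (nat_lit 0) xc152 xc153) (XT.nd (nat_lit 2652) (nat_lit 152) (nat_lit 0) xc154 xc155)) (XT.nd (nat_lit 5382) (nat_lit 0) (nat_lit 0) (XT.nd (nat_lit 2652) (nat_lit 684) (nat_lit 0) xc156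 xc157) (XT.nd (nat_lit 42432) (nat_lit 0) (nat_lit 380) xc158 xc159))))) (XT.nd (nat_lit 283530) (nat_lit 0) (nat_lit 0) (XT.nd (nat_lit 141336) (nat_lit 0) (nat_lit 0) (XT.nd (nat_lit 90558) (nat_lit 0) (nat_lit 0) (XT.nd (nat_lit 45162) (nat_lit 0) (nat_lit 0) (XT.nd (nat_lit 2652) (nat_lit 0) (nat_lit 0) xc160 xc161) (XT.nd (nat_lit 2652) (nat_lit 152) (nat_lit 0) xc162 xc163)) (XT.nd (nat_lit 5304) (nat_lit 0) (nat_lit 0) (XT.nd (nat_lit 2652) (nat_lit 608) (nat_lit 0) xc164 xc165) (XT.nd (nat_lit 42744) (nat_lit 0) (nat_lit 228) xc166 xc167))) (XT.nd (nat_lit 91104) (nat_lit 0) (nat_lit 0) (XT.nd (nat_lit 45474) (nat_lit 0) (nat_lit 0) (XT.nd (nat_lit 42822) (nat_lit 0) (nat_lit 684) xc168 xc169) (XT.nd (nat_lit 2652) (nat_lit 152) (nat_lit 0) xc170 xc171)) (XT.nd (nat_lit 45708) (nat_lit 0) (nat_lit 0) (XT.nd (nat_lit 2652) (nat_lit 228) (nat_lit 0) xc172 xc173) (XT.nd (nat_lit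 2652) (nat_lit 684) (nat_lit 0) xc174 xc175)))) (XT.nd (nat_lit 183612) (nat_lit 0) (nat_lit 0) (XT.nd (nat_lit 91572) (nat_lit 0) (nat_lit 0) (XT.nd (nat_lit 45708) (nat_lit 0) (nat_lit 0) (XT.nd (nat_lit 43056) (nat_lit 0) (nat_lit 228) xc176 xc177) (XT.nd (nat_lit 43134) (nat_lit 0) (nat_lit 532) xc178 xc179)) (XT.nd (nat_lit 45942) (nat_lit 0) (nat_lit 0) (XT.nd (nat_lit 43290) (nat_lit 0) (nat_lit 988) xc180 xc181) (XT.nd (nat_lit 2652) (nat_lit 152) (nat_lit 0) xc182 xc183))) (XT.nd (nat_lit 92352) (nat_lit 0) (nat_lit 76) (XT.nd (nat_lit 46098) (nat_lit 0) (nat_lit 0) (XT.nd (nat_lit 2652) (nat_lit 228) (nat_lit 0) xc184 xc185) (XT.nd (nat_lit 2652) (nat_lit 532) (nat_lit 0) xc186 xc187)) (XT.nd (nat_lit 5382) (nat_lit 76) (nat_lit 0) (XT.nd (nat_lit 2652) (nat_lit 760) (nat_lit 0) xc188 xc189) (XT.nd (nat_lit 43602) (nat_lit 0) (nat_lit 76) xc190 xc191)))))) (XT.nd (nat_lit 796614)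 (nat_lit 0) (nat_lit 228) (XT.nd (nat_lit 374088) (nat_lit 0) (nat_lit 0) (XT.nd (nat_lit 186264) (nat_lit 0) (nat_lit 0) (XT.nd (nat_lit 92976) (nat_lit 0) (nat_lit 0) (XT.nd (nat_lit 46410) (nat_lit 0) (nat_lit 0) (XT.nd (nat_lit 43758) (nat_lit 0) (nat_lit 76) xc192 xc193) (XT.nd (nat_lit 43836) (nat_lit 0) (nat_lit 228) xc194 xc195)) (XT.nd (nat_lit 46566) (nat_lit 0) (nat_lit 0) (XT.nd (nat_lit 43914) (nat_lit 0) (nat_lit 380) xc196 xc197) (XT.nd (nat_lit 43992) (nat_lit 0) (nat_lit 456) xc198 xc199))) (XT.nd (nat_lit 93678) (nat_lit 0) (nat_lit 0) (XT.nd (nat_lit 46722) (nat_lit 0) (nat_lit 0) (XT.nd (nat_lit 44070) (nat_lit 0) (nat_lit 532) xc200 xc201) (XT.nd (nat_lit 44226) (nat_lit 0) (nat_lit 532) xc202 xc203)) (XT.nd (nat_lit 47034) (nat_lit 0) (nat_lit 0) (XT.nd (nat_lit 44304) (nat_lit 0) (nat_lit 532) xc204 xc205) (XT.nd (nat_lit 44382) (nat_lit 0) (nat_lit 456) xc206 xc207))))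 (XT.nd (nat_lit 231348) (nat_lit 0) (nat_lit 76) (XT.nd (nat_lit 94380) (nat_lit 0) (nat_lit 76) (XT.nd (nat_lit 47112) (nat_lit 0) (nat_lit 0) (XT.nd (nat_lit 44460) (nat_lit 0) (nat_lit 380) xc208 xc209) (XT.nd (nat_lit 44538) (nat_lit 0) (nat_lit 304) xc210 xc211)) (XT.nd (nat_lit 47268) (nat_lit 0) (nat_lit 0) (XT.nd (nat_lit 44616) (nat_lit 0) (nat_lit 152) xc212 xc213) (XT.nd (nat_lit 44772) (nat_lit 0) (nat_lit 0) xc214 xc215))) (XT.nd (nat_lit 95316) (nat_lit 0) (nat_lit 76) (XT.nd (nat_lit 47580) (nat_lit 0) (nat_lit 0) (XT.nd (nat_lit 2652) (nat_lit 760) (nat_lit 0) xc216 xc217) (XT.nd (nat_lit 2652) (nat_lit 456) (nat_lit 0) xc218 xc219)) (XT.nd (nat_lit 47892) (nat_lit 0) (nat_lit 0) (XT.nd (nat_lit 2652) (nat_lit 76) (nat_lit 0) xc220 xc221) (XT.nd (nat_lit 45240) (nat_lit 0) (nat_lit 380) xc222 xc223))))) (XT.nd (nat_lit 560898) (nat_lit 0) (nat_lit 380) (XT.nd (nat_lit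 278694) (nat_lit 0) (nat_lit 152) (XT.nd (nat_lit 138918) (nat_lit 0) (nat_lit 76) (XT.nd (nat_lit 90714) (nat_lit 0) (nat_lit 0) (XT.nd (nat_lit 45318) (nat_lit 0) (nat_lit 0) xc224 xc225) (XT.nd (nat_lit 2652) (nat_lit 532) (nat_lit 0) xc226 xc227)) (XT.nd (nat_lit 48204) (nat_lit 0) (nat_lit 0) (XT.nd (nat_lit 45552) (nat_lit 0) (nat_lit 532) xc228 xc229) (XT.nd (nat_lit 45708) (nat_lit 0) (nat_lit 0) xc230 xc231))) (XT.nd (nat_lit 140634) (nat_lit 0) (nat_lit 152) (XT.nd (nat_lit 48516) (nat_lit 0) (nat_lit 0) (XT.nd (nat_lit 2652) (nat_lit 304) (nat_lit 0) xc232 xc233) (XT.nd (nat_lit 45942) (nat_lit 0) (nat_lit 76) xc234 xc235)) (XT.nd (nat_lit 48906) (nat_lit 0) (nat_lit 0) (XT.nd (nat_lit 2652) (nat_lit 304) (nat_lit 0) xc236 xc237) (XT.nd (nat_lit 46254) (nat_lit 0) (nat_lit 0) xc238 xc239)))) (XT.nd (nat_lit 375024) (nat_lit 0) (nat_lit 608) (XT.nd (nat_lit 142428) (nat_lit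 0) (nat_lit 228) (XT.nd (nat_lit 93054) (nat_lit 0) (nat_lit 152) (XT.nd (nat_lit 46488) (nat_lit 0) (nat_lit 76) xc240 xc241) (XT.nd (nat_lit 2652) (nat_lit 152) (nat_lit 0) xc242 xc243)) (XT.nd (nat_lit 93756) (nat_lit 0) (nat_lit 152) (XT.nd (nat_lit 46800) (nat_lit 0) (nat_lit 0) xc244 xc245) (XT.nd (nat_lit 47034) (nat_lit 0) (nat_lit 0) xc246 xc247))) (XT.nd (nat_lit 235404) (nat_lit 0) (nat_lit 608) (XT.nd (nat_lit 94848) (nat_lit 0) (nat_lit 152) (XT.nd (nat_lit 47346) (nat_lit 0) (nat_lit 152) xc248 xc249) (XT.nd (nat_lit 47580) (nat_lit 0) (nat_lit 152) xc250 xc251)) (XT.nd (nat_lit 187356) (nat_lit 0) (nat_lit 608) (XT.nd (nat_lit 93444) (nat_lit 0) (nat_lit 152) xc252 xc253) (XT.nd (nat_lit 140478) (nat_lit 0) (nat_lit 456) xc254 xc255)))))))) XT.nil))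

set_option maxRecDepth 10000000 in
noncomputable def Te : XT := XT.nil

set_option maxRecDepth 10000000 in
noncomputable def Tz : ZL := (ZL.cons (nat_lit 76) (nat_lit 6) (nat_lit 229355388335299677578) (ZL.cons (nat_lit 152) (nat_lit 6) (nat_lit 221645250803227873292) (ZL.cons (nat_lit 228) (nat_lit 3) (nat_lit 110501548903352529814) (ZL.cons (nat_lit 304) (nat_lit 6) (nat_lit 213318302268590324664) (ZL.cons (nat_lit 380) (nat_lit 6) (nat_lit 206255462191840718698) (ZL.cons (nat_lit 456) (nat_lit 3) (nat_lit 102830438041974612283) (ZL.cons (nat_lit 532) (nat_lit 6) (nat_lit 198627594908951144256) (ZL.cons (nat_lit 608) (nat_lit 6) (nat_lit 192176780040336835856) (ZL.cons (nat_lit 684) (nat_lit 3) (nat_lit 95813118673922355828) (ZL.cons (nat_lit 760) (nat_lit 6) (nat_lit 185209899982233382782) (ZL.cons (nat_lit 836) (nat_lit 6) (nat_lit 179340560072172794198) (ZL.cons (nat_lit 912) (nat_lit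 3) (nat_lit 89415399159932635897) (ZL.cons (nat_lit 988) (nat_lit 6) (nat_lit 173001672969307358530) (ZL.cons (nat_lit 1064) (nat_lit 6) (nat_lit 167687980965519299798) (ZL.cons (nat_lit 1140) (nat_lit 3) (nat_lit 83607989671506167304) (ZL.cons (nat_lit 1216) (nat_lit 6) (nat_lit 161949193601428196370) (ZL.cons (nat_lit 1292) (nat_lit 6) (nat_lit 157170105162382593364) (ZL.cons (nat_lit 1368) (nat_lit 3) (nat_lit 78366533311512146131) (ZL.cons (nat_lit 1444) (nat_lit 6) (nat_lit 152850393501792292390) (ZL.cons (nat_lit 1520) (nat_lit 6) (nat_lit 152008689648213342118) (ZL.cons (nat_lit 1596) (nat_lit 6) (nat_lit 147748066368996466234) (ZL.cons (nat_lit 1672) (nat_lit 3) (nat_lit 73671700527387908532) (ZL.cons (nat_lit 1748) (nat_lit 6) (nat_lit 143925948647422749786) (ZL.cons (nat_lit 1824) (nat_lit 6) (nat_lit 143146593227442240276) (ZL.cons (nat_lit 1900) (nat_lit 6) (nat_lit 139393396193902486856)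 (ZL.cons (nat_lit 1976) (nat_lit 3) (nat_lit 69509353044071313258) (ZL.cons (nat_lit 2052) (nat_lit 6) (nat_lit 136061568786550395298) (ZL.cons (nat_lit 2128) (nat_lit 6) (nat_lit 135339943397679553162) (ZL.cons (nat_lit 2204) (nat_lit 6) (nat_lit 133131366842972027286) (ZL.cons (nat_lit 2280) (nat_lit 6) (nat_lit 132088505080850276076) (ZL.cons (nat_lit 2356) (nat_lit 3) (nat_lit 65870784898869647140) (ZL.cons (nat_lit 2432) (nat_lit 6) (nat_lit 130585426203501733230) (ZL.cons (nat_lit 2508) (nat_lit 6) (nat_lit 129245123355036547696) (ZL.cons (nat_lit 2584) (nat_lit 6) (nat_lit 128576951698674656826) (ZL.cons (nat_lit 2660) (nat_lit 6) (nat_lit 126792948550752064442) (ZL.cons (nat_lit 2736) (nat_lit 6) (nat_lit 125827335808046739248) (ZL.cons (nat_lit 2812) (nat_lit 3) (nat_lit 62753049717397915087) (ZL.cons (nat_lit 2888) (nat_lit 6) (nat_lit 124717449261749214560) (ZL.cons (nat_lit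 2964) (nat_lit 6) (nat_lit 123476428105762931658) (ZL.cons (nat_lit 3040) (nat_lit 6) (nat_lit 122857750646168588260) (ZL.cons (nat_lit 3116) (nat_lit 6) (nat_lit 123006326232982055240) (ZL.cons (nat_lit 3192) (nat_lit 6) (nat_lit 121510297286920811494) (ZL.cons (nat_lit 3268) (nat_lit 6) (nat_lit 120616211414045510388) (ZL.cons (nat_lit 3344) (nat_lit 3) (nat_lit 60159385163851038032) (ZL.cons (nat_lit 3420) (nat_lit 6) (nat_lit 121649439476131966276) (ZL.cons (nat_lit 3496) (nat_lit 6) (nat_lit 119917292205927240270) (ZL.cons (nat_lit 3572) (nat_lit 6) (nat_lit 118768198542976978320) (ZL.cons (nat_lit 3648) (nat_lit 6) (nat_lit 118195349043352586288) (ZL.cons (nat_lit 3724) (nat_lit 3) (nat_lit 58559904887605864442) (ZL.cons (nat_lit 3800) (nat_lit 6) (nat_lit 117293363792249457920) (ZL.cons (nat_lit 3876) (nat_lit 6) (nat_lit 117815054311611757506) (ZL.cons (nat_lit 3952) (nat_lit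 6) (nat_lit 118687972832672626450) (ZL.cons (nat_lit 4028) (nat_lit 6) (nat_lit 117302760845578882240) (ZL.cons (nat_lit 4104) (nat_lit 6) (nat_lit 116474903555879529364) (ZL.cons (nat_lit 4180) (nat_lit 3) (nat_lit 58099747571299285828) (ZL.cons (nat_lit 4256) (nat_lit 6) (nat_lit 115126097966333798438) (ZL.cons (nat_lit 4332) (nat_lit 6) (nat_lit 115487090321772274838) (ZL.cons (nat_lit 4408) (nat_lit 6) (nat_lit 116211214246607381574) (ZL.cons (nat_lit 4484) (nat_lit 6) (nat_lit 115147238632764546438) (ZL.cons (nat_lit 4560) (nat_lit 6) (nat_lit 114616822429408627886) (ZL.cons (nat_lit 4636) (nat_lit 3) (nat_lit 56726811265353388533) (ZL.cons (nat_lit 4712) (nat_lit 6) (nat_lit 113641060869107524430) (ZL.cons (nat_lit 4788) (nat_lit 6) (nat_lit 114204486630018807980) (ZL.cons (nat_lit 4864) (nat_lit 6) (nat_lit 113437952102519407168) (ZL.cons (nat_lit 4940) (nat_lit 3) (nat_lit 56591472156222223162)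 (ZL.cons (nat_lit 5016) (nat_lit 6) (nat_lit 112266026519823937382) (ZL.cons (nat_lit 5092) (nat_lit 6) (nat_lit 112655898263697491896) (ZL.cons (nat_lit 5168) (nat_lit 6) (nat_lit 112164772149479048792) (ZL.cons (nat_lit 5244) (nat_lit 3) (nat_lit 55676919461111027703) (ZL.cons (nat_lit 5320) (nat_lit 6) (nat_lit 111556272327694862556) (ZL.cons (nat_lit 5396) (nat_lit 3) (nat_lit 55660077001775690148) (ZL.cons (nat_lit 5472) (nat_lit 6) (nat_lit 110899092520167941424) (ZL.cons (nat_lit 5548) (nat_lit 1) (nat_lit 18446744073709551617) ZL.nil)))))))))))))))))))))))))))))))))))))))))))))))))))))))))))))))))))))))))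

noncomputable def vl : XL := ⟨(nat_lit 0), (nat_lit 76), (nat_lit 167712017), (nat_lit 228), (nat_lit 189639577), (nat_lit 76), (nat_lit 167712017), (nat_lit 1), (nat_lit 5), (nat_lit 3), (nat_lit 4), (nat_lit 1), (nat_lit 4), (nat_lit 0), (nat_lit 0), (nat_lit 0)⟩

noncomputable def cp0 : Nat := (nat_lit 478767348817106642630952831269316496784927819740233901649656261682198248337375517763747949952205954515413982744215658581060131183493800739870539000242080206963063848205616986338852939406971043132936237870538364211460961703371349697583382116509940308937826409785156264333407015209018686560161739117098139904762607132804900660865647953165678045417534110890180892910150870819746649386480948908077537743196567765030304845934029025519837749072602119434164009585670393776854883331509614226857615038754964487891744734442360142876401844953661065498263267131342487334638084660525460947430119927970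644444551492646534635471100502345042057481504940353668211156721916416763294394836276726621438344957854996009938139906041159370683737594543174984088201651900953476360048387651135421524293734558891976927227098614014002352874429300832186462097790065124265329037123661405846291874674545726197064481586306803715560042506626217140955691967875323709766928763647586086519305013529264505985201916167473134093168994686185784552138798070749505143280788715788033041292025509199081807913495200939326320266365726262184669394307743347384344759153373654662465811077759624590361481746195528103665463607732912946567989536340498999428594788516102468697954280889252590158963133215604844995766398464843577565701236693025234788079135584076311238254704819621325566347351461873571221140320493191657018274083294140790315510714861918110509177417974584439971609770431401703049305977334091246761143761247907221798068341265875296049052225536089531512481381043796130174538764960496462060646284308314258410713105377861668743766552776499868074842300545993479603912781517334745618492912083418626918563281135869572487032785096088223744)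

noncomputable def cp1 : Nat := (nat_lit 545013715501847493516411648180541625633397684496448874409539840084488982344952397820265672596276472557446903806729611264284361521265263879053259197572977120549373202012129670262336063614172520010939003838758756463419394694025563404444671770963940318896054129921370425936172674537817703600644846277067621730778693764356249473793909033248564113123011519797680536399370180555726576777410083315634801133443546890201736734992503614043876916257266260966968451362198848804116154198205074422734596970222883356984408965139699530592478683110573407428507158125304324768208212928116114248922430332682118536422517166174064481895392978117594357231697575381017262009658176903422618830689521982788397838019184650667625312574721608988607640682763243673151637024915562678131426208632810106341905783267972004355118611077408534593426331988288383988597124748036871999002020771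121398618056510552336191126032728540823410468647605518991065984300730218727712158853841825143366335058258779717650264670781882829779432207219017890858120196600421437540316213571648269874439527037395104462204498080544546977982462106589029470719050787697988042368286847907653296161088519815964389790131589471369149241860258945058682361964916528091091297692016461824125913399481536638508808326358896901444953820367046981251894197152078524241773347382541893775178312361504903142513153972022592370143271442741687717240731910978609719467514075744829342653405025790754592452069720128210004327381530731246143925666679785059712771614438096880077136006940158754173704220899146741340728846320866122627786918215412560023556001506806578365878337341765284784530702702649525262288494823964876423205093481157645747663837204435352290627269320211693568)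

noncomputable def rc0 : Nat := (nat_lit 512350198005363330914305886556862990806979256676207938435313930792616109927210463420073802402474420709059473004286474966683867905302016535678955956904284817985857076529090825222740276881993903481483150811837411778890404377486144049940085284573209535988361681710041811792259356280072242434125168727123350055991523919549315808318618367531761866974784718946219248045710819259102267814460528036940354823330535131078533650711326312805957075706618489266511386485764784295647805898754044564703970546628820315825849923994412306577398425764355903900933168608169440059365542893822916115971960104119941439333268189512747232694493946440591445671154767459071493055913619721606793616507132999364758495523007180851178910445670693022693861003226794648487149229367024701697506085454388072815461511362068801489158029530382586023779632856976911308037165989510986512023051736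156235557442363790153412449967059950505831910830438657948325169599365731979873914622305748130195698558142495831768567113453492169268325695693973622901775084570904485197266040857710943774918880300748605415765097236306742748988438934965800869106686890883064364292363925438133699292652828246873449044224130658513410477226865649524835321880507930636317279194506999717007680787006391785783413671055227879789017530038850511239403526453154562984064298287768920951948494180656423584685667799717623053858429908742629871554892798939017964004997169819188245267761350789948532967888286692631337028754582251393450265971507543431619807307923669670958533875105842726556576865883834574186684212724104659276954277212356331761653483950491371386325974215600267813407956673934685889699601736581493150883304452435867775364974204334676708993111530049372160)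

noncomputable def rc1 : Nat := (nat_lit 545013715501847493516411648180541625633397684496448874409539840084488982344952397820265672596276472557446903806729611264284361521265263879053259197572977120549373202012129670262336063614172520010939003838758756463419394694025563404444671770963940318896054129921370425936172674537817703600644846277067621730778693764356249473793909033248564113123011519797680536399370180555726576777410083315634801133443546890201736734992503614043876916257266260966968451362198848804116154198205074422734596970222883356984408965139699530592478683110573407428507158125304324768208212928116114248922430332682118536422517166174064481895392978117594357231697575381017262009658176903422618830689521982788397838019184650667625312574721608988607640682763243673151637024915562678131426208632810106341905783267972004355118611077408534593426331988288383988597124748036871999002020771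121398618056510552336191126032728540823410468647605518991065984300730218727712158853841825143366335058258779717650264670781882829779432207219017890858120196600421437540316213571648269874439527037395104462204498080544546977982462106589029470719050787697988042368286847907653296161088519815964389790131589471369149241860258945058682361964916528091091297692016461824125913399481536638508808326358896901444953820367046981251894197152078524241773347382541893775178312361504903142513153972022592370143271442741687717240731910978609719467514075744829342653405025790754592452069720128210004327381530731246143925666679785059712771614438096880077136006940158754173704220899146741340728846320866122627786918215412560023556001506806578365878337341765284784530702702649525262288494823964876423205093481157645747663837204435352290627269320211693568)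

end Vale.Agent.Lib.P154.PChain.BK.S2
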