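import Vale.Agent.Lib.P154.PChain.BK.R2_0

set_option linter.all false

namespace Vale.Agent.Lib.P154.PChain.BK.S3

open Vale.Agent.Lib.P154.Chain

noncomputable def pc0 : PT := (PT.nd (nat_lit 6106620) (PT.nd (nat_lit 5872464) (PT.nd (nat_lit 5778708) (PT.nd (nat_lit 5731830) (PT.nd (nat_lit 5685108) (PT.nd (nat_lit 5685030) PT.nil (PT.lf (nat_lit 76) (nat_lit 6) (nat_lit 1) (nat_lit 3) (nat_lit 164) (nat_lit 121) (nat_lit 165))) (PT.lf (nat_lit 76) (nat_lit 6) (nat_lit 1) (nat_lit 1) (nat_lit 165) (nat_lit 121) (nat_lit 164))) (PT.nd (nat_lit 78) (PT.lf (nat_lit 152) (nat_lit 6) (nat_lit 2) (nat_lit 3) (nat_lit 163) (nat_lit 122) (nat_lit 165)) (PT.nd (nat_lit 78) (PT.lf (nat_lit 228) (nat_lit 3) (nat_lit 3) (nat_lit 1) (nat_lit 164) (nat_lit 122) (nat_lit 164)) (PT.lf (nat_lit 152) (nat_lit 6) (nat_lit 2) (nat_lit 1) (nat_lit 165) (nat_lit 122) (nat_lit 163))))) (PT.nd (nat_lit 46878)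 (PT.nd (nat_lit 78) (PT.lf (nat_lit 304) (nat_lit 6) (nat_lit 4) (nat_lit 3) (nat_lit 163) (nat_lit 123) (nat_lit 164)) (PT.nd (nat_lit 46722) (PT.lf (nat_lit 304) (nat_lit 6) (nat_lit 4) (nat_lit 1) (nat_lit 164) (nat_lit 123) (nat_lit 163)) (PT.lf (nat_lit 380) (nat_lit 6) (nat_lit 5) (nat_lit 3) (nat_lit 162) (nat_lit 124) (nat_lit 164)))) (PT.nd (nat_lit 78) (PT.lf (nat_lit 456) (nat_lit 3) (nat_lit 6) (nat_lit 1) (nat_lit 163) (nat_lit 124) (nat_lit 163)) (PT.nd (nat_lit 46722) (PT.lf (nat_lit 380) (nat_lit 6) (nat_lit 5) (nat_lit 1) (nat_lit 164) (nat_lit 124) (nat_lit 162)) (PT.lf (nat_lit 532) (nat_lit 6) (nat_lit 7) (nat_lit 3) (nat_lit 162) (nat_lit 125) (nat_lit 163)))))) (PT.nd (nat_lit 140400) (PT.nd (nat_lit 46878) (PT.nd (nat_lit 46722) (PT.lf (nat_lit 532) (nat_lit 6) (nat_lit 7) (nat_lit 1) (nat_lit 163) (nat_lit 125) (nat_lit 162)) (PT.nd (nat_lit 78) (PT.lf (nat_lit 608)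 (nat_lit 6) (nat_lit 8) (nat_lit 3) (nat_lit 161) (nat_lit 126) (nat_lit 163)) (PT.lf (nat_lit 684) (nat_lit 3) (nat_lit 9) (nat_lit 1) (nat_lit 162) (nat_lit 126) (nat_lit 162)))) (PT.nd (nat_lit 46722) (PT.lf (nat_lit 608) (nat_lit 6) (nat_lit 8) (nat_lit 1) (nat_lit 163) (nat_lit 126) (nat_lit 161)) (PT.nd (nat_lit 78) (PT.lf (nat_lit 760) (nat_lit 6) (nat_lit 10) (nat_lit 3) (nat_lit 161) (nat_lit 127) (nat_lit 162)) (PT.lf (nat_lit 760) (nat_lit 6) (nat_lit 10) (nat_lit 1) (nat_lit 162) (nat_lit 127) (nat_lit 161))))) (PT.nd (nat_lit 46878) (PT.nd (nat_lit 78) (PT.lf (nat_lit 836) (nat_lit 6) (nat_lit 11) (nat_lit 3) (nat_lit 160) (nat_lit 128) (nat_lit 162)) (PT.nd (nat_lit 78) (PT.lf (nat_lit 912) (nat_lit 3) (nat_lit 12) (nat_lit 1) (nat_lit 161) (nat_lit 128) (nat_lit 161)) (PT.lf (nat_lit 836) (nat_lit 6) (nat_lit 11) (nat_lit 1) (nat_lit 162) (nat_lit 128) (nat_lit 160)))) (PT.nd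 (nat_lit 78) (PT.lf (nat_lit 988) (nat_lit 6) (nat_lit 13) (nat_lit 3) (nat_lit 160) (nat_lit 129) (nat_lit 161)) (PT.nd (nat_lit 46722) (PT.lf (nat_lit 988) (nat_lit 6) (nat_lit 13) (nat_lit 1) (nat_lit 161) (nat_lit 129) (nat_lit 160)) (PT.lf (nat_lit 1064) (nat_lit 6) (nat_lit 14) (nat_lit 3) (nat_lit 159) (nat_lit 130) (nat_lit 161))))))) (PT.nd (nat_lit 187356) (PT.nd (nat_lit 93756) (PT.nd (nat_lit 46878) (PT.nd (nat_lit 78) (PT.lf (nat_lit 1140) (nat_lit 3) (nat_lit 15) (nat_lit 1) (nat_lit 160) (nat_lit 130) (nat_lit 160)) (PT.nd (nat_lit 46722) (PT.lf (nat_lit 1064) (nat_lit 6) (nat_lit 14) (nat_lit 1) (nat_lit 161) (nat_lit 130) (nat_lit 159)) (PT.lf (nat_lit 1216) (nat_lit 6) (nat_lit 16) (nat_lit 3) (nat_lit 159) (nat_lit 131) (nat_lit 160)))) (PT.nd (nat_lit 46722) (PT.lf (nat_lit 1216) (nat_lit 6) (nat_lit 16) (nat_lit 1) (nat_lit 160) (nat_lit 131) (nat_lit 159)) (PT.nd (nat_lit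 78) (PT.lf (nat_lit 1292) (nat_lit 6) (nat_lit 17) (nat_lit 3) (nat_lit 158) (nat_lit 132) (nat_lit 160)) (PT.lf (nat_lit 1368) (nat_lit 3) (nat_lit 18) (nat_lit 1) (nat_lit 159) (nat_lit 132) (nat_lit 159))))) (PT.nd (nat_lit 46800) (PT.nd (nat_lit 46644) (PT.lf (nat_lit 1292) (nat_lit 6) (nat_lit 17) (nat_lit 1) (nat_lit 160) (nat_lit 132) (nat_lit 158)) (PT.nd (nat_lit 78) (PT.lf (nat_lit 1444) (nat_lit 6) (nat_lit 19) (nat_lit 3) (nat_lit 157) (nat_lit 133) (nat_lit 160)) (PT.lf (nat_lit 1520) (nat_lit 6) (nat_lit 20) (nat_lit 3) (nat_lit 158) (nat_lit 133) (nat_lit 159)))) (PT.nd (nat_lit 78) (PT.lf (nat_lit 1520) (nat_lit 6) (nat_lit 20) (nat_lit 1) (nat_lit 159) (nat_lit 133) (nat_lit 158)) (PT.nd (nat_lit 46644) (PT.lf (nat_lit 1444) (nat_lit 6) (nat_lit 19) (nat_lit 1) (nat_lit 160) (nat_lit 133) (nat_lit 157)) (PT.lf (nat_lit 1596) (nat_lit 6) (nat_lit 21) (nat_lit 3) (nat_lit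 157) (nat_lit 134) (nat_lit 159)))))) (PT.nd (nat_lit 93600) (PT.nd (nat_lit 46800) (PT.nd (nat_lit 78) (PT.lf (nat_lit 1672) (nat_lit 3) (nat_lit 22) (nat_lit 1) (nat_lit 158) (nat_lit 134) (nat_lit 158)) (PT.nd (nat_lit 46644) (PT.lf (nat_lit 1596) (nat_lit 6) (nat_lit 21) (nat_lit 1) (nat_lit 159) (nat_lit 134) (nat_lit 157)) (PT.lf (nat_lit 1748) (nat_lit 6) (nat_lit 23) (nat_lit 3) (nat_lit 156) (nat_lit 135) (nat_lit 159)))) (PT.nd (nat_lit 78) (PT.lf (nat_lit 1824) (nat_lit 6) (nat_lit 24) (nat_lit 3) (nat_lit 157) (nat_lit 135) (nat_lit 158)) (PT.nd (nat_lit 78) (PT.lf (nat_lit 1824) (nat_lit 6) (nat_lit 24) (nat_lit 1) (nat_lit 158) (nat_lit 135) (nat_lit 157)) (PT.lf (nat_lit 1748) (nat_lit 6) (nat_lit 23) (nat_lit 1) (nat_lit 159) (nat_lit 135) (nat_lit 156))))) (PT.nd (nat_lit 46800) (PT.nd (nat_lit 78) (PT.lf (nat_lit 1900) (nat_lit 6) (nat_lit 25) (nat_lit 3) (nat_lit 156)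 (nat_lit 136) (nat_lit 158)) (PT.nd (nat_lit 78) (PT.lf (nat_lit 1976) (nat_lit 3) (nat_lit 26) (nat_lit 1) (nat_lit 157) (nat_lit 136) (nat_lit 157)) (PT.lf (nat_lit 1900) (nat_lit 6) (nat_lit 25) (nat_lit 1) (nat_lit 158) (nat_lit 136) (nat_lit 156)))) (PT.nd (nat_lit 78) (PT.lf (nat_lit 2052) (nat_lit 6) (nat_lit 27) (nat_lit 3) (nat_lit 155) (nat_lit 137) (nat_lit 158)) (PT.nd (nat_lit 78) (PT.lf (nat_lit 2128) (nat_lit 6) (nat_lit 28) (nat_lit 3) (nat_lit 156) (nat_lit 137) (nat_lit 157)) (PT.lf (nat_lit 2128) (nat_lit 6) (nat_lit 28) (nat_lit 1) (nat_lit 157) (nat_lit 137) (nat_lit 156))))))))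
noncomputable def pc1 : PT := (PT.nd (nat_lit 234000) (PT.nd (nat_lit 140322) (PT.nd (nat_lit 46878) (PT.nd (nat_lit 46644) (PT.nd (nat_lit 46566) (PT.lf (nat_lit 2052) (nat_lit 6) (nat_lit 27) (nat_lit 1) (nat_lit 158) (nat_lit 137) (nat_lit 155)) (PT.lf (nat_lit 2204) (nat_lit 6) (nat_lit 29) (nat_lit 3) (nat_lit 154) (nat_lit 138) (nat_lit 158))) (PT.nd (nat_lit 78) (PT.lf (nat_lit 2280) (nat_lit 6) (nat_lit 30) (nat_lit 3) (nat_lit 155) (nat_lit 138) (nat_lit 157)) (PT.nd (nat_lit 78) (PT.lf (nat_lit 2356) (nat_lit 3) (nat_lit 31) (nat_lit 1) (nat_lit 156) (nat_lit 138) (nat_lit 156)) (PT.lf (nat_lit 2280) (nat_lit 6) (nat_lit 30) (nat_lit 1) (nat_lit 157) (nat_lit 138) (nat_lit 155))))) (PT.nd (nat_lit 46722) (PT.nd (nat_lit 46566) (PT.lf (nat_lit 2204) (nat_lit 6) (nat_lit 29) (nat_lit 1) (nat_lit 158) (nat_lit 138) (nat_lit 154)) (PT.nd (nat_lit 78) (PT.lf (nat_lit 2508) (nat_lit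 6) (nat_lit 33) (nat_lit 3) (nat_lit 154) (nat_lit 139) (nat_lit 157)) (PT.lf (nat_lit 2584) (nat_lit 6) (nat_lit 34) (nat_lit 3) (nat_lit 155) (nat_lit 139) (nat_lit 156)))) (PT.nd (nat_lit 78) (PT.lf (nat_lit 2584) (nat_lit 6) (nat_lit 34) (nat_lit 1) (nat_lit 156) (nat_lit 139) (nat_lit 155)) (PT.nd (nat_lit 46566) (PT.lf (nat_lit 2508) (nat_lit 6) (nat_lit 33) (nat_lit 1) (nat_lit 157) (nat_lit 139) (nat_lit 154)) (PT.lf (nat_lit 2660) (nat_lit 6) (nat_lit 35) (nat_lit 3) (nat_lit 153) (nat_lit 140) (nat_lit 157)))))) (PT.nd (nat_lit 46878) (PT.nd (nat_lit 234) (PT.nd (nat_lit 78) (PT.lf (nat_lit 2736) (nat_lit 6) (nat_lit 36) (nat_lit 3) (nat_lit 154) (nat_lit 140) (nat_lit 156)) (PT.nd (nat_lit 78) (PT.lf (nat_lit 2812) (nat_lit 3) (nat_lit 37) (nat_lit 1) (nat_lit 155) (nat_lit 140) (nat_lit 155)) (PT.lf (nat_lit 2736) (nat_lit 6) (nat_lit 36) (nat_lit 1) (nat_lit 156) (nat_lit 140)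 (nat_lit 154)))) (PT.nd (nat_lit 46488) (PT.lf (nat_lit 2660) (nat_lit 6) (nat_lit 35) (nat_lit 1) (nat_lit 157) (nat_lit 140) (nat_lit 153)) (PT.nd (nat_lit 78) (PT.lf (nat_lit 2888) (nat_lit 6) (nat_lit 38) (nat_lit 3) (nat_lit 152) (nat_lit 141) (nat_lit 157)) (PT.lf (nat_lit 2964) (nat_lit 6) (nat_lit 39) (nat_lit 3) (nat_lit 153) (nat_lit 141) (nat_lit 156))))) (PT.nd (nat_lit 234) (PT.nd (nat_lit 78) (PT.lf (nat_lit 3040) (nat_lit 6) (nat_lit 40) (nat_lit 3) (nat_lit 154) (nat_lit 141) (nat_lit 155)) (PT.nd (nat_lit 78) (PT.lf (nat_lit 3040) (nat_lit 6) (nat_lit 40) (nat_lit 1) (nat_lit 155) (nat_lit 141) (nat_lit 154)) (PT.lf (nat_lit 2964) (nat_lit 6) (nat_lit 39) (nat_lit 1) (nat_lit 156) (nat_lit 141) (nat_lit 153)))) (PT.nd (nat_lit 46410) (PT.lf (nat_lit 2888) (nat_lit 6) (nat_lit 38) (nat_lit 1) (nat_lit 157) (nat_lit 141) (nat_lit 152)) (PT.nd (nat_lit 78) (PT.lf (nat_lit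 3116) (nat_lit 6) (nat_lit 41) (nat_lit 3) (nat_lit 151) (nat_lit 142) (nat_lit 157)) (PT.lf (nat_lit 3192) (nat_lit 6) (nat_lit 42) (nat_lit 3) (nat_lit 152) (nat_lit 142) (nat_lit 156))))))) (PT.nd (nat_lit 47190) (PT.nd (nat_lit 46722) (PT.nd (nat_lit 234) (PT.nd (nat_lit 78) (PT.lf (nat_lit 3268) (nat_lit 6) (nat_lit 43) (nat_lit 3) (nat_lit 153) (nat_lit 142) (nat_lit 155)) (PT.nd (nat_lit 78) (PT.lf (nat_lit 3344) (nat_lit 3) (nat_lit 44) (nat_lit 1) (nat_lit 154) (nat_lit 142) (nat_lit 154)) (PT.lf (nat_lit 3268) (nat_lit 6) (nat_lit 43) (nat_lit 1) (nat_lit 155) (nat_lit 142) (nat_lit 153)))) (PT.nd (nat_lit 78) (PT.lf (nat_lit 3192) (nat_lit 6) (nat_lit 42) (nat_lit 1) (nat_lit 156) (nat_lit 142) (nat_lit 152)) (PT.nd (nat_lit 46332) (PT.lf (nat_lit 3116) (nat_lit 6) (nat_lit 41) (nat_lit 1) (nat_lit 157) (nat_lit 142) (nat_lit 151)) (PT.lf (nat_lit 3420) (nat_lit 6) (nat_lit 45)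 (nat_lit 3) (nat_lit 150) (nat_lit 143) (nat_lit 157))))) (PT.nd (nat_lit 234) (PT.nd (nat_lit 78) (PT.lf (nat_lit 3496) (nat_lit 6) (nat_lit 46) (nat_lit 3) (nat_lit 151) (nat_lit 143) (nat_lit 156)) (PT.nd (nat_lit 78) (PT.lf (nat_lit 3572) (nat_lit 6) (nat_lit 47) (nat_lit 3) (nat_lit 152) (nat_lit 143) (nat_lit 155)) (PT.lf (nat_lit 3648) (nat_lit 6) (nat_lit 48) (nat_lit 3) (nat_lit 153) (nat_lit 143) (nat_lit 154)))) (PT.nd (nat_lit 78) (PT.lf (nat_lit 3648) (nat_lit 6) (nat_lit 48) (nat_lit 1) (nat_lit 154) (nat_lit 143) (nat_lit 153)) (PT.nd (nat_lit 78) (PT.lf (nat_lit 3572) (nat_lit 6) (nat_lit 47) (nat_lit 1) (nat_lit 155) (nat_lit 143) (nat_lit 152)) (PT.lf (nat_lit 3496) (nat_lit 6) (nat_lit 46) (nat_lit 1) (nat_lit 156) (nat_lit 143) (nat_lit 151)))))) (PT.nd (nat_lit 46722) (PT.nd (nat_lit 46488) (PT.nd (nat_lit 46332) (PT.lf (nat_lit 3420) (nat_lit 6) (nat_lit 45) (nat_lit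 1) (nat_lit 157) (nat_lit 143) (nat_lit 150)) (PT.nd (nat_lit 78) (PT.lf (nat_lit 3952) (nat_lit 6) (nat_lit 52) (nat_lit 3) (nat_lit 150) (nat_lit 144) (nat_lit 156)) (PT.lf (nat_lit 4028) (nat_lit 6) (nat_lit 53) (nat_lit 3) (nat_lit 151) (nat_lit 144) (nat_lit 155)))) (PT.nd (nat_lit 78) (PT.lf (nat_lit 4104) (nat_lit 6) (nat_lit 54) (nat_lit 3) (nat_lit 152) (nat_lit 144) (nat_lit 154)) (PT.nd (nat_lit 78) (PT.lf (nat_lit 4180) (nat_lit 3) (nat_lit 55) (nat_lit 1) (nat_lit 153) (nat_lit 144) (nat_lit 153)) (PT.lf (nat_lit 4104) (nat_lit 6) (nat_lit 54) (nat_lit 1) (nat_lit 154) (nat_lit 144) (nat_lit 152))))) (PT.nd (nat_lit 46488) (PT.nd (nat_lit 78) (PT.lf (nat_lit 4028) (nat_lit 6) (nat_lit 53) (nat_lit 1) (nat_lit 155) (nat_lit 144) (nat_lit 151)) (PT.nd (nat_lit 46332) (PT.lf (nat_lit 3952) (nat_lit 6) (nat_lit 52) (nat_lit 1) (nat_lit 156) (nat_lit 144) (nat_lit 150)) (PT.lf (nat_lit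 3876) (nat_lit 6) (nat_lit 51) (nat_lit 3) (nat_lit 149) (nat_lit 145) (nat_lit 156)))) (PT.nd (nat_lit 78) (PT.lf (nat_lit 4408) (nat_lit 6) (nat_lit 58) (nat_lit 3) (nat_lit 150) (nat_lit 145) (nat_lit 155)) (PT.nd (nat_lit 78) (PT.lf (nat_lit 4484) (nat_lit 6) (nat_lit 59) (nat_lit 3) (nat_lit 151) (nat_lit 145) (nat_lit 154)) (PT.lf (nat_lit 4560) (nat_lit 6) (nat_lit 60) (nat_lit 3) (nat_lit 152) (nat_lit 145) (nat_lit 153))))))))
noncomputable def pc2 : PT := (PT.nd (nat_lit 140088) (PT.nd (nat_lit 47034) (PT.nd (nat_lit 46566) (PT.nd (nat_lit 156) (PT.nd (nat_lit 78) (PT.lf (nat_lit 4560) (nat_lit 6) (nat_lit 60) (nat_lit 1) (nat_lit 153) (nat_lit 145) (nat_lit 152)) (PT.lf (nat_lit 4484) (nat_lit 6) (nat_lit 59) (nat_lit 1) (nat_lit 154) (nat_lit 145) (nat_lit 151))) (PT.nd (nat_lit 78) (PT.lf (nat_lit 4408) (nat_lit 6) (nat_lit 58) (nat_lit 1) (nat_lit 155) (nat_lit 145) (nat_lit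 150)) (PT.nd (nat_lit 46254) (PT.lf (nat_lit 3876) (nat_lit 6) (nat_lit 51) (nat_lit 1) (nat_lit 156) (nat_lit 145) (nat_lit 149)) (PT.lf (nat_lit 3800) (nat_lit 6) (nat_lit 50) (nat_lit 3) (nat_lit 148) (nat_lit 146) (nat_lit 156))))) (PT.nd (nat_lit 234) (PT.nd (nat_lit 78) (PT.lf (nat_lit 4332) (nat_lit 6) (nat_lit 57) (nat_lit 3) (nat_lit 149) (nat_lit 146) (nat_lit 155)) (PT.nd (nat_lit 78) (PT.lf (nat_lit 4788) (nat_lit 6) (nat_lit 63) (nat_lit 3) (nat_lit 150) (nat_lit 146) (nat_lit 154)) (PT.lf (nat_lit 4864) (nat_lit 6) (nat_lit 64) (nat_lit 3) (nat_lit 151) (nat_lit 146) (nat_lit 153)))) (PT.nd (nat_lit 78) (PT.lf (nat_lit 4940) (nat_lit 3) (nat_lit 65) (nat_lit 1) (nat_lit 152) (nat_lit 146) (nat_lit 152)) (PT.nd (nat_lit 78) (PT.lf (nat_lit 4864) (nat_lit 6) (nat_lit 64) (nat_lit 1) (nat_lit 153) (nat_lit 146) (nat_lit 151)) (PT.lf (nat_lit 4788) (nat_lit 6) (nat_lit 63) (nat_lit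 1) (nat_lit 154) (nat_lit 146) (nat_lit 150)))))) (PT.nd (nat_lit 46566) (PT.nd (nat_lit 46332) (PT.nd (nat_lit 78) (PT.lf (nat_lit 4332) (nat_lit 6) (nat_lit 57) (nat_lit 1) (nat_lit 155) (nat_lit 146) (nat_lit 149)) (PT.nd (nat_lit 46176) (PT.lf (nat_lit 3800) (nat_lit 6) (nat_lit 50) (nat_lit 1) (nat_lit 156) (nat_lit 146) (nat_lit 148)) (PT.lf (nat_lit 3724) (nat_lit 3) (nat_lit 49) (nat_lit 3) (nat_lit 147) (nat_lit 147) (nat_lit 156)))) (PT.nd (nat_lit 78) (PT.lf (nat_lit 4256) (nat_lit 6) (nat_lit 56) (nat_lit 3) (nat_lit 148) (nat_lit 147) (nat_lit 155)) (PT.nd (nat_lit 78) (PT.lf (nat_lit 4712) (nat_lit 6) (nat_lit 62) (nat_lit 3) (nat_lit 149) (nat_lit 147) (nat_lit 154)) (PT.lf (nat_lit 5092) (nat_lit 6) (nat_lit 67) (nat_lit 3) (nat_lit 150) (nat_lit 147) (nat_lit 153))))) (PT.nd (nat_lit 234) (PT.nd (nat_lit 78) (PT.lf (nat_lit 5168) (nat_lit 6) (nat_lit 68) (nat_lit 3) (nat_lit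 151) (nat_lit 147) (nat_lit 152)) (PT.nd (nat_lit 78) (PT.lf (nat_lit 5168) (nat_lit 6) (nat_lit 68) (nat_lit 1) (nat_lit 152) (nat_lit 147) (nat_lit 151)) (PT.lf (nat_lit 5092) (nat_lit 6) (nat_lit 67) (nat_lit 1) (nat_lit 153) (nat_lit 147) (nat_lit 150)))) (PT.nd (nat_lit 78) (PT.lf (nat_lit 4712) (nat_lit 6) (nat_lit 62) (nat_lit 1) (nat_lit 154) (nat_lit 147) (nat_lit 149)) (PT.nd (nat_lit 78) (PT.lf (nat_lit 4256) (nat_lit 6) (nat_lit 56) (nat_lit 1) (nat_lit 155) (nat_lit 147) (nat_lit 148)) (PT.lf (nat_lit 3724) (nat_lit 3) (nat_lit 49) (nat_lit 0) (nat_lit 156) (nat_lit 147) (nat_lit 147))))))) (PT.nd (nat_lit 46878) (PT.nd (nat_lit 468) (PT.nd (nat_lit 234) (PT.nd (nat_lit 78) (PT.lf (nat_lit 3800) (nat_lit 6) (nat_lit 50) (nat_lit 5) (nat_lit 146) (nat_lit 148) (nat_lit 156)) (PT.nd (nat_lit 78) (PT.lf (nat_lit 4256) (nat_lit 6) (nat_lit 56) (nat_lit 5) (nat_lit 147) (nat_lit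 148) (nat_lit 155)) (PT.lf (nat_lit 4636) (nat_lit 3) (nat_lit 61) (nat_lit 3) (nat_lit 148) (nat_lit 148) (nat_lit 154)))) (PT.nd (nat_lit 78) (PT.lf (nat_lit 5016) (nat_lit 6) (nat_lit 66) (nat_lit 3) (nat_lit 149) (nat_lit 148) (nat_lit 153)) (PT.nd (nat_lit 78) (PT.lf (nat_lit 5320) (nat_lit 6) (nat_lit 70) (nat_lit 3) (nat_lit 150) (nat_lit 148) (nat_lit 152)) (PT.lf (nat_lit 5396) (nat_lit 3) (nat_lit 71) (nat_lit 1) (nat_lit 151) (nat_lit 148) (nat_lit 151))))) (PT.nd (nat_lit 234) (PT.nd (nat_lit 78) (PT.lf (nat_lit 5320) (nat_lit 6) (nat_lit 70) (nat_lit 1) (nat_lit 152) (nat_lit 148) (nat_lit 150)) (PT.nd (nat_lit 78) (PT.lf (nat_lit 5016) (nat_lit 6) (nat_lit 66) (nat_lit 1) (nat_lit 153) (nat_lit 148) (nat_lit 149)) (PT.lf (nat_lit 4636) (nat_lit 3) (nat_lit 61) (nat_lit 0) (nat_lit 154) (nat_lit 148) (nat_lit 148)))) (PT.nd (nat_lit 78) (PT.lf (nat_lit 4256) (nat_lit 6) (nat_lit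 56) (nat_lit 0) (nat_lit 155) (nat_lit 148) (nat_lit 147)) (PT.nd (nat_lit 46020) (PT.lf (nat_lit 3800) (nat_lit 6) (nat_lit 50) (nat_lit 0) (nat_lit 156) (nat_lit 148) (nat_lit 146)) (PT.lf (nat_lit 3876) (nat_lit 6) (nat_lit 51) (nat_lit 5) (nat_lit 145) (nat_lit 149) (nat_lit 156)))))) (PT.nd (nat_lit 468) (PT.nd (nat_lit 234) (PT.nd (nat_lit 78) (PT.lf (nat_lit 4332) (nat_lit 6) (nat_lit 57) (nat_lit 5) (nat_lit 146) (nat_lit 149) (nat_lit 155)) (PT.nd (nat_lit 78) (PT.lf (nat_lit 4712) (nat_lit 6) (nat_lit 62) (nat_lit 5) (nat_lit 147) (nat_lit 149) (nat_lit 154)) (PT.lf (nat_lit 5016) (nat_lit 6) (nat_lit 66) (nat_lit 5) (nat_lit 148) (nat_lit 149) (nat_lit 153)))) (PT.nd (nat_lit 78) (PT.lf (nat_lit 5244) (nat_lit 3) (nat_lit 69) (nat_lit 3) (nat_lit 149) (nat_lit 149) (nat_lit 152)) (PT.nd (nat_lit 78) (PT.lf (nat_lit 5472) (nat_lit 6) (nat_lit 72) (nat_lit 3) (nat_lit 150) (nat_lit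 149) (nat_lit 151)) (PT.lf (nat_lit 5472) (nat_lit 6) (nat_lit 72) (nat_lit 1) (nat_lit 151) (nat_lit 149) (nat_lit 150))))) (PT.nd (nat_lit 234) (PT.nd (nat_lit 78) (PT.lf (nat_lit 5244) (nat_lit 3) (nat_lit 69) (nat_lit 0) (nat_lit 152) (nat_lit 149) (nat_lit 149)) (PT.nd (nat_lit 78) (PT.lf (nat_lit 5016) (nat_lit 6) (nat_lit 66) (nat_lit 0) (nat_lit 153) (nat_lit 149) (nat_lit 148)) (PT.lf (nat_lit 4712) (nat_lit 6) (nat_lit 62) (nat_lit 0) (nat_lit 154) (nat_lit 149) (nat_lit 147)))) (PT.nd (nat_lit 78) (PT.lf (nat_lit 4332) (nat_lit 6) (nat_lit 57) (nat_lit 0) (nat_lit 155) (nat_lit 149) (nat_lit 146)) (PT.nd (nat_lit 45864) (PT.lf (nat_lit 3876) (nat_lit 6) (nat_lit 51) (nat_lit 0) (nat_lit 156) (nat_lit 149) (nat_lit 145)) (PT.lf (nat_lit 3420) (nat_lit 6) (nat_lit 45) (nat_lit 5) (nat_lit 143) (nat_lit 150) (nat_lit 157))))))))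
noncomputable def pc3 : PT := (PT.nd (nat_lit 47424) (PT.nd (nat_lit 858) (PT.nd (nat_lit 390) (PT.nd (nat_lit 156) (PT.nd (nat_lit 78) (PT.lf (nat_lit 3952) (nat_lit 6) (nat_lit 52) (nat_lit 5) (nat_lit 144) (nat_lit 150) (nat_lit 156)) (PT.lf (nat_lit 4408) (nat_lit 6) (nat_lit 58) (nat_lit 5) (nat_lit 145) (nat_lit 150) (nat_lit 155))) (PT.nd (nat_lit 78) (PT.lf (nat_lit 4788) (nat_lit 6) (nat_lit 63) (nat_lit 5) (nat_lit 146) (nat_lit 150) (nat_lit 154)) (PT.nd (nat_lit 78) (PT.lf (nat_lit 5092) (nat_lit 6) (nat_lit 67) (nat_lit 5) (nat_lit 147) (nat_lit 150) (nat_lit 153)) (PT.lf (nat_lit 5320) (nat_lit 6) (nat_lit 70) (nat_lit 5) (nat_lit 148) (nat_lit 150) (nat_lit 152))))) (PT.nd (nat_lit 234) (PT.nd (nat_lit 78) (PT.lf (nat_lit 5472) (nat_lit 6) (nat_lit 72) (nat_lit 5) (nat_lit 149) (nat_lit 150) (nat_lit 151)) (PT.nd (nat_lit 78) (PT.lf (nat_lit 5548) (nat_lit 1) (nat_lit 73)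 (nat_lit 0) (nat_lit 150) (nat_lit 150) (nat_lit 150)) (PT.lf (nat_lit 5472) (nat_lit 6) (nat_lit 72) (nat_lit 0) (nat_lit 151) (nat_lit 150) (nat_lit 149)))) (PT.nd (nat_lit 78) (PT.lf (nat_lit 5320) (nat_lit 6) (nat_lit 70) (nat_lit 0) (nat_lit 152) (nat_lit 150) (nat_lit 148)) (PT.nd (nat_lit 78) (PT.lf (nat_lit 5092) (nat_lit 6) (nat_lit 67) (nat_lit 0) (nat_lit 153) (nat_lit 150) (nat_lit 147)) (PT.lf (nat_lit 4788) (nat_lit 6) (nat_lit 63) (nat_lit 0) (nat_lit 154) (nat_lit 150) (nat_lit 146)))))) (PT.nd (nat_lit 46098) (PT.nd (nat_lit 45864) (PT.nd (nat_lit 78) (PT.lf (nat_lit 4408) (nat_lit 6) (nat_lit 58) (nat_lit 0) (nat_lit 155) (nat_lit 150) (nat_lit 145)) (PT.nd (nat_lit 78) (PT.lf (nat_lit 3952) (nat_lit 6) (nat_lit 52) (nat_lit 0) (nat_lit 156) (nat_lit 150) (nat_lit 144)) (PT.lf (nat_lit 3420) (nat_lit 6) (nat_lit 45) (nat_lit 0) (nat_lit 157) (nat_lit 150) (nat_lit 143))))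 (PT.nd (nat_lit 78) (PT.lf (nat_lit 3116) (nat_lit 6) (nat_lit 41) (nat_lit 5) (nat_lit 142) (nat_lit 151) (nat_lit 157)) (PT.nd (nat_lit 78) (PT.lf (nat_lit 3496) (nat_lit 6) (nat_lit 46) (nat_lit 5) (nat_lit 143) (nat_lit 151) (nat_lit 156)) (PT.lf (nat_lit 4028) (nat_lit 6) (nat_lit 53) (nat_lit 5) (nat_lit 144) (nat_lit 151) (nat_lit 155))))) (PT.nd (nat_lit 234) (PT.nd (nat_lit 78) (PT.lf (nat_lit 4484) (nat_lit 6) (nat_lit 59) (nat_lit 5) (nat_lit 145) (nat_lit 151) (nat_lit 154)) (PT.nd (nat_lit 78) (PT.lf (nat_lit 4864) (nat_lit 6) (nat_lit 64) (nat_lit 5) (nat_lit 146) (nat_lit 151) (nat_lit 153)) (PT.lf (nat_lit 5168) (nat_lit 6) (nat_lit 68) (nat_lit 5) (nat_lit 147) (nat_lit 151) (nat_lit 152)))) (PT.nd (nat_lit 78) (PT.lf (nat_lit 5396) (nat_lit 3) (nat_lit 71) (nat_lit 4) (nat_lit 148) (nat_lit 151) (nat_lit 151)) (PT.nd (nat_lit 78) (PT.lf (nat_lit 5472) (nat_lit 6) (nat_lit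 72) (nat_lit 4) (nat_lit 149) (nat_lit 151) (nat_lit 150)) (PT.lf (nat_lit 5472) (nat_lit 6) (nat_lit 72) (nat_lit 2) (nat_lit 150) (nat_lit 151) (nat_lit 149))))))) (PT.nd (nat_lit 46488) (PT.nd (nat_lit 468) (PT.nd (nat_lit 234) (PT.nd (nat_lit 78) (PT.lf (nat_lit 5396) (nat_lit 3) (nat_lit 71) (nat_lit 0) (nat_lit 151) (nat_lit 151) (nat_lit 148)) (PT.nd (nat_lit 78) (PT.lf (nat_lit 5168) (nat_lit 6) (nat_lit 68) (nat_lit 0) (nat_lit 152) (nat_lit 151) (nat_lit 147)) (PT.lf (nat_lit 4864) (nat_lit 6) (nat_lit 64) (nat_lit 0) (nat_lit 153) (nat_lit 151) (nat_lit 146)))) (PT.nd (nat_lit 78) (PT.lf (nat_lit 4484) (nat_lit 6) (nat_lit 59) (nat_lit 0) (nat_lit 154) (nat_lit 151) (nat_lit 145)) (PT.nd (nat_lit 78) (PT.lf (nat_lit 4028) (nat_lit 6) (nat_lit 53) (nat_lit 0) (nat_lit 155) (nat_lit 151) (nat_lit 144)) (PT.lf (nat_lit 3496) (nat_lit 6) (nat_lit 46) (nat_lit 0) (nat_lit 156) (nat_lit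 151) (nat_lit 143))))) (PT.nd (nat_lit 45786) (PT.nd (nat_lit 45630) (PT.lf (nat_lit 3116) (nat_lit 6) (nat_lit 41) (nat_lit 0) (nat_lit 157) (nat_lit 151) (nat_lit 142)) (PT.nd (nat_lit 78) (PT.lf (nat_lit 2888) (nat_lit 6) (nat_lit 38) (nat_lit 5) (nat_lit 141) (nat_lit 152) (nat_lit 157)) (PT.lf (nat_lit 3192) (nat_lit 6) (nat_lit 42) (nat_lit 5) (nat_lit 142) (nat_lit 152) (nat_lit 156)))) (PT.nd (nat_lit 78) (PT.lf (nat_lit 3572) (nat_lit 6) (nat_lit 47) (nat_lit 5) (nat_lit 143) (nat_lit 152) (nat_lit 155)) (PT.nd (nat_lit 78) (PT.lf (nat_lit 4104) (nat_lit 6) (nat_lit 54) (nat_lit 5) (nat_lit 144) (nat_lit 152) (nat_lit 154)) (PT.lf (nat_lit 4560) (nat_lit 6) (nat_lit 60) (nat_lit 5) (nat_lit 145) (nat_lit 152) (nat_lit 153)))))) (PT.nd (nat_lit 468) (PT.nd (nat_lit 234) (PT.nd (nat_lit 78) (PT.lf (nat_lit 4940) (nat_lit 3) (nat_lit 65) (nat_lit 4) (nat_lit 146) (nat_lit 152) (nat_lit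 152)) (PT.nd (nat_lit 78) (PT.lf (nat_lit 5168) (nat_lit 6) (nat_lit 68) (nat_lit 4) (nat_lit 147) (nat_lit 152) (nat_lit 151)) (PT.lf (nat_lit 5320) (nat_lit 6) (nat_lit 70) (nat_lit 4) (nat_lit 148) (nat_lit 152) (nat_lit 150)))) (PT.nd (nat_lit 78) (PT.lf (nat_lit 5244) (nat_lit 3) (nat_lit 69) (nat_lit 2) (nat_lit 149) (nat_lit 152) (nat_lit 149)) (PT.nd (nat_lit 78) (PT.lf (nat_lit 5320) (nat_lit 6) (nat_lit 70) (nat_lit 2) (nat_lit 150) (nat_lit 152) (nat_lit 148)) (PT.lf (nat_lit 5168) (nat_lit 6) (nat_lit 68) (nat_lit 2) (nat_lit 151) (nat_lit 152) (nat_lit 147))))) (PT.nd (nat_lit 234) (PT.nd (nat_lit 78) (PT.lf (nat_lit 4940) (nat_lit 3) (nat_lit 65) (nat_lit 0) (nat_lit 152) (nat_lit 152) (nat_lit 146)) (PT.nd (nat_lit 78) (PT.lf (nat_lit 4560) (nat_lit 6) (nat_lit 60) (nat_lit 0) (nat_lit 153) (nat_lit 152) (nat_lit 145)) (PT.lf (nat_lit 4104) (nat_lit 6) (nat_lit 54) (nat_lit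 0) (nat_lit 154) (nat_lit 152) (nat_lit 144)))) (PT.nd (nat_lit 78) (PT.lf (nat_lit 3572) (nat_lit 6) (nat_lit 47) (nat_lit 0) (nat_lit 155) (nat_lit 152) (nat_lit 143)) (PT.nd (nat_lit 78) (PT.lf (nat_lit 3192) (nat_lit 6) (nat_lit 42) (nat_lit 0) (nat_lit 156) (nat_lit 152) (nat_lit 142)) (PT.lf (nat_lit 2888) (nat_lit 6) (nat_lit 38) (nat_lit 0) (nat_lit 157) (nat_lit 152) (nat_lit 141))))))))
noncomputable def pc4 : PT := (PT.nd (nat_lit 47112) (PT.nd (nat_lit 858) (PT.nd (nat_lit 390) (PT.nd (nat_lit 156) (PT.nd (nat_lit 78) (PT.lf (nat_lit 2660) (nat_lit 6) (nat_lit 35) (nat_lit 5) (nat_lit 140) (nat_lit 153) (nat_lit 157)) (PT.lf (nat_lit 2964) (nat_lit 6) (nat_lit 39) (nat_lit 5) (nat_lit 141) (nat_lit 153) (nat_lit 156))) (PT.nd (nat_lit 78) (PT.lf (nat_lit 3268) (nat_lit 6) (nat_lit 43) (nat_lit 5) (nat_lit 142) (nat_lit 153) (nat_lit 155)) (PT.nd (nat_lit 78) (PT.lf (nat_lit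 3648) (nat_lit 6) (nat_lit 48) (nat_lit 5) (nat_lit 143) (nat_lit 153) (nat_lit 154)) (PT.lf (nat_lit 4180) (nat_lit 3) (nat_lit 55) (nat_lit 4) (nat_lit 144) (nat_lit 153) (nat_lit 153))))) (PT.nd (nat_lit 234) (PT.nd (nat_lit 78) (PT.lf (nat_lit 4560) (nat_lit 6) (nat_lit 60) (nat_lit 4) (nat_lit 145) (nat_lit 153) (nat_lit 152)) (PT.nd (nat_lit 78) (PT.lf (nat_lit 4864) (nat_lit 6) (nat_lit 64) (nat_lit 4) (nat_lit 146) (nat_lit 153) (nat_lit 151)) (PT.lf (nat_lit 5092) (nat_lit 6) (nat_lit 67) (nat_lit 4) (nat_lit 147) (nat_lit 153) (nat_lit 150)))) (PT.nd (nat_lit 78) (PT.lf (nat_lit 5016) (nat_lit 6) (nat_lit 66) (nat_lit 4) (nat_lit 148) (nat_lit 153) (nat_lit 149)) (PT.nd (nat_lit 78) (PT.lf (nat_lit 5016) (nat_lit 6) (nat_lit 66) (nat_lit 2) (nat_lit 149) (nat_lit 153) (nat_lit 148)) (PT.lf (nat_lit 5092) (nat_lit 6) (nat_lit 67) (nat_lit 2) (nat_lit 150) (nat_lit 153) (nat_lit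 147)))))) (PT.nd (nat_lit 468) (PT.nd (nat_lit 234) (PT.nd (nat_lit 78) (PT.lf (nat_lit 4864) (nat_lit 6) (nat_lit 64) (nat_lit 2) (nat_lit 151) (nat_lit 153) (nat_lit 146)) (PT.nd (nat_lit 78) (PT.lf (nat_lit 4560) (nat_lit 6) (nat_lit 60) (nat_lit 2) (nat_lit 152) (nat_lit 153) (nat_lit 145)) (PT.lf (nat_lit 4180) (nat_lit 3) (nat_lit 55) (nat_lit 0) (nat_lit 153) (nat_lit 153) (nat_lit 144)))) (PT.nd (nat_lit 78) (PT.lf (nat_lit 3648) (nat_lit 6) (nat_lit 48) (nat_lit 0) (nat_lit 154) (nat_lit 153) (nat_lit 143)) (PT.nd (nat_lit 78) (PT.lf (nat_lit 3268) (nat_lit 6) (nat_lit 43) (nat_lit 0) (nat_lit 155) (nat_lit 153) (nat_lit 142)) (PT.lf (nat_lit 2964) (nat_lit 6) (nat_lit 39) (nat_lit 0) (nat_lit 156) (nat_lit 153) (nat_lit 141))))) (PT.nd (nat_lit 45552) (PT.nd (nat_lit 45396) (PT.lf (nat_lit 2660) (nat_lit 6) (nat_lit 35) (nat_lit 0) (nat_lit 157) (nat_lit 153) (nat_lit 140)) (PT.nd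 (nat_lit 78) (PT.lf (nat_lit 2204) (nat_lit 6) (nat_lit 29) (nat_lit 5) (nat_lit 138) (nat_lit 154) (nat_lit 158)) (PT.lf (nat_lit 2508) (nat_lit 6) (nat_lit 33) (nat_lit 5) (nat_lit 139) (nat_lit 154) (nat_lit 157)))) (PT.nd (nat_lit 78) (PT.lf (nat_lit 2736) (nat_lit 6) (nat_lit 36) (nat_lit 5) (nat_lit 140) (nat_lit 154) (nat_lit 156)) (PT.nd (nat_lit 78) (PT.lf (nat_lit 3040) (nat_lit 6) (nat_lit 40) (nat_lit 5) (nat_lit 141) (nat_lit 154) (nat_lit 155)) (PT.lf (nat_lit 3344) (nat_lit 3) (nat_lit 44) (nat_lit 4) (nat_lit 142) (nat_lit 154) (nat_lit 154))))))) (PT.nd (nat_lit 936) (PT.nd (nat_lit 468) (PT.nd (nat_lit 234) (PT.nd (nat_lit 78) (PT.lf (nat_lit 3648) (nat_lit 6) (nat_lit 48) (nat_lit 4) (nat_lit 143) (nat_lit 154) (nat_lit 153)) (PT.nd (nat_lit 78) (PT.lf (nat_lit 4104) (nat_lit 6) (nat_lit 54) (nat_lit 4) (nat_lit 144) (nat_lit 154) (nat_lit 152)) (PT.lf (nat_lit 4484)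 (nat_lit 6) (nat_lit 59) (nat_lit 4) (nat_lit 145) (nat_lit 154) (nat_lit 151)))) (PT.nd (nat_lit 78) (PT.lf (nat_lit 4788) (nat_lit 6) (nat_lit 63) (nat_lit 4) (nat_lit 146) (nat_lit 154) (nat_lit 150)) (PT.nd (nat_lit 78) (PT.lf (nat_lit 4712) (nat_lit 6) (nat_lit 62) (nat_lit 4) (nat_lit 147) (nat_lit 154) (nat_lit 149)) (PT.lf (nat_lit 4636) (nat_lit 3) (nat_lit 61) (nat_lit 2) (nat_lit 148) (nat_lit 154) (nat_lit 148))))) (PT.nd (nat_lit 234) (PT.nd (nat_lit 78) (PT.lf (nat_lit 4712) (nat_lit 6) (nat_lit 62) (nat_lit 2) (nat_lit 149) (nat_lit 154) (nat_lit 147)) (PT.nd (nat_lit 78) (PT.lf (nat_lit 4788) (nat_lit 6) (nat_lit 63) (nat_lit 2) (nat_lit 150) (nat_lit 154) (nat_lit 146)) (PT.lf (nat_lit 4484) (nat_lit 6) (nat_lit 59) (nat_lit 2) (nat_lit 151) (nat_lit 154) (nat_lit 145)))) (PT.nd (nat_lit 78) (PT.lf (nat_lit 4104) (nat_lit 6) (nat_lit 54) (nat_lit 2) (nat_lit 152) (nat_lit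 154) (nat_lit 144)) (PT.nd (nat_lit 78) (PT.lf (nat_lit 3648) (nat_lit 6) (nat_lit 48) (nat_lit 2) (nat_lit 153) (nat_lit 154) (nat_lit 143)) (PT.lf (nat_lit 3344) (nat_lit 3) (nat_lit 44) (nat_lit 0) (nat_lit 154) (nat_lit 154) (nat_lit 142)))))) (PT.nd (nat_lit 45630) (PT.nd (nat_lit 234) (PT.nd (nat_lit 78) (PT.lf (nat_lit 3040) (nat_lit 6) (nat_lit 40) (nat_lit 0) (nat_lit 155) (nat_lit 154) (nat_lit 141)) (PT.nd (nat_lit 78) (PT.lf (nat_lit 2736) (nat_lit 6) (nat_lit 36) (nat_lit 0) (nat_lit 156) (nat_lit 154) (nat_lit 140)) (PT.lf (nat_lit 2508) (nat_lit 6) (nat_lit 33) (nat_lit 0) (nat_lit 157) (nat_lit 154) (nat_lit 139)))) (PT.nd (nat_lit 45240) (PT.lf (nat_lit 2204) (nat_lit 6) (nat_lit 29) (nat_lit 0) (nat_lit 158) (nat_lit 154) (nat_lit 138)) (PT.nd (nat_lit 78) (PT.lf (nat_lit 2052) (nat_lit 6) (nat_lit 27) (nat_lit 5) (nat_lit 137) (nat_lit 155) (nat_lit 158)) (PT.lf (nat_lit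 2280) (nat_lit 6) (nat_lit 30) (nat_lit 5) (nat_lit 138) (nat_lit 155) (nat_lit 157))))) (PT.nd (nat_lit 234) (PT.nd (nat_lit 78) (PT.lf (nat_lit 2584) (nat_lit 6) (nat_lit 34) (nat_lit 5) (nat_lit 139) (nat_lit 155) (nat_lit 156)) (PT.nd (nat_lit 78) (PT.lf (nat_lit 2812) (nat_lit 3) (nat_lit 37) (nat_lit 4) (nat_lit 140) (nat_lit 155) (nat_lit 155)) (PT.lf (nat_lit 3040) (nat_lit 6) (nat_lit 40) (nat_lit 4) (nat_lit 141) (nat_lit 155) (nat_lit 154)))) (PT.nd (nat_lit 78) (PT.lf (nat_lit 3268) (nat_lit 6) (nat_lit 43) (nat_lit 4) (nat_lit 142) (nat_lit 155) (nat_lit 153)) (PT.nd (nat_lit 78) (PT.lf (nat_lit 3572) (nat_lit 6) (nat_lit 47) (nat_lit 4) (nat_lit 143) (nat_lit 155) (nat_lit 152)) (PT.lf (nat_lit 4028) (nat_lit 6) (nat_lit 53) (nat_lit 4) (nat_lit 144) (nat_lit 155) (nat_lit 151))))))))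
noncomputable def pc5 : PT := (PT.nd (nat_lit 46800) (PT.nd (nat_lit 858) (PT.nd (nat_lit 390) (PT.nd (nat_lit 156) (PT.nd (nat_lit 78) (PT.lf (nat_lit 4408) (nat_lit 6) (nat_lit 58) (nat_lit 4) (nat_lit 145) (nat_lit 155) (nat_lit 150)) (PT.lf (nat_lit 4332) (nat_lit 6) (nat_lit 57) (nat_lit 4) (nat_lit 146) (nat_lit 155) (nat_lit 149))) (PT.nd (nat_lit 78) (PT.lf (nat_lit 4256) (nat_lit 6) (nat_lit 56) (nat_lit 4) (nat_lit 147) (nat_lit 155) (nat_lit 148)) (PT.nd (nat_lit 78) (PT.lf (nat_lit 4256) (nat_lit 6) (nat_lit 56) (nat_lit 2) (nat_lit 148) (nat_lit 155) (nat_lit 147)) (PT.lf (nat_lit 4332) (nat_lit 6) (nat_lit 57) (nat_lit 2) (nat_lit 149) (nat_lit 155) (nat_lit 146))))) (PT.nd (nat_lit 234) (PT.nd (nat_lit 78) (PT.lf (nat_lit 4408) (nat_lit 6) (nat_lit 58) (nat_lit 2) (nat_lit 150) (nat_lit 155) (nat_lit 145)) (PT.nd (nat_lit 78) (PT.lf (nat_lit 4028) (nat_lit 6) (nat_lit 53)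 (nat_lit 2) (nat_lit 151) (nat_lit 155) (nat_lit 144)) (PT.lf (nat_lit 3572) (nat_lit 6) (nat_lit 47) (nat_lit 2) (nat_lit 152) (nat_lit 155) (nat_lit 143)))) (PT.nd (nat_lit 78) (PT.lf (nat_lit 3268) (nat_lit 6) (nat_lit 43) (nat_lit 2) (nat_lit 153) (nat_lit 155) (nat_lit 142)) (PT.nd (nat_lit 78) (PT.lf (nat_lit 3040) (nat_lit 6) (nat_lit 40) (nat_lit 2) (nat_lit 154) (nat_lit 155) (nat_lit 141)) (PT.lf (nat_lit 2812) (nat_lit 3) (nat_lit 37) (nat_lit 0) (nat_lit 155) (nat_lit 155) (nat_lit 140)))))) (PT.nd (nat_lit 45474) (PT.nd (nat_lit 45240) (PT.nd (nat_lit 78) (PT.lf (nat_lit 2584) (nat_lit 6) (nat_lit 34) (nat_lit 0) (nat_lit 156) (nat_lit 155) (nat_lit 139)) (PT.nd (nat_lit 78) (PT.lf (nat_lit 2280) (nat_lit 6) (nat_lit 30) (nat_lit 0) (nat_lit 157) (nat_lit 155) (nat_lit 138)) (PT.lf (nat_lit 2052) (nat_lit 6) (nat_lit 27) (nat_lit 0) (nat_lit 158) (nat_lit 155) (nat_lit 137))))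 (PT.nd (nat_lit 78) (PT.lf (nat_lit 1748) (nat_lit 6) (nat_lit 23) (nat_lit 5) (nat_lit 135) (nat_lit 156) (nat_lit 159)) (PT.nd (nat_lit 78) (PT.lf (nat_lit 1900) (nat_lit 6) (nat_lit 25) (nat_lit 5) (nat_lit 136) (nat_lit 156) (nat_lit 158)) (PT.lf (nat_lit 2128) (nat_lit 6) (nat_lit 28) (nat_lit 5) (nat_lit 137) (nat_lit 156) (nat_lit 157))))) (PT.nd (nat_lit 234) (PT.nd (nat_lit 78) (PT.lf (nat_lit 2356) (nat_lit 3) (nat_lit 31) (nat_lit 4) (nat_lit 138) (nat_lit 156) (nat_lit 156)) (PT.nd (nat_lit 78) (PT.lf (nat_lit 2584) (nat_lit 6) (nat_lit 34) (nat_lit 4) (nat_lit 139) (nat_lit 156) (nat_lit 155)) (PT.lf (nat_lit 2736) (nat_lit 6) (nat_lit 36) (nat_lit 4) (nat_lit 140) (nat_lit 156) (nat_lit 154)))) (PT.nd (nat_lit 78) (PT.lf (nat_lit 2964) (nat_lit 6) (nat_lit 39) (nat_lit 4) (nat_lit 141) (nat_lit 156) (nat_lit 153)) (PT.nd (nat_lit 78) (PT.lf (nat_lit 3192) (nat_lit 6) (nat_lit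 42) (nat_lit 4) (nat_lit 142) (nat_lit 156) (nat_lit 152)) (PT.lf (nat_lit 3496) (nat_lit 6) (nat_lit 46) (nat_lit 4) (nat_lit 143) (nat_lit 156) (nat_lit 151))))))) (PT.nd (nat_lit 936) (PT.nd (nat_lit 468) (PT.nd (nat_lit 234) (PT.nd (nat_lit 78) (PT.lf (nat_lit 3952) (nat_lit 6) (nat_lit 52) (nat_lit 4) (nat_lit 144) (nat_lit 156) (nat_lit 150)) (PT.nd (nat_lit 78) (PT.lf (nat_lit 3876) (nat_lit 6) (nat_lit 51) (nat_lit 4) (nat_lit 145) (nat_lit 156) (nat_lit 149)) (PT.lf (nat_lit 3800) (nat_lit 6) (nat_lit 50) (nat_lit 4) (nat_lit 146) (nat_lit 156) (nat_lit 148)))) (PT.nd (nat_lit 78) (PT.lf (nat_lit 3724) (nat_lit 3) (nat_lit 49) (nat_lit 2) (nat_lit 147) (nat_lit 156) (nat_lit 147)) (PT.nd (nat_lit 78) (PT.lf (nat_lit 3800) (nat_lit 6) (nat_lit 50) (nat_lit 2) (nat_lit 148) (nat_lit 156) (nat_lit 146)) (PT.lf (nat_lit 3876) (nat_lit 6) (nat_lit 51) (nat_lit 2) (nat_lit 149) (nat_lit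 156) (nat_lit 145))))) (PT.nd (nat_lit 234) (PT.nd (nat_lit 78) (PT.lf (nat_lit 3952) (nat_lit 6) (nat_lit 52) (nat_lit 2) (nat_lit 150) (nat_lit 156) (nat_lit 144)) (PT.nd (nat_lit 78) (PT.lf (nat_lit 3496) (nat_lit 6) (nat_lit 46) (nat_lit 2) (nat_lit 151) (nat_lit 156) (nat_lit 143)) (PT.lf (nat_lit 3192) (nat_lit 6) (nat_lit 42) (nat_lit 2) (nat_lit 152) (nat_lit 156) (nat_lit 142)))) (PT.nd (nat_lit 78) (PT.lf (nat_lit 2964) (nat_lit 6) (nat_lit 39) (nat_lit 2) (nat_lit 153) (nat_lit 156) (nat_lit 141)) (PT.nd (nat_lit 78) (PT.lf (nat_lit 2736) (nat_lit 6) (nat_lit 36) (nat_lit 2) (nat_lit 154) (nat_lit 156) (nat_lit 140)) (PT.lf (nat_lit 2584) (nat_lit 6) (nat_lit 34) (nat_lit 2) (nat_lit 155) (nat_lit 156) (nat_lit 139)))))) (PT.nd (nat_lit 45240) (PT.nd (nat_lit 234) (PT.nd (nat_lit 78) (PT.lf (nat_lit 2356) (nat_lit 3) (nat_lit 31) (nat_lit 0) (nat_lit 156) (nat_lit 156) (nat_lit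 138)) (PT.nd (nat_lit 78) (PT.lf (nat_lit 2128) (nat_lit 6) (nat_lit 28) (nat_lit 0) (nat_lit 157) (nat_lit 156) (nat_lit 137)) (PT.lf (nat_lit 1900) (nat_lit 6) (nat_lit 25) (nat_lit 0) (nat_lit 158) (nat_lit 156) (nat_lit 136)))) (PT.nd (nat_lit 44850) (PT.lf (nat_lit 1748) (nat_lit 6) (nat_lit 23) (nat_lit 0) (nat_lit 159) (nat_lit 156) (nat_lit 135)) (PT.nd (nat_lit 78) (PT.lf (nat_lit 1444) (nat_lit 6) (nat_lit 19) (nat_lit 5) (nat_lit 133) (nat_lit 157) (nat_lit 160)) (PT.lf (nat_lit 1596) (nat_lit 6) (nat_lit 21) (nat_lit 5) (nat_lit 134) (nat_lit 157) (nat_lit 159))))) (PT.nd (nat_lit 234) (PT.nd (nat_lit 78) (PT.lf (nat_lit 1824) (nat_lit 6) (nat_lit 24) (nat_lit 5) (nat_lit 135) (nat_lit 157) (nat_lit 158)) (PT.nd (nat_lit 78) (PT.lf (nat_lit 1976) (nat_lit 3) (nat_lit 26) (nat_lit 4) (nat_lit 136) (nat_lit 157) (nat_lit 157)) (PT.lf (nat_lit 2128) (nat_lit 6) (nat_lit 28) (nat_lit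 4) (nat_lit 137) (nat_lit 157) (nat_lit 156)))) (PT.nd (nat_lit 78) (PT.lf (nat_lit 2280) (nat_lit 6) (nat_lit 30) (nat_lit 4) (nat_lit 138) (nat_lit 157) (nat_lit 155)) (PT.nd (nat_lit 78) (PT.lf (nat_lit 2508) (nat_lit 6) (nat_lit 33) (nat_lit 4) (nat_lit 139) (nat_lit 157) (nat_lit 154)) (PT.lf (nat_lit 2660) (nat_lit 6) (nat_lit 35) (nat_lit 4) (nat_lit 140) (nat_lit 157) (nat_lit 153))))))))
noncomputable def pc6 : PT := (PT.nd (nat_lit 48048) (PT.nd (nat_lit 1326) (PT.nd (nat_lit 858) (PT.nd (nat_lit 156) (PT.nd (nat_lit 78) (PT.lf (nat_lit 2888) (nat_lit 6) (nat_lit 38) (nat_lit 4) (nat_lit 141) (nat_lit 157) (nat_lit 152)) (PT.lf (nat_lit 3116) (nat_lit 6) (nat_lit 41) (nat_lit 4) (nat_lit 142) (nat_lit 157) (nat_lit 151))) (PT.nd (nat_lit 546) (PT.lf (nat_lit 3420) (nat_lit 6) (nat_lit 45) (nat_lit 4) (nat_lit 143) (nat_lit 157) (nat_lit 150)) (PT.nd (nat_lit 78) (PT.lf (nat_lit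 3420) (nat_lit 6) (nat_lit 45) (nat_lit 2) (nat_lit 150) (nat_lit 157) (nat_lit 143)) (PT.lf (nat_lit 3116) (nat_lit 6) (nat_lit 41) (nat_lit 2) (nat_lit 151) (nat_lit 157) (nat_lit 142))))) (PT.nd (nat_lit 234) (PT.nd (nat_lit 78) (PT.lf (nat_lit 2888) (nat_lit 6) (nat_lit 38) (nat_lit 2) (nat_lit 152) (nat_lit 157) (nat_lit 141)) (PT.nd (nat_lit 78) (PT.lf (nat_lit 2660) (nat_lit 6) (nat_lit 35) (nat_lit 2) (nat_lit 153) (nat_lit 157) (nat_lit 140)) (PT.lf (nat_lit 2508) (nat_lit 6) (nat_lit 33) (nat_lit 2) (nat_lit 154) (nat_lit 157) (nat_lit 139)))) (PT.nd (nat_lit 78) (PT.lf (nat_lit 2280) (nat_lit 6) (nat_lit 30) (nat_lit 2) (nat_lit 155) (nat_lit 157) (nat_lit 138)) (PT.nd (nat_lit 78) (PT.lf (nat_lit 2128) (nat_lit 6) (nat_lit 28) (nat_lit 2) (nat_lit 156) (nat_lit 157) (nat_lit 137)) (PT.lf (nat_lit 1976) (nat_lit 3) (nat_lit 26) (nat_lit 0) (nat_lit 157) (nat_lit 157) (nat_lit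 136)))))) (PT.nd (nat_lit 45084) (PT.nd (nat_lit 44850) (PT.nd (nat_lit 78) (PT.lf (nat_lit 1824) (nat_lit 6) (nat_lit 24) (nat_lit 0) (nat_lit 158) (nat_lit 157) (nat_lit 135)) (PT.nd (nat_lit 78) (PT.lf (nat_lit 1596) (nat_lit 6) (nat_lit 21) (nat_lit 0) (nat_lit 159) (nat_lit 157) (nat_lit 134)) (PT.lf (nat_lit 1444) (nat_lit 6) (nat_lit 19) (nat_lit 0) (nat_lit 160) (nat_lit 157) (nat_lit 133)))) (PT.nd (nat_lit 78) (PT.lf (nat_lit 1292) (nat_lit 6) (nat_lit 17) (nat_lit 5) (nat_lit 132) (nat_lit 158) (nat_lit 160)) (PT.nd (nat_lit 78) (PT.lf (nat_lit 1520) (nat_lit 6) (nat_lit 20) (nat_lit 5) (nat_lit 133) (nat_lit 158) (nat_lit 159)) (PT.lf (nat_lit 1672) (nat_lit 3) (nat_lit 22) (nat_lit 4) (nat_lit 134) (nat_lit 158) (nat_lit 158))))) (PT.nd (nat_lit 234) (PT.nd (nat_lit 78) (PT.lf (nat_lit 1824) (nat_lit 6) (nat_lit 24) (nat_lit 4) (nat_lit 135) (nat_lit 158) (nat_lit 157)) (PT.nd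 (nat_lit 78) (PT.lf (nat_lit 1900) (nat_lit 6) (nat_lit 25) (nat_lit 4) (nat_lit 136) (nat_lit 158) (nat_lit 156)) (PT.lf (nat_lit 2052) (nat_lit 6) (nat_lit 27) (nat_lit 4) (nat_lit 137) (nat_lit 158) (nat_lit 155)))) (PT.nd (nat_lit 1248) (PT.lf (nat_lit 2204) (nat_lit 6) (nat_lit 29) (nat_lit 4) (nat_lit 138) (nat_lit 158) (nat_lit 154)) (PT.nd (nat_lit 78) (PT.lf (nat_lit 2204) (nat_lit 6) (nat_lit 29) (nat_lit 2) (nat_lit 154) (nat_lit 158) (nat_lit 138)) (PT.lf (nat_lit 2052) (nat_lit 6) (nat_lit 27) (nat_lit 2) (nat_lit 155) (nat_lit 158) (nat_lit 137))))))) (PT.nd (nat_lit 46956) (PT.nd (nat_lit 44928) (PT.nd (nat_lit 234) (PT.nd (nat_lit 78) (PT.lf (nat_lit 1900) (nat_lit 6) (nat_lit 25) (nat_lit 2) (nat_lit 156) (nat_lit 158) (nat_lit 136)) (PT.nd (nat_lit 78) (PT.lf (nat_lit 1824) (nat_lit 6) (nat_lit 24) (nat_lit 2) (nat_lit 157) (nat_lit 158) (nat_lit 135)) (PT.lf (nat_lit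 1672) (nat_lit 3) (nat_lit 22) (nat_lit 0) (nat_lit 158) (nat_lit 158) (nat_lit 134)))) (PT.nd (nat_lit 78) (PT.lf (nat_lit 1520) (nat_lit 6) (nat_lit 20) (nat_lit 0) (nat_lit 159) (nat_lit 158) (nat_lit 133)) (PT.nd (nat_lit 44538) (PT.lf (nat_lit 1292) (nat_lit 6) (nat_lit 17) (nat_lit 0) (nat_lit 160) (nat_lit 158) (nat_lit 132)) (PT.lf (nat_lit 1064) (nat_lit 6) (nat_lit 14) (nat_lit 5) (nat_lit 130) (nat_lit 159) (nat_lit 161))))) (PT.nd (nat_lit 234) (PT.nd (nat_lit 78) (PT.lf (nat_lit 1216) (nat_lit 6) (nat_lit 16) (nat_lit 5) (nat_lit 131) (nat_lit 159) (nat_lit 160)) (PT.nd (nat_lit 78) (PT.lf (nat_lit 1368) (nat_lit 3) (nat_lit 18) (nat_lit 4) (nat_lit 132) (nat_lit 159) (nat_lit 159)) (PT.lf (nat_lit 1520) (nat_lit 6) (nat_lit 20) (nat_lit 4) (nat_lit 133) (nat_lit 159) (nat_lit 158)))) (PT.nd (nat_lit 78) (PT.lf (nat_lit 1596) (nat_lit 6) (nat_lit 21) (nat_lit 4) (nat_lit 134)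 (nat_lit 159) (nat_lit 157)) (PT.nd (nat_lit 1638) (PT.lf (nat_lit 1748) (nat_lit 6) (nat_lit 23) (nat_lit 4) (nat_lit 135) (nat_lit 159) (nat_lit 156)) (PT.lf (nat_lit 1748) (nat_lit 6) (nat_lit 23) (nat_lit 2) (nat_lit 156) (nat_lit 159) (nat_lit 135)))))) (PT.nd (nat_lit 44694) (PT.nd (nat_lit 234) (PT.nd (nat_lit 78) (PT.lf (nat_lit 1596) (nat_lit 6) (nat_lit 21) (nat_lit 2) (nat_lit 157) (nat_lit 159) (nat_lit 134)) (PT.nd (nat_lit 78) (PT.lf (nat_lit 1520) (nat_lit 6) (nat_lit 20) (nat_lit 2) (nat_lit 158) (nat_lit 159) (nat_lit 133)) (PT.lf (nat_lit 1368) (nat_lit 3) (nat_lit 18) (nat_lit 0) (nat_lit 159) (nat_lit 159) (nat_lit 132)))) (PT.nd (nat_lit 78) (PT.lf (nat_lit 1216) (nat_lit 6) (nat_lit 16) (nat_lit 0) (nat_lit 160) (nat_lit 159) (nat_lit 131)) (PT.nd (nat_lit 44304) (PT.lf (nat_lit 1064) (nat_lit 6) (nat_lit 14) (nat_lit 0) (nat_lit 161) (nat_lit 159) (nat_lit 130)) (PT.lf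 (nat_lit 836) (nat_lit 6) (nat_lit 11) (nat_lit 5) (nat_lit 128) (nat_lit 160) (nat_lit 162))))) (PT.nd (nat_lit 234) (PT.nd (nat_lit 78) (PT.lf (nat_lit 988) (nat_lit 6) (nat_lit 13) (nat_lit 5) (nat_lit 129) (nat_lit 160) (nat_lit 161)) (PT.nd (nat_lit 78) (PT.lf (nat_lit 1140) (nat_lit 3) (nat_lit 15) (nat_lit 4) (nat_lit 130) (nat_lit 160) (nat_lit 160)) (PT.lf (nat_lit 1216) (nat_lit 6) (nat_lit 16) (nat_lit 4) (nat_lit 131) (nat_lit 160) (nat_lit 159)))) (PT.nd (nat_lit 78) (PT.lf (nat_lit 1292) (nat_lit 6) (nat_lit 17) (nat_lit 4) (nat_lit 132) (nat_lit 160) (nat_lit 158)) (PT.nd (nat_lit 1872) (PT.lf (nat_lit 1444) (nat_lit 6) (nat_lit 19) (nat_lit 4) (nat_lit 133) (nat_lit 160) (nat_lit 157)) (PT.lf (nat_lit 1444) (nat_lit 6) (nat_lit 19) (nat_lit 2) (nat_lit 157) (nat_lit 160) (nat_lit 133))))))))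
noncomputable def pc7 : PT := (PT.nd (nat_lit 94146) (PT.nd (nat_lit 47034) (PT.nd (nat_lit 44382) (PT.nd (nat_lit 156) (PT.nd (nat_lit 78) (PT.lf (nat_lit 1292) (nat_lit 6) (nat_lit 17) (nat_lit 2) (nat_lit 158) (nat_lit 160) (nat_lit 132)) (PT.lf (nat_lit 1216) (nat_lit 6) (nat_lit 16) (nat_lit 2) (nat_lit 159) (nat_lit 160) (nat_lit 131))) (PT.nd (nat_lit 78) (PT.lf (nat_lit 1140) (nat_lit 3) (nat_lit 15) (nat_lit 0) (nat_lit 160) (nat_lit 160) (nat_lit 130)) (PT.nd (nat_lit 78) (PT.lf (nat_lit 988) (nat_lit 6) (nat_lit 13) (nat_lit 0) (nat_lit 161) (nat_lit 160) (nat_lit 129)) (PT.lf (nat_lit 836) (nat_lit 6) (nat_lit 11) (nat_lit 0) (nat_lit 162) (nat_lit 160) (nat_lit 128))))) (PT.nd (nat_lit 234) (PT.nd (nat_lit 78) (PT.lf (nat_lit 608) (nat_lit 6) (nat_lit 8) (nat_lit 5) (nat_lit 126) (nat_lit 161) (nat_lit 163)) (PT.nd (nat_lit 78) (PT.lf (nat_lit 760) (nat_lit 6) (nat_lit 10)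 (nat_lit 5) (nat_lit 127) (nat_lit 161) (nat_lit 162)) (PT.lf (nat_lit 912) (nat_lit 3) (nat_lit 12) (nat_lit 4) (nat_lit 128) (nat_lit 161) (nat_lit 161)))) (PT.nd (nat_lit 78) (PT.lf (nat_lit 988) (nat_lit 6) (nat_lit 13) (nat_lit 4) (nat_lit 129) (nat_lit 161) (nat_lit 160)) (PT.nd (nat_lit 2262) (PT.lf (nat_lit 1064) (nat_lit 6) (nat_lit 14) (nat_lit 4) (nat_lit 130) (nat_lit 161) (nat_lit 159)) (PT.lf (nat_lit 1064) (nat_lit 6) (nat_lit 14) (nat_lit 2) (nat_lit 159) (nat_lit 161) (nat_lit 130)))))) (PT.nd (nat_lit 44226) (PT.nd (nat_lit 234) (PT.nd (nat_lit 78) (PT.lf (nat_lit 988) (nat_lit 6) (nat_lit 13) (nat_lit 2) (nat_lit 160) (nat_lit 161) (nat_lit 129)) (PT.nd (nat_lit 78) (PT.lf (nat_lit 912) (nat_lit 3) (nat_lit 12) (nat_lit 0) (nat_lit 161) (nat_lit 161) (nat_lit 128)) (PT.lf (nat_lit 760) (nat_lit 6) (nat_lit 10) (nat_lit 0) (nat_lit 162) (nat_lit 161) (nat_lit 127)))) (PT.nd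 (nat_lit 43836) (PT.lf (nat_lit 608) (nat_lit 6) (nat_lit 8) (nat_lit 0) (nat_lit 163) (nat_lit 161) (nat_lit 126)) (PT.nd (nat_lit 78) (PT.lf (nat_lit 380) (nat_lit 6) (nat_lit 5) (nat_lit 5) (nat_lit 124) (nat_lit 162) (nat_lit 164)) (PT.lf (nat_lit 532) (nat_lit 6) (nat_lit 7) (nat_lit 5) (nat_lit 125) (nat_lit 162) (nat_lit 163))))) (PT.nd (nat_lit 2652) (PT.nd (nat_lit 78) (PT.lf (nat_lit 684) (nat_lit 3) (nat_lit 9) (nat_lit 4) (nat_lit 126) (nat_lit 162) (nat_lit 162)) (PT.nd (nat_lit 78) (PT.lf (nat_lit 760) (nat_lit 6) (nat_lit 10) (nat_lit 4) (nat_lit 127) (nat_lit 162) (nat_lit 161)) (PT.lf (nat_lit 836) (nat_lit 6) (nat_lit 11) (nat_lit 4) (nat_lit 128) (nat_lit 162) (nat_lit 160)))) (PT.nd (nat_lit 78) (PT.lf (nat_lit 836) (nat_lit 6) (nat_lit 11) (nat_lit 2) (nat_lit 160) (nat_lit 162) (nat_lit 128)) (PT.nd (nat_lit 78) (PT.lf (nat_lit 760) (nat_lit 6) (nat_lit 10) (nat_lit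 2) (nat_lit 161) (nat_lit 162) (nat_lit 127)) (PT.lf (nat_lit 684) (nat_lit 3) (nat_lit 9) (nat_lit 0) (nat_lit 162) (nat_lit 162) (nat_lit 126))))))) (PT.nd (nat_lit 90480) (PT.nd (nat_lit 43992) (PT.nd (nat_lit 43758) (PT.nd (nat_lit 78) (PT.lf (nat_lit 532) (nat_lit 6) (nat_lit 7) (nat_lit 0) (nat_lit 163) (nat_lit 162) (nat_lit 125)) (PT.nd (nat_lit 43602) (PT.lf (nat_lit 380) (nat_lit 6) (nat_lit 5) (nat_lit 0) (nat_lit 164) (nat_lit 162) (nat_lit 124)) (PT.lf (nat_lit 152) (nat_lit 6) (nat_lit 2) (nat_lit 5) (nat_lit 122) (nat_lit 163) (nat_lit 165)))) (PT.nd (nat_lit 78) (PT.lf (nat_lit 304) (nat_lit 6) (nat_lit 4) (nat_lit 5) (nat_lit 123) (nat_lit 163) (nat_lit 164)) (PT.nd (nat_lit 78) (PT.lf (nat_lit 456) (nat_lit 3) (nat_lit 6) (nat_lit 4) (nat_lit 124) (nat_lit 163) (nat_lit 163)) (PT.lf (nat_lit 532) (nat_lit 6) (nat_lit 7) (nat_lit 4) (nat_lit 125) (nat_lit 163) (nat_lit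 162))))) (PT.nd (nat_lit 2886) (PT.nd (nat_lit 2730) (PT.lf (nat_lit 608) (nat_lit 6) (nat_lit 8) (nat_lit 4) (nat_lit 126) (nat_lit 163) (nat_lit 161)) (PT.nd (nat_lit 78) (PT.lf (nat_lit 608) (nat_lit 6) (nat_lit 8) (nat_lit 2) (nat_lit 161) (nat_lit 163) (nat_lit 126)) (PT.lf (nat_lit 532) (nat_lit 6) (nat_lit 7) (nat_lit 2) (nat_lit 162) (nat_lit 163) (nat_lit 125)))) (PT.nd (nat_lit 78) (PT.lf (nat_lit 456) (nat_lit 3) (nat_lit 6) (nat_lit 0) (nat_lit 163) (nat_lit 163) (nat_lit 124)) (PT.nd (nat_lit 78) (PT.lf (nat_lit 304) (nat_lit 6) (nat_lit 4) (nat_lit 0) (nat_lit 164) (nat_lit 163) (nat_lit 123)) (PT.lf (nat_lit 152) (nat_lit 6) (nat_lit 2) (nat_lit 0) (nat_lit 165) (nat_lit 163) (nat_lit 122)))))) (PT.nd (nat_lit 3354) (PT.nd (nat_lit 234) (PT.nd (nat_lit 78) (PT.lf (nat_lit 76) (nat_lit 6) (nat_lit 1) (nat_lit 5) (nat_lit 121) (nat_lit 164) (nat_lit 165)) (PT.nd (nat_lit 78)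 (PT.lf (nat_lit 228) (nat_lit 3) (nat_lit 3) (nat_lit 4) (nat_lit 122) (nat_lit 164) (nat_lit 164)) (PT.lf (nat_lit 304) (nat_lit 6) (nat_lit 4) (nat_lit 4) (nat_lit 123) (nat_lit 164) (nat_lit 163)))) (PT.nd (nat_lit 2964) (PT.lf (nat_lit 380) (nat_lit 6) (nat_lit 5) (nat_lit 4) (nat_lit 124) (nat_lit 164) (nat_lit 162)) (PT.nd (nat_lit 78) (PT.lf (nat_lit 380) (nat_lit 6) (nat_lit 5) (nat_lit 2) (nat_lit 162) (nat_lit 164) (nat_lit 124)) (PT.lf (nat_lit 304) (nat_lit 6) (nat_lit 4) (nat_lit 2) (nat_lit 163) (nat_lit 164) (nat_lit 123))))) (PT.nd (nat_lit 43602) (PT.nd (nat_lit 78) (PT.lf (nat_lit 228) (nat_lit 3) (nat_lit 3) (nat_lit 0) (nat_lit 164) (nat_lit 164) (nat_lit 122)) (PT.nd (nat_lit 43446) (PT.lf (nat_lit 76) (nat_lit 6) (nat_lit 1) (nat_lit 0) (nat_lit 165) (nat_lit 164) (nat_lit 121)) (PT.lf (nat_lit 76) (nat_lit 6) (nat_lit 1) (nat_lit 4) (nat_lit 121) (nat_lit 165) (nat_lit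 164)))) (PT.nd (nat_lit 3198) (PT.lf (nat_lit 152) (nat_lit 6) (nat_lit 2) (nat_lit 4) (nat_lit 122) (nat_lit 165) (nat_lit 163)) (PT.nd (nat_lit 78) (PT.lf (nat_lit 152) (nat_lit 6) (nat_lit 2) (nat_lit 2) (nat_lit 163) (nat_lit 165) (nat_lit 122)) (PT.lf (nat_lit 76) (nat_lit 6) (nat_lit 1) (nat_lit 2) (nat_lit 164) (nat_lit 165) (nat_lit 121))))))))
noncomputable def xc0 : XT := (XT.nd (nat_lit 187044) (nat_lit 0) (nat_lit 0) (XT.nd (nat_lit 93834) (nat_lit 0) (nat_lit 0) (XT.nd (nat_lit 46956) (nat_lit 0) (nat_lit 0) (XT.nd (nat_lit 46722) (nat_lit 0) (nat_lit 0) (XT.nd (nat_lit 78) (nat_lit 0) (nat_lit 0) (XT.lf (nat_lit 0) (nat_lit 96390456544) (nat_lit 76) (nat_lit 264088224695) (nat_lit 76) (nat_lit 264088224695) (nat_lit 1) (nat_lit 4) (nat_lit 2) (nat_lit 5) (nat_lit 2) (nat_lit 4) (nat_lit 392) (nat_lit 254) (nat_lit 254)) (XT.lf (nat_lit 0) (nat_lit 210831752801) (nat_lit 76)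 (nat_lit 569104855463) (nat_lit 76) (nat_lit 569060089168) (nat_lit 1) (nat_lit 4) (nat_lit 2) (nat_lit 5) (nat_lit 2) (nat_lit 4) (nat_lit 393) (nat_lit 254) (nat_lit 253))) (XT.nd (nat_lit 78) (nat_lit 0) (nat_lit 0) (XT.lf (nat_lit 0) (nat_lit 80139066535) (nat_lit 76) (nat_lit 227695450235) (nat_lit 76) (nat_lit 227695450235) (nat_lit 1) (nat_lit 4) (nat_lit 2) (nat_lit 5) (nat_lit 2) (nat_lit 4) (nat_lit 390) (nat_lit 255) (nat_lit 255)) (XT.nd (nat_lit 78) (nat_lit 0) (nat_lit 0) (XT.lf (nat_lit 0) (nat_lit 175939019715) (nat_lit 76) (nat_lit 490390405841) (nat_lit 76) (nat_lit 490342058242) (nat_lit 1) (nat_lit 4) (nat_lit 2) (nat_lit 5) (nat_lit 2) (nat_lit 4) (nat_lit 391) (nat_lit 255) (nat_lit 254)) (XT.lf (nat_lit 0) (nat_lit 192714372160) (nat_lit 76) (nat_lit 528257135274) (nat_lit 76) (nat_lit 528164021380) (nat_lit 1) (nat_lit 4) (nat_lit 2) (nat_lit 5) (nat_lit 2) (nat_lit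 4) (nat_lit 392) (nat_lit 255) (nat_lit 253))))) (XT.nd (nat_lit 46644) (nat_lit 0) (nat_lit 0) (XT.nd (nat_lit 46488) (nat_lit 0) (nat_lit 0) (XT.lf (nat_lit 0) (nat_lit 210703599902) (nat_lit 76) (nat_lit 569215484205) (nat_lit 76) (nat_lit 569080920037) (nat_lit 1) (nat_lit 4) (nat_lit 2) (nat_lit 5) (nat_lit 2) (nat_lit 4) (nat_lit 393) (nat_lit 255) (nat_lit 252)) (XT.nd (nat_lit 78) (nat_lit 0) (nat_lit 0) (XT.lf (nat_lit 0) (nat_lit 66006101895) (nat_lit 76) (nat_lit 196597100970) (nat_lit 76) (nat_lit 196597100970) (nat_lit 1) (nat_lit 4) (nat_lit 2) (nat_lit 5) (nat_lit 2) (nat_lit 4) (nat_lit 388) (nat_lit 256) (nat_lit 256)) (XT.lf (nat_lit 0) (nat_lit 145638906973) (nat_lit 76) (nat_lit 423103430095) (nat_lit 76) (nat_lit 423051214688) (nat_lit 1) (nat_lit 4) (nat_lit 2) (nat_lit 5) (nat_lit 2) (nat_lit 4) (nat_lit 389) (nat_lit 256) (nat_lit 255)))) (XT.nd (nat_lit 78) (nat_lit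 0) (nat_lit 0) (XT.lf (nat_lit 0) (nat_lit 160206268868) (nat_lit 76) (nat_lit 455478041226) (nat_lit 76) (nat_lit 455377478220) (nat_lit 1) (nat_lit 4) (nat_lit 2) (nat_lit 5) (nat_lit 2) (nat_lit 4) (nat_lit 390) (nat_lit 256) (nat_lit 254)) (XT.nd (nat_lit 78) (nat_lit 0) (nat_lit 0) (XT.lf (nat_lit 0) (nat_lit 175800614584) (nat_lit 76) (nat_lit 490509884882) (nat_lit 76) (nat_lit 490364555580) (nat_lit 1) (nat_lit 4) (nat_lit 2) (nat_lit 5) (nat_lit 2) (nat_lit 4) (nat_lit 391) (nat_lit 256) (nat_lit 253)) (XT.lf (nat_lit 0) (nat_lit 192514355059) (nat_lit 76) (nat_lit 528406557172) (nat_lit 76) (nat_lit 528219777597) (nat_lit 1) (nat_lit 4) (nat_lit 2) (nat_lit 5) (nat_lit 2) (nat_lit 4) (nat_lit 392) (nat_lit 256) (nat_lit 252)))))) (XT.nd (nat_lit 46644) (nat_lit 0) (nat_lit 0) (XT.nd (nat_lit 46410) (nat_lit 0) (nat_lit 0) (XT.nd (nat_lit 46332) (nat_lit 0) (nat_lit 0) (XT.lf (nat_lit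 0) (nat_lit 210446534680) (nat_lit 76) (nat_lit 569392630970) (nat_lit 76) (nat_lit 569167471512) (nat_lit 1) (nat_lit 4) (nat_lit 2) (nat_lit 5) (nat_lit 2) (nat_lit 4) (nat_lit 393) (nat_lit 256) (nat_lit 251)) (XT.lf (nat_lit 0) (nat_lit 53673344194) (nat_lit 76) (nat_lit 170046075080) (nat_lit 76) (nat_lit 170046075080) (nat_lit 1) (nat_lit 4) (nat_lit 2) (nat_lit 5) (nat_lit 2) (nat_lit 4) (nat_lit 386) (nat_lit 257) (nat_lit 257))) (XT.nd (nat_lit 78) (nat_lit 0) (nat_lit 0) (XT.lf (nat_lit 0) (nat_lit 119245408489) (nat_lit 76) (nat_lit 365629509532) (nat_lit 76) (nat_lit 365573116893) (nat_lit 1) (nat_lit 4) (nat_lit 2) (nat_lit 5) (nat_lit 2) (nat_lit 4) (nat_lit 387) (nat_lit 257) (nat_lit 256)) (XT.nd (nat_lit 78) (nat_lit 0) (nat_lit 0) (XT.lf (nat_lit 0) (nat_lit 131934590452) (nat_lit 76) (nat_lit 393288313957) (nat_lit 76) (nat_lit 393179705910) (nat_lit 1) (nat_lit 4) (nat_lit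 2) (nat_lit 5) (nat_lit 2) (nat_lit 4) (nat_lit 388) (nat_lit 257) (nat_lit 255)) (XT.lf (nat_lit 0) (nat_lit 145489429432) (nat_lit 76) (nat_lit 423232467459) (nat_lit 76) (nat_lit 423075511814) (nat_lit 1) (nat_lit 4) (nat_lit 2) (nat_lit 5) (nat_lit 2) (nat_lit 4) (nat_lit 389) (nat_lit 257) (nat_lit 254))))) (XT.nd (nat_lit 234) (nat_lit 0) (nat_lit 0) (XT.nd (nat_lit 78) (nat_lit 0) (nat_lit 0) (XT.lf (nat_lit 0) (nat_lit 159990250399) (nat_lit 76) (nat_lit 455639416876) (nat_lit 76) (nat_lit 455437694935) (nat_lit 1) (nat_lit 4) (nat_lit 2) (nat_lit 5) (nat_lit 2) (nat_lit 4) (nat_lit 390) (nat_lit 257) (nat_lit 253)) (XT.nd (nat_lit 78) (nat_lit 0) (nat_lit 0) (XT.lf (nat_lit 0) (nat_lit 175522984144) (nat_lit 76) (nat_lit 490701203388) (nat_lit 76) (nat_lit 490458031174) (nat_lit 1) (nat_lit 4) (nat_lit 2) (nat_lit 5) (nat_lit 2) (nat_lit 4) (nat_lit 391) (nat_lit 257) (nat_lit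 252)) (XT.lf (nat_lit 0) (nat_lit 192179676498) (nat_lit 76) (nat_lit 528625600546) (nat_lit 76) (nat_lit 528344048449) (nat_lit 1) (nat_lit 4) (nat_lit 2) (nat_lit 5) (nat_lit 2) (nat_lit 4) (nat_lit 392) (nat_lit 257) (nat_lit 251)))) (XT.nd (nat_lit 46176) (nat_lit 0) (nat_lit 0) (XT.lf (nat_lit 0) (nat_lit 210059033785) (nat_lit 76) (nat_lit 569637345518) (nat_lit 76) (nat_lit 569320256492) (nat_lit 1) (nat_lit 4) (nat_lit 2) (nat_lit 5) (nat_lit 2) (nat_lit 4) (nat_lit 393) (nat_lit 257) (nat_lit 250)) (XT.nd (nat_lit 78) (nat_lit 0) (nat_lit 0) (XT.lf (nat_lit 0) (nat_lit 42866692309) (nat_lit 76) (nat_lit 147402509743) (nat_lit 76) (nat_lit 147402509743) (nat_lit 1) (nat_lit 4) (nat_lit 2) (nat_lit 5) (nat_lit 2) (nat_lit 4) (nat_lit 384) (nat_lit 258) (nat_lit 258)) (XT.lf (nat_lit 0) (nat_lit 96167919218) (nat_lit 76) (nat_lit 316585807392) (nat_lit 76) (nat_lit 316524903341) (nat_lit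 1) (nat_lit 4) (nat_lit 2) (nat_lit 5) (nat_lit 2) (nat_lit 4) (nat_lit 385) (nat_lit 258) (nat_lit 257))))))) (XT.nd (nat_lit 46800) (nat_lit 0) (nat_lit 0) (XT.nd (nat_lit 390) (nat_lit 0) (nat_lit 0) (XT.nd (nat_lit 156) (nat_lit 0) (nat_lit 0) (XT.nd (nat_lit 78) (nat_lit 0) (nat_lit 0) (XT.lf (nat_lit 0) (nat_lit 107262865983) (nat_lit 76) (nat_lit 340193791138) (nat_lit 76) (nat_lit 340076494448) (nat_lit 1) (nat_lit 4) (nat_lit 2) (nat_lit 5) (nat_lit 2) (nat_lit 4) (nat_lit 386) (nat_lit 258) (nat_lit 256)) (XT.lf (nat_lit 0) (nat_lit 119083972744) (nat_lit 76) (nat_lit 365768869886) (nat_lit 76) (nat_lit 365599357789) (nat_lit 1) (nat_lit 4) (nat_lit 2) (nat_lit 5) (nat_lit 2) (nat_lit 4) (nat_lit 387) (nat_lit 258) (nat_lit 255))) (XT.nd (nat_lit 78) (nat_lit 0) (nat_lit 0) (XT.lf (nat_lit 0) (nat_lit 131701290505) (nat_lit 76) (nat_lit 393462599658) (nat_lit 76) (nat_lit 393244739962)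 (nat_lit 1) (nat_lit 4) (nat_lit 2) (nat_lit 5) (nat_lit 2) (nat_lit 4) (nat_lit 388) (nat_lit 258) (nat_lit 254)) (XT.nd (nat_lit 78) (nat_lit 0) (nat_lit 0) (XT.lf (nat_lit 0) (nat_lit 145189588556) (nat_lit 76) (nat_lit 423439091446) (nat_lit 76) (nat_lit 423176465455) (nat_lit 1) (nat_lit 4) (nat_lit 2) (nat_lit 5) (nat_lit 2) (nat_lit 4) (nat_lit 389) (nat_lit 258) (nat_lit 253)) (XT.lf (nat_lit 0) (nat_lit 159628797553) (nat_lit 76) (nat_lit 455875983720) (nat_lit 76) (nat_lit 455571907455) (nat_lit 1) (nat_lit 4) (nat_lit 2) (nat_lit 5) (nat_lit 2) (nat_lit 4) (nat_lit 390) (nat_lit 258) (nat_lit 252))))) (XT.nd (nat_lit 46176) (nat_lit 0) (nat_lit 0) (XT.nd (nat_lit 78) (nat_lit 0) (nat_lit 0) (XT.lf (nat_lit 0) (nat_lit 175104483178) (nat_lit 76) (nat_lit 490965495100) (nat_lit 76) (nat_lit 490623038952) (nat_lit 1) (nat_lit 4) (nat_lit 2) (nat_lit 5) (nat_lit 2) (nat_lit 4) (nat_lit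 391) (nat_lit 258) (nat_lit 251)) (XT.nd (nat_lit 78) (nat_lit 0) (nat_lit 0) (XT.lf (nat_lit 0) (nat_lit 191708353197) (nat_lit 76) (nat_lit 528915563432) (nat_lit 76) (nat_lit 528537570355) (nat_lit 1) (nat_lit 4) (nat_lit 2) (nat_lit 5) (nat_lit 2) (nat_lit 4) (nat_lit 392) (nat_lit 258) (nat_lit 250)) (XT.lf (nat_lit 0) (nat_lit 209538800915) (nat_lit 76) (nat_lit 569951078009) (nat_lit 76) (nat_lit 569540180369) (nat_lit 1) (nat_lit 4) (nat_lit 2) (nat_lit 5) (nat_lit 2) (nat_lit 4) (nat_lit 393) (nat_lit 258) (nat_lit 249)))) (XT.nd (nat_lit 78) (nat_lit 0) (nat_lit 0) (XT.lf (nat_lit 0) (nat_lit 33349766187) (nat_lit 76) (nat_lit 128118534816) (nat_lit 76) (nat_lit 128118534816) (nat_lit 1) (nat_lit 4) (nat_lit 2) (nat_lit 5) (nat_lit 2) (nat_lit 4) (nat_lit 382) (nat_lit 259) (nat_lit 259)) (XT.nd (nat_lit 78) (nat_lit 0) (nat_lit 0) (XT.lf (nat_lit 0) (nat_lit 75897427902) (nat_lit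 76) (nat_lit 274788132458) (nat_lit 76) (nat_lit 274722356083) (nat_lit 1) (nat_lit 4) (nat_lit 2) (nat_lit 5) (nat_lit 2) (nat_lit 4) (nat_lit 383) (nat_lit 259) (nat_lit 258)) (XT.lf (nat_lit 0) (nat_lit 85642856419) (nat_lit 76) (nat_lit 294914791741) (nat_lit 76) (nat_lit 294788111316) (nat_lit 1) (nat_lit 4) (nat_lit 2) (nat_lit 5) (nat_lit 2) (nat_lit 4) (nat_lit 384) (nat_lit 259) (nat_lit 257)))))) (XT.nd (nat_lit 468) (nat_lit 0) (nat_lit 0) (XT.nd (nat_lit 234) (nat_lit 0) (nat_lit 0) (XT.nd (nat_lit 78) (nat_lit 0) (nat_lit 0) (XT.lf (nat_lit 0) (nat_lit 95993568614) (nat_lit 76) (nat_lit 316736316574) (nat_lit 76) (nat_lit 316553243509) (nat_lit 1) (nat_lit 4) (nat_lit 2) (nat_lit 5) (nat_lit 2) (nat_lit 4) (nat_lit 385) (nat_lit 259) (nat_lit 256)) (XT.nd (nat_lit 78) (nat_lit 0) (nat_lit 0) (XT.lf (nat_lit 0) (nat_lit 107010902040) (nat_lit 76) (nat_lit 340382019696) (nat_lit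 76) (nat_lit 340146731224) (nat_lit 1) (nat_lit 4) (nat_lit 2) (nat_lit 5) (nat_lit 2) (nat_lit 4) (nat_lit 386) (nat_lit 259) (nat_lit 255)) (XT.lf (nat_lit 0) (nat_lit 118760144599) (nat_lit 76) (nat_lit 365992023792) (nat_lit 76) (nat_lit 365708387721) (nat_lit 1) (nat_lit 4) (nat_lit 2) (nat_lit 5) (nat_lit 2) (nat_lit 4) (nat_lit 387) (nat_lit 259) (nat_lit 254)))) (XT.nd (nat_lit 78) (nat_lit 0) (nat_lit 0) (XT.lf (nat_lit 0) (nat_lit 131310921432) (nat_lit 76) (nat_lit 393718091850) (nat_lit 76) (nat_lit 393389689483) (nat_lit 1) (nat_lit 4) (nat_lit 2) (nat_lit 5) (nat_lit 2) (nat_lit 4) (nat_lit 388) (nat_lit 259) (nat_lit 253)) (XT.nd (nat_lit 78) (nat_lit 0) (nat_lit 0) (XT.lf (nat_lit 0) (nat_lit 144737607512) (nat_lit 76) (nat_lit 423724526495) (nat_lit 76) (nat_lit 423354673855) (nat_lit 1) (nat_lit 4) (nat_lit 2) (nat_lit 5) (nat_lit 2) (nat_lit 4) (nat_lit 389) (nat_lit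 259) (nat_lit 252)) (XT.lf (nat_lit 0) (nat_lit 159119768388) (nat_lit 76) (nat_lit 456189143636) (nat_lit 76) (nat_lit 455780911113) (nat_lit 1) (nat_lit 4) (nat_lit 2) (nat_lit 5) (nat_lit 2) (nat_lit 4) (nat_lit 390) (nat_lit 259) (nat_lit 251))))) (XT.nd (nat_lit 46020) (nat_lit 0) (nat_lit 0) (XT.nd (nat_lit 78) (nat_lit 0) (nat_lit 0) (XT.lf (nat_lit 0) (nat_lit 174542631678) (nat_lit 76) (nat_lit 491304326190) (nat_lit 76) (nat_lit 490860556738) (nat_lit 1) (nat_lit 4) (nat_lit 2) (nat_lit 5) (nat_lit 2) (nat_lit 4) (nat_lit 391) (nat_lit 259) (nat_lit 250)) (XT.nd (nat_lit 78) (nat_lit 0) (nat_lit 0) (XT.lf (nat_lit 0) (nat_lit 191097592129) (nat_lit 76) (nat_lit 529278164127) (nat_lit 76) (nat_lit 528801490112) (nat_lit 1) (nat_lit 4) (nat_lit 2) (nat_lit 5) (nat_lit 2) (nat_lit 4) (nat_lit 392) (nat_lit 259) (nat_lit 249)) (XT.lf (nat_lit 0) (nat_lit 208882753210) (nat_lit 76)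 (nat_lit 570335687598) (nat_lit 76) (nat_lit 569828546394) (nat_lit 1) (nat_lit 4) (nat_lit 2) (nat_lit 5) (nat_lit 2) (nat_lit 4) (nat_lit 393) (nat_lit 259) (nat_lit 248)))) (XT.nd (nat_lit 78) (nat_lit 0) (nat_lit 0) (XT.lf (nat_lit 0) (nat_lit 24918414915) (nat_lit 76) (nat_lit 111725205781) (nat_lit 76) (nat_lit 111725205781) (nat_lit 1) (nat_lit 4) (nat_lit 2) (nat_lit 5) (nat_lit 2) (nat_lit 4) (nat_lit 380) (nat_lit 260) (nat_lit 260)) (XT.nd (nat_lit 78) (nat_lit 0) (nat_lit 0) (XT.lf (nat_lit 0) (nat_lit 57994663789) (nat_lit 76) (nat_lit 239222709524) (nat_lit 76) (nat_lit 239151671039) (nat_lit 1) (nat_lit 4) (nat_lit 2) (nat_lit 5) (nat_lit 2) (nat_lit 4) (nat_lit 381) (nat_lit 260) (nat_lit 259)) (XT.lf (nat_lit 0) (nat_lit 66601761920) (nat_lit 76) (nat_lit 256355623667) (nat_lit 76) (nat_lit 256218808808) (nat_lit 1) (nat_lit 4) (nat_lit 2) (nat_lit 5) (nat_lit 2) (nat_lit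 4) (nat_lit 382) (nat_lit 260) (nat_lit 258))))))))
noncomputable def xc1 : XT := (XT.nd (nat_lit 47346) (nat_lit 0) (nat_lit 0) (XT.nd (nat_lit 46488) (nat_lit 0) (nat_lit 0) (XT.nd (nat_lit 390) (nat_lit 0) (nat_lit 0) (XT.nd (nat_lit 156) (nat_lit 0) (nat_lit 0) (XT.nd (nat_lit 78) (nat_lit 0) (nat_lit 0) (XT.lf (nat_lit 0) (nat_lit 75709129250) (nat_lit 76) (nat_lit 274950682374) (nat_lit 76) (nat_lit 274752963464) (nat_lit 1) (nat_lit 4) (nat_lit 2) (nat_lit 5) (nat_lit 2) (nat_lit 4) (nat_lit 383) (nat_lit 260) (nat_lit 257)) (XT.lf (nat_lit 0) (nat_lit 85370735361) (nat_lit 76) (nat_lit 295118078583) (nat_lit 76) (nat_lit 294863967034) (nat_lit 1) (nat_lit 4) (nat_lit 2) (nat_lit 5) (nat_lit 2) (nat_lit 4) (nat_lit 384) (nat_lit 260) (nat_lit 256))) (XT.nd (nat_lit 78) (nat_lit 0) (nat_lit 0) (XT.lf (nat_lit 0) (nat_lit 95643834217) (nat_lit 76) (nat_lit 316977322792) (nat_lit 76)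 (nat_lit 316670995836) (nat_lit 1) (nat_lit 4) (nat_lit 2) (nat_lit 5) (nat_lit 2) (nat_lit 4) (nat_lit 385) (nat_lit 260) (nat_lit 255)) (XT.nd (nat_lit 78) (nat_lit 0) (nat_lit 0) (XT.lf (nat_lit 0) (nat_lit 106589303441) (nat_lit 76) (nat_lit 340657951263) (nat_lit 76) (nat_lit 340303276707) (nat_lit 1) (nat_lit 4) (nat_lit 2) (nat_lit 5) (nat_lit 2) (nat_lit 4) (nat_lit 386) (nat_lit 260) (nat_lit 254)) (XT.lf (nat_lit 0) (nat_lit 118272005071) (nat_lit 76) (nat_lit 366300293644) (nat_lit 76) (nat_lit 365900852793) (nat_lit 1) (nat_lit 4) (nat_lit 2) (nat_lit 5) (nat_lit 2) (nat_lit 4) (nat_lit 387) (nat_lit 260) (nat_lit 253))))) (XT.nd (nat_lit 234) (nat_lit 0) (nat_lit 0) (XT.nd (nat_lit 78) (nat_lit 0) (nat_lit 0) (XT.lf (nat_lit 0) (nat_lit 130761169934) (nat_lit 76) (nat_lit 394056304559) (nat_lit 76) (nat_lit 393615413435) (nat_lit 1) (nat_lit 4) (nat_lit 2) (nat_lit 5) (nat_lit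 2) (nat_lit 4) (nat_lit 388) (nat_lit 260) (nat_lit 252)) (XT.nd (nat_lit 78) (nat_lit 0) (nat_lit 0) (XT.lf (nat_lit 0) (nat_lit 144130807893) (nat_lit 76) (nat_lit 424090464072) (nat_lit 76) (nat_lit 423611193064) (nat_lit 1) (nat_lit 4) (nat_lit 2) (nat_lit 5) (nat_lit 2) (nat_lit 4) (nat_lit 389) (nat_lit 260) (nat_lit 251)) (XT.lf (nat_lit 0) (nat_lit 158460146435) (nat_lit 76) (nat_lit 456580752387) (nat_lit 76) (nat_lit 456065944451) (nat_lit 1) (nat_lit 4) (nat_lit 2) (nat_lit 5) (nat_lit 2) (nat_lit 4) (nat_lit 390) (nat_lit 260) (nat_lit 250)))) (XT.nd (nat_lit 78) (nat_lit 0) (nat_lit 0) (XT.lf (nat_lit 0) (nat_lit 173834100156) (nat_lit 76) (nat_lit 491719704546) (nat_lit 76) (nat_lit 491171992046) (nat_lit 1) (nat_lit 4) (nat_lit 2) (nat_lit 5) (nat_lit 2) (nat_lit 4) (nat_lit 391) (nat_lit 260) (nat_lit 249)) (XT.nd (nat_lit 78) (nat_lit 0) (nat_lit 0) (XT.lf (nat_lit 0) (nat_lit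 190343773969) (nat_lit 76) (nat_lit 529715551377) (nat_lit 76) (nat_lit 529137371688) (nat_lit 1) (nat_lit 4) (nat_lit 2) (nat_lit 5) (nat_lit 2) (nat_lit 4) (nat_lit 392) (nat_lit 260) (nat_lit 248)) (XT.lf (nat_lit 0) (nat_lit 208087002978) (nat_lit 76) (nat_lit 570793453453) (nat_lit 76) (nat_lit 570187063405) (nat_lit 1) (nat_lit 4) (nat_lit 2) (nat_lit 5) (nat_lit 2) (nat_lit 4) (nat_lit 393) (nat_lit 260) (nat_lit 247)))))) (XT.nd (nat_lit 390) (nat_lit 0) (nat_lit 0) (XT.nd (nat_lit 156) (nat_lit 0) (nat_lit 0) (XT.nd (nat_lit 78) (nat_lit 0) (nat_lit 0) (XT.lf (nat_lit 0) (nat_lit 17395999418) (nat_lit 76) (nat_lit 97821305389) (nat_lit 76) (nat_lit 97821305389) (nat_lit 1) (nat_lit 4) (nat_lit 2) (nat_lit 5) (nat_lit 2) (nat_lit 4) (nat_lit 378) (nat_lit 261) (nat_lit 261)) (XT.lf (nat_lit 0) (nat_lit 42079917323) (nat_lit 76) (nat_lit 209021985879) (nat_lit 76) (nat_lit 208945264316)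 (nat_lit 1) (nat_lit 4) (nat_lit 2) (nat_lit 5) (nat_lit 2) (nat_lit 4) (nat_lit 379) (nat_lit 261) (nat_lit 260))) (XT.nd (nat_lit 78) (nat_lit 0) (nat_lit 0) (XT.lf (nat_lit 0) (nat_lit 49731237739) (nat_lit 76) (nat_lit 223578449922) (nat_lit 76) (nat_lit 223430689873) (nat_lit 1) (nat_lit 4) (nat_lit 2) (nat_lit 5) (nat_lit 2) (nat_lit 4) (nat_lit 380) (nat_lit 261) (nat_lit 259)) (XT.nd (nat_lit 78) (nat_lit 0) (nat_lit 0) (XT.lf (nat_lit 0) (nat_lit 57791301244) (nat_lit 76) (nat_lit 239398263433) (nat_lit 76) (nat_lit 239184727010) (nat_lit 1) (nat_lit 4) (nat_lit 2) (nat_lit 5) (nat_lit 2) (nat_lit 4) (nat_lit 381) (nat_lit 261) (nat_lit 258)) (XT.lf (nat_lit 0) (nat_lit 66307871177) (nat_lit 76) (nat_lit 256575173457) (nat_lit 76) (nat_lit 256300732984) (nat_lit 1) (nat_lit 4) (nat_lit 2) (nat_lit 5) (nat_lit 2) (nat_lit 4) (nat_lit 382) (nat_lit 261) (nat_lit 257))))) (XT.nd (nat_lit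 234) (nat_lit 0) (nat_lit 0) (XT.nd (nat_lit 78) (nat_lit 0) (nat_lit 0) (XT.lf (nat_lit 0) (nat_lit 75331416101) (nat_lit 76) (nat_lit 275210969090) (nat_lit 76) (nat_lit 274880135977) (nat_lit 1) (nat_lit 4) (nat_lit 2) (nat_lit 5) (nat_lit 2) (nat_lit 4) (nat_lit 383) (nat_lit 261) (nat_lit 256)) (XT.nd (nat_lit 78) (nat_lit 0) (nat_lit 0) (XT.lf (nat_lit 0) (nat_lit 84915408874) (nat_lit 76) (nat_lit 295416084676) (nat_lit 76) (nat_lit 295033036156) (nat_lit 1) (nat_lit 4) (nat_lit 2) (nat_lit 5) (nat_lit 2) (nat_lit 4) (nat_lit 384) (nat_lit 261) (nat_lit 255)) (XT.lf (nat_lit 0) (nat_lit 95116643528) (nat_lit 76) (nat_lit 317310254233) (nat_lit 76) (nat_lit 316878858114) (nat_lit 1) (nat_lit 4) (nat_lit 2) (nat_lit 5) (nat_lit 2) (nat_lit 4) (nat_lit 385) (nat_lit 261) (nat_lit 254)))) (XT.nd (nat_lit 78) (nat_lit 0) (nat_lit 0) (XT.lf (nat_lit 0) (nat_lit 105995571823) (nat_lit 76)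 (nat_lit 341023220989) (nat_lit 76) (nat_lit 340547058574) (nat_lit 1) (nat_lit 4) (nat_lit 2) (nat_lit 5) (nat_lit 2) (nat_lit 4) (nat_lit 386) (nat_lit 261) (nat_lit 253)) (XT.nd (nat_lit 78) (nat_lit 0) (nat_lit 0) (XT.lf (nat_lit 0) (nat_lit 117616661483) (nat_lit 76) (nat_lit 366695506228) (nat_lit 76) (nat_lit 366177893540) (nat_lit 1) (nat_lit 4) (nat_lit 2) (nat_lit 5) (nat_lit 2) (nat_lit 4) (nat_lit 387) (nat_lit 261) (nat_lit 252)) (XT.lf (nat_lit 0) (nat_lit 130048778224) (nat_lit 76) (nat_lit 394479242010) (nat_lit 76) (nat_lit 393923249439) (nat_lit 1) (nat_lit 4) (nat_lit 2) (nat_lit 5) (nat_lit 2) (nat_lit 4) (nat_lit 388) (nat_lit 261) (nat_lit 251))))))) (XT.nd (nat_lit 46332) (nat_lit 0) (nat_lit 0) (XT.nd (nat_lit 45864) (nat_lit 0) (nat_lit 0) (XT.nd (nat_lit 156) (nat_lit 0) (nat_lit 0) (XT.nd (nat_lit 78) (nat_lit 0) (nat_lit 0) (XT.lf (nat_lit 0) (nat_lit 143365593849)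 (nat_lit 76) (nat_lit 424539072696) (nat_lit 76) (nat_lit 423947543197) (nat_lit 1) (nat_lit 4) (nat_lit 2) (nat_lit 5) (nat_lit 2) (nat_lit 4) (nat_lit 389) (nat_lit 261) (nat_lit 250)) (XT.lf (nat_lit 0) (nat_lit 157646022822) (nat_lit 76) (nat_lit 457053130617) (nat_lit 76) (nat_lit 456428696553) (nat_lit 1) (nat_lit 4) (nat_lit 2) (nat_lit 5) (nat_lit 2) (nat_lit 4) (nat_lit 390) (nat_lit 261) (nat_lit 249))) (XT.nd (nat_lit 78) (nat_lit 0) (nat_lit 0) (XT.lf (nat_lit 0) (nat_lit 172974689906) (nat_lit 76) (nat_lit 492214091669) (nat_lit 76) (nat_lit 491559190418) (nat_lit 1) (nat_lit 4) (nat_lit 2) (nat_lit 5) (nat_lit 2) (nat_lit 4) (nat_lit 391) (nat_lit 261) (nat_lit 248)) (XT.nd (nat_lit 78) (nat_lit 0) (nat_lit 0) (XT.lf (nat_lit 0) (nat_lit 189442431647) (nat_lit 76) (nat_lit 530230317105) (nat_lit 76) (nat_lit 529547205494) (nat_lit 1) (nat_lit 4) (nat_lit 2) (nat_lit 5) (nat_lit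 2) (nat_lit 4) (nat_lit 392) (nat_lit 261) (nat_lit 247)) (XT.lf (nat_lit 0) (nat_lit 207146834664) (nat_lit 76) (nat_lit 571327088261) (nat_lit 76) (nat_lit 570617855946) (nat_lit 1) (nat_lit 4) (nat_lit 2) (nat_lit 5) (nat_lit 2) (nat_lit 4) (nat_lit 393) (nat_lit 261) (nat_lit 246))))) (XT.nd (nat_lit 234) (nat_lit 0) (nat_lit 0) (XT.nd (nat_lit 78) (nat_lit 0) (nat_lit 0) (XT.lf (nat_lit 0) (nat_lit 10629338589) (nat_lit 76) (nat_lit 86063747770) (nat_lit 76) (nat_lit 86063747770) (nat_lit 1) (nat_lit 4) (nat_lit 2) (nat_lit 5) (nat_lit 2) (nat_lit 4) (nat_lit 376) (nat_lit 262) (nat_lit 262)) (XT.nd (nat_lit 78) (nat_lit 0) (nat_lit 0) (XT.lf (nat_lit 0) (nat_lit 27824294618) (nat_lit 76) (nat_lit 183443898722) (nat_lit 76) (nat_lit 183361039433) (nat_lit 1) (nat_lit 4) (nat_lit 2) (nat_lit 5) (nat_lit 2) (nat_lit 4) (nat_lit 377) (nat_lit 262) (nat_lit 261)) (XT.lf (nat_lit 0) (nat_lit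 34677959380) (nat_lit 76) (nat_lit 195780892205) (nat_lit 76) (nat_lit 195621311353) (nat_lit 1) (nat_lit 4) (nat_lit 2) (nat_lit 5) (nat_lit 2) (nat_lit 4) (nat_lit 378) (nat_lit 262) (nat_lit 260)))) (XT.nd (nat_lit 78) (nat_lit 0) (nat_lit 0) (XT.lf (nat_lit 0) (nat_lit 41860285775) (nat_lit 76) (nat_lit 209211584101) (nat_lit 76) (nat_lit 208980964764) (nat_lit 1) (nat_lit 4) (nat_lit 2) (nat_lit 5) (nat_lit 2) (nat_lit 4) (nat_lit 379) (nat_lit 262) (nat_lit 259)) (XT.nd (nat_lit 78) (nat_lit 0) (nat_lit 0) (XT.lf (nat_lit 0) (nat_lit 49413835737) (nat_lit 76) (nat_lit 223815563695) (nat_lit 76) (nat_lit 223519167983) (nat_lit 1) (nat_lit 4) (nat_lit 2) (nat_lit 5) (nat_lit 2) (nat_lit 4) (nat_lit 380) (nat_lit 262) (nat_lit 258)) (XT.lf (nat_lit 0) (nat_lit 57383371044) (nat_lit 76) (nat_lit 239679373087) (nat_lit 76) (nat_lit 239322073324) (nat_lit 1) (nat_lit 4) (nat_lit 2) (nat_lit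 5) (nat_lit 2) (nat_lit 4) (nat_lit 381) (nat_lit 262) (nat_lit 257)))))) (XT.nd (nat_lit 468) (nat_lit 0) (nat_lit 0) (XT.nd (nat_lit 234) (nat_lit 0) (nat_lit 0) (XT.nd (nat_lit 78) (nat_lit 0) (nat_lit 0) (XT.lf (nat_lit 0) (nat_lit 65816118571) (nat_lit 76) (nat_lit 256897020037) (nat_lit 76) (nat_lit 256483327635) (nat_lit 1) (nat_lit 4) (nat_lit 2) (nat_lit 5) (nat_lit 2) (nat_lit 4) (nat_lit 382) (nat_lit 262) (nat_lit 256)) (XT.nd (nat_lit 78) (nat_lit 0) (nat_lit 0) (XT.lf (nat_lit 0) (nat_lit 74762050156) (nat_lit 76) (nat_lit 275570535046) (nat_lit 76) (nat_lit 275104627237) (nat_lit 1) (nat_lit 4) (nat_lit 2) (nat_lit 5) (nat_lit 2) (nat_lit 4) (nat_lit 383) (nat_lit 262) (nat_lit 255)) (XT.lf (nat_lit 0) (nat_lit 84274178726) (nat_lit 76) (nat_lit 295810575980) (nat_lit 76) (nat_lit 295296320572) (nat_lit 1) (nat_lit 4) (nat_lit 2) (nat_lit 5) (nat_lit 2) (nat_lit 4) (nat_lit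 384) (nat_lit 262) (nat_lit 254)))) (XT.nd (nat_lit 78) (nat_lit 0) (nat_lit 0) (XT.lf (nat_lit 0) (nat_lit 94408872452) (nat_lit 76) (nat_lit 317737083823) (nat_lit 76) (nat_lit 317178062120) (nat_lit 1) (nat_lit 4) (nat_lit 2) (nat_lit 5) (nat_lit 2) (nat_lit 4) (nat_lit 385) (nat_lit 262) (nat_lit 253)) (XT.nd (nat_lit 78) (nat_lit 0) (nat_lit 0) (XT.lf (nat_lit 0) (nat_lit 105226188776) (nat_lit 76) (nat_lit 341479993436) (nat_lit 76) (nat_lit 340879521459) (nat_lit 1) (nat_lit 4) (nat_lit 2) (nat_lit 5) (nat_lit 2) (nat_lit 4) (nat_lit 386) (nat_lit 262) (nat_lit 252)) (XT.lf (nat_lit 0) (nat_lit 116790230315) (nat_lit 76) (nat_lit 367180003542) (nat_lit 76) (nat_lit 366541151683) (nat_lit 1) (nat_lit 4) (nat_lit 2) (nat_lit 5) (nat_lit 2) (nat_lit 4) (nat_lit 387) (nat_lit 262) (nat_lit 251))))) (XT.nd (nat_lit 234) (nat_lit 0) (nat_lit 0) (XT.nd (nat_lit 78) (nat_lit 0) (nat_lit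 0) (XT.lf (nat_lit 0) (nat_lit 129169524723) (nat_lit 76) (nat_lit 394989410498) (nat_lit 76) (nat_lit 394315021710) (nat_lit 1) (nat_lit 4) (nat_lit 2) (nat_lit 5) (nat_lit 2) (nat_lit 4) (nat_lit 388) (nat_lit 262) (nat_lit 250)) (XT.nd (nat_lit 78) (nat_lit 0) (nat_lit 0) (XT.lf (nat_lit 0) (nat_lit 142437430779) (nat_lit 76) (nat_lit 425073010790) (nat_lit 76) (nat_lit 424365717438) (nat_lit 1) (nat_lit 4) (nat_lit 2) (nat_lit 5) (nat_lit 2) (nat_lit 4) (nat_lit 389) (nat_lit 262) (nat_lit 249)) (XT.lf (nat_lit 0) (nat_lit 156672573114) (nat_lit 76) (nat_lit 457609077604) (nat_lit 76) (nat_lit 456871317064) (nat_lit 1) (nat_lit 4) (nat_lit 2) (nat_lit 5) (nat_lit 2) (nat_lit 4) (nat_lit 390) (nat_lit 262) (nat_lit 248)))) (XT.nd (nat_lit 78) (nat_lit 0) (nat_lit 0) (XT.lf (nat_lit 0) (nat_lit 171959308127) (nat_lit 76) (nat_lit 492790417262) (nat_lit 76) (nat_lit 492024446362) (nat_lit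 1) (nat_lit 4) (nat_lit 2) (nat_lit 5) (nat_lit 2) (nat_lit 4) (nat_lit 391) (nat_lit 262) (nat_lit 247)) (XT.nd (nat_lit 78) (nat_lit 0) (nat_lit 0) (XT.lf (nat_lit 0) (nat_lit 188388223875) (nat_lit 76) (nat_lit 530825511777) (nat_lit 76) (nat_lit 530033420174) (nat_lit 1) (nat_lit 4) (nat_lit 2) (nat_lit 5) (nat_lit 2) (nat_lit 4) (nat_lit 392) (nat_lit 262) (nat_lit 246)) (XT.lf (nat_lit 0) (nat_lit 206056676898) (nat_lit 76) (nat_lit 571939754301) (nat_lit 76) (nat_lit 571123476862) (nat_lit 1) (nat_lit 4) (nat_lit 2) (nat_lit 5) (nat_lit 2) (nat_lit 4) (nat_lit 393) (nat_lit 262) (nat_lit 245))))))))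
noncomputable def xc2 : XT := (XT.nd (nat_lit 46878) (nat_lit 0) (nat_lit 0) (XT.nd (nat_lit 858) (nat_lit 0) (nat_lit 0) (XT.nd (nat_lit 390) (nat_lit 0) (nat_lit 0) (XT.nd (nat_lit 156) (nat_lit 0) (nat_lit 0) (XT.nd (nat_lit 78) (nat_lit 0) (nat_lit 0) (XT.lf (nat_lit 0) (nat_lit 4485223414) (nat_lit 76) (nat_lit 76159356808) (nat_lit 76) (nat_lit 76159356808) (nat_lit 1) (nat_lit 4) (nat_lit 2) (nat_lit 5) (nat_lit 2) (nat_lit 4) (nat_lit 374) (nat_lit 263) (nat_lit 263)) (XT.lf (nat_lit 0) (nat_lit 14942199700) (nat_lit 76) (nat_lit 161854110527) (nat_lit 76) (nat_lit 161764622496) (nat_lit 1) (nat_lit 4) (nat_lit 2) (nat_lit 5) (nat_lit 2) (nat_lit 4) (nat_lit 375) (nat_lit 263) (nat_lit 262))) (XT.nd (nat_lit 78) (nat_lit 0) (nat_lit 0) (XT.lf (nat_lit 0) (nat_lit 21135514564) (nat_lit 76) (nat_lit 172276839482) (nat_lit 76) (nat_lit 172104492162) (nat_lit 1) (nat_lit 4) (nat_lit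 2) (nat_lit 5) (nat_lit 2) (nat_lit 4) (nat_lit 376) (nat_lit 263) (nat_lit 261)) (XT.nd (nat_lit 78) (nat_lit 0) (nat_lit 0) (XT.lf (nat_lit 0) (nat_lit 27587092546) (nat_lit 76) (nat_lit 183648664802) (nat_lit 76) (nat_lit 183399595918) (nat_lit 1) (nat_lit 4) (nat_lit 2) (nat_lit 5) (nat_lit 2) (nat_lit 4) (nat_lit 377) (nat_lit 263) (nat_lit 260)) (XT.lf (nat_lit 0) (nat_lit 34335165217) (nat_lit 76) (nat_lit 196036975080) (nat_lit 76) (nat_lit 195716867712) (nat_lit 1) (nat_lit 4) (nat_lit 2) (nat_lit 5) (nat_lit 2) (nat_lit 4) (nat_lit 378) (nat_lit 263) (nat_lit 259))))) (XT.nd (nat_lit 234) (nat_lit 0) (nat_lit 0) (XT.nd (nat_lit 78) (nat_lit 0) (nat_lit 0) (XT.lf (nat_lit 0) (nat_lit 41419721158) (nat_lit 76) (nat_lit 209515182527) (nat_lit 76) (nat_lit 209129298784) (nat_lit 1) (nat_lit 4) (nat_lit 2) (nat_lit 5) (nat_lit 2) (nat_lit 4) (nat_lit 379) (nat_lit 263) (nat_lit 258))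 (XT.nd (nat_lit 78) (nat_lit 0) (nat_lit 0) (XT.lf (nat_lit 0) (nat_lit 48882742922) (nat_lit 76) (nat_lit 224163158001) (nat_lit 76) (nat_lit 223716370207) (nat_lit 1) (nat_lit 4) (nat_lit 2) (nat_lit 5) (nat_lit 2) (nat_lit 4) (nat_lit 380) (nat_lit 263) (nat_lit 257)) (XT.lf (nat_lit 0) (nat_lit 56768455823) (nat_lit 76) (nat_lit 240067704319) (nat_lit 76) (nat_lit 239564523886) (nat_lit 1) (nat_lit 4) (nat_lit 2) (nat_lit 5) (nat_lit 2) (nat_lit 4) (nat_lit 381) (nat_lit 263) (nat_lit 256)))) (XT.nd (nat_lit 78) (nat_lit 0) (nat_lit 0) (XT.lf (nat_lit 0) (nat_lit 65123590012) (nat_lit 76) (nat_lit 257323070646) (nat_lit 76) (nat_lit 256767674805) (nat_lit 1) (nat_lit 4) (nat_lit 2) (nat_lit 5) (nat_lit 2) (nat_lit 4) (nat_lit 382) (nat_lit 263) (nat_lit 255)) (XT.nd (nat_lit 78) (nat_lit 0) (nat_lit 0) (XT.lf (nat_lit 0) (nat_lit 73997657394) (nat_lit 76) (nat_lit 276031511003) (nat_lit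 76) (nat_lit 275427767564) (nat_lit 1) (nat_lit 4) (nat_lit 2) (nat_lit 5) (nat_lit 2) (nat_lit 4) (nat_lit 383) (nat_lit 263) (nat_lit 254)) (XT.lf (nat_lit 0) (nat_lit 83443245036) (nat_lit 76) (nat_lit 296303890223) (nat_lit 76) (nat_lit 295655380488) (nat_lit 1) (nat_lit 4) (nat_lit 2) (nat_lit 5) (nat_lit 2) (nat_lit 4) (nat_lit 384) (nat_lit 263) (nat_lit 253)))))) (XT.nd (nat_lit 390) (nat_lit 0) (nat_lit 0) (XT.nd (nat_lit 156) (nat_lit 0) (nat_lit 0) (XT.nd (nat_lit 78) (nat_lit 0) (nat_lit 0) (XT.lf (nat_lit 0) (nat_lit 93516326791) (nat_lit 76) (nat_lit 318260340923) (nat_lit 76) (nat_lit 317570380914) (nat_lit 1) (nat_lit 4) (nat_lit 2) (nat_lit 5) (nat_lit 2) (nat_lit 4) (nat_lit 385) (nat_lit 263) (nat_lit 252)) (XT.lf (nat_lit 0) (nat_lit 104276594995) (nat_lit 76) (nat_lit 342030975403) (nat_lit 76) (nat_lit 341302635512) (nat_lit 1) (nat_lit 4) (nat_lit 2) (nat_lit 5) (nat_lit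 2) (nat_lit 4) (nat_lit 386) (nat_lit 263) (nat_lit 251))) (XT.nd (nat_lit 78) (nat_lit 0) (nat_lit 0) (XT.lf (nat_lit 0) (nat_lit 115787814200) (nat_lit 76) (nat_lit 367756656683) (nat_lit 76) (nat_lit 366992779863) (nat_lit 1) (nat_lit 4) (nat_lit 2) (nat_lit 5) (nat_lit 2) (nat_lit 4) (nat_lit 387) (nat_lit 263) (nat_lit 250)) (XT.nd (nat_lit 78) (nat_lit 0) (nat_lit 0) (XT.lf (nat_lit 0) (nat_lit 128118199038) (nat_lit 76) (nat_lit 395589833244) (nat_lit 76) (nat_lit 394793051861) (nat_lit 1) (nat_lit 4) (nat_lit 2) (nat_lit 5) (nat_lit 2) (nat_lit 4) (nat_lit 388) (nat_lit 263) (nat_lit 249)) (XT.lf (nat_lit 0) (nat_lit 141340818457) (nat_lit 76) (nat_lit 425695442430) (nat_lit 76) (nat_lit 424868193858) (nat_lit 1) (nat_lit 4) (nat_lit 2) (nat_lit 5) (nat_lit 2) (nat_lit 4) (nat_lit 389) (nat_lit 263) (nat_lit 248))))) (XT.nd (nat_lit 234) (nat_lit 0) (nat_lit 0) (XT.nd (nat_lit 78)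 (nat_lit 0) (nat_lit 0) (XT.lf (nat_lit 0) (nat_lit 155534028720) (nat_lit 76) (nat_lit 458251887849) (nat_lit 76) (nat_lit 457396428917) (nat_lit 1) (nat_lit 4) (nat_lit 2) (nat_lit 5) (nat_lit 2) (nat_lit 4) (nat_lit 390) (nat_lit 263) (nat_lit 247)) (XT.nd (nat_lit 78) (nat_lit 0) (nat_lit 0) (XT.lf (nat_lit 0) (nat_lit 170781937740) (nat_lit 76) (nat_lit 493452096586) (nat_lit 76) (nat_lit 492570516951) (nat_lit 1) (nat_lit 4) (nat_lit 2) (nat_lit 5) (nat_lit 2) (nat_lit 4) (nat_lit 391) (nat_lit 263) (nat_lit 246)) (XT.lf (nat_lit 0) (nat_lit 187174903496) (nat_lit 76) (nat_lit 531504662470) (nat_lit 76) (nat_lit 530598896999) (nat_lit 1) (nat_lit 4) (nat_lit 2) (nat_lit 5) (nat_lit 2) (nat_lit 4) (nat_lit 392) (nat_lit 263) (nat_lit 245)))) (XT.nd (nat_lit 45240) (nat_lit 0) (nat_lit 0) (XT.lf (nat_lit 0) (nat_lit 204810069488) (nat_lit 76) (nat_lit 572635082189) (nat_lit 76) (nat_lit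 571706922425) (nat_lit 1) (nat_lit 4) (nat_lit 2) (nat_lit 5) (nat_lit 2) (nat_lit 4) (nat_lit 393) (nat_lit 263) (nat_lit 244)) (XT.nd (nat_lit 78) (nat_lit 76) (nat_lit 0) (XT.lf (nat_lit 0) (nat_lit 66723235440) (nat_lit 152) (nat_lit 1115692891) (nat_lit 0) (nat_lit 66723235440) (nat_lit 2) (nat_lit 5) (nat_lit 4) (nat_lit 4) (nat_lit 2) (nat_lit 4) (nat_lit 372) (nat_lit 264) (nat_lit 264)) (XT.lf (nat_lit 0) (nat_lit 3184867782) (nat_lit 76) (nat_lit 143710789770) (nat_lit 76) (nat_lit 143614142696) (nat_lit 1) (nat_lit 4) (nat_lit 2) (nat_lit 5) (nat_lit 2) (nat_lit 4) (nat_lit 373) (nat_lit 264) (nat_lit 263))))))) (XT.nd (nat_lit 858) (nat_lit 0) (nat_lit 0) (XT.nd (nat_lit 390) (nat_lit 0) (nat_lit 0) (XT.nd (nat_lit 156) (nat_lit 0) (nat_lit 0) (XT.nd (nat_lit 78) (nat_lit 0) (nat_lit 0) (XT.lf (nat_lit 0) (nat_lit 8837431204) (nat_lit 76) (nat_lit 152480005074) (nat_lit 76)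 (nat_lit 152293869968) (nat_lit 1) (nat_lit 4) (nat_lit 2) (nat_lit 5) (nat_lit 2) (nat_lit 4) (nat_lit 374) (nat_lit 264) (nat_lit 262)) (XT.lf (nat_lit 0) (nat_lit 14686021462) (nat_lit 76) (nat_lit 162075257893) (nat_lit 76) (nat_lit 161806263499) (nat_lit 1) (nat_lit 4) (nat_lit 2) (nat_lit 5) (nat_lit 2) (nat_lit 4) (nat_lit 375) (nat_lit 264) (nat_lit 261))) (XT.nd (nat_lit 78) (nat_lit 0) (nat_lit 0) (XT.lf (nat_lit 0) (nat_lit 20765296869) (nat_lit 76) (nat_lit 172553408987) (nat_lit 76) (nat_lit 172207693029) (nat_lit 1) (nat_lit 4) (nat_lit 2) (nat_lit 5) (nat_lit 2) (nat_lit 4) (nat_lit 376) (nat_lit 264) (nat_lit 260)) (XT.nd (nat_lit 78) (nat_lit 0) (nat_lit 0) (XT.lf (nat_lit 0) (nat_lit 27111282760) (nat_lit 76) (nat_lit 183976551101) (nat_lit 76) (nat_lit 183559796659) (nat_lit 1) (nat_lit 4) (nat_lit 2) (nat_lit 5) (nat_lit 2) (nat_lit 4) (nat_lit 377) (nat_lit 264) (nat_lit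 259)) (XT.lf (nat_lit 0) (nat_lit 33761584977) (nat_lit 76) (nat_lit 196412376931) (nat_lit 76) (nat_lit 195929846113) (nat_lit 1) (nat_lit 4) (nat_lit 2) (nat_lit 5) (nat_lit 2) (nat_lit 4) (nat_lit 378) (nat_lit 264) (nat_lit 258))))) (XT.nd (nat_lit 234) (nat_lit 0) (nat_lit 0) (XT.nd (nat_lit 78) (nat_lit 0) (nat_lit 0) (XT.lf (nat_lit 0) (nat_lit 40755612720) (nat_lit 76) (nat_lit 209934580258) (nat_lit 76) (nat_lit 209391145390) (nat_lit 1) (nat_lit 4) (nat_lit 2) (nat_lit 5) (nat_lit 2) (nat_lit 4) (nat_lit 379) (nat_lit 264) (nat_lit 257)) (XT.nd (nat_lit 78) (nat_lit 0) (nat_lit 0) (XT.lf (nat_lit 0) (nat_lit 48134812078) (nat_lit 76) (nat_lit 224623292658) (nat_lit 76) (nat_lit 224023465151) (nat_lit 1) (nat_lit 4) (nat_lit 2) (nat_lit 5) (nat_lit 2) (nat_lit 4) (nat_lit 380) (nat_lit 264) (nat_lit 256)) (XT.lf (nat_lit 0) (nat_lit 55942911640) (nat_lit 76) (nat_lit 240565558353)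 (nat_lit 76) (nat_lit 239913515438) (nat_lit 1) (nat_lit 4) (nat_lit 2) (nat_lit 5) (nat_lit 2) (nat_lit 4) (nat_lit 381) (nat_lit 264) (nat_lit 255)))) (XT.nd (nat_lit 78) (nat_lit 0) (nat_lit 0) (XT.lf (nat_lit 0) (nat_lit 64226181626) (nat_lit 76) (nat_lit 257855850028) (nat_lit 76) (nat_lit 257155459514) (nat_lit 1) (nat_lit 4) (nat_lit 2) (nat_lit 5) (nat_lit 2) (nat_lit 4) (nat_lit 382) (nat_lit 264) (nat_lit 254)) (XT.nd (nat_lit 78) (nat_lit 0) (nat_lit 0) (XT.lf (nat_lit 0) (nat_lit 73033708081) (nat_lit 76) (nat_lit 276596628671) (nat_lit 76) (nat_lit 275851471862) (nat_lit 1) (nat_lit 4) (nat_lit 2) (nat_lit 5) (nat_lit 2) (nat_lit 4) (nat_lit 383) (nat_lit 264) (nat_lit 253)) (XT.lf (nat_lit 0) (nat_lit 82417683752) (nat_lit 76) (nat_lit 296898950747) (nat_lit 76) (nat_lit 296112343665) (nat_lit 1) (nat_lit 4) (nat_lit 2) (nat_lit 5) (nat_lit 2) (nat_lit 4) (nat_lit 384) (nat_lit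 264) (nat_lit 252)))))) (XT.nd (nat_lit 468) (nat_lit 0) (nat_lit 0) (XT.nd (nat_lit 234) (nat_lit 0) (nat_lit 0) (XT.nd (nat_lit 78) (nat_lit 0) (nat_lit 0) (XT.lf (nat_lit 0) (nat_lit 92433717386) (nat_lit 76) (nat_lit 318883126315) (nat_lit 76) (nat_lit 318058139349) (nat_lit 1) (nat_lit 4) (nat_lit 2) (nat_lit 5) (nat_lit 2) (nat_lit 4) (nat_lit 385) (nat_lit 264) (nat_lit 251)) (XT.nd (nat_lit 78) (nat_lit 0) (nat_lit 0) (XT.lf (nat_lit 0) (nat_lit 103141163256) (nat_lit 76) (nat_lit 342679431969) (nat_lit 76) (nat_lit 341818908075) (nat_lit 1) (nat_lit 4) (nat_lit 2) (nat_lit 5) (nat_lit 2) (nat_lit 4) (nat_lit 386) (nat_lit 264) (nat_lit 250)) (XT.lf (nat_lit 0) (nat_lit 114603472892) (nat_lit 76) (nat_lit 368428882854) (nat_lit 76) (nat_lit 367535454396) (nat_lit 1) (nat_lit 4) (nat_lit 2) (nat_lit 5) (nat_lit 2) (nat_lit 4) (nat_lit 387) (nat_lit 264) (nat_lit 249)))) (XT.nd (nat_lit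 78) (nat_lit 0) (nat_lit 0) (XT.lf (nat_lit 0) (nat_lit 126888571093) (nat_lit 76) (nat_lit 396284068309) (nat_lit 76) (nat_lit 395360172663) (nat_lit 1) (nat_lit 4) (nat_lit 2) (nat_lit 5) (nat_lit 2) (nat_lit 4) (nat_lit 388) (nat_lit 264) (nat_lit 248)) (XT.nd (nat_lit 78) (nat_lit 0) (nat_lit 0) (XT.lf (nat_lit 0) (nat_lit 140069258440) (nat_lit 76) (nat_lit 426410056100) (nat_lit 76) (nat_lit 425457950094) (nat_lit 1) (nat_lit 4) (nat_lit 2) (nat_lit 5) (nat_lit 2) (nat_lit 4) (nat_lit 389) (nat_lit 264) (nat_lit 247)) (XT.lf (nat_lit 0) (nat_lit 154223642710) (nat_lit 76) (nat_lit 458985370598) (nat_lit 76) (nat_lit 458007143889) (nat_lit 1) (nat_lit 4) (nat_lit 2) (nat_lit 5) (nat_lit 2) (nat_lit 4) (nat_lit 390) (nat_lit 264) (nat_lit 246))))) (XT.nd (nat_lit 45240) (nat_lit 0) (nat_lit 76) (XT.nd (nat_lit 78) (nat_lit 0) (nat_lit 0) (XT.lf (nat_lit 0) (nat_lit 169435601737) (nat_lit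 76) (nat_lit 494203050705) (nat_lit 76) (nat_lit 493200638159) (nat_lit 1) (nat_lit 4) (nat_lit 2) (nat_lit 5) (nat_lit 2) (nat_lit 4) (nat_lit 391) (nat_lit 264) (nat_lit 245)) (XT.nd (nat_lit 78) (nat_lit 0) (nat_lit 0) (XT.lf (nat_lit 0) (nat_lit 185795280462) (nat_lit 76) (nat_lit 532271793783) (nat_lit 76) (nat_lit 531246986944) (nat_lit 1) (nat_lit 4) (nat_lit 2) (nat_lit 5) (nat_lit 2) (nat_lit 4) (nat_lit 392) (nat_lit 264) (nat_lit 244)) (XT.lf (nat_lit 0) (nat_lit 203399625130) (nat_lit 76) (nat_lit 573417192385) (nat_lit 76) (nat_lit 572371650090) (nat_lit 1) (nat_lit 4) (nat_lit 2) (nat_lit 5) (nat_lit 2) (nat_lit 4) (nat_lit 393) (nat_lit 264) (nat_lit 243)))) (XT.nd (nat_lit 78) (nat_lit 0) (nat_lit 0) (XT.lf (nat_lit 0) (nat_lit 54659446350) (nat_lit 152) (nat_lit 6181538349) (nat_lit 0) (nat_lit 54659446350) (nat_lit 2) (nat_lit 5) (nat_lit 4) (nat_lit 4) (nat_lit 2) (nat_lit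 4) (nat_lit 370) (nat_lit 265) (nat_lit 265)) (XT.nd (nat_lit 78) (nat_lit 0) (nat_lit 0) (XT.lf (nat_lit 0) (nat_lit 121006047950) (nat_lit 152) (nat_lit 7419867762) (nat_lit 0) (nat_lit 120901669110) (nat_lit 2) (nat_lit 5) (nat_lit 4) (nat_lit 4) (nat_lit 2) (nat_lit 4) (nat_lit 371) (nat_lit 265) (nat_lit 264)) (XT.lf (nat_lit 0) (nat_lit 133479251667) (nat_lit 152) (nat_lit 2370444740) (nat_lit 0) (nat_lit 133278225753) (nat_lit 2) (nat_lit 5) (nat_lit 4) (nat_lit 4) (nat_lit 2) (nat_lit 4) (nat_lit 372) (nat_lit 265) (nat_lit 263))))))))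
noncomputable def xc3 : XT := (XT.nd (nat_lit 46644) (nat_lit 0) (nat_lit 0) (XT.nd (nat_lit 858) (nat_lit 0) (nat_lit 0) (XT.nd (nat_lit 390) (nat_lit 0) (nat_lit 0) (XT.nd (nat_lit 156) (nat_lit 0) (nat_lit 0) (XT.nd (nat_lit 78) (nat_lit 0) (nat_lit 0) (XT.lf (nat_lit 0) (nat_lit 2908195286) (nat_lit 76) (nat_lit 143949628926) (nat_lit 76) (nat_lit 143659114980) (nat_lit 1) (nat_lit 4) (nat_lit 2) (nat_lit 5) (nat_lit 2) (nat_lit 4) (nat_lit 373) (nat_lit 265) (nat_lit 262)) (XT.lf (nat_lit 0) (nat_lit 8437596093) (nat_lit 76) (nat_lit 152778700139) (nat_lit 76) (nat_lit 152405326904) (nat_lit 1) (nat_lit 4) (nat_lit 2) (nat_lit 5) (nat_lit 2) (nat_lit 4) (nat_lit 374) (nat_lit 265) (nat_lit 261))) (XT.nd (nat_lit 78) (nat_lit 0) (nat_lit 0) (XT.lf (nat_lit 0) (nat_lit 14172146893) (nat_lit 76) (nat_lit 162429375097) (nat_lit 76) (nat_lit 161979280299) (nat_lit 1) (nat_lit 4) (nat_lit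 2) (nat_lit 5) (nat_lit 2) (nat_lit 4) (nat_lit 375) (nat_lit 265) (nat_lit 260)) (XT.nd (nat_lit 78) (nat_lit 0) (nat_lit 0) (XT.lf (nat_lit 0) (nat_lit 20145830210) (nat_lit 76) (nat_lit 172958842986) (nat_lit 76) (nat_lit 172437709703) (nat_lit 1) (nat_lit 4) (nat_lit 2) (nat_lit 5) (nat_lit 2) (nat_lit 4) (nat_lit 376) (nat_lit 265) (nat_lit 259)) (XT.lf (nat_lit 0) (nat_lit 26394045646) (nat_lit 76) (nat_lit 184429500651) (nat_lit 76) (nat_lit 183842590993) (nat_lit 1) (nat_lit 4) (nat_lit 2) (nat_lit 5) (nat_lit 2) (nat_lit 4) (nat_lit 377) (nat_lit 265) (nat_lit 258))))) (XT.nd (nat_lit 234) (nat_lit 0) (nat_lit 0) (XT.nd (nat_lit 78) (nat_lit 0) (nat_lit 0) (XT.lf (nat_lit 0) (nat_lit 32953819666) (nat_lit 76) (nat_lit 196909322361) (nat_lit 76) (nat_lit 196261508653) (nat_lit 1) (nat_lit 4) (nat_lit 2) (nat_lit 5) (nat_lit 2) (nat_lit 4) (nat_lit 378) (nat_lit 265) (nat_lit 257))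 (XT.nd (nat_lit 78) (nat_lit 0) (nat_lit 0) (XT.lf (nat_lit 0) (nat_lit 39864025003) (nat_lit 76) (nat_lit 210472262614) (nat_lit 76) (nat_lit 209768056267) (nat_lit 1) (nat_lit 4) (nat_lit 2) (nat_lit 5) (nat_lit 2) (nat_lit 4) (nat_lit 379) (nat_lit 265) (nat_lit 256)) (XT.lf (nat_lit 0) (nat_lit 47165611022) (nat_lit 76) (nat_lit 225198694391) (nat_lit 76) (nat_lit 224442272636) (nat_lit 1) (nat_lit 4) (nat_lit 2) (nat_lit 5) (nat_lit 2) (nat_lit 4) (nat_lit 380) (nat_lit 265) (nat_lit 255)))) (XT.nd (nat_lit 78) (nat_lit 0) (nat_lit 0) (XT.lf (nat_lit 0) (nat_lit 54901846382) (nat_lit 76) (nat_lit 241175885434) (nat_lit 76) (nat_lit 240371116080) (nat_lit 1) (nat_lit 4) (nat_lit 2) (nat_lit 5) (nat_lit 2) (nat_lit 4) (nat_lit 381) (nat_lit 265) (nat_lit 254)) (XT.nd (nat_lit 78) (nat_lit 0) (nat_lit 0) (XT.lf (nat_lit 0) (nat_lit 63118575440) (nat_lit 76) (nat_lit 258498515394) (nat_lit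 76) (nat_lit 257648979745) (nat_lit 1) (nat_lit 4) (nat_lit 2) (nat_lit 5) (nat_lit 2) (nat_lit 4) (nat_lit 382) (nat_lit 265) (nat_lit 253)) (XT.lf (nat_lit 0) (nat_lit 71864489923) (nat_lit 76) (nat_lit 277269236894) (nat_lit 76) (nat_lit 276378250971) (nat_lit 1) (nat_lit 4) (nat_lit 2) (nat_lit 5) (nat_lit 2) (nat_lit 4) (nat_lit 383) (nat_lit 265) (nat_lit 252)))))) (XT.nd (nat_lit 468) (nat_lit 0) (nat_lit 0) (XT.nd (nat_lit 234) (nat_lit 0) (nat_lit 0) (XT.nd (nat_lit 78) (nat_lit 0) (nat_lit 0) (XT.lf (nat_lit 0) (nat_lit 81191417474) (nat_lit 76) (nat_lit 297599283838) (nat_lit 76) (nat_lit 296669918033) (nat_lit 1) (nat_lit 4) (nat_lit 2) (nat_lit 5) (nat_lit 2) (nat_lit 4) (nat_lit 384) (nat_lit 265) (nat_lit 251)) (XT.nd (nat_lit 78) (nat_lit 0) (nat_lit 0) (XT.lf (nat_lit 0) (nat_lit 91154628774) (nat_lit 76) (nat_lit 319609130579) (nat_lit 76) (nat_lit 318644227845) (nat_lit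 1) (nat_lit 4) (nat_lit 2) (nat_lit 5) (nat_lit 2) (nat_lit 4) (nat_lit 385) (nat_lit 265) (nat_lit 250)) (XT.lf (nat_lit 0) (nat_lit 101813165075) (nat_lit 76) (nat_lit 343429205839) (nat_lit 76) (nat_lit 342431398541) (nat_lit 1) (nat_lit 4) (nat_lit 2) (nat_lit 5) (nat_lit 2) (nat_lit 4) (nat_lit 386) (nat_lit 265) (nat_lit 249)))) (XT.nd (nat_lit 78) (nat_lit 0) (nat_lit 0) (XT.lf (nat_lit 0) (nat_lit 113230188073) (nat_lit 76) (nat_lit 369200665618) (nat_lit 76) (nat_lit 368172391132) (nat_lit 1) (nat_lit 4) (nat_lit 2) (nat_lit 5) (nat_lit 2) (nat_lit 4) (nat_lit 387) (nat_lit 265) (nat_lit 248)) (XT.nd (nat_lit 78) (nat_lit 0) (nat_lit 0) (XT.lf (nat_lit 0) (nat_lit 125473354202) (nat_lit 76) (nat_lit 397076229678) (nat_lit 76) (nat_lit 396019744832) (nat_lit 1) (nat_lit 4) (nat_lit 2) (nat_lit 5) (nat_lit 2) (nat_lit 4) (nat_lit 388) (nat_lit 265) (nat_lit 247)) (XT.lf (nat_lit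 0) (nat_lit 138615215557) (nat_lit 76) (nat_lit 427221086548) (nat_lit 76) (nat_lit 426138480999) (nat_lit 1) (nat_lit 4) (nat_lit 2) (nat_lit 5) (nat_lit 2) (nat_lit 4) (nat_lit 389) (nat_lit 265) (nat_lit 246))))) (XT.nd (nat_lit 234) (nat_lit 0) (nat_lit 0) (XT.nd (nat_lit 78) (nat_lit 0) (nat_lit 0) (XT.lf (nat_lit 0) (nat_lit 152733649834) (nat_lit 76) (nat_lit 459813872416) (nat_lit 76) (nat_lit 458707081030) (nat_lit 1) (nat_lit 4) (nat_lit 2) (nat_lit 5) (nat_lit 2) (nat_lit 4) (nat_lit 390) (nat_lit 265) (nat_lit 245)) (XT.nd (nat_lit 78) (nat_lit 0) (nat_lit 0) (XT.lf (nat_lit 0) (nat_lit 167912321830) (nat_lit 76) (nat_lit 495047729716) (nat_lit 76) (nat_lit 493918544037) (nat_lit 1) (nat_lit 4) (nat_lit 2) (nat_lit 5) (nat_lit 2) (nat_lit 4) (nat_lit 391) (nat_lit 265) (nat_lit 244)) (XT.lf (nat_lit 0) (nat_lit 184241179230) (nat_lit 76) (nat_lit 533131451678) (nat_lit 76) (nat_lit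 531981530542) (nat_lit 1) (nat_lit 4) (nat_lit 2) (nat_lit 5) (nat_lit 2) (nat_lit 4) (nat_lit 392) (nat_lit 265) (nat_lit 243)))) (XT.nd (nat_lit 44928) (nat_lit 0) (nat_lit 76) (XT.lf (nat_lit 0) (nat_lit 201816985634) (nat_lit 76) (nat_lit 574290719616) (nat_lit 76) (nat_lit 573121598984) (nat_lit 1) (nat_lit 4) (nat_lit 2) (nat_lit 5) (nat_lit 2) (nat_lit 4) (nat_lit 393) (nat_lit 265) (nat_lit 242)) (XT.nd (nat_lit 78) (nat_lit 0) (nat_lit 0) (XT.lf (nat_lit 0) (nat_lit 44113093755) (nat_lit 152) (nat_lit 10942685239) (nat_lit 0) (nat_lit 44113093755) (nat_lit 2) (nat_lit 5) (nat_lit 4) (nat_lit 4) (nat_lit 2) (nat_lit 4) (nat_lit 368) (nat_lit 266) (nat_lit 266)) (XT.lf (nat_lit 0) (nat_lit 98461257851) (nat_lit 152) (nat_lit 17229364639) (nat_lit 0) (nat_lit 98348528703) (nat_lit 2) (nat_lit 5) (nat_lit 4) (nat_lit 4) (nat_lit 2) (nat_lit 4) (nat_lit 369) (nat_lit 266) (nat_lit 265)))))))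 (XT.nd (nat_lit 858) (nat_lit 0) (nat_lit 0) (XT.nd (nat_lit 390) (nat_lit 0) (nat_lit 0) (XT.nd (nat_lit 156) (nat_lit 76) (nat_lit 0) (XT.nd (nat_lit 78) (nat_lit 0) (nat_lit 0) (XT.lf (nat_lit 0) (nat_lit 109354295950) (nat_lit 152) (nat_lit 12513260371) (nat_lit 0) (nat_lit 109137187963) (nat_lit 2) (nat_lit 5) (nat_lit 4) (nat_lit 4) (nat_lit 2) (nat_lit 4) (nat_lit 370) (nat_lit 266) (nat_lit 264)) (XT.lf (nat_lit 0) (nat_lit 120969853145) (nat_lit 152) (nat_lit 7709110391) (nat_lit 0) (nat_lit 120656098084) (nat_lit 2) (nat_lit 5) (nat_lit 4) (nat_lit 4) (nat_lit 2) (nat_lit 4) (nat_lit 371) (nat_lit 266) (nat_lit 263))) (XT.nd (nat_lit 78) (nat_lit 76) (nat_lit 0) (XT.lf (nat_lit 0) (nat_lit 133376762368) (nat_lit 152) (nat_lit 2788445661) (nat_lit 0) (nat_lit 132973519275) (nat_lit 2) (nat_lit 5) (nat_lit 4) (nat_lit 4) (nat_lit 2) (nat_lit 4) (nat_lit 372) (nat_lit 266) (nat_lit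 262)) (XT.nd (nat_lit 78) (nat_lit 0) (nat_lit 0) (XT.lf (nat_lit 0) (nat_lit 2353210751) (nat_lit 76) (nat_lit 144332075506) (nat_lit 76) (nat_lit 143845973124) (nat_lit 1) (nat_lit 4) (nat_lit 2) (nat_lit 5) (nat_lit 2) (nat_lit 4) (nat_lit 373) (nat_lit 266) (nat_lit 261)) (XT.lf (nat_lit 0) (nat_lit 7768572101) (nat_lit 76) (nat_lit 153216568858) (nat_lit 76) (nat_lit 152653744912) (nat_lit 1) (nat_lit 4) (nat_lit 2) (nat_lit 5) (nat_lit 2) (nat_lit 4) (nat_lit 374) (nat_lit 266) (nat_lit 260))))) (XT.nd (nat_lit 234) (nat_lit 0) (nat_lit 0) (XT.nd (nat_lit 78) (nat_lit 0) (nat_lit 0) (XT.lf (nat_lit 0) (nat_lit 13397530811) (nat_lit 76) (nat_lit 162918560611) (nat_lit 76) (nat_lit 162284698181) (nat_lit 1) (nat_lit 4) (nat_lit 2) (nat_lit 5) (nat_lit 2) (nat_lit 4) (nat_lit 375) (nat_lit 266) (nat_lit 259)) (XT.nd (nat_lit 78) (nat_lit 0) (nat_lit 0) (XT.lf (nat_lit 0) (nat_lit 19273443673)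 (nat_lit 76) (nat_lit 173495544050) (nat_lit 76) (nat_lit 172795905245) (nat_lit 1) (nat_lit 4) (nat_lit 2) (nat_lit 5) (nat_lit 2) (nat_lit 4) (nat_lit 376) (nat_lit 266) (nat_lit 258)) (XT.lf (nat_lit 0) (nat_lit 25431130912) (nat_lit 76) (nat_lit 185010197596) (nat_lit 76) (nat_lit 184249654740) (nat_lit 1) (nat_lit 4) (nat_lit 2) (nat_lit 5) (nat_lit 2) (nat_lit 4) (nat_lit 377) (nat_lit 266) (nat_lit 257)))) (XT.nd (nat_lit 78) (nat_lit 0) (nat_lit 0) (XT.lf (nat_lit 0) (nat_lit 31907082525) (nat_lit 76) (nat_lit 197530756232) (nat_lit 76) (nat_lit 196713820737) (nat_lit 1) (nat_lit 4) (nat_lit 2) (nat_lit 5) (nat_lit 2) (nat_lit 4) (nat_lit 378) (nat_lit 266) (nat_lit 256)) (XT.nd (nat_lit 78) (nat_lit 0) (nat_lit 0) (XT.lf (nat_lit 0) (nat_lit 38739674523) (nat_lit 76) (nat_lit 211131415862) (nat_lit 76) (nat_lit 210262264960) (nat_lit 1) (nat_lit 4) (nat_lit 2) (nat_lit 5) (nat_lit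 2) (nat_lit 4) (nat_lit 379) (nat_lit 266) (nat_lit 255)) (XT.lf (nat_lit 0) (nat_lit 45969396340) (nat_lit 76) (nat_lit 225892772987) (nat_lit 76) (nat_lit 224975274486) (nat_lit 1) (nat_lit 4) (nat_lit 2) (nat_lit 5) (nat_lit 2) (nat_lit 4) (nat_lit 380) (nat_lit 266) (nat_lit 254)))))) (XT.nd (nat_lit 468) (nat_lit 0) (nat_lit 0) (XT.nd (nat_lit 234) (nat_lit 0) (nat_lit 0) (XT.nd (nat_lit 78) (nat_lit 0) (nat_lit 0) (XT.lf (nat_lit 0) (nat_lit 53639090772) (nat_lit 76) (nat_lit 241902302315) (nat_lit 76) (nat_lit 240940037519) (nat_lit 1) (nat_lit 4) (nat_lit 2) (nat_lit 5) (nat_lit 2) (nat_lit 4) (nat_lit 381) (nat_lit 266) (nat_lit 253)) (XT.nd (nat_lit 78) (nat_lit 0) (nat_lit 0) (XT.lf (nat_lit 0) (nat_lit 61794207859) (nat_lit 76) (nat_lit 259254875133) (nat_lit 76) (nat_lit 258251160063) (nat_lit 1) (nat_lit 4) (nat_lit 2) (nat_lit 5) (nat_lit 2) (nat_lit 4) (nat_lit 382) (nat_lit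 266) (nat_lit 252)) (XT.lf (nat_lit 0) (nat_lit 70483074222) (nat_lit 76) (nat_lit 278053321500) (nat_lit 76) (nat_lit 277011226547) (nat_lit 1) (nat_lit 4) (nat_lit 2) (nat_lit 5) (nat_lit 2) (nat_lit 4) (nat_lit 383) (nat_lit 266) (nat_lit 251)))) (XT.nd (nat_lit 78) (nat_lit 0) (nat_lit 0) (XT.lf (nat_lit 0) (nat_lit 79757179438) (nat_lit 76) (nat_lit 298409039618) (nat_lit 76) (nat_lit 297331407736) (nat_lit 1) (nat_lit 4) (nat_lit 2) (nat_lit 5) (nat_lit 2) (nat_lit 4) (nat_lit 384) (nat_lit 266) (nat_lit 250)) (XT.nd (nat_lit 78) (nat_lit 0) (nat_lit 0) (XT.lf (nat_lit 0) (nat_lit 89671481169) (nat_lit 76) (nat_lit 320442655964) (nat_lit 76) (nat_lit 319332119519) (nat_lit 1) (nat_lit 4) (nat_lit 2) (nat_lit 5) (nat_lit 2) (nat_lit 4) (nat_lit 385) (nat_lit 266) (nat_lit 249)) (XT.lf (nat_lit 0) (nat_lit 100284730832) (nat_lit 76) (nat_lit 344284740117) (nat_lit 76) (nat_lit 343143736484)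 (nat_lit 1) (nat_lit 4) (nat_lit 2) (nat_lit 5) (nat_lit 2) (nat_lit 4) (nat_lit 386) (nat_lit 266) (nat_lit 248))))) (XT.nd (nat_lit 234) (nat_lit 0) (nat_lit 0) (XT.nd (nat_lit 78) (nat_lit 0) (nat_lit 0) (XT.lf (nat_lit 0) (nat_lit 111659821759) (nat_lit 76) (nat_lit 370076578502) (nat_lit 76) (nat_lit 368907364509) (nat_lit 1) (nat_lit 4) (nat_lit 2) (nat_lit 5) (nat_lit 2) (nat_lit 4) (nat_lit 387) (nat_lit 266) (nat_lit 247)) (XT.nd (nat_lit 78) (nat_lit 0) (nat_lit 0) (XT.lf (nat_lit 0) (nat_lit 123864161895) (nat_lit 76) (nat_lit 397971011641) (nat_lit 76) (nat_lit 396775676945) (nat_lit 1) (nat_lit 4) (nat_lit 2) (nat_lit 5) (nat_lit 2) (nat_lit 4) (nat_lit 388) (nat_lit 266) (nat_lit 246)) (XT.lf (nat_lit 0) (nat_lit 136970073257) (nat_lit 76) (nat_lit 428133339880) (nat_lit 76) (nat_lit 426913819347) (nat_lit 1) (nat_lit 4) (nat_lit 2) (nat_lit 5) (nat_lit 2) (nat_lit 4) (nat_lit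 389) (nat_lit 266) (nat_lit 245)))) (XT.nd (nat_lit 78) (nat_lit 0) (nat_lit 0) (XT.lf (nat_lit 0) (nat_lit 151055220504) (nat_lit 76) (nat_lit 460742302942) (nat_lit 76) (nat_lit 459500388116) (nat_lit 1) (nat_lit 4) (nat_lit 2) (nat_lit 5) (nat_lit 2) (nat_lit 4) (nat_lit 390) (nat_lit 266) (nat_lit 244)) (XT.nd (nat_lit 78) (nat_lit 0) (nat_lit 0) (XT.lf (nat_lit 0) (nat_lit 166203071175) (nat_lit 76) (nat_lit 495991139126) (nat_lit 76) (nat_lit 494728488843) (nat_lit 1) (nat_lit 4) (nat_lit 2) (nat_lit 5) (nat_lit 2) (nat_lit 4) (nat_lit 391) (nat_lit 266) (nat_lit 243)) (XT.lf (nat_lit 0) (nat_lit 182503390312) (nat_lit 76) (nat_lit 534088730424) (nat_lit 76) (nat_lit 532806880644) (nat_lit 1) (nat_lit 4) (nat_lit 2) (nat_lit 5) (nat_lit 2) (nat_lit 4) (nat_lit 392) (nat_lit 266) (nat_lit 242))))))))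
noncomputable def xc4 : XT := (XT.nd (nat_lit 46410) (nat_lit 0) (nat_lit 0) (XT.nd (nat_lit 45552) (nat_lit 0) (nat_lit 0) (XT.nd (nat_lit 45084) (nat_lit 0) (nat_lit 0) (XT.nd (nat_lit 44850) (nat_lit 0) (nat_lit 76) (XT.nd (nat_lit 44772) (nat_lit 0) (nat_lit 76) (XT.lf (nat_lit 0) (nat_lit 200052772398) (nat_lit 76) (nat_lit 575260840340) (nat_lit 76) (nat_lit 573961213249) (nat_lit 1) (nat_lit 4) (nat_lit 2) (nat_lit 5) (nat_lit 2) (nat_lit 4) (nat_lit 393) (nat_lit 266) (nat_lit 241)) (XT.lf (nat_lit 0) (nat_lit 34851410542) (nat_lit 152) (nat_lit 15476042292) (nat_lit 0) (nat_lit 34851410542) (nat_lit 2) (nat_lit 5) (nat_lit 4) (nat_lit 4) (nat_lit 2) (nat_lit 4) (nat_lit 366) (nat_lit 267) (nat_lit 267))) (XT.nd (nat_lit 78) (nat_lit 0) (nat_lit 0) (XT.lf (nat_lit 0) (nat_lit 78710180139) (nat_lit 152) (nat_lit 26508869036) (nat_lit 0) (nat_lit 78588432660) (nat_lit 2) (nat_lit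 5) (nat_lit 4) (nat_lit 4) (nat_lit 2) (nat_lit 4) (nat_lit 367) (nat_lit 267) (nat_lit 266)) (XT.nd (nat_lit 78) (nat_lit 0) (nat_lit 0) (XT.lf (nat_lit 0) (nat_lit 88264423019) (nat_lit 152) (nat_lit 22047568845) (nat_lit 0) (nat_lit 88029946393) (nat_lit 2) (nat_lit 5) (nat_lit 4) (nat_lit 4) (nat_lit 2) (nat_lit 4) (nat_lit 368) (nat_lit 267) (nat_lit 265)) (XT.lf (nat_lit 0) (nat_lit 98422167461) (nat_lit 152) (nat_lit 17541746678) (nat_lit 0) (nat_lit 98083311995) (nat_lit 2) (nat_lit 5) (nat_lit 4) (nat_lit 4) (nat_lit 2) (nat_lit 4) (nat_lit 369) (nat_lit 267) (nat_lit 264))))) (XT.nd (nat_lit 234) (nat_lit 76) (nat_lit 0) (XT.nd (nat_lit 78) (nat_lit 0) (nat_lit 0) (XT.lf (nat_lit 0) (nat_lit 109243607507) (nat_lit 152) (nat_lit 12964701366) (nat_lit 0) (nat_lit 108808104966) (nat_lit 2) (nat_lit 5) (nat_lit 4) (nat_lit 4) (nat_lit 2) (nat_lit 4) (nat_lit 370) (nat_lit 267) (nat_lit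 263)) (XT.nd (nat_lit 78) (nat_lit 0) (nat_lit 0) (XT.lf (nat_lit 0) (nat_lit 120792870208) (nat_lit 152) (nat_lit 8289309679) (nat_lit 0) (nat_lit 120267879635) (nat_lit 2) (nat_lit 5) (nat_lit 4) (nat_lit 4) (nat_lit 2) (nat_lit 4) (nat_lit 371) (nat_lit 267) (nat_lit 262)) (XT.lf (nat_lit 0) (nat_lit 133138395639) (nat_lit 152) (nat_lit 3487865591) (nat_lit 0) (nat_lit 132530545778) (nat_lit 2) (nat_lit 5) (nat_lit 4) (nat_lit 4) (nat_lit 2) (nat_lit 4) (nat_lit 372) (nat_lit 267) (nat_lit 261)))) (XT.nd (nat_lit 78) (nat_lit 0) (nat_lit 0) (XT.lf (nat_lit 0) (nat_lit 1516625382) (nat_lit 76) (nat_lit 144860395861) (nat_lit 76) (nat_lit 144175824436) (nat_lit 1) (nat_lit 4) (nat_lit 2) (nat_lit 5) (nat_lit 2) (nat_lit 4) (nat_lit 373) (nat_lit 267) (nat_lit 260)) (XT.nd (nat_lit 78) (nat_lit 0) (nat_lit 0) (XT.lf (nat_lit 0) (nat_lit 6826394642) (nat_lit 76) (nat_lit 153796206007) (nat_lit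 76) (nat_lit 153040596098) (nat_lit 1) (nat_lit 4) (nat_lit 2) (nat_lit 5) (nat_lit 2) (nat_lit 4) (nat_lit 374) (nat_lit 267) (nat_lit 259)) (XT.lf (nat_lit 0) (nat_lit 12357582897) (nat_lit 76) (nat_lit 163545713311) (nat_lit 76) (nat_lit 162724327027) (nat_lit 1) (nat_lit 4) (nat_lit 2) (nat_lit 5) (nat_lit 2) (nat_lit 4) (nat_lit 375) (nat_lit 267) (nat_lit 258)))))) (XT.nd (nat_lit 390) (nat_lit 0) (nat_lit 0) (XT.nd (nat_lit 156) (nat_lit 0) (nat_lit 0) (XT.nd (nat_lit 78) (nat_lit 0) (nat_lit 0) (XT.lf (nat_lit 0) (nat_lit 18142967561) (nat_lit 76) (nat_lit 174166692631) (nat_lit 76) (nat_lit 173284402296) (nat_lit 1) (nat_lit 4) (nat_lit 2) (nat_lit 5) (nat_lit 2) (nat_lit 4) (nat_lit 376) (nat_lit 267) (nat_lit 257)) (XT.lf (nat_lit 0) (nat_lit 24216832394) (nat_lit 76) (nat_lit 185722083103) (nat_lit 76) (nat_lit 184783400129) (nat_lit 1) (nat_lit 4) (nat_lit 2) (nat_lit 5) (nat_lit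 2) (nat_lit 4) (nat_lit 377) (nat_lit 267) (nat_lit 256))) (XT.nd (nat_lit 78) (nat_lit 0) (nat_lit 0) (XT.lf (nat_lit 0) (nat_lit 30615170669) (nat_lit 76) (nat_lit 198280361116) (nat_lit 76) (nat_lit 197289462734) (nat_lit 1) (nat_lit 4) (nat_lit 2) (nat_lit 5) (nat_lit 2) (nat_lit 4) (nat_lit 378) (nat_lit 267) (nat_lit 255)) (XT.nd (nat_lit 78) (nat_lit 0) (nat_lit 0) (XT.lf (nat_lit 0) (nat_lit 37375898465) (nat_lit 76) (nat_lit 211915946094) (nat_lit 76) (nat_lit 210876700114) (nat_lit 1) (nat_lit 4) (nat_lit 2) (nat_lit 5) (nat_lit 2) (nat_lit 4) (nat_lit 379) (nat_lit 267) (nat_lit 254)) (XT.lf (nat_lit 0) (nat_lit 44539079353) (nat_lit 76) (nat_lit 226709641504) (nat_lit 76) (nat_lit 225625629228) (nat_lit 1) (nat_lit 4) (nat_lit 2) (nat_lit 5) (nat_lit 2) (nat_lit 4) (nat_lit 380) (nat_lit 267) (nat_lit 253))))) (XT.nd (nat_lit 234) (nat_lit 0) (nat_lit 0) (XT.nd (nat_lit 78)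 (nat_lit 0) (nat_lit 0) (XT.lf (nat_lit 0) (nat_lit 52147161814) (nat_lit 76) (nat_lit 242749113690) (nat_lit 76) (nat_lit 241623651140) (nat_lit 1) (nat_lit 4) (nat_lit 2) (nat_lit 5) (nat_lit 2) (nat_lit 4) (nat_lit 381) (nat_lit 267) (nat_lit 252)) (XT.nd (nat_lit 78) (nat_lit 0) (nat_lit 0) (XT.lf (nat_lit 0) (nat_lit 60245230781) (nat_lit 76) (nat_lit 260129411375) (nat_lit 76) (nat_lit 258965568943) (nat_lit 1) (nat_lit 4) (nat_lit 2) (nat_lit 5) (nat_lit 2) (nat_lit 4) (nat_lit 382) (nat_lit 267) (nat_lit 251)) (XT.lf (nat_lit 0) (nat_lit 68881274809) (nat_lit 76) (nat_lit 278953528916) (nat_lit 76) (nat_lit 277754149555) (nat_lit 1) (nat_lit 4) (nat_lit 2) (nat_lit 5) (nat_lit 2) (nat_lit 4) (nat_lit 383) (nat_lit 267) (nat_lit 250)))) (XT.nd (nat_lit 78) (nat_lit 0) (nat_lit 0) (XT.lf (nat_lit 0) (nat_lit 78106470457) (nat_lit 76) (nat_lit 299333016639) (nat_lit 76) (nat_lit 298100732715)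 (nat_lit 1) (nat_lit 4) (nat_lit 2) (nat_lit 5) (nat_lit 2) (nat_lit 4) (nat_lit 384) (nat_lit 267) (nat_lit 249)) (XT.nd (nat_lit 78) (nat_lit 0) (nat_lit 0) (XT.lf (nat_lit 0) (nat_lit 87975485550) (nat_lit 76) (nat_lit 321388641879) (nat_lit 76) (nat_lit 320125890766) (nat_lit 1) (nat_lit 4) (nat_lit 2) (nat_lit 5) (nat_lit 2) (nat_lit 4) (nat_lit 385) (nat_lit 267) (nat_lit 248)) (XT.lf (nat_lit 0) (nat_lit 98546803141) (nat_lit 76) (nat_lit 345251104637) (nat_lit 76) (nat_lit 343960143165) (nat_lit 1) (nat_lit 4) (nat_lit 2) (nat_lit 5) (nat_lit 2) (nat_lit 4) (nat_lit 386) (nat_lit 267) (nat_lit 247))))))) (XT.nd (nat_lit 45396) (nat_lit 0) (nat_lit 0) (XT.nd (nat_lit 390) (nat_lit 0) (nat_lit 0) (XT.nd (nat_lit 156) (nat_lit 0) (nat_lit 0) (XT.nd (nat_lit 78) (nat_lit 0) (nat_lit 0) (XT.lf (nat_lit 0) (nat_lit 109883068076) (nat_lit 76) (nat_lit 371061812101) (nat_lit 76) (nat_lit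 369744729925) (nat_lit 1) (nat_lit 4) (nat_lit 2) (nat_lit 5) (nat_lit 2) (nat_lit 4) (nat_lit 387) (nat_lit 267) (nat_lit 246)) (XT.lf (nat_lit 0) (nat_lit 122051458219) (nat_lit 76) (nat_lit 398973716610) (nat_lit 76) (nat_lit 397632448597) (nat_lit 1) (nat_lit 4) (nat_lit 2) (nat_lit 5) (nat_lit 2) (nat_lit 4) (nat_lit 388) (nat_lit 267) (nat_lit 245))) (XT.nd (nat_lit 78) (nat_lit 0) (nat_lit 0) (XT.lf (nat_lit 0) (nat_lit 135124082550) (nat_lit 76) (nat_lit 429152222043) (nat_lit 76) (nat_lit 427788559737) (nat_lit 1) (nat_lit 4) (nat_lit 2) (nat_lit 5) (nat_lit 2) (nat_lit 4) (nat_lit 389) (nat_lit 267) (nat_lit 244)) (XT.nd (nat_lit 78) (nat_lit 0) (nat_lit 0) (XT.lf (nat_lit 0) (nat_lit 149178408472) (nat_lit 76) (nat_lit 461776163987) (nat_lit 76) (nat_lit 460391766226) (nat_lit 1) (nat_lit 4) (nat_lit 2) (nat_lit 5) (nat_lit 2) (nat_lit 4) (nat_lit 390) (nat_lit 267) (nat_lit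 243)) (XT.lf (nat_lit 0) (nat_lit 164297720880) (nat_lit 76) (nat_lit 497038869508) (nat_lit 76) (nat_lit 495635272249) (nat_lit 1) (nat_lit 4) (nat_lit 2) (nat_lit 5) (nat_lit 2) (nat_lit 4) (nat_lit 391) (nat_lit 267) (nat_lit 242))))) (XT.nd (nat_lit 44772) (nat_lit 0) (nat_lit 76) (XT.nd (nat_lit 78) (nat_lit 0) (nat_lit 0) (XT.lf (nat_lit 0) (nat_lit 180571615698) (nat_lit 76) (nat_lit 535149302784) (nat_lit 76) (nat_lit 533727928213) (nat_lit 1) (nat_lit 4) (nat_lit 2) (nat_lit 5) (nat_lit 2) (nat_lit 4) (nat_lit 392) (nat_lit 267) (nat_lit 241)) (XT.nd (nat_lit 44616) (nat_lit 0) (nat_lit 76) (XT.lf (nat_lit 0) (nat_lit 198096530823) (nat_lit 76) (nat_lit 576333303421) (nat_lit 76) (nat_lit 574895468376) (nat_lit 1) (nat_lit 4) (nat_lit 2) (nat_lit 5) (nat_lit 2) (nat_lit 4) (nat_lit 393) (nat_lit 267) (nat_lit 240)) (XT.lf (nat_lit 0) (nat_lit 26673533405) (nat_lit 152) (nat_lit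 19850221556) (nat_lit 0) (nat_lit 26673533405) (nat_lit 2) (nat_lit 5) (nat_lit 4) (nat_lit 4) (nat_lit 2) (nat_lit 4) (nat_lit 364) (nat_lit 268) (nat_lit 268)))) (XT.nd (nat_lit 78) (nat_lit 0) (nat_lit 0) (XT.lf (nat_lit 0) (nat_lit 61320456193) (nat_lit 152) (nat_lit 35403545659) (nat_lit 0) (nat_lit 61188968915) (nat_lit 2) (nat_lit 5) (nat_lit 4) (nat_lit 4) (nat_lit 2) (nat_lit 4) (nat_lit 365) (nat_lit 268) (nat_lit 267)) (XT.nd (nat_lit 78) (nat_lit 0) (nat_lit 0) (XT.lf (nat_lit 0) (nat_lit 69744115435) (nat_lit 152) (nat_lit 31127258821) (nat_lit 0) (nat_lit 69490880678) (nat_lit 2) (nat_lit 5) (nat_lit 4) (nat_lit 4) (nat_lit 2) (nat_lit 4) (nat_lit 366) (nat_lit 268) (nat_lit 266)) (XT.lf (nat_lit 0) (nat_lit 78667962518) (nat_lit 152) (nat_lit 26846241638) (nat_lit 0) (nat_lit 78301998614) (nat_lit 2) (nat_lit 5) (nat_lit 4) (nat_lit 4) (nat_lit 2) (nat_lit 4) (nat_lit 367)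 (nat_lit 268) (nat_lit 265)))))) (XT.nd (nat_lit 468) (nat_lit 0) (nat_lit 0) (XT.nd (nat_lit 234) (nat_lit 76) (nat_lit 0) (XT.nd (nat_lit 78) (nat_lit 0) (nat_lit 0) (XT.lf (nat_lit 0) (nat_lit 88144879500) (nat_lit 152) (nat_lit 22535125120) (nat_lit 0) (nat_lit 87674536756) (nat_lit 2) (nat_lit 5) (nat_lit 4) (nat_lit 4) (nat_lit 2) (nat_lit 4) (nat_lit 368) (nat_lit 268) (nat_lit 264)) (XT.nd (nat_lit 78) (nat_lit 0) (nat_lit 0) (XT.lf (nat_lit 0) (nat_lit 98231025889) (nat_lit 152) (nat_lit 18168361909) (nat_lit 0) (nat_lit 97664036071) (nat_lit 2) (nat_lit 5) (nat_lit 4) (nat_lit 4) (nat_lit 2) (nat_lit 4) (nat_lit 369) (nat_lit 268) (nat_lit 263)) (XT.lf (nat_lit 0) (nat_lit 108986171440) (nat_lit 152) (nat_lit 13720074891) (nat_lit 0) (nat_lit 108329693590) (nat_lit 2) (nat_lit 5) (nat_lit 4) (nat_lit 4) (nat_lit 2) (nat_lit 4) (nat_lit 370) (nat_lit 268) (nat_lit 262)))) (XT.nd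 (nat_lit 78) (nat_lit 76) (nat_lit 0) (XT.lf (nat_lit 0) (nat_lit 120474050350) (nat_lit 152) (nat_lit 9163903845) (nat_lit 0) (nat_lit 119734713211) (nat_lit 2) (nat_lit 5) (nat_lit 4) (nat_lit 4) (nat_lit 2) (nat_lit 4) (nat_lit 371) (nat_lit 268) (nat_lit 261)) (XT.nd (nat_lit 78) (nat_lit 76) (nat_lit 0) (XT.lf (nat_lit 0) (nat_lit 132762738938) (nat_lit 152) (nat_lit 4472849240) (nat_lit 0) (nat_lit 131946680236) (nat_lit 2) (nat_lit 5) (nat_lit 4) (nat_lit 4) (nat_lit 2) (nat_lit 4) (nat_lit 372) (nat_lit 268) (nat_lit 260)) (XT.lf (nat_lit 0) (nat_lit 393481636) (nat_lit 76) (nat_lit 145537720777) (nat_lit 76) (nat_lit 144650623590) (nat_lit 1) (nat_lit 4) (nat_lit 2) (nat_lit 5) (nat_lit 2) (nat_lit 4) (nat_lit 373) (nat_lit 268) (nat_lit 259))))) (XT.nd (nat_lit 234) (nat_lit 0) (nat_lit 0) (XT.nd (nat_lit 78) (nat_lit 0) (nat_lit 0) (XT.lf (nat_lit 0) (nat_lit 5605480441) (nat_lit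 76) (nat_lit 154521046475) (nat_lit 76) (nat_lit 153568172913) (nat_lit 1) (nat_lit 4) (nat_lit 2) (nat_lit 5) (nat_lit 2) (nat_lit 4) (nat_lit 374) (nat_lit 268) (nat_lit 258)) (XT.nd (nat_lit 78) (nat_lit 0) (nat_lit 0) (XT.lf (nat_lit 0) (nat_lit 11046140499) (nat_lit 76) (nat_lit 164314549659) (nat_lit 76) (nat_lit 163300772047) (nat_lit 1) (nat_lit 4) (nat_lit 2) (nat_lit 5) (nat_lit 2) (nat_lit 4) (nat_lit 375) (nat_lit 268) (nat_lit 257)) (XT.lf (nat_lit 0) (nat_lit 16747702756) (nat_lit 76) (nat_lit 174976265905) (nat_lit 76) (nat_lit 173906095654) (nat_lit 1) (nat_lit 4) (nat_lit 2) (nat_lit 5) (nat_lit 2) (nat_lit 4) (nat_lit 376) (nat_lit 268) (nat_lit 256)))) (XT.nd (nat_lit 78) (nat_lit 0) (nat_lit 0) (XT.lf (nat_lit 0) (nat_lit 22743954251) (nat_lit 76) (nat_lit 186569375754) (nat_lit 76) (nat_lit 185446990095) (nat_lit 1) (nat_lit 4) (nat_lit 2) (nat_lit 5) (nat_lit 2) (nat_lit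 4) (nat_lit 377) (nat_lit 268) (nat_lit 255)) (XT.nd (nat_lit 78) (nat_lit 0) (nat_lit 0) (XT.lf (nat_lit 0) (nat_lit 29070428323) (nat_lit 76) (nat_lit 199162579114) (nat_lit 76) (nat_lit 197991845857) (nat_lit 1) (nat_lit 4) (nat_lit 2) (nat_lit 5) (nat_lit 2) (nat_lit 4) (nat_lit 378) (nat_lit 268) (nat_lit 254)) (XT.lf (nat_lit 0) (nat_lit 35764615190) (nat_lit 76) (nat_lit 212830502378) (nat_lit 76) (nat_lit 211615002825) (nat_lit 1) (nat_lit 4) (nat_lit 2) (nat_lit 5) (nat_lit 2) (nat_lit 4) (nat_lit 379) (nat_lit 268) (nat_lit 253))))))))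
noncomputable def xc5 : XT := (XT.nd (nat_lit 46098) (nat_lit 0) (nat_lit 0) (XT.nd (nat_lit 858) (nat_lit 0) (nat_lit 0) (XT.nd (nat_lit 390) (nat_lit 0) (nat_lit 0) (XT.nd (nat_lit 156) (nat_lit 0) (nat_lit 0) (XT.nd (nat_lit 78) (nat_lit 0) (nat_lit 0) (XT.lf (nat_lit 0) (nat_lit 42866184109) (nat_lit 76) (nat_lit 227654140645) (nat_lit 76) (nat_lit 226397190819) (nat_lit 1) (nat_lit 4) (nat_lit 2) (nat_lit 5) (nat_lit 2) (nat_lit 4) (nat_lit 380) (nat_lit 268) (nat_lit 252)) (XT.lf (nat_lit 0) (nat_lit 50417218449) (nat_lit 76) (nat_lit 243721337698) (nat_lit 76) (nat_lit 242426007989) (nat_lit 1) (nat_lit 4) (nat_lit 2) (nat_lit 5) (nat_lit 2) (nat_lit 4) (nat_lit 381) (nat_lit 268) (nat_lit 251))) (XT.nd (nat_lit 78) (nat_lit 0) (nat_lit 0) (XT.lf (nat_lit 0) (nat_lit 58462465081) (nat_lit 76) (nat_lit 261127306557) (nat_lit 76) (nat_lit 259796439919) (nat_lit 1) (nat_lit 4) (nat_lit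 2) (nat_lit 5) (nat_lit 2) (nat_lit 4) (nat_lit 382) (nat_lit 268) (nat_lit 250)) (XT.nd (nat_lit 78) (nat_lit 0) (nat_lit 0) (XT.lf (nat_lit 0) (nat_lit 67049599540) (nat_lit 76) (nat_lit 279975193703) (nat_lit 76) (nat_lit 278611422502) (nat_lit 1) (nat_lit 4) (nat_lit 2) (nat_lit 5) (nat_lit 2) (nat_lit 4) (nat_lit 383) (nat_lit 268) (nat_lit 249)) (XT.lf (nat_lit 0) (nat_lit 76229508551) (nat_lit 76) (nat_lit 300376690320) (nat_lit 76) (nat_lit 298982451930) (nat_lit 1) (nat_lit 4) (nat_lit 2) (nat_lit 5) (nat_lit 2) (nat_lit 4) (nat_lit 384) (nat_lit 268) (nat_lit 248))))) (XT.nd (nat_lit 234) (nat_lit 0) (nat_lit 0) (XT.nd (nat_lit 78) (nat_lit 0) (nat_lit 0) (XT.lf (nat_lit 0) (nat_lit 86056591572) (nat_lit 76) (nat_lit 322452694166) (nat_lit 76) (nat_lit 321030245416) (nat_lit 1) (nat_lit 4) (nat_lit 2) (nat_lit 5) (nat_lit 2) (nat_lit 4) (nat_lit 385) (nat_lit 268) (nat_lit 247))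 (XT.nd (nat_lit 78) (nat_lit 0) (nat_lit 0) (XT.lf (nat_lit 0) (nat_lit 96589083171) (nat_lit 76) (nat_lit 346334026003) (nat_lit 76) (nat_lit 344885456550) (nat_lit 1) (nat_lit 4) (nat_lit 2) (nat_lit 5) (nat_lit 2) (nat_lit 4) (nat_lit 386) (nat_lit 268) (nat_lit 246)) (XT.lf (nat_lit 0) (nat_lit 107889398112) (nat_lit 76) (nat_lit 372162204836) (nat_lit 76) (nat_lit 370689449546) (nat_lit 1) (nat_lit 4) (nat_lit 2) (nat_lit 5) (nat_lit 2) (nat_lit 4) (nat_lit 387) (nat_lit 268) (nat_lit 245)))) (XT.nd (nat_lit 78) (nat_lit 0) (nat_lit 0) (XT.lf (nat_lit 0) (nat_lit 120024501224) (nat_lit 76) (nat_lit 400090286539) (nat_lit 76) (nat_lit 398595136956) (nat_lit 1) (nat_lit 4) (nat_lit 2) (nat_lit 5) (nat_lit 2) (nat_lit 4) (nat_lit 388) (nat_lit 268) (nat_lit 244)) (XT.nd (nat_lit 78) (nat_lit 0) (nat_lit 0) (XT.lf (nat_lit 0) (nat_lit 133066304231) (nat_lit 76) (nat_lit 430283770855) (nat_lit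 76) (nat_lit 428767885816) (nat_lit 1) (nat_lit 4) (nat_lit 2) (nat_lit 5) (nat_lit 2) (nat_lit 4) (nat_lit 389) (nat_lit 268) (nat_lit 243)) (XT.lf (nat_lit 0) (nat_lit 147092091889) (nat_lit 76) (nat_lit 462921582136) (nat_lit 76) (nat_lit 461386497600) (nat_lit 1) (nat_lit 4) (nat_lit 2) (nat_lit 5) (nat_lit 2) (nat_lit 4) (nat_lit 390) (nat_lit 268) (nat_lit 242)))))) (XT.nd (nat_lit 44772) (nat_lit 0) (nat_lit 76) (XT.nd (nat_lit 156) (nat_lit 0) (nat_lit 0) (XT.nd (nat_lit 78) (nat_lit 0) (nat_lit 0) (XT.lf (nat_lit 0) (nat_lit 162184979979) (nat_lit 76) (nat_lit 498197129635) (nat_lit 76) (nat_lit 496644267787) (nat_lit 1) (nat_lit 4) (nat_lit 2) (nat_lit 5) (nat_lit 2) (nat_lit 4) (nat_lit 391) (nat_lit 268) (nat_lit 241)) (XT.lf (nat_lit 0) (nat_lit 178434407836) (nat_lit 76) (nat_lit 536319453631) (nat_lit 76) (nat_lit 534750131310) (nat_lit 1) (nat_lit 4) (nat_lit 2) (nat_lit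 5) (nat_lit 2) (nat_lit 4) (nat_lit 392) (nat_lit 268) (nat_lit 240))) (XT.nd (nat_lit 44460) (nat_lit 0) (nat_lit 76) (XT.lf (nat_lit 0) (nat_lit 195936668367) (nat_lit 76) (nat_lit 577514464194) (nat_lit 76) (nat_lit 575929900693) (nat_lit 1) (nat_lit 4) (nat_lit 2) (nat_lit 5) (nat_lit 2) (nat_lit 4) (nat_lit 393) (nat_lit 268) (nat_lit 239)) (XT.nd (nat_lit 78) (nat_lit 0) (nat_lit 0) (XT.lf (nat_lit 0) (nat_lit 19405847165) (nat_lit 152) (nat_lit 24126936022) (nat_lit 0) (nat_lit 19405847165) (nat_lit 2) (nat_lit 5) (nat_lit 4) (nat_lit 4) (nat_lit 2) (nat_lit 4) (nat_lit 362) (nat_lit 269) (nat_lit 269)) (XT.lf (nat_lit 0) (nat_lit 45918703836) (nat_lit 152) (nat_lit 44043414275) (nat_lit 0) (nat_lit 45776697576) (nat_lit 2) (nat_lit 5) (nat_lit 4) (nat_lit 4) (nat_lit 2) (nat_lit 4) (nat_lit 363) (nat_lit 269) (nat_lit 268))))) (XT.nd (nat_lit 234) (nat_lit 0) (nat_lit 0) (XT.nd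 (nat_lit 78) (nat_lit 0) (nat_lit 0) (XT.lf (nat_lit 0) (nat_lit 53391664709) (nat_lit 152) (nat_lit 39889631287) (nat_lit 0) (nat_lit 53118171172) (nat_lit 2) (nat_lit 5) (nat_lit 4) (nat_lit 4) (nat_lit 2) (nat_lit 4) (nat_lit 364) (nat_lit 269) (nat_lit 267)) (XT.nd (nat_lit 78) (nat_lit 0) (nat_lit 0) (XT.lf (nat_lit 0) (nat_lit 61274861163) (nat_lit 152) (nat_lit 35767908070) (nat_lit 0) (nat_lit 60879620146) (nat_lit 2) (nat_lit 5) (nat_lit 4) (nat_lit 4) (nat_lit 2) (nat_lit 4) (nat_lit 365) (nat_lit 269) (nat_lit 266)) (XT.lf (nat_lit 0) (nat_lit 69615008435) (nat_lit 152) (nat_lit 31653819598) (nat_lit 0) (nat_lit 69107038271) (nat_lit 2) (nat_lit 5) (nat_lit 4) (nat_lit 4) (nat_lit 2) (nat_lit 4) (nat_lit 366) (nat_lit 269) (nat_lit 265)))) (XT.nd (nat_lit 78) (nat_lit 0) (nat_lit 0) (XT.lf (nat_lit 0) (nat_lit 78461529620) (nat_lit 152) (nat_lit 27522986088) (nat_lit 0) (nat_lit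 77849180616) (nat_lit 2) (nat_lit 5) (nat_lit 4) (nat_lit 4) (nat_lit 2) (nat_lit 4) (nat_lit 367) (nat_lit 269) (nat_lit 264)) (XT.nd (nat_lit 78) (nat_lit 0) (nat_lit 0) (XT.lf (nat_lit 0) (nat_lit 87866848548) (nat_lit 152) (nat_lit 23350928526) (nat_lit 0) (nat_lit 87157852470) (nat_lit 2) (nat_lit 5) (nat_lit 4) (nat_lit 4) (nat_lit 2) (nat_lit 4) (nat_lit 368) (nat_lit 269) (nat_lit 263)) (XT.lf (nat_lit 0) (nat_lit 97886700442) (nat_lit 152) (nat_lit 19112923608) (nat_lit 0) (nat_lit 97088216333) (nat_lit 2) (nat_lit 5) (nat_lit 4) (nat_lit 4) (nat_lit 2) (nat_lit 4) (nat_lit 369) (nat_lit 269) (nat_lit 262))))))) (XT.nd (nat_lit 858) (nat_lit 0) (nat_lit 0) (XT.nd (nat_lit 390) (nat_lit 0) (nat_lit 0) (XT.nd (nat_lit 156) (nat_lit 76) (nat_lit 0) (XT.nd (nat_lit 78) (nat_lit 0) (nat_lit 0) (XT.lf (nat_lit 0) (nat_lit 108580462202) (nat_lit 152) (nat_lit 14783857231) (nat_lit 0)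 (nat_lit 107699118804) (nat_lit 2) (nat_lit 5) (nat_lit 4) (nat_lit 4) (nat_lit 2) (nat_lit 4) (nat_lit 370) (nat_lit 269) (nat_lit 261)) (XT.lf (nat_lit 0) (nat_lit 120011504269) (nat_lit 152) (nat_lit 10338075668) (nat_lit 0) (nat_lit 119053439307) (nat_lit 2) (nat_lit 5) (nat_lit 4) (nat_lit 4) (nat_lit 2) (nat_lit 4) (nat_lit 371) (nat_lit 269) (nat_lit 260))) (XT.nd (nat_lit 78) (nat_lit 76) (nat_lit 0) (XT.lf (nat_lit 0) (nat_lit 132247566150) (nat_lit 152) (nat_lit 5749233547) (nat_lit 0) (nat_lit 131218462703) (nat_lit 2) (nat_lit 5) (nat_lit 4) (nat_lit 4) (nat_lit 2) (nat_lit 4) (nat_lit 372) (nat_lit 269) (nat_lit 259)) (XT.nd (nat_lit 78) (nat_lit 76) (nat_lit 0) (XT.lf (nat_lit 0) (nat_lit 145361157841) (nat_lit 152) (nat_lit 990137729) (nat_lit 0) (nat_lit 144266278020) (nat_lit 2) (nat_lit 5) (nat_lit 4) (nat_lit 4) (nat_lit 2) (nat_lit 4) (nat_lit 373) (nat_lit 269) (nat_lit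 258)) (XT.lf (nat_lit 0) (nat_lit 4098594452) (nat_lit 76) (nat_lit 155395385611) (nat_lit 76) (nat_lit 154239601739) (nat_lit 1) (nat_lit 4) (nat_lit 2) (nat_lit 5) (nat_lit 2) (nat_lit 4) (nat_lit 374) (nat_lit 269) (nat_lit 257))))) (XT.nd (nat_lit 234) (nat_lit 0) (nat_lit 0) (XT.nd (nat_lit 78) (nat_lit 0) (nat_lit 0) (XT.lf (nat_lit 0) (nat_lit 9455432104) (nat_lit 76) (nat_lit 165229625722) (nat_lit 76) (nat_lit 164017449210) (nat_lit 1) (nat_lit 4) (nat_lit 2) (nat_lit 5) (nat_lit 2) (nat_lit 4) (nat_lit 375) (nat_lit 269) (nat_lit 256)) (XT.nd (nat_lit 78) (nat_lit 0) (nat_lit 0) (XT.lf (nat_lit 0) (nat_lit 15079381023) (nat_lit 76) (nat_lit 175929061344) (nat_lit 76) (nat_lit 174664669426) (nat_lit 1) (nat_lit 4) (nat_lit 2) (nat_lit 5) (nat_lit 2) (nat_lit 4) (nat_lit 376) (nat_lit 269) (nat_lit 255)) (XT.lf (nat_lit 0) (nat_lit 21003768314) (nat_lit 76) (nat_lit 187557096541)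 (nat_lit 76) (nat_lit 186244357023) (nat_lit 1) (nat_lit 4) (nat_lit 2) (nat_lit 5) (nat_lit 2) (nat_lit 4) (nat_lit 377) (nat_lit 269) (nat_lit 254)))) (XT.nd (nat_lit 78) (nat_lit 0) (nat_lit 0) (XT.lf (nat_lit 0) (nat_lit 27263701459) (nat_lit 76) (nat_lit 200182638187) (nat_lit 76) (nat_lit 198825132374) (nat_lit 1) (nat_lit 4) (nat_lit 2) (nat_lit 5) (nat_lit 2) (nat_lit 4) (nat_lit 378) (nat_lit 269) (nat_lit 253)) (XT.nd (nat_lit 78) (nat_lit 0) (nat_lit 0) (XT.lf (nat_lit 0) (nat_lit 33896276356) (nat_lit 76) (nat_lit 213880504308) (nat_lit 76) (nat_lit 212481548221) (nat_lit 1) (nat_lit 4) (nat_lit 2) (nat_lit 5) (nat_lit 2) (nat_lit 4) (nat_lit 379) (nat_lit 269) (nat_lit 252)) (XT.lf (nat_lit 0) (nat_lit 40940797153) (nat_lit 76) (nat_lit 228731867442) (nat_lit 76) (nat_lit 227294531473) (nat_lit 1) (nat_lit 4) (nat_lit 2) (nat_lit 5) (nat_lit 2) (nat_lit 4) (nat_lit 380) (nat_lit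 269) (nat_lit 251)))))) (XT.nd (nat_lit 468) (nat_lit 0) (nat_lit 0) (XT.nd (nat_lit 234) (nat_lit 0) (nat_lit 0) (XT.nd (nat_lit 78) (nat_lit 0) (nat_lit 0) (XT.lf (nat_lit 0) (nat_lit 48439009158) (nat_lit 76) (nat_lit 244824735669) (nat_lit 76) (nat_lit 243351862772) (nat_lit 1) (nat_lit 4) (nat_lit 2) (nat_lit 5) (nat_lit 2) (nat_lit 4) (nat_lit 381) (nat_lit 269) (nat_lit 250)) (XT.nd (nat_lit 78) (nat_lit 0) (nat_lit 0) (XT.lf (nat_lit 0) (nat_lit 56435346222) (nat_lit 76) (nat_lit 262254474133) (nat_lit 76) (nat_lit 260748696672) (nat_lit 1) (nat_lit 4) (nat_lit 2) (nat_lit 5) (nat_lit 2) (nat_lit 4) (nat_lit 382) (nat_lit 269) (nat_lit 249)) (XT.lf (nat_lit 0) (nat_lit 64977194044) (nat_lit 76) (nat_lit 281124370173) (nat_lit 76) (nat_lit 279588125523) (nat_lit 1) (nat_lit 4) (nat_lit 2) (nat_lit 5) (nat_lit 2) (nat_lit 4) (nat_lit 383) (nat_lit 269) (nat_lit 248)))) (XT.nd (nat_lit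 78) (nat_lit 0) (nat_lit 0) (XT.lf (nat_lit 0) (nat_lit 74115170982) (nat_lit 76) (nat_lit 301546245396) (nat_lit 76) (nat_lit 299981790386) (nat_lit 1) (nat_lit 4) (nat_lit 2) (nat_lit 5) (nat_lit 2) (nat_lit 4) (nat_lit 384) (nat_lit 269) (nat_lit 247)) (XT.nd (nat_lit 78) (nat_lit 0) (nat_lit 0) (XT.lf (nat_lit 0) (nat_lit 83903428011) (nat_lit 76) (nat_lit 323641118320) (nat_lit 76) (nat_lit 322050542607) (nat_lit 1) (nat_lit 4) (nat_lit 2) (nat_lit 5) (nat_lit 2) (nat_lit 4) (nat_lit 385) (nat_lit 269) (nat_lit 246)) (XT.lf (nat_lit 0) (nat_lit 94399969617) (nat_lit 76) (nat_lit 347539921527) (nat_lit 76) (nat_lit 345925159978) (nat_lit 1) (nat_lit 4) (nat_lit 2) (nat_lit 5) (nat_lit 2) (nat_lit 4) (nat_lit 386) (nat_lit 269) (nat_lit 245))))) (XT.nd (nat_lit 234) (nat_lit 0) (nat_lit 0) (XT.nd (nat_lit 78) (nat_lit 0) (nat_lit 0) (XT.lf (nat_lit 0) (nat_lit 105666997527) (nat_lit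 76) (nat_lit 373384277554) (nat_lit 76) (nat_lit 371747121711) (nat_lit 1) (nat_lit 4) (nat_lit 2) (nat_lit 5) (nat_lit 2) (nat_lit 4) (nat_lit 387) (nat_lit 269) (nat_lit 244)) (XT.nd (nat_lit 78) (nat_lit 0) (nat_lit 0) (XT.lf (nat_lit 0) (nat_lit 117771279315) (nat_lit 76) (nat_lit 401327338140) (nat_lit 76) (nat_lit 399669446841) (nat_lit 1) (nat_lit 4) (nat_lit 2) (nat_lit 5) (nat_lit 2) (nat_lit 4) (nat_lit 388) (nat_lit 269) (nat_lit 243)) (XT.lf (nat_lit 0) (nat_lit 130784544058) (nat_lit 76) (nat_lit 431534691792) (nat_lit 76) (nat_lit 429857600997) (nat_lit 1) (nat_lit 4) (nat_lit 2) (nat_lit 5) (nat_lit 2) (nat_lit 4) (nat_lit 389) (nat_lit 269) (nat_lit 242)))) (XT.nd (nat_lit 78) (nat_lit 0) (nat_lit 0) (XT.lf (nat_lit 0) (nat_lit 144783907398) (nat_lit 76) (nat_lit 464185345052) (nat_lit 76) (nat_lit 462490476944) (nat_lit 1) (nat_lit 4) (nat_lit 2) (nat_lit 5) (nat_lit 2)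 (nat_lit 4) (nat_lit 390) (nat_lit 269) (nat_lit 241)) (XT.nd (nat_lit 78) (nat_lit 0) (nat_lit 0) (XT.lf (nat_lit 0) (nat_lit 159852328527) (nat_lit 76) (nat_lit 499472783270) (nat_lit 76) (nat_lit 497761454689) (nat_lit 1) (nat_lit 4) (nat_lit 2) (nat_lit 5) (nat_lit 2) (nat_lit 4) (nat_lit 391) (nat_lit 269) (nat_lit 240)) (XT.lf (nat_lit 0) (nat_lit 176079101790) (nat_lit 76) (nat_lit 537606117193) (nat_lit 76) (nat_lit 535879547432) (nat_lit 1) (nat_lit 4) (nat_lit 2) (nat_lit 5) (nat_lit 2) (nat_lit 4) (nat_lit 392) (nat_lit 269) (nat_lit 239))))))))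
noncomputable def xc6 : XT := (XT.nd (nat_lit 45942) (nat_lit 0) (nat_lit 0) (XT.nd (nat_lit 45084) (nat_lit 0) (nat_lit 0) (XT.nd (nat_lit 44616) (nat_lit 0) (nat_lit 76) (XT.nd (nat_lit 44382) (nat_lit 0) (nat_lit 76) (XT.nd (nat_lit 44304) (nat_lit 0) (nat_lit 76) (XT.lf (nat_lit 0) (nat_lit 193560385846) (nat_lit 76) (nat_lit 578811322133) (nat_lit 76) (nat_lit 577070640169) (nat_lit 1) (nat_lit 4) (nat_lit 2) (nat_lit 5) (nat_lit 2) (nat_lit 4) (nat_lit 393) (nat_lit 269) (nat_lit 238)) (XT.lf (nat_lit 0) (nat_lit 12897984937) (nat_lit 152) (nat_lit 28362214997) (nat_lit 0) (nat_lit 12897984937) (nat_lit 2) (nat_lit 5) (nat_lit 4) (nat_lit 4) (nat_lit 2) (nat_lit 4) (nat_lit 360) (nat_lit 270) (nat_lit 270))) (XT.nd (nat_lit 78) (nat_lit 0) (nat_lit 0) (XT.lf (nat_lit 0) (nat_lit 32181887341) (nat_lit 152) (nat_lit 52545955457) (nat_lit 0) (nat_lit 32028520580) (nat_lit 2) (nat_lit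 5) (nat_lit 4) (nat_lit 4) (nat_lit 2) (nat_lit 4) (nat_lit 361) (nat_lit 270) (nat_lit 269)) (XT.nd (nat_lit 78) (nat_lit 0) (nat_lit 0) (XT.lf (nat_lit 0) (nat_lit 38859860060) (nat_lit 152) (nat_lit 48458195273) (nat_lit 0) (nat_lit 38564487040) (nat_lit 2) (nat_lit 5) (nat_lit 4) (nat_lit 4) (nat_lit 2) (nat_lit 4) (nat_lit 362) (nat_lit 270) (nat_lit 268)) (XT.lf (nat_lit 0) (nat_lit 45869461203) (nat_lit 152) (nat_lit 44436925678) (nat_lit 0) (nat_lit 45442600906) (nat_lit 2) (nat_lit 5) (nat_lit 4) (nat_lit 4) (nat_lit 2) (nat_lit 4) (nat_lit 363) (nat_lit 270) (nat_lit 267))))) (XT.nd (nat_lit 234) (nat_lit 0) (nat_lit 0) (XT.nd (nat_lit 78) (nat_lit 0) (nat_lit 0) (XT.lf (nat_lit 0) (nat_lit 53252229149) (nat_lit 152) (nat_lit 40458316926) (nat_lit 0) (nat_lit 52703621372) (nat_lit 2) (nat_lit 5) (nat_lit 4) (nat_lit 4) (nat_lit 2) (nat_lit 4) (nat_lit 364) (nat_lit 270) (nat_lit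 266)) (XT.nd (nat_lit 78) (nat_lit 0) (nat_lit 0) (XT.lf (nat_lit 0) (nat_lit 61051913632) (nat_lit 152) (nat_lit 36498792076) (nat_lit 0) (nat_lit 60390576708) (nat_lit 2) (nat_lit 5) (nat_lit 4) (nat_lit 4) (nat_lit 2) (nat_lit 4) (nat_lit 365) (nat_lit 270) (nat_lit 265)) (XT.lf (nat_lit 0) (nat_lit 69314735006) (nat_lit 152) (nat_lit 32534887277) (nat_lit 0) (nat_lit 68549019242) (nat_lit 2) (nat_lit 5) (nat_lit 4) (nat_lit 4) (nat_lit 2) (nat_lit 4) (nat_lit 366) (nat_lit 270) (nat_lit 264)))) (XT.nd (nat_lit 78) (nat_lit 0) (nat_lit 0) (XT.lf (nat_lit 0) (nat_lit 78089658138) (nat_lit 152) (nat_lit 28543112723) (nat_lit 0) (nat_lit 77227295299) (nat_lit 2) (nat_lit 5) (nat_lit 4) (nat_lit 4) (nat_lit 2) (nat_lit 4) (nat_lit 367) (nat_lit 270) (nat_lit 263)) (XT.nd (nat_lit 78) (nat_lit 0) (nat_lit 0) (XT.lf (nat_lit 0) (nat_lit 87428682571) (nat_lit 152) (nat_lit 24499813454) (nat_lit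 0) (nat_lit 86476831701) (nat_lit 2) (nat_lit 5) (nat_lit 4) (nat_lit 4) (nat_lit 2) (nat_lit 4) (nat_lit 368) (nat_lit 270) (nat_lit 262)) (XT.lf (nat_lit 0) (nat_lit 97387150674) (nat_lit 152) (nat_lit 20381029177) (nat_lit 0) (nat_lit 96352440516) (nat_lit 2) (nat_lit 5) (nat_lit 4) (nat_lit 4) (nat_lit 2) (nat_lit 4) (nat_lit 369) (nat_lit 270) (nat_lit 261)))))) (XT.nd (nat_lit 390) (nat_lit 0) (nat_lit 0) (XT.nd (nat_lit 156) (nat_lit 76) (nat_lit 0) (XT.nd (nat_lit 78) (nat_lit 0) (nat_lit 0) (XT.lf (nat_lit 0) (nat_lit 108024075591) (nat_lit 152) (nat_lit 16162352283) (nat_lit 0) (nat_lit 106912643869) (nat_lit 2) (nat_lit 5) (nat_lit 4) (nat_lit 4) (nat_lit 2) (nat_lit 4) (nat_lit 370) (nat_lit 270) (nat_lit 260)) (XT.lf (nat_lit 0) (nat_lit 119402490950) (nat_lit 152) (nat_lit 11818783204) (nat_lit 0) (nat_lit 118220020743) (nat_lit 2) (nat_lit 5) (nat_lit 4) (nat_lit 4) (nat_lit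 2) (nat_lit 4) (nat_lit 371) (nat_lit 270) (nat_lit 259))) (XT.nd (nat_lit 78) (nat_lit 76) (nat_lit 0) (XT.lf (nat_lit 0) (nat_lit 131589824399) (nat_lit 152) (nat_lit 7324582272) (nat_lit 0) (nat_lit 130341577817) (nat_lit 2) (nat_lit 5) (nat_lit 4) (nat_lit 4) (nat_lit 2) (nat_lit 4) (nat_lit 372) (nat_lit 270) (nat_lit 258)) (XT.nd (nat_lit 78) (nat_lit 76) (nat_lit 0) (XT.lf (nat_lit 0) (nat_lit 144658297172) (nat_lit 152) (nat_lit 2653117185) (nat_lit 0) (nat_lit 143349146539) (nat_lit 2) (nat_lit 5) (nat_lit 4) (nat_lit 4) (nat_lit 2) (nat_lit 4) (nat_lit 373) (nat_lit 270) (nat_lit 257)) (XT.lf (nat_lit 0) (nat_lit 2296806980) (nat_lit 76) (nat_lit 156424404684) (nat_lit 76) (nat_lit 155058861413) (nat_lit 1) (nat_lit 4) (nat_lit 2) (nat_lit 5) (nat_lit 2) (nat_lit 4) (nat_lit 374) (nat_lit 270) (nat_lit 256))))) (XT.nd (nat_lit 234) (nat_lit 0) (nat_lit 0) (XT.nd (nat_lit 78) (nat_lit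 0) (nat_lit 0) (XT.lf (nat_lit 0) (nat_lit 7576031292) (nat_lit 76) (nat_lit 166296364172) (nat_lit 76) (nat_lit 164878605493) (nat_lit 1) (nat_lit 4) (nat_lit 2) (nat_lit 5) (nat_lit 2) (nat_lit 4) (nat_lit 375) (nat_lit 270) (nat_lit 255)) (XT.nd (nat_lit 78) (nat_lit 0) (nat_lit 0) (XT.lf (nat_lit 0) (nat_lit 13128116009) (nat_lit 76) (nat_lit 177030725142) (nat_lit 76) (nat_lit 175564618865) (nat_lit 1) (nat_lit 4) (nat_lit 2) (nat_lit 5) (nat_lit 2) (nat_lit 4) (nat_lit 376) (nat_lit 270) (nat_lit 254)) (XT.lf (nat_lit 0) (nat_lit 18985962373) (nat_lit 76) (nat_lit 188691098625) (nat_lit 76) (nat_lit 187180226051) (nat_lit 1) (nat_lit 4) (nat_lit 2) (nat_lit 5) (nat_lit 2) (nat_lit 4) (nat_lit 377) (nat_lit 270) (nat_lit 253)))) (XT.nd (nat_lit 78) (nat_lit 0) (nat_lit 0) (XT.lf (nat_lit 0) (nat_lit 25184283546) (nat_lit 76) (nat_lit 201346583128) (nat_lit 76) (nat_lit 199794260281)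 (nat_lit 1) (nat_lit 4) (nat_lit 2) (nat_lit 5) (nat_lit 2) (nat_lit 4) (nat_lit 378) (nat_lit 270) (nat_lit 252)) (XT.nd (nat_lit 78) (nat_lit 0) (nat_lit 0) (XT.lf (nat_lit 0) (nat_lit 31759810322) (nat_lit 76) (nat_lit 215072174116) (nat_lit 76) (nat_lit 213481471387) (nat_lit 1) (nat_lit 4) (nat_lit 2) (nat_lit 5) (nat_lit 2) (nat_lit 4) (nat_lit 379) (nat_lit 270) (nat_lit 251)) (XT.lf (nat_lit 0) (nat_lit 38751508785) (nat_lit 76) (nat_lit 229949208425) (nat_lit 76) (nat_lit 228322968766) (nat_lit 1) (nat_lit 4) (nat_lit 2) (nat_lit 5) (nat_lit 2) (nat_lit 4) (nat_lit 380) (nat_lit 270) (nat_lit 250))))))) (XT.nd (nat_lit 858) (nat_lit 0) (nat_lit 0) (XT.nd (nat_lit 390) (nat_lit 0) (nat_lit 0) (XT.nd (nat_lit 156) (nat_lit 0) (nat_lit 0) (XT.nd (nat_lit 78) (nat_lit 0) (nat_lit 0) (XT.lf (nat_lit 0) (nat_lit 46200811222) (nat_lit 76) (nat_lit 246065846257) (nat_lit 76) (nat_lit 244406702035)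 (nat_lit 1) (nat_lit 4) (nat_lit 2) (nat_lit 5) (nat_lit 2) (nat_lit 4) (nat_lit 381) (nat_lit 270) (nat_lit 249)) (XT.lf (nat_lit 0) (nat_lit 54151861648) (nat_lit 76) (nat_lit 263517593614) (nat_lit 76) (nat_lit 261827982204) (nat_lit 1) (nat_lit 4) (nat_lit 2) (nat_lit 5) (nat_lit 2) (nat_lit 4) (nat_lit 382) (nat_lit 270) (nat_lit 248))) (XT.nd (nat_lit 78) (nat_lit 0) (nat_lit 0) (XT.lf (nat_lit 0) (nat_lit 62651777398) (nat_lit 76) (nat_lit 282407868260) (nat_lit 76) (nat_lit 280690046490) (nat_lit 1) (nat_lit 4) (nat_lit 2) (nat_lit 5) (nat_lit 2) (nat_lit 4) (nat_lit 383) (nat_lit 270) (nat_lit 247)) (XT.nd (nat_lit 78) (nat_lit 0) (nat_lit 0) (XT.lf (nat_lit 0) (nat_lit 71750928344) (nat_lit 76) (nat_lit 302848612561) (nat_lit 76) (nat_lit 301104670088) (nat_lit 1) (nat_lit 4) (nat_lit 2) (nat_lit 5) (nat_lit 2) (nat_lit 4) (nat_lit 384) (nat_lit 270) (nat_lit 246)) (XT.lf (nat_lit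 0) (nat_lit 81503235380) (nat_lit 76) (nat_lit 324960956855) (nat_lit 76) (nat_lit 323192828545) (nat_lit 1) (nat_lit 4) (nat_lit 2) (nat_lit 5) (nat_lit 2) (nat_lit 4) (nat_lit 385) (nat_lit 270) (nat_lit 245))))) (XT.nd (nat_lit 234) (nat_lit 0) (nat_lit 0) (XT.nd (nat_lit 78) (nat_lit 0) (nat_lit 0) (XT.lf (nat_lit 0) (nat_lit 91966489955) (nat_lit 76) (nat_lit 348875937256) (nat_lit 76) (nat_lit 347085414653) (nat_lit 1) (nat_lit 4) (nat_lit 2) (nat_lit 5) (nat_lit 2) (nat_lit 4) (nat_lit 386) (nat_lit 270) (nat_lit 244)) (XT.nd (nat_lit 78) (nat_lit 0) (nat_lit 0) (XT.lf (nat_lit 0) (nat_lit 103202696541) (nat_lit 76) (nat_lit 374735272166) (nat_lit 76) (nat_lit 372924014106) (nat_lit 1) (nat_lit 4) (nat_lit 2) (nat_lit 5) (nat_lit 2) (nat_lit 4) (nat_lit 387) (nat_lit 270) (nat_lit 243)) (XT.lf (nat_lit 0) (nat_lit 115278440065) (nat_lit 76) (nat_lit 402692202088) (nat_lit 76) (nat_lit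 400861744532) (nat_lit 1) (nat_lit 4) (nat_lit 2) (nat_lit 5) (nat_lit 2) (nat_lit 4) (nat_lit 388) (nat_lit 270) (nat_lit 242)))) (XT.nd (nat_lit 78) (nat_lit 0) (nat_lit 0) (XT.lf (nat_lit 0) (nat_lit 128265280490) (nat_lit 76) (nat_lit 432912397719) (nat_lit 76) (nat_lit 431064162851) (nat_lit 1) (nat_lit 4) (nat_lit 2) (nat_lit 5) (nat_lit 2) (nat_lit 4) (nat_lit 389) (nat_lit 270) (nat_lit 241)) (XT.nd (nat_lit 78) (nat_lit 0) (nat_lit 0) (XT.lf (nat_lit 0) (nat_lit 142240176869) (nat_lit 76) (nat_lit 465574941699) (nat_lit 76) (nat_lit 463710246357) (nat_lit 1) (nat_lit 4) (nat_lit 2) (nat_lit 5) (nat_lit 2) (nat_lit 4) (nat_lit 390) (nat_lit 270) (nat_lit 240)) (XT.lf (nat_lit 0) (nat_lit 157285943404) (nat_lit 76) (nat_lit 500873389844) (nat_lit 76) (nat_lit 498993453322) (nat_lit 1) (nat_lit 4) (nat_lit 2) (nat_lit 5) (nat_lit 2) (nat_lit 4) (nat_lit 391) (nat_lit 270) (nat_lit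 239)))))) (XT.nd (nat_lit 44538) (nat_lit 0) (nat_lit 76) (XT.nd (nat_lit 44304) (nat_lit 0) (nat_lit 76) (XT.nd (nat_lit 78) (nat_lit 0) (nat_lit 0) (XT.lf (nat_lit 0) (nat_lit 173491740192) (nat_lit 76) (nat_lit 539016918143) (nat_lit 76) (nat_lit 537122869418) (nat_lit 1) (nat_lit 4) (nat_lit 2) (nat_lit 5) (nat_lit 2) (nat_lit 4) (nat_lit 392) (nat_lit 270) (nat_lit 238)) (XT.nd (nat_lit 44148) (nat_lit 0) (nat_lit 76) (XT.lf (nat_lit 0) (nat_lit 190953601584) (nat_lit 76) (nat_lit 580231562320) (nat_lit 76) (nat_lit 578324446740) (nat_lit 1) (nat_lit 4) (nat_lit 2) (nat_lit 5) (nat_lit 2) (nat_lit 4) (nat_lit 393) (nat_lit 270) (nat_lit 237)) (XT.lf (nat_lit 0) (nat_lit 7019389918) (nat_lit 152) (nat_lit 32607464567) (nat_lit 0) (nat_lit 7019389918) (nat_lit 2) (nat_lit 5) (nat_lit 4) (nat_lit 4) (nat_lit 2) (nat_lit 4) (nat_lit 358) (nat_lit 271) (nat_lit 271)))) (XT.nd (nat_lit 78)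 (nat_lit 0) (nat_lit 0) (XT.lf (nat_lit 0) (nat_lit 19829901289) (nat_lit 152) (nat_lit 61018380214) (nat_lit 0) (nat_lit 19664265188) (nat_lit 2) (nat_lit 5) (nat_lit 4) (nat_lit 4) (nat_lit 2) (nat_lit 4) (nat_lit 359) (nat_lit 271) (nat_lit 270)) (XT.nd (nat_lit 78) (nat_lit 0) (nat_lit 0) (XT.lf (nat_lit 0) (nat_lit 25847988863) (nat_lit 152) (nat_lit 56945099081) (nat_lit 0) (nat_lit 25528986001) (nat_lit 2) (nat_lit 5) (nat_lit 4) (nat_lit 4) (nat_lit 2) (nat_lit 4) (nat_lit 360) (nat_lit 271) (nat_lit 269)) (XT.lf (nat_lit 0) (nat_lit 32128705298) (nat_lit 152) (nat_lit 52970947773) (nat_lit 0) (nat_lit 31667696176) (nat_lit 2) (nat_lit 5) (nat_lit 4) (nat_lit 4) (nat_lit 2) (nat_lit 4) (nat_lit 361) (nat_lit 271) (nat_lit 268))))) (XT.nd (nat_lit 234) (nat_lit 0) (nat_lit 0) (XT.nd (nat_lit 78) (nat_lit 0) (nat_lit 0) (XT.lf (nat_lit 0) (nat_lit 38709269655) (nat_lit 152) (nat_lit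 49072375764) (nat_lit 0) (nat_lit 38116773256) (nat_lit 2) (nat_lit 5) (nat_lit 4) (nat_lit 4) (nat_lit 2) (nat_lit 4) (nat_lit 362) (nat_lit 271) (nat_lit 267)) (XT.nd (nat_lit 78) (nat_lit 0) (nat_lit 0) (XT.lf (nat_lit 0) (nat_lit 45628677871) (nat_lit 152) (nat_lit 45226280404) (nat_lit 0) (nat_lit 44914433993) (nat_lit 2) (nat_lit 5) (nat_lit 4) (nat_lit 4) (nat_lit 2) (nat_lit 4) (nat_lit 363) (nat_lit 271) (nat_lit 266)) (XT.lf (nat_lit 0) (nat_lit 52927933846) (nat_lit 152) (nat_lit 41409870019) (nat_lit 0) (nat_lit 52100960821) (nat_lit 2) (nat_lit 5) (nat_lit 4) (nat_lit 4) (nat_lit 2) (nat_lit 4) (nat_lit 364) (nat_lit 271) (nat_lit 265)))) (XT.nd (nat_lit 78) (nat_lit 0) (nat_lit 0) (XT.lf (nat_lit 0) (nat_lit 60650292431) (nat_lit 152) (nat_lit 37600528841) (nat_lit 0) (nat_lit 59718940566) (nat_lit 2) (nat_lit 5) (nat_lit 4) (nat_lit 4) (nat_lit 2) (nat_lit 4) (nat_lit 365)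 (nat_lit 271) (nat_lit 264)) (XT.nd (nat_lit 78) (nat_lit 0) (nat_lit 0) (XT.lf (nat_lit 0) (nat_lit 68841515751) (nat_lit 152) (nat_lit 33775682998) (nat_lit 0) (nat_lit 67813516812) (nat_lit 2) (nat_lit 5) (nat_lit 4) (nat_lit 4) (nat_lit 2) (nat_lit 4) (nat_lit 366) (nat_lit 271) (nat_lit 263)) (XT.lf (nat_lit 0) (nat_lit 77550144389) (nat_lit 152) (nat_lit 29912666737) (nat_lit 0) (nat_lit 76432657417) (nat_lit 2) (nat_lit 5) (nat_lit 4) (nat_lit 4) (nat_lit 2) (nat_lit 4) (nat_lit 367) (nat_lit 271) (nat_lit 262))))))))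
noncomputable def xc7 : XT := (XT.nd (nat_lit 1794) (nat_lit 0) (nat_lit 0) (XT.nd (nat_lit 858) (nat_lit 0) (nat_lit 0) (XT.nd (nat_lit 390) (nat_lit 76) (nat_lit 0) (XT.nd (nat_lit 156) (nat_lit 0) (nat_lit 0) (XT.nd (nat_lit 78) (nat_lit 0) (nat_lit 0) (XT.lf (nat_lit 0) (nat_lit 86827785031) (nat_lit 152) (nat_lit 25988588110) (nat_lit 0) (nat_lit 85627438771) (nat_lit 2) (nat_lit 5) (nat_lit 4) (nat_lit 4) (nat_lit 2) (nat_lit 4) (nat_lit 368) (nat_lit 271) (nat_lit 261)) (XT.lf (nat_lit 0) (nat_lit 96729416291) (nat_lit 152) (nat_lit 21980193316) (nat_lit 0) (nat_lit 95452348467) (nat_lit 2) (nat_lit 5) (nat_lit 4) (nat_lit 4) (nat_lit 2) (nat_lit 4) (nat_lit 369) (nat_lit 271) (nat_lit 260))) (XT.nd (nat_lit 78) (nat_lit 0) (nat_lit 0) (XT.lf (nat_lit 0) (nat_lit 107313714500) (nat_lit 152) (nat_lit 17863728906) (nat_lit 0) (nat_lit 105965608192) (nat_lit 2) (nat_lit 5) (nat_lit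 4) (nat_lit 4) (nat_lit 2) (nat_lit 4) (nat_lit 370) (nat_lit 271) (nat_lit 259)) (XT.nd (nat_lit 78) (nat_lit 0) (nat_lit 0) (XT.lf (nat_lit 0) (nat_lit 118643401427) (nat_lit 152) (nat_lit 13614801016) (nat_lit 0) (nat_lit 117229518744) (nat_lit 2) (nat_lit 5) (nat_lit 4) (nat_lit 4) (nat_lit 2) (nat_lit 4) (nat_lit 371) (nat_lit 271) (nat_lit 258)) (XT.lf (nat_lit 0) (nat_lit 130785615956) (nat_lit 152) (nat_lit 9208230814) (nat_lit 0) (nat_lit 129310829223) (nat_lit 2) (nat_lit 5) (nat_lit 4) (nat_lit 4) (nat_lit 2) (nat_lit 4) (nat_lit 372) (nat_lit 271) (nat_lit 257))))) (XT.nd (nat_lit 234) (nat_lit 0) (nat_lit 0) (XT.nd (nat_lit 78) (nat_lit 76) (nat_lit 0) (XT.lf (nat_lit 0) (nat_lit 143812311953) (nat_lit 152) (nat_lit 4617905293) (nat_lit 0) (nat_lit 142281132580) (nat_lit 2) (nat_lit 5) (nat_lit 4) (nat_lit 4) (nat_lit 2) (nat_lit 4) (nat_lit 373) (nat_lit 271) (nat_lit 256))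 (XT.nd (nat_lit 78) (nat_lit 0) (nat_lit 0) (XT.lf (nat_lit 0) (nat_lit 189440765) (nat_lit 76) (nat_lit 157614201587) (nat_lit 76) (nat_lit 156030806807) (nat_lit 1) (nat_lit 4) (nat_lit 2) (nat_lit 5) (nat_lit 2) (nat_lit 4) (nat_lit 374) (nat_lit 271) (nat_lit 255)) (XT.lf (nat_lit 0) (nat_lit 5396800875) (nat_lit 76) (nat_lit 167521086422) (nat_lit 76) (nat_lit 165889344043) (nat_lit 1) (nat_lit 4) (nat_lit 2) (nat_lit 5) (nat_lit 2) (nat_lit 4) (nat_lit 375) (nat_lit 271) (nat_lit 254)))) (XT.nd (nat_lit 78) (nat_lit 0) (nat_lit 0) (XT.lf (nat_lit 0) (nat_lit 10882344664) (nat_lit 76) (nat_lit 178287785679) (nat_lit 76) (nat_lit 176611277004) (nat_lit 1) (nat_lit 4) (nat_lit 2) (nat_lit 5) (nat_lit 2) (nat_lit 4) (nat_lit 376) (nat_lit 271) (nat_lit 253)) (XT.nd (nat_lit 78) (nat_lit 0) (nat_lit 0) (XT.lf (nat_lit 0) (nat_lit 16678579057) (nat_lit 76) (nat_lit 189978102018) (nat_lit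 76) (nat_lit 188260143070) (nat_lit 1) (nat_lit 4) (nat_lit 2) (nat_lit 5) (nat_lit 2) (nat_lit 4) (nat_lit 377) (nat_lit 271) (nat_lit 252)) (XT.lf (nat_lit 0) (nat_lit 22819852109) (nat_lit 76) (nat_lit 202661311389) (nat_lit 76) (nat_lit 200904972558) (nat_lit 1) (nat_lit 4) (nat_lit 2) (nat_lit 5) (nat_lit 2) (nat_lit 4) (nat_lit 378) (nat_lit 271) (nat_lit 251)))))) (XT.nd (nat_lit 468) (nat_lit 0) (nat_lit 0) (XT.nd (nat_lit 234) (nat_lit 0) (nat_lit 0) (XT.nd (nat_lit 78) (nat_lit 0) (nat_lit 0) (XT.lf (nat_lit 0) (nat_lit 29342556551) (nat_lit 76) (nat_lit 216412573551) (nat_lit 76) (nat_lit 214620697791) (nat_lit 1) (nat_lit 4) (nat_lit 2) (nat_lit 5) (nat_lit 2) (nat_lit 4) (nat_lit 379) (nat_lit 271) (nat_lit 250)) (XT.nd (nat_lit 78) (nat_lit 0) (nat_lit 0) (XT.lf (nat_lit 0) (nat_lit 36285345445) (nat_lit 76) (nat_lit 231313377464) (nat_lit 76) (nat_lit 229488597141) (nat_lit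 1) (nat_lit 4) (nat_lit 2) (nat_lit 5) (nat_lit 2) (nat_lit 4) (nat_lit 380) (nat_lit 271) (nat_lit 249)) (XT.lf (nat_lit 0) (nat_lit 43689361245) (nat_lit 76) (nat_lit 247452024190) (nat_lit 76) (nat_lit 245596776679) (nat_lit 1) (nat_lit 4) (nat_lit 2) (nat_lit 5) (nat_lit 2) (nat_lit 4) (nat_lit 381) (nat_lit 271) (nat_lit 248)))) (XT.nd (nat_lit 78) (nat_lit 0) (nat_lit 0) (XT.lf (nat_lit 0) (nat_lit 51598479599) (nat_lit 76) (nat_lit 264924150153) (nat_lit 76) (nat_lit 263040692282) (nat_lit 1) (nat_lit 4) (nat_lit 2) (nat_lit 5) (nat_lit 2) (nat_lit 4) (nat_lit 382) (nat_lit 271) (nat_lit 247)) (XT.nd (nat_lit 78) (nat_lit 0) (nat_lit 0) (XT.lf (nat_lit 0) (nat_lit 60059569356) (nat_lit 76) (nat_lit 283833293878) (nat_lit 76) (nat_lit 281923715303) (nat_lit 1) (nat_lit 4) (nat_lit 2) (nat_lit 5) (nat_lit 2) (nat_lit 4) (nat_lit 383) (nat_lit 271) (nat_lit 246)) (XT.lf (nat_lit 0)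 (nat_lit 69122770309) (nat_lit 76) (nat_lit 304291509548) (nat_lit 76) (nat_lit 302357745137) (nat_lit 1) (nat_lit 4) (nat_lit 2) (nat_lit 5) (nat_lit 2) (nat_lit 4) (nat_lit 384) (nat_lit 271) (nat_lit 245))))) (XT.nd (nat_lit 234) (nat_lit 0) (nat_lit 0) (XT.nd (nat_lit 78) (nat_lit 0) (nat_lit 0) (XT.lf (nat_lit 0) (nat_lit 78841790314) (nat_lit 76) (nat_lit 326420031036) (nat_lit 76) (nat_lit 324463872332) (nat_lit 1) (nat_lit 4) (nat_lit 2) (nat_lit 5) (nat_lit 2) (nat_lit 4) (nat_lit 385) (nat_lit 271) (nat_lit 244)) (XT.nd (nat_lit 78) (nat_lit 0) (nat_lit 0) (XT.lf (nat_lit 0) (nat_lit 89274223565) (nat_lit 76) (nat_lit 350349990320) (nat_lit 76) (nat_lit 348373096160) (nat_lit 1) (nat_lit 4) (nat_lit 2) (nat_lit 5) (nat_lit 2) (nat_lit 4) (nat_lit 386) (nat_lit 271) (nat_lit 243)) (XT.lf (nat_lit 0) (nat_lit 100481891887) (nat_lit 76) (nat_lit 376223194567) (nat_lit 76) (nat_lit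 374227100909) (nat_lit 1) (nat_lit 4) (nat_lit 2) (nat_lit 5) (nat_lit 2) (nat_lit 4) (nat_lit 387) (nat_lit 271) (nat_lit 242)))) (XT.nd (nat_lit 78) (nat_lit 0) (nat_lit 0) (XT.lf (nat_lit 0) (nat_lit 112531211093) (nat_lit 76) (nat_lit 404192966467) (nat_lit 76) (nat_lit 402179095498) (nat_lit 1) (nat_lit 4) (nat_lit 2) (nat_lit 5) (nat_lit 2) (nat_lit 4) (nat_lit 388) (nat_lit 271) (nat_lit 241)) (XT.nd (nat_lit 78) (nat_lit 0) (nat_lit 0) (XT.lf (nat_lit 0) (nat_lit 125493584556) (nat_lit 76) (nat_lit 434425052818) (nat_lit 76) (nat_lit 432394721375) (nat_lit 1) (nat_lit 4) (nat_lit 2) (nat_lit 5) (nat_lit 2) (nat_lit 4) (nat_lit 389) (nat_lit 271) (nat_lit 240)) (XT.lf (nat_lit 0) (nat_lit 139445826342) (nat_lit 76) (nat_lit 467098606725) (nat_lit 76) (nat_lit 465053034102) (nat_lit 1) (nat_lit 4) (nat_lit 2) (nat_lit 5) (nat_lit 2) (nat_lit 4) (nat_lit 390) (nat_lit 271) (nat_lit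 239))))))) (XT.nd (nat_lit 44772) (nat_lit 0) (nat_lit 0) (XT.nd (nat_lit 44304) (nat_lit 0) (nat_lit 76) (XT.nd (nat_lit 156) (nat_lit 0) (nat_lit 0) (XT.nd (nat_lit 78) (nat_lit 0) (nat_lit 0) (XT.lf (nat_lit 0) (nat_lit 154470616401) (nat_lit 76) (nat_lit 502407249246) (nat_lit 76) (nat_lit 500347564420) (nat_lit 1) (nat_lit 4) (nat_lit 2) (nat_lit 5) (nat_lit 2) (nat_lit 4) (nat_lit 391) (nat_lit 271) (nat_lit 238)) (XT.lf (nat_lit 0) (nat_lit 170656990526) (nat_lit 76) (nat_lit 540560216782) (nat_lit 76) (nat_lit 538487465102) (nat_lit 1) (nat_lit 4) (nat_lit 2) (nat_lit 5) (nat_lit 2) (nat_lit 4) (nat_lit 392) (nat_lit 271) (nat_lit 237))) (XT.nd (nat_lit 43992) (nat_lit 0) (nat_lit 76) (XT.lf (nat_lit 0) (nat_lit 188100867972) (nat_lit 76) (nat_lit 581783600994) (nat_lit 76) (nat_lit 579698750373) (nat_lit 1) (nat_lit 4) (nat_lit 2) (nat_lit 5) (nat_lit 2) (nat_lit 4) (nat_lit 393)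 (nat_lit 271) (nat_lit 236)) (XT.nd (nat_lit 78) (nat_lit 0) (nat_lit 0) (XT.lf (nat_lit 0) (nat_lit 1656357937) (nat_lit 152) (nat_lit 36910396755) (nat_lit 0) (nat_lit 1656357937) (nat_lit 2) (nat_lit 5) (nat_lit 4) (nat_lit 4) (nat_lit 2) (nat_lit 4) (nat_lit 356) (nat_lit 272) (nat_lit 272)) (XT.lf (nat_lit 0) (nat_lit 8619193736) (nat_lit 152) (nat_lit 69559614281) (nat_lit 0) (nat_lit 8440306747) (nat_lit 2) (nat_lit 5) (nat_lit 4) (nat_lit 4) (nat_lit 2) (nat_lit 4) (nat_lit 357) (nat_lit 272) (nat_lit 271))))) (XT.nd (nat_lit 234) (nat_lit 0) (nat_lit 0) (XT.nd (nat_lit 78) (nat_lit 0) (nat_lit 0) (XT.lf (nat_lit 0) (nat_lit 14094960343) (nat_lit 152) (nat_lit 65453251749) (nat_lit 0) (nat_lit 13750437252) (nat_lit 2) (nat_lit 5) (nat_lit 4) (nat_lit 4) (nat_lit 2) (nat_lit 4) (nat_lit 358) (nat_lit 272) (nat_lit 270)) (XT.nd (nat_lit 78) (nat_lit 0) (nat_lit 0) (XT.lf (nat_lit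 0) (nat_lit 19772464683) (nat_lit 152) (nat_lit 61477371915) (nat_lit 0) (nat_lit 19274574832) (nat_lit 2) (nat_lit 5) (nat_lit 4) (nat_lit 4) (nat_lit 2) (nat_lit 4) (nat_lit 359) (nat_lit 272) (nat_lit 269)) (XT.lf (nat_lit 0) (nat_lit 25685351225) (nat_lit 152) (nat_lit 57608414011) (nat_lit 0) (nat_lit 25045455115) (nat_lit 2) (nat_lit 5) (nat_lit 4) (nat_lit 4) (nat_lit 2) (nat_lit 4) (nat_lit 360) (nat_lit 272) (nat_lit 268)))) (XT.nd (nat_lit 78) (nat_lit 0) (nat_lit 0) (XT.lf (nat_lit 0) (nat_lit 31868659298) (nat_lit 152) (nat_lit 53823450878) (nat_lit 0) (nat_lit 31097275910) (nat_lit 2) (nat_lit 5) (nat_lit 4) (nat_lit 4) (nat_lit 2) (nat_lit 4) (nat_lit 361) (nat_lit 272) (nat_lit 267)) (XT.nd (nat_lit 78) (nat_lit 0) (nat_lit 0) (XT.lf (nat_lit 0) (nat_lit 38359030728) (nat_lit 152) (nat_lit 50100053104) (nat_lit 0) (nat_lit 37465899861) (nat_lit 2) (nat_lit 5) (nat_lit 4)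 (nat_lit 4) (nat_lit 2) (nat_lit 4) (nat_lit 362) (nat_lit 272) (nat_lit 266)) (XT.lf (nat_lit 0) (nat_lit 45194926974) (nat_lit 152) (nat_lit 46416156111) (nat_lit 0) (nat_lit 44189066959) (nat_lit 2) (nat_lit 5) (nat_lit 4) (nat_lit 4) (nat_lit 2) (nat_lit 4) (nat_lit 363) (nat_lit 272) (nat_lit 265)))))) (XT.nd (nat_lit 468) (nat_lit 76) (nat_lit 0) (XT.nd (nat_lit 234) (nat_lit 0) (nat_lit 0) (XT.nd (nat_lit 78) (nat_lit 0) (nat_lit 0) (XT.lf (nat_lit 0) (nat_lit 52416857051) (nat_lit 152) (nat_lit 42749929398) (nat_lit 0) (nat_lit 51306618196) (nat_lit 2) (nat_lit 5) (nat_lit 4) (nat_lit 4) (nat_lit 2) (nat_lit 4) (nat_lit 364) (nat_lit 272) (nat_lit 264)) (XT.nd (nat_lit 78) (nat_lit 0) (nat_lit 0) (XT.lf (nat_lit 0) (nat_lit 60067617582) (nat_lit 152) (nat_lit 39079647177) (nat_lit 0) (nat_lit 58860731653) (nat_lit 2) (nat_lit 5) (nat_lit 4) (nat_lit 4) (nat_lit 2) (nat_lit 4) (nat_lit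 365) (nat_lit 272) (nat_lit 263)) (XT.lf (nat_lit 0) (nat_lit 68192546408) (nat_lit 152) (nat_lit 35383559627) (nat_lit 0) (nat_lit 66896172447) (nat_lit 2) (nat_lit 5) (nat_lit 4) (nat_lit 4) (nat_lit 2) (nat_lit 4) (nat_lit 366) (nat_lit 272) (nat_lit 262)))) (XT.nd (nat_lit 78) (nat_lit 0) (nat_lit 0) (XT.lf (nat_lit 0) (nat_lit 76839791254) (nat_lit 152) (nat_lit 31639764007) (nat_lit 0) (nat_lit 75460558005) (nat_lit 2) (nat_lit 5) (nat_lit 4) (nat_lit 4) (nat_lit 2) (nat_lit 4) (nat_lit 367) (nat_lit 272) (nat_lit 261)) (XT.nd (nat_lit 78) (nat_lit 0) (nat_lit 0) (XT.lf (nat_lit 0) (nat_lit 86060595053) (nat_lit 152) (nat_lit 27826074862) (nat_lit 0) (nat_lit 84604640240) (nat_lit 2) (nat_lit 5) (nat_lit 4) (nat_lit 4) (nat_lit 2) (nat_lit 4) (nat_lit 368) (nat_lit 272) (nat_lit 260)) (XT.lf (nat_lit 0) (nat_lit 95909599605) (nat_lit 152) (nat_lit 23919892553) (nat_lit 0) (nat_lit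 94382606308) (nat_lit 2) (nat_lit 5) (nat_lit 4) (nat_lit 4) (nat_lit 2) (nat_lit 4) (nat_lit 369) (nat_lit 272) (nat_lit 259))))) (XT.nd (nat_lit 234) (nat_lit 76) (nat_lit 0) (XT.nd (nat_lit 78) (nat_lit 0) (nat_lit 0) (XT.lf (nat_lit 0) (nat_lit 106445169382) (nat_lit 152) (nat_lit 19898069332) (nat_lit 0) (nat_lit 104852399710) (nat_lit 2) (nat_lit 5) (nat_lit 4) (nat_lit 4) (nat_lit 2) (nat_lit 4) (nat_lit 370) (nat_lit 272) (nat_lit 258)) (XT.nd (nat_lit 78) (nat_lit 0) (nat_lit 0) (XT.lf (nat_lit 0) (nat_lit 117729737390) (nat_lit 152) (nat_lit 15736772172) (nat_lit 0) (nat_lit 116076063667) (nat_lit 2) (nat_lit 5) (nat_lit 4) (nat_lit 4) (nat_lit 2) (nat_lit 4) (nat_lit 371) (nat_lit 272) (nat_lit 257)) (XT.lf (nat_lit 0) (nat_lit 129830175143) (nat_lit 152) (nat_lit 11411341536) (nat_lit 0) (nat_lit 128120108781) (nat_lit 2) (nat_lit 5) (nat_lit 4) (nat_lit 4) (nat_lit 2) (nat_lit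 4) (nat_lit 372) (nat_lit 272) (nat_lit 256)))) (XT.nd (nat_lit 78) (nat_lit 76) (nat_lit 0) (XT.lf (nat_lit 0) (nat_lit 142818188938) (nat_lit 152) (nat_lit 6896145242) (nat_lit 0) (nat_lit 141055907169) (nat_lit 2) (nat_lit 5) (nat_lit 4) (nat_lit 4) (nat_lit 2) (nat_lit 4) (nat_lit 373) (nat_lit 272) (nat_lit 255)) (XT.nd (nat_lit 78) (nat_lit 76) (nat_lit 0) (XT.lf (nat_lit 0) (nat_lit 156770744784) (nat_lit 152) (nat_lit 2164426570) (nat_lit 0) (nat_lit 154960115416) (nat_lit 2) (nat_lit 5) (nat_lit 4) (nat_lit 4) (nat_lit 2) (nat_lit 4) (nat_lit 374) (nat_lit 272) (nat_lit 254)) (XT.lf (nat_lit 0) (nat_lit 2904826894) (nat_lit 76) (nat_lit 168911050087) (nat_lit 76) (nat_lit 167055654423) (nat_lit 1) (nat_lit 4) (nat_lit 2) (nat_lit 5) (nat_lit 2) (nat_lit 4) (nat_lit 375) (nat_lit 272) (nat_lit 253))))))))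
noncomputable def xc8 : XT := (XT.nd (nat_lit 45474) (nat_lit 0) (nat_lit 0) (XT.nd (nat_lit 858) (nat_lit 0) (nat_lit 0) (XT.nd (nat_lit 390) (nat_lit 0) (nat_lit 0) (XT.nd (nat_lit 156) (nat_lit 0) (nat_lit 0) (XT.nd (nat_lit 78) (nat_lit 0) (nat_lit 0) (XT.lf (nat_lit 0) (nat_lit 8328758712) (nat_lit 76) (nat_lit 179707692200) (nat_lit 76) (nat_lit 177810846263) (nat_lit 1) (nat_lit 4) (nat_lit 2) (nat_lit 5) (nat_lit 2) (nat_lit 4) (nat_lit 376) (nat_lit 272) (nat_lit 252)) (XT.lf (nat_lit 0) (nat_lit 14067944984) (nat_lit 76) (nat_lit 191425733407) (nat_lit 76) (nat_lit 189490507587) (nat_lit 1) (nat_lit 4) (nat_lit 2) (nat_lit 5) (nat_lit 2) (nat_lit 4) (nat_lit 377) (nat_lit 272) (nat_lit 251))) (XT.nd (nat_lit 78) (nat_lit 0) (nat_lit 0) (XT.lf (nat_lit 0) (nat_lit 20156395702) (nat_lit 76) (nat_lit 204134613952) (nat_lit 76) (nat_lit 202163851203) (nat_lit 1) (nat_lit 4) (nat_lit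 2) (nat_lit 5) (nat_lit 2) (nat_lit 4) (nat_lit 378) (nat_lit 272) (nat_lit 250)) (XT.nd (nat_lit 78) (nat_lit 0) (nat_lit 0) (XT.lf (nat_lit 0) (nat_lit 26630190576) (nat_lit 76) (nat_lit 217909645719) (nat_lit 76) (nat_lit 215905978406) (nat_lit 1) (nat_lit 4) (nat_lit 2) (nat_lit 5) (nat_lit 2) (nat_lit 4) (nat_lit 379) (nat_lit 272) (nat_lit 249)) (XT.lf (nat_lit 0) (nat_lit 33527692832) (nat_lit 76) (nat_lit 232832458526) (nat_lit 76) (nat_lit 230798324025) (nat_lit 1) (nat_lit 4) (nat_lit 2) (nat_lit 5) (nat_lit 2) (nat_lit 4) (nat_lit 380) (nat_lit 272) (nat_lit 248))))) (XT.nd (nat_lit 234) (nat_lit 0) (nat_lit 0) (XT.nd (nat_lit 78) (nat_lit 0) (nat_lit 0) (XT.lf (nat_lit 0) (nat_lit 40889776560) (nat_lit 76) (nat_lit 248991483857) (nat_lit 76) (nat_lit 246929138997) (nat_lit 1) (nat_lit 4) (nat_lit 2) (nat_lit 5) (nat_lit 2) (nat_lit 4) (nat_lit 381) (nat_lit 272) (nat_lit 247))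 (XT.nd (nat_lit 78) (nat_lit 0) (nat_lit 0) (XT.lf (nat_lit 0) (nat_lit 48760068921) (nat_lit 76) (nat_lit 266482478899) (nat_lit 76) (nat_lit 264394013335) (nat_lit 1) (nat_lit 4) (nat_lit 2) (nat_lit 5) (nat_lit 2) (nat_lit 4) (nat_lit 382) (nat_lit 272) (nat_lit 246)) (XT.lf (nat_lit 0) (nat_lit 57185208686) (nat_lit 76) (nat_lit 285409093993) (nat_lit 76) (nat_lit 283296442593) (nat_lit 1) (nat_lit 4) (nat_lit 2) (nat_lit 5) (nat_lit 2) (nat_lit 4) (nat_lit 383) (nat_lit 272) (nat_lit 245)))) (XT.nd (nat_lit 78) (nat_lit 0) (nat_lit 0) (XT.lf (nat_lit 0) (nat_lit 66215122608) (nat_lit 76) (nat_lit 305883486858) (nat_lit 76) (nat_lit 303748441164) (nat_lit 1) (nat_lit 4) (nat_lit 2) (nat_lit 5) (nat_lit 2) (nat_lit 4) (nat_lit 384) (nat_lit 272) (nat_lit 244)) (XT.nd (nat_lit 78) (nat_lit 0) (nat_lit 0) (XT.lf (nat_lit 0) (nat_lit 75903321288) (nat_lit 76) (nat_lit 328026987229) (nat_lit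 76) (nat_lit 325871206079) (nat_lit 1) (nat_lit 4) (nat_lit 2) (nat_lit 5) (nat_lit 2) (nat_lit 4) (nat_lit 385) (nat_lit 272) (nat_lit 243)) (XT.lf (nat_lit 0) (nat_lit 86307216275) (nat_lit 76) (nat_lit 351970815849) (nat_lit 76) (nat_lit 349795835203) (nat_lit 1) (nat_lit 4) (nat_lit 2) (nat_lit 5) (nat_lit 2) (nat_lit 4) (nat_lit 386) (nat_lit 272) (nat_lit 242)))))) (XT.nd (nat_lit 390) (nat_lit 0) (nat_lit 0) (XT.nd (nat_lit 156) (nat_lit 0) (nat_lit 0) (XT.nd (nat_lit 78) (nat_lit 0) (nat_lit 0) (XT.lf (nat_lit 0) (nat_lit 97488460279) (nat_lit 76) (nat_lit 377856862074) (nat_lit 76) (nat_lit 375664104115) (nat_lit 1) (nat_lit 4) (nat_lit 2) (nat_lit 5) (nat_lit 2) (nat_lit 4) (nat_lit 387) (nat_lit 272) (nat_lit 241)) (XT.lf (nat_lit 0) (nat_lit 109513312524) (nat_lit 76) (nat_lit 405838524695) (nat_lit 76) (nat_lit 403629306262) (nat_lit 1) (nat_lit 4) (nat_lit 2) (nat_lit 5) (nat_lit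 2) (nat_lit 4) (nat_lit 388) (nat_lit 272) (nat_lit 240))) (XT.nd (nat_lit 78) (nat_lit 0) (nat_lit 0) (XT.lf (nat_lit 0) (nat_lit 122453031394) (nat_lit 76) (nat_lit 436081620973) (nat_lit 76) (nat_lit 433857161361) (nat_lit 1) (nat_lit 4) (nat_lit 2) (nat_lit 5) (nat_lit 2) (nat_lit 4) (nat_lit 389) (nat_lit 272) (nat_lit 239)) (XT.nd (nat_lit 78) (nat_lit 0) (nat_lit 0) (XT.lf (nat_lit 0) (nat_lit 136384296704) (nat_lit 76) (nat_lit 468765369255) (nat_lit 76) (nat_lit 466526797440) (nat_lit 1) (nat_lit 4) (nat_lit 2) (nat_lit 5) (nat_lit 2) (nat_lit 4) (nat_lit 390) (nat_lit 272) (nat_lit 238)) (XT.lf (nat_lit 0) (nat_lit 151389664100) (nat_lit 76) (nat_lit 504083451014) (nat_lit 76) (nat_lit 501831812343) (nat_lit 1) (nat_lit 4) (nat_lit 2) (nat_lit 5) (nat_lit 2) (nat_lit 4) (nat_lit 391) (nat_lit 272) (nat_lit 237))))) (XT.nd (nat_lit 43992) (nat_lit 0) (nat_lit 76) (XT.nd (nat_lit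 78) (nat_lit 0) (nat_lit 0) (XT.lf (nat_lit 0) (nat_lit 167558054278) (nat_lit 76) (nat_lit 542245158585) (nat_lit 76) (nat_lit 539981420975) (nat_lit 1) (nat_lit 4) (nat_lit 2) (nat_lit 5) (nat_lit 2) (nat_lit 4) (nat_lit 392) (nat_lit 272) (nat_lit 236)) (XT.nd (nat_lit 43836) (nat_lit 0) (nat_lit 228) (XT.lf (nat_lit 0) (nat_lit 184985279922) (nat_lit 76) (nat_lit 583476635421) (nat_lit 76) (nat_lit 581201695089) (nat_lit 1) (nat_lit 4) (nat_lit 2) (nat_lit 5) (nat_lit 2) (nat_lit 4) (nat_lit 393) (nat_lit 272) (nat_lit 235)) (XT.lf (nat_lit 0) (nat_lit 28249597001) (nat_lit 76) (nat_lit 3237435857) (nat_lit 76) (nat_lit 3237435857) (nat_lit 4) (nat_lit 4) (nat_lit 5) (nat_lit 5) (nat_lit 5) (nat_lit 4) (nat_lit 354) (nat_lit 273) (nat_lit 273)))) (XT.nd (nat_lit 78) (nat_lit 152) (nat_lit 0) (XT.lf (nat_lit 0) (nat_lit 71275972787) (nat_lit 76) (nat_lit 1832372853) (nat_lit 76) (nat_lit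 1629515007) (nat_lit 4) (nat_lit 4) (nat_lit 5) (nat_lit 5) (nat_lit 5) (nat_lit 4) (nat_lit 355) (nat_lit 273) (nat_lit 272)) (XT.nd (nat_lit 78) (nat_lit 0) (nat_lit 0) (XT.lf (nat_lit 0) (nat_lit 3373390822) (nat_lit 152) (nat_lit 74078181934) (nat_lit 0) (nat_lit 3001305885) (nat_lit 2) (nat_lit 5) (nat_lit 4) (nat_lit 4) (nat_lit 2) (nat_lit 4) (nat_lit 356) (nat_lit 273) (nat_lit 271)) (XT.lf (nat_lit 0) (nat_lit 8557162201) (nat_lit 152) (nat_lit 70055325318) (nat_lit 0) (nat_lit 8019441162) (nat_lit 2) (nat_lit 5) (nat_lit 4) (nat_lit 4) (nat_lit 2) (nat_lit 4) (nat_lit 357) (nat_lit 273) (nat_lit 270))))))) (XT.nd (nat_lit 858) (nat_lit 76) (nat_lit 0) (XT.nd (nat_lit 390) (nat_lit 0) (nat_lit 0) (XT.nd (nat_lit 156) (nat_lit 0) (nat_lit 0) (XT.nd (nat_lit 78) (nat_lit 0) (nat_lit 0) (XT.lf (nat_lit 0) (nat_lit 13919311695) (nat_lit 152) (nat_lit 66169631873) (nat_lit 0) (nat_lit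 13228223895) (nat_lit 2) (nat_lit 5) (nat_lit 4) (nat_lit 4) (nat_lit 2) (nat_lit 4) (nat_lit 358) (nat_lit 273) (nat_lit 269)) (XT.lf (nat_lit 0) (nat_lit 19491615004) (nat_lit 152) (nat_lit 62398075268) (nat_lit 0) (nat_lit 18658520944) (nat_lit 2) (nat_lit 5) (nat_lit 4) (nat_lit 4) (nat_lit 2) (nat_lit 4) (nat_lit 359) (nat_lit 273) (nat_lit 268))) (XT.nd (nat_lit 78) (nat_lit 0) (nat_lit 0) (XT.lf (nat_lit 0) (nat_lit 25307093184) (nat_lit 152) (nat_lit 58718305538) (nat_lit 0) (nat_lit 24342511848) (nat_lit 2) (nat_lit 5) (nat_lit 4) (nat_lit 4) (nat_lit 2) (nat_lit 4) (nat_lit 360) (nat_lit 273) (nat_lit 267)) (XT.nd (nat_lit 78) (nat_lit 0) (nat_lit 0) (XT.lf (nat_lit 0) (nat_lit 31400208330) (nat_lit 152) (nat_lit 55108516641) (nat_lit 0) (nat_lit 30313879514) (nat_lit 2) (nat_lit 5) (nat_lit 4) (nat_lit 4) (nat_lit 2) (nat_lit 4) (nat_lit 361) (nat_lit 273) (nat_lit 266)) (XT.lf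 (nat_lit 0) (nat_lit 37807067789) (nat_lit 152) (nat_lit 51547317234) (nat_lit 0) (nat_lit 36608009826) (nat_lit 2) (nat_lit 5) (nat_lit 4) (nat_lit 4) (nat_lit 2) (nat_lit 4) (nat_lit 362) (nat_lit 273) (nat_lit 265))))) (XT.nd (nat_lit 234) (nat_lit 0) (nat_lit 0) (XT.nd (nat_lit 78) (nat_lit 0) (nat_lit 0) (XT.lf (nat_lit 0) (nat_lit 44565638137) (nat_lit 152) (nat_lit 48013603914) (nat_lit 0) (nat_lit 43262201333) (nat_lit 2) (nat_lit 5) (nat_lit 4) (nat_lit 4) (nat_lit 2) (nat_lit 4) (nat_lit 363) (nat_lit 273) (nat_lit 264)) (XT.nd (nat_lit 78) (nat_lit 0) (nat_lit 0) (XT.lf (nat_lit 0) (nat_lit 51715970160) (nat_lit 152) (nat_lit 44486436157) (nat_lit 0) (nat_lit 50315886283) (nat_lit 2) (nat_lit 5) (nat_lit 4) (nat_lit 4) (nat_lit 2) (nat_lit 4) (nat_lit 364) (nat_lit 273) (nat_lit 263)) (XT.lf (nat_lit 0) (nat_lit 59300436197) (nat_lit 152) (nat_lit 40944912228) (nat_lit 0) (nat_lit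 57810864288) (nat_lit 2) (nat_lit 5) (nat_lit 4) (nat_lit 4) (nat_lit 2) (nat_lit 4) (nat_lit 365) (nat_lit 273) (nat_lit 262)))) (XT.nd (nat_lit 78) (nat_lit 0) (nat_lit 0) (XT.lf (nat_lit 0) (nat_lit 67363981231) (nat_lit 152) (nat_lit 37368045320) (nat_lit 0) (nat_lit 65791550034) (nat_lit 2) (nat_lit 5) (nat_lit 4) (nat_lit 4) (nat_lit 2) (nat_lit 4) (nat_lit 366) (nat_lit 273) (nat_lit 261)) (XT.nd (nat_lit 78) (nat_lit 0) (nat_lit 0) (XT.lf (nat_lit 0) (nat_lit 75954389234) (nat_lit 152) (nat_lit 33734639183) (nat_lit 0) (nat_lit 74305236473) (nat_lit 2) (nat_lit 5) (nat_lit 4) (nat_lit 4) (nat_lit 2) (nat_lit 4) (nat_lit 367) (nat_lit 273) (nat_lit 260)) (XT.lf (nat_lit 0) (nat_lit 85122566326) (nat_lit 152) (nat_lit 30023162522) (nat_lit 0) (nat_lit 83402375080) (nat_lit 2) (nat_lit 5) (nat_lit 4) (nat_lit 4) (nat_lit 2) (nat_lit 4) (nat_lit 368) (nat_lit 273) (nat_lit 259))))))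 (XT.nd (nat_lit 468) (nat_lit 76) (nat_lit 0) (XT.nd (nat_lit 234) (nat_lit 0) (nat_lit 0) (XT.nd (nat_lit 78) (nat_lit 0) (nat_lit 0) (XT.lf (nat_lit 0) (nat_lit 94922842446) (nat_lit 152) (nat_lit 26211621402) (nat_lit 0) (nat_lit 93136874825) (nat_lit 2) (nat_lit 5) (nat_lit 4) (nat_lit 4) (nat_lit 2) (nat_lit 4) (nat_lit 369) (nat_lit 273) (nat_lit 258)) (XT.nd (nat_lit 78) (nat_lit 0) (nat_lit 0) (XT.lf (nat_lit 0) (nat_lit 105413293304) (nat_lit 152) (nat_lit 22277428911) (nat_lit 0) (nat_lit 103566421632) (nat_lit 2) (nat_lit 5) (nat_lit 4) (nat_lit 4) (nat_lit 2) (nat_lit 4) (nat_lit 370) (nat_lit 273) (nat_lit 257)) (XT.lf (nat_lit 0) (nat_lit 116656084535) (nat_lit 152) (nat_lit 18197271317) (nat_lit 0) (nat_lit 114752820224) (nat_lit 2) (nat_lit 5) (nat_lit 4) (nat_lit 4) (nat_lit 2) (nat_lit 4) (nat_lit 371) (nat_lit 273) (nat_lit 256)))) (XT.nd (nat_lit 78) (nat_lit 0) (nat_lit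 0) (XT.lf (nat_lit 0) (nat_lit 128717840087) (nat_lit 152) (nat_lit 13946969908) (nat_lit 0) (nat_lit 126762360369) (nat_lit 2) (nat_lit 5) (nat_lit 4) (nat_lit 4) (nat_lit 2) (nat_lit 4) (nat_lit 372) (nat_lit 273) (nat_lit 255)) (XT.nd (nat_lit 78) (nat_lit 0) (nat_lit 0) (XT.lf (nat_lit 0) (nat_lit 141670037030) (nat_lit 152) (nat_lit 9501337713) (nat_lit 0) (nat_lit 139666209713) (nat_lit 2) (nat_lit 5) (nat_lit 4) (nat_lit 4) (nat_lit 2) (nat_lit 4) (nat_lit 373) (nat_lit 273) (nat_lit 254)) (XT.lf (nat_lit 0) (nat_lit 155589429123) (nat_lit 152) (nat_lit 4834030244) (nat_lit 0) (nat_lit 153540835511) (nat_lit 2) (nat_lit 5) (nat_lit 4) (nat_lit 4) (nat_lit 2) (nat_lit 4) (nat_lit 374) (nat_lit 273) (nat_lit 253))))) (XT.nd (nat_lit 234) (nat_lit 0) (nat_lit 0) (XT.nd (nat_lit 78) (nat_lit 0) (nat_lit 0) (XT.lf (nat_lit 0) (nat_lit 85342096) (nat_lit 76) (nat_lit 170474491987) (nat_lit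 76) (nat_lit 168384448101) (nat_lit 1) (nat_lit 4) (nat_lit 2) (nat_lit 5) (nat_lit 2) (nat_lit 4) (nat_lit 375) (nat_lit 273) (nat_lit 252)) (XT.nd (nat_lit 78) (nat_lit 0) (nat_lit 0) (XT.lf (nat_lit 0) (nat_lit 5452225793) (nat_lit 76) (nat_lit 181298858968) (nat_lit 76) (nat_lit 179170435199) (nat_lit 1) (nat_lit 4) (nat_lit 2) (nat_lit 5) (nat_lit 2) (nat_lit 4) (nat_lit 376) (nat_lit 273) (nat_lit 251)) (XT.lf (nat_lit 0) (nat_lit 11138589730) (nat_lit 76) (nat_lit 193042571348) (nat_lit 76) (nat_lit 190878610651) (nat_lit 1) (nat_lit 4) (nat_lit 2) (nat_lit 5) (nat_lit 2) (nat_lit 4) (nat_lit 377) (nat_lit 273) (nat_lit 250)))) (XT.nd (nat_lit 78) (nat_lit 0) (nat_lit 0) (XT.lf (nat_lit 0) (nat_lit 17178130880) (nat_lit 76) (nat_lit 205775221498) (nat_lit 76) (nat_lit 203578356237) (nat_lit 1) (nat_lit 4) (nat_lit 2) (nat_lit 5) (nat_lit 2) (nat_lit 4) (nat_lit 378) (nat_lit 273)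 (nat_lit 249)) (XT.nd (nat_lit 78) (nat_lit 0) (nat_lit 0) (XT.lf (nat_lit 0) (nat_lit 23606639115) (nat_lit 76) (nat_lit 219572262159) (nat_lit 76) (nat_lit 217344929710) (nat_lit 1) (nat_lit 4) (nat_lit 2) (nat_lit 5) (nat_lit 2) (nat_lit 4) (nat_lit 379) (nat_lit 273) (nat_lit 248)) (XT.lf (nat_lit 0) (nat_lit 30462209300) (nat_lit 76) (nat_lit 234515453572) (nat_lit 76) (nat_lit 232259910763) (nat_lit 1) (nat_lit 4) (nat_lit 2) (nat_lit 5) (nat_lit 2) (nat_lit 4) (nat_lit 380) (nat_lit 273) (nat_lit 247))))))))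
noncomputable def xc9 : XT := (XT.nd (nat_lit 45318) (nat_lit 0) (nat_lit 0) (XT.nd (nat_lit 858) (nat_lit 0) (nat_lit 0) (XT.nd (nat_lit 390) (nat_lit 0) (nat_lit 0) (XT.nd (nat_lit 156) (nat_lit 0) (nat_lit 0) (XT.nd (nat_lit 78) (nat_lit 0) (nat_lit 0) (XT.lf (nat_lit 0) (nat_lit 37785467035) (nat_lit 76) (nat_lit 250693347982) (nat_lit 76) (nat_lit 248411684470) (nat_lit 1) (nat_lit 4) (nat_lit 2) (nat_lit 5) (nat_lit 2) (nat_lit 4) (nat_lit 381) (nat_lit 273) (nat_lit 246)) (XT.lf (nat_lit 0) (nat_lit 45619809403) (nat_lit 76) (nat_lit 268201814394) (nat_lit 76) (nat_lit 265895965045) (nat_lit 1) (nat_lit 4) (nat_lit 2) (nat_lit 5) (nat_lit 2) (nat_lit 4) (nat_lit 382) (nat_lit 273) (nat_lit 245))) (XT.nd (nat_lit 78) (nat_lit 0) (nat_lit 0) (XT.lf (nat_lit 0) (nat_lit 54011662137) (nat_lit 76) (nat_lit 287144606681) (nat_lit 76) (nat_lit 284816363039) (nat_lit 1) (nat_lit 4) (nat_lit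 2) (nat_lit 5) (nat_lit 2) (nat_lit 4) (nat_lit 383) (nat_lit 273) (nat_lit 244)) (XT.nd (nat_lit 78) (nat_lit 0) (nat_lit 0) (XT.lf (nat_lit 0) (nat_lit 63010754735) (nat_lit 76) (nat_lit 307633978429) (nat_lit 76) (nat_lit 305284999331) (nat_lit 1) (nat_lit 4) (nat_lit 2) (nat_lit 5) (nat_lit 2) (nat_lit 4) (nat_lit 384) (nat_lit 273) (nat_lit 243)) (XT.lf (nat_lit 0) (nat_lit 72670415152) (nat_lit 76) (nat_lit 329791348137) (nat_lit 76) (nat_lit 327423169542) (nat_lit 1) (nat_lit 4) (nat_lit 2) (nat_lit 5) (nat_lit 2) (nat_lit 4) (nat_lit 385) (nat_lit 273) (nat_lit 242))))) (XT.nd (nat_lit 234) (nat_lit 0) (nat_lit 0) (XT.nd (nat_lit 78) (nat_lit 0) (nat_lit 0) (XT.lf (nat_lit 0) (nat_lit 83047885820) (nat_lit 76) (nat_lit 353748018735) (nat_lit 76) (nat_lit 351362062828) (nat_lit 1) (nat_lit 4) (nat_lit 2) (nat_lit 5) (nat_lit 2) (nat_lit 4) (nat_lit 386) (nat_lit 273) (nat_lit 241))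 (XT.nd (nat_lit 78) (nat_lit 0) (nat_lit 0) (XT.lf (nat_lit 0) (nat_lit 94204662863) (nat_lit 76) (nat_lit 379645955680) (nat_lit 76) (nat_lit 377243539299) (nat_lit 1) (nat_lit 4) (nat_lit 2) (nat_lit 5) (nat_lit 2) (nat_lit 4) (nat_lit 387) (nat_lit 273) (nat_lit 240)) (XT.lf (nat_lit 0) (nat_lit 106206860515) (nat_lit 76) (nat_lit 407638628228) (nat_lit 76) (nat_lit 405220970667) (nat_lit 1) (nat_lit 4) (nat_lit 2) (nat_lit 5) (nat_lit 2) (nat_lit 4) (nat_lit 388) (nat_lit 273) (nat_lit 239)))) (XT.nd (nat_lit 78) (nat_lit 0) (nat_lit 0) (XT.lf (nat_lit 0) (nat_lit 119125602909) (nat_lit 76) (nat_lit 437891918882) (nat_lit 76) (nat_lit 435460149118) (nat_lit 1) (nat_lit 4) (nat_lit 2) (nat_lit 5) (nat_lit 2) (nat_lit 4) (nat_lit 389) (nat_lit 273) (nat_lit 238)) (XT.nd (nat_lit 78) (nat_lit 0) (nat_lit 0) (XT.lf (nat_lit 0) (nat_lit 133037445556) (nat_lit 76) (nat_lit 470585106401) (nat_lit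 76) (nat_lit 468140269783) (nat_lit 1) (nat_lit 4) (nat_lit 2) (nat_lit 5) (nat_lit 2) (nat_lit 4) (nat_lit 390) (nat_lit 273) (nat_lit 237)) (XT.lf (nat_lit 0) (nat_lit 148024829005) (nat_lit 76) (nat_lit 505911928195) (nat_lit 76) (nat_lit 503454992636) (nat_lit 1) (nat_lit 4) (nat_lit 2) (nat_lit 5) (nat_lit 2) (nat_lit 4) (nat_lit 391) (nat_lit 273) (nat_lit 236)))))) (XT.nd (nat_lit 43992) (nat_lit 0) (nat_lit 76) (XT.nd (nat_lit 43758) (nat_lit 0) (nat_lit 228) (XT.nd (nat_lit 78) (nat_lit 0) (nat_lit 0) (XT.lf (nat_lit 0) (nat_lit 164176567381) (nat_lit 76) (nat_lit 544081728390) (nat_lit 76) (nat_lit 541613590110) (nat_lit 1) (nat_lit 4) (nat_lit 2) (nat_lit 5) (nat_lit 2) (nat_lit 4) (nat_lit 392) (nat_lit 273) (nat_lit 235)) (XT.lf (nat_lit 0) (nat_lit 181588374688) (nat_lit 76) (nat_lit 585320698397) (nat_lit 76) (nat_lit 582842187226) (nat_lit 1) (nat_lit 4) (nat_lit 2) (nat_lit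 5) (nat_lit 2) (nat_lit 4) (nat_lit 393) (nat_lit 273) (nat_lit 234))) (XT.nd (nat_lit 78) (nat_lit 0) (nat_lit 0) (XT.lf (nat_lit 0) (nat_lit 14462732151) (nat_lit 76) (nat_lit 7780938393) (nat_lit 76) (nat_lit 7780938393) (nat_lit 4) (nat_lit 4) (nat_lit 5) (nat_lit 5) (nat_lit 5) (nat_lit 4) (nat_lit 352) (nat_lit 274) (nat_lit 274)) (XT.nd (nat_lit 78) (nat_lit 0) (nat_lit 0) (XT.lf (nat_lit 0) (nat_lit 42316892173) (nat_lit 76) (nat_lit 11233499244) (nat_lit 76) (nat_lit 11014412770) (nat_lit 4) (nat_lit 4) (nat_lit 5) (nat_lit 5) (nat_lit 5) (nat_lit 4) (nat_lit 353) (nat_lit 274) (nat_lit 273)) (XT.lf (nat_lit 0) (nat_lit 56239527084) (nat_lit 76) (nat_lit 6819056976) (nat_lit 76) (nat_lit 6397112657) (nat_lit 4) (nat_lit 4) (nat_lit 5) (nat_lit 5) (nat_lit 5) (nat_lit 4) (nat_lit 354) (nat_lit 274) (nat_lit 272))))) (XT.nd (nat_lit 234) (nat_lit 0) (nat_lit 0) (XT.nd (nat_lit 78)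 (nat_lit 152) (nat_lit 0) (XT.lf (nat_lit 0) (nat_lit 70775873538) (nat_lit 76) (nat_lit 2292390326) (nat_lit 76) (nat_lit 1682614668) (nat_lit 4) (nat_lit 4) (nat_lit 5) (nat_lit 5) (nat_lit 5) (nat_lit 4) (nat_lit 355) (nat_lit 274) (nat_lit 271)) (XT.nd (nat_lit 78) (nat_lit 0) (nat_lit 0) (XT.lf (nat_lit 0) (nat_lit 3183690282) (nat_lit 152) (nat_lit 74851872468) (nat_lit 0) (nat_lit 2437315459) (nat_lit 2) (nat_lit 5) (nat_lit 4) (nat_lit 4) (nat_lit 2) (nat_lit 4) (nat_lit 356) (nat_lit 274) (nat_lit 270)) (XT.lf (nat_lit 0) (nat_lit 8253844548) (nat_lit 152) (nat_lit 71049684939) (nat_lit 0) (nat_lit 7354102964) (nat_lit 2) (nat_lit 5) (nat_lit 4) (nat_lit 4) (nat_lit 2) (nat_lit 4) (nat_lit 357) (nat_lit 274) (nat_lit 269)))) (XT.nd (nat_lit 78) (nat_lit 0) (nat_lit 0) (XT.lf (nat_lit 0) (nat_lit 13510793011) (nat_lit 152) (nat_lit 67368314722) (nat_lit 0) (nat_lit 12469045167)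 (nat_lit 2) (nat_lit 5) (nat_lit 4) (nat_lit 4) (nat_lit 2) (nat_lit 4) (nat_lit 358) (nat_lit 274) (nat_lit 268)) (XT.nd (nat_lit 78) (nat_lit 0) (nat_lit 0) (XT.lf (nat_lit 0) (nat_lit 18985687957) (nat_lit 152) (nat_lit 63785946292) (nat_lit 0) (nat_lit 17812452836) (nat_lit 2) (nat_lit 5) (nat_lit 4) (nat_lit 4) (nat_lit 2) (nat_lit 4) (nat_lit 359) (nat_lit 274) (nat_lit 267)) (XT.lf (nat_lit 0) (nat_lit 24710973210) (nat_lit 152) (nat_lit 60281350799) (nat_lit 0) (nat_lit 23415990610) (nat_lit 2) (nat_lit 5) (nat_lit 4) (nat_lit 4) (nat_lit 2) (nat_lit 4) (nat_lit 360) (nat_lit 274) (nat_lit 266))))))) (XT.nd (nat_lit 858) (nat_lit 76) (nat_lit 0) (XT.nd (nat_lit 390) (nat_lit 0) (nat_lit 0) (XT.nd (nat_lit 156) (nat_lit 0) (nat_lit 0) (XT.nd (nat_lit 78) (nat_lit 0) (nat_lit 0) (XT.lf (nat_lit 0) (nat_lit 30720576386) (nat_lit 152) (nat_lit 56833760268) (nat_lit 0) (nat_lit 29312864638)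 (nat_lit 2) (nat_lit 5) (nat_lit 4) (nat_lit 4) (nat_lit 2) (nat_lit 4) (nat_lit 361) (nat_lit 274) (nat_lit 265)) (XT.lf (nat_lit 0) (nat_lit 37050109947) (nat_lit 152) (nat_lit 53422744533) (nat_lit 0) (nat_lit 35538019359) (nat_lit 2) (nat_lit 5) (nat_lit 4) (nat_lit 4) (nat_lit 2) (nat_lit 4) (nat_lit 362) (nat_lit 274) (nat_lit 264))) (XT.nd (nat_lit 78) (nat_lit 0) (nat_lit 0) (XT.lf (nat_lit 0) (nat_lit 43737082240) (nat_lit 152) (nat_lit 50028090169) (nat_lit 0) (nat_lit 42128344579) (nat_lit 2) (nat_lit 5) (nat_lit 4) (nat_lit 4) (nat_lit 2) (nat_lit 4) (nat_lit 363) (nat_lit 274) (nat_lit 263)) (XT.nd (nat_lit 78) (nat_lit 0) (nat_lit 0) (XT.lf (nat_lit 0) (nat_lit 50821119769) (nat_lit 152) (nat_lit 46629680705) (nat_lit 0) (nat_lit 49122894076) (nat_lit 2) (nat_lit 5) (nat_lit 4) (nat_lit 4) (nat_lit 2) (nat_lit 4) (nat_lit 364) (nat_lit 274) (nat_lit 262)) (XT.lf (nat_lit 0)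 (nat_lit 58344202015) (nat_lit 152) (nat_lit 43207377418) (nat_lit 0) (nat_lit 56563117033) (nat_lit 2) (nat_lit 5) (nat_lit 4) (nat_lit 4) (nat_lit 2) (nat_lit 4) (nat_lit 365) (nat_lit 274) (nat_lit 261))))) (XT.nd (nat_lit 234) (nat_lit 0) (nat_lit 0) (XT.nd (nat_lit 78) (nat_lit 0) (nat_lit 0) (XT.lf (nat_lit 0) (nat_lit 66350910206) (nat_lit 152) (nat_lit 39740899993) (nat_lit 0) (nat_lit 64493103660) (nat_lit 2) (nat_lit 5) (nat_lit 4) (nat_lit 4) (nat_lit 2) (nat_lit 4) (nat_lit 366) (nat_lit 274) (nat_lit 260)) (XT.nd (nat_lit 78) (nat_lit 0) (nat_lit 0) (XT.lf (nat_lit 0) (nat_lit 74888691501) (nat_lit 152) (nat_lit 36209706340) (nat_lit 0) (nat_lit 72959846471) (nat_lit 2) (nat_lit 5) (nat_lit 4) (nat_lit 4) (nat_lit 2) (nat_lit 4) (nat_lit 367) (nat_lit 274) (nat_lit 259)) (XT.lf (nat_lit 0) (nat_lit 84008140161) (nat_lit 152) (nat_lit 32592870868) (nat_lit 0) (nat_lit 82013518756)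 (nat_lit 2) (nat_lit 5) (nat_lit 4) (nat_lit 4) (nat_lit 2) (nat_lit 4) (nat_lit 368) (nat_lit 274) (nat_lit 258)))) (XT.nd (nat_lit 78) (nat_lit 0) (nat_lit 0) (XT.lf (nat_lit 0) (nat_lit 93763297362) (nat_lit 152) (nat_lit 28868960478) (nat_lit 0) (nat_lit 91707771906) (nat_lit 2) (nat_lit 5) (nat_lit 4) (nat_lit 4) (nat_lit 2) (nat_lit 4) (nat_lit 369) (nat_lit 274) (nat_lit 257)) (XT.nd (nat_lit 78) (nat_lit 0) (nat_lit 0) (XT.lf (nat_lit 0) (nat_lit 104211971443) (nat_lit 152) (nat_lit 25015907553) (nat_lit 0) (nat_lit 102100053348) (nat_lit 2) (nat_lit 5) (nat_lit 4) (nat_lit 4) (nat_lit 2) (nat_lit 4) (nat_lit 370) (nat_lit 274) (nat_lit 256)) (XT.lf (nat_lit 0) (nat_lit 115416080474) (nat_lit 152) (nat_lit 21010879186) (nat_lit 0) (nat_lit 113251946971) (nat_lit 2) (nat_lit 5) (nat_lit 4) (nat_lit 4) (nat_lit 2) (nat_lit 4) (nat_lit 371) (nat_lit 274) (nat_lit 255)))))) (XT.nd (nat_lit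 468) (nat_lit 0) (nat_lit 0) (XT.nd (nat_lit 234) (nat_lit 76) (nat_lit 0) (XT.nd (nat_lit 78) (nat_lit 0) (nat_lit 0) (XT.lf (nat_lit 0) (nat_lit 127442019173) (nat_lit 152) (nat_lit 16830141876) (nat_lit 0) (nat_lit 125229538072) (nat_lit 2) (nat_lit 5) (nat_lit 4) (nat_lit 4) (nat_lit 2) (nat_lit 4) (nat_lit 372) (nat_lit 274) (nat_lit 254)) (XT.nd (nat_lit 78) (nat_lit 0) (nat_lit 0) (XT.lf (nat_lit 0) (nat_lit 140361052364) (nat_lit 152) (nat_lit 12448920884) (nat_lit 0) (nat_lit 138103804967) (nat_lit 2) (nat_lit 5) (nat_lit 4) (nat_lit 4) (nat_lit 2) (nat_lit 4) (nat_lit 373) (nat_lit 274) (nat_lit 253)) (XT.lf (nat_lit 0) (nat_lit 154249737279) (nat_lit 152) (nat_lit 7841253418) (nat_lit 0) (nat_lit 151951039609) (nat_lit 2) (nat_lit 5) (nat_lit 4) (nat_lit 4) (nat_lit 2) (nat_lit 4) (nat_lit 374) (nat_lit 274) (nat_lit 252)))) (XT.nd (nat_lit 78) (nat_lit 76) (nat_lit 0) (XT.lf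 (nat_lit 0) (nat_lit 169190377237) (nat_lit 152) (nat_lit 2979834782) (nat_lit 0) (nat_lit 166853299684) (nat_lit 2) (nat_lit 5) (nat_lit 4) (nat_lit 4) (nat_lit 2) (nat_lit 4) (nat_lit 375) (nat_lit 274) (nat_lit 251)) (XT.nd (nat_lit 78) (nat_lit 0) (nat_lit 0) (XT.lf (nat_lit 0) (nat_lit 2235699784) (nat_lit 76) (nat_lit 183070715119) (nat_lit 76) (nat_lit 180698100637) (nat_lit 1) (nat_lit 4) (nat_lit 2) (nat_lit 5) (nat_lit 2) (nat_lit 4) (nat_lit 376) (nat_lit 274) (nat_lit 250)) (XT.lf (nat_lit 0) (nat_lit 7873154153) (nat_lit 76) (nat_lit 194838197104) (nat_lit 76) (nat_lit 192432678059) (nat_lit 1) (nat_lit 4) (nat_lit 2) (nat_lit 5) (nat_lit 2) (nat_lit 4) (nat_lit 377) (nat_lit 274) (nat_lit 249))))) (XT.nd (nat_lit 234) (nat_lit 0) (nat_lit 0) (XT.nd (nat_lit 78) (nat_lit 0) (nat_lit 0) (XT.lf (nat_lit 0) (nat_lit 13867408666) (nat_lit 76) (nat_lit 207592856148) (nat_lit 76)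 (nat_lit 205156869914) (nat_lit 1) (nat_lit 4) (nat_lit 2) (nat_lit 5) (nat_lit 2) (nat_lit 4) (nat_lit 378) (nat_lit 274) (nat_lit 248)) (XT.nd (nat_lit 78) (nat_lit 0) (nat_lit 0) (XT.lf (nat_lit 0) (nat_lit 20253984829) (nat_lit 76) (nat_lit 221410275414) (nat_lit 76) (nat_lit 218946078821) (nat_lit 1) (nat_lit 4) (nat_lit 2) (nat_lit 5) (nat_lit 2) (nat_lit 4) (nat_lit 379) (nat_lit 274) (nat_lit 247)) (XT.lf (nat_lit 0) (nat_lit 27070729021) (nat_lit 76) (nat_lit 236372335906) (nat_lit 76) (nat_lit 233882018609) (nat_lit 1) (nat_lit 4) (nat_lit 2) (nat_lit 5) (nat_lit 2) (nat_lit 4) (nat_lit 380) (nat_lit 274) (nat_lit 246)))) (XT.nd (nat_lit 78) (nat_lit 0) (nat_lit 0) (XT.lf (nat_lit 0) (nat_lit 34358036763) (nat_lit 76) (nat_lit 252567701686) (nat_lit 76) (nat_lit 250053198552) (nat_lit 1) (nat_lit 4) (nat_lit 2) (nat_lit 5) (nat_lit 2) (nat_lit 4) (nat_lit 381) (nat_lit 274) (nat_lit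 245)) (XT.nd (nat_lit 78) (nat_lit 0) (nat_lit 0) (XT.lf (nat_lit 0) (nat_lit 42159092101) (nat_lit 76) (nat_lit 270092345291) (nat_lit 76) (nat_lit 267555447865) (nat_lit 1) (nat_lit 4) (nat_lit 2) (nat_lit 5) (nat_lit 2) (nat_lit 4) (nat_lit 382) (nat_lit 274) (nat_lit 244)) (XT.lf (nat_lit 0) (nat_lit 50520123510) (nat_lit 76) (nat_lit 289050116462) (nat_lit 76) (nat_lit 286492483579) (nat_lit 1) (nat_lit 4) (nat_lit 2) (nat_lit 5) (nat_lit 2) (nat_lit 4) (nat_lit 383) (nat_lit 274) (nat_lit 243))))))))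
noncomputable def xc10 : XT := (XT.nd (nat_lit 45162) (nat_lit 0) (nat_lit 0) (XT.nd (nat_lit 44304) (nat_lit 0) (nat_lit 76) (XT.nd (nat_lit 390) (nat_lit 0) (nat_lit 0) (XT.nd (nat_lit 156) (nat_lit 0) (nat_lit 0) (XT.nd (nat_lit 78) (nat_lit 0) (nat_lit 0) (XT.lf (nat_lit 0) (nat_lit 59490677844) (nat_lit 76) (nat_lit 309553357546) (nat_lit 76) (nat_lit 306976525167) (nat_lit 1) (nat_lit 4) (nat_lit 2) (nat_lit 5) (nat_lit 2) (nat_lit 4) (nat_lit 384) (nat_lit 274) (nat_lit 242)) (XT.lf (nat_lit 0) (nat_lit 69123913943) (nat_lit 76) (nat_lit 331723569232) (nat_lit 76) (nat_lit 329128959540) (nat_lit 1) (nat_lit 4) (nat_lit 2) (nat_lit 5) (nat_lit 2) (nat_lit 4) (nat_lit 385) (nat_lit 274) (nat_lit 241))) (XT.nd (nat_lit 78) (nat_lit 0) (nat_lit 0) (XT.lf (nat_lit 0) (nat_lit 79476917650) (nat_lit 76) (nat_lit 355692130551) (nat_lit 76) (nat_lit 353081060385) (nat_lit 1) (nat_lit 4) (nat_lit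 2) (nat_lit 5) (nat_lit 2) (nat_lit 4) (nat_lit 386) (nat_lit 274) (nat_lit 240)) (XT.nd (nat_lit 78) (nat_lit 0) (nat_lit 0) (XT.lf (nat_lit 0) (nat_lit 90611040099) (nat_lit 76) (nat_lit 381601077422) (nat_lit 76) (nat_lit 378974766077) (nat_lit 1) (nat_lit 4) (nat_lit 2) (nat_lit 5) (nat_lit 2) (nat_lit 4) (nat_lit 387) (nat_lit 274) (nat_lit 239)) (XT.lf (nat_lit 0) (nat_lit 102592261275) (nat_lit 76) (nat_lit 409603944346) (nat_lit 76) (nat_lit 406963520798) (nat_lit 1) (nat_lit 4) (nat_lit 2) (nat_lit 5) (nat_lit 2) (nat_lit 4) (nat_lit 388) (nat_lit 274) (nat_lit 238))))) (XT.nd (nat_lit 234) (nat_lit 0) (nat_lit 0) (XT.nd (nat_lit 78) (nat_lit 0) (nat_lit 0) (XT.lf (nat_lit 0) (nat_lit 115491581006) (nat_lit 76) (nat_lit 439866674237) (nat_lit 76) (nat_lit 437213183834) (nat_lit 1) (nat_lit 4) (nat_lit 2) (nat_lit 5) (nat_lit 2) (nat_lit 4) (nat_lit 389) (nat_lit 274) (nat_lit 237))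 (XT.nd (nat_lit 78) (nat_lit 0) (nat_lit 0) (XT.lf (nat_lit 0) (nat_lit 129385439707) (nat_lit 76) (nat_lit 472568601791) (nat_lit 76) (nat_lit 469903012449) (nat_lit 1) (nat_lit 4) (nat_lit 2) (nat_lit 5) (nat_lit 2) (nat_lit 4) (nat_lit 390) (nat_lit 274) (nat_lit 236)) (XT.lf (nat_lit 0) (nat_lit 144356171353) (nat_lit 76) (nat_lit 507903516209) (nat_lit 76) (nat_lit 505226724144) (nat_lit 1) (nat_lit 4) (nat_lit 2) (nat_lit 5) (nat_lit 2) (nat_lit 4) (nat_lit 391) (nat_lit 274) (nat_lit 235)))) (XT.nd (nat_lit 78) (nat_lit 0) (nat_lit 0) (XT.lf (nat_lit 0) (nat_lit 160492491393) (nat_lit 76) (nat_lit 546080809576) (nat_lit 76) (nat_lit 543393644620) (nat_lit 1) (nat_lit 4) (nat_lit 2) (nat_lit 5) (nat_lit 2) (nat_lit 4) (nat_lit 392) (nat_lit 274) (nat_lit 234)) (XT.nd (nat_lit 43524) (nat_lit 0) (nat_lit 228) (XT.lf (nat_lit 0) (nat_lit 177890022464) (nat_lit 76) (nat_lit 587326717704)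 (nat_lit 76) (nat_lit 584629948220) (nat_lit 1) (nat_lit 4) (nat_lit 2) (nat_lit 5) (nat_lit 2) (nat_lit 4) (nat_lit 393) (nat_lit 274) (nat_lit 233)) (XT.lf (nat_lit 0) (nat_lit 1862178183) (nat_lit 76) (nat_lit 12076688214) (nat_lit 76) (nat_lit 12076688214) (nat_lit 4) (nat_lit 4) (nat_lit 5) (nat_lit 5) (nat_lit 5) (nat_lit 4) (nat_lit 350) (nat_lit 275) (nat_lit 275)))))) (XT.nd (nat_lit 390) (nat_lit 152) (nat_lit 0) (XT.nd (nat_lit 156) (nat_lit 0) (nat_lit 0) (XT.nd (nat_lit 78) (nat_lit 0) (nat_lit 0) (XT.lf (nat_lit 0) (nat_lit 15985886862) (nat_lit 76) (nat_lit 20066452642) (nat_lit 76) (nat_lit 19829839251) (nat_lit 4) (nat_lit 4) (nat_lit 5) (nat_lit 5) (nat_lit 5) (nat_lit 4) (nat_lit 351) (nat_lit 275) (nat_lit 274)) (XT.lf (nat_lit 0) (nat_lit 28645024030) (nat_lit 76) (nat_lit 15933596870) (nat_lit 76) (nat_lit 15477897005) (nat_lit 4) (nat_lit 4) (nat_lit 5) (nat_lit 5)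 (nat_lit 5) (nat_lit 4) (nat_lit 352) (nat_lit 275) (nat_lit 273))) (XT.nd (nat_lit 78) (nat_lit 0) (nat_lit 0) (XT.lf (nat_lit 0) (nat_lit 41776784983) (nat_lit 76) (nat_lit 11730318114) (nat_lit 76) (nat_lit 11071760403) (nat_lit 4) (nat_lit 4) (nat_lit 5) (nat_lit 5) (nat_lit 5) (nat_lit 4) (nat_lit 353) (nat_lit 275) (nat_lit 272)) (XT.nd (nat_lit 78) (nat_lit 0) (nat_lit 0) (XT.lf (nat_lit 0) (nat_lit 55458987562) (nat_lit 76) (nat_lit 7431708058) (nat_lit 76) (nat_lit 6585319008) (nat_lit 4) (nat_lit 4) (nat_lit 5) (nat_lit 5) (nat_lit 5) (nat_lit 4) (nat_lit 354) (nat_lit 275) (nat_lit 271)) (XT.lf (nat_lit 0) (nat_lit 69772711487) (nat_lit 76) (nat_lit 3012293455) (nat_lit 76) (nat_lit 1991986499) (nat_lit 4) (nat_lit 4) (nat_lit 5) (nat_lit 5) (nat_lit 5) (nat_lit 4) (nat_lit 355) (nat_lit 275) (nat_lit 270))))) (XT.nd (nat_lit 234) (nat_lit 0) (nat_lit 0) (XT.nd (nat_lit 78) (nat_lit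 0) (nat_lit 0) (XT.lf (nat_lit 0) (nat_lit 2742490103) (nat_lit 152) (nat_lit 76146449946) (nat_lit 0) (nat_lit 1617402432) (nat_lit 2) (nat_lit 5) (nat_lit 4) (nat_lit 4) (nat_lit 2) (nat_lit 4) (nat_lit 356) (nat_lit 275) (nat_lit 269)) (XT.nd (nat_lit 78) (nat_lit 0) (nat_lit 0) (XT.lf (nat_lit 0) (nat_lit 7707443338) (nat_lit 152) (nat_lit 72548585645) (nat_lit 0) (nat_lit 6440349407) (nat_lit 2) (nat_lit 5) (nat_lit 4) (nat_lit 4) (nat_lit 2) (nat_lit 4) (nat_lit 357) (nat_lit 275) (nat_lit 268)) (XT.lf (nat_lit 0) (nat_lit 12866983439) (nat_lit 152) (nat_lit 69056403603) (nat_lit 0) (nat_lit 11468402230) (nat_lit 2) (nat_lit 5) (nat_lit 4) (nat_lit 4) (nat_lit 2) (nat_lit 4) (nat_lit 358) (nat_lit 275) (nat_lit 267)))) (XT.nd (nat_lit 78) (nat_lit 0) (nat_lit 0) (XT.lf (nat_lit 0) (nat_lit 18251685458) (nat_lit 152) (nat_lit 65649209409) (nat_lit 0) (nat_lit 16731356770) (nat_lit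 2) (nat_lit 5) (nat_lit 4) (nat_lit 4) (nat_lit 2) (nat_lit 4) (nat_lit 359) (nat_lit 275) (nat_lit 266)) (XT.nd (nat_lit 78) (nat_lit 0) (nat_lit 0) (XT.lf (nat_lit 0) (nat_lit 23893458741) (nat_lit 152) (nat_lit 62306812282) (nat_lit 0) (nat_lit 22260400906) (nat_lit 2) (nat_lit 5) (nat_lit 4) (nat_lit 4) (nat_lit 2) (nat_lit 4) (nat_lit 360) (nat_lit 275) (nat_lit 265)) (XT.lf (nat_lit 0) (nat_lit 29825736018) (nat_lit 152) (nat_lit 59009405424) (nat_lit 0) (nat_lit 28088299343) (nat_lit 2) (nat_lit 5) (nat_lit 4) (nat_lit 4) (nat_lit 2) (nat_lit 4) (nat_lit 361) (nat_lit 275) (nat_lit 264))))))) (XT.nd (nat_lit 858) (nat_lit 76) (nat_lit 0) (XT.nd (nat_lit 390) (nat_lit 0) (nat_lit 0) (XT.nd (nat_lit 156) (nat_lit 0) (nat_lit 0) (XT.nd (nat_lit 78) (nat_lit 0) (nat_lit 0) (XT.lf (nat_lit 0) (nat_lit 36083671525) (nat_lit 152) (nat_lit 55737448646) (nat_lit 0) (nat_lit 34249587776) (nat_lit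 2) (nat_lit 5) (nat_lit 4) (nat_lit 4) (nat_lit 2) (nat_lit 4) (nat_lit 362) (nat_lit 275) (nat_lit 263)) (XT.lf (nat_lit 0) (nat_lit 42704349324) (nat_lit 152) (nat_lit 52471552575) (nat_lit 0) (nat_lit 40780777544) (nat_lit 2) (nat_lit 5) (nat_lit 4) (nat_lit 4) (nat_lit 2) (nat_lit 4) (nat_lit 363) (nat_lit 275) (nat_lit 262))) (XT.nd (nat_lit 78) (nat_lit 0) (nat_lit 0) (XT.lf (nat_lit 0) (nat_lit 49727003062) (nat_lit 152) (nat_lit 49192363752) (nat_lit 0) (nat_lit 47720571993) (nat_lit 2) (nat_lit 5) (nat_lit 4) (nat_lit 4) (nat_lit 2) (nat_lit 4) (nat_lit 364) (nat_lit 275) (nat_lit 261)) (XT.nd (nat_lit 78) (nat_lit 0) (nat_lit 0) (XT.lf (nat_lit 0) (nat_lit 57193248464) (nat_lit 152) (nat_lit 45880449948) (nat_lit 0) (nat_lit 55110095832) (nat_lit 2) (nat_lit 5) (nat_lit 4) (nat_lit 4) (nat_lit 2) (nat_lit 4) (nat_lit 365) (nat_lit 275) (nat_lit 260)) (XT.lf (nat_lit 0) (nat_lit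 65147329948) (nat_lit 152) (nat_lit 42516185006) (nat_lit 0) (nat_lit 62993138831) (nat_lit 2) (nat_lit 5) (nat_lit 4) (nat_lit 4) (nat_lit 2) (nat_lit 4) (nat_lit 366) (nat_lit 275) (nat_lit 259))))) (XT.nd (nat_lit 234) (nat_lit 0) (nat_lit 0) (XT.nd (nat_lit 78) (nat_lit 0) (nat_lit 0) (XT.lf (nat_lit 0) (nat_lit 73636382811) (nat_lit 152) (nat_lit 39079632543) (nat_lit 0) (nat_lit 71416415319) (nat_lit 2) (nat_lit 5) (nat_lit 4) (nat_lit 4) (nat_lit 2) (nat_lit 4) (nat_lit 367) (nat_lit 275) (nat_lit 258)) (XT.nd (nat_lit 78) (nat_lit 0) (nat_lit 0) (XT.lf (nat_lit 0) (nat_lit 82710712552) (nat_lit 152) (nat_lit 35550427801) (nat_lit 0) (nat_lit 80429841009) (nat_lit 2) (nat_lit 5) (nat_lit 4) (nat_lit 4) (nat_lit 2) (nat_lit 4) (nat_lit 368) (nat_lit 275) (nat_lit 257)) (XT.lf (nat_lit 0) (nat_lit 92424092976) (nat_lit 152) (nat_lit 31907656977) (nat_lit 0) (nat_lit 90086828793) (nat_lit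 2) (nat_lit 5) (nat_lit 4) (nat_lit 4) (nat_lit 2) (nat_lit 4) (nat_lit 369) (nat_lit 275) (nat_lit 256)))) (XT.nd (nat_lit 78) (nat_lit 0) (nat_lit 0) (XT.lf (nat_lit 0) (nat_lit 102834084856) (nat_lit 152) (nat_lit 28129733279) (nat_lit 0) (nat_lit 100444605267) (nat_lit 2) (nat_lit 5) (nat_lit 4) (nat_lit 4) (nat_lit 2) (nat_lit 4) (nat_lit 370) (nat_lit 275) (nat_lit 255)) (XT.nd (nat_lit 78) (nat_lit 0) (nat_lit 0) (XT.lf (nat_lit 0) (nat_lit 114002377034) (nat_lit 152) (nat_lit 24194269011) (nat_lit 0) (nat_lit 111564549846) (nat_lit 2) (nat_lit 5) (nat_lit 4) (nat_lit 4) (nat_lit 2) (nat_lit 4) (nat_lit 371) (nat_lit 275) (nat_lit 254)) (XT.lf (nat_lit 0) (nat_lit 125995151981) (nat_lit 152) (nat_lit 20077942904) (nat_lit 0) (nat_lit 123512558498) (nat_lit 2) (nat_lit 5) (nat_lit 4) (nat_lit 4) (nat_lit 2) (nat_lit 4) (nat_lit 372) (nat_lit 275) (nat_lit 253)))))) (XT.nd (nat_lit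 468) (nat_lit 0) (nat_lit 0) (XT.nd (nat_lit 234) (nat_lit 76) (nat_lit 0) (XT.nd (nat_lit 78) (nat_lit 0) (nat_lit 0) (XT.lf (nat_lit 0) (nat_lit 138883477994) (nat_lit 152) (nat_lit 15756361915) (nat_lit 0) (nat_lit 136359434237) (nat_lit 2) (nat_lit 5) (nat_lit 4) (nat_lit 4) (nat_lit 2) (nat_lit 4) (nat_lit 373) (nat_lit 275) (nat_lit 252)) (XT.nd (nat_lit 78) (nat_lit 0) (nat_lit 0) (XT.lf (nat_lit 0) (nat_lit 152743730337) (nat_lit 152) (nat_lit 11203916673) (nat_lit 0) (nat_lit 150181306697) (nat_lit 2) (nat_lit 5) (nat_lit 4) (nat_lit 4) (nat_lit 2) (nat_lit 4) (nat_lit 374) (nat_lit 275) (nat_lit 251)) (XT.lf (nat_lit 0) (nat_lit 167658043840) (nat_lit 152) (nat_lit 6393629727) (nat_lit 0) (nat_lit 165060083271) (nat_lit 2) (nat_lit 5) (nat_lit 4) (nat_lit 4) (nat_lit 2) (nat_lit 4) (nat_lit 375) (nat_lit 275) (nat_lit 250)))) (XT.nd (nat_lit 78) (nat_lit 76) (nat_lit 0) (XT.lf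 (nat_lit 0) (nat_lit 183714799618) (nat_lit 152) (nat_lit 1296995672) (nat_lit 0) (nat_lit 181083934486) (nat_lit 2) (nat_lit 5) (nat_lit 4) (nat_lit 4) (nat_lit 2) (nat_lit 4) (nat_lit 376) (nat_lit 275) (nat_lit 249)) (XT.nd (nat_lit 78) (nat_lit 0) (nat_lit 0) (XT.lf (nat_lit 0) (nat_lit 4252287524) (nat_lit 76) (nat_lit 196823251420) (nat_lit 76) (nat_lit 194161919099) (nat_lit 1) (nat_lit 4) (nat_lit 2) (nat_lit 5) (nat_lit 2) (nat_lit 4) (nat_lit 377) (nat_lit 275) (nat_lit 248)) (XT.lf (nat_lit 0) (nat_lit 10204609964) (nat_lit 76) (nat_lit 209598289068) (nat_lit 76) (nat_lit 206908746388) (nat_lit 1) (nat_lit 4) (nat_lit 2) (nat_lit 5) (nat_lit 2) (nat_lit 4) (nat_lit 378) (nat_lit 275) (nat_lit 247))))) (XT.nd (nat_lit 234) (nat_lit 0) (nat_lit 0) (XT.nd (nat_lit 78) (nat_lit 0) (nat_lit 0) (XT.lf (nat_lit 0) (nat_lit 16552360135) (nat_lit 76) (nat_lit 223434577414) (nat_lit 76)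 (nat_lit 220718914030) (nat_lit 1) (nat_lit 4) (nat_lit 2) (nat_lit 5) (nat_lit 2) (nat_lit 4) (nat_lit 379) (nat_lit 275) (nat_lit 246)) (XT.nd (nat_lit 78) (nat_lit 0) (nat_lit 0) (XT.lf (nat_lit 0) (nat_lit 23333154334) (nat_lit 76) (nat_lit 238414109275) (nat_lit 76) (nat_lit 235674260055) (nat_lit 1) (nat_lit 4) (nat_lit 2) (nat_lit 5) (nat_lit 2) (nat_lit 4) (nat_lit 380) (nat_lit 275) (nat_lit 245)) (XT.lf (nat_lit 0) (nat_lit 30587175046) (nat_lit 76) (nat_lit 254625652249) (nat_lit 76) (nat_lit 251863408735) (nat_lit 1) (nat_lit 4) (nat_lit 2) (nat_lit 5) (nat_lit 2) (nat_lit 4) (nat_lit 381) (nat_lit 275) (nat_lit 244)))) (XT.nd (nat_lit 78) (nat_lit 0) (nat_lit 0) (XT.lf (nat_lit 0) (nat_lit 38357409059) (nat_lit 76) (nat_lit 272165274737) (nat_lit 76) (nat_lit 269382295767) (nat_lit 1) (nat_lit 4) (nat_lit 2) (nat_lit 5) (nat_lit 2) (nat_lit 4) (nat_lit 382) (nat_lit 275) (nat_lit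 243)) (XT.nd (nat_lit 78) (nat_lit 0) (nat_lit 0) (XT.lf (nat_lit 0) (nat_lit 46689902204) (nat_lit 76) (nat_lit 291136915245) (nat_lit 76) (nat_lit 288334736778) (nat_lit 1) (nat_lit 4) (nat_lit 2) (nat_lit 5) (nat_lit 2) (nat_lit 4) (nat_lit 383) (nat_lit 275) (nat_lit 242)) (XT.lf (nat_lit 0) (nat_lit 55634032220) (nat_lit 76) (nat_lit 311652998307) (nat_lit 76) (nat_lit 308833042528) (nat_lit 1) (nat_lit 4) (nat_lit 2) (nat_lit 5) (nat_lit 2) (nat_lit 4) (nat_lit 384) (nat_lit 275) (nat_lit 241))))))))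
noncomputable def xc11 : XT := (XT.nd (nat_lit 45162) (nat_lit 0) (nat_lit 0) (XT.nd (nat_lit 44226) (nat_lit 0) (nat_lit 76) (XT.nd (nat_lit 390) (nat_lit 0) (nat_lit 0) (XT.nd (nat_lit 156) (nat_lit 0) (nat_lit 0) (XT.nd (nat_lit 78) (nat_lit 0) (nat_lit 0) (XT.lf (nat_lit 0) (nat_lit 65242801358) (nat_lit 76) (nat_lit 333835100713) (nat_lit 76) (nat_lit 330998684461) (nat_lit 1) (nat_lit 4) (nat_lit 2) (nat_lit 5) (nat_lit 2) (nat_lit 4) (nat_lit 385) (nat_lit 275) (nat_lit 240)) (XT.lf (nat_lit 0) (nat_lit 75573150471) (nat_lit 76) (nat_lit 357814671958) (nat_lit 76) (nat_lit 354963014526) (nat_lit 1) (nat_lit 4) (nat_lit 2) (nat_lit 5) (nat_lit 2) (nat_lit 4) (nat_lit 386) (nat_lit 275) (nat_lit 239))) (XT.nd (nat_lit 78) (nat_lit 0) (nat_lit 0) (XT.lf (nat_lit 0) (nat_lit 86686296445) (nat_lit 76) (nat_lit 383733813206) (nat_lit 76) (nat_lit 380868043571) (nat_lit 1) (nat_lit 4) (nat_lit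 2) (nat_lit 5) (nat_lit 2) (nat_lit 4) (nat_lit 387) (nat_lit 275) (nat_lit 238)) (XT.nd (nat_lit 78) (nat_lit 0) (nat_lit 0) (XT.lf (nat_lit 0) (nat_lit 98648094958) (nat_lit 76) (nat_lit 411746119367) (nat_lit 76) (nat_lit 408867282877) (nat_lit 1) (nat_lit 4) (nat_lit 2) (nat_lit 5) (nat_lit 2) (nat_lit 4) (nat_lit 388) (nat_lit 275) (nat_lit 237)) (XT.lf (nat_lit 0) (nat_lit 111529430742) (nat_lit 76) (nat_lit 442017589293) (nat_lit 76) (nat_lit 439126653863) (nat_lit 1) (nat_lit 4) (nat_lit 2) (nat_lit 5) (nat_lit 2) (nat_lit 4) (nat_lit 389) (nat_lit 275) (nat_lit 236))))) (XT.nd (nat_lit 43602) (nat_lit 0) (nat_lit 228) (XT.nd (nat_lit 78) (nat_lit 0) (nat_lit 0) (XT.lf (nat_lit 0) (nat_lit 125406637640) (nat_lit 76) (nat_lit 474727609472) (nat_lit 76) (nat_lit 471825471320) (nat_lit 1) (nat_lit 4) (nat_lit 2) (nat_lit 5) (nat_lit 2) (nat_lit 4) (nat_lit 390) (nat_lit 275) (nat_lit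 235)) (XT.nd (nat_lit 78) (nat_lit 0) (nat_lit 0) (XT.lf (nat_lit 0) (nat_lit 140361950951) (nat_lit 76) (nat_lit 510070017060) (nat_lit 76) (nat_lit 507157506017) (nat_lit 1) (nat_lit 4) (nat_lit 2) (nat_lit 5) (nat_lit 2) (nat_lit 4) (nat_lit 391) (nat_lit 275) (nat_lit 234)) (XT.lf (nat_lit 0) (nat_lit 156483994754) (nat_lit 76) (nat_lit 548254248548) (nat_lit 76) (nat_lit 545332132977) (nat_lit 1) (nat_lit 4) (nat_lit 2) (nat_lit 5) (nat_lit 2) (nat_lit 4) (nat_lit 392) (nat_lit 275) (nat_lit 233)))) (XT.nd (nat_lit 78) (nat_lit 76) (nat_lit 0) (XT.lf (nat_lit 0) (nat_lit 6561067473) (nat_lit 152) (nat_lit 9470607517) (nat_lit 0) (nat_lit 6561067473) (nat_lit 5) (nat_lit 5) (nat_lit 7) (nat_lit 4) (nat_lit 5) (nat_lit 4) (nat_lit 348) (nat_lit 276) (nat_lit 276)) (XT.nd (nat_lit 78) (nat_lit 76) (nat_lit 0) (XT.lf (nat_lit 0) (nat_lit 20390117027) (nat_lit 152) (nat_lit 7949385778)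 (nat_lit 0) (nat_lit 20134574564) (nat_lit 5) (nat_lit 5) (nat_lit 7) (nat_lit 4) (nat_lit 5) (nat_lit 4) (nat_lit 349) (nat_lit 276) (nat_lit 275)) (XT.lf (nat_lit 0) (nat_lit 3421480874) (nat_lit 76) (nat_lit 24554834118) (nat_lit 76) (nat_lit 24062678264) (nat_lit 4) (nat_lit 4) (nat_lit 5) (nat_lit 5) (nat_lit 5) (nat_lit 4) (nat_lit 350) (nat_lit 276) (nat_lit 274)))))) (XT.nd (nat_lit 468) (nat_lit 0) (nat_lit 0) (XT.nd (nat_lit 234) (nat_lit 152) (nat_lit 0) (XT.nd (nat_lit 78) (nat_lit 0) (nat_lit 0) (XT.lf (nat_lit 0) (nat_lit 15402571097) (nat_lit 76) (nat_lit 20603017022) (nat_lit 76) (nat_lit 19891774694) (nat_lit 4) (nat_lit 4) (nat_lit 5) (nat_lit 5) (nat_lit 5) (nat_lit 4) (nat_lit 351) (nat_lit 276) (nat_lit 273)) (XT.nd (nat_lit 78) (nat_lit 0) (nat_lit 0) (XT.lf (nat_lit 0) (nat_lit 27802041348) (nat_lit 76) (nat_lit 16595260038) (nat_lit 76) (nat_lit 15681159864) (nat_lit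 4) (nat_lit 4) (nat_lit 5) (nat_lit 5) (nat_lit 5) (nat_lit 4) (nat_lit 352) (nat_lit 276) (nat_lit 272)) (XT.lf (nat_lit 0) (nat_lit 40693369969) (nat_lit 76) (nat_lit 12507813494) (nat_lit 76) (nat_lit 11405881981) (nat_lit 4) (nat_lit 4) (nat_lit 5) (nat_lit 5) (nat_lit 5) (nat_lit 4) (nat_lit 353) (nat_lit 276) (nat_lit 271)))) (XT.nd (nat_lit 78) (nat_lit 152) (nat_lit 0) (XT.lf (nat_lit 0) (nat_lit 54152950019) (nat_lit 76) (nat_lit 8316455484) (nat_lit 76) (nat_lit 7040606065) (nat_lit 4) (nat_lit 4) (nat_lit 5) (nat_lit 5) (nat_lit 5) (nat_lit 4) (nat_lit 354) (nat_lit 276) (nat_lit 270)) (XT.nd (nat_lit 78) (nat_lit 152) (nat_lit 0) (XT.lf (nat_lit 0) (nat_lit 68260541972) (nat_lit 76) (nat_lit 3996348333) (nat_lit 76) (nat_lit 2559463815) (nat_lit 4) (nat_lit 4) (nat_lit 5) (nat_lit 5) (nat_lit 5) (nat_lit 4) (nat_lit 355) (nat_lit 276) (nat_lit 269)) (XT.lf (nat_lit 0) (nat_lit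 2047175766) (nat_lit 152) (nat_lit 77969585937) (nat_lit 0) (nat_lit 536708061) (nat_lit 2) (nat_lit 5) (nat_lit 4) (nat_lit 4) (nat_lit 2) (nat_lit 4) (nat_lit 356) (nat_lit 276) (nat_lit 268))))) (XT.nd (nat_lit 234) (nat_lit 0) (nat_lit 0) (XT.nd (nat_lit 78) (nat_lit 0) (nat_lit 0) (XT.lf (nat_lit 0) (nat_lit 6914720638) (nat_lit 152) (nat_lit 74560909811) (nat_lit 0) (nat_lit 5272765656) (nat_lit 2) (nat_lit 5) (nat_lit 4) (nat_lit 4) (nat_lit 2) (nat_lit 4) (nat_lit 357) (nat_lit 276) (nat_lit 267)) (XT.nd (nat_lit 78) (nat_lit 0) (nat_lit 0) (XT.lf (nat_lit 0) (nat_lit 11984067811) (nat_lit 152) (nat_lit 71243902006) (nat_lit 0) (nat_lit 10220365350) (nat_lit 2) (nat_lit 5) (nat_lit 4) (nat_lit 4) (nat_lit 2) (nat_lit 4) (nat_lit 358) (nat_lit 276) (nat_lit 266)) (XT.lf (nat_lit 0) (nat_lit 17285257860) (nat_lit 152) (nat_lit 67998906178) (nat_lit 0) (nat_lit 15408826252) (nat_lit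 2) (nat_lit 5) (nat_lit 4) (nat_lit 4) (nat_lit 2) (nat_lit 4) (nat_lit 359) (nat_lit 276) (nat_lit 265)))) (XT.nd (nat_lit 78) (nat_lit 0) (nat_lit 0) (XT.lf (nat_lit 0) (nat_lit 22849705245) (nat_lit 152) (nat_lit 64806692723) (nat_lit 0) (nat_lit 20868894796) (nat_lit 2) (nat_lit 5) (nat_lit 4) (nat_lit 4) (nat_lit 2) (nat_lit 4) (nat_lit 360) (nat_lit 276) (nat_lit 264)) (XT.nd (nat_lit 78) (nat_lit 0) (nat_lit 0) (XT.lf (nat_lit 0) (nat_lit 28710384468) (nat_lit 152) (nat_lit 61648344821) (nat_lit 0) (nat_lit 26632926945) (nat_lit 2) (nat_lit 5) (nat_lit 4) (nat_lit 4) (nat_lit 2) (nat_lit 4) (nat_lit 361) (nat_lit 276) (nat_lit 263)) (XT.lf (nat_lit 0) (nat_lit 34902025481) (nat_lit 152) (nat_lit 58505146336) (nat_lit 0) (nat_lit 32735079926) (nat_lit 2) (nat_lit 5) (nat_lit 4) (nat_lit 4) (nat_lit 2) (nat_lit 4) (nat_lit 362) (nat_lit 276) (nat_lit 262))))))) (XT.nd (nat_lit 858)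 (nat_lit 76) (nat_lit 0) (XT.nd (nat_lit 390) (nat_lit 0) (nat_lit 0) (XT.nd (nat_lit 156) (nat_lit 0) (nat_lit 0) (XT.nd (nat_lit 78) (nat_lit 0) (nat_lit 0) (XT.lf (nat_lit 0) (nat_lit 41461319489) (nat_lit 152) (nat_lit 55358470906) (nat_lit 0) (nat_lit 39211514646) (nat_lit 2) (nat_lit 5) (nat_lit 4) (nat_lit 4) (nat_lit 2) (nat_lit 4) (nat_lit 363) (nat_lit 276) (nat_lit 261)) (XT.lf (nat_lit 0) (nat_lit 48427136383) (nat_lit 152) (nat_lit 52189671567) (nat_lit 0) (nat_lit 46100609977) (nat_lit 2) (nat_lit 5) (nat_lit 4) (nat_lit 4) (nat_lit 2) (nat_lit 4) (nat_lit 364) (nat_lit 276) (nat_lit 260))) (XT.nd (nat_lit 78) (nat_lit 0) (nat_lit 0) (XT.lf (nat_lit 0) (nat_lit 55840755079) (nat_lit 152) (nat_lit 48979970247) (nat_lit 0) (nat_lit 53443190187) (nat_lit 2) (nat_lit 5) (nat_lit 4) (nat_lit 4) (nat_lit 2) (nat_lit 4) (nat_lit 365) (nat_lit 276) (nat_lit 259)) (XT.nd (nat_lit 78)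 (nat_lit 0) (nat_lit 0) (XT.lf (nat_lit 0) (nat_lit 63746108130) (nat_lit 152) (nat_lit 45710346494) (nat_lit 0) (nat_lit 61282766864) (nat_lit 2) (nat_lit 5) (nat_lit 4) (nat_lit 4) (nat_lit 2) (nat_lit 4) (nat_lit 366) (nat_lit 276) (nat_lit 258)) (XT.lf (nat_lit 0) (nat_lit 72190042074) (nat_lit 152) (nat_lit 42361424761) (nat_lit 0) (nat_lit 69665796757) (nat_lit 2) (nat_lit 5) (nat_lit 4) (nat_lit 4) (nat_lit 2) (nat_lit 4) (nat_lit 367) (nat_lit 276) (nat_lit 257))))) (XT.nd (nat_lit 234) (nat_lit 0) (nat_lit 0) (XT.nd (nat_lit 78) (nat_lit 0) (nat_lit 0) (XT.lf (nat_lit 0) (nat_lit 81222595038) (nat_lit 152) (nat_lit 38913359585) (nat_lit 0) (nat_lit 78641957081) (nat_lit 2) (nat_lit 5) (nat_lit 4) (nat_lit 4) (nat_lit 2) (nat_lit 4) (nat_lit 368) (nat_lit 276) (nat_lit 256)) (XT.nd (nat_lit 78) (nat_lit 0) (nat_lit 0) (XT.lf (nat_lit 0) (nat_lit 90897293261) (nat_lit 152) (nat_lit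 35345717988) (nat_lit 0) (nat_lit 88264439898) (nat_lit 2) (nat_lit 5) (nat_lit 4) (nat_lit 4) (nat_lit 2) (nat_lit 4) (nat_lit 369) (nat_lit 276) (nat_lit 255)) (XT.lf (nat_lit 0) (nat_lit 101271468289) (nat_lit 152) (nat_lit 31637358389) (nat_lit 0) (nat_lit 98590267327) (nat_lit 2) (nat_lit 5) (nat_lit 4) (nat_lit 4) (nat_lit 2) (nat_lit 4) (nat_lit 370) (nat_lit 276) (nat_lit 254)))) (XT.nd (nat_lit 78) (nat_lit 0) (nat_lit 0) (XT.lf (nat_lit 0) (nat_lit 112406596715) (nat_lit 152) (nat_lit 27766305324) (nat_lit 0) (nat_lit 109680629457) (nat_lit 2) (nat_lit 5) (nat_lit 4) (nat_lit 4) (nat_lit 2) (nat_lit 4) (nat_lit 371) (nat_lit 276) (nat_lit 253)) (XT.nd (nat_lit 78) (nat_lit 0) (nat_lit 0) (XT.lf (nat_lit 0) (nat_lit 124368664484) (nat_lit 152) (nat_lit 23709619220) (nat_lit 0) (nat_lit 121601246952) (nat_lit 2) (nat_lit 5) (nat_lit 4) (nat_lit 4) (nat_lit 2) (nat_lit 4) (nat_lit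 372) (nat_lit 276) (nat_lit 252)) (XT.lf (nat_lit 0) (nat_lit 137228557924) (nat_lit 152) (nat_lit 19443260455) (nat_lit 0) (nat_lit 134422760510) (nat_lit 2) (nat_lit 5) (nat_lit 4) (nat_lit 4) (nat_lit 2) (nat_lit 4) (nat_lit 373) (nat_lit 276) (nat_lit 251)))))) (XT.nd (nat_lit 468) (nat_lit 0) (nat_lit 0) (XT.nd (nat_lit 234) (nat_lit 76) (nat_lit 0) (XT.nd (nat_lit 78) (nat_lit 0) (nat_lit 0) (XT.lf (nat_lit 0) (nat_lit 151062483811) (nat_lit 152) (nat_lit 14941946903) (nat_lit 0) (nat_lit 148221149468) (nat_lit 2) (nat_lit 5) (nat_lit 4) (nat_lit 4) (nat_lit 2) (nat_lit 4) (nat_lit 374) (nat_lit 276) (nat_lit 250)) (XT.nd (nat_lit 78) (nat_lit 0) (nat_lit 0) (XT.lf (nat_lit 0) (nat_lit 165952420966) (nat_lit 152) (nat_lit 10179004114) (nat_lit 0) (nat_lit 163078182059) (nat_lit 2) (nat_lit 5) (nat_lit 4) (nat_lit 4) (nat_lit 2) (nat_lit 4) (nat_lit 375) (nat_lit 276) (nat_lit 249))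 (XT.lf (nat_lit 0) (nat_lit 181986606052) (nat_lit 152) (nat_lit 5126207242) (nat_lit 0) (nat_lit 179081899957) (nat_lit 2) (nat_lit 5) (nat_lit 4) (nat_lit 4) (nat_lit 2) (nat_lit 4) (nat_lit 376) (nat_lit 276) (nat_lit 248)))) (XT.nd (nat_lit 78) (nat_lit 0) (nat_lit 0) (XT.lf (nat_lit 0) (nat_lit 254532855) (nat_lit 76) (nat_lit 199009497579) (nat_lit 76) (nat_lit 196076581124) (nat_lit 1) (nat_lit 4) (nat_lit 2) (nat_lit 5) (nat_lit 2) (nat_lit 4) (nat_lit 377) (nat_lit 276) (nat_lit 247)) (XT.nd (nat_lit 78) (nat_lit 0) (nat_lit 0) (XT.lf (nat_lit 0) (nat_lit 6168029302) (nat_lit 76) (nat_lit 211803404307) (nat_lit 76) (nat_lit 208844367149) (nat_lit 1) (nat_lit 4) (nat_lit 2) (nat_lit 5) (nat_lit 2) (nat_lit 4) (nat_lit 378) (nat_lit 276) (nat_lit 246)) (XT.lf (nat_lit 0) (nat_lit 12479829480) (nat_lit 76) (nat_lit 225657164022) (nat_lit 76) (nat_lit 222673941027) (nat_lit 1) (nat_lit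 4) (nat_lit 2) (nat_lit 5) (nat_lit 2) (nat_lit 4) (nat_lit 379) (nat_lit 276) (nat_lit 245))))) (XT.nd (nat_lit 234) (nat_lit 0) (nat_lit 0) (XT.nd (nat_lit 78) (nat_lit 0) (nat_lit 0) (XT.lf (nat_lit 0) (nat_lit 19227336649) (nat_lit 76) (nat_lit 240652873077) (nat_lit 76) (nat_lit 237647255789) (nat_lit 1) (nat_lit 4) (nat_lit 2) (nat_lit 5) (nat_lit 2) (nat_lit 4) (nat_lit 380) (nat_lit 276) (nat_lit 244)) (XT.nd (nat_lit 78) (nat_lit 0) (nat_lit 0) (XT.lf (nat_lit 0) (nat_lit 26450536035) (nat_lit 76) (nat_lit 256879394934) (nat_lit 76) (nat_lit 253853042190) (nat_lit 1) (nat_lit 4) (nat_lit 2) (nat_lit 5) (nat_lit 2) (nat_lit 4) (nat_lit 381) (nat_lit 276) (nat_lit 243)) (XT.lf (nat_lit 0) (nat_lit 34192231785) (nat_lit 76) (nat_lit 274432886759) (nat_lit 76) (nat_lit 271387334518) (nat_lit 1) (nat_lit 4) (nat_lit 2) (nat_lit 5) (nat_lit 2) (nat_lit 4) (nat_lit 382) (nat_lit 276)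 (nat_lit 242)))) (XT.nd (nat_lit 78) (nat_lit 0) (nat_lit 0) (XT.lf (nat_lit 0) (nat_lit 42498300613) (nat_lit 76) (nat_lit 293417369244) (nat_lit 76) (nat_lit 290354039692) (nat_lit 1) (nat_lit 4) (nat_lit 2) (nat_lit 5) (nat_lit 2) (nat_lit 4) (nat_lit 383) (nat_lit 276) (nat_lit 241)) (XT.nd (nat_lit 78) (nat_lit 0) (nat_lit 0) (XT.lf (nat_lit 0) (nat_lit 51417963667) (nat_lit 76) (nat_lit 313945343027) (nat_lit 76) (nat_lit 310865553001) (nat_lit 1) (nat_lit 4) (nat_lit 2) (nat_lit 5) (nat_lit 2) (nat_lit 4) (nat_lit 384) (nat_lit 276) (nat_lit 240)) (XT.lf (nat_lit 0) (nat_lit 61004078211) (nat_lit 76) (nat_lit 336138455360) (nat_lit 76) (nat_lit 333043424153) (nat_lit 1) (nat_lit 4) (nat_lit 2) (nat_lit 5) (nat_lit 2) (nat_lit 4) (nat_lit 385) (nat_lit 276) (nat_lit 239))))))))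
noncomputable def xc12 : XT := (XT.nd (nat_lit 44928) (nat_lit 0) (nat_lit 0) (XT.nd (nat_lit 44070) (nat_lit 0) (nat_lit 76) (XT.nd (nat_lit 390) (nat_lit 0) (nat_lit 0) (XT.nd (nat_lit 156) (nat_lit 0) (nat_lit 0) (XT.nd (nat_lit 78) (nat_lit 0) (nat_lit 0) (XT.lf (nat_lit 0) (nat_lit 71313450849) (nat_lit 76) (nat_lit 360128220981) (nat_lit 76) (nat_lit 357019077572) (nat_lit 1) (nat_lit 4) (nat_lit 2) (nat_lit 5) (nat_lit 2) (nat_lit 4) (nat_lit 386) (nat_lit 276) (nat_lit 238)) (XT.lf (nat_lit 0) (nat_lit 82407174160) (nat_lit 76) (nat_lit 386056801466) (nat_lit 76) (nat_lit 382934591202) (nat_lit 1) (nat_lit 4) (nat_lit 2) (nat_lit 5) (nat_lit 2) (nat_lit 4) (nat_lit 387) (nat_lit 276) (nat_lit 237))) (XT.nd (nat_lit 78) (nat_lit 0) (nat_lit 0) (XT.lf (nat_lit 0) (nat_lit 94350988726) (nat_lit 76) (nat_lit 414077847662) (nat_lit 76) (nat_lit 410943538458) (nat_lit 1) (nat_lit 4) (nat_lit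 2) (nat_lit 5) (nat_lit 2) (nat_lit 4) (nat_lit 388) (nat_lit 276) (nat_lit 236)) (XT.nd (nat_lit 78) (nat_lit 0) (nat_lit 0) (XT.lf (nat_lit 0) (nat_lit 107215672708) (nat_lit 76) (nat_lit 444357410212) (nat_lit 76) (nat_lit 441211898286) (nat_lit 1) (nat_lit 4) (nat_lit 2) (nat_lit 5) (nat_lit 2) (nat_lit 4) (nat_lit 389) (nat_lit 276) (nat_lit 235)) (XT.lf (nat_lit 0) (nat_lit 121077461269) (nat_lit 76) (nat_lit 477074923562) (nat_lit 76) (nat_lit 473919038745) (nat_lit 1) (nat_lit 4) (nat_lit 2) (nat_lit 5) (nat_lit 2) (nat_lit 4) (nat_lit 390) (nat_lit 276) (nat_lit 234))))) (XT.nd (nat_lit 43446) (nat_lit 0) (nat_lit 304) (XT.nd (nat_lit 78) (nat_lit 0) (nat_lit 0) (XT.lf (nat_lit 0) (nat_lit 136018498344) (nat_lit 76) (nat_lit 512424269271) (nat_lit 76) (nat_lit 509258779926) (nat_lit 1) (nat_lit 4) (nat_lit 2) (nat_lit 5) (nat_lit 2) (nat_lit 4) (nat_lit 391) (nat_lit 276) (nat_lit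 233)) (XT.nd (nat_lit 43290) (nat_lit 0) (nat_lit 456) (XT.lf (nat_lit 0) (nat_lit 152127323409) (nat_lit 76) (nat_lit 550614924945) (nat_lit 76) (nat_lit 547440542518) (nat_lit 1) (nat_lit 4) (nat_lit 2) (nat_lit 5) (nat_lit 2) (nat_lit 4) (nat_lit 392) (nat_lit 276) (nat_lit 232)) (XT.lf (nat_lit 0) (nat_lit 19348023572) (nat_lit 76) (nat_lit 165710290) (nat_lit 76) (nat_lit 165710290) (nat_lit 7) (nat_lit 4) (nat_lit 8) (nat_lit 5) (nat_lit 8) (nat_lit 4) (nat_lit 346) (nat_lit 277) (nat_lit 277)))) (XT.nd (nat_lit 78) (nat_lit 0) (nat_lit 0) (XT.lf (nat_lit 0) (nat_lit 6351866184) (nat_lit 152) (nat_lit 29728652415) (nat_lit 0) (nat_lit 6075880324) (nat_lit 5) (nat_lit 5) (nat_lit 7) (nat_lit 4) (nat_lit 5) (nat_lit 4) (nat_lit 347) (nat_lit 277) (nat_lit 276)) (XT.nd (nat_lit 78) (nat_lit 0) (nat_lit 0) (XT.lf (nat_lit 0) (nat_lit 13233710753) (nat_lit 152) (nat_lit 19257851147) (nat_lit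 0) (nat_lit 12702182430) (nat_lit 5) (nat_lit 5) (nat_lit 7) (nat_lit 4) (nat_lit 5) (nat_lit 4) (nat_lit 348) (nat_lit 277) (nat_lit 275)) (XT.lf (nat_lit 0) (nat_lit 20349461301) (nat_lit 152) (nat_lit 8559203477) (nat_lit 0) (nat_lit 19581319587) (nat_lit 5) (nat_lit 5) (nat_lit 7) (nat_lit 4) (nat_lit 5) (nat_lit 4) (nat_lit 349) (nat_lit 277) (nat_lit 274)))))) (XT.nd (nat_lit 390) (nat_lit 152) (nat_lit 0) (XT.nd (nat_lit 156) (nat_lit 0) (nat_lit 0) (XT.nd (nat_lit 78) (nat_lit 0) (nat_lit 0) (XT.lf (nat_lit 0) (nat_lit 2511059577) (nat_lit 76) (nat_lit 25269430340) (nat_lit 76) (nat_lit 24282202152) (nat_lit 4) (nat_lit 4) (nat_lit 5) (nat_lit 5) (nat_lit 5) (nat_lit 4) (nat_lit 350) (nat_lit 277) (nat_lit 273)) (XT.lf (nat_lit 0) (nat_lit 14232482881) (nat_lit 76) (nat_lit 21442712032) (nat_lit 76) (nat_lit 20252625998) (nat_lit 4) (nat_lit 4) (nat_lit 5) (nat_lit 5) (nat_lit 5)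 (nat_lit 4) (nat_lit 351) (nat_lit 277) (nat_lit 272))) (XT.nd (nat_lit 78) (nat_lit 0) (nat_lit 0) (XT.lf (nat_lit 0) (nat_lit 26391520800) (nat_lit 76) (nat_lit 17550787258) (nat_lit 76) (nat_lit 16172869886) (nat_lit 4) (nat_lit 4) (nat_lit 5) (nat_lit 5) (nat_lit 5) (nat_lit 4) (nat_lit 352) (nat_lit 277) (nat_lit 271)) (XT.nd (nat_lit 78) (nat_lit 0) (nat_lit 0) (XT.lf (nat_lit 0) (nat_lit 39060226892) (nat_lit 76) (nat_lit 13570592761) (nat_lit 76) (nat_lit 12018757483) (nat_lit 4) (nat_lit 4) (nat_lit 5) (nat_lit 5) (nat_lit 5) (nat_lit 4) (nat_lit 353) (nat_lit 277) (nat_lit 270)) (XT.lf (nat_lit 0) (nat_lit 52313674971) (nat_lit 76) (nat_lit 9478542203) (nat_lit 76) (nat_lit 7765671826) (nat_lit 4) (nat_lit 4) (nat_lit 5) (nat_lit 5) (nat_lit 5) (nat_lit 4) (nat_lit 354) (nat_lit 277) (nat_lit 269))))) (XT.nd (nat_lit 234) (nat_lit 0) (nat_lit 0) (XT.nd (nat_lit 78) (nat_lit 152)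 (nat_lit 0) (XT.lf (nat_lit 0) (nat_lit 66230403987) (nat_lit 76) (nat_lit 5250386395) (nat_lit 76) (nat_lit 3388409445) (nat_lit 4) (nat_lit 4) (nat_lit 5) (nat_lit 5) (nat_lit 5) (nat_lit 4) (nat_lit 355) (nat_lit 277) (nat_lit 268)) (XT.nd (nat_lit 78) (nat_lit 0) (nat_lit 0) (XT.lf (nat_lit 0) (nat_lit 268717532) (nat_lit 76) (nat_lit 837992771) (nat_lit 152) (nat_lit 79507174855) (nat_lit 2) (nat_lit 5) (nat_lit 3) (nat_lit 5) (nat_lit 4) (nat_lit 4) (nat_lit 356) (nat_lit 277) (nat_lit 267)) (XT.lf (nat_lit 0) (nat_lit 5870978833) (nat_lit 152) (nat_lit 77098582321) (nat_lit 0) (nat_lit 3844432696) (nat_lit 2) (nat_lit 5) (nat_lit 4) (nat_lit 4) (nat_lit 2) (nat_lit 4) (nat_lit 357) (nat_lit 277) (nat_lit 266)))) (XT.nd (nat_lit 78) (nat_lit 0) (nat_lit 0) (XT.lf (nat_lit 0) (nat_lit 10856814036) (nat_lit 152) (nat_lit 73943772882) (nat_lit 0) (nat_lit 8717538751) (nat_lit 2) (nat_lit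 5) (nat_lit 4) (nat_lit 4) (nat_lit 2) (nat_lit 4) (nat_lit 358) (nat_lit 277) (nat_lit 265)) (XT.nd (nat_lit 78) (nat_lit 0) (nat_lit 0) (XT.lf (nat_lit 0) (nat_lit 16080678187) (nat_lit 152) (nat_lit 70848960727) (nat_lit 0) (nat_lit 13837024062) (nat_lit 2) (nat_lit 5) (nat_lit 4) (nat_lit 4) (nat_lit 2) (nat_lit 4) (nat_lit 359) (nat_lit 277) (nat_lit 264)) (XT.lf (nat_lit 0) (nat_lit 21573527518) (nat_lit 152) (nat_lit 67795806229) (nat_lit 0) (nat_lit 19233226318) (nat_lit 2) (nat_lit 5) (nat_lit 4) (nat_lit 4) (nat_lit 2) (nat_lit 4) (nat_lit 360) (nat_lit 277) (nat_lit 263))))))) (XT.nd (nat_lit 858) (nat_lit 76) (nat_lit 0) (XT.nd (nat_lit 390) (nat_lit 0) (nat_lit 0) (XT.nd (nat_lit 156) (nat_lit 0) (nat_lit 0) (XT.nd (nat_lit 78) (nat_lit 0) (nat_lit 0) (XT.lf (nat_lit 0) (nat_lit 27367912246) (nat_lit 152) (nat_lit 64766216620) (nat_lit 0) (nat_lit 24938123015) (nat_lit 2) (nat_lit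 5) (nat_lit 4) (nat_lit 4) (nat_lit 2) (nat_lit 4) (nat_lit 361) (nat_lit 277) (nat_lit 262)) (XT.lf (nat_lit 0) (nat_lit 33498169468) (nat_lit 152) (nat_lit 61742238776) (nat_lit 0) (nat_lit 30985520949) (nat_lit 2) (nat_lit 5) (nat_lit 4) (nat_lit 4) (nat_lit 2) (nat_lit 4) (nat_lit 362) (nat_lit 277) (nat_lit 261))) (XT.nd (nat_lit 78) (nat_lit 0) (nat_lit 0) (XT.lf (nat_lit 0) (nat_lit 40000626633) (nat_lit 152) (nat_lit 58705952829) (nat_lit 0) (nat_lit 37411256550) (nat_lit 2) (nat_lit 5) (nat_lit 4) (nat_lit 4) (nat_lit 2) (nat_lit 4) (nat_lit 363) (nat_lit 277) (nat_lit 260)) (XT.nd (nat_lit 78) (nat_lit 0) (nat_lit 0) (XT.lf (nat_lit 0) (nat_lit 46913816820) (nat_lit 152) (nat_lit 55639365973) (nat_lit 0) (nat_lit 44253408252) (nat_lit 2) (nat_lit 5) (nat_lit 4) (nat_lit 4) (nat_lit 2) (nat_lit 4) (nat_lit 364) (nat_lit 277) (nat_lit 259)) (XT.lf (nat_lit 0) (nat_lit 54278707083)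 (nat_lit 152) (nat_lit 52524305842) (nat_lit 0) (nat_lit 51552522140) (nat_lit 2) (nat_lit 5) (nat_lit 4) (nat_lit 4) (nat_lit 2) (nat_lit 4) (nat_lit 365) (nat_lit 277) (nat_lit 258))))) (XT.nd (nat_lit 234) (nat_lit 0) (nat_lit 0) (XT.nd (nat_lit 78) (nat_lit 0) (nat_lit 0) (XT.lf (nat_lit 0) (nat_lit 62138941215) (nat_lit 152) (nat_lit 49342312820) (nat_lit 0) (nat_lit 59351852222) (nat_lit 2) (nat_lit 5) (nat_lit 4) (nat_lit 4) (nat_lit 2) (nat_lit 4) (nat_lit 366) (nat_lit 277) (nat_lit 257)) (XT.nd (nat_lit 78) (nat_lit 0) (nat_lit 0) (XT.lf (nat_lit 0) (nat_lit 70541098382) (nat_lit 152) (nat_lit 46074530653) (nat_lit 0) (nat_lit 67697616750) (nat_lit 2) (nat_lit 5) (nat_lit 4) (nat_lit 4) (nat_lit 2) (nat_lit 4) (nat_lit 367) (nat_lit 277) (nat_lit 256)) (XT.lf (nat_lit 0) (nat_lit 79534969146) (nat_lit 152) (nat_lit 42701594704) (nat_lit 0) (nat_lit 76639272106) (nat_lit 2) (nat_lit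 5) (nat_lit 4) (nat_lit 4) (nat_lit 2) (nat_lit 4) (nat_lit 368) (nat_lit 277) (nat_lit 255)))) (XT.nd (nat_lit 78) (nat_lit 0) (nat_lit 0) (XT.lf (nat_lit 0) (nat_lit 89173850516) (nat_lit 152) (nat_lit 39203517206) (nat_lit 0) (nat_lit 86229805878) (nat_lit 2) (nat_lit 5) (nat_lit 4) (nat_lit 4) (nat_lit 2) (nat_lit 4) (nat_lit 369) (nat_lit 277) (nat_lit 254)) (XT.nd (nat_lit 78) (nat_lit 0) (nat_lit 0) (XT.lf (nat_lit 0) (nat_lit 99514861792) (nat_lit 152) (nat_lit 35559568810) (nat_lit 0) (nat_lit 96526050858) (nat_lit 2) (nat_lit 5) (nat_lit 4) (nat_lit 4) (nat_lit 2) (nat_lit 4) (nat_lit 370) (nat_lit 277) (nat_lit 253)) (XT.lf (nat_lit 0) (nat_lit 110619283040) (nat_lit 152) (nat_lit 31748155748) (nat_lit 0) (nat_lit 107589021832) (nat_lit 2) (nat_lit 5) (nat_lit 4) (nat_lit 4) (nat_lit 2) (nat_lit 4) (nat_lit 371) (nat_lit 277) (nat_lit 252)))))) (XT.nd (nat_lit 468) (nat_lit 76)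 (nat_lit 0) (XT.nd (nat_lit 234) (nat_lit 0) (nat_lit 0) (XT.nd (nat_lit 78) (nat_lit 0) (nat_lit 0) (XT.lf (nat_lit 0) (nat_lit 122552918236) (nat_lit 152) (nat_lit 27746691869) (nat_lit 0) (nat_lit 119484277146) (nat_lit 2) (nat_lit 5) (nat_lit 4) (nat_lit 4) (nat_lit 2) (nat_lit 4) (nat_lit 372) (nat_lit 277) (nat_lit 251)) (XT.nd (nat_lit 78) (nat_lit 0) (nat_lit 0) (XT.lf (nat_lit 0) (nat_lit 135386485221) (nat_lit 152) (nat_lit 23531464793) (nat_lit 0) (nat_lit 132282307202) (nat_lit 2) (nat_lit 5) (nat_lit 4) (nat_lit 4) (nat_lit 2) (nat_lit 4) (nat_lit 373) (nat_lit 277) (nat_lit 250)) (XT.lf (nat_lit 0) (nat_lit 149196034760) (nat_lit 152) (nat_lit 19077495399) (nat_lit 0) (nat_lit 146058952177) (nat_lit 2) (nat_lit 5) (nat_lit 4) (nat_lit 4) (nat_lit 2) (nat_lit 4) (nat_lit 374) (nat_lit 277) (nat_lit 249)))) (XT.nd (nat_lit 78) (nat_lit 0) (nat_lit 0) (XT.lf (nat_lit 0) (nat_lit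 164063401222) (nat_lit 152) (nat_lit 14358389792) (nat_lit 0) (nat_lit 160895851451) (nat_lit 2) (nat_lit 5) (nat_lit 4) (nat_lit 4) (nat_lit 2) (nat_lit 4) (nat_lit 375) (nat_lit 277) (nat_lit 248)) (XT.nd (nat_lit 78) (nat_lit 0) (nat_lit 0) (XT.lf (nat_lit 0) (nat_lit 180076687519) (nat_lit 152) (nat_lit 9346182903) (nat_lit 0) (nat_lit 176880927388) (nat_lit 2) (nat_lit 5) (nat_lit 4) (nat_lit 4) (nat_lit 2) (nat_lit 4) (nat_lit 376) (nat_lit 277) (nat_lit 247)) (XT.lf (nat_lit 0) (nat_lit 197330787199) (nat_lit 152) (nat_lit 4011172765) (nat_lit 0) (nat_lit 194108906365) (nat_lit 2) (nat_lit 5) (nat_lit 4) (nat_lit 4) (nat_lit 2) (nat_lit 4) (nat_lit 377) (nat_lit 277) (nat_lit 246))))) (XT.nd (nat_lit 234) (nat_lit 0) (nat_lit 0) (XT.nd (nat_lit 78) (nat_lit 0) (nat_lit 0) (XT.lf (nat_lit 0) (nat_lit 1733746202) (nat_lit 76) (nat_lit 214221269213) (nat_lit 76) (nat_lit 210975202543)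 (nat_lit 1) (nat_lit 4) (nat_lit 2) (nat_lit 5) (nat_lit 2) (nat_lit 4) (nat_lit 378) (nat_lit 277) (nat_lit 245)) (XT.nd (nat_lit 78) (nat_lit 0) (nat_lit 0) (XT.lf (nat_lit 0) (nat_lit 8012259349) (nat_lit 76) (nat_lit 228091206122) (nat_lit 76) (nat_lit 224822745158) (nat_lit 1) (nat_lit 4) (nat_lit 2) (nat_lit 5) (nat_lit 2) (nat_lit 4) (nat_lit 379) (nat_lit 277) (nat_lit 244)) (XT.lf (nat_lit 0) (nat_lit 14728945193) (nat_lit 76) (nat_lit 243101894060) (nat_lit 76) (nat_lit 239812697640) (nat_lit 1) (nat_lit 4) (nat_lit 2) (nat_lit 5) (nat_lit 2) (nat_lit 4) (nat_lit 380) (nat_lit 277) (nat_lit 243)))) (XT.nd (nat_lit 78) (nat_lit 0) (nat_lit 0) (XT.lf (nat_lit 0) (nat_lit 21923606316) (nat_lit 76) (nat_lit 259342285253) (nat_lit 76) (nat_lit 256033889336) (nat_lit 1) (nat_lit 4) (nat_lit 2) (nat_lit 5) (nat_lit 2) (nat_lit 4) (nat_lit 381) (nat_lit 277) (nat_lit 242)) (XT.nd (nat_lit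 78) (nat_lit 0) (nat_lit 0) (XT.lf (nat_lit 0) (nat_lit 29638877748) (nat_lit 76) (nat_lit 276908619057) (nat_lit 76) (nat_lit 273582445828) (nat_lit 1) (nat_lit 4) (nat_lit 2) (nat_lit 5) (nat_lit 2) (nat_lit 4) (nat_lit 382) (nat_lit 277) (nat_lit 241)) (XT.lf (nat_lit 0) (nat_lit 37920479614) (nat_lit 76) (nat_lit 295904992263) (nat_lit 76) (nat_lit 292562358560) (nat_lit 1) (nat_lit 4) (nat_lit 2) (nat_lit 5) (nat_lit 2) (nat_lit 4) (nat_lit 383) (nat_lit 277) (nat_lit 240))))))))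
noncomputable def xc13 : XT := (XT.nd (nat_lit 44850) (nat_lit 0) (nat_lit 0) (XT.nd (nat_lit 43914) (nat_lit 0) (nat_lit 76) (XT.nd (nat_lit 390) (nat_lit 0) (nat_lit 0) (XT.nd (nat_lit 156) (nat_lit 0) (nat_lit 0) (XT.nd (nat_lit 78) (nat_lit 0) (nat_lit 0) (XT.lf (nat_lit 0) (nat_lit 46817488075) (nat_lit 76) (nat_lit 316443975972) (nat_lit 76) (nat_lit 313086101090) (nat_lit 1) (nat_lit 4) (nat_lit 2) (nat_lit 5) (nat_lit 2) (nat_lit 4) (nat_lit 384) (nat_lit 277) (nat_lit 239)) (XT.lf (nat_lit 0) (nat_lit 56382626143) (nat_lit 76) (nat_lit 338647282681) (nat_lit 76) (nat_lit 335275295595) (nat_lit 1) (nat_lit 4) (nat_lit 2) (nat_lit 5) (nat_lit 2) (nat_lit 4) (nat_lit 385) (nat_lit 277) (nat_lit 238))) (XT.nd (nat_lit 78) (nat_lit 0) (nat_lit 0) (XT.lf (nat_lit 0) (nat_lit 66672576118) (nat_lit 76) (nat_lit 362646487539) (nat_lit 76) (nat_lit 359261433599) (nat_lit 1) (nat_lit 4) (nat_lit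 2) (nat_lit 5) (nat_lit 2) (nat_lit 4) (nat_lit 386) (nat_lit 277) (nat_lit 237)) (XT.nd (nat_lit 78) (nat_lit 0) (nat_lit 0) (XT.lf (nat_lit 0) (nat_lit 77748315482) (nat_lit 76) (nat_lit 388583808059) (nat_lit 76) (nat_lit 385186655179) (nat_lit 1) (nat_lit 4) (nat_lit 2) (nat_lit 5) (nat_lit 2) (nat_lit 4) (nat_lit 387) (nat_lit 277) (nat_lit 236)) (XT.lf (nat_lit 0) (nat_lit 89675478246) (nat_lit 76) (nat_lit 416612946879) (nat_lit 76) (nat_lit 413204591277) (nat_lit 1) (nat_lit 4) (nat_lit 2) (nat_lit 5) (nat_lit 2) (nat_lit 4) (nat_lit 388) (nat_lit 277) (nat_lit 235))))) (XT.nd (nat_lit 234) (nat_lit 0) (nat_lit 0) (XT.nd (nat_lit 78) (nat_lit 0) (nat_lit 0) (XT.lf (nat_lit 0) (nat_lit 102524743892) (nat_lit 76) (nat_lit 446900002600) (nat_lit 76) (nat_lit 443481274107) (nat_lit 1) (nat_lit 4) (nat_lit 2) (nat_lit 5) (nat_lit 2) (nat_lit 4) (nat_lit 389) (nat_lit 277) (nat_lit 234))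 (XT.nd (nat_lit 78) (nat_lit 0) (nat_lit 0) (XT.lf (nat_lit 0) (nat_lit 116372256217) (nat_lit 76) (nat_lit 479624454071) (nat_lit 76) (nat_lit 476196121050) (nat_lit 1) (nat_lit 4) (nat_lit 2) (nat_lit 5) (nat_lit 2) (nat_lit 4) (nat_lit 390) (nat_lit 277) (nat_lit 233)) (XT.lf (nat_lit 0) (nat_lit 131300074553) (nat_lit 76) (nat_lit 514980223967) (nat_lit 76) (nat_lit 511542997864) (nat_lit 1) (nat_lit 4) (nat_lit 2) (nat_lit 5) (nat_lit 2) (nat_lit 4) (nat_lit 391) (nat_lit 277) (nat_lit 232)))) (XT.nd (nat_lit 43134) (nat_lit 0) (nat_lit 456) (XT.lf (nat_lit 0) (nat_lit 147396660046) (nat_lit 76) (nat_lit 553176827962) (nat_lit 76) (nat_lit 549731367523) (nat_lit 1) (nat_lit 4) (nat_lit 2) (nat_lit 5) (nat_lit 2) (nat_lit 4) (nat_lit 392) (nat_lit 277) (nat_lit 231)) (XT.nd (nat_lit 78) (nat_lit 0) (nat_lit 0) (XT.lf (nat_lit 0) (nat_lit 4591185602) (nat_lit 76) (nat_lit 6298114576)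 (nat_lit 76) (nat_lit 6298114576) (nat_lit 7) (nat_lit 4) (nat_lit 8) (nat_lit 5) (nat_lit 8) (nat_lit 4) (nat_lit 344) (nat_lit 278) (nat_lit 278)) (XT.lf (nat_lit 0) (nat_lit 23537418148) (nat_lit 76) (nat_lit 6771101049) (nat_lit 76) (nat_lit 6458133084) (nat_lit 7) (nat_lit 4) (nat_lit 8) (nat_lit 5) (nat_lit 8) (nat_lit 4) (nat_lit 345) (nat_lit 278) (nat_lit 277)))))) (XT.nd (nat_lit 468) (nat_lit 152) (nat_lit 0) (XT.nd (nat_lit 234) (nat_lit 76) (nat_lit 0) (XT.nd (nat_lit 78) (nat_lit 152) (nat_lit 0) (XT.lf (nat_lit 0) (nat_lit 38376767791) (nat_lit 76) (nat_lit 796634703) (nat_lit 76) (nat_lit 193881585) (nat_lit 7) (nat_lit 4) (nat_lit 8) (nat_lit 5) (nat_lit 8) (nat_lit 4) (nat_lit 346) (nat_lit 278) (nat_lit 276)) (XT.nd (nat_lit 78) (nat_lit 0) (nat_lit 0) (XT.lf (nat_lit 0) (nat_lit 6307958000) (nat_lit 152) (nat_lit 30387255530) (nat_lit 0) (nat_lit 5478364948) (nat_lit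 5) (nat_lit 5) (nat_lit 7) (nat_lit 4) (nat_lit 5) (nat_lit 4) (nat_lit 347) (nat_lit 278) (nat_lit 275)) (XT.lf (nat_lit 0) (nat_lit 13037571037) (nat_lit 152) (nat_lit 20209635848) (nat_lit 0) (nat_lit 11971364594) (nat_lit 5) (nat_lit 5) (nat_lit 7) (nat_lit 4) (nat_lit 5) (nat_lit 4) (nat_lit 348) (nat_lit 278) (nat_lit 274)))) (XT.nd (nat_lit 78) (nat_lit 76) (nat_lit 0) (XT.lf (nat_lit 0) (nat_lit 20012366463) (nat_lit 152) (nat_lit 9782452609) (nat_lit 0) (nat_lit 18727073547) (nat_lit 5) (nat_lit 5) (nat_lit 7) (nat_lit 4) (nat_lit 5) (nat_lit 4) (nat_lit 349) (nat_lit 278) (nat_lit 273)) (XT.nd (nat_lit 78) (nat_lit 0) (nat_lit 0) (XT.lf (nat_lit 0) (nat_lit 987697385) (nat_lit 76) (nat_lit 26301399738) (nat_lit 76) (nat_lit 24813248975) (nat_lit 4) (nat_lit 4) (nat_lit 5) (nat_lit 5) (nat_lit 5) (nat_lit 4) (nat_lit 350) (nat_lit 278) (nat_lit 272)) (XT.lf (nat_lit 0) (nat_lit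 12468688358) (nat_lit 76) (nat_lit 22590513641) (nat_lit 76) (nat_lit 20914531540) (nat_lit 4) (nat_lit 4) (nat_lit 5) (nat_lit 5) (nat_lit 5) (nat_lit 4) (nat_lit 351) (nat_lit 278) (nat_lit 271))))) (XT.nd (nat_lit 234) (nat_lit 152) (nat_lit 0) (XT.nd (nat_lit 78) (nat_lit 0) (nat_lit 0) (XT.lf (nat_lit 0) (nat_lit 24405103748) (nat_lit 76) (nat_lit 18805840915) (nat_lit 76) (nat_lit 16955940907) (nat_lit 4) (nat_lit 4) (nat_lit 5) (nat_lit 5) (nat_lit 5) (nat_lit 4) (nat_lit 352) (nat_lit 278) (nat_lit 270)) (XT.nd (nat_lit 78) (nat_lit 0) (nat_lit 0) (XT.lf (nat_lit 0) (nat_lit 36867677869) (nat_lit 76) (nat_lit 14924953869) (nat_lit 76) (nat_lit 12914018763) (nat_lit 4) (nat_lit 4) (nat_lit 5) (nat_lit 5) (nat_lit 5) (nat_lit 4) (nat_lit 353) (nat_lit 278) (nat_lit 269)) (XT.lf (nat_lit 0) (nat_lit 49930263011) (nat_lit 76) (nat_lit 10924854655) (nat_lit 76) (nat_lit 8764812976) (nat_lit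 4) (nat_lit 4) (nat_lit 5) (nat_lit 5) (nat_lit 5) (nat_lit 4) (nat_lit 354) (nat_lit 278) (nat_lit 268)))) (XT.nd (nat_lit 78) (nat_lit 152) (nat_lit 0) (XT.lf (nat_lit 0) (nat_lit 63670267086) (nat_lit 76) (nat_lit 6781838980) (nat_lit 76) (nat_lit 4483735660) (nat_lit 4) (nat_lit 4) (nat_lit 5) (nat_lit 5) (nat_lit 5) (nat_lit 4) (nat_lit 355) (nat_lit 278) (nat_lit 267)) (XT.nd (nat_lit 78) (nat_lit 152) (nat_lit 0) (XT.lf (nat_lit 0) (nat_lit 78169112341) (nat_lit 76) (nat_lit 2471355641) (nat_lit 76) (nat_lit 45417468) (nat_lit 4) (nat_lit 4) (nat_lit 5) (nat_lit 5) (nat_lit 5) (nat_lit 4) (nat_lit 356) (nat_lit 278) (nat_lit 266)) (XT.lf (nat_lit 0) (nat_lit 4570032786) (nat_lit 152) (nat_lit 80176641235) (nat_lit 0) (nat_lit 2146886331) (nat_lit 2) (nat_lit 5) (nat_lit 4) (nat_lit 4) (nat_lit 2) (nat_lit 4) (nat_lit 357) (nat_lit 278) (nat_lit 265))))))) (XT.nd (nat_lit 858) (nat_lit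 76) (nat_lit 0) (XT.nd (nat_lit 390) (nat_lit 0) (nat_lit 0) (XT.nd (nat_lit 156) (nat_lit 0) (nat_lit 0) (XT.nd (nat_lit 78) (nat_lit 0) (nat_lit 0) (XT.lf (nat_lit 0) (nat_lit 9478542091) (nat_lit 152) (nat_lit 77172015468) (nat_lit 0) (nat_lit 6951016795) (nat_lit 2) (nat_lit 5) (nat_lit 4) (nat_lit 4) (nat_lit 2) (nat_lit 4) (nat_lit 358) (nat_lit 278) (nat_lit 264)) (XT.lf (nat_lit 0) (nat_lit 14630808187) (nat_lit 152) (nat_lit 74216262270) (nat_lit 0) (nat_lit 12006635818) (nat_lit 2) (nat_lit 5) (nat_lit 4) (nat_lit 4) (nat_lit 2) (nat_lit 4) (nat_lit 359) (nat_lit 278) (nat_lit 263))) (XT.nd (nat_lit 78) (nat_lit 0) (nat_lit 0) (XT.lf (nat_lit 0) (nat_lit 20057363024) (nat_lit 152) (nat_lit 71291866064) (nat_lit 0) (nat_lit 17343702623) (nat_lit 2) (nat_lit 5) (nat_lit 4) (nat_lit 4) (nat_lit 2) (nat_lit 4) (nat_lit 360) (nat_lit 278) (nat_lit 262)) (XT.nd (nat_lit 78) (nat_lit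 0) (nat_lit 0) (XT.lf (nat_lit 0) (nat_lit 25790363961) (nat_lit 152) (nat_lit 68381497096) (nat_lit 0) (nat_lit 22993844272) (nat_lit 2) (nat_lit 5) (nat_lit 4) (nat_lit 4) (nat_lit 2) (nat_lit 4) (nat_lit 361) (nat_lit 278) (nat_lit 261)) (XT.lf (nat_lit 0) (nat_lit 31863784339) (nat_lit 152) (nat_lit 65467908735) (nat_lit 0) (nat_lit 28990543086) (nat_lit 2) (nat_lit 5) (nat_lit 4) (nat_lit 4) (nat_lit 2) (nat_lit 4) (nat_lit 362) (nat_lit 278) (nat_lit 260))))) (XT.nd (nat_lit 234) (nat_lit 0) (nat_lit 0) (XT.nd (nat_lit 78) (nat_lit 0) (nat_lit 0) (XT.lf (nat_lit 0) (nat_lit 38313614797) (nat_lit 152) (nat_lit 62533835273) (nat_lit 0) (nat_lit 35369335059) (nat_lit 2) (nat_lit 5) (nat_lit 4) (nat_lit 4) (nat_lit 2) (nat_lit 4) (nat_lit 363) (nat_lit 278) (nat_lit 259)) (XT.nd (nat_lit 78) (nat_lit 0) (nat_lit 0) (XT.lf (nat_lit 0) (nat_lit 45178076552) (nat_lit 152) (nat_lit 59561889606)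 (nat_lit 0) (nat_lit 42168020439) (nat_lit 2) (nat_lit 5) (nat_lit 4) (nat_lit 4) (nat_lit 2) (nat_lit 4) (nat_lit 364) (nat_lit 278) (nat_lit 258)) (XT.lf (nat_lit 0) (nat_lit 52497847896) (nat_lit 152) (nat_lit 56534460205) (nat_lit 0) (nat_lit 49426887732) (nat_lit 2) (nat_lit 5) (nat_lit 4) (nat_lit 4) (nat_lit 2) (nat_lit 4) (nat_lit 365) (nat_lit 278) (nat_lit 257)))) (XT.nd (nat_lit 78) (nat_lit 0) (nat_lit 0) (XT.lf (nat_lit 0) (nat_lit 60316305251) (nat_lit 152) (nat_lit 53433606749) (nat_lit 0) (nat_lit 57188952449) (nat_lit 2) (nat_lit 5) (nat_lit 4) (nat_lit 4) (nat_lit 2) (nat_lit 4) (nat_lit 366) (nat_lit 278) (nat_lit 256)) (XT.nd (nat_lit 78) (nat_lit 0) (nat_lit 0) (XT.lf (nat_lit 0) (nat_lit 68679780218) (nat_lit 152) (nat_lit 50240953808) (nat_lit 0) (nat_lit 65500212008) (nat_lit 2) (nat_lit 5) (nat_lit 4) (nat_lit 4) (nat_lit 2) (nat_lit 4) (nat_lit 367) (nat_lit 278)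 (nat_lit 255)) (XT.lf (nat_lit 0) (nat_lit 77637834128) (nat_lit 152) (nat_lit 46937581959) (nat_lit 0) (nat_lit 74409918320) (nat_lit 2) (nat_lit 5) (nat_lit 4) (nat_lit 4) (nat_lit 2) (nat_lit 4) (nat_lit 368) (nat_lit 278) (nat_lit 254)))))) (XT.nd (nat_lit 468) (nat_lit 76) (nat_lit 0) (XT.nd (nat_lit 234) (nat_lit 0) (nat_lit 0) (XT.nd (nat_lit 78) (nat_lit 0) (nat_lit 0) (XT.lf (nat_lit 0) (nat_lit 87243551747) (nat_lit 152) (nat_lit 43503915663) (nat_lit 0) (nat_lit 83970869643) (nat_lit 2) (nat_lit 5) (nat_lit 4) (nat_lit 4) (nat_lit 2) (nat_lit 4) (nat_lit 369) (nat_lit 278) (nat_lit 253)) (XT.nd (nat_lit 78) (nat_lit 0) (nat_lit 0) (XT.lf (nat_lit 0) (nat_lit 97553855845) (nat_lit 152) (nat_lit 39919607270) (nat_lit 0) (nat_lit 94239723467) (nat_lit 2) (nat_lit 5) (nat_lit 4) (nat_lit 4) (nat_lit 2) (nat_lit 4) (nat_lit 370) (nat_lit 278) (nat_lit 252)) (XT.lf (nat_lit 0) (nat_lit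 108629844520) (nat_lit 152) (nat_lit 36163416433) (nat_lit 0) (nat_lit 105277332259) (nat_lit 2) (nat_lit 5) (nat_lit 4) (nat_lit 4) (nat_lit 2) (nat_lit 4) (nat_lit 371) (nat_lit 278) (nat_lit 251)))) (XT.nd (nat_lit 78) (nat_lit 0) (nat_lit 0) (XT.lf (nat_lit 0) (nat_lit 120537153261) (nat_lit 152) (nat_lit 32213084243) (nat_lit 0) (nat_lit 117149104072) (nat_lit 2) (nat_lit 5) (nat_lit 4) (nat_lit 4) (nat_lit 2) (nat_lit 4) (nat_lit 372) (nat_lit 278) (nat_lit 250)) (XT.nd (nat_lit 78) (nat_lit 0) (nat_lit 0) (XT.lf (nat_lit 0) (nat_lit 133346343897) (nat_lit 152) (nat_lit 28045201325) (nat_lit 0) (nat_lit 129925390144) (nat_lit 2) (nat_lit 5) (nat_lit 4) (nat_lit 4) (nat_lit 2) (nat_lit 4) (nat_lit 373) (nat_lit 278) (nat_lit 249)) (XT.lf (nat_lit 0) (nat_lit 147133322744) (nat_lit 152) (nat_lit 23635069113) (nat_lit 0) (nat_lit 143681901803) (nat_lit 2) (nat_lit 5) (nat_lit 4) (nat_lit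 4) (nat_lit 2) (nat_lit 4) (nat_lit 374) (nat_lit 278) (nat_lit 248))))) (XT.nd (nat_lit 234) (nat_lit 76) (nat_lit 0) (XT.nd (nat_lit 78) (nat_lit 0) (nat_lit 0) (XT.lf (nat_lit 0) (nat_lit 161979790416) (nat_lit 152) (nat_lit 18956553490) (nat_lit 0) (nat_lit 158500159115) (nat_lit 2) (nat_lit 5) (nat_lit 4) (nat_lit 4) (nat_lit 2) (nat_lit 4) (nat_lit 375) (nat_lit 278) (nat_lit 247)) (XT.nd (nat_lit 78) (nat_lit 0) (nat_lit 0) (XT.lf (nat_lit 0) (nat_lit 177973725982) (nat_lit 152) (nat_lit 13981929919) (nat_lit 0) (nat_lit 174467973978) (nat_lit 2) (nat_lit 5) (nat_lit 4) (nat_lit 4) (nat_lit 2) (nat_lit 4) (nat_lit 376) (nat_lit 278) (nat_lit 246)) (XT.lf (nat_lit 0) (nat_lit 195209908319) (nat_lit 152) (nat_lit 8681719150) (nat_lit 0) (nat_lit 191679970478) (nat_lit 2) (nat_lit 5) (nat_lit 4) (nat_lit 4) (nat_lit 2) (nat_lit 4) (nat_lit 377) (nat_lit 278) (nat_lit 245)))) (XT.nd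 (nat_lit 78) (nat_lit 76) (nat_lit 0) (XT.lf (nat_lit 0) (nat_lit 213790477766) (nat_lit 152) (nat_lit 3024512526) (nat_lit 0) (nat_lit 210238145632) (nat_lit 2) (nat_lit 5) (nat_lit 4) (nat_lit 4) (nat_lit 2) (nat_lit 4) (nat_lit 378) (nat_lit 278) (nat_lit 244)) (XT.nd (nat_lit 78) (nat_lit 0) (nat_lit 0) (XT.lf (nat_lit 0) (nat_lit 3123175253) (nat_lit 76) (nat_lit 230751127667) (nat_lit 76) (nat_lit 227178060077) (nat_lit 1) (nat_lit 4) (nat_lit 2) (nat_lit 5) (nat_lit 2) (nat_lit 4) (nat_lit 379) (nat_lit 278) (nat_lit 243)) (XT.lf (nat_lit 0) (nat_lit 9811322833) (nat_lit 76) (nat_lit 245775684942) (nat_lit 76) (nat_lit 242183417855) (nat_lit 1) (nat_lit 4) (nat_lit 2) (nat_lit 5) (nat_lit 2) (nat_lit 4) (nat_lit 380) (nat_lit 278) (nat_lit 242))))))))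
noncomputable def xc14 : XT := (XT.nd (nat_lit 44616) (nat_lit 0) (nat_lit 76) (XT.nd (nat_lit 858) (nat_lit 0) (nat_lit 0) (XT.nd (nat_lit 390) (nat_lit 0) (nat_lit 0) (XT.nd (nat_lit 156) (nat_lit 0) (nat_lit 0) (XT.nd (nat_lit 78) (nat_lit 0) (nat_lit 0) (XT.lf (nat_lit 0) (nat_lit 16979559638) (nat_lit 76) (nat_lit 262028918113) (nat_lit 76) (nat_lit 258418873714) (nat_lit 1) (nat_lit 4) (nat_lit 2) (nat_lit 5) (nat_lit 2) (nat_lit 4) (nat_lit 381) (nat_lit 278) (nat_lit 241)) (XT.lf (nat_lit 0) (nat_lit 24670364108) (nat_lit 76) (nat_lit 279607142637) (nat_lit 76) (nat_lit 275980637764) (nat_lit 1) (nat_lit 4) (nat_lit 2) (nat_lit 5) (nat_lit 2) (nat_lit 4) (nat_lit 382) (nat_lit 278) (nat_lit 240))) (XT.nd (nat_lit 78) (nat_lit 0) (nat_lit 0) (XT.lf (nat_lit 0) (nat_lit 32929311381) (nat_lit 76) (nat_lit 298614525769) (nat_lit 76) (nat_lit 294972779717) (nat_lit 1) (nat_lit 4) (nat_lit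 2) (nat_lit 5) (nat_lit 2) (nat_lit 4) (nat_lit 383) (nat_lit 278) (nat_lit 239)) (XT.nd (nat_lit 78) (nat_lit 0) (nat_lit 0) (XT.lf (nat_lit 0) (nat_lit 41805343366) (nat_lit 76) (nat_lit 319163703855) (nat_lit 76) (nat_lit 315507845599) (nat_lit 1) (nat_lit 4) (nat_lit 2) (nat_lit 5) (nat_lit 2) (nat_lit 4) (nat_lit 384) (nat_lit 278) (nat_lit 238)) (XT.lf (nat_lit 0) (nat_lit 51351058771) (nat_lit 76) (nat_lit 341376449801) (nat_lit 76) (nat_lit 337707524690) (nat_lit 1) (nat_lit 4) (nat_lit 2) (nat_lit 5) (nat_lit 2) (nat_lit 4) (nat_lit 385) (nat_lit 278) (nat_lit 237))))) (XT.nd (nat_lit 234) (nat_lit 0) (nat_lit 0) (XT.nd (nat_lit 78) (nat_lit 0) (nat_lit 0) (XT.lf (nat_lit 0) (nat_lit 61623024800) (nat_lit 76) (nat_lit 365384394694) (nat_lit 76) (nat_lit 361703370644) (nat_lit 1) (nat_lit 4) (nat_lit 2) (nat_lit 5) (nat_lit 2) (nat_lit 4) (nat_lit 386) (nat_lit 278) (nat_lit 236))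 (XT.nd (nat_lit 78) (nat_lit 0) (nat_lit 0) (XT.lf (nat_lit 0) (nat_lit 72682112361) (nat_lit 76) (nat_lit 391329807838) (nat_lit 76) (nat_lit 387637581066) (nat_lit 1) (nat_lit 4) (nat_lit 2) (nat_lit 5) (nat_lit 2) (nat_lit 4) (nat_lit 387) (nat_lit 278) (nat_lit 235)) (XT.lf (nat_lit 0) (nat_lit 84593856789) (nat_lit 76) (nat_lit 419366439829) (nat_lit 76) (nat_lit 415663840166) (nat_lit 1) (nat_lit 4) (nat_lit 2) (nat_lit 5) (nat_lit 2) (nat_lit 4) (nat_lit 388) (nat_lit 278) (nat_lit 234)))) (XT.nd (nat_lit 78) (nat_lit 0) (nat_lit 0) (XT.lf (nat_lit 0) (nat_lit 97428846198) (nat_lit 76) (nat_lit 449660433671) (nat_lit 76) (nat_lit 445948229480) (nat_lit 1) (nat_lit 4) (nat_lit 2) (nat_lit 5) (nat_lit 2) (nat_lit 4) (nat_lit 389) (nat_lit 278) (nat_lit 233)) (XT.nd (nat_lit 78) (nat_lit 0) (nat_lit 0) (XT.lf (nat_lit 0) (nat_lit 111263139785) (nat_lit 76) (nat_lit 482391309329) (nat_lit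 76) (nat_lit 478670212055) (nat_lit 1) (nat_lit 4) (nat_lit 2) (nat_lit 5) (nat_lit 2) (nat_lit 4) (nat_lit 390) (nat_lit 278) (nat_lit 232)) (XT.lf (nat_lit 0) (nat_lit 126178718549) (nat_lit 76) (nat_lit 517753027545) (nat_lit 76) (nat_lit 514023695937) (nat_lit 1) (nat_lit 4) (nat_lit 2) (nat_lit 5) (nat_lit 2) (nat_lit 4) (nat_lit 391) (nat_lit 278) (nat_lit 231)))))) (XT.nd (nat_lit 43290) (nat_lit 0) (nat_lit 228) (XT.nd (nat_lit 43056) (nat_lit 0) (nat_lit 456) (XT.nd (nat_lit 42978) (nat_lit 0) (nat_lit 532) (XT.lf (nat_lit 0) (nat_lit 142263971105) (nat_lit 76) (nat_lit 555955139244) (nat_lit 76) (nat_lit 552218183252) (nat_lit 1) (nat_lit 4) (nat_lit 2) (nat_lit 5) (nat_lit 2) (nat_lit 4) (nat_lit 392) (nat_lit 278) (nat_lit 230)) (XT.lf (nat_lit 0) (nat_lit 3168821757) (nat_lit 152) (nat_lit 8731453266) (nat_lit 0) (nat_lit 3168821757) (nat_lit 8) (nat_lit 5) (nat_lit 10) (nat_lit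 4) (nat_lit 8) (nat_lit 4) (nat_lit 342) (nat_lit 279) (nat_lit 279))) (XT.nd (nat_lit 78) (nat_lit 76) (nat_lit 0) (XT.lf (nat_lit 0) (nat_lit 13945630483) (nat_lit 152) (nat_lit 4620660095) (nat_lit 0) (nat_lit 13607625080) (nat_lit 8) (nat_lit 5) (nat_lit 10) (nat_lit 4) (nat_lit 8) (nat_lit 4) (nat_lit 343) (nat_lit 279) (nat_lit 278)) (XT.nd (nat_lit 78) (nat_lit 0) (nat_lit 0) (XT.lf (nat_lit 0) (nat_lit 8837549501) (nat_lit 76) (nat_lit 13098660404) (nat_lit 76) (nat_lit 12447687036) (nat_lit 7) (nat_lit 4) (nat_lit 8) (nat_lit 5) (nat_lit 8) (nat_lit 4) (nat_lit 344) (nat_lit 279) (nat_lit 277)) (XT.lf (nat_lit 0) (nat_lit 22873317091) (nat_lit 76) (nat_lit 7425778457) (nat_lit 76) (nat_lit 6485019936) (nat_lit 7) (nat_lit 4) (nat_lit 8) (nat_lit 5) (nat_lit 8) (nat_lit 4) (nat_lit 345) (nat_lit 279) (nat_lit 276))))) (XT.nd (nat_lit 234) (nat_lit 76) (nat_lit 0) (XT.nd (nat_lit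 78) (nat_lit 152) (nat_lit 0) (XT.lf (nat_lit 0) (nat_lit 37417037703) (nat_lit 76) (nat_lit 1592280774) (nat_lit 76) (nat_lit 383202667) (nat_lit 7) (nat_lit 4) (nat_lit 8) (nat_lit 5) (nat_lit 8) (nat_lit 4) (nat_lit 346) (nat_lit 279) (nat_lit 275)) (XT.nd (nat_lit 78) (nat_lit 0) (nat_lit 0) (XT.lf (nat_lit 0) (nat_lit 5943895575) (nat_lit 152) (nat_lit 31708364593) (nat_lit 0) (nat_lit 4555779225) (nat_lit 5) (nat_lit 5) (nat_lit 7) (nat_lit 4) (nat_lit 5) (nat_lit 4) (nat_lit 347) (nat_lit 279) (nat_lit 274)) (XT.lf (nat_lit 0) (nat_lit 12532553490) (nat_lit 152) (nat_lit 21802209343) (nat_lit 0) (nat_lit 10925350666) (nat_lit 5) (nat_lit 5) (nat_lit 7) (nat_lit 4) (nat_lit 5) (nat_lit 4) (nat_lit 348) (nat_lit 279) (nat_lit 273)))) (XT.nd (nat_lit 78) (nat_lit 76) (nat_lit 0) (XT.lf (nat_lit 0) (nat_lit 19376834914) (nat_lit 152) (nat_lit 11626382059) (nat_lit 0) (nat_lit 17566774245)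 (nat_lit 5) (nat_lit 5) (nat_lit 7) (nat_lit 4) (nat_lit 5) (nat_lit 4) (nat_lit 349) (nat_lit 279) (nat_lit 272)) (XT.nd (nat_lit 78) (nat_lit 76) (nat_lit 0) (XT.lf (nat_lit 0) (nat_lit 26517298553) (nat_lit 152) (nat_lit 1120581543) (nat_lit 0) (nat_lit 24519406545) (nat_lit 5) (nat_lit 5) (nat_lit 7) (nat_lit 4) (nat_lit 5) (nat_lit 4) (nat_lit 350) (nat_lit 279) (nat_lit 271)) (XT.lf (nat_lit 0) (nat_lit 10100735413) (nat_lit 76) (nat_lit 24053223638) (nat_lit 76) (nat_lit 21881413723) (nat_lit 4) (nat_lit 4) (nat_lit 5) (nat_lit 5) (nat_lit 5) (nat_lit 4) (nat_lit 351) (nat_lit 279) (nat_lit 270))))))) (XT.nd (nat_lit 858) (nat_lit 0) (nat_lit 0) (XT.nd (nat_lit 390) (nat_lit 152) (nat_lit 0) (XT.nd (nat_lit 156) (nat_lit 0) (nat_lit 0) (XT.nd (nat_lit 78) (nat_lit 0) (nat_lit 0) (XT.lf (nat_lit 0) (nat_lit 21831018832) (nat_lit 76) (nat_lit 20367858363) (nat_lit 76) (nat_lit 18035013350)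 (nat_lit 4) (nat_lit 4) (nat_lit 5) (nat_lit 5) (nat_lit 5) (nat_lit 4) (nat_lit 352) (nat_lit 279) (nat_lit 269)) (XT.lf (nat_lit 0) (nat_lit 34102730015) (nat_lit 76) (nat_lit 16578922661) (nat_lit 76) (nat_lit 14096971075) (nat_lit 4) (nat_lit 4) (nat_lit 5) (nat_lit 5) (nat_lit 5) (nat_lit 4) (nat_lit 353) (nat_lit 279) (nat_lit 268))) (XT.nd (nat_lit 78) (nat_lit 0) (nat_lit 0) (XT.lf (nat_lit 0) (nat_lit 46988590216) (nat_lit 76) (nat_lit 12663963579) (nat_lit 76) (nat_lit 10043950352) (nat_lit 4) (nat_lit 4) (nat_lit 5) (nat_lit 5) (nat_lit 5) (nat_lit 4) (nat_lit 354) (nat_lit 279) (nat_lit 267)) (XT.nd (nat_lit 78) (nat_lit 0) (nat_lit 0) (XT.lf (nat_lit 0) (nat_lit 60564960086) (nat_lit 76) (nat_lit 8599781361) (nat_lit 76) (nat_lit 5851933281) (nat_lit 4) (nat_lit 4) (nat_lit 5) (nat_lit 5) (nat_lit 5) (nat_lit 4) (nat_lit 355) (nat_lit 279) (nat_lit 266)) (XT.lf (nat_lit 0)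 (nat_lit 74912292189) (nat_lit 76) (nat_lit 4362291963) (nat_lit 76) (nat_lit 1496078278) (nat_lit 4) (nat_lit 4) (nat_lit 5) (nat_lit 5) (nat_lit 5) (nat_lit 4) (nat_lit 356) (nat_lit 279) (nat_lit 265))))) (XT.nd (nat_lit 234) (nat_lit 0) (nat_lit 0) (XT.nd (nat_lit 78) (nat_lit 0) (nat_lit 0) (XT.lf (nat_lit 0) (nat_lit 3004173186) (nat_lit 152) (nat_lit 83813326900) (nat_lit 0) (nat_lit 170067027) (nat_lit 2) (nat_lit 5) (nat_lit 4) (nat_lit 4) (nat_lit 2) (nat_lit 4) (nat_lit 357) (nat_lit 279) (nat_lit 264)) (XT.nd (nat_lit 78) (nat_lit 0) (nat_lit 0) (XT.lf (nat_lit 0) (nat_lit 7841084437) (nat_lit 152) (nat_lit 80947760090) (nat_lit 0) (nat_lit 4910331204) (nat_lit 2) (nat_lit 5) (nat_lit 4) (nat_lit 4) (nat_lit 2) (nat_lit 4) (nat_lit 358) (nat_lit 279) (nat_lit 263)) (XT.lf (nat_lit 0) (nat_lit 12927056040) (nat_lit 152) (nat_lit 78120765184) (nat_lit 0) (nat_lit 9906814775) (nat_lit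 2) (nat_lit 5) (nat_lit 4) (nat_lit 4) (nat_lit 2) (nat_lit 4) (nat_lit 359) (nat_lit 279) (nat_lit 262)))) (XT.nd (nat_lit 78) (nat_lit 0) (nat_lit 0) (XT.lf (nat_lit 0) (nat_lit 18292227085) (nat_lit 152) (nat_lit 75315589620) (nat_lit 0) (nat_lit 15189126531) (nat_lit 2) (nat_lit 5) (nat_lit 4) (nat_lit 4) (nat_lit 2) (nat_lit 4) (nat_lit 360) (nat_lit 279) (nat_lit 261)) (XT.nd (nat_lit 78) (nat_lit 0) (nat_lit 0) (XT.lf (nat_lit 0) (nat_lit 23968391179) (nat_lit 152) (nat_lit 72515610135) (nat_lit 0) (nat_lit 20788569062) (nat_lit 2) (nat_lit 5) (nat_lit 4) (nat_lit 4) (nat_lit 2) (nat_lit 4) (nat_lit 361) (nat_lit 279) (nat_lit 260)) (XT.lf (nat_lit 0) (nat_lit 29989184850) (nat_lit 152) (nat_lit 69704234258) (nat_lit 0) (nat_lit 26738324248) (nat_lit 2) (nat_lit 5) (nat_lit 4) (nat_lit 4) (nat_lit 2) (nat_lit 4) (nat_lit 362) (nat_lit 279) (nat_lit 259)))))) (XT.nd (nat_lit 468)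 (nat_lit 0) (nat_lit 0) (XT.nd (nat_lit 234) (nat_lit 0) (nat_lit 0) (XT.nd (nat_lit 78) (nat_lit 0) (nat_lit 0) (XT.lf (nat_lit 0) (nat_lit 36390286875) (nat_lit 152) (nat_lit 66864801985) (nat_lit 0) (nat_lit 33073649899) (nat_lit 2) (nat_lit 5) (nat_lit 4) (nat_lit 4) (nat_lit 2) (nat_lit 4) (nat_lit 363) (nat_lit 279) (nat_lit 258)) (XT.nd (nat_lit 78) (nat_lit 0) (nat_lit 0) (XT.lf (nat_lit 0) (nat_lit 43209629711) (nat_lit 152) (nat_lit 63980487049) (nat_lit 0) (nat_lit 39832088684) (nat_lit 2) (nat_lit 5) (nat_lit 4) (nat_lit 4) (nat_lit 2) (nat_lit 4) (nat_lit 364) (nat_lit 279) (nat_lit 257)) (XT.lf (nat_lit 0) (nat_lit 50487624278) (nat_lit 152) (nat_lit 61034197213) (nat_lit 0) (nat_lit 47053690612) (nat_lit 2) (nat_lit 5) (nat_lit 4) (nat_lit 4) (nat_lit 2) (nat_lit 4) (nat_lit 365) (nat_lit 279) (nat_lit 256)))) (XT.nd (nat_lit 78) (nat_lit 0) (nat_lit 0) (XT.lf (nat_lit 0)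 (nat_lit 58267399433) (nat_lit 152) (nat_lit 58008472984) (nat_lit 0) (nat_lit 54781250359) (nat_lit 2) (nat_lit 5) (nat_lit 4) (nat_lit 4) (nat_lit 2) (nat_lit 4) (nat_lit 366) (nat_lit 279) (nat_lit 255)) (XT.nd (nat_lit 78) (nat_lit 0) (nat_lit 0) (XT.lf (nat_lit 0) (nat_lit 66595057547) (nat_lit 152) (nat_lit 54885384143) (nat_lit 0) (nat_lit 63060560874) (nat_lit 2) (nat_lit 5) (nat_lit 4) (nat_lit 4) (nat_lit 2) (nat_lit 4) (nat_lit 367) (nat_lit 279) (nat_lit 254)) (XT.lf (nat_lit 0) (nat_lit 75519947705) (nat_lit 152) (nat_lit 51646423496) (nat_lit 0) (nat_lit 71940684737) (nat_lit 2) (nat_lit 5) (nat_lit 4) (nat_lit 4) (nat_lit 2) (nat_lit 4) (nat_lit 368) (nat_lit 279) (nat_lit 253))))) (XT.nd (nat_lit 234) (nat_lit 0) (nat_lit 0) (XT.nd (nat_lit 78) (nat_lit 0) (nat_lit 0) (XT.lf (nat_lit 0) (nat_lit 85094958146) (nat_lit 152) (nat_lit 48272397203) (nat_lit 0) (nat_lit 81474244904)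 (nat_lit 2) (nat_lit 5) (nat_lit 4) (nat_lit 4) (nat_lit 2) (nat_lit 4) (nat_lit 369) (nat_lit 279) (nat_lit 252)) (XT.nd (nat_lit 78) (nat_lit 0) (nat_lit 0) (XT.lf (nat_lit 0) (nat_lit 95376829671) (nat_lit 152) (nat_lit 44743311035) (nat_lit 0) (nat_lit 91717736547) (nat_lit 2) (nat_lit 5) (nat_lit 4) (nat_lit 4) (nat_lit 2) (nat_lit 4) (nat_lit 370) (nat_lit 279) (nat_lit 251)) (XT.lf (nat_lit 0) (nat_lit 106426491890) (nat_lit 152) (nat_lit 41038251888) (nat_lit 0) (nat_lit 102731861837) (nat_lit 2) (nat_lit 5) (nat_lit 4) (nat_lit 4) (nat_lit 2) (nat_lit 4) (nat_lit 371) (nat_lit 279) (nat_lit 250)))) (XT.nd (nat_lit 78) (nat_lit 0) (nat_lit 0) (XT.lf (nat_lit 0) (nat_lit 118309424283) (nat_lit 152) (nat_lit 37135263855) (nat_lit 0) (nat_lit 114581889667) (nat_lit 2) (nat_lit 5) (nat_lit 4) (nat_lit 4) (nat_lit 2) (nat_lit 4) (nat_lit 372) (nat_lit 279) (nat_lit 249)) (XT.nd (nat_lit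 78) (nat_lit 0) (nat_lit 0) (XT.lf (nat_lit 0) (nat_lit 131096044227) (nat_lit 152) (nat_lit 33011218119) (nat_lit 0) (nat_lit 127338042422) (nat_lit 2) (nat_lit 5) (nat_lit 4) (nat_lit 4) (nat_lit 2) (nat_lit 4) (nat_lit 373) (nat_lit 279) (nat_lit 248)) (XT.lf (nat_lit 0) (nat_lit 144862124284) (nat_lit 152) (nat_lit 28641675891) (nat_lit 0) (nat_lit 141075912120) (nat_lit 2) (nat_lit 5) (nat_lit 4) (nat_lit 4) (nat_lit 2) (nat_lit 4) (nat_lit 374) (nat_lit 279) (nat_lit 247))))))))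
noncomputable def xc15 : XT := (XT.nd (nat_lit 44538) (nat_lit 0) (nat_lit 76) (XT.nd (nat_lit 858) (nat_lit 0) (nat_lit 0) (XT.nd (nat_lit 390) (nat_lit 76) (nat_lit 0) (XT.nd (nat_lit 156) (nat_lit 0) (nat_lit 0) (XT.nd (nat_lit 78) (nat_lit 0) (nat_lit 0) (XT.lf (nat_lit 0) (nat_lit 159689241226) (nat_lit 152) (nat_lit 24000743586) (nat_lit 0) (nat_lit 155876908358) (nat_lit 2) (nat_lit 5) (nat_lit 4) (nat_lit 4) (nat_lit 2) (nat_lit 4) (nat_lit 375) (nat_lit 279) (nat_lit 246)) (XT.lf (nat_lit 0) (nat_lit 175665259448) (nat_lit 152) (nat_lit 19060919384) (nat_lit 0) (nat_lit 171828740744) (nat_lit 2) (nat_lit 5) (nat_lit 4) (nat_lit 4) (nat_lit 2) (nat_lit 4) (nat_lit 376) (nat_lit 279) (nat_lit 245))) (XT.nd (nat_lit 78) (nat_lit 0) (nat_lit 0) (XT.lf (nat_lit 0) (nat_lit 192884851652) (nat_lit 152) (nat_lit 13792930253) (nat_lit 0) (nat_lit 189025938654) (nat_lit 2) (nat_lit 5) (nat_lit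 4) (nat_lit 4) (nat_lit 2) (nat_lit 4) (nat_lit 377) (nat_lit 279) (nat_lit 244)) (XT.nd (nat_lit 78) (nat_lit 0) (nat_lit 0) (XT.lf (nat_lit 0) (nat_lit 211450059865) (nat_lit 152) (nat_lit 8165558478) (nat_lit 0) (nat_lit 207570411411) (nat_lit 2) (nat_lit 5) (nat_lit 4) (nat_lit 4) (nat_lit 2) (nat_lit 4) (nat_lit 378) (nat_lit 279) (nat_lit 243)) (XT.lf (nat_lit 0) (nat_lit 231470900136) (nat_lit 152) (nat_lit 2145456672) (nat_lit 0) (nat_lit 227572052185) (nat_lit 2) (nat_lit 5) (nat_lit 4) (nat_lit 4) (nat_lit 2) (nat_lit 4) (nat_lit 379) (nat_lit 279) (nat_lit 242))))) (XT.nd (nat_lit 234) (nat_lit 0) (nat_lit 0) (XT.nd (nat_lit 78) (nat_lit 0) (nat_lit 0) (XT.lf (nat_lit 0) (nat_lit 4445328102) (nat_lit 76) (nat_lit 248690090408) (nat_lit 76) (nat_lit 244773465146) (nat_lit 1) (nat_lit 4) (nat_lit 2) (nat_lit 5) (nat_lit 2) (nat_lit 4) (nat_lit 380) (nat_lit 279) (nat_lit 241))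 (XT.nd (nat_lit 78) (nat_lit 0) (nat_lit 0) (XT.lf (nat_lit 0) (nat_lit 11589097946) (nat_lit 76) (nat_lit 264955214300) (nat_lit 76) (nat_lit 261022128564) (nat_lit 1) (nat_lit 4) (nat_lit 2) (nat_lit 5) (nat_lit 2) (nat_lit 4) (nat_lit 381) (nat_lit 279) (nat_lit 240)) (XT.lf (nat_lit 0) (nat_lit 19257247822) (nat_lit 76) (nat_lit 282544448750) (nat_lit 76) (nat_lit 278596121834) (nat_lit 1) (nat_lit 4) (nat_lit 2) (nat_lit 5) (nat_lit 2) (nat_lit 4) (nat_lit 382) (nat_lit 279) (nat_lit 239)))) (XT.nd (nat_lit 78) (nat_lit 0) (nat_lit 0) (XT.lf (nat_lit 0) (nat_lit 27495218619) (nat_lit 76) (nat_lit 301562026259) (nat_lit 76) (nat_lit 297599587139) (nat_lit 1) (nat_lit 4) (nat_lit 2) (nat_lit 5) (nat_lit 2) (nat_lit 4) (nat_lit 383) (nat_lit 279) (nat_lit 238)) (XT.nd (nat_lit 78) (nat_lit 0) (nat_lit 0) (XT.lf (nat_lit 0) (nat_lit 36351827942) (nat_lit 76) (nat_lit 322120643582) (nat_lit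 76) (nat_lit 318145137607) (nat_lit 1) (nat_lit 4) (nat_lit 2) (nat_lit 5) (nat_lit 2) (nat_lit 4) (nat_lit 384) (nat_lit 279) (nat_lit 237)) (XT.lf (nat_lit 0) (nat_lit 45879559400) (nat_lit 76) (nat_lit 344342129562) (nat_lit 76) (nat_lit 340354524648) (nat_lit 1) (nat_lit 4) (nat_lit 2) (nat_lit 5) (nat_lit 2) (nat_lit 4) (nat_lit 385) (nat_lit 279) (nat_lit 236)))))) (XT.nd (nat_lit 468) (nat_lit 0) (nat_lit 0) (XT.nd (nat_lit 234) (nat_lit 0) (nat_lit 0) (XT.nd (nat_lit 78) (nat_lit 0) (nat_lit 0) (XT.lf (nat_lit 0) (nat_lit 56134873626) (nat_lit 76) (nat_lit 368358167080) (nat_lit 76) (nat_lit 364359359444) (nat_lit 1) (nat_lit 4) (nat_lit 2) (nat_lit 5) (nat_lit 2) (nat_lit 4) (nat_lit 386) (nat_lit 279) (nat_lit 235)) (XT.nd (nat_lit 78) (nat_lit 0) (nat_lit 0) (XT.lf (nat_lit 0) (nat_lit 67178542852) (nat_lit 76) (nat_lit 394311073395) (nat_lit 76) (nat_lit 390301892868) (nat_lit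 1) (nat_lit 4) (nat_lit 2) (nat_lit 5) (nat_lit 2) (nat_lit 4) (nat_lit 387) (nat_lit 279) (nat_lit 234)) (XT.lf (nat_lit 0) (nat_lit 79076011042) (nat_lit 76) (nat_lit 422354643507) (nat_lit 76) (nat_lit 418335858452) (nat_lit 1) (nat_lit 4) (nat_lit 2) (nat_lit 5) (nat_lit 2) (nat_lit 4) (nat_lit 388) (nat_lit 279) (nat_lit 233)))) (XT.nd (nat_lit 78) (nat_lit 0) (nat_lit 0) (XT.lf (nat_lit 0) (nat_lit 91897781714) (nat_lit 76) (nat_lit 452655061536) (nat_lit 76) (nat_lit 448627383399) (nat_lit 1) (nat_lit 4) (nat_lit 2) (nat_lit 5) (nat_lit 2) (nat_lit 4) (nat_lit 389) (nat_lit 279) (nat_lit 232)) (XT.nd (nat_lit 78) (nat_lit 0) (nat_lit 0) (XT.lf (nat_lit 0) (nat_lit 105719835729) (nat_lit 76) (nat_lit 485391885514) (nat_lit 76) (nat_lit 481355973042) (nat_lit 1) (nat_lit 4) (nat_lit 2) (nat_lit 5) (nat_lit 2) (nat_lit 4) (nat_lit 390) (nat_lit 279) (nat_lit 231)) (XT.lf (nat_lit 0)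 (nat_lit 120624081556) (nat_lit 76) (nat_lit 520759111435) (nat_lit 76) (nat_lit 516715574578) (nat_lit 1) (nat_lit 4) (nat_lit 2) (nat_lit 5) (nat_lit 2) (nat_lit 4) (nat_lit 391) (nat_lit 279) (nat_lit 230))))) (XT.nd (nat_lit 42978) (nat_lit 0) (nat_lit 456) (XT.nd (nat_lit 42822) (nat_lit 0) (nat_lit 684) (XT.lf (nat_lit 0) (nat_lit 136698840651) (nat_lit 76) (nat_lit 558966322860) (nat_lit 76) (nat_lit 554915726388) (nat_lit 1) (nat_lit 4) (nat_lit 2) (nat_lit 5) (nat_lit 2) (nat_lit 4) (nat_lit 392) (nat_lit 279) (nat_lit 229)) (XT.nd (nat_lit 78) (nat_lit 0) (nat_lit 0) (XT.lf (nat_lit 0) (nat_lit 5634752491) (nat_lit 76) (nat_lit 3814696389) (nat_lit 76) (nat_lit 3814696389) (nat_lit 10) (nat_lit 4) (nat_lit 11) (nat_lit 5) (nat_lit 11) (nat_lit 4) (nat_lit 340) (nat_lit 280) (nat_lit 280)) (XT.lf (nat_lit 0) (nat_lit 26520840652) (nat_lit 76) (nat_lit 1065613148) (nat_lit 76) (nat_lit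 682315022) (nat_lit 10) (nat_lit 4) (nat_lit 11) (nat_lit 5) (nat_lit 11) (nat_lit 4) (nat_lit 341) (nat_lit 280) (nat_lit 279)))) (XT.nd (nat_lit 78) (nat_lit 76) (nat_lit 0) (XT.lf (nat_lit 0) (nat_lit 6513676150) (nat_lit 152) (nat_lit 17823394607) (nat_lit 0) (nat_lit 5810624914) (nat_lit 8) (nat_lit 5) (nat_lit 10) (nat_lit 4) (nat_lit 8) (nat_lit 4) (nat_lit 342) (nat_lit 280) (nat_lit 278)) (XT.nd (nat_lit 78) (nat_lit 76) (nat_lit 0) (XT.lf (nat_lit 0) (nat_lit 13946650899) (nat_lit 152) (nat_lit 5314933425) (nat_lit 0) (nat_lit 12930631697) (nat_lit 8) (nat_lit 5) (nat_lit 10) (nat_lit 4) (nat_lit 8) (nat_lit 4) (nat_lit 343) (nat_lit 280) (nat_lit 277)) (XT.lf (nat_lit 0) (nat_lit 7801041006) (nat_lit 76) (nat_lit 13957958160) (nat_lit 76) (nat_lit 12652153806) (nat_lit 7) (nat_lit 4) (nat_lit 8) (nat_lit 5) (nat_lit 8) (nat_lit 4) (nat_lit 344) (nat_lit 280) (nat_lit 276)))))))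 (XT.nd (nat_lit 858) (nat_lit 152) (nat_lit 0) (XT.nd (nat_lit 390) (nat_lit 76) (nat_lit 0) (XT.nd (nat_lit 156) (nat_lit 152) (nat_lit 0) (XT.nd (nat_lit 78) (nat_lit 0) (nat_lit 0) (XT.lf (nat_lit 0) (nat_lit 21541179564) (nat_lit 76) (nat_lit 8426044877) (nat_lit 76) (nat_lit 6851920936) (nat_lit 7) (nat_lit 4) (nat_lit 8) (nat_lit 5) (nat_lit 8) (nat_lit 4) (nat_lit 345) (nat_lit 280) (nat_lit 275)) (XT.lf (nat_lit 0) (nat_lit 35811169591) (nat_lit 76) (nat_lit 2723073734) (nat_lit 76) (nat_lit 900505732) (nat_lit 7) (nat_lit 4) (nat_lit 8) (nat_lit 5) (nat_lit 8) (nat_lit 4) (nat_lit 346) (nat_lit 280) (nat_lit 274))) (XT.nd (nat_lit 78) (nat_lit 0) (nat_lit 0) (XT.lf (nat_lit 0) (nat_lit 5257521502) (nat_lit 152) (nat_lit 33699808398) (nat_lit 0) (nat_lit 3302655979) (nat_lit 5) (nat_lit 5) (nat_lit 7) (nat_lit 4) (nat_lit 5) (nat_lit 4) (nat_lit 347) (nat_lit 280) (nat_lit 273))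 (XT.nd (nat_lit 78) (nat_lit 0) (nat_lit 0) (XT.lf (nat_lit 0) (nat_lit 11715665415) (nat_lit 152) (nat_lit 24045009103) (nat_lit 0) (nat_lit 9557942046) (nat_lit 5) (nat_lit 5) (nat_lit 7) (nat_lit 4) (nat_lit 5) (nat_lit 4) (nat_lit 348) (nat_lit 280) (nat_lit 272)) (XT.lf (nat_lit 0) (nat_lit 18439100542) (nat_lit 152) (nat_lit 14101918815) (nat_lit 0) (nat_lit 16093545834) (nat_lit 5) (nat_lit 5) (nat_lit 7) (nat_lit 4) (nat_lit 5) (nat_lit 4) (nat_lit 349) (nat_lit 280) (nat_lit 271))))) (XT.nd (nat_lit 234) (nat_lit 0) (nat_lit 0) (XT.nd (nat_lit 78) (nat_lit 76) (nat_lit 0) (XT.lf (nat_lit 0) (nat_lit 25467669460) (nat_lit 152) (nat_lit 3811615517) (nat_lit 0) (nat_lit 22948196846) (nat_lit 5) (nat_lit 5) (nat_lit 7) (nat_lit 4) (nat_lit 5) (nat_lit 4) (nat_lit 350) (nat_lit 280) (nat_lit 270)) (XT.nd (nat_lit 78) (nat_lit 0) (nat_lit 0) (XT.lf (nat_lit 0) (nat_lit 7114591731) (nat_lit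 76) (nat_lit 25839509932) (nat_lit 76) (nat_lit 23159002220) (nat_lit 4) (nat_lit 4) (nat_lit 5) (nat_lit 5) (nat_lit 5) (nat_lit 4) (nat_lit 351) (nat_lit 280) (nat_lit 269)) (XT.lf (nat_lit 0) (nat_lit 18654012213) (nat_lit 76) (nat_lit 22246096001) (nat_lit 76) (nat_lit 19416481716) (nat_lit 4) (nat_lit 4) (nat_lit 5) (nat_lit 5) (nat_lit 5) (nat_lit 4) (nat_lit 352) (nat_lit 280) (nat_lit 268)))) (XT.nd (nat_lit 78) (nat_lit 0) (nat_lit 0) (XT.lf (nat_lit 0) (nat_lit 30748998456) (nat_lit 76) (nat_lit 18542300432) (nat_lit 76) (nat_lit 15574624506) (nat_lit 4) (nat_lit 4) (nat_lit 5) (nat_lit 5) (nat_lit 5) (nat_lit 4) (nat_lit 353) (nat_lit 280) (nat_lit 267)) (XT.nd (nat_lit 78) (nat_lit 0) (nat_lit 0) (XT.lf (nat_lit 0) (nat_lit 43471224451) (nat_lit 76) (nat_lit 14706174807) (nat_lit 76) (nat_lit 11610664028) (nat_lit 4) (nat_lit 4) (nat_lit 5) (nat_lit 5) (nat_lit 5) (nat_lit 4)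 (nat_lit 354) (nat_lit 280) (nat_lit 266)) (XT.lf (nat_lit 0) (nat_lit 56896081169) (nat_lit 76) (nat_lit 10714986530) (nat_lit 76) (nat_lit 7501110146) (nat_lit 4) (nat_lit 4) (nat_lit 5) (nat_lit 5) (nat_lit 5) (nat_lit 4) (nat_lit 355) (nat_lit 280) (nat_lit 265)))))) (XT.nd (nat_lit 468) (nat_lit 0) (nat_lit 0) (XT.nd (nat_lit 234) (nat_lit 0) (nat_lit 0) (XT.nd (nat_lit 78) (nat_lit 152) (nat_lit 0) (XT.lf (nat_lit 0) (nat_lit 71103123315) (nat_lit 76) (nat_lit 6545084115) (nat_lit 76) (nat_lit 3221609948) (nat_lit 4) (nat_lit 4) (nat_lit 5) (nat_lit 5) (nat_lit 5) (nat_lit 4) (nat_lit 356) (nat_lit 280) (nat_lit 264)) (XT.nd (nat_lit 78) (nat_lit 76) (nat_lit 0) (XT.lf (nat_lit 0) (nat_lit 1213086449) (nat_lit 152) (nat_lit 938126373) (nat_lit 76) (nat_lit 84942910115) (nat_lit 3) (nat_lit 5) (nat_lit 5) (nat_lit 5) (nat_lit 4) (nat_lit 4) (nat_lit 357) (nat_lit 280) (nat_lit 263))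 (XT.lf (nat_lit 0) (nat_lit 5934737623) (nat_lit 152) (nat_lit 85293381531) (nat_lit 0) (nat_lit 2583389025) (nat_lit 2) (nat_lit 5) (nat_lit 4) (nat_lit 4) (nat_lit 2) (nat_lit 4) (nat_lit 358) (nat_lit 280) (nat_lit 262)))) (XT.nd (nat_lit 78) (nat_lit 0) (nat_lit 0) (XT.lf (nat_lit 0) (nat_lit 10959325434) (nat_lit 152) (nat_lit 82585607266) (nat_lit 0) (nat_lit 7525117548) (nat_lit 2) (nat_lit 5) (nat_lit 4) (nat_lit 4) (nat_lit 2) (nat_lit 4) (nat_lit 359) (nat_lit 280) (nat_lit 261)) (XT.nd (nat_lit 78) (nat_lit 0) (nat_lit 0) (XT.lf (nat_lit 0) (nat_lit 16267659636) (nat_lit 152) (nat_lit 79890821185) (nat_lit 0) (nat_lit 12756730186) (nat_lit 2) (nat_lit 5) (nat_lit 4) (nat_lit 4) (nat_lit 2) (nat_lit 4) (nat_lit 360) (nat_lit 280) (nat_lit 260)) (XT.lf (nat_lit 0) (nat_lit 21891197023) (nat_lit 152) (nat_lit 77193054184) (nat_lit 0) (nat_lit 18309229089) (nat_lit 2) (nat_lit 5)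 (nat_lit 4) (nat_lit 4) (nat_lit 2) (nat_lit 4) (nat_lit 361) (nat_lit 280) (nat_lit 259))))) (XT.nd (nat_lit 234) (nat_lit 0) (nat_lit 0) (XT.nd (nat_lit 78) (nat_lit 0) (nat_lit 0) (XT.lf (nat_lit 0) (nat_lit 27863262262) (nat_lit 152) (nat_lit 74476319496) (nat_lit 0) (nat_lit 24215517953) (nat_lit 2) (nat_lit 5) (nat_lit 4) (nat_lit 4) (nat_lit 2) (nat_lit 4) (nat_lit 362) (nat_lit 280) (nat_lit 258)) (XT.nd (nat_lit 78) (nat_lit 0) (nat_lit 0) (XT.lf (nat_lit 0) (nat_lit 34219245368) (nat_lit 152) (nat_lit 71724517953) (nat_lit 0) (nat_lit 30510597008) (nat_lit 2) (nat_lit 5) (nat_lit 4) (nat_lit 4) (nat_lit 2) (nat_lit 4) (nat_lit 363) (nat_lit 280) (nat_lit 257)) (XT.lf (nat_lit 0) (nat_lit 40996811427) (nat_lit 152) (nat_lit 68921342582) (nat_lit 0) (nat_lit 37231770428) (nat_lit 2) (nat_lit 5) (nat_lit 4) (nat_lit 4) (nat_lit 2) (nat_lit 4) (nat_lit 364) (nat_lit 280) (nat_lit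 256)))) (XT.nd (nat_lit 78) (nat_lit 0) (nat_lit 0) (XT.lf (nat_lit 0) (nat_lit 48236123793) (nat_lit 152) (nat_lit 66050181974) (nat_lit 0) (nat_lit 44418867387) (nat_lit 2) (nat_lit 5) (nat_lit 4) (nat_lit 4) (nat_lit 2) (nat_lit 4) (nat_lit 365) (nat_lit 280) (nat_lit 255)) (XT.nd (nat_lit 78) (nat_lit 0) (nat_lit 0) (XT.lf (nat_lit 0) (nat_lit 55980082096) (nat_lit 152) (nat_lit 63094021844) (nat_lit 0) (nat_lit 52114478090) (nat_lit 2) (nat_lit 5) (nat_lit 4) (nat_lit 4) (nat_lit 2) (nat_lit 4) (nat_lit 366) (nat_lit 280) (nat_lit 254)) (XT.lf (nat_lit 0) (nat_lit 64274576457) (nat_lit 152) (nat_lit 60035344206) (nat_lit 0) (nat_lit 60364206157) (nat_lit 2) (nat_lit 5) (nat_lit 4) (nat_lit 4) (nat_lit 2) (nat_lit 4) (nat_lit 367) (nat_lit 280) (nat_lit 253))))))))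
noncomputable def xc16 : XT := (XT.nd (nat_lit 1716) (nat_lit 0) (nat_lit 0) (XT.nd (nat_lit 858) (nat_lit 76) (nat_lit 0) (XT.nd (nat_lit 390) (nat_lit 0) (nat_lit 0) (XT.nd (nat_lit 156) (nat_lit 0) (nat_lit 0) (XT.nd (nat_lit 78) (nat_lit 0) (nat_lit 0) (XT.lf (nat_lit 0) (nat_lit 73168759438) (nat_lit 152) (nat_lit 56856023562) (nat_lit 0) (nat_lit 69216938863) (nat_lit 2) (nat_lit 5) (nat_lit 4) (nat_lit 4) (nat_lit 2) (nat_lit 4) (nat_lit 368) (nat_lit 280) (nat_lit 252)) (XT.lf (nat_lit 0) (nat_lit 82715337306) (nat_lit 152) (nat_lit 53537219494) (nat_lit 0) (nat_lit 78725136849) (nat_lit 2) (nat_lit 5) (nat_lit 4) (nat_lit 4) (nat_lit 2) (nat_lit 4) (nat_lit 369) (nat_lit 280) (nat_lit 251))) (XT.nd (nat_lit 78) (nat_lit 0) (nat_lit 0) (XT.lf (nat_lit 0) (nat_lit 92970882375) (nat_lit 152) (nat_lit 50059265015) (nat_lit 0) (nat_lit 88945144990) (nat_lit 2) (nat_lit 5) (nat_lit 4)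 (nat_lit 4) (nat_lit 2) (nat_lit 4) (nat_lit 370) (nat_lit 280) (nat_lit 250)) (XT.nd (nat_lit 78) (nat_lit 0) (nat_lit 0) (XT.lf (nat_lit 0) (nat_lit 103996168247) (nat_lit 152) (nat_lit 46401550025) (nat_lit 0) (nat_lit 99937526297) (nat_lit 2) (nat_lit 5) (nat_lit 4) (nat_lit 4) (nat_lit 2) (nat_lit 4) (nat_lit 371) (nat_lit 280) (nat_lit 249)) (XT.lf (nat_lit 0) (nat_lit 115856529947) (nat_lit 152) (nat_lit 42542399175) (nat_lit 0) (nat_lit 111767420809) (nat_lit 2) (nat_lit 5) (nat_lit 4) (nat_lit 4) (nat_lit 2) (nat_lit 4) (nat_lit 372) (nat_lit 280) (nat_lit 248))))) (XT.nd (nat_lit 234) (nat_lit 0) (nat_lit 0) (XT.nd (nat_lit 78) (nat_lit 0) (nat_lit 0) (XT.lf (nat_lit 0) (nat_lit 128622251101) (nat_lit 152) (nat_lit 38458943423) (nat_lit 0) (nat_lit 124504931604) (nat_lit 2) (nat_lit 5) (nat_lit 4) (nat_lit 4) (nat_lit 2) (nat_lit 4) (nat_lit 373) (nat_lit 280) (nat_lit 247)) (XT.nd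 (nat_lit 78) (nat_lit 0) (nat_lit 0) (XT.lf (nat_lit 0) (nat_lit 142368980428) (nat_lit 152) (nat_lit 34126984513) (nat_lit 0) (nat_lit 138225540227) (nat_lit 2) (nat_lit 5) (nat_lit 4) (nat_lit 4) (nat_lit 2) (nat_lit 4) (nat_lit 374) (nat_lit 280) (nat_lit 246)) (XT.lf (nat_lit 0) (nat_lit 157178180026) (nat_lit 152) (nat_lit 29520851577) (nat_lit 0) (nat_lit 153010553988) (nat_lit 2) (nat_lit 5) (nat_lit 4) (nat_lit 4) (nat_lit 2) (nat_lit 4) (nat_lit 375) (nat_lit 280) (nat_lit 245)))) (XT.nd (nat_lit 78) (nat_lit 0) (nat_lit 0) (XT.lf (nat_lit 0) (nat_lit 173137608115) (nat_lit 152) (nat_lit 24613249013) (nat_lit 0) (nat_lit 168947587785) (nat_lit 2) (nat_lit 5) (nat_lit 4) (nat_lit 4) (nat_lit 2) (nat_lit 4) (nat_lit 376) (nat_lit 280) (nat_lit 244)) (XT.nd (nat_lit 78) (nat_lit 0) (nat_lit 0) (XT.lf (nat_lit 0) (nat_lit 190341839085) (nat_lit 152) (nat_lit 19375094731) (nat_lit 0)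 (nat_lit 186131083298) (nat_lit 2) (nat_lit 5) (nat_lit 4) (nat_lit 4) (nat_lit 2) (nat_lit 4) (nat_lit 377) (nat_lit 280) (nat_lit 243)) (XT.lf (nat_lit 0) (nat_lit 208892823933) (nat_lit 152) (nat_lit 13775347817) (nat_lit 0) (nat_lit 204662868649) (nat_lit 2) (nat_lit 5) (nat_lit 4) (nat_lit 4) (nat_lit 2) (nat_lit 4) (nat_lit 378) (nat_lit 280) (nat_lit 242)))))) (XT.nd (nat_lit 390) (nat_lit 0) (nat_lit 0) (XT.nd (nat_lit 156) (nat_lit 76) (nat_lit 0) (XT.nd (nat_lit 78) (nat_lit 0) (nat_lit 0) (XT.lf (nat_lit 0) (nat_lit 228900494421) (nat_lit 152) (nat_lit 7780824586) (nat_lit 0) (nat_lit 224652761826) (nat_lit 2) (nat_lit 5) (nat_lit 4) (nat_lit 4) (nat_lit 2) (nat_lit 4) (nat_lit 379) (nat_lit 280) (nat_lit 241)) (XT.lf (nat_lit 0) (nat_lit 250483414524) (nat_lit 152) (nat_lit 1356001938) (nat_lit 0) (nat_lit 246219221455) (nat_lit 2) (nat_lit 5) (nat_lit 4) (nat_lit 4) (nat_lit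 2) (nat_lit 4) (nat_lit 380) (nat_lit 280) (nat_lit 240))) (XT.nd (nat_lit 78) (nat_lit 0) (nat_lit 0) (XT.lf (nat_lit 0) (nat_lit 5720277764) (nat_lit 76) (nat_lit 268138514829) (nat_lit 76) (nat_lit 263859080580) (nat_lit 1) (nat_lit 4) (nat_lit 2) (nat_lit 5) (nat_lit 2) (nat_lit 4) (nat_lit 381) (nat_lit 280) (nat_lit 239)) (XT.nd (nat_lit 78) (nat_lit 0) (nat_lit 0) (XT.lf (nat_lit 0) (nat_lit 13367451164) (nat_lit 76) (nat_lit 285737943655) (nat_lit 76) (nat_lit 281444397203) (nat_lit 1) (nat_lit 4) (nat_lit 2) (nat_lit 5) (nat_lit 2) (nat_lit 4) (nat_lit 382) (nat_lit 280) (nat_lit 238)) (XT.lf (nat_lit 0) (nat_lit 21585999299) (nat_lit 76) (nat_lit 304764960401) (nat_lit 76) (nat_lit 300458347094) (nat_lit 1) (nat_lit 4) (nat_lit 2) (nat_lit 5) (nat_lit 2) (nat_lit 4) (nat_lit 383) (nat_lit 280) (nat_lit 237))))) (XT.nd (nat_lit 234) (nat_lit 0) (nat_lit 0) (XT.nd (nat_lit 78) (nat_lit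 0) (nat_lit 0) (XT.lf (nat_lit 0) (nat_lit 30424624674) (nat_lit 76) (nat_lit 325332317759) (nat_lit 76) (nat_lit 321013605512) (nat_lit 1) (nat_lit 4) (nat_lit 2) (nat_lit 5) (nat_lit 2) (nat_lit 4) (nat_lit 384) (nat_lit 280) (nat_lit 236)) (XT.nd (nat_lit 78) (nat_lit 0) (nat_lit 0) (XT.lf (nat_lit 0) (nat_lit 39935704330) (nat_lit 76) (nat_lit 347561896364) (nat_lit 76) (nat_lit 343231981395) (nat_lit 1) (nat_lit 4) (nat_lit 2) (nat_lit 5) (nat_lit 2) (nat_lit 4) (nat_lit 385) (nat_lit 280) (nat_lit 235)) (XT.lf (nat_lit 0) (nat_lit 50175600220) (nat_lit 76) (nat_lit 371585427053) (nat_lit 76) (nat_lit 367245139193) (nat_lit 1) (nat_lit 4) (nat_lit 2) (nat_lit 5) (nat_lit 2) (nat_lit 4) (nat_lit 386) (nat_lit 280) (nat_lit 234)))) (XT.nd (nat_lit 78) (nat_lit 0) (nat_lit 0) (XT.lf (nat_lit 0) (nat_lit 61204993209) (nat_lit 76) (nat_lit 397545271489) (nat_lit 76) (nat_lit 393195379101)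 (nat_lit 1) (nat_lit 4) (nat_lit 2) (nat_lit 5) (nat_lit 2) (nat_lit 4) (nat_lit 387) (nat_lit 280) (nat_lit 233)) (XT.nd (nat_lit 78) (nat_lit 0) (nat_lit 0) (XT.lf (nat_lit 0) (nat_lit 73089242662) (nat_lit 76) (nat_lit 425595265787) (nat_lit 76) (nat_lit 421236480317) (nat_lit 1) (nat_lit 4) (nat_lit 2) (nat_lit 5) (nat_lit 2) (nat_lit 4) (nat_lit 388) (nat_lit 280) (nat_lit 232)) (XT.lf (nat_lit 0) (nat_lit 85898773761) (nat_lit 76) (nat_lit 455901632136) (nat_lit 76) (nat_lit 451534612331) (nat_lit 1) (nat_lit 4) (nat_lit 2) (nat_lit 5) (nat_lit 2) (nat_lit 4) (nat_lit 389) (nat_lit 280) (nat_lit 231))))))) (XT.nd (nat_lit 43446) (nat_lit 0) (nat_lit 228) (XT.nd (nat_lit 42978) (nat_lit 0) (nat_lit 456) (XT.nd (nat_lit 156) (nat_lit 0) (nat_lit 0) (XT.nd (nat_lit 78) (nat_lit 0) (nat_lit 0) (XT.lf (nat_lit 0) (nat_lit 99709494839) (nat_lit 76) (nat_lit 488643963819) (nat_lit 76) (nat_lit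 484269319629) (nat_lit 1) (nat_lit 4) (nat_lit 2) (nat_lit 5) (nat_lit 2) (nat_lit 4) (nat_lit 390) (nat_lit 280) (nat_lit 230)) (XT.lf (nat_lit 0) (nat_lit 114603247205) (nat_lit 76) (nat_lit 524016289466) (nat_lit 76) (nat_lit 519634585661) (nat_lit 1) (nat_lit 4) (nat_lit 2) (nat_lit 5) (nat_lit 2) (nat_lit 4) (nat_lit 391) (nat_lit 280) (nat_lit 229))) (XT.nd (nat_lit 42666) (nat_lit 0) (nat_lit 760) (XT.lf (nat_lit 0) (nat_lit 130668290134) (nat_lit 76) (nat_lit 562228222860) (nat_lit 76) (nat_lit 557839982375) (nat_lit 1) (nat_lit 4) (nat_lit 2) (nat_lit 5) (nat_lit 2) (nat_lit 4) (nat_lit 392) (nat_lit 280) (nat_lit 228)) (XT.nd (nat_lit 78) (nat_lit 0) (nat_lit 0) (XT.lf (nat_lit 0) (nat_lit 1595599948) (nat_lit 152) (nat_lit 8536952158) (nat_lit 0) (nat_lit 1595599948) (nat_lit 11) (nat_lit 5) (nat_lit 13) (nat_lit 4) (nat_lit 11) (nat_lit 4) (nat_lit 338) (nat_lit 281) (nat_lit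 281)) (XT.lf (nat_lit 0) (nat_lit 10954228219) (nat_lit 152) (nat_lit 3438084387) (nat_lit 0) (nat_lit 10540266243) (nat_lit 11) (nat_lit 5) (nat_lit 13) (nat_lit 4) (nat_lit 11) (nat_lit 4) (nat_lit 339) (nat_lit 281) (nat_lit 280))))) (XT.nd (nat_lit 234) (nat_lit 76) (nat_lit 0) (XT.nd (nat_lit 78) (nat_lit 152) (nat_lit 0) (XT.lf (nat_lit 0) (nat_lit 10906219533) (nat_lit 76) (nat_lit 8214498275) (nat_lit 76) (nat_lit 7417238173) (nat_lit 10) (nat_lit 4) (nat_lit 11) (nat_lit 5) (nat_lit 11) (nat_lit 4) (nat_lit 340) (nat_lit 281) (nat_lit 279)) (XT.nd (nat_lit 78) (nat_lit 152) (nat_lit 0) (XT.lf (nat_lit 0) (nat_lit 25821179785) (nat_lit 76) (nat_lit 1809184868) (nat_lit 76) (nat_lit 657019093) (nat_lit 10) (nat_lit 4) (nat_lit 11) (nat_lit 5) (nat_lit 11) (nat_lit 4) (nat_lit 341) (nat_lit 281) (nat_lit 278)) (XT.lf (nat_lit 0) (nat_lit 6339765979) (nat_lit 152) (nat_lit 18906995057)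 (nat_lit 0) (nat_lit 4929497276) (nat_lit 8) (nat_lit 5) (nat_lit 10) (nat_lit 4) (nat_lit 8) (nat_lit 4) (nat_lit 342) (nat_lit 281) (nat_lit 277)))) (XT.nd (nat_lit 78) (nat_lit 76) (nat_lit 0) (XT.lf (nat_lit 0) (nat_lit 13610692375) (nat_lit 152) (nat_lit 6707594296) (nat_lit 0) (nat_lit 11910638519) (nat_lit 8) (nat_lit 5) (nat_lit 10) (nat_lit 4) (nat_lit 8) (nat_lit 4) (nat_lit 343) (nat_lit 281) (nat_lit 276)) (XT.nd (nat_lit 78) (nat_lit 0) (nat_lit 0) (XT.lf (nat_lit 0) (nat_lit 6066703445) (nat_lit 76) (nat_lit 15179214557) (nat_lit 76) (nat_lit 13210841116) (nat_lit 7) (nat_lit 4) (nat_lit 8) (nat_lit 5) (nat_lit 8) (nat_lit 4) (nat_lit 344) (nat_lit 281) (nat_lit 275)) (XT.lf (nat_lit 0) (nat_lit 19533111419) (nat_lit 76) (nat_lit 9777827814) (nat_lit 76) (nat_lit 7561010311) (nat_lit 7) (nat_lit 4) (nat_lit 8) (nat_lit 5) (nat_lit 8) (nat_lit 4) (nat_lit 345) (nat_lit 281)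 (nat_lit 274)))))) (XT.nd (nat_lit 468) (nat_lit 0) (nat_lit 0) (XT.nd (nat_lit 234) (nat_lit 76) (nat_lit 0) (XT.nd (nat_lit 78) (nat_lit 152) (nat_lit 0) (XT.lf (nat_lit 0) (nat_lit 33549647200) (nat_lit 76) (nat_lit 4195714579) (nat_lit 76) (nat_lit 1748856278) (nat_lit 7) (nat_lit 4) (nat_lit 8) (nat_lit 5) (nat_lit 8) (nat_lit 4) (nat_lit 346) (nat_lit 281) (nat_lit 273)) (XT.nd (nat_lit 78) (nat_lit 0) (nat_lit 0) (XT.lf (nat_lit 0) (nat_lit 4244768380) (nat_lit 152) (nat_lit 36373388095) (nat_lit 0) (nat_lit 1711569295) (nat_lit 5) (nat_lit 5) (nat_lit 7) (nat_lit 4) (nat_lit 5) (nat_lit 4) (nat_lit 347) (nat_lit 281) (nat_lit 272)) (XT.lf (nat_lit 0) (nat_lit 10582065995) (nat_lit 152) (nat_lit 26951325795) (nat_lit 0) (nat_lit 7861035572) (nat_lit 5) (nat_lit 5) (nat_lit 7) (nat_lit 4) (nat_lit 5) (nat_lit 4) (nat_lit 348) (nat_lit 281) (nat_lit 271)))) (XT.nd (nat_lit 78) (nat_lit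 76) (nat_lit 0) (XT.lf (nat_lit 0) (nat_lit 17193606401) (nat_lit 152) (nat_lit 17223732725) (nat_lit 0) (nat_lit 14298658072) (nat_lit 5) (nat_lit 5) (nat_lit 7) (nat_lit 4) (nat_lit 5) (nat_lit 4) (nat_lit 349) (nat_lit 281) (nat_lit 270)) (XT.nd (nat_lit 78) (nat_lit 76) (nat_lit 0) (XT.lf (nat_lit 0) (nat_lit 24118569097) (nat_lit 152) (nat_lit 7132963888) (nat_lit 0) (nat_lit 21062585669) (nat_lit 5) (nat_lit 5) (nat_lit 7) (nat_lit 4) (nat_lit 5) (nat_lit 4) (nat_lit 350) (nat_lit 281) (nat_lit 269)) (XT.lf (nat_lit 0) (nat_lit 3492561647) (nat_lit 76) (nat_lit 27959957925) (nat_lit 76) (nat_lit 24754867925) (nat_lit 4) (nat_lit 4) (nat_lit 5) (nat_lit 5) (nat_lit 5) (nat_lit 4) (nat_lit 351) (nat_lit 281) (nat_lit 268))))) (XT.nd (nat_lit 234) (nat_lit 0) (nat_lit 0) (XT.nd (nat_lit 78) (nat_lit 0) (nat_lit 0) (XT.lf (nat_lit 0) (nat_lit 14855257188) (nat_lit 76) (nat_lit 24451684127)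 (nat_lit 76) (nat_lit 21108532485) (nat_lit 4) (nat_lit 4) (nat_lit 5) (nat_lit 5) (nat_lit 5) (nat_lit 4) (nat_lit 352) (nat_lit 281) (nat_lit 267)) (XT.nd (nat_lit 78) (nat_lit 0) (nat_lit 0) (XT.lf (nat_lit 0) (nat_lit 26786609225) (nat_lit 76) (nat_lit 20826722015) (nat_lit 76) (nat_lit 17355735520) (nat_lit 4) (nat_lit 4) (nat_lit 5) (nat_lit 5) (nat_lit 5) (nat_lit 4) (nat_lit 353) (nat_lit 281) (nat_lit 266)) (XT.lf (nat_lit 0) (nat_lit 39357322068) (nat_lit 76) (nat_lit 17063590331) (nat_lit 76) (nat_lit 13474238232) (nat_lit 4) (nat_lit 4) (nat_lit 5) (nat_lit 5) (nat_lit 5) (nat_lit 4) (nat_lit 354) (nat_lit 281) (nat_lit 265)))) (XT.nd (nat_lit 78) (nat_lit 0) (nat_lit 0) (XT.lf (nat_lit 0) (nat_lit 52641888830) (nat_lit 76) (nat_lit 13139989037) (nat_lit 76) (nat_lit 9441039155) (nat_lit 4) (nat_lit 4) (nat_lit 5) (nat_lit 5) (nat_lit 5) (nat_lit 4) (nat_lit 355) (nat_lit 281)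 (nat_lit 264)) (XT.nd (nat_lit 78) (nat_lit 0) (nat_lit 0) (XT.lf (nat_lit 0) (nat_lit 66719032868) (nat_lit 76) (nat_lit 9032667161) (nat_lit 76) (nat_lit 5232237851) (nat_lit 4) (nat_lit 4) (nat_lit 5) (nat_lit 5) (nat_lit 5) (nat_lit 4) (nat_lit 356) (nat_lit 281) (nat_lit 263)) (XT.lf (nat_lit 0) (nat_lit 81672174297) (nat_lit 76) (nat_lit 4717285018) (nat_lit 76) (nat_lit 822893275) (nat_lit 4) (nat_lit 4) (nat_lit 5) (nat_lit 5) (nat_lit 5) (nat_lit 4) (nat_lit 357) (nat_lit 281) (nat_lit 262))))))))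
noncomputable def xc17 : XT := (XT.nd (nat_lit 1716) (nat_lit 76) (nat_lit 0) (XT.nd (nat_lit 858) (nat_lit 0) (nat_lit 0) (XT.nd (nat_lit 390) (nat_lit 0) (nat_lit 0) (XT.nd (nat_lit 156) (nat_lit 0) (nat_lit 0) (XT.nd (nat_lit 78) (nat_lit 0) (nat_lit 0) (XT.lf (nat_lit 0) (nat_lit 3703867381) (nat_lit 76) (nat_lit 45040607) (nat_lit 152) (nat_lit 90190294224) (nat_lit 2) (nat_lit 5) (nat_lit 3) (nat_lit 5) (nat_lit 4) (nat_lit 4) (nat_lit 358) (nat_lit 281) (nat_lit 261)) (XT.lf (nat_lit 0) (nat_lit 8715955746) (nat_lit 152) (nat_lit 87637246839) (nat_lit 0) (nat_lit 4847430377) (nat_lit 2) (nat_lit 5) (nat_lit 4) (nat_lit 4) (nat_lit 2) (nat_lit 4) (nat_lit 359) (nat_lit 281) (nat_lit 260))) (XT.nd (nat_lit 78) (nat_lit 0) (nat_lit 0) (XT.lf (nat_lit 0) (nat_lit 13971663241) (nat_lit 152) (nat_lit 85044673242) (nat_lit 0) (nat_lit 10032099387) (nat_lit 2) (nat_lit 5) (nat_lit 4) (nat_lit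 4) (nat_lit 2) (nat_lit 4) (nat_lit 360) (nat_lit 281) (nat_lit 259)) (XT.nd (nat_lit 78) (nat_lit 0) (nat_lit 0) (XT.lf (nat_lit 0) (nat_lit 19546472195) (nat_lit 152) (nat_lit 82441547430) (nat_lit 0) (nat_lit 15541131967) (nat_lit 2) (nat_lit 5) (nat_lit 4) (nat_lit 4) (nat_lit 2) (nat_lit 4) (nat_lit 361) (nat_lit 281) (nat_lit 258)) (XT.lf (nat_lit 0) (nat_lit 25473418515) (nat_lit 152) (nat_lit 79812443473) (nat_lit 0) (nat_lit 21407174236) (nat_lit 2) (nat_lit 5) (nat_lit 4) (nat_lit 4) (nat_lit 2) (nat_lit 4) (nat_lit 362) (nat_lit 281) (nat_lit 257))))) (XT.nd (nat_lit 234) (nat_lit 0) (nat_lit 0) (XT.nd (nat_lit 78) (nat_lit 0) (nat_lit 0) (XT.lf (nat_lit 0) (nat_lit 31787624845) (nat_lit 152) (nat_lit 77141781495) (nat_lit 0) (nat_lit 27664987926) (nat_lit 2) (nat_lit 5) (nat_lit 4) (nat_lit 4) (nat_lit 2) (nat_lit 4) (nat_lit 363) (nat_lit 281) (nat_lit 256)) (XT.nd (nat_lit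 78) (nat_lit 0) (nat_lit 0) (XT.lf (nat_lit 0) (nat_lit 38526508703) (nat_lit 152) (nat_lit 74413735352) (nat_lit 0) (nat_lit 34351656377) (nat_lit 2) (nat_lit 5) (nat_lit 4) (nat_lit 4) (nat_lit 2) (nat_lit 4) (nat_lit 364) (nat_lit 281) (nat_lit 255)) (XT.lf (nat_lit 0) (nat_lit 45730004217) (nat_lit 152) (nat_lit 71612138843) (nat_lit 0) (nat_lit 41506804292) (nat_lit 2) (nat_lit 5) (nat_lit 4) (nat_lit 4) (nat_lit 2) (nat_lit 4) (nat_lit 365) (nat_lit 281) (nat_lit 254)))) (XT.nd (nat_lit 78) (nat_lit 0) (nat_lit 0) (XT.lf (nat_lit 0) (nat_lit 53440798767) (nat_lit 152) (nat_lit 68720389916) (nat_lit 0) (nat_lit 49172832547) (nat_lit 2) (nat_lit 5) (nat_lit 4) (nat_lit 4) (nat_lit 2) (nat_lit 4) (nat_lit 366) (nat_lit 281) (nat_lit 253)) (XT.nd (nat_lit 78) (nat_lit 0) (nat_lit 0) (XT.lf (nat_lit 0) (nat_lit 61704585950) (nat_lit 152) (nat_lit 65721352280) (nat_lit 0) (nat_lit 57395169457)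 (nat_lit 2) (nat_lit 5) (nat_lit 4) (nat_lit 4) (nat_lit 2) (nat_lit 4) (nat_lit 367) (nat_lit 281) (nat_lit 252)) (XT.lf (nat_lit 0) (nat_lit 70570336358) (nat_lit 152) (nat_lit 62597253861) (nat_lit 0) (nat_lit 66222539982) (nat_lit 2) (nat_lit 5) (nat_lit 4) (nat_lit 4) (nat_lit 2) (nat_lit 4) (nat_lit 368) (nat_lit 281) (nat_lit 251)))))) (XT.nd (nat_lit 390) (nat_lit 0) (nat_lit 0) (XT.nd (nat_lit 156) (nat_lit 0) (nat_lit 0) (XT.nd (nat_lit 78) (nat_lit 0) (nat_lit 0) (XT.lf (nat_lit 0) (nat_lit 80090587771) (nat_lit 152) (nat_lit 59329581483) (nat_lit 0) (nat_lit 75707254465) (nat_lit 2) (nat_lit 5) (nat_lit 4) (nat_lit 4) (nat_lit 2) (nat_lit 4) (nat_lit 369) (nat_lit 281) (nat_lit 250)) (XT.lf (nat_lit 0) (nat_lit 90321756492) (nat_lit 152) (nat_lit 55898971161) (nat_lit 0) (nat_lit 85905518623) (nat_lit 2) (nat_lit 5) (nat_lit 4) (nat_lit 4) (nat_lit 2) (nat_lit 4) (nat_lit 370)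 (nat_lit 281) (nat_lit 249))) (XT.nd (nat_lit 78) (nat_lit 0) (nat_lit 0) (XT.lf (nat_lit 0) (nat_lit 101324471671) (nat_lit 152) (nat_lit 52285093353) (nat_lit 0) (nat_lit 96877766614) (nat_lit 2) (nat_lit 5) (nat_lit 4) (nat_lit 4) (nat_lit 2) (nat_lit 4) (nat_lit 371) (nat_lit 281) (nat_lit 248)) (XT.nd (nat_lit 78) (nat_lit 0) (nat_lit 0) (XT.lf (nat_lit 0) (nat_lit 113163934582) (nat_lit 152) (nat_lit 48466532487) (nat_lit 0) (nat_lit 108689019165) (nat_lit 2) (nat_lit 5) (nat_lit 4) (nat_lit 4) (nat_lit 2) (nat_lit 4) (nat_lit 372) (nat_lit 281) (nat_lit 247)) (XT.lf (nat_lit 0) (nat_lit 125910305005) (nat_lit 152) (nat_lit 44420660053) (nat_lit 0) (nat_lit 121409268885) (nat_lit 2) (nat_lit 5) (nat_lit 4) (nat_lit 4) (nat_lit 2) (nat_lit 4) (nat_lit 373) (nat_lit 281) (nat_lit 246))))) (XT.nd (nat_lit 234) (nat_lit 0) (nat_lit 0) (XT.nd (nat_lit 78) (nat_lit 0) (nat_lit 0) (XT.lf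 (nat_lit 0) (nat_lit 139639116988) (nat_lit 152) (nat_lit 40123500511) (nat_lit 0) (nat_lit 135113895031) (nat_lit 2) (nat_lit 5) (nat_lit 4) (nat_lit 4) (nat_lit 2) (nat_lit 4) (nat_lit 374) (nat_lit 281) (nat_lit 245)) (XT.nd (nat_lit 78) (nat_lit 0) (nat_lit 0) (XT.lf (nat_lit 0) (nat_lit 154431726453) (nat_lit 152) (nat_lit 35549589213) (nat_lit 0) (nat_lit 149884110203) (nat_lit 2) (nat_lit 5) (nat_lit 4) (nat_lit 4) (nat_lit 2) (nat_lit 4) (nat_lit 375) (nat_lit 281) (nat_lit 244)) (XT.lf (nat_lit 0) (nat_lit 170375793308) (nat_lit 152) (nat_lit 30671821499) (nat_lit 0) (nat_lit 165807441602) (nat_lit 2) (nat_lit 5) (nat_lit 4) (nat_lit 4) (nat_lit 2) (nat_lit 4) (nat_lit 376) (nat_lit 281) (nat_lit 243)))) (XT.nd (nat_lit 78) (nat_lit 0) (nat_lit 0) (XT.lf (nat_lit 0) (nat_lit 187565800913) (nat_lit 152) (nat_lit 25461292078) (nat_lit 0) (nat_lit 182978249710) (nat_lit 2) (nat_lit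 5) (nat_lit 4) (nat_lit 4) (nat_lit 2) (nat_lit 4) (nat_lit 377) (nat_lit 281) (nat_lit 242)) (XT.nd (nat_lit 78) (nat_lit 0) (nat_lit 0) (XT.lf (nat_lit 0) (nat_lit 206103615979) (nat_lit 152) (nat_lit 19887123739) (nat_lit 0) (nat_lit 201498287464) (nat_lit 2) (nat_lit 5) (nat_lit 4) (nat_lit 4) (nat_lit 2) (nat_lit 4) (nat_lit 378) (nat_lit 281) (nat_lit 241)) (XT.lf (nat_lit 0) (nat_lit 226099092225) (nat_lit 152) (nat_lit 13916284374) (nat_lit 0) (nat_lit 221477303236) (nat_lit 2) (nat_lit 5) (nat_lit 4) (nat_lit 4) (nat_lit 2) (nat_lit 4) (nat_lit 379) (nat_lit 281) (nat_lit 240))))))) (XT.nd (nat_lit 858) (nat_lit 0) (nat_lit 0) (XT.nd (nat_lit 390) (nat_lit 0) (nat_lit 0) (XT.nd (nat_lit 156) (nat_lit 76) (nat_lit 0) (XT.nd (nat_lit 78) (nat_lit 0) (nat_lit 0) (XT.lf (nat_lit 0) (nat_lit 247670721362) (nat_lit 152) (nat_lit 7513391231) (nat_lit 0) (nat_lit 243033691193) (nat_lit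 2) (nat_lit 5) (nat_lit 4) (nat_lit 4) (nat_lit 2) (nat_lit 4) (nat_lit 380) (nat_lit 281) (nat_lit 239)) (XT.lf (nat_lit 0) (nat_lit 270946335266) (nat_lit 152) (nat_lit 640501238) (nat_lit 0) (nat_lit 266295192894) (nat_lit 2) (nat_lit 5) (nat_lit 4) (nat_lit 4) (nat_lit 2) (nat_lit 4) (nat_lit 381) (nat_lit 281) (nat_lit 238))) (XT.nd (nat_lit 78) (nat_lit 0) (nat_lit 0) (XT.lf (nat_lit 0) (nat_lit 6966071635) (nat_lit 76) (nat_lit 289206551767) (nat_lit 76) (nat_lit 284542342540) (nat_lit 1) (nat_lit 4) (nat_lit 2) (nat_lit 5) (nat_lit 2) (nat_lit 4) (nat_lit 382) (nat_lit 281) (nat_lit 237)) (XT.nd (nat_lit 78) (nat_lit 0) (nat_lit 0) (XT.lf (nat_lit 0) (nat_lit 15166635823) (nat_lit 76) (nat_lit 308242308547) (nat_lit 76) (nat_lit 303566000381) (nat_lit 1) (nat_lit 4) (nat_lit 2) (nat_lit 5) (nat_lit 2) (nat_lit 4) (nat_lit 383) (nat_lit 281) (nat_lit 236)) (XT.lf (nat_lit 0) (nat_lit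 23988609396) (nat_lit 76) (nat_lit 328817758529) (nat_lit 76) (nat_lit 324130247641) (nat_lit 1) (nat_lit 4) (nat_lit 2) (nat_lit 5) (nat_lit 2) (nat_lit 4) (nat_lit 384) (nat_lit 281) (nat_lit 235))))) (XT.nd (nat_lit 234) (nat_lit 0) (nat_lit 0) (XT.nd (nat_lit 78) (nat_lit 0) (nat_lit 0) (XT.lf (nat_lit 0) (nat_lit 33484270716) (nat_lit 76) (nat_lit 351054830305) (nat_lit 76) (nat_lit 346356946526) (nat_lit 1) (nat_lit 4) (nat_lit 2) (nat_lit 5) (nat_lit 2) (nat_lit 4) (nat_lit 385) (nat_lit 281) (nat_lit 234)) (XT.nd (nat_lit 78) (nat_lit 0) (nat_lit 0) (XT.lf (nat_lit 0) (nat_lit 43709890369) (nat_lit 76) (nat_lit 375085299115) (nat_lit 76) (nat_lit 370377810808) (nat_lit 1) (nat_lit 4) (nat_lit 2) (nat_lit 5) (nat_lit 2) (nat_lit 4) (nat_lit 386) (nat_lit 281) (nat_lit 233)) (XT.lf (nat_lit 0) (nat_lit 54726064620) (nat_lit 76) (nat_lit 401051567737) (nat_lit 76) (nat_lit 396335186348)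 (nat_lit 1) (nat_lit 4) (nat_lit 2) (nat_lit 5) (nat_lit 2) (nat_lit 4) (nat_lit 387) (nat_lit 281) (nat_lit 232)))) (XT.nd (nat_lit 78) (nat_lit 0) (nat_lit 0) (XT.lf (nat_lit 0) (nat_lit 66598074500) (nat_lit 76) (nat_lit 429107510356) (nat_lit 76) (nat_lit 424382894632) (nat_lit 1) (nat_lit 4) (nat_lit 2) (nat_lit 5) (nat_lit 2) (nat_lit 4) (nat_lit 388) (nat_lit 281) (nat_lit 231)) (XT.nd (nat_lit 78) (nat_lit 0) (nat_lit 0) (XT.lf (nat_lit 0) (nat_lit 79396272662) (nat_lit 76) (nat_lit 459419384410) (nat_lit 76) (nat_lit 454687144301) (nat_lit 1) (nat_lit 4) (nat_lit 2) (nat_lit 5) (nat_lit 2) (nat_lit 4) (nat_lit 389) (nat_lit 281) (nat_lit 230)) (XT.lf (nat_lit 0) (nat_lit 93196500280) (nat_lit 76) (nat_lit 492166815818) (nat_lit 76) (nat_lit 487427516094) (nat_lit 1) (nat_lit 4) (nat_lit 2) (nat_lit 5) (nat_lit 2) (nat_lit 4) (nat_lit 390) (nat_lit 281) (nat_lit 229)))))) (XT.nd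 (nat_lit 42900) (nat_lit 0) (nat_lit 456) (XT.nd (nat_lit 42666) (nat_lit 0) (nat_lit 760) (XT.nd (nat_lit 78) (nat_lit 0) (nat_lit 0) (XT.lf (nat_lit 0) (nat_lit 108080536480) (nat_lit 76) (nat_lit 527543863434) (nat_lit 76) (nat_lit 522798027030) (nat_lit 1) (nat_lit 4) (nat_lit 2) (nat_lit 5) (nat_lit 2) (nat_lit 4) (nat_lit 391) (nat_lit 281) (nat_lit 228)) (XT.nd (nat_lit 42510) (nat_lit 0) (nat_lit 988) (XT.lf (nat_lit 0) (nat_lit 124136582958) (nat_lit 76) (nat_lit 565760169021) (nat_lit 76) (nat_lit 561008280135) (nat_lit 1) (nat_lit 4) (nat_lit 2) (nat_lit 5) (nat_lit 2) (nat_lit 4) (nat_lit 392) (nat_lit 281) (nat_lit 227)) (XT.lf (nat_lit 0) (nat_lit 4939962414) (nat_lit 152) (nat_lit 537795459) (nat_lit 0) (nat_lit 4939962414) (nat_lit 14) (nat_lit 5) (nat_lit 16) (nat_lit 4) (nat_lit 14) (nat_lit 4) (nat_lit 336) (nat_lit 282) (nat_lit 282)))) (XT.nd (nat_lit 78) (nat_lit 152)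 (nat_lit 0) (XT.lf (nat_lit 0) (nat_lit 13907808278) (nat_lit 76) (nat_lit 4328709280) (nat_lit 76) (nat_lit 3859276399) (nat_lit 13) (nat_lit 4) (nat_lit 14) (nat_lit 5) (nat_lit 14) (nat_lit 4) (nat_lit 337) (nat_lit 282) (nat_lit 281)) (XT.nd (nat_lit 78) (nat_lit 0) (nat_lit 0) (XT.lf (nat_lit 0) (nat_lit 3436891203) (nat_lit 152) (nat_lit 17453695006) (nat_lit 0) (nat_lit 2575850293) (nat_lit 11) (nat_lit 5) (nat_lit 13) (nat_lit 4) (nat_lit 11) (nat_lit 4) (nat_lit 338) (nat_lit 282) (nat_lit 280)) (XT.lf (nat_lit 0) (nat_lit 11013449502) (nat_lit 152) (nat_lit 4169533125) (nat_lit 0) (nat_lit 9769110465) (nat_lit 11) (nat_lit 5) (nat_lit 13) (nat_lit 4) (nat_lit 11) (nat_lit 4) (nat_lit 339) (nat_lit 282) (nat_lit 279))))) (XT.nd (nat_lit 234) (nat_lit 76) (nat_lit 0) (XT.nd (nat_lit 78) (nat_lit 152) (nat_lit 0) (XT.lf (nat_lit 0) (nat_lit 9814210380) (nat_lit 76) (nat_lit 9176021956)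 (nat_lit 76) (nat_lit 7576777247) (nat_lit 10) (nat_lit 4) (nat_lit 11) (nat_lit 5) (nat_lit 11) (nat_lit 4) (nat_lit 340) (nat_lit 282) (nat_lit 278)) (XT.nd (nat_lit 78) (nat_lit 152) (nat_lit 0) (XT.lf (nat_lit 0) (nat_lit 24417711914) (nat_lit 76) (nat_lit 2917436533) (nat_lit 76) (nat_lit 989575461) (nat_lit 10) (nat_lit 4) (nat_lit 11) (nat_lit 5) (nat_lit 11) (nat_lit 4) (nat_lit 341) (nat_lit 282) (nat_lit 277)) (XT.lf (nat_lit 0) (nat_lit 5814882422) (nat_lit 152) (nat_lit 20720129219) (nat_lit 0) (nat_lit 3689039105) (nat_lit 8) (nat_lit 5) (nat_lit 10) (nat_lit 4) (nat_lit 8) (nat_lit 4) (nat_lit 342) (nat_lit 282) (nat_lit 276)))) (XT.nd (nat_lit 78) (nat_lit 76) (nat_lit 0) (XT.lf (nat_lit 0) (nat_lit 12935764047) (nat_lit 152) (nat_lit 8806895514) (nat_lit 0) (nat_lit 10541601144) (nat_lit 8) (nat_lit 5) (nat_lit 10) (nat_lit 4) (nat_lit 8) (nat_lit 4) (nat_lit 343) (nat_lit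 282) (nat_lit 275)) (XT.nd (nat_lit 78) (nat_lit 0) (nat_lit 0) (XT.lf (nat_lit 0) (nat_lit 3624259263) (nat_lit 76) (nat_lit 16769666670) (nat_lit 76) (nat_lit 14127059705) (nat_lit 7) (nat_lit 4) (nat_lit 8) (nat_lit 5) (nat_lit 8) (nat_lit 4) (nat_lit 344) (nat_lit 282) (nat_lit 274)) (XT.lf (nat_lit 0) (nat_lit 16837212992) (nat_lit 76) (nat_lit 11489137834) (nat_lit 76) (nat_lit 8616490072) (nat_lit 7) (nat_lit 4) (nat_lit 8) (nat_lit 5) (nat_lit 8) (nat_lit 4) (nat_lit 345) (nat_lit 282) (nat_lit 273))))))))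
noncomputable def xc18 : XT := (XT.nd (nat_lit 1716) (nat_lit 76) (nat_lit 0) (XT.nd (nat_lit 858) (nat_lit 152) (nat_lit 0) (XT.nd (nat_lit 390) (nat_lit 76) (nat_lit 0) (XT.nd (nat_lit 156) (nat_lit 0) (nat_lit 0) (XT.nd (nat_lit 78) (nat_lit 152) (nat_lit 0) (XT.lf (nat_lit 0) (nat_lit 30619068916) (nat_lit 76) (nat_lit 6018930068) (nat_lit 76) (nat_lit 2933281569) (nat_lit 7) (nat_lit 4) (nat_lit 8) (nat_lit 5) (nat_lit 8) (nat_lit 4) (nat_lit 346) (nat_lit 282) (nat_lit 272)) (XT.lf (nat_lit 0) (nat_lit 2668882398) (nat_lit 76) (nat_lit 234412140) (nat_lit 152) (nat_lit 39514194808) (nat_lit 5) (nat_lit 5) (nat_lit 6) (nat_lit 5) (nat_lit 7) (nat_lit 4) (nat_lit 347) (nat_lit 282) (nat_lit 271))) (XT.nd (nat_lit 78) (nat_lit 0) (nat_lit 0) (XT.lf (nat_lit 0) (nat_lit 9125037602) (nat_lit 152) (nat_lit 30538382036) (nat_lit 0) (nat_lit 5824575500) (nat_lit 5) (nat_lit 5) (nat_lit 7)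 (nat_lit 4) (nat_lit 5) (nat_lit 4) (nat_lit 348) (nat_lit 282) (nat_lit 270)) (XT.nd (nat_lit 78) (nat_lit 0) (nat_lit 0) (XT.lf (nat_lit 0) (nat_lit 15632971786) (nat_lit 152) (nat_lit 21010323426) (nat_lit 0) (nat_lit 12171474585) (nat_lit 5) (nat_lit 5) (nat_lit 7) (nat_lit 4) (nat_lit 5) (nat_lit 4) (nat_lit 349) (nat_lit 282) (nat_lit 269)) (XT.lf (nat_lit 0) (nat_lit 22462002794) (nat_lit 152) (nat_lit 11104308720) (nat_lit 0) (nat_lit 18851399021) (nat_lit 5) (nat_lit 5) (nat_lit 7) (nat_lit 4) (nat_lit 5) (nat_lit 4) (nat_lit 350) (nat_lit 282) (nat_lit 268))))) (XT.nd (nat_lit 234) (nat_lit 0) (nat_lit 0) (XT.nd (nat_lit 78) (nat_lit 76) (nat_lit 0) (XT.lf (nat_lit 0) (nat_lit 29652598959) (nat_lit 152) (nat_lit 761635608) (nat_lit 0) (nat_lit 25903933544) (nat_lit 5) (nat_lit 5) (nat_lit 7) (nat_lit 4) (nat_lit 5) (nat_lit 4) (nat_lit 351) (nat_lit 282) (nat_lit 267)) (XT.nd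 (nat_lit 78) (nat_lit 0) (nat_lit 0) (XT.lf (nat_lit 0) (nat_lit 10412242614) (nat_lit 76) (nat_lit 26997692893) (nat_lit 76) (nat_lit 23121192626) (nat_lit 4) (nat_lit 4) (nat_lit 5) (nat_lit 5) (nat_lit 5) (nat_lit 4) (nat_lit 352) (nat_lit 282) (nat_lit 266)) (XT.lf (nat_lit 0) (nat_lit 22192081499) (nat_lit 76) (nat_lit 23445724722) (nat_lit 76) (nat_lit 19450858850) (nat_lit 4) (nat_lit 4) (nat_lit 5) (nat_lit 5) (nat_lit 5) (nat_lit 4) (nat_lit 353) (nat_lit 282) (nat_lit 265)))) (XT.nd (nat_lit 78) (nat_lit 0) (nat_lit 0) (XT.lf (nat_lit 0) (nat_lit 34622504385) (nat_lit 76) (nat_lit 19750180021) (nat_lit 76) (nat_lit 15645716366) (nat_lit 4) (nat_lit 4) (nat_lit 5) (nat_lit 5) (nat_lit 5) (nat_lit 4) (nat_lit 354) (nat_lit 282) (nat_lit 264)) (XT.nd (nat_lit 78) (nat_lit 0) (nat_lit 0) (XT.lf (nat_lit 0) (nat_lit 47777173039) (nat_lit 76) (nat_lit 15889159266) (nat_lit 76) (nat_lit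 11683216184) (nat_lit 4) (nat_lit 4) (nat_lit 5) (nat_lit 5) (nat_lit 5) (nat_lit 4) (nat_lit 355) (nat_lit 282) (nat_lit 263)) (XT.lf (nat_lit 0) (nat_lit 61734041053) (nat_lit 76) (nat_lit 11839782334) (nat_lit 76) (nat_lit 7539876818) (nat_lit 4) (nat_lit 4) (nat_lit 5) (nat_lit 5) (nat_lit 5) (nat_lit 4) (nat_lit 356) (nat_lit 282) (nat_lit 262)))))) (XT.nd (nat_lit 390) (nat_lit 0) (nat_lit 0) (XT.nd (nat_lit 156) (nat_lit 76) (nat_lit 0) (XT.nd (nat_lit 78) (nat_lit 76) (nat_lit 0) (XT.lf (nat_lit 0) (nat_lit 76575815791) (nat_lit 76) (nat_lit 7578052917) (nat_lit 76) (nat_lit 3191145149) (nat_lit 4) (nat_lit 4) (nat_lit 5) (nat_lit 5) (nat_lit 5) (nat_lit 4) (nat_lit 357) (nat_lit 282) (nat_lit 261)) (XT.lf (nat_lit 0) (nat_lit 1344300442) (nat_lit 152) (nat_lit 1711649502) (nat_lit 76) (nat_lit 91023381691) (nat_lit 3) (nat_lit 5) (nat_lit 5) (nat_lit 5) (nat_lit 4) (nat_lit 4)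 (nat_lit 358) (nat_lit 282) (nat_lit 260))) (XT.nd (nat_lit 78) (nat_lit 0) (nat_lit 0) (XT.lf (nat_lit 0) (nat_lit 6183652932) (nat_lit 152) (nat_lit 93305619545) (nat_lit 0) (nat_lit 1857885485) (nat_lit 2) (nat_lit 5) (nat_lit 4) (nat_lit 4) (nat_lit 2) (nat_lit 4) (nat_lit 359) (nat_lit 282) (nat_lit 259)) (XT.nd (nat_lit 78) (nat_lit 0) (nat_lit 0) (XT.lf (nat_lit 0) (nat_lit 11390631994) (nat_lit 152) (nat_lit 90807687137) (nat_lit 0) (nat_lit 6999088173) (nat_lit 2) (nat_lit 5) (nat_lit 4) (nat_lit 4) (nat_lit 2) (nat_lit 4) (nat_lit 360) (nat_lit 282) (nat_lit 258)) (XT.lf (nat_lit 0) (nat_lit 16920322030) (nat_lit 152) (nat_lit 88292192056) (nat_lit 0) (nat_lit 12467874158) (nat_lit 2) (nat_lit 5) (nat_lit 4) (nat_lit 4) (nat_lit 2) (nat_lit 4) (nat_lit 361) (nat_lit 282) (nat_lit 257))))) (XT.nd (nat_lit 234) (nat_lit 0) (nat_lit 0) (XT.nd (nat_lit 78) (nat_lit 0) (nat_lit 0)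 (XT.lf (nat_lit 0) (nat_lit 22805491573) (nat_lit 152) (nat_lit 85744227664) (nat_lit 0) (nat_lit 18296651061) (nat_lit 2) (nat_lit 5) (nat_lit 4) (nat_lit 4) (nat_lit 2) (nat_lit 4) (nat_lit 362) (nat_lit 282) (nat_lit 256)) (XT.nd (nat_lit 78) (nat_lit 0) (nat_lit 0) (XT.lf (nat_lit 0) (nat_lit 29081015702) (nat_lit 152) (nat_lit 83148694913) (nat_lit 0) (nat_lit 24519959783) (nat_lit 2) (nat_lit 5) (nat_lit 4) (nat_lit 4) (nat_lit 2) (nat_lit 4) (nat_lit 363) (nat_lit 282) (nat_lit 255)) (XT.lf (nat_lit 0) (nat_lit 35784082708) (nat_lit 152) (nat_lit 80490212869) (nat_lit 0) (nat_lit 31174679190) (nat_lit 2) (nat_lit 5) (nat_lit 4) (nat_lit 4) (nat_lit 2) (nat_lit 4) (nat_lit 364) (nat_lit 282) (nat_lit 254)))) (XT.nd (nat_lit 78) (nat_lit 0) (nat_lit 0) (XT.lf (nat_lit 0) (nat_lit 42954414469) (nat_lit 152) (nat_lit 77753027563) (nat_lit 0) (nat_lit 38300244656) (nat_lit 2) (nat_lit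 5) (nat_lit 4) (nat_lit 4) (nat_lit 2) (nat_lit 4) (nat_lit 365) (nat_lit 282) (nat_lit 253)) (XT.nd (nat_lit 78) (nat_lit 0) (nat_lit 0) (XT.lf (nat_lit 0) (nat_lit 50634501841) (nat_lit 152) (nat_lit 74920918638) (nat_lit 0) (nat_lit 45938881754) (nat_lit 2) (nat_lit 5) (nat_lit 4) (nat_lit 4) (nat_lit 2) (nat_lit 4) (nat_lit 366) (nat_lit 282) (nat_lit 252)) (XT.lf (nat_lit 0) (nat_lit 58869856452) (nat_lit 152) (nat_lit 71977103227) (nat_lit 0) (nat_lit 54135856483) (nat_lit 2) (nat_lit 5) (nat_lit 4) (nat_lit 4) (nat_lit 2) (nat_lit 4) (nat_lit 367) (nat_lit 282) (nat_lit 251))))))) (XT.nd (nat_lit 858) (nat_lit 76) (nat_lit 0) (XT.nd (nat_lit 390) (nat_lit 0) (nat_lit 0) (XT.nd (nat_lit 156) (nat_lit 0) (nat_lit 0) (XT.nd (nat_lit 78) (nat_lit 0) (nat_lit 0) (XT.lf (nat_lit 0) (nat_lit 67709280404) (nat_lit 152) (nat_lit 68904136498) (nat_lit 0) (nat_lit 62939743506) (nat_lit 2) (nat_lit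 5) (nat_lit 4) (nat_lit 4) (nat_lit 2) (nat_lit 4) (nat_lit 368) (nat_lit 282) (nat_lit 250)) (XT.lf (nat_lit 0) (nat_lit 77205155469) (nat_lit 152) (nat_lit 65683808277) (nat_lit 0) (nat_lit 72402714007) (nat_lit 2) (nat_lit 5) (nat_lit 4) (nat_lit 4) (nat_lit 2) (nat_lit 4) (nat_lit 369) (nat_lit 282) (nat_lit 249))) (XT.nd (nat_lit 78) (nat_lit 0) (nat_lit 0) (XT.lf (nat_lit 0) (nat_lit 87413753498) (nat_lit 152) (nat_lit 62297035138) (nat_lit 0) (nat_lit 82580844847) (nat_lit 2) (nat_lit 5) (nat_lit 4) (nat_lit 4) (nat_lit 2) (nat_lit 4) (nat_lit 370) (nat_lit 282) (nat_lit 248)) (XT.nd (nat_lit 78) (nat_lit 0) (nat_lit 0) (XT.lf (nat_lit 0) (nat_lit 98395569887) (nat_lit 152) (nat_lit 58723747313) (nat_lit 0) (nat_lit 93534450877) (nat_lit 2) (nat_lit 5) (nat_lit 4) (nat_lit 4) (nat_lit 2) (nat_lit 4) (nat_lit 371) (nat_lit 282) (nat_lit 247)) (XT.lf (nat_lit 0) (nat_lit 110215682067)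 (nat_lit 152) (nat_lit 54942769765) (nat_lit 0) (nat_lit 105328442353) (nat_lit 2) (nat_lit 5) (nat_lit 4) (nat_lit 4) (nat_lit 2) (nat_lit 4) (nat_lit 372) (nat_lit 282) (nat_lit 246))))) (XT.nd (nat_lit 234) (nat_lit 0) (nat_lit 0) (XT.nd (nat_lit 78) (nat_lit 0) (nat_lit 0) (XT.lf (nat_lit 0) (nat_lit 122944135147) (nat_lit 152) (nat_lit 50931696700) (nat_lit 0) (nat_lit 118032709597) (nat_lit 2) (nat_lit 5) (nat_lit 4) (nat_lit 4) (nat_lit 2) (nat_lit 4) (nat_lit 373) (nat_lit 282) (nat_lit 245)) (XT.nd (nat_lit 78) (nat_lit 0) (nat_lit 0) (XT.lf (nat_lit 0) (nat_lit 136656356997) (nat_lit 152) (nat_lit 46666758797) (nat_lit 0) (nat_lit 131722537154) (nat_lit 2) (nat_lit 5) (nat_lit 4) (nat_lit 4) (nat_lit 2) (nat_lit 4) (nat_lit 374) (nat_lit 282) (nat_lit 244)) (XT.lf (nat_lit 0) (nat_lit 151433605228) (nat_lit 152) (nat_lit 42122682348) (nat_lit 0) (nat_lit 146479049928) (nat_lit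 2) (nat_lit 5) (nat_lit 4) (nat_lit 4) (nat_lit 2) (nat_lit 4) (nat_lit 375) (nat_lit 282) (nat_lit 243)))) (XT.nd (nat_lit 78) (nat_lit 0) (nat_lit 0) (XT.lf (nat_lit 0) (nat_lit 167363448718) (nat_lit 152) (nat_lit 37272539495) (nat_lit 0) (nat_lit 162389693922) (nat_lit 2) (nat_lit 5) (nat_lit 4) (nat_lit 4) (nat_lit 2) (nat_lit 4) (nat_lit 376) (nat_lit 282) (nat_lit 242)) (XT.nd (nat_lit 78) (nat_lit 0) (nat_lit 0) (XT.lf (nat_lit 0) (nat_lit 184540286540) (nat_lit 152) (nat_lit 32087588649) (nat_lit 0) (nat_lit 179548754432) (nat_lit 2) (nat_lit 5) (nat_lit 4) (nat_lit 4) (nat_lit 2) (nat_lit 4) (nat_lit 377) (nat_lit 282) (nat_lit 241)) (XT.lf (nat_lit 0) (nat_lit 203065907363) (nat_lit 152) (nat_lit 26537104176) (nat_lit 0) (nat_lit 198057914781) (nat_lit 2) (nat_lit 5) (nat_lit 4) (nat_lit 4) (nat_lit 2) (nat_lit 4) (nat_lit 378) (nat_lit 282) (nat_lit 240)))))) (XT.nd (nat_lit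 468) (nat_lit 0) (nat_lit 0) (XT.nd (nat_lit 234) (nat_lit 76) (nat_lit 0) (XT.nd (nat_lit 78) (nat_lit 0) (nat_lit 0) (XT.lf (nat_lit 0) (nat_lit 223050092644) (nat_lit 152) (nat_lit 20588194316) (nat_lit 0) (nat_lit 218026858882) (nat_lit 2) (nat_lit 5) (nat_lit 4) (nat_lit 4) (nat_lit 2) (nat_lit 4) (nat_lit 379) (nat_lit 282) (nat_lit 239)) (XT.nd (nat_lit 78) (nat_lit 0) (nat_lit 0) (XT.lf (nat_lit 0) (nat_lit 244611267183) (nat_lit 152) (nat_lit 14205606270) (nat_lit 0) (nat_lit 239573921218) (nat_lit 2) (nat_lit 5) (nat_lit 4) (nat_lit 4) (nat_lit 2) (nat_lit 4) (nat_lit 380) (nat_lit 282) (nat_lit 238)) (XT.lf (nat_lit 0) (nat_lit 267877200904) (nat_lit 152) (nat_lit 7351517294) (nat_lit 0) (nat_lit 262826788084) (nat_lit 2) (nat_lit 5) (nat_lit 4) (nat_lit 4) (nat_lit 2) (nat_lit 4) (nat_lit 381) (nat_lit 282) (nat_lit 237)))) (XT.nd (nat_lit 78) (nat_lit 0) (nat_lit 0) (XT.lf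 (nat_lit 0) (nat_lit 15175134) (nat_lit 76) (nat_lit 292970827798) (nat_lit 76) (nat_lit 287908316039) (nat_lit 1) (nat_lit 4) (nat_lit 2) (nat_lit 5) (nat_lit 2) (nat_lit 4) (nat_lit 382) (nat_lit 282) (nat_lit 236)) (XT.nd (nat_lit 78) (nat_lit 0) (nat_lit 0) (XT.lf (nat_lit 0) (nat_lit 8199087519) (nat_lit 76) (nat_lit 312014677203) (nat_lit 76) (nat_lit 306940962722) (nat_lit 1) (nat_lit 4) (nat_lit 2) (nat_lit 5) (nat_lit 2) (nat_lit 4) (nat_lit 383) (nat_lit 282) (nat_lit 235)) (XT.lf (nat_lit 0) (nat_lit 17005642756) (nat_lit 76) (nat_lit 332597620356) (nat_lit 76) (nat_lit 327513532984) (nat_lit 1) (nat_lit 4) (nat_lit 2) (nat_lit 5) (nat_lit 2) (nat_lit 4) (nat_lit 384) (nat_lit 282) (nat_lit 234))))) (XT.nd (nat_lit 234) (nat_lit 0) (nat_lit 0) (XT.nd (nat_lit 78) (nat_lit 0) (nat_lit 0) (XT.lf (nat_lit 0) (nat_lit 26487027840) (nat_lit 76) (nat_lit 354841630253) (nat_lit 76)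 (nat_lit 349747938353) (nat_lit 1) (nat_lit 4) (nat_lit 2) (nat_lit 5) (nat_lit 2) (nat_lit 4) (nat_lit 385) (nat_lit 282) (nat_lit 233)) (XT.nd (nat_lit 78) (nat_lit 0) (nat_lit 0) (XT.lf (nat_lit 0) (nat_lit 36699428755) (nat_lit 76) (nat_lit 378878523250) (nat_lit 76) (nat_lit 373775938267) (nat_lit 1) (nat_lit 4) (nat_lit 2) (nat_lit 5) (nat_lit 2) (nat_lit 4) (nat_lit 386) (nat_lit 282) (nat_lit 232)) (XT.lf (nat_lit 0) (nat_lit 47703363433) (nat_lit 76) (nat_lit 404850740193) (nat_lit 76) (nat_lit 399739920875) (nat_lit 1) (nat_lit 4) (nat_lit 2) (nat_lit 5) (nat_lit 2) (nat_lit 4) (nat_lit 387) (nat_lit 282) (nat_lit 231)))) (XT.nd (nat_lit 78) (nat_lit 0) (nat_lit 0) (XT.lf (nat_lit 0) (nat_lit 59564040377) (nat_lit 76) (nat_lit 432912190516) (nat_lit 76) (nat_lit 427793746814) (nat_lit 1) (nat_lit 4) (nat_lit 2) (nat_lit 5) (nat_lit 2) (nat_lit 4) (nat_lit 388) (nat_lit 282) (nat_lit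 230)) (XT.nd (nat_lit 78) (nat_lit 0) (nat_lit 0) (XT.lf (nat_lit 0) (nat_lit 72351745079) (nat_lit 76) (nat_lit 463229164296) (nat_lit 76) (nat_lit 458103660979) (nat_lit 1) (nat_lit 4) (nat_lit 2) (nat_lit 5) (nat_lit 2) (nat_lit 4) (nat_lit 389) (nat_lit 282) (nat_lit 229)) (XT.lf (nat_lit 0) (nat_lit 86142256530) (nat_lit 76) (nat_lit 495981317673) (nat_lit 76) (nat_lit 490849277675) (nat_lit 1) (nat_lit 4) (nat_lit 2) (nat_lit 5) (nat_lit 2) (nat_lit 4) (nat_lit 390) (nat_lit 282) (nat_lit 228))))))))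
noncomputable def xc19 : XT := (XT.nd (nat_lit 44070) (nat_lit 0) (nat_lit 76) (XT.nd (nat_lit 43134) (nat_lit 0) (nat_lit 228) (XT.nd (nat_lit 42666) (nat_lit 0) (nat_lit 532) (XT.nd (nat_lit 42432) (nat_lit 0) (nat_lit 988) (XT.nd (nat_lit 78) (nat_lit 0) (nat_lit 0) (XT.lf (nat_lit 0) (nat_lit 101017296278) (nat_lit 76) (nat_lit 531362737482) (nat_lit 76) (nat_lit 526224645002) (nat_lit 1) (nat_lit 4) (nat_lit 2) (nat_lit 5) (nat_lit 2) (nat_lit 4) (nat_lit 391) (nat_lit 282) (nat_lit 227)) (XT.lf (nat_lit 0) (nat_lit 117065012709) (nat_lit 76) (nat_lit 569583091396) (nat_lit 76) (nat_lit 564439394766) (nat_lit 1) (nat_lit 4) (nat_lit 2) (nat_lit 5) (nat_lit 2) (nat_lit 4) (nat_lit 392) (nat_lit 282) (nat_lit 226))) (XT.nd (nat_lit 78) (nat_lit 152) (nat_lit 0) (XT.lf (nat_lit 0) (nat_lit 4317077380) (nat_lit 76) (nat_lit 2491399875) (nat_lit 76) (nat_lit 2491399875) (nat_lit 16) (nat_lit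 4) (nat_lit 17) (nat_lit 5) (nat_lit 17) (nat_lit 4) (nat_lit 334) (nat_lit 283) (nat_lit 283)) (XT.nd (nat_lit 78) (nat_lit 0) (nat_lit 0) (XT.lf (nat_lit 0) (nat_lit 2467339797) (nat_lit 152) (nat_lit 15249991578) (nat_lit 0) (nat_lit 1960352285) (nat_lit 14) (nat_lit 5) (nat_lit 16) (nat_lit 4) (nat_lit 14) (nat_lit 4) (nat_lit 335) (nat_lit 283) (nat_lit 282)) (XT.lf (nat_lit 0) (nat_lit 10188025090) (nat_lit 152) (nat_lit 1445826608) (nat_lit 0) (nat_lit 9211604697) (nat_lit 14) (nat_lit 5) (nat_lit 16) (nat_lit 4) (nat_lit 14) (nat_lit 4) (nat_lit 336) (nat_lit 283) (nat_lit 281))))) (XT.nd (nat_lit 234) (nat_lit 228) (nat_lit 0) (XT.nd (nat_lit 78) (nat_lit 152) (nat_lit 0) (XT.lf (nat_lit 0) (nat_lit 13171185226) (nat_lit 76) (nat_lit 5177776981) (nat_lit 76) (nat_lit 3766696514) (nat_lit 13) (nat_lit 4) (nat_lit 14) (nat_lit 5) (nat_lit 14) (nat_lit 4) (nat_lit 337) (nat_lit 283)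 (nat_lit 280)) (XT.nd (nat_lit 78) (nat_lit 0) (nat_lit 0) (XT.lf (nat_lit 0) (nat_lit 3314380163) (nat_lit 152) (nat_lit 18595317689) (nat_lit 0) (nat_lit 1587195877) (nat_lit 11) (nat_lit 5) (nat_lit 13) (nat_lit 4) (nat_lit 11) (nat_lit 4) (nat_lit 338) (nat_lit 283) (nat_lit 279)) (XT.lf (nat_lit 0) (nat_lit 10718281031) (nat_lit 152) (nat_lit 5636765110) (nat_lit 0) (nat_lit 8636191073) (nat_lit 11) (nat_lit 5) (nat_lit 13) (nat_lit 4) (nat_lit 11) (nat_lit 4) (nat_lit 339) (nat_lit 283) (nat_lit 278)))) (XT.nd (nat_lit 78) (nat_lit 152) (nat_lit 0) (XT.lf (nat_lit 0) (nat_lit 7987006360) (nat_lit 76) (nat_lit 10519661739) (nat_lit 76) (nat_lit 8108955417) (nat_lit 10) (nat_lit 4) (nat_lit 11) (nat_lit 5) (nat_lit 11) (nat_lit 4) (nat_lit 340) (nat_lit 283) (nat_lit 277)) (XT.nd (nat_lit 78) (nat_lit 152) (nat_lit 0) (XT.lf (nat_lit 0) (nat_lit 22302120191) (nat_lit 76) (nat_lit 4396935561)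 (nat_lit 76) (nat_lit 1681954829) (nat_lit 10) (nat_lit 4) (nat_lit 11) (nat_lit 5) (nat_lit 11) (nat_lit 4) (nat_lit 341) (nat_lit 283) (nat_lit 276)) (XT.lf (nat_lit 0) (nat_lit 4935915057) (nat_lit 152) (nat_lit 23273541591) (nat_lit 0) (nat_lit 2081899536) (nat_lit 8) (nat_lit 5) (nat_lit 10) (nat_lit 4) (nat_lit 8) (nat_lit 4) (nat_lit 342) (nat_lit 283) (nat_lit 275)))))) (XT.nd (nat_lit 468) (nat_lit 76) (nat_lit 0) (XT.nd (nat_lit 234) (nat_lit 152) (nat_lit 0) (XT.nd (nat_lit 78) (nat_lit 76) (nat_lit 0) (XT.lf (nat_lit 0) (nat_lit 11917866339) (nat_lit 152) (nat_lit 11625277383) (nat_lit 0) (nat_lit 8815406757) (nat_lit 8) (nat_lit 5) (nat_lit 10) (nat_lit 4) (nat_lit 8) (nat_lit 4) (nat_lit 343) (nat_lit 283) (nat_lit 274)) (XT.nd (nat_lit 78) (nat_lit 0) (nat_lit 0) (XT.lf (nat_lit 0) (nat_lit 459234717) (nat_lit 76) (nat_lit 18738739399) (nat_lit 76) (nat_lit 15406239019) (nat_lit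 7) (nat_lit 4) (nat_lit 8) (nat_lit 5) (nat_lit 8) (nat_lit 4) (nat_lit 344) (nat_lit 283) (nat_lit 273)) (XT.lf (nat_lit 0) (nat_lit 13437508588) (nat_lit 76) (nat_lit 13570116033) (nat_lit 76) (nat_lit 10024614915) (nat_lit 7) (nat_lit 4) (nat_lit 8) (nat_lit 5) (nat_lit 8) (nat_lit 4) (nat_lit 345) (nat_lit 283) (nat_lit 272)))) (XT.nd (nat_lit 78) (nat_lit 152) (nat_lit 0) (XT.lf (nat_lit 0) (nat_lit 27002068350) (nat_lit 76) (nat_lit 8203524443) (nat_lit 76) (nat_lit 4460800419) (nat_lit 7) (nat_lit 4) (nat_lit 8) (nat_lit 5) (nat_lit 8) (nat_lit 4) (nat_lit 346) (nat_lit 283) (nat_lit 271)) (XT.nd (nat_lit 78) (nat_lit 76) (nat_lit 0) (XT.lf (nat_lit 0) (nat_lit 1275985379) (nat_lit 152) (nat_lit 1309567797) (nat_lit 76) (nat_lit 39935701767) (nat_lit 6) (nat_lit 5) (nat_lit 8) (nat_lit 5) (nat_lit 7) (nat_lit 4) (nat_lit 347) (nat_lit 283) (nat_lit 270)) (XT.lf (nat_lit 0) (nat_lit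 7335945996) (nat_lit 152) (nat_lit 34827434455) (nat_lit 0) (nat_lit 3436493921) (nat_lit 5) (nat_lit 5) (nat_lit 7) (nat_lit 4) (nat_lit 5) (nat_lit 4) (nat_lit 348) (nat_lit 283) (nat_lit 269))))) (XT.nd (nat_lit 234) (nat_lit 76) (nat_lit 0) (XT.nd (nat_lit 78) (nat_lit 0) (nat_lit 0) (XT.lf (nat_lit 0) (nat_lit 13747948492) (nat_lit 152) (nat_lit 25484129976) (nat_lit 0) (nat_lit 9699389844) (nat_lit 5) (nat_lit 5) (nat_lit 7) (nat_lit 4) (nat_lit 5) (nat_lit 4) (nat_lit 349) (nat_lit 283) (nat_lit 268)) (XT.nd (nat_lit 78) (nat_lit 0) (nat_lit 0) (XT.lf (nat_lit 0) (nat_lit 20488153863) (nat_lit 152) (nat_lit 15749183910) (nat_lit 0) (nat_lit 16301533574) (nat_lit 5) (nat_lit 5) (nat_lit 7) (nat_lit 4) (nat_lit 5) (nat_lit 4) (nat_lit 350) (nat_lit 283) (nat_lit 267)) (XT.lf (nat_lit 0) (nat_lit 27596504068) (nat_lit 152) (nat_lit 5564907686) (nat_lit 0) (nat_lit 23282048926) (nat_lit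 5) (nat_lit 5) (nat_lit 7) (nat_lit 4) (nat_lit 5) (nat_lit 4) (nat_lit 351) (nat_lit 283) (nat_lit 266)))) (XT.nd (nat_lit 78) (nat_lit 0) (nat_lit 0) (XT.lf (nat_lit 0) (nat_lit 5298639516) (nat_lit 76) (nat_lit 29899209758) (nat_lit 76) (nat_lit 25466389011) (nat_lit 4) (nat_lit 4) (nat_lit 5) (nat_lit 5) (nat_lit 5) (nat_lit 4) (nat_lit 352) (nat_lit 283) (nat_lit 265)) (XT.nd (nat_lit 78) (nat_lit 0) (nat_lit 0) (XT.lf (nat_lit 0) (nat_lit 16938188445) (nat_lit 76) (nat_lit 26414828570) (nat_lit 76) (nat_lit 21872410041) (nat_lit 4) (nat_lit 4) (nat_lit 5) (nat_lit 5) (nat_lit 5) (nat_lit 4) (nat_lit 353) (nat_lit 283) (nat_lit 264)) (XT.lf (nat_lit 0) (nat_lit 29238713224) (nat_lit 76) (nat_lit 22781864408) (nat_lit 76) (nat_lit 18137966451) (nat_lit 4) (nat_lit 4) (nat_lit 5) (nat_lit 5) (nat_lit 5) (nat_lit 4) (nat_lit 354) (nat_lit 283) (nat_lit 263))))))) (XT.nd (nat_lit 858)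 (nat_lit 0) (nat_lit 0) (XT.nd (nat_lit 390) (nat_lit 0) (nat_lit 0) (XT.nd (nat_lit 156) (nat_lit 152) (nat_lit 0) (XT.nd (nat_lit 78) (nat_lit 0) (nat_lit 0) (XT.lf (nat_lit 0) (nat_lit 42273105853) (nat_lit 76) (nat_lit 18978788597) (nat_lit 76) (nat_lit 14240928207) (nat_lit 4) (nat_lit 4) (nat_lit 5) (nat_lit 5) (nat_lit 5) (nat_lit 4) (nat_lit 355) (nat_lit 283) (nat_lit 262)) (XT.lf (nat_lit 0) (nat_lit 56118607176) (nat_lit 76) (nat_lit 14983064391) (nat_lit 76) (nat_lit 10158201748) (nat_lit 4) (nat_lit 4) (nat_lit 5) (nat_lit 5) (nat_lit 5) (nat_lit 4) (nat_lit 356) (nat_lit 283) (nat_lit 261))) (XT.nd (nat_lit 78) (nat_lit 152) (nat_lit 0) (XT.lf (nat_lit 0) (nat_lit 70857264608) (nat_lit 76) (nat_lit 10771013424) (nat_lit 76) (nat_lit 5865593139) (nat_lit 4) (nat_lit 4) (nat_lit 5) (nat_lit 5) (nat_lit 5) (nat_lit 4) (nat_lit 357) (nat_lit 283) (nat_lit 260)) (XT.nd (nat_lit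 78) (nat_lit 152) (nat_lit 0) (XT.lf (nat_lit 0) (nat_lit 86576418343) (nat_lit 76) (nat_lit 6317675395) (nat_lit 76) (nat_lit 1337664701) (nat_lit 4) (nat_lit 4) (nat_lit 5) (nat_lit 5) (nat_lit 5) (nat_lit 4) (nat_lit 358) (nat_lit 283) (nat_lit 259)) (XT.lf (nat_lit 0) (nat_lit 1861431119) (nat_lit 76) (nat_lit 1509547908) (nat_lit 152) (nat_lit 98138336106) (nat_lit 2) (nat_lit 5) (nat_lit 3) (nat_lit 5) (nat_lit 4) (nat_lit 4) (nat_lit 359) (nat_lit 283) (nat_lit 258))))) (XT.nd (nat_lit 234) (nat_lit 0) (nat_lit 0) (XT.nd (nat_lit 78) (nat_lit 0) (nat_lit 0) (XT.lf (nat_lit 0) (nat_lit 8509270897) (nat_lit 152) (nat_lit 97214014063) (nat_lit 0) (nat_lit 3639723144) (nat_lit 2) (nat_lit 5) (nat_lit 4) (nat_lit 4) (nat_lit 2) (nat_lit 4) (nat_lit 360) (nat_lit 283) (nat_lit 257)) (XT.nd (nat_lit 78) (nat_lit 0) (nat_lit 0) (XT.lf (nat_lit 0) (nat_lit 13997184156) (nat_lit 152) (nat_lit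 94779658547) (nat_lit 0) (nat_lit 9071243764) (nat_lit 2) (nat_lit 5) (nat_lit 4) (nat_lit 4) (nat_lit 2) (nat_lit 4) (nat_lit 361) (nat_lit 283) (nat_lit 256)) (XT.lf (nat_lit 0) (nat_lit 19843671498) (nat_lit 152) (nat_lit 92306823382) (nat_lit 0) (nat_lit 14865515699) (nat_lit 2) (nat_lit 5) (nat_lit 4) (nat_lit 4) (nat_lit 2) (nat_lit 4) (nat_lit 362) (nat_lit 283) (nat_lit 255)))) (XT.nd (nat_lit 78) (nat_lit 0) (nat_lit 0) (XT.lf (nat_lit 0) (nat_lit 26083378774) (nat_lit 152) (nat_lit 89780854731) (nat_lit 0) (nat_lit 21056875376) (nat_lit 2) (nat_lit 5) (nat_lit 4) (nat_lit 4) (nat_lit 2) (nat_lit 4) (nat_lit 363) (nat_lit 283) (nat_lit 254)) (XT.nd (nat_lit 78) (nat_lit 0) (nat_lit 0) (XT.lf (nat_lit 0) (nat_lit 32753282028) (nat_lit 152) (nat_lit 87186783889) (nat_lit 0) (nat_lit 27682012334) (nat_lit 2) (nat_lit 5) (nat_lit 4) (nat_lit 4) (nat_lit 2) (nat_lit 4) (nat_lit 364)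 (nat_lit 283) (nat_lit 253)) (XT.lf (nat_lit 0) (nat_lit 39892906611) (nat_lit 152) (nat_lit 84509238586) (nat_lit 0) (nat_lit 34780186644) (nat_lit 2) (nat_lit 5) (nat_lit 4) (nat_lit 4) (nat_lit 2) (nat_lit 4) (nat_lit 365) (nat_lit 283) (nat_lit 252)))))) (XT.nd (nat_lit 468) (nat_lit 0) (nat_lit 0) (XT.nd (nat_lit 234) (nat_lit 0) (nat_lit 0) (XT.nd (nat_lit 78) (nat_lit 0) (nat_lit 0) (XT.lf (nat_lit 0) (nat_lit 47544561411) (nat_lit 152) (nat_lit 81732351886) (nat_lit 0) (nat_lit 42393461561) (nat_lit 2) (nat_lit 5) (nat_lit 4) (nat_lit 4) (nat_lit 2) (nat_lit 4) (nat_lit 366) (nat_lit 283) (nat_lit 251)) (XT.nd (nat_lit 78) (nat_lit 0) (nat_lit 0) (XT.lf (nat_lit 0) (nat_lit 55753589566) (nat_lit 152) (nat_lit 78839668165) (nat_lit 0) (nat_lit 50566952788) (nat_lit 2) (nat_lit 5) (nat_lit 4) (nat_lit 4) (nat_lit 2) (nat_lit 4) (nat_lit 367) (nat_lit 283) (nat_lit 250)) (XT.lf (nat_lit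 0) (nat_lit 64568637170) (nat_lit 152) (nat_lit 75814045593) (nat_lit 0) (nat_lit 59349095828) (nat_lit 2) (nat_lit 5) (nat_lit 4) (nat_lit 4) (nat_lit 2) (nat_lit 4) (nat_lit 368) (nat_lit 283) (nat_lit 249)))) (XT.nd (nat_lit 78) (nat_lit 0) (nat_lit 0) (XT.lf (nat_lit 0) (nat_lit 74041941542) (nat_lit 152) (nat_lit 72637554554) (nat_lit 0) (nat_lit 68791933011) (nat_lit 2) (nat_lit 5) (nat_lit 4) (nat_lit 4) (nat_lit 2) (nat_lit 4) (nat_lit 369) (nat_lit 283) (nat_lit 248)) (XT.nd (nat_lit 78) (nat_lit 0) (nat_lit 0) (XT.lf (nat_lit 0) (nat_lit 84229640782) (nat_lit 152) (nat_lit 69291371399) (nat_lit 0) (nat_lit 78951421891) (nat_lit 2) (nat_lit 5) (nat_lit 4) (nat_lit 4) (nat_lit 2) (nat_lit 4) (nat_lit 370) (nat_lit 283) (nat_lit 247)) (XT.lf (nat_lit 0) (nat_lit 95192106440) (nat_lit 152) (nat_lit 65755666893) (nat_lit 0) (nat_lit 89887766846) (nat_lit 2) (nat_lit 5) (nat_lit 4)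 (nat_lit 4) (nat_lit 2) (nat_lit 4) (nat_lit 371) (nat_lit 283) (nat_lit 246))))) (XT.nd (nat_lit 234) (nat_lit 0) (nat_lit 0) (XT.nd (nat_lit 78) (nat_lit 0) (nat_lit 0) (XT.lf (nat_lit 0) (nat_lit 106994301276) (nat_lit 152) (nat_lit 62009488713) (nat_lit 0) (nat_lit 101665775846) (nat_lit 2) (nat_lit 5) (nat_lit 4) (nat_lit 4) (nat_lit 2) (nat_lit 4) (nat_lit 372) (nat_lit 283) (nat_lit 245)) (XT.nd (nat_lit 78) (nat_lit 0) (nat_lit 0) (XT.lf (nat_lit 0) (nat_lit 119706164223) (nat_lit 152) (nat_lit 58030637286) (nat_lit 0) (nat_lit 114355244500) (nat_lit 2) (nat_lit 5) (nat_lit 4) (nat_lit 4) (nat_lit 2) (nat_lit 4) (nat_lit 373) (nat_lit 283) (nat_lit 244)) (XT.lf (nat_lit 0) (nat_lit 133403024839) (nat_lit 152) (nat_lit 53795534232) (nat_lit 0) (nat_lit 128031369659) (nat_lit 2) (nat_lit 5) (nat_lit 4) (nat_lit 4) (nat_lit 2) (nat_lit 4) (nat_lit 374) (nat_lit 283) (nat_lit 243))))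 (XT.nd (nat_lit 78) (nat_lit 0) (nat_lit 0) (XT.lf (nat_lit 0) (nat_lit 148166049705) (nat_lit 152) (nat_lit 49279082645) (nat_lit 0) (nat_lit 142775195029) (nat_lit 2) (nat_lit 5) (nat_lit 4) (nat_lit 4) (nat_lit 2) (nat_lit 4) (nat_lit 375) (nat_lit 283) (nat_lit 242)) (XT.nd (nat_lit 78) (nat_lit 0) (nat_lit 0) (XT.lf (nat_lit 0) (nat_lit 164082723413) (nat_lit 152) (nat_lit 44454518366) (nat_lit 0) (nat_lit 158674091425) (nat_lit 2) (nat_lit 5) (nat_lit 4) (nat_lit 4) (nat_lit 2) (nat_lit 4) (nat_lit 376) (nat_lit 283) (nat_lit 241)) (XT.lf (nat_lit 0) (nat_lit 181247366993) (nat_lit 152) (nat_lit 39293251386) (nat_lit 0) (nat_lit 175822274530) (nat_lit 2) (nat_lit 5) (nat_lit 4) (nat_lit 4) (nat_lit 2) (nat_lit 4) (nat_lit 377) (nat_lit 283) (nat_lit 240))))))))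
noncomputable def xc20 : XT := (XT.nd (nat_lit 43836) (nat_lit 0) (nat_lit 76) (XT.nd (nat_lit 858) (nat_lit 0) (nat_lit 0) (XT.nd (nat_lit 390) (nat_lit 76) (nat_lit 0) (XT.nd (nat_lit 156) (nat_lit 0) (nat_lit 0) (XT.nd (nat_lit 78) (nat_lit 0) (nat_lit 0) (XT.lf (nat_lit 0) (nat_lit 199761696850) (nat_lit 152) (nat_lit 33764696418) (nat_lit 0) (nat_lit 194321363208) (nat_lit 2) (nat_lit 5) (nat_lit 4) (nat_lit 4) (nat_lit 2) (nat_lit 4) (nat_lit 378) (nat_lit 283) (nat_lit 239)) (XT.lf (nat_lit 0) (nat_lit 219735427532) (nat_lit 152) (nat_lit 27836091656) (nat_lit 0) (nat_lit 214280981687) (nat_lit 2) (nat_lit 5) (nat_lit 4) (nat_lit 4) (nat_lit 2) (nat_lit 4) (nat_lit 379) (nat_lit 283) (nat_lit 238))) (XT.nd (nat_lit 78) (nat_lit 0) (nat_lit 0) (XT.lf (nat_lit 0) (nat_lit 241286921888) (nat_lit 152) (nat_lit 21472304626) (nat_lit 0) (nat_lit 235819409188) (nat_lit 2) (nat_lit 5) (nat_lit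 4) (nat_lit 4) (nat_lit 2) (nat_lit 4) (nat_lit 380) (nat_lit 283) (nat_lit 237)) (XT.nd (nat_lit 78) (nat_lit 0) (nat_lit 0) (XT.lf (nat_lit 0) (nat_lit 264543892477) (nat_lit 152) (nat_lit 14635623998) (nat_lit 0) (nat_lit 259064280837) (nat_lit 2) (nat_lit 5) (nat_lit 4) (nat_lit 4) (nat_lit 2) (nat_lit 4) (nat_lit 381) (nat_lit 283) (nat_lit 236)) (XT.lf (nat_lit 0) (nat_lit 289644158383) (nat_lit 152) (nat_lit 7285536109) (nat_lit 0) (nat_lit 284153344022) (nat_lit 2) (nat_lit 5) (nat_lit 4) (nat_lit 4) (nat_lit 2) (nat_lit 4) (nat_lit 382) (nat_lit 283) (nat_lit 235))))) (XT.nd (nat_lit 234) (nat_lit 0) (nat_lit 0) (XT.nd (nat_lit 78) (nat_lit 0) (nat_lit 0) (XT.lf (nat_lit 0) (nat_lit 642065213) (nat_lit 76) (nat_lit 316104421148) (nat_lit 76) (nat_lit 310603233895) (nat_lit 1) (nat_lit 4) (nat_lit 2) (nat_lit 5) (nat_lit 2) (nat_lit 4) (nat_lit 383) (nat_lit 283) (nat_lit 234))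 (XT.nd (nat_lit 78) (nat_lit 0) (nat_lit 0) (XT.lf (nat_lit 0) (nat_lit 9434344213) (nat_lit 76) (nat_lit 336694302422) (nat_lit 76) (nat_lit 331183510641) (nat_lit 1) (nat_lit 4) (nat_lit 2) (nat_lit 5) (nat_lit 2) (nat_lit 4) (nat_lit 384) (nat_lit 283) (nat_lit 233)) (XT.lf (nat_lit 0) (nat_lit 18902510559) (nat_lit 76) (nat_lit 358944736505) (nat_lit 76) (nat_lit 353425051642) (nat_lit 1) (nat_lit 4) (nat_lit 2) (nat_lit 5) (nat_lit 2) (nat_lit 4) (nat_lit 385) (nat_lit 283) (nat_lit 232)))) (XT.nd (nat_lit 78) (nat_lit 0) (nat_lit 0) (XT.lf (nat_lit 0) (nat_lit 29102671902) (nat_lit 76) (nat_lit 382987577822) (nat_lit 76) (nat_lit 377459658624) (nat_lit 1) (nat_lit 4) (nat_lit 2) (nat_lit 5) (nat_lit 2) (nat_lit 4) (nat_lit 386) (nat_lit 283) (nat_lit 231)) (XT.nd (nat_lit 78) (nat_lit 0) (nat_lit 0) (XT.lf (nat_lit 0) (nat_lit 40095273643) (nat_lit 76) (nat_lit 408965302470) (nat_lit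 76) (nat_lit 403429758887) (nat_lit 1) (nat_lit 4) (nat_lit 2) (nat_lit 5) (nat_lit 2) (nat_lit 4) (nat_lit 387) (nat_lit 283) (nat_lit 230)) (XT.lf (nat_lit 0) (nat_lit 51945457127) (nat_lit 76) (nat_lit 437031852519) (nat_lit 76) (nat_lit 431489249322) (nat_lit 1) (nat_lit 4) (nat_lit 2) (nat_lit 5) (nat_lit 2) (nat_lit 4) (nat_lit 388) (nat_lit 283) (nat_lit 229)))))) (XT.nd (nat_lit 42510) (nat_lit 0) (nat_lit 760) (XT.nd (nat_lit 156) (nat_lit 0) (nat_lit 0) (XT.nd (nat_lit 78) (nat_lit 0) (nat_lit 0) (XT.lf (nat_lit 0) (nat_lit 64723445661) (nat_lit 76) (nat_lit 467353548268) (nat_lit 76) (nat_lit 461804408390) (nat_lit 1) (nat_lit 4) (nat_lit 2) (nat_lit 5) (nat_lit 2) (nat_lit 4) (nat_lit 389) (nat_lit 283) (nat_lit 228)) (XT.lf (nat_lit 0) (nat_lit 78504960661) (nat_lit 76) (nat_lit 500110073838) (nat_lit 76) (nat_lit 494554881478) (nat_lit 1) (nat_lit 4) (nat_lit 2) (nat_lit 5)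 (nat_lit 2) (nat_lit 4) (nat_lit 390) (nat_lit 283) (nat_lit 227))) (XT.nd (nat_lit 78) (nat_lit 0) (nat_lit 0) (XT.lf (nat_lit 0) (nat_lit 93371670363) (nat_lit 76) (nat_lit 535495541974) (nat_lit 76) (nat_lit 529934745464) (nat_lit 1) (nat_lit 4) (nat_lit 2) (nat_lit 5) (nat_lit 2) (nat_lit 4) (nat_lit 391) (nat_lit 283) (nat_lit 226)) (XT.nd (nat_lit 42198) (nat_lit 0) (nat_lit 1368) (XT.lf (nat_lit 0) (nat_lit 109411673787) (nat_lit 76) (nat_lit 573719644339) (nat_lit 76) (nat_lit 568153658801) (nat_lit 1) (nat_lit 4) (nat_lit 2) (nat_lit 5) (nat_lit 2) (nat_lit 4) (nat_lit 392) (nat_lit 283) (nat_lit 225)) (XT.lf (nat_lit 0) (nat_lit 6752884534) (nat_lit 76) (nat_lit 796549766) (nat_lit 76) (nat_lit 796549766) (nat_lit 19) (nat_lit 4) (nat_lit 20) (nat_lit 5) (nat_lit 20) (nat_lit 4) (nat_lit 332) (nat_lit 284) (nat_lit 284))))) (XT.nd (nat_lit 234) (nat_lit 228) (nat_lit 0) (XT.nd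 (nat_lit 78) (nat_lit 228) (nat_lit 0) (XT.lf (nat_lit 0) (nat_lit 6019570999) (nat_lit 152) (nat_lit 6145695318) (nat_lit 0) (nat_lit 5444647160) (nat_lit 17) (nat_lit 5) (nat_lit 19) (nat_lit 4) (nat_lit 17) (nat_lit 4) (nat_lit 333) (nat_lit 284) (nat_lit 283)) (XT.nd (nat_lit 78) (nat_lit 152) (nat_lit 0) (XT.lf (nat_lit 0) (nat_lit 8261596643) (nat_lit 76) (nat_lit 5727811445) (nat_lit 76) (nat_lit 4620550720) (nat_lit 16) (nat_lit 4) (nat_lit 17) (nat_lit 5) (nat_lit 17) (nat_lit 4) (nat_lit 334) (nat_lit 284) (nat_lit 282)) (XT.lf (nat_lit 0) (nat_lit 2601200828) (nat_lit 152) (nat_lit 16020081813) (nat_lit 0) (nat_lit 1077233923) (nat_lit 14) (nat_lit 5) (nat_lit 16) (nat_lit 4) (nat_lit 14) (nat_lit 4) (nat_lit 335) (nat_lit 284) (nat_lit 281)))) (XT.nd (nat_lit 78) (nat_lit 228) (nat_lit 0) (XT.lf (nat_lit 0) (nat_lit 10137731260) (nat_lit 152) (nat_lit 2558727667) (nat_lit 0)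 (nat_lit 8179104280) (nat_lit 14) (nat_lit 5) (nat_lit 16) (nat_lit 4) (nat_lit 14) (nat_lit 4) (nat_lit 336) (nat_lit 284) (nat_lit 280)) (XT.nd (nat_lit 78) (nat_lit 152) (nat_lit 0) (XT.lf (nat_lit 0) (nat_lit 11693573949) (nat_lit 76) (nat_lit 6411511015) (nat_lit 76) (nat_lit 4050421002) (nat_lit 13) (nat_lit 4) (nat_lit 14) (nat_lit 5) (nat_lit 14) (nat_lit 4) (nat_lit 337) (nat_lit 284) (nat_lit 279)) (XT.lf (nat_lit 0) (nat_lit 2822940785) (nat_lit 152) (nat_lit 20505537536) (nat_lit 0) (nat_lit 219377957) (nat_lit 11) (nat_lit 5) (nat_lit 13) (nat_lit 4) (nat_lit 11) (nat_lit 4) (nat_lit 338) (nat_lit 284) (nat_lit 278))))))) (XT.nd (nat_lit 858) (nat_lit 228) (nat_lit 0) (XT.nd (nat_lit 390) (nat_lit 228) (nat_lit 0) (XT.nd (nat_lit 156) (nat_lit 152) (nat_lit 0) (XT.nd (nat_lit 78) (nat_lit 76) (nat_lit 0) (XT.lf (nat_lit 0) (nat_lit 10066973661) (nat_lit 152) (nat_lit 7848475052)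 (nat_lit 0) (nat_lit 7134794471) (nat_lit 11) (nat_lit 5) (nat_lit 13) (nat_lit 4) (nat_lit 11) (nat_lit 4) (nat_lit 339) (nat_lit 284) (nat_lit 277)) (XT.lf (nat_lit 0) (nat_lit 5413779597) (nat_lit 76) (nat_lit 12253379934) (nat_lit 76) (nat_lit 9016926332) (nat_lit 10) (nat_lit 4) (nat_lit 11) (nat_lit 5) (nat_lit 11) (nat_lit 4) (nat_lit 340) (nat_lit 284) (nat_lit 276))) (XT.nd (nat_lit 78) (nat_lit 152) (nat_lit 0) (XT.lf (nat_lit 0) (nat_lit 19461867777) (nat_lit 76) (nat_lit 6256449352) (nat_lit 76) (nat_lit 2738260186) (nat_lit 10) (nat_lit 4) (nat_lit 11) (nat_lit 5) (nat_lit 11) (nat_lit 4) (nat_lit 341) (nat_lit 284) (nat_lit 275)) (XT.nd (nat_lit 78) (nat_lit 0) (nat_lit 0) (XT.lf (nat_lit 0) (nat_lit 3697655189) (nat_lit 152) (nat_lit 26582363505) (nat_lit 0) (nat_lit 98554779) (nat_lit 8) (nat_lit 5) (nat_lit 10) (nat_lit 4) (nat_lit 8) (nat_lit 4) (nat_lit 342) (nat_lit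 284) (nat_lit 274)) (XT.lf (nat_lit 0) (nat_lit 10550967265) (nat_lit 152) (nat_lit 15179441424) (nat_lit 0) (nat_lit 6721826058) (nat_lit 8) (nat_lit 5) (nat_lit 10) (nat_lit 4) (nat_lit 8) (nat_lit 4) (nat_lit 343) (nat_lit 284) (nat_lit 273))))) (XT.nd (nat_lit 234) (nat_lit 152) (nat_lit 0) (XT.nd (nat_lit 78) (nat_lit 76) (nat_lit 0) (XT.lf (nat_lit 0) (nat_lit 17704794724) (nat_lit 152) (nat_lit 3336796338) (nat_lit 0) (nat_lit 13662652778) (nat_lit 8) (nat_lit 5) (nat_lit 10) (nat_lit 4) (nat_lit 8) (nat_lit 4) (nat_lit 344) (nat_lit 284) (nat_lit 272)) (XT.nd (nat_lit 78) (nat_lit 0) (nat_lit 0) (XT.lf (nat_lit 0) (nat_lit 9313851813) (nat_lit 76) (nat_lit 16033094133) (nat_lit 76) (nat_lit 11793729282) (nat_lit 7) (nat_lit 4) (nat_lit 8) (nat_lit 5) (nat_lit 8) (nat_lit 4) (nat_lit 345) (nat_lit 284) (nat_lit 271)) (XT.lf (nat_lit 0) (nat_lit 22677211422) (nat_lit 76) (nat_lit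 10762443447) (nat_lit 76) (nat_lit 6340464794) (nat_lit 7) (nat_lit 4) (nat_lit 8) (nat_lit 5) (nat_lit 8) (nat_lit 4) (nat_lit 346) (nat_lit 284) (nat_lit 270)))) (XT.nd (nat_lit 78) (nat_lit 152) (nat_lit 0) (XT.lf (nat_lit 0) (nat_lit 36722143213) (nat_lit 76) (nat_lit 5254915780) (nat_lit 76) (nat_lit 663850274) (nat_lit 7) (nat_lit 4) (nat_lit 8) (nat_lit 5) (nat_lit 8) (nat_lit 4) (nat_lit 347) (nat_lit 284) (nat_lit 269)) (XT.nd (nat_lit 78) (nat_lit 0) (nat_lit 0) (XT.lf (nat_lit 0) (nat_lit 5204189150) (nat_lit 152) (nat_lit 39843899659) (nat_lit 0) (nat_lit 682639238) (nat_lit 5) (nat_lit 5) (nat_lit 7) (nat_lit 4) (nat_lit 5) (nat_lit 4) (nat_lit 348) (nat_lit 284) (nat_lit 268)) (XT.lf (nat_lit 0) (nat_lit 11527366010) (nat_lit 152) (nat_lit 30671663820) (nat_lit 0) (nat_lit 6867754456) (nat_lit 5) (nat_lit 5) (nat_lit 7) (nat_lit 4) (nat_lit 5) (nat_lit 4) (nat_lit 349) (nat_lit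 284) (nat_lit 267)))))) (XT.nd (nat_lit 468) (nat_lit 152) (nat_lit 0) (XT.nd (nat_lit 234) (nat_lit 76) (nat_lit 0) (XT.nd (nat_lit 78) (nat_lit 0) (nat_lit 0) (XT.lf (nat_lit 0) (nat_lit 18185325421) (nat_lit 152) (nat_lit 21095114642) (nat_lit 0) (nat_lit 13397879015) (nat_lit 5) (nat_lit 5) (nat_lit 7) (nat_lit 4) (nat_lit 5) (nat_lit 4) (nat_lit 350) (nat_lit 284) (nat_lit 266)) (XT.nd (nat_lit 78) (nat_lit 0) (nat_lit 0) (XT.lf (nat_lit 0) (nat_lit 25217521960) (nat_lit 152) (nat_lit 11057502204) (nat_lit 0) (nat_lit 20311709948) (nat_lit 5) (nat_lit 5) (nat_lit 7) (nat_lit 4) (nat_lit 5) (nat_lit 4) (nat_lit 351) (nat_lit 284) (nat_lit 265)) (XT.lf (nat_lit 0) (nat_lit 32665627900) (nat_lit 152) (nat_lit 499344357) (nat_lit 0) (nat_lit 27650218107) (nat_lit 5) (nat_lit 5) (nat_lit 7) (nat_lit 4) (nat_lit 5) (nat_lit 4) (nat_lit 352) (nat_lit 284) (nat_lit 264)))) (XT.nd (nat_lit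 78) (nat_lit 0) (nat_lit 0) (XT.lf (nat_lit 0) (nat_lit 10993795883) (nat_lit 76) (nat_lit 29751628247) (nat_lit 76) (nat_lit 24634739026) (nat_lit 4) (nat_lit 4) (nat_lit 5) (nat_lit 5) (nat_lit 5) (nat_lit 4) (nat_lit 353) (nat_lit 284) (nat_lit 263)) (XT.nd (nat_lit 78) (nat_lit 0) (nat_lit 0) (XT.lf (nat_lit 0) (nat_lit 23174044637) (nat_lit 76) (nat_lit 26176609029) (nat_lit 76) (nat_lit 20965757375) (nat_lit 4) (nat_lit 4) (nat_lit 5) (nat_lit 5) (nat_lit 5) (nat_lit 4) (nat_lit 354) (nat_lit 284) (nat_lit 262)) (XT.lf (nat_lit 0) (nat_lit 36097070575) (nat_lit 76) (nat_lit 22427185944) (nat_lit 76) (nat_lit 17129332037) (nat_lit 4) (nat_lit 4) (nat_lit 5) (nat_lit 5) (nat_lit 5) (nat_lit 4) (nat_lit 355) (nat_lit 284) (nat_lit 261))))) (XT.nd (nat_lit 234) (nat_lit 152) (nat_lit 0) (XT.nd (nat_lit 78) (nat_lit 0) (nat_lit 0) (XT.lf (nat_lit 0) (nat_lit 49839454592) (nat_lit 76) (nat_lit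 18481140188) (nat_lit 76) (nat_lit 13102728639) (nat_lit 4) (nat_lit 4) (nat_lit 5) (nat_lit 5) (nat_lit 5) (nat_lit 4) (nat_lit 356) (nat_lit 284) (nat_lit 260)) (XT.nd (nat_lit 78) (nat_lit 0) (nat_lit 0) (XT.lf (nat_lit 0) (nat_lit 64482633038) (nat_lit 76) (nat_lit 14315087786) (nat_lit 76) (nat_lit 8862085828) (nat_lit 4) (nat_lit 4) (nat_lit 5) (nat_lit 5) (nat_lit 5) (nat_lit 4) (nat_lit 357) (nat_lit 284) (nat_lit 259)) (XT.lf (nat_lit 0) (nat_lit 80113380303) (nat_lit 76) (nat_lit 9904341020) (nat_lit 76) (nat_lit 4382273869) (nat_lit 4) (nat_lit 4) (nat_lit 5) (nat_lit 5) (nat_lit 5) (nat_lit 4) (nat_lit 358) (nat_lit 284) (nat_lit 258)))) (XT.nd (nat_lit 78) (nat_lit 76) (nat_lit 0) (XT.lf (nat_lit 0) (nat_lit 351627867) (nat_lit 152) (nat_lit 4865179277) (nat_lit 76) (nat_lit 96466740183) (nat_lit 3) (nat_lit 5) (nat_lit 5) (nat_lit 5) (nat_lit 4) (nat_lit 4) (nat_lit 359) (nat_lit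 284) (nat_lit 257)) (XT.nd (nat_lit 78) (nat_lit 0) (nat_lit 0) (XT.lf (nat_lit 0) (nat_lit 5243486070) (nat_lit 76) (nat_lit 68082098) (nat_lit 152) (nat_lit 104234598292) (nat_lit 2) (nat_lit 5) (nat_lit 3) (nat_lit 5) (nat_lit 4) (nat_lit 4) (nat_lit 360) (nat_lit 284) (nat_lit 256)) (XT.lf (nat_lit 0) (nat_lit 10759736274) (nat_lit 152) (nat_lit 101942391150) (nat_lit 0) (nat_lit 5331112604) (nat_lit 2) (nat_lit 5) (nat_lit 4) (nat_lit 4) (nat_lit 2) (nat_lit 4) (nat_lit 361) (nat_lit 284) (nat_lit 255))))))))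
noncomputable def xc21 : XT := (XT.nd (nat_lit 1716) (nat_lit 76) (nat_lit 0) (XT.nd (nat_lit 858) (nat_lit 0) (nat_lit 0) (XT.nd (nat_lit 390) (nat_lit 0) (nat_lit 0) (XT.nd (nat_lit 156) (nat_lit 0) (nat_lit 0) (XT.nd (nat_lit 78) (nat_lit 0) (nat_lit 0) (XT.lf (nat_lit 0) (nat_lit 16570406764) (nat_lit 152) (nat_lit 99539120084) (nat_lit 0) (nat_lit 11093435495) (nat_lit 2) (nat_lit 5) (nat_lit 4) (nat_lit 4) (nat_lit 2) (nat_lit 4) (nat_lit 362) (nat_lit 284) (nat_lit 254)) (XT.lf (nat_lit 0) (nat_lit 22776950288) (nat_lit 152) (nat_lit 97077562636) (nat_lit 0) (nat_lit 17255212723) (nat_lit 2) (nat_lit 5) (nat_lit 4) (nat_lit 4) (nat_lit 2) (nat_lit 4) (nat_lit 363) (nat_lit 284) (nat_lit 253))) (XT.nd (nat_lit 78) (nat_lit 0) (nat_lit 0) (XT.lf (nat_lit 0) (nat_lit 29416146363) (nat_lit 152) (nat_lit 94543131797) (nat_lit 0) (nat_lit 23852958525) (nat_lit 2) (nat_lit 5) (nat_lit 4)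 (nat_lit 4) (nat_lit 2) (nat_lit 4) (nat_lit 364) (nat_lit 284) (nat_lit 252)) (XT.nd (nat_lit 78) (nat_lit 0) (nat_lit 0) (XT.lf (nat_lit 0) (nat_lit 36527338374) (nat_lit 152) (nat_lit 91920808719) (nat_lit 0) (nat_lit 30925770653) (nat_lit 2) (nat_lit 5) (nat_lit 4) (nat_lit 4) (nat_lit 2) (nat_lit 4) (nat_lit 365) (nat_lit 284) (nat_lit 251)) (XT.lf (nat_lit 0) (nat_lit 44152666718) (nat_lit 152) (nat_lit 89195053709) (nat_lit 0) (nat_lit 38515562068) (nat_lit 2) (nat_lit 5) (nat_lit 4) (nat_lit 4) (nat_lit 2) (nat_lit 4) (nat_lit 366) (nat_lit 284) (nat_lit 250))))) (XT.nd (nat_lit 234) (nat_lit 0) (nat_lit 0) (XT.nd (nat_lit 78) (nat_lit 0) (nat_lit 0) (XT.lf (nat_lit 0) (nat_lit 52337318526) (nat_lit 152) (nat_lit 86349714145) (nat_lit 0) (nat_lit 46667309312) (nat_lit 2) (nat_lit 5) (nat_lit 4) (nat_lit 4) (nat_lit 2) (nat_lit 4) (nat_lit 367) (nat_lit 284) (nat_lit 249)) (XT.nd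 (nat_lit 78) (nat_lit 0) (nat_lit 0) (XT.lf (nat_lit 0) (nat_lit 61129795437) (nat_lit 152) (nat_lit 83367928755) (nat_lit 0) (nat_lit 55429319035) (nat_lit 2) (nat_lit 5) (nat_lit 4) (nat_lit 4) (nat_lit 2) (nat_lit 4) (nat_lit 368) (nat_lit 284) (nat_lit 248)) (XT.lf (nat_lit 0) (nat_lit 70582201019) (nat_lit 152) (nat_lit 80232027700) (nat_lit 0) (nat_lit 64853514258) (nat_lit 2) (nat_lit 5) (nat_lit 4) (nat_lit 4) (nat_lit 2) (nat_lit 4) (nat_lit 369) (nat_lit 284) (nat_lit 247)))) (XT.nd (nat_lit 78) (nat_lit 0) (nat_lit 0) (XT.lf (nat_lit 0) (nat_lit 80750549528) (nat_lit 152) (nat_lit 76923427862) (nat_lit 0) (nat_lit 74995742063) (nat_lit 2) (nat_lit 5) (nat_lit 4) (nat_lit 4) (nat_lit 2) (nat_lit 4) (nat_lit 370) (nat_lit 284) (nat_lit 246)) (XT.nd (nat_lit 78) (nat_lit 0) (nat_lit 0) (XT.lf (nat_lit 0) (nat_lit 91695097843) (nat_lit 152) (nat_lit 73422522725) (nat_lit 0) (nat_lit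 85916104541) (nat_lit 2) (nat_lit 5) (nat_lit 4) (nat_lit 4) (nat_lit 2) (nat_lit 4) (nat_lit 371) (nat_lit 284) (nat_lit 245)) (XT.lf (nat_lit 0) (nat_lit 103480702546) (nat_lit 152) (nat_lit 69708566184) (nat_lit 0) (nat_lit 97679314952) (nat_lit 2) (nat_lit 5) (nat_lit 4) (nat_lit 4) (nat_lit 2) (nat_lit 4) (nat_lit 372) (nat_lit 284) (nat_lit 244)))))) (XT.nd (nat_lit 390) (nat_lit 0) (nat_lit 0) (XT.nd (nat_lit 156) (nat_lit 0) (nat_lit 0) (XT.nd (nat_lit 78) (nat_lit 0) (nat_lit 0) (XT.lf (nat_lit 0) (nat_lit 116177204259) (nat_lit 152) (nat_lit 65759549606) (nat_lit 0) (nat_lit 110355081208) (nat_lit 2) (nat_lit 5) (nat_lit 4) (nat_lit 4) (nat_lit 2) (nat_lit 4) (nat_lit 373) (nat_lit 284) (nat_lit 243)) (XT.lf (nat_lit 0) (nat_lit 129859841510) (nat_lit 152) (nat_lit 61552071413) (nat_lit 0) (nat_lit 124018518963) (nat_lit 2) (nat_lit 5) (nat_lit 4) (nat_lit 4) (nat_lit 2) (nat_lit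 4) (nat_lit 374) (nat_lit 284) (nat_lit 242))) (XT.nd (nat_lit 78) (nat_lit 0) (nat_lit 0) (XT.lf (nat_lit 0) (nat_lit 144609696594) (nat_lit 152) (nat_lit 57061198401) (nat_lit 0) (nat_lit 138750596734) (nat_lit 2) (nat_lit 5) (nat_lit 4) (nat_lit 4) (nat_lit 2) (nat_lit 4) (nat_lit 375) (nat_lit 284) (nat_lit 241)) (XT.nd (nat_lit 78) (nat_lit 0) (nat_lit 0) (XT.lf (nat_lit 0) (nat_lit 160514176059) (nat_lit 152) (nat_lit 52260317988) (nat_lit 0) (nat_lit 154638615726) (nat_lit 2) (nat_lit 5) (nat_lit 4) (nat_lit 4) (nat_lit 2) (nat_lit 4) (nat_lit 376) (nat_lit 284) (nat_lit 240)) (XT.lf (nat_lit 0) (nat_lit 177667528673) (nat_lit 152) (nat_lit 47120980513) (nat_lit 0) (nat_lit 171776727160) (nat_lit 2) (nat_lit 5) (nat_lit 4) (nat_lit 4) (nat_lit 2) (nat_lit 4) (nat_lit 377) (nat_lit 284) (nat_lit 239))))) (XT.nd (nat_lit 234) (nat_lit 0) (nat_lit 0) (XT.nd (nat_lit 78) (nat_lit 0)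 (nat_lit 0) (XT.lf (nat_lit 0) (nat_lit 196171403932) (nat_lit 152) (nat_lit 41612730643) (nat_lit 0) (nat_lit 190266490216) (nat_lit 2) (nat_lit 5) (nat_lit 4) (nat_lit 4) (nat_lit 2) (nat_lit 4) (nat_lit 378) (nat_lit 284) (nat_lit 238)) (XT.nd (nat_lit 78) (nat_lit 0) (nat_lit 0) (XT.lf (nat_lit 0) (nat_lit 216135454431) (nat_lit 152) (nat_lit 35702926896) (nat_lit 0) (nat_lit 210217473860) (nat_lit 2) (nat_lit 5) (nat_lit 4) (nat_lit 4) (nat_lit 2) (nat_lit 4) (nat_lit 379) (nat_lit 284) (nat_lit 237)) (XT.lf (nat_lit 0) (nat_lit 237677985655) (nat_lit 152) (nat_lit 29356548214) (nat_lit 0) (nat_lit 231747906144) (nat_lit 2) (nat_lit 5) (nat_lit 4) (nat_lit 4) (nat_lit 2) (nat_lit 4) (nat_lit 380) (nat_lit 284) (nat_lit 236)))) (XT.nd (nat_lit 78) (nat_lit 0) (nat_lit 0) (XT.lf (nat_lit 0) (nat_lit 260926657047) (nat_lit 152) (nat_lit 22535986428) (nat_lit 0) (nat_lit 254985374814)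 (nat_lit 2) (nat_lit 5) (nat_lit 4) (nat_lit 4) (nat_lit 2) (nat_lit 4) (nat_lit 381) (nat_lit 284) (nat_lit 235)) (XT.nd (nat_lit 78) (nat_lit 0) (nat_lit 0) (XT.lf (nat_lit 0) (nat_lit 286019238511) (nat_lit 152) (nat_lit 15200823391) (nat_lit 0) (nat_lit 280067583388) (nat_lit 2) (nat_lit 5) (nat_lit 4) (nat_lit 4) (nat_lit 2) (nat_lit 4) (nat_lit 382) (nat_lit 284) (nat_lit 234)) (XT.lf (nat_lit 0) (nat_lit 313104426828) (nat_lit 152) (nat_lit 7307591473) (nat_lit 0) (nat_lit 307143167176) (nat_lit 2) (nat_lit 5) (nat_lit 4) (nat_lit 4) (nat_lit 2) (nat_lit 4) (nat_lit 383) (nat_lit 284) (nat_lit 233))))))) (XT.nd (nat_lit 42822) (nat_lit 0) (nat_lit 532) (XT.nd (nat_lit 390) (nat_lit 0) (nat_lit 0) (XT.nd (nat_lit 156) (nat_lit 0) (nat_lit 0) (XT.nd (nat_lit 78) (nat_lit 0) (nat_lit 0) (XT.lf (nat_lit 0) (nat_lit 1229846812) (nat_lit 76) (nat_lit 341132081360) (nat_lit 76) (nat_lit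 335161928626) (nat_lit 1) (nat_lit 4) (nat_lit 2) (nat_lit 5) (nat_lit 2) (nat_lit 4) (nat_lit 384) (nat_lit 284) (nat_lit 232)) (XT.lf (nat_lit 0) (nat_lit 10685773585) (nat_lit 76) (nat_lit 363388463764) (nat_lit 76) (nat_lit 357410076695) (nat_lit 1) (nat_lit 4) (nat_lit 2) (nat_lit 5) (nat_lit 2) (nat_lit 4) (nat_lit 385) (nat_lit 284) (nat_lit 231))) (XT.nd (nat_lit 78) (nat_lit 0) (nat_lit 0) (XT.lf (nat_lit 0) (nat_lit 20874601991) (nat_lit 76) (nat_lit 387436812785) (nat_lit 76) (nat_lit 381450801332) (nat_lit 1) (nat_lit 4) (nat_lit 2) (nat_lit 5) (nat_lit 2) (nat_lit 4) (nat_lit 386) (nat_lit 284) (nat_lit 230)) (XT.nd (nat_lit 78) (nat_lit 0) (nat_lit 0) (XT.lf (nat_lit 0) (nat_lit 31856710272) (nat_lit 76) (nat_lit 413419637159) (nat_lit 76) (nat_lit 407426566091) (nat_lit 1) (nat_lit 4) (nat_lit 2) (nat_lit 5) (nat_lit 2) (nat_lit 4) (nat_lit 387) (nat_lit 284) (nat_lit 229))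 (XT.lf (nat_lit 0) (nat_lit 43697177589) (nat_lit 76) (nat_lit 441490909177) (nat_lit 76) (nat_lit 435491301428) (nat_lit 1) (nat_lit 4) (nat_lit 2) (nat_lit 5) (nat_lit 2) (nat_lit 4) (nat_lit 388) (nat_lit 284) (nat_lit 228))))) (XT.nd (nat_lit 234) (nat_lit 0) (nat_lit 0) (XT.nd (nat_lit 78) (nat_lit 0) (nat_lit 0) (XT.lf (nat_lit 0) (nat_lit 56466169673) (nat_lit 76) (nat_lit 471816977119) (nat_lit 76) (nat_lit 465811316888) (nat_lit 1) (nat_lit 4) (nat_lit 2) (nat_lit 5) (nat_lit 2) (nat_lit 4) (nat_lit 389) (nat_lit 284) (nat_lit 227)) (XT.nd (nat_lit 78) (nat_lit 0) (nat_lit 0) (XT.lf (nat_lit 0) (nat_lit 70239354626) (nat_lit 76) (nat_lit 504577551016) (nat_lit 76) (nat_lit 498566286635) (nat_lit 1) (nat_lit 4) (nat_lit 2) (nat_lit 5) (nat_lit 2) (nat_lit 4) (nat_lit 390) (nat_lit 284) (nat_lit 226)) (XT.lf (nat_lit 0) (nat_lit 85098351321) (nat_lit 76) (nat_lit 539966767603) (nat_lit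 76) (nat_lit 533950314194) (nat_lit 1) (nat_lit 4) (nat_lit 2) (nat_lit 5) (nat_lit 2) (nat_lit 4) (nat_lit 391) (nat_lit 284) (nat_lit 225)))) (XT.nd (nat_lit 42042) (nat_lit 0) (nat_lit 1444) (XT.lf (nat_lit 0) (nat_lit 101131213072) (nat_lit 76) (nat_lit 578194340757) (nat_lit 76) (nat_lit 572173082692) (nat_lit 1) (nat_lit 4) (nat_lit 2) (nat_lit 5) (nat_lit 2) (nat_lit 4) (nat_lit 392) (nat_lit 284) (nat_lit 224)) (XT.nd (nat_lit 78) (nat_lit 152) (nat_lit 0) (XT.lf (nat_lit 0) (nat_lit 7476438875) (nat_lit 152) (nat_lit 26293947) (nat_lit 152) (nat_lit 26293947) (nat_lit 22) (nat_lit 4) (nat_lit 24) (nat_lit 5) (nat_lit 24) (nat_lit 4) (nat_lit 330) (nat_lit 285) (nat_lit 285)) (XT.lf (nat_lit 0) (nat_lit 7544485689) (nat_lit 152) (nat_lit 1406635182) (nat_lit 0) (nat_lit 6892522057) (nat_lit 20) (nat_lit 5) (nat_lit 22) (nat_lit 4) (nat_lit 20) (nat_lit 4) (nat_lit 331) (nat_lit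 285) (nat_lit 284)))))) (XT.nd (nat_lit 468) (nat_lit 380) (nat_lit 0) (XT.nd (nat_lit 234) (nat_lit 228) (nat_lit 0) (XT.nd (nat_lit 78) (nat_lit 228) (nat_lit 0) (XT.lf (nat_lit 0) (nat_lit 13143210975) (nat_lit 76) (nat_lit 2407250621) (nat_lit 76) (nat_lit 1151616959) (nat_lit 19) (nat_lit 4) (nat_lit 20) (nat_lit 5) (nat_lit 20) (nat_lit 4) (nat_lit 332) (nat_lit 285) (nat_lit 283)) (XT.nd (nat_lit 78) (nat_lit 76) (nat_lit 0) (XT.lf (nat_lit 0) (nat_lit 6231449287) (nat_lit 152) (nat_lit 6895813893) (nat_lit 0) (nat_lit 4503270816) (nat_lit 17) (nat_lit 5) (nat_lit 19) (nat_lit 4) (nat_lit 17) (nat_lit 4) (nat_lit 333) (nat_lit 285) (nat_lit 282)) (XT.lf (nat_lit 0) (nat_lit 7141714541) (nat_lit 76) (nat_lit 6860000685) (nat_lit 76) (nat_lit 4638917690) (nat_lit 16) (nat_lit 4) (nat_lit 17) (nat_lit 5) (nat_lit 17) (nat_lit 4) (nat_lit 334) (nat_lit 285) (nat_lit 281)))) (XT.nd (nat_lit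 78) (nat_lit 76) (nat_lit 0) (XT.lf (nat_lit 0) (nat_lit 2172308902) (nat_lit 76) (nat_lit 193439866) (nat_lit 152) (nat_lit 17374406052) (nat_lit 14) (nat_lit 5) (nat_lit 15) (nat_lit 5) (nat_lit 16) (nat_lit 4) (nat_lit 335) (nat_lit 285) (nat_lit 280)) (XT.nd (nat_lit 78) (nat_lit 76) (nat_lit 0) (XT.lf (nat_lit 0) (nat_lit 9728745302) (nat_lit 152) (nat_lit 4420889065) (nat_lit 0) (nat_lit 6776305055) (nat_lit 14) (nat_lit 5) (nat_lit 16) (nat_lit 4) (nat_lit 14) (nat_lit 4) (nat_lit 336) (nat_lit 285) (nat_lit 279)) (XT.lf (nat_lit 0) (nat_lit 9466218231) (nat_lit 76) (nat_lit 8037222398) (nat_lit 76) (nat_lit 4712131195) (nat_lit 13) (nat_lit 4) (nat_lit 14) (nat_lit 5) (nat_lit 14) (nat_lit 4) (nat_lit 337) (nat_lit 285) (nat_lit 278))))) (XT.nd (nat_lit 234) (nat_lit 152) (nat_lit 0) (XT.nd (nat_lit 78) (nat_lit 76) (nat_lit 0) (XT.lf (nat_lit 0) (nat_lit 397943803) (nat_lit 76)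 (nat_lit 1586486531) (nat_lit 152) (nat_lit 21633957337) (nat_lit 11) (nat_lit 5) (nat_lit 12) (nat_lit 5) (nat_lit 13) (nat_lit 4) (nat_lit 338) (nat_lit 285) (nat_lit 277)) (XT.nd (nat_lit 78) (nat_lit 76) (nat_lit 0) (XT.lf (nat_lit 0) (nat_lit 9055667793) (nat_lit 152) (nat_lit 10817769379) (nat_lit 0) (nat_lit 5256023493) (nat_lit 11) (nat_lit 5) (nat_lit 13) (nat_lit 4) (nat_lit 11) (nat_lit 4) (nat_lit 339) (nat_lit 285) (nat_lit 276)) (XT.lf (nat_lit 0) (nat_lit 2079281338) (nat_lit 76) (nat_lit 14387450425) (nat_lit 76) (nat_lit 10306070560) (nat_lit 10) (nat_lit 4) (nat_lit 11) (nat_lit 5) (nat_lit 11) (nat_lit 4) (nat_lit 340) (nat_lit 285) (nat_lit 275)))) (XT.nd (nat_lit 78) (nat_lit 152) (nat_lit 0) (XT.lf (nat_lit 0) (nat_lit 15880123546) (nat_lit 76) (nat_lit 8506997249) (nat_lit 76) (nat_lit 4164751120) (nat_lit 10) (nat_lit 4) (nat_lit 11) (nat_lit 5) (nat_lit 11) (nat_lit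 4) (nat_lit 341) (nat_lit 285) (nat_lit 274)) (XT.nd (nat_lit 78) (nat_lit 76) (nat_lit 0) (XT.lf (nat_lit 0) (nat_lit 2132833196) (nat_lit 152) (nat_lit 211480913) (nat_lit 76) (nat_lit 28139901941) (nat_lit 9) (nat_lit 5) (nat_lit 11) (nat_lit 5) (nat_lit 10) (nat_lit 4) (nat_lit 342) (nat_lit 285) (nat_lit 273)) (XT.lf (nat_lit 0) (nat_lit 8826966682) (nat_lit 152) (nat_lit 19490449351) (nat_lit 0) (nat_lit 4248452643) (nat_lit 8) (nat_lit 5) (nat_lit 10) (nat_lit 4) (nat_lit 8) (nat_lit 4) (nat_lit 343) (nat_lit 285) (nat_lit 272))))))))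
noncomputable def xc22 : XT := (XT.nd (nat_lit 1716) (nat_lit 76) (nat_lit 0) (XT.nd (nat_lit 858) (nat_lit 152) (nat_lit 0) (XT.nd (nat_lit 390) (nat_lit 76) (nat_lit 0) (XT.nd (nat_lit 156) (nat_lit 152) (nat_lit 0) (XT.nd (nat_lit 78) (nat_lit 76) (nat_lit 0) (XT.lf (nat_lit 0) (nat_lit 15870506755) (nat_lit 152) (nat_lit 7858145594) (nat_lit 0) (nat_lit 11094769810) (nat_lit 8) (nat_lit 5) (nat_lit 10) (nat_lit 4) (nat_lit 8) (nat_lit 4) (nat_lit 344) (nat_lit 285) (nat_lit 271)) (XT.lf (nat_lit 0) (nat_lit 4441806180) (nat_lit 76) (nat_lit 18892667562) (nat_lit 76) (nat_lit 13934316815) (nat_lit 7) (nat_lit 4) (nat_lit 8) (nat_lit 5) (nat_lit 8) (nat_lit 4) (nat_lit 345) (nat_lit 285) (nat_lit 270))) (XT.nd (nat_lit 78) (nat_lit 152) (nat_lit 0) (XT.lf (nat_lit 0) (nat_lit 17618869353) (nat_lit 76) (nat_lit 13710851046) (nat_lit 76) (nat_lit 8583413445) (nat_lit 7) (nat_lit 4) (nat_lit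 8) (nat_lit 5) (nat_lit 8) (nat_lit 4) (nat_lit 346) (nat_lit 285) (nat_lit 269)) (XT.nd (nat_lit 78) (nat_lit 152) (nat_lit 0) (XT.lf (nat_lit 0) (nat_lit 31491304443) (nat_lit 76) (nat_lit 8285577240) (nat_lit 76) (nat_lit 3001577738) (nat_lit 7) (nat_lit 4) (nat_lit 8) (nat_lit 5) (nat_lit 8) (nat_lit 4) (nat_lit 347) (nat_lit 285) (nat_lit 268)) (XT.lf (nat_lit 0) (nat_lit 222278795) (nat_lit 76) (nat_lit 2534425116) (nat_lit 152) (nat_lit 43122649212) (nat_lit 5) (nat_lit 5) (nat_lit 6) (nat_lit 5) (nat_lit 7) (nat_lit 4) (nat_lit 348) (nat_lit 285) (nat_lit 267))))) (XT.nd (nat_lit 234) (nat_lit 76) (nat_lit 0) (XT.nd (nat_lit 78) (nat_lit 0) (nat_lit 0) (XT.lf (nat_lit 0) (nat_lit 8958065333) (nat_lit 152) (nat_lit 36603665899) (nat_lit 0) (nat_lit 3659788361) (nat_lit 5) (nat_lit 5) (nat_lit 7) (nat_lit 4) (nat_lit 5) (nat_lit 4) (nat_lit 349) (nat_lit 285) (nat_lit 266)) (XT.nd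 (nat_lit 78) (nat_lit 0) (nat_lit 0) (XT.lf (nat_lit 0) (nat_lit 15539871078) (nat_lit 152) (nat_lit 27173780507) (nat_lit 0) (nat_lit 10123228501) (nat_lit 5) (nat_lit 5) (nat_lit 7) (nat_lit 4) (nat_lit 5) (nat_lit 4) (nat_lit 350) (nat_lit 285) (nat_lit 265)) (XT.lf (nat_lit 0) (nat_lit 22501554962) (nat_lit 152) (nat_lit 17271967870) (nat_lit 0) (nat_lit 16975314603) (nat_lit 5) (nat_lit 5) (nat_lit 7) (nat_lit 4) (nat_lit 5) (nat_lit 4) (nat_lit 351) (nat_lit 285) (nat_lit 264)))) (XT.nd (nat_lit 78) (nat_lit 76) (nat_lit 0) (XT.lf (nat_lit 0) (nat_lit 29884371408) (nat_lit 152) (nat_lit 6839550580) (nat_lit 0) (nat_lit 24256651621) (nat_lit 5) (nat_lit 5) (nat_lit 7) (nat_lit 4) (nat_lit 5) (nat_lit 4) (nat_lit 352) (nat_lit 285) (nat_lit 263)) (XT.nd (nat_lit 78) (nat_lit 0) (nat_lit 0) (XT.lf (nat_lit 0) (nat_lit 4323677784) (nat_lit 76) (nat_lit 33475897382) (nat_lit 76) (nat_lit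 27754215162) (nat_lit 4) (nat_lit 4) (nat_lit 5) (nat_lit 5) (nat_lit 5) (nat_lit 4) (nat_lit 353) (nat_lit 285) (nat_lit 262)) (XT.lf (nat_lit 0) (nat_lit 16392559847) (nat_lit 76) (nat_lit 29954530890) (nat_lit 76) (nat_lit 24145846417) (nat_lit 4) (nat_lit 4) (nat_lit 5) (nat_lit 5) (nat_lit 5) (nat_lit 4) (nat_lit 354) (nat_lit 285) (nat_lit 261)))))) (XT.nd (nat_lit 390) (nat_lit 152) (nat_lit 0) (XT.nd (nat_lit 156) (nat_lit 0) (nat_lit 0) (XT.nd (nat_lit 78) (nat_lit 0) (nat_lit 0) (XT.lf (nat_lit 0) (nat_lit 29212468479) (nat_lit 76) (nat_lit 26254786255) (nat_lit 76) (nat_lit 20365544140) (nat_lit 4) (nat_lit 4) (nat_lit 5) (nat_lit 5) (nat_lit 5) (nat_lit 4) (nat_lit 355) (nat_lit 285) (nat_lit 260)) (XT.lf (nat_lit 0) (nat_lit 42859373510) (nat_lit 76) (nat_lit 22354739064) (nat_lit 76) (nat_lit 16390906540) (nat_lit 4) (nat_lit 4) (nat_lit 5) (nat_lit 5) (nat_lit 5) (nat_lit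 4) (nat_lit 356) (nat_lit 285) (nat_lit 259))) (XT.nd (nat_lit 78) (nat_lit 0) (nat_lit 0) (XT.lf (nat_lit 0) (nat_lit 57414145486) (nat_lit 76) (nat_lit 18231277925) (nat_lit 76) (nat_lit 12198380208) (nat_lit 4) (nat_lit 4) (nat_lit 5) (nat_lit 5) (nat_lit 5) (nat_lit 4) (nat_lit 357) (nat_lit 285) (nat_lit 258)) (XT.nd (nat_lit 78) (nat_lit 0) (nat_lit 0) (XT.lf (nat_lit 0) (nat_lit 72963034909) (nat_lit 76) (nat_lit 13859967515) (nat_lit 76) (nat_lit 7763120544) (nat_lit 4) (nat_lit 4) (nat_lit 5) (nat_lit 5) (nat_lit 5) (nat_lit 4) (nat_lit 358) (nat_lit 285) (nat_lit 257)) (XT.lf (nat_lit 0) (nat_lit 89598183346) (nat_lit 76) (nat_lit 9214903770) (nat_lit 76) (nat_lit 3058844528) (nat_lit 4) (nat_lit 4) (nat_lit 5) (nat_lit 5) (nat_lit 5) (nat_lit 4) (nat_lit 359) (nat_lit 285) (nat_lit 256))))) (XT.nd (nat_lit 234) (nat_lit 0) (nat_lit 0) (XT.nd (nat_lit 78) (nat_lit 76) (nat_lit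 0) (XT.lf (nat_lit 0) (nat_lit 1880158499) (nat_lit 152) (nat_lit 2356560494) (nat_lit 76) (nat_lit 105506169560) (nat_lit 3) (nat_lit 5) (nat_lit 5) (nat_lit 5) (nat_lit 4) (nat_lit 4) (nat_lit 360) (nat_lit 285) (nat_lit 255)) (XT.nd (nat_lit 78) (nat_lit 0) (nat_lit 0) (XT.lf (nat_lit 0) (nat_lit 7188793509) (nat_lit 152) (nat_lit 109822835687) (nat_lit 0) (nat_lit 1225316939) (nat_lit 2) (nat_lit 5) (nat_lit 4) (nat_lit 4) (nat_lit 2) (nat_lit 4) (nat_lit 361) (nat_lit 285) (nat_lit 254)) (XT.lf (nat_lit 0) (nat_lit 12966300246) (nat_lit 152) (nat_lit 107483975825) (nat_lit 0) (nat_lit 6958057381) (nat_lit 2) (nat_lit 5) (nat_lit 4) (nat_lit 4) (nat_lit 2) (nat_lit 4) (nat_lit 362) (nat_lit 285) (nat_lit 253)))) (XT.nd (nat_lit 78) (nat_lit 0) (nat_lit 0) (XT.lf (nat_lit 0) (nat_lit 19142136592) (nat_lit 152) (nat_lit 105082058379) (nat_lit 0) (nat_lit 13092443453) (nat_lit 2) (nat_lit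 5) (nat_lit 4) (nat_lit 4) (nat_lit 2) (nat_lit 4) (nat_lit 363) (nat_lit 285) (nat_lit 252)) (XT.nd (nat_lit 78) (nat_lit 0) (nat_lit 0) (XT.lf (nat_lit 0) (nat_lit 25752900095) (nat_lit 152) (nat_lit 102602849765) (nat_lit 0) (nat_lit 19664827074) (nat_lit 2) (nat_lit 5) (nat_lit 4) (nat_lit 4) (nat_lit 2) (nat_lit 4) (nat_lit 364) (nat_lit 285) (nat_lit 251)) (XT.lf (nat_lit 0) (nat_lit 32837765650) (nat_lit 152) (nat_lit 100031658377) (nat_lit 0) (nat_lit 26714155700) (nat_lit 2) (nat_lit 5) (nat_lit 4) (nat_lit 4) (nat_lit 2) (nat_lit 4) (nat_lit 365) (nat_lit 285) (nat_lit 250))))))) (XT.nd (nat_lit 858) (nat_lit 76) (nat_lit 0) (XT.nd (nat_lit 390) (nat_lit 0) (nat_lit 0) (XT.nd (nat_lit 156) (nat_lit 0) (nat_lit 0) (XT.nd (nat_lit 78) (nat_lit 0) (nat_lit 0) (XT.lf (nat_lit 0) (nat_lit 40438717646) (nat_lit 152) (nat_lit 97353247524) (nat_lit 0) (nat_lit 34282203132) (nat_lit 2)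 (nat_lit 5) (nat_lit 4) (nat_lit 4) (nat_lit 2) (nat_lit 4) (nat_lit 366) (nat_lit 285) (nat_lit 249)) (XT.lf (nat_lit 0) (nat_lit 48600798761) (nat_lit 152) (nat_lit 94551745142) (nat_lit 0) (nat_lit 42413817059) (nat_lit 2) (nat_lit 5) (nat_lit 4) (nat_lit 4) (nat_lit 2) (nat_lit 4) (nat_lit 367) (nat_lit 285) (nat_lit 248))) (XT.nd (nat_lit 78) (nat_lit 0) (nat_lit 0) (XT.lf (nat_lit 0) (nat_lit 57372376883) (nat_lit 152) (nat_lit 91610549736) (nat_lit 0) (nat_lit 51157184821) (nat_lit 2) (nat_lit 5) (nat_lit 4) (nat_lit 4) (nat_lit 2) (nat_lit 4) (nat_lit 368) (nat_lit 285) (nat_lit 247)) (XT.nd (nat_lit 78) (nat_lit 0) (nat_lit 0) (XT.lf (nat_lit 0) (nat_lit 66805431734) (nat_lit 152) (nat_lit 88512231999) (nat_lit 0) (nat_lit 60564118969) (nat_lit 2) (nat_lit 5) (nat_lit 4) (nat_lit 4) (nat_lit 2) (nat_lit 4) (nat_lit 369) (nat_lit 285) (nat_lit 246)) (XT.lf (nat_lit 0) (nat_lit 76955862899)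 (nat_lit 152) (nat_lit 85238431531) (nat_lit 0) (nat_lit 70690364298) (nat_lit 2) (nat_lit 5) (nat_lit 4) (nat_lit 4) (nat_lit 2) (nat_lit 4) (nat_lit 370) (nat_lit 285) (nat_lit 245))))) (XT.nd (nat_lit 234) (nat_lit 0) (nat_lit 0) (XT.nd (nat_lit 78) (nat_lit 0) (nat_lit 0) (XT.lf (nat_lit 0) (nat_lit 87883821081) (nat_lit 152) (nat_lit 81769748031) (nat_lit 0) (nat_lit 81595928187) (nat_lit 2) (nat_lit 5) (nat_lit 4) (nat_lit 4) (nat_lit 2) (nat_lit 4) (nat_lit 371) (nat_lit 285) (nat_lit 244)) (XT.nd (nat_lit 78) (nat_lit 0) (nat_lit 0) (XT.lf (nat_lit 0) (nat_lit 99654064551) (nat_lit 152) (nat_lit 78085626339) (nat_lit 0) (nat_lit 93345436200) (nat_lit 2) (nat_lit 5) (nat_lit 4) (nat_lit 4) (nat_lit 2) (nat_lit 4) (nat_lit 372) (nat_lit 285) (nat_lit 243)) (XT.lf (nat_lit 0) (nat_lit 112336342899) (nat_lit 152) (nat_lit 74164234623) (nat_lit 0) (nat_lit 106008515051) (nat_lit 2) (nat_lit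 5) (nat_lit 4) (nat_lit 4) (nat_lit 2) (nat_lit 4) (nat_lit 373) (nat_lit 285) (nat_lit 242)))) (XT.nd (nat_lit 78) (nat_lit 0) (nat_lit 0) (XT.lf (nat_lit 0) (nat_lit 126005810367) (nat_lit 152) (nat_lit 69982335005) (nat_lit 0) (nat_lit 119660205207) (nat_lit 2) (nat_lit 5) (nat_lit 4) (nat_lit 4) (nat_lit 2) (nat_lit 4) (nat_lit 374) (nat_lit 285) (nat_lit 241)) (XT.nd (nat_lit 78) (nat_lit 0) (nat_lit 0) (XT.lf (nat_lit 0) (nat_lit 140743471208) (nat_lit 152) (nat_lit 65515145858) (nat_lit 0) (nat_lit 134381405574) (nat_lit 2) (nat_lit 5) (nat_lit 4) (nat_lit 4) (nat_lit 2) (nat_lit 4) (nat_lit 375) (nat_lit 285) (nat_lit 240)) (XT.lf (nat_lit 0) (nat_lit 156636659708) (nat_lit 152) (nat_lit 60736194950) (nat_lit 0) (nat_lit 150259352894) (nat_lit 2) (nat_lit 5) (nat_lit 4) (nat_lit 4) (nat_lit 2) (nat_lit 4) (nat_lit 376) (nat_lit 285) (nat_lit 239)))))) (XT.nd (nat_lit 468) (nat_lit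 76) (nat_lit 0) (XT.nd (nat_lit 234) (nat_lit 0) (nat_lit 0) (XT.nd (nat_lit 78) (nat_lit 0) (nat_lit 0) (XT.lf (nat_lit 0) (nat_lit 173779557724) (nat_lit 152) (nat_lit 55617162573) (nat_lit 0) (nat_lit 167388138707) (nat_lit 2) (nat_lit 5) (nat_lit 4) (nat_lit 4) (nat_lit 2) (nat_lit 4) (nat_lit 377) (nat_lit 285) (nat_lit 238)) (XT.nd (nat_lit 78) (nat_lit 0) (nat_lit 0) (XT.lf (nat_lit 0) (nat_lit 192273752800) (nat_lit 152) (nat_lit 50127713718) (nat_lit 0) (nat_lit 185869266928) (nat_lit 2) (nat_lit 5) (nat_lit 4) (nat_lit 4) (nat_lit 2) (nat_lit 4) (nat_lit 378) (nat_lit 285) (nat_lit 237)) (XT.lf (nat_lit 0) (nat_lit 212228840167) (nat_lit 152) (nat_lit 44235318320) (nat_lit 0) (nat_lit 205812255355) (nat_lit 2) (nat_lit 5) (nat_lit 4) (nat_lit 4) (nat_lit 2) (nat_lit 4) (nat_lit 379) (nat_lit 285) (nat_lit 236)))) (XT.nd (nat_lit 78) (nat_lit 0) (nat_lit 0) (XT.lf (nat_lit 0) (nat_lit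 233763072193) (nat_lit 152) (nat_lit 37905058480) (nat_lit 0) (nat_lit 227335284660) (nat_lit 2) (nat_lit 5) (nat_lit 4) (nat_lit 4) (nat_lit 2) (nat_lit 4) (nat_lit 380) (nat_lit 285) (nat_lit 235)) (XT.nd (nat_lit 78) (nat_lit 0) (nat_lit 0) (XT.lf (nat_lit 0) (nat_lit 257004059143) (nat_lit 152) (nat_lit 31099421546) (nat_lit 0) (nat_lit 250565898719) (nat_lit 2) (nat_lit 5) (nat_lit 4) (nat_lit 4) (nat_lit 2) (nat_lit 4) (nat_lit 381) (nat_lit 285) (nat_lit 234)) (XT.lf (nat_lit 0) (nat_lit 282089525385) (nat_lit 152) (nat_lit 23778077818) (nat_lit 0) (nat_lit 275641760432) (nat_lit 2) (nat_lit 5) (nat_lit 4) (nat_lit 4) (nat_lit 2) (nat_lit 4) (nat_lit 382) (nat_lit 285) (nat_lit 233))))) (XT.nd (nat_lit 234) (nat_lit 0) (nat_lit 0) (XT.nd (nat_lit 78) (nat_lit 76) (nat_lit 0) (XT.lf (nat_lit 0) (nat_lit 309168125532) (nat_lit 152) (nat_lit 15897641555) (nat_lit 0) (nat_lit 302711467497)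 (nat_lit 2) (nat_lit 5) (nat_lit 4) (nat_lit 4) (nat_lit 2) (nat_lit 4) (nat_lit 383) (nat_lit 285) (nat_lit 232)) (XT.nd (nat_lit 78) (nat_lit 76) (nat_lit 0) (XT.lf (nat_lit 0) (nat_lit 338400325363) (nat_lit 152) (nat_lit 7411413877) (nat_lit 0) (nat_lit 331935432993) (nat_lit 2) (nat_lit 5) (nat_lit 4) (nat_lit 4) (nat_lit 2) (nat_lit 4) (nat_lit 384) (nat_lit 285) (nat_lit 231)) (XT.lf (nat_lit 0) (nat_lit 1788125145) (nat_lit 76) (nat_lit 368199145229) (nat_lit 76) (nat_lit 361726628475) (nat_lit 1) (nat_lit 4) (nat_lit 2) (nat_lit 5) (nat_lit 2) (nat_lit 4) (nat_lit 385) (nat_lit 285) (nat_lit 230)))) (XT.nd (nat_lit 78) (nat_lit 0) (nat_lit 0) (XT.lf (nat_lit 0) (nat_lit 11966460090) (nat_lit 76) (nat_lit 392252593976) (nat_lit 76) (nat_lit 385773017607) (nat_lit 1) (nat_lit 4) (nat_lit 2) (nat_lit 5) (nat_lit 2) (nat_lit 4) (nat_lit 386) (nat_lit 285) (nat_lit 229)) (XT.nd (nat_lit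 78) (nat_lit 0) (nat_lit 0) (XT.lf (nat_lit 0) (nat_lit 22938852205) (nat_lit 76) (nat_lit 418240140318) (nat_lit 76) (nat_lit 411754027269) (nat_lit 1) (nat_lit 4) (nat_lit 2) (nat_lit 5) (nat_lit 2) (nat_lit 4) (nat_lit 387) (nat_lit 285) (nat_lit 228)) (XT.lf (nat_lit 0) (nat_lit 34770323070) (nat_lit 76) (nat_lit 446315784530) (nat_lit 76) (nat_lit 439823618998) (nat_lit 1) (nat_lit 4) (nat_lit 2) (nat_lit 5) (nat_lit 2) (nat_lit 4) (nat_lit 388) (nat_lit 285) (nat_lit 227))))))))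
noncomputable def xc23 : XT := (XT.nd (nat_lit 43602) (nat_lit 0) (nat_lit 76) (XT.nd (nat_lit 42666) (nat_lit 0) (nat_lit 456) (XT.nd (nat_lit 42198) (nat_lit 0) (nat_lit 1140) (XT.nd (nat_lit 156) (nat_lit 0) (nat_lit 0) (XT.nd (nat_lit 78) (nat_lit 0) (nat_lit 0) (XT.lf (nat_lit 0) (nat_lit 47530985107) (nat_lit 76) (nat_lit 476645900799) (nat_lit 76) (nat_lit 470148131117) (nat_lit 1) (nat_lit 4) (nat_lit 2) (nat_lit 5) (nat_lit 2) (nat_lit 4) (nat_lit 389) (nat_lit 285) (nat_lit 226)) (XT.lf (nat_lit 0) (nat_lit 61296457053) (nat_lit 76) (nat_lit 509410223147) (nat_lit 76) (nat_lit 502907264437) (nat_lit 1) (nat_lit 4) (nat_lit 2) (nat_lit 5) (nat_lit 2) (nat_lit 4) (nat_lit 390) (nat_lit 285) (nat_lit 225))) (XT.nd (nat_lit 78) (nat_lit 0) (nat_lit 0) (XT.lf (nat_lit 0) (nat_lit 76148312076) (nat_lit 76) (nat_lit 544802910522) (nat_lit 76) (nat_lit 538295147157) (nat_lit 1) (nat_lit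 4) (nat_lit 2) (nat_lit 5) (nat_lit 2) (nat_lit 4) (nat_lit 391) (nat_lit 285) (nat_lit 224)) (XT.nd (nat_lit 41886) (nat_lit 0) (nat_lit 1748) (XT.lf (nat_lit 0) (nat_lit 92174561167) (nat_lit 76) (nat_lit 583033697368) (nat_lit 76) (nat_lit 576521485248) (nat_lit 1) (nat_lit 4) (nat_lit 2) (nat_lit 5) (nat_lit 2) (nat_lit 4) (nat_lit 392) (nat_lit 285) (nat_lit 223)) (XT.lf (nat_lit 0) (nat_lit 106241506) (nat_lit 152) (nat_lit 6614109964) (nat_lit 0) (nat_lit 106241506) (nat_lit 24) (nat_lit 5) (nat_lit 26) (nat_lit 4) (nat_lit 24) (nat_lit 4) (nat_lit 328) (nat_lit 286) (nat_lit 286))))) (XT.nd (nat_lit 234) (nat_lit 304) (nat_lit 0) (XT.nd (nat_lit 78) (nat_lit 152) (nat_lit 0) (XT.lf (nat_lit 0) (nat_lit 276279338) (nat_lit 152) (nat_lit 7395989942) (nat_lit 152) (nat_lit 6656663183) (nat_lit 22) (nat_lit 4) (nat_lit 24) (nat_lit 5) (nat_lit 24) (nat_lit 4) (nat_lit 329) (nat_lit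 286) (nat_lit 285)) (XT.nd (nat_lit 78) (nat_lit 76) (nat_lit 0) (XT.lf (nat_lit 0) (nat_lit 462816345) (nat_lit 228) (nat_lit 475115064) (nat_lit 76) (nat_lit 14129782404) (nat_lit 21) (nat_lit 5) (nat_lit 24) (nat_lit 5) (nat_lit 22) (nat_lit 4) (nat_lit 330) (nat_lit 286) (nat_lit 284)) (XT.lf (nat_lit 0) (nat_lit 7843609427) (nat_lit 152) (nat_lit 2136619441) (nat_lit 0) (nat_lit 5883855042) (nat_lit 20) (nat_lit 5) (nat_lit 22) (nat_lit 4) (nat_lit 20) (nat_lit 4) (nat_lit 331) (nat_lit 286) (nat_lit 283)))) (XT.nd (nat_lit 78) (nat_lit 228) (nat_lit 0) (XT.lf (nat_lit 0) (nat_lit 12053388200) (nat_lit 76) (nat_lit 3598894826) (nat_lit 76) (nat_lit 1080186709) (nat_lit 19) (nat_lit 4) (nat_lit 20) (nat_lit 5) (nat_lit 20) (nat_lit 4) (nat_lit 332) (nat_lit 286) (nat_lit 282)) (XT.nd (nat_lit 78) (nat_lit 76) (nat_lit 0) (XT.lf (nat_lit 0) (nat_lit 6081537601) (nat_lit 152) (nat_lit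 8400496191) (nat_lit 0) (nat_lit 3189863440) (nat_lit 17) (nat_lit 5) (nat_lit 19) (nat_lit 4) (nat_lit 17) (nat_lit 4) (nat_lit 333) (nat_lit 286) (nat_lit 281)) (XT.lf (nat_lit 0) (nat_lit 5267872114) (nat_lit 76) (nat_lit 8386076741) (nat_lit 76) (nat_lit 5038009502) (nat_lit 16) (nat_lit 4) (nat_lit 17) (nat_lit 5) (nat_lit 17) (nat_lit 4) (nat_lit 334) (nat_lit 286) (nat_lit 280)))))) (XT.nd (nat_lit 468) (nat_lit 304) (nat_lit 0) (XT.nd (nat_lit 234) (nat_lit 152) (nat_lit 0) (XT.nd (nat_lit 78) (nat_lit 152) (nat_lit 0) (XT.lf (nat_lit 0) (nat_lit 1782089993) (nat_lit 152) (nat_lit 117368936) (nat_lit 76) (nat_lit 17902261163) (nat_lit 15) (nat_lit 5) (nat_lit 17) (nat_lit 5) (nat_lit 16) (nat_lit 4) (nat_lit 335) (nat_lit 286) (nat_lit 279)) (XT.nd (nat_lit 78) (nat_lit 76) (nat_lit 0) (XT.lf (nat_lit 0) (nat_lit 8958643594) (nat_lit 152) (nat_lit 7043345831) (nat_lit 0) (nat_lit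 4994894140) (nat_lit 14) (nat_lit 5) (nat_lit 16) (nat_lit 4) (nat_lit 14) (nat_lit 4) (nat_lit 336) (nat_lit 286) (nat_lit 278)) (XT.lf (nat_lit 0) (nat_lit 6475918928) (nat_lit 76) (nat_lit 10064544975) (nat_lit 76) (nat_lit 5755748339) (nat_lit 13) (nat_lit 4) (nat_lit 14) (nat_lit 5) (nat_lit 14) (nat_lit 4) (nat_lit 337) (nat_lit 286) (nat_lit 277)))) (XT.nd (nat_lit 78) (nat_lit 76) (nat_lit 0) (XT.lf (nat_lit 0) (nat_lit 826246280) (nat_lit 152) (nat_lit 2934479891) (nat_lit 76) (nat_lit 19946561382) (nat_lit 12) (nat_lit 5) (nat_lit 14) (nat_lit 5) (nat_lit 13) (nat_lit 4) (nat_lit 338) (nat_lit 286) (nat_lit 276)) (XT.nd (nat_lit 78) (nat_lit 0) (nat_lit 0) (XT.lf (nat_lit 0) (nat_lit 7678370502) (nat_lit 152) (nat_lit 14562243910) (nat_lit 0) (nat_lit 2988744682) (nat_lit 11) (nat_lit 5) (nat_lit 13) (nat_lit 4) (nat_lit 11) (nat_lit 4) (nat_lit 339) (nat_lit 286) (nat_lit 275))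 (XT.lf (nat_lit 0) (nat_lit 14930062699) (nat_lit 152) (nat_lit 1971075738) (nat_lit 0) (nat_lit 9979570615) (nat_lit 11) (nat_lit 5) (nat_lit 13) (nat_lit 4) (nat_lit 11) (nat_lit 4) (nat_lit 340) (nat_lit 286) (nat_lit 274))))) (XT.nd (nat_lit 234) (nat_lit 76) (nat_lit 0) (XT.nd (nat_lit 78) (nat_lit 152) (nat_lit 0) (XT.lf (nat_lit 0) (nat_lit 11535662347) (nat_lit 76) (nat_lit 11161915830) (nat_lit 76) (nat_lit 5969880910) (nat_lit 10) (nat_lit 4) (nat_lit 11) (nat_lit 5) (nat_lit 11) (nat_lit 4) (nat_lit 341) (nat_lit 286) (nat_lit 273)) (XT.nd (nat_lit 78) (nat_lit 76) (nat_lit 0) (XT.lf (nat_lit 0) (nat_lit 271494991) (nat_lit 152) (nat_lit 4859120964) (nat_lit 76) (nat_lit 25476328040) (nat_lit 9) (nat_lit 5) (nat_lit 11) (nat_lit 5) (nat_lit 10) (nat_lit 4) (nat_lit 342) (nat_lit 286) (nat_lit 272)) (XT.lf (nat_lit 0) (nat_lit 6735648290) (nat_lit 152) (nat_lit 24583847877) (nat_lit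 0) (nat_lit 1380629483) (nat_lit 8) (nat_lit 5) (nat_lit 10) (nat_lit 4) (nat_lit 8) (nat_lit 4) (nat_lit 343) (nat_lit 286) (nat_lit 271)))) (XT.nd (nat_lit 78) (nat_lit 76) (nat_lit 0) (XT.lf (nat_lit 0) (nat_lit 13677070414) (nat_lit 152) (nat_lit 13146304610) (nat_lit 0) (nat_lit 8139437805) (nat_lit 8) (nat_lit 5) (nat_lit 10) (nat_lit 4) (nat_lit 8) (nat_lit 4) (nat_lit 344) (nat_lit 286) (nat_lit 270)) (XT.nd (nat_lit 78) (nat_lit 76) (nat_lit 0) (XT.lf (nat_lit 0) (nat_lit 20977134700) (nat_lit 152) (nat_lit 1168852160) (nat_lit 0) (nat_lit 15270415239) (nat_lit 8) (nat_lit 5) (nat_lit 10) (nat_lit 4) (nat_lit 8) (nat_lit 4) (nat_lit 345) (nat_lit 286) (nat_lit 269)) (XT.lf (nat_lit 0) (nat_lit 11797066781) (nat_lit 76) (nat_lit 17066219283) (nat_lit 76) (nat_lit 11202937920) (nat_lit 7) (nat_lit 4) (nat_lit 8) (nat_lit 5) (nat_lit 8) (nat_lit 4) (nat_lit 346) (nat_lit 286) (nat_lit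 268))))))) (XT.nd (nat_lit 858) (nat_lit 152) (nat_lit 0) (XT.nd (nat_lit 390) (nat_lit 76) (nat_lit 0) (XT.nd (nat_lit 156) (nat_lit 76) (nat_lit 0) (XT.nd (nat_lit 78) (nat_lit 76) (nat_lit 0) (XT.lf (nat_lit 0) (nat_lit 25509782703) (nat_lit 76) (nat_lit 11717106459) (nat_lit 76) (nat_lit 5708860373) (nat_lit 7) (nat_lit 4) (nat_lit 8) (nat_lit 5) (nat_lit 8) (nat_lit 4) (nat_lit 347) (nat_lit 286) (nat_lit 267)) (XT.lf (nat_lit 0) (nat_lit 53944027) (nat_lit 152) (nat_lit 6031887425) (nat_lit 76) (nat_lit 39957051019) (nat_lit 6) (nat_lit 5) (nat_lit 8) (nat_lit 5) (nat_lit 7) (nat_lit 4) (nat_lit 348) (nat_lit 286) (nat_lit 266))) (XT.nd (nat_lit 78) (nat_lit 0) (nat_lit 0) (XT.lf (nat_lit 0) (nat_lit 6024820975) (nat_lit 152) (nat_lit 43315288819) (nat_lit 0) (nat_lit 56481388) (nat_lit 5) (nat_lit 5) (nat_lit 7) (nat_lit 4) (nat_lit 5) (nat_lit 4) (nat_lit 349) (nat_lit 286) (nat_lit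 265)) (XT.nd (nat_lit 78) (nat_lit 0) (nat_lit 0) (XT.lf (nat_lit 0) (nat_lit 12536114066) (nat_lit 152) (nat_lit 34021203228) (nat_lit 0) (nat_lit 6458176696) (nat_lit 5) (nat_lit 5) (nat_lit 7) (nat_lit 4) (nat_lit 5) (nat_lit 4) (nat_lit 350) (nat_lit 286) (nat_lit 264)) (XT.lf (nat_lit 0) (nat_lit 19432508456) (nat_lit 152) (nat_lit 24245131148) (nat_lit 0) (nat_lit 13253091658) (nat_lit 5) (nat_lit 5) (nat_lit 7) (nat_lit 4) (nat_lit 5) (nat_lit 4) (nat_lit 351) (nat_lit 286) (nat_lit 263))))) (XT.nd (nat_lit 234) (nat_lit 0) (nat_lit 0) (XT.nd (nat_lit 78) (nat_lit 76) (nat_lit 0) (XT.lf (nat_lit 0) (nat_lit 26754871666) (nat_lit 152) (nat_lit 13929140300) (nat_lit 0) (nat_lit 20481492435) (nat_lit 5) (nat_lit 5) (nat_lit 7) (nat_lit 4) (nat_lit 5) (nat_lit 4) (nat_lit 352) (nat_lit 286) (nat_lit 262)) (XT.nd (nat_lit 78) (nat_lit 76) (nat_lit 0) (XT.lf (nat_lit 0) (nat_lit 34546595479)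 (nat_lit 152) (nat_lit 3012098887) (nat_lit 0) (nat_lit 28186213995) (nat_lit 5) (nat_lit 5) (nat_lit 7) (nat_lit 4) (nat_lit 5) (nat_lit 4) (nat_lit 353) (nat_lit 286) (nat_lit 261)) (XT.lf (nat_lit 0) (nat_lit 8854072278) (nat_lit 76) (nat_lit 34138017676) (nat_lit 76) (nat_lit 27697078550) (nat_lit 4) (nat_lit 4) (nat_lit 5) (nat_lit 5) (nat_lit 5) (nat_lit 4) (nat_lit 354) (nat_lit 286) (nat_lit 260)))) (XT.nd (nat_lit 78) (nat_lit 0) (nat_lit 0) (XT.lf (nat_lit 0) (nat_lit 21578501923) (nat_lit 76) (nat_lit 30484271606) (nat_lit 76) (nat_lit 23968742071) (nat_lit 4) (nat_lit 4) (nat_lit 5) (nat_lit 5) (nat_lit 5) (nat_lit 4) (nat_lit 355) (nat_lit 286) (nat_lit 259)) (XT.nd (nat_lit 78) (nat_lit 0) (nat_lit 0) (XT.lf (nat_lit 0) (nat_lit 35137000484) (nat_lit 76) (nat_lit 26626815678) (nat_lit 76) (nat_lit 20042220950) (nat_lit 4) (nat_lit 4) (nat_lit 5) (nat_lit 5) (nat_lit 5) (nat_lit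 4) (nat_lit 356) (nat_lit 286) (nat_lit 258)) (XT.lf (nat_lit 0) (nat_lit 49609914618) (nat_lit 76) (nat_lit 22542790894) (nat_lit 76) (nat_lit 15894246913) (nat_lit 4) (nat_lit 4) (nat_lit 5) (nat_lit 5) (nat_lit 5) (nat_lit 4) (nat_lit 357) (nat_lit 286) (nat_lit 257)))))) (XT.nd (nat_lit 468) (nat_lit 0) (nat_lit 0) (XT.nd (nat_lit 234) (nat_lit 152) (nat_lit 0) (XT.nd (nat_lit 78) (nat_lit 0) (nat_lit 0) (XT.lf (nat_lit 0) (nat_lit 65083009743) (nat_lit 76) (nat_lit 18207995628) (nat_lit 76) (nat_lit 11500239375) (nat_lit 4) (nat_lit 4) (nat_lit 5) (nat_lit 5) (nat_lit 5) (nat_lit 4) (nat_lit 358) (nat_lit 286) (nat_lit 256)) (XT.nd (nat_lit 78) (nat_lit 0) (nat_lit 0) (XT.lf (nat_lit 0) (nat_lit 81647978274) (nat_lit 76) (nat_lit 13596742201) (nat_lit 76) (nat_lit 6834159771) (nat_lit 4) (nat_lit 4) (nat_lit 5) (nat_lit 5) (nat_lit 5) (nat_lit 4) (nat_lit 359) (nat_lit 286) (nat_lit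 255)) (XT.lf (nat_lit 0) (nat_lit 99402982988) (nat_lit 76) (nat_lit 8681704669) (nat_lit 76) (nat_lit 1868357260) (nat_lit 4) (nat_lit 4) (nat_lit 5) (nat_lit 5) (nat_lit 5) (nat_lit 4) (nat_lit 360) (nat_lit 286) (nat_lit 254)))) (XT.nd (nat_lit 78) (nat_lit 76) (nat_lit 0) (XT.lf (nat_lit 0) (nat_lit 3316922691) (nat_lit 152) (nat_lit 60660501) (nat_lit 76) (nat_lit 115080142345) (nat_lit 3) (nat_lit 5) (nat_lit 5) (nat_lit 5) (nat_lit 4) (nat_lit 4) (nat_lit 361) (nat_lit 286) (nat_lit 253)) (XT.nd (nat_lit 78) (nat_lit 0) (nat_lit 0) (XT.lf (nat_lit 0) (nat_lit 9009994277) (nat_lit 152) (nat_lit 116188471231) (nat_lit 0) (nat_lit 2434875413) (nat_lit 2) (nat_lit 5) (nat_lit 4) (nat_lit 4) (nat_lit 2) (nat_lit 4) (nat_lit 362) (nat_lit 286) (nat_lit 252)) (XT.lf (nat_lit 0) (nat_lit 15157398050) (nat_lit 152) (nat_lit 113841776010) (nat_lit 0) (nat_lit 8543899304) (nat_lit 2) (nat_lit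 5) (nat_lit 4) (nat_lit 4) (nat_lit 2) (nat_lit 4) (nat_lit 363) (nat_lit 286) (nat_lit 251))))) (XT.nd (nat_lit 234) (nat_lit 0) (nat_lit 0) (XT.nd (nat_lit 78) (nat_lit 0) (nat_lit 0) (XT.lf (nat_lit 0) (nat_lit 21741835097) (nat_lit 152) (nat_lit 111413699085) (nat_lit 0) (nat_lit 15092799423) (nat_lit 2) (nat_lit 5) (nat_lit 4) (nat_lit 4) (nat_lit 2) (nat_lit 4) (nat_lit 364) (nat_lit 286) (nat_lit 250)) (XT.nd (nat_lit 78) (nat_lit 0) (nat_lit 0) (XT.lf (nat_lit 0) (nat_lit 28802324305) (nat_lit 152) (nat_lit 108889851854) (nat_lit 0) (nat_lit 22120384066) (nat_lit 2) (nat_lit 5) (nat_lit 4) (nat_lit 4) (nat_lit 2) (nat_lit 4) (nat_lit 365) (nat_lit 286) (nat_lit 249)) (XT.lf (nat_lit 0) (nat_lit 36380705608) (nat_lit 152) (nat_lit 106255278183) (nat_lit 0) (nat_lit 29668298181) (nat_lit 2) (nat_lit 5) (nat_lit 4) (nat_lit 4) (nat_lit 2) (nat_lit 4) (nat_lit 366) (nat_lit 286) (nat_lit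 248)))) (XT.nd (nat_lit 78) (nat_lit 0) (nat_lit 0) (XT.lf (nat_lit 0) (nat_lit 44521887933) (nat_lit 152) (nat_lit 103494365785) (nat_lit 0) (nat_lit 37781270147) (nat_lit 2) (nat_lit 5) (nat_lit 4) (nat_lit 4) (nat_lit 2) (nat_lit 4) (nat_lit 367) (nat_lit 286) (nat_lit 247)) (XT.nd (nat_lit 78) (nat_lit 0) (nat_lit 0) (XT.lf (nat_lit 0) (nat_lit 53274115324) (nat_lit 152) (nat_lit 100590753697) (nat_lit 0) (nat_lit 46507376834) (nat_lit 2) (nat_lit 5) (nat_lit 4) (nat_lit 4) (nat_lit 2) (nat_lit 4) (nat_lit 368) (nat_lit 286) (nat_lit 246)) (XT.lf (nat_lit 0) (nat_lit 62689252832) (nat_lit 152) (nat_lit 97527235329) (nat_lit 0) (nat_lit 55898328506) (nat_lit 2) (nat_lit 5) (nat_lit 4) (nat_lit 4) (nat_lit 2) (nat_lit 4) (nat_lit 369) (nat_lit 286) (nat_lit 245))))))))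
noncomputable def xc24 : XT := (XT.nd (nat_lit 1716) (nat_lit 0) (nat_lit 0) (XT.nd (nat_lit 858) (nat_lit 76) (nat_lit 0) (XT.nd (nat_lit 390) (nat_lit 0) (nat_lit 0) (XT.nd (nat_lit 156) (nat_lit 0) (nat_lit 0) (XT.nd (nat_lit 78) (nat_lit 0) (nat_lit 0) (XT.lf (nat_lit 0) (nat_lit 72823093864) (nat_lit 152) (nat_lit 94285656499) (nat_lit 0) (nat_lit 66009775245) (nat_lit 2) (nat_lit 5) (nat_lit 4) (nat_lit 4) (nat_lit 2) (nat_lit 4) (nat_lit 370) (nat_lit 286) (nat_lit 244)) (XT.lf (nat_lit 0) (nat_lit 83735690812) (nat_lit 152) (nat_lit 90846807849) (nat_lit 0) (nat_lit 76901636736) (nat_lit 2) (nat_lit 5) (nat_lit 4) (nat_lit 4) (nat_lit 2) (nat_lit 4) (nat_lit 371) (nat_lit 286) (nat_lit 243))) (XT.nd (nat_lit 78) (nat_lit 0) (nat_lit 0) (XT.lf (nat_lit 0) (nat_lit 95491710917) (nat_lit 152) (nat_lit 87190311018) (nat_lit 0) (nat_lit 88638457344) (nat_lit 2) (nat_lit 5) (nat_lit 4)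 (nat_lit 4) (nat_lit 2) (nat_lit 4) (nat_lit 372) (nat_lit 286) (nat_lit 242)) (XT.nd (nat_lit 78) (nat_lit 0) (nat_lit 0) (XT.lf (nat_lit 0) (nat_lit 108160819482) (nat_lit 152) (nat_lit 83294497876) (nat_lit 0) (nat_lit 101289788598) (nat_lit 2) (nat_lit 5) (nat_lit 4) (nat_lit 4) (nat_lit 2) (nat_lit 4) (nat_lit 373) (nat_lit 286) (nat_lit 241)) (XT.lf (nat_lit 0) (nat_lit 121818092708) (nat_lit 152) (nat_lit 79136282124) (nat_lit 0) (nat_lit 114930601350) (nat_lit 2) (nat_lit 5) (nat_lit 4) (nat_lit 4) (nat_lit 2) (nat_lit 4) (nat_lit 374) (nat_lit 286) (nat_lit 240))))) (XT.nd (nat_lit 234) (nat_lit 0) (nat_lit 0) (XT.nd (nat_lit 78) (nat_lit 0) (nat_lit 0) (XT.lf (nat_lit 0) (nat_lit 136544462583) (nat_lit 152) (nat_lit 74691022483) (nat_lit 0) (nat_lit 129641730045) (nat_lit 2) (nat_lit 5) (nat_lit 4) (nat_lit 4) (nat_lit 2) (nat_lit 4) (nat_lit 375) (nat_lit 286) (nat_lit 239))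 (XT.nd (nat_lit 78) (nat_lit 0) (nat_lit 0) (XT.lf (nat_lit 0) (nat_lit 152427196485) (nat_lit 152) (nat_lit 69932376672) (nat_lit 0) (nat_lit 145510351744) (nat_lit 2) (nat_lit 5) (nat_lit 4) (nat_lit 4) (nat_lit 2) (nat_lit 4) (nat_lit 376) (nat_lit 286) (nat_lit 238)) (XT.lf (nat_lit 0) (nat_lit 169560414318) (nat_lit 152) (nat_lit 64832145311) (nat_lit 0) (nat_lit 162630502721) (nat_lit 2) (nat_lit 5) (nat_lit 4) (nat_lit 4) (nat_lit 2) (nat_lit 4) (nat_lit 377) (nat_lit 286) (nat_lit 237)))) (XT.nd (nat_lit 78) (nat_lit 0) (nat_lit 0) (XT.lf (nat_lit 0) (nat_lit 188045646261) (nat_lit 152) (nat_lit 59360104805) (nat_lit 0) (nat_lit 181103635725) (nat_lit 2) (nat_lit 5) (nat_lit 4) (nat_lit 4) (nat_lit 2) (nat_lit 4) (nat_lit 378) (nat_lit 286) (nat_lit 236)) (XT.nd (nat_lit 78) (nat_lit 0) (nat_lit 0) (XT.lf (nat_lit 0) (nat_lit 207992434431) (nat_lit 152) (nat_lit 53483828248) (nat_lit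 0) (nat_lit 201039221173) (nat_lit 2) (nat_lit 5) (nat_lit 4) (nat_lit 4) (nat_lit 2) (nat_lit 4) (nat_lit 379) (nat_lit 286) (nat_lit 235)) (XT.lf (nat_lit 0) (nat_lit 229518982016) (nat_lit 152) (nat_lit 47168493260) (nat_lit 0) (nat_lit 222555395867) (nat_lit 2) (nat_lit 5) (nat_lit 4) (nat_lit 4) (nat_lit 2) (nat_lit 4) (nat_lit 380) (nat_lit 286) (nat_lit 234)))))) (XT.nd (nat_lit 390) (nat_lit 76) (nat_lit 0) (XT.nd (nat_lit 156) (nat_lit 0) (nat_lit 0) (XT.nd (nat_lit 78) (nat_lit 0) (nat_lit 0) (XT.lf (nat_lit 0) (nat_lit 252752853743) (nat_lit 152) (nat_lit 40376675634) (nat_lit 0) (nat_lit 245779663066) (nat_lit 2) (nat_lit 5) (nat_lit 4) (nat_lit 4) (nat_lit 2) (nat_lit 4) (nat_lit 381) (nat_lit 286) (nat_lit 233)) (XT.lf (nat_lit 0) (nat_lit 277831731814) (nat_lit 152) (nat_lit 33068127562) (nat_lit 0) (nat_lit 270849648055) (nat_lit 2) (nat_lit 5) (nat_lit 4) (nat_lit 4) (nat_lit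 2) (nat_lit 4) (nat_lit 382) (nat_lit 286) (nat_lit 232))) (XT.nd (nat_lit 78) (nat_lit 0) (nat_lit 0) (XT.lf (nat_lit 0) (nat_lit 304904231804) (nat_lit 152) (nat_lit 25199539129) (nat_lit 0) (nat_lit 297913913710) (nat_lit 2) (nat_lit 5) (nat_lit 4) (nat_lit 4) (nat_lit 2) (nat_lit 4) (nat_lit 383) (nat_lit 286) (nat_lit 231)) (XT.nd (nat_lit 78) (nat_lit 0) (nat_lit 0) (XT.lf (nat_lit 0) (nat_lit 334130783341) (nat_lit 152) (nat_lit 16724281663) (nat_lit 0) (nat_lit 327132840862) (nat_lit 2) (nat_lit 5) (nat_lit 4) (nat_lit 4) (nat_lit 2) (nat_lit 4) (nat_lit 384) (nat_lit 286) (nat_lit 230)) (XT.lf (nat_lit 0) (nat_lit 365684580805) (nat_lit 152) (nat_lit 7592131416) (nat_lit 0) (nat_lit 358679578712) (nat_lit 2) (nat_lit 5) (nat_lit 4) (nat_lit 4) (nat_lit 2) (nat_lit 4) (nat_lit 385) (nat_lit 286) (nat_lit 229))))) (XT.nd (nat_lit 234) (nat_lit 0) (nat_lit 0) (XT.nd (nat_lit 78) (nat_lit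 0) (nat_lit 0) (XT.lf (nat_lit 0) (nat_lit 2325457210) (nat_lit 76) (nat_lit 397463459357) (nat_lit 76) (nat_lit 390451920583) (nat_lit 1) (nat_lit 4) (nat_lit 2) (nat_lit 5) (nat_lit 2) (nat_lit 4) (nat_lit 386) (nat_lit 286) (nat_lit 228)) (XT.nd (nat_lit 78) (nat_lit 0) (nat_lit 0) (XT.lf (nat_lit 0) (nat_lit 13288852874) (nat_lit 76) (nat_lit 423455377893) (nat_lit 76) (nat_lit 416437786636) (nat_lit 1) (nat_lit 4) (nat_lit 2) (nat_lit 5) (nat_lit 2) (nat_lit 4) (nat_lit 387) (nat_lit 286) (nat_lit 227)) (XT.lf (nat_lit 0) (nat_lit 25111993692) (nat_lit 76) (nat_lit 451535070431) (nat_lit 76) (nat_lit 444511875025) (nat_lit 1) (nat_lit 4) (nat_lit 2) (nat_lit 5) (nat_lit 2) (nat_lit 4) (nat_lit 388) (nat_lit 286) (nat_lit 226)))) (XT.nd (nat_lit 78) (nat_lit 0) (nat_lit 0) (XT.lf (nat_lit 0) (nat_lit 37864942723) (nat_lit 76) (nat_lit 481868935151) (nat_lit 76) (nat_lit 474840550717)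 (nat_lit 1) (nat_lit 4) (nat_lit 2) (nat_lit 5) (nat_lit 2) (nat_lit 4) (nat_lit 389) (nat_lit 286) (nat_lit 225)) (XT.nd (nat_lit 78) (nat_lit 0) (nat_lit 0) (XT.lf (nat_lit 0) (nat_lit 51623272996) (nat_lit 76) (nat_lit 514636728287) (nat_lit 76) (nat_lit 507603539198) (nat_lit 1) (nat_lit 4) (nat_lit 2) (nat_lit 5) (nat_lit 2) (nat_lit 4) (nat_lit 390) (nat_lit 286) (nat_lit 224)) (XT.lf (nat_lit 0) (nat_lit 66468515359) (nat_lit 76) (nat_lit 550032629355) (nat_lit 76) (nat_lit 542994991510) (nat_lit 1) (nat_lit 4) (nat_lit 2) (nat_lit 5) (nat_lit 2) (nat_lit 4) (nat_lit 391) (nat_lit 286) (nat_lit 223))))))) (XT.nd (nat_lit 42510) (nat_lit 0) (nat_lit 456) (XT.nd (nat_lit 42042) (nat_lit 0) (nat_lit 1064) (XT.nd (nat_lit 41808) (nat_lit 0) (nat_lit 1748) (XT.nd (nat_lit 41730) (nat_lit 0) (nat_lit 2204) (XT.lf (nat_lit 0) (nat_lit 82488641617) (nat_lit 76) (nat_lit 588266391842) (nat_lit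 76) (nat_lit 581224634780) (nat_lit 1) (nat_lit 4) (nat_lit 2) (nat_lit 5) (nat_lit 2) (nat_lit 4) (nat_lit 392) (nat_lit 286) (nat_lit 222)) (XT.lf (nat_lit 0) (nat_lit 5844615873) (nat_lit 152) (nat_lit 188631951) (nat_lit 152) (nat_lit 188631951) (nat_lit 30) (nat_lit 4) (nat_lit 32) (nat_lit 5) (nat_lit 32) (nat_lit 4) (nat_lit 326) (nat_lit 287) (nat_lit 287))) (XT.nd (nat_lit 78) (nat_lit 304) (nat_lit 0) (XT.lf (nat_lit 0) (nat_lit 6862802617) (nat_lit 152) (nat_lit 139194922) (nat_lit 0) (nat_lit 6024406073) (nat_lit 28) (nat_lit 5) (nat_lit 30) (nat_lit 4) (nat_lit 28) (nat_lit 4) (nat_lit 327) (nat_lit 287) (nat_lit 286)) (XT.nd (nat_lit 78) (nat_lit 0) (nat_lit 0) (XT.lf (nat_lit 0) (nat_lit 54597641) (nat_lit 76) (nat_lit 759688838) (nat_lit 152) (nat_lit 12848845486) (nat_lit 24) (nat_lit 5) (nat_lit 25) (nat_lit 5) (nat_lit 26) (nat_lit 4) (nat_lit 328) (nat_lit 287) (nat_lit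 285)) (XT.lf (nat_lit 0) (nat_lit 8064814766) (nat_lit 152) (nat_lit 442177520) (nat_lit 0) (nat_lit 5842453293) (nat_lit 24) (nat_lit 5) (nat_lit 26) (nat_lit 4) (nat_lit 24) (nat_lit 4) (nat_lit 329) (nat_lit 287) (nat_lit 284))))) (XT.nd (nat_lit 234) (nat_lit 304) (nat_lit 0) (XT.nd (nat_lit 78) (nat_lit 152) (nat_lit 0) (XT.lf (nat_lit 0) (nat_lit 628708667) (nat_lit 228) (nat_lit 1567362235) (nat_lit 76) (nat_lit 12901669127) (nat_lit 21) (nat_lit 5) (nat_lit 24) (nat_lit 5) (nat_lit 22) (nat_lit 4) (nat_lit 330) (nat_lit 287) (nat_lit 283)) (XT.nd (nat_lit 78) (nat_lit 76) (nat_lit 0) (XT.lf (nat_lit 0) (nat_lit 7791665855) (nat_lit 152) (nat_lit 3600913793) (nat_lit 0) (nat_lit 4512507357) (nat_lit 20) (nat_lit 5) (nat_lit 22) (nat_lit 4) (nat_lit 20) (nat_lit 4) (nat_lit 331) (nat_lit 287) (nat_lit 282)) (XT.lf (nat_lit 0) (nat_lit 10229842535) (nat_lit 76) (nat_lit 5175093742)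 (nat_lit 76) (nat_lit 1378385493) (nat_lit 19) (nat_lit 4) (nat_lit 20) (nat_lit 5) (nat_lit 20) (nat_lit 4) (nat_lit 332) (nat_lit 287) (nat_lit 281)))) (XT.nd (nat_lit 78) (nat_lit 152) (nat_lit 0) (XT.lf (nat_lit 0) (nat_lit 5568947574) (nat_lit 152) (nat_lit 10668658847) (nat_lit 0) (nat_lit 1496641877) (nat_lit 17) (nat_lit 5) (nat_lit 19) (nat_lit 4) (nat_lit 17) (nat_lit 4) (nat_lit 333) (nat_lit 287) (nat_lit 280)) (XT.nd (nat_lit 78) (nat_lit 76) (nat_lit 0) (XT.lf (nat_lit 0) (nat_lit 2628965112) (nat_lit 76) (nat_lit 10315083027) (nat_lit 76) (nat_lit 5820191146) (nat_lit 16) (nat_lit 4) (nat_lit 17) (nat_lit 5) (nat_lit 17) (nat_lit 4) (nat_lit 334) (nat_lit 287) (nat_lit 279)) (XT.lf (nat_lit 0) (nat_lit 873624006) (nat_lit 152) (nat_lit 3095246172) (nat_lit 76) (nat_lit 15913364121) (nat_lit 15) (nat_lit 5) (nat_lit 17) (nat_lit 5) (nat_lit 16) (nat_lit 4) (nat_lit 335) (nat_lit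 287) (nat_lit 278)))))) (XT.nd (nat_lit 468) (nat_lit 228) (nat_lit 0) (XT.nd (nat_lit 234) (nat_lit 228) (nat_lit 0) (XT.nd (nat_lit 78) (nat_lit 76) (nat_lit 0) (XT.lf (nat_lit 0) (nat_lit 7822862572) (nat_lit 152) (nat_lit 10441638450) (nat_lit 0) (nat_lit 2824315024) (nat_lit 14) (nat_lit 5) (nat_lit 16) (nat_lit 4) (nat_lit 14) (nat_lit 4) (nat_lit 336) (nat_lit 287) (nat_lit 277)) (XT.nd (nat_lit 78) (nat_lit 0) (nat_lit 0) (XT.lf (nat_lit 0) (nat_lit 2704955748) (nat_lit 76) (nat_lit 12505492509) (nat_lit 76) (nat_lit 7187456830) (nat_lit 13) (nat_lit 4) (nat_lit 14) (nat_lit 5) (nat_lit 14) (nat_lit 4) (nat_lit 337) (nat_lit 287) (nat_lit 276)) (XT.lf (nat_lit 0) (nat_lit 16774811751) (nat_lit 76) (nat_lit 6327596408) (nat_lit 76) (nat_lit 713738385) (nat_lit 13) (nat_lit 4) (nat_lit 14) (nat_lit 5) (nat_lit 14) (nat_lit 4) (nat_lit 338) (nat_lit 287) (nat_lit 275)))) (XT.nd (nat_lit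 78) (nat_lit 76) (nat_lit 0) (XT.lf (nat_lit 0) (nat_lit 5926920027) (nat_lit 152) (nat_lit 19104088124) (nat_lit 0) (nat_lit 319522312) (nat_lit 11) (nat_lit 5) (nat_lit 13) (nat_lit 4) (nat_lit 11) (nat_lit 4) (nat_lit 339) (nat_lit 287) (nat_lit 274)) (XT.nd (nat_lit 78) (nat_lit 76) (nat_lit 0) (XT.lf (nat_lit 0) (nat_lit 13061104477) (nat_lit 152) (nat_lit 6734524171) (nat_lit 0) (nat_lit 7212163926) (nat_lit 11) (nat_lit 5) (nat_lit 13) (nat_lit 4) (nat_lit 11) (nat_lit 4) (nat_lit 340) (nat_lit 287) (nat_lit 273)) (XT.lf (nat_lit 0) (nat_lit 6402739224) (nat_lit 76) (nat_lit 14236937948) (nat_lit 76) (nat_lit 8164346621) (nat_lit 10) (nat_lit 4) (nat_lit 11) (nat_lit 5) (nat_lit 11) (nat_lit 4) (nat_lit 341) (nat_lit 287) (nat_lit 272))))) (XT.nd (nat_lit 234) (nat_lit 76) (nat_lit 0) (XT.nd (nat_lit 78) (nat_lit 152) (nat_lit 0) (XT.lf (nat_lit 0) (nat_lit 20423225983) (nat_lit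 76) (nat_lit 8302699490) (nat_lit 76) (nat_lit 2023024112) (nat_lit 10) (nat_lit 4) (nat_lit 11) (nat_lit 5) (nat_lit 11) (nat_lit 4) (nat_lit 342) (nat_lit 287) (nat_lit 271)) (XT.nd (nat_lit 78) (nat_lit 0) (nat_lit 0) (XT.lf (nat_lit 0) (nat_lit 2333826813) (nat_lit 76) (nat_lit 1961415471) (nat_lit 152) (nat_lit 28559027825) (nat_lit 8) (nat_lit 5) (nat_lit 9) (nat_lit 5) (nat_lit 10) (nat_lit 4) (nat_lit 343) (nat_lit 287) (nat_lit 270)) (XT.lf (nat_lit 0) (nat_lit 11111487558) (nat_lit 152) (nat_lit 19232610625) (nat_lit 0) (nat_lit 4779143686) (nat_lit 8) (nat_lit 5) (nat_lit 10) (nat_lit 4) (nat_lit 8) (nat_lit 4) (nat_lit 344) (nat_lit 287) (nat_lit 269)))) (XT.nd (nat_lit 78) (nat_lit 76) (nat_lit 0) (XT.lf (nat_lit 0) (nat_lit 18324002162) (nat_lit 152) (nat_lit 7422133903) (nat_lit 0) (nat_lit 11835096389) (nat_lit 8) (nat_lit 5) (nat_lit 10) (nat_lit 4) (nat_lit 8) (nat_lit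 4) (nat_lit 345) (nat_lit 287) (nat_lit 268)) (XT.nd (nat_lit 78) (nat_lit 0) (nat_lit 0) (XT.lf (nat_lit 0) (nat_lit 5177304135) (nat_lit 76) (nat_lit 20848431823) (nat_lit 76) (nat_lit 14214561326) (nat_lit 7) (nat_lit 4) (nat_lit 8) (nat_lit 5) (nat_lit 8) (nat_lit 4) (nat_lit 346) (nat_lit 287) (nat_lit 267)) (XT.lf (nat_lit 0) (nat_lit 18742131940) (nat_lit 76) (nat_lit 15569838427) (nat_lit 76) (nat_lit 8801741335) (nat_lit 7) (nat_lit 4) (nat_lit 8) (nat_lit 5) (nat_lit 8) (nat_lit 4) (nat_lit 347) (nat_lit 287) (nat_lit 266))))))))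
noncomputable def xc25 : XT := (XT.nd (nat_lit 1716) (nat_lit 76) (nat_lit 0) (XT.nd (nat_lit 858) (nat_lit 152) (nat_lit 0) (XT.nd (nat_lit 390) (nat_lit 76) (nat_lit 0) (XT.nd (nat_lit 156) (nat_lit 76) (nat_lit 0) (XT.nd (nat_lit 78) (nat_lit 76) (nat_lit 0) (XT.lf (nat_lit 0) (nat_lit 33107324410) (nat_lit 76) (nat_lit 10004772756) (nat_lit 76) (nat_lit 3112391778) (nat_lit 7) (nat_lit 4) (nat_lit 8) (nat_lit 5) (nat_lit 8) (nat_lit 4) (nat_lit 348) (nat_lit 287) (nat_lit 265)) (XT.lf (nat_lit 0) (nat_lit 2794793512) (nat_lit 152) (nat_lit 1278131947) (nat_lit 76) (nat_lit 45515883917) (nat_lit 6) (nat_lit 5) (nat_lit 8) (nat_lit 5) (nat_lit 7) (nat_lit 4) (nat_lit 349) (nat_lit 287) (nat_lit 264))) (XT.nd (nat_lit 78) (nat_lit 0) (nat_lit 0) (XT.lf (nat_lit 0) (nat_lit 9156254345) (nat_lit 152) (nat_lit 41677960125) (nat_lit 0) (nat_lit 2381004775) (nat_lit 5) (nat_lit 5) (nat_lit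 7) (nat_lit 4) (nat_lit 5) (nat_lit 4) (nat_lit 350) (nat_lit 287) (nat_lit 263)) (XT.nd (nat_lit 78) (nat_lit 0) (nat_lit 0) (XT.lf (nat_lit 0) (nat_lit 15992195498) (nat_lit 152) (nat_lit 32018314487) (nat_lit 0) (nat_lit 9122983496) (nat_lit 5) (nat_lit 5) (nat_lit 7) (nat_lit 4) (nat_lit 5) (nat_lit 4) (nat_lit 351) (nat_lit 287) (nat_lit 262)) (XT.lf (nat_lit 0) (nat_lit 23258583490) (nat_lit 152) (nat_lit 21810125899) (nat_lit 0) (nat_lit 16302369235) (nat_lit 5) (nat_lit 5) (nat_lit 7) (nat_lit 4) (nat_lit 5) (nat_lit 4) (nat_lit 352) (nat_lit 287) (nat_lit 261))))) (XT.nd (nat_lit 234) (nat_lit 0) (nat_lit 0) (XT.nd (nat_lit 78) (nat_lit 76) (nat_lit 0) (XT.lf (nat_lit 0) (nat_lit 30998478397) (nat_lit 152) (nat_lit 10992901394) (nat_lit 0) (nat_lit 23961706500) (nat_lit 5) (nat_lit 5) (nat_lit 7) (nat_lit 4) (nat_lit 5) (nat_lit 4) (nat_lit 353) (nat_lit 287) (nat_lit 260)) (XT.nd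 (nat_lit 78) (nat_lit 0) (nat_lit 0) (XT.lf (nat_lit 0) (nat_lit 513909410) (nat_lit 76) (nat_lit 38751860419) (nat_lit 76) (nat_lit 31640498113) (nat_lit 4) (nat_lit 4) (nat_lit 5) (nat_lit 5) (nat_lit 5) (nat_lit 4) (nat_lit 354) (nat_lit 287) (nat_lit 259)) (XT.lf (nat_lit 0) (nat_lit 13149932586) (nat_lit 76) (nat_lit 35140705612) (nat_lit 76) (nat_lit 27960278112) (nat_lit 4) (nat_lit 4) (nat_lit 5) (nat_lit 5) (nat_lit 5) (nat_lit 4) (nat_lit 355) (nat_lit 287) (nat_lit 258)))) (XT.nd (nat_lit 78) (nat_lit 0) (nat_lit 0) (XT.lf (nat_lit 0) (nat_lit 26626573305) (nat_lit 76) (nat_lit 31322686040) (nat_lit 76) (nat_lit 24078309287) (nat_lit 4) (nat_lit 4) (nat_lit 5) (nat_lit 5) (nat_lit 5) (nat_lit 4) (nat_lit 356) (nat_lit 287) (nat_lit 257)) (XT.nd (nat_lit 78) (nat_lit 0) (nat_lit 0) (XT.lf (nat_lit 0) (nat_lit 41023693141) (nat_lit 76) (nat_lit 27275176400) (nat_lit 76) (nat_lit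 19971587376) (nat_lit 4) (nat_lit 4) (nat_lit 5) (nat_lit 5) (nat_lit 5) (nat_lit 4) (nat_lit 357) (nat_lit 287) (nat_lit 256)) (XT.lf (nat_lit 0) (nat_lit 56426608360) (nat_lit 76) (nat_lit 22974191451) (nat_lit 76) (nat_lit 15615776250) (nat_lit 4) (nat_lit 4) (nat_lit 5) (nat_lit 5) (nat_lit 5) (nat_lit 4) (nat_lit 358) (nat_lit 287) (nat_lit 255)))))) (XT.nd (nat_lit 390) (nat_lit 0) (nat_lit 0) (XT.nd (nat_lit 156) (nat_lit 152) (nat_lit 0) (XT.nd (nat_lit 78) (nat_lit 0) (nat_lit 0) (XT.lf (nat_lit 0) (nat_lit 72926595497) (nat_lit 76) (nat_lit 18394243875) (nat_lit 76) (nat_lit 10985063694) (nat_lit 4) (nat_lit 4) (nat_lit 5) (nat_lit 5) (nat_lit 5) (nat_lit 4) (nat_lit 359) (nat_lit 287) (nat_lit 254)) (XT.lf (nat_lit 0) (nat_lit 90621432254) (nat_lit 76) (nat_lit 13508193242) (nat_lit 76) (nat_lit 6052008451) (nat_lit 4) (nat_lit 4) (nat_lit 5) (nat_lit 5) (nat_lit 5) (nat_lit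 4) (nat_lit 360) (nat_lit 287) (nat_lit 253))) (XT.nd (nat_lit 78) (nat_lit 152) (nat_lit 0) (XT.lf (nat_lit 0) (nat_lit 109615976921) (nat_lit 76) (nat_lit 8287085176) (nat_lit 76) (nat_lit 787377598) (nat_lit 4) (nat_lit 4) (nat_lit 5) (nat_lit 5) (nat_lit 5) (nat_lit 4) (nat_lit 361) (nat_lit 287) (nat_lit 252)) (XT.nd (nat_lit 78) (nat_lit 0) (nat_lit 0) (XT.lf (nat_lit 0) (nat_lit 2132741563) (nat_lit 76) (nat_lit 2585672104) (nat_lit 152) (nat_lit 123158885980) (nat_lit 2) (nat_lit 5) (nat_lit 3) (nat_lit 5) (nat_lit 4) (nat_lit 4) (nat_lit 362) (nat_lit 287) (nat_lit 251)) (XT.lf (nat_lit 0) (nat_lit 10799121397) (nat_lit 152) (nat_lit 123408624965) (nat_lit 0) (nat_lit 3582625939) (nat_lit 2) (nat_lit 5) (nat_lit 4) (nat_lit 4) (nat_lit 2) (nat_lit 4) (nat_lit 363) (nat_lit 287) (nat_lit 250))))) (XT.nd (nat_lit 234) (nat_lit 0) (nat_lit 0) (XT.nd (nat_lit 78) (nat_lit 0) (nat_lit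 0) (XT.lf (nat_lit 0) (nat_lit 17359182096) (nat_lit 152) (nat_lit 121027892197) (nat_lit 0) (nat_lit 10109782075) (nat_lit 2) (nat_lit 5) (nat_lit 4) (nat_lit 4) (nat_lit 2) (nat_lit 4) (nat_lit 364) (nat_lit 287) (nat_lit 249)) (XT.nd (nat_lit 78) (nat_lit 0) (nat_lit 0) (XT.lf (nat_lit 0) (nat_lit 24397100611) (nat_lit 152) (nat_lit 118547882148) (nat_lit 0) (nat_lit 17117233401) (nat_lit 2) (nat_lit 5) (nat_lit 4) (nat_lit 4) (nat_lit 2) (nat_lit 4) (nat_lit 365) (nat_lit 287) (nat_lit 248)) (XT.lf (nat_lit 0) (nat_lit 31954583124) (nat_lit 152) (nat_lit 115953898461) (nat_lit 0) (nat_lit 24646505555) (nat_lit 2) (nat_lit 5) (nat_lit 4) (nat_lit 4) (nat_lit 2) (nat_lit 4) (nat_lit 366) (nat_lit 287) (nat_lit 247)))) (XT.nd (nat_lit 78) (nat_lit 0) (nat_lit 0) (XT.lf (nat_lit 0) (nat_lit 40076414719) (nat_lit 152) (nat_lit 113230569382) (nat_lit 0) (nat_lit 32742216446) (nat_lit 2) (nat_lit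 5) (nat_lit 4) (nat_lit 4) (nat_lit 2) (nat_lit 4) (nat_lit 367) (nat_lit 287) (nat_lit 246)) (XT.nd (nat_lit 78) (nat_lit 0) (nat_lit 0) (XT.lf (nat_lit 0) (nat_lit 48810724766) (nat_lit 152) (nat_lit 110361756663) (nat_lit 0) (nat_lit 41452340657) (nat_lit 2) (nat_lit 5) (nat_lit 4) (nat_lit 4) (nat_lit 2) (nat_lit 4) (nat_lit 368) (nat_lit 287) (nat_lit 245)) (XT.lf (nat_lit 0) (nat_lit 58209272141) (nat_lit 152) (nat_lit 107330459933) (nat_lit 0) (nat_lit 50828493739) (nat_lit 2) (nat_lit 5) (nat_lit 4) (nat_lit 4) (nat_lit 2) (nat_lit 4) (nat_lit 369) (nat_lit 287) (nat_lit 244))))))) (XT.nd (nat_lit 858) (nat_lit 76) (nat_lit 0) (XT.nd (nat_lit 390) (nat_lit 0) (nat_lit 0) (XT.nd (nat_lit 156) (nat_lit 0) (nat_lit 0) (XT.nd (nat_lit 78) (nat_lit 0) (nat_lit 0) (XT.lf (nat_lit 0) (nat_lit 68327751940) (nat_lit 152) (nat_lit 104118715952) (nat_lit 0) (nat_lit 60926238081) (nat_lit 2)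 (nat_lit 5) (nat_lit 4) (nat_lit 4) (nat_lit 2) (nat_lit 4) (nat_lit 370) (nat_lit 287) (nat_lit 243)) (XT.lf (nat_lit 0) (nat_lit 79226125522) (nat_lit 152) (nat_lit 100707492163) (nat_lit 0) (nat_lit 71805412167) (nat_lit 2) (nat_lit 5) (nat_lit 4) (nat_lit 4) (nat_lit 2) (nat_lit 4) (nat_lit 371) (nat_lit 287) (nat_lit 242))) (XT.nd (nat_lit 78) (nat_lit 0) (nat_lit 0) (XT.lf (nat_lit 0) (nat_lit 90968975845) (nat_lit 152) (nat_lit 97076573907) (nat_lit 0) (nat_lit 83530485177) (nat_lit 2) (nat_lit 5) (nat_lit 4) (nat_lit 4) (nat_lit 2) (nat_lit 4) (nat_lit 372) (nat_lit 287) (nat_lit 241)) (XT.nd (nat_lit 78) (nat_lit 0) (nat_lit 0) (XT.lf (nat_lit 0) (nat_lit 103625890167) (nat_lit 152) (nat_lit 93204444631) (nat_lit 0) (nat_lit 96170939026) (nat_lit 2) (nat_lit 5) (nat_lit 4) (nat_lit 4) (nat_lit 2) (nat_lit 4) (nat_lit 373) (nat_lit 287) (nat_lit 240)) (XT.lf (nat_lit 0) (nat_lit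 117271872427) (nat_lit 152) (nat_lit 89068158384) (nat_lit 0) (nat_lit 109801680107) (nat_lit 2) (nat_lit 5) (nat_lit 4) (nat_lit 4) (nat_lit 2) (nat_lit 4) (nat_lit 374) (nat_lit 287) (nat_lit 239))))) (XT.nd (nat_lit 234) (nat_lit 0) (nat_lit 0) (XT.nd (nat_lit 78) (nat_lit 0) (nat_lit 0) (XT.lf (nat_lit 0) (nat_lit 131987787705) (nat_lit 152) (nat_lit 84643203840) (nat_lit 0) (nat_lit 124503483181) (nat_lit 2) (nat_lit 5) (nat_lit 4) (nat_lit 4) (nat_lit 2) (nat_lit 4) (nat_lit 375) (nat_lit 287) (nat_lit 238)) (XT.nd (nat_lit 78) (nat_lit 0) (nat_lit 0) (XT.lf (nat_lit 0) (nat_lit 147860841423) (nat_lit 152) (nat_lit 79903359046) (nat_lit 0) (nat_lit 140363470044) (nat_lit 2) (nat_lit 5) (nat_lit 4) (nat_lit 4) (nat_lit 2) (nat_lit 4) (nat_lit 376) (nat_lit 287) (nat_lit 237)) (XT.lf (nat_lit 0) (nat_lit 164985096123) (nat_lit 152) (nat_lit 74820536032) (nat_lit 0) (nat_lit 157475625805)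 (nat_lit 2) (nat_lit 5) (nat_lit 4) (nat_lit 4) (nat_lit 2) (nat_lit 4) (nat_lit 377) (nat_lit 287) (nat_lit 236)))) (XT.nd (nat_lit 78) (nat_lit 0) (nat_lit 0) (XT.lf (nat_lit 0) (nat_lit 183462028870) (nat_lit 152) (nat_lit 69364614368) (nat_lit 0) (nat_lit 175941355830) (nat_lit 2) (nat_lit 5) (nat_lit 4) (nat_lit 4) (nat_lit 2) (nat_lit 4) (nat_lit 378) (nat_lit 287) (nat_lit 235)) (XT.nd (nat_lit 78) (nat_lit 0) (nat_lit 0) (XT.lf (nat_lit 0) (nat_lit 203401132599) (nat_lit 152) (nat_lit 63503262663) (nat_lit 0) (nat_lit 195870086667) (nat_lit 2) (nat_lit 5) (nat_lit 4) (nat_lit 4) (nat_lit 2) (nat_lit 4) (nat_lit 379) (nat_lit 287) (nat_lit 234)) (XT.lf (nat_lit 0) (nat_lit 224920564960) (nat_lit 152) (nat_lit 57201746984) (nat_lit 0) (nat_lit 217379914500) (nat_lit 2) (nat_lit 5) (nat_lit 4) (nat_lit 4) (nat_lit 2) (nat_lit 4) (nat_lit 380) (nat_lit 287) (nat_lit 233)))))) (XT.nd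 (nat_lit 468) (nat_lit 76) (nat_lit 0) (XT.nd (nat_lit 234) (nat_lit 0) (nat_lit 0) (XT.nd (nat_lit 78) (nat_lit 0) (nat_lit 0) (XT.lf (nat_lit 0) (nat_lit 248147848517) (nat_lit 152) (nat_lit 50422725013) (nat_lit 0) (nat_lit 240598304975) (nat_lit 2) (nat_lit 5) (nat_lit 4) (nat_lit 4) (nat_lit 2) (nat_lit 4) (nat_lit 381) (nat_lit 287) (nat_lit 232)) (XT.nd (nat_lit 78) (nat_lit 0) (nat_lit 0) (XT.lf (nat_lit 0) (nat_lit 273220626430) (nat_lit 152) (nat_lit 43126024770) (nat_lit 0) (nat_lit 265662848554) (nat_lit 2) (nat_lit 5) (nat_lit 4) (nat_lit 4) (nat_lit 2) (nat_lit 4) (nat_lit 382) (nat_lit 287) (nat_lit 231)) (XT.lf (nat_lit 0) (nat_lit 300287478126) (nat_lit 152) (nat_lit 35268406550) (nat_lit 0) (nat_lit 292722075865) (nat_lit 2) (nat_lit 5) (nat_lit 4) (nat_lit 4) (nat_lit 2) (nat_lit 4) (nat_lit 383) (nat_lit 287) (nat_lit 230)))) (XT.nd (nat_lit 78) (nat_lit 0) (nat_lit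 0) (XT.lf (nat_lit 0) (nat_lit 329508799762) (nat_lit 152) (nat_lit 26803306688) (nat_lit 0) (nat_lit 321936337885) (nat_lit 2) (nat_lit 5) (nat_lit 4) (nat_lit 4) (nat_lit 2) (nat_lit 4) (nat_lit 384) (nat_lit 287) (nat_lit 229)) (XT.nd (nat_lit 78) (nat_lit 0) (nat_lit 0) (XT.lf (nat_lit 0) (nat_lit 361057754725) (nat_lit 152) (nat_lit 17680561630) (nat_lit 0) (nat_lit 353478756168) (nat_lit 2) (nat_lit 5) (nat_lit 4) (nat_lit 4) (nat_lit 2) (nat_lit 4) (nat_lit 385) (nat_lit 287) (nat_lit 228)) (XT.lf (nat_lit 0) (nat_lit 395121299785) (nat_lit 152) (nat_lit 7846110664) (nat_lit 0) (nat_lit 387536248746) (nat_lit 2) (nat_lit 5) (nat_lit 4) (nat_lit 4) (nat_lit 2) (nat_lit 4) (nat_lit 386) (nat_lit 287) (nat_lit 227))))) (XT.nd (nat_lit 234) (nat_lit 0) (nat_lit 0) (XT.nd (nat_lit 78) (nat_lit 0) (nat_lit 0) (XT.lf (nat_lit 0) (nat_lit 2849527098) (nat_lit 76) (nat_lit 429096254993) (nat_lit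 76) (nat_lit 421505599804) (nat_lit 1) (nat_lit 4) (nat_lit 2) (nat_lit 5) (nat_lit 2) (nat_lit 4) (nat_lit 387) (nat_lit 287) (nat_lit 226)) (XT.nd (nat_lit 78) (nat_lit 0) (nat_lit 0) (XT.lf (nat_lit 0) (nat_lit 14664954910) (nat_lit 76) (nat_lit 457179695983) (nat_lit 76) (nat_lit 449583851766) (nat_lit 1) (nat_lit 4) (nat_lit 2) (nat_lit 5) (nat_lit 2) (nat_lit 4) (nat_lit 388) (nat_lit 287) (nat_lit 225)) (XT.lf (nat_lit 0) (nat_lit 27410762268) (nat_lit 76) (nat_lit 487517031490) (nat_lit 76) (nat_lit 479916382618) (nat_lit 1) (nat_lit 4) (nat_lit 2) (nat_lit 5) (nat_lit 2) (nat_lit 4) (nat_lit 389) (nat_lit 287) (nat_lit 224)))) (XT.nd (nat_lit 78) (nat_lit 0) (nat_lit 0) (XT.lf (nat_lit 0) (nat_lit 41162479881) (nat_lit 76) (nat_lit 520288038319) (nat_lit 76) (nat_lit 512682940692) (nat_lit 1) (nat_lit 4) (nat_lit 2) (nat_lit 5) (nat_lit 2) (nat_lit 4) (nat_lit 390) (nat_lit 287)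 (nat_lit 223)) (XT.nd (nat_lit 78) (nat_lit 0) (nat_lit 0) (XT.lf (nat_lit 0) (nat_lit 56001599411) (nat_lit 76) (nat_lit 555686915028) (nat_lit 76) (nat_lit 548077698183) (nat_lit 1) (nat_lit 4) (nat_lit 2) (nat_lit 5) (nat_lit 2) (nat_lit 4) (nat_lit 391) (nat_lit 287) (nat_lit 222)) (XT.lf (nat_lit 0) (nat_lit 72016056379) (nat_lit 76) (nat_lit 593923432738) (nat_lit 76) (nat_lit 586310401803) (nat_lit 1) (nat_lit 4) (nat_lit 2) (nat_lit 5) (nat_lit 2) (nat_lit 4) (nat_lit 392) (nat_lit 287) (nat_lit 221))))))))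
noncomputable def xc26 : XT := (XT.nd (nat_lit 1716) (nat_lit 456) (nat_lit 0) (XT.nd (nat_lit 858) (nat_lit 684) (nat_lit 0) (XT.nd (nat_lit 390) (nat_lit 608) (nat_lit 0) (XT.nd (nat_lit 156) (nat_lit 532) (nat_lit 0) (XT.nd (nat_lit 78) (nat_lit 228) (nat_lit 0) (XT.lf (nat_lit 0) (nat_lit 4212195516) (nat_lit 152) (nat_lit 743645629) (nat_lit 152) (nat_lit 743645629) (nat_lit 35) (nat_lit 4) (nat_lit 37) (nat_lit 5) (nat_lit 37) (nat_lit 4) (nat_lit 324) (nat_lit 288) (nat_lit 288)) (XT.lf (nat_lit 0) (nat_lit 5484764576) (nat_lit 228) (nat_lit 1884319909) (nat_lit 0) (nat_lit 4534022894) (nat_lit 32) (nat_lit 5) (nat_lit 35) (nat_lit 4) (nat_lit 32) (nat_lit 4) (nat_lit 325) (nat_lit 288) (nat_lit 287))) (XT.nd (nat_lit 78) (nat_lit 304) (nat_lit 0) (XT.lf (nat_lit 0) (nat_lit 355691196) (nat_lit 228) (nat_lit 1101891101) (nat_lit 76) (nat_lit 10995828780) (nat_lit 29) (nat_lit 5)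 (nat_lit 32) (nat_lit 5) (nat_lit 30) (nat_lit 4) (nat_lit 326) (nat_lit 288) (nat_lit 286)) (XT.nd (nat_lit 78) (nat_lit 228) (nat_lit 0) (XT.lf (nat_lit 0) (nat_lit 7369316777) (nat_lit 152) (nat_lit 828121462) (nat_lit 0) (nat_lit 4849158867) (nat_lit 28) (nat_lit 5) (nat_lit 30) (nat_lit 4) (nat_lit 28) (nat_lit 4) (nat_lit 327) (nat_lit 288) (nat_lit 285)) (XT.lf (nat_lit 0) (nat_lit 1087253570) (nat_lit 228) (nat_lit 1010077996) (nat_lit 76) (nat_lit 11595607868) (nat_lit 25) (nat_lit 5) (nat_lit 28) (nat_lit 5) (nat_lit 26) (nat_lit 4) (nat_lit 328) (nat_lit 288) (nat_lit 284))))) (XT.nd (nat_lit 234) (nat_lit 228) (nat_lit 0) (XT.nd (nat_lit 78) (nat_lit 304) (nat_lit 0) (XT.lf (nat_lit 0) (nat_lit 8121557724) (nat_lit 152) (nat_lit 1865611030) (nat_lit 0) (nat_lit 4402991987) (nat_lit 24) (nat_lit 5) (nat_lit 26) (nat_lit 4) (nat_lit 24) (nat_lit 4) (nat_lit 329) (nat_lit 288)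 (nat_lit 283)) (XT.nd (nat_lit 78) (nat_lit 76) (nat_lit 0) (XT.lf (nat_lit 0) (nat_lit 447755279) (nat_lit 228) (nat_lit 3387568832) (nat_lit 76) (nat_lit 11313027062) (nat_lit 21) (nat_lit 5) (nat_lit 24) (nat_lit 5) (nat_lit 22) (nat_lit 4) (nat_lit 330) (nat_lit 288) (nat_lit 282)) (XT.lf (nat_lit 0) (nat_lit 7388347159) (nat_lit 152) (nat_lit 5808195537) (nat_lit 0) (nat_lit 2770352499) (nat_lit 20) (nat_lit 5) (nat_lit 22) (nat_lit 4) (nat_lit 20) (nat_lit 4) (nat_lit 331) (nat_lit 288) (nat_lit 281)))) (XT.nd (nat_lit 78) (nat_lit 152) (nat_lit 0) (XT.lf (nat_lit 0) (nat_lit 7661767784) (nat_lit 76) (nat_lit 7145187807) (nat_lit 76) (nat_lit 2047980414) (nat_lit 19) (nat_lit 4) (nat_lit 20) (nat_lit 5) (nat_lit 20) (nat_lit 4) (nat_lit 332) (nat_lit 288) (nat_lit 280)) (XT.nd (nat_lit 78) (nat_lit 0) (nat_lit 0) (XT.lf (nat_lit 0) (nat_lit 4094282420) (nat_lit 76) (nat_lit 605817729)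 (nat_lit 152) (nat_lit 13117383609) (nat_lit 17) (nat_lit 5) (nat_lit 18) (nat_lit 5) (nat_lit 19) (nat_lit 4) (nat_lit 333) (nat_lit 288) (nat_lit 279)) (XT.lf (nat_lit 0) (nat_lit 11880150433) (nat_lit 152) (nat_lit 765338872) (nat_lit 0) (nat_lit 6211797514) (nat_lit 17) (nat_lit 5) (nat_lit 19) (nat_lit 4) (nat_lit 17) (nat_lit 4) (nat_lit 334) (nat_lit 288) (nat_lit 278)))))) (XT.nd (nat_lit 390) (nat_lit 228) (nat_lit 0) (XT.nd (nat_lit 156) (nat_lit 228) (nat_lit 0) (XT.nd (nat_lit 78) (nat_lit 152) (nat_lit 0) (XT.lf (nat_lit 0) (nat_lit 13128617033) (nat_lit 76) (nat_lit 6442792023) (nat_lit 76) (nat_lit 412139563) (nat_lit 16) (nat_lit 4) (nat_lit 17) (nat_lit 5) (nat_lit 17) (nat_lit 4) (nat_lit 335) (nat_lit 288) (nat_lit 277)) (XT.lf (nat_lit 0) (nat_lit 6314671681) (nat_lit 152) (nat_lit 14635904953) (nat_lit 0) (nat_lit 251705016) (nat_lit 14) (nat_lit 5) (nat_lit 16) (nat_lit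 4) (nat_lit 14) (nat_lit 4) (nat_lit 336) (nat_lit 288) (nat_lit 276))) (XT.nd (nat_lit 78) (nat_lit 228) (nat_lit 0) (XT.lf (nat_lit 0) (nat_lit 13534692722) (nat_lit 152) (nat_lit 1809197518) (nat_lit 0) (nat_lit 7175903714) (nat_lit 14) (nat_lit 5) (nat_lit 16) (nat_lit 4) (nat_lit 14) (nat_lit 4) (nat_lit 337) (nat_lit 288) (nat_lit 275)) (XT.nd (nat_lit 78) (nat_lit 152) (nat_lit 0) (XT.lf (nat_lit 0) (nat_lit 11977666382) (nat_lit 76) (nat_lit 9300272498) (nat_lit 76) (nat_lit 2667573913) (nat_lit 13) (nat_lit 4) (nat_lit 14) (nat_lit 5) (nat_lit 14) (nat_lit 4) (nat_lit 338) (nat_lit 288) (nat_lit 274)) (XT.lf (nat_lit 0) (nat_lit 976607876) (nat_lit 76) (nat_lit 2858965997) (nat_lit 152) (nat_lit 21655887127) (nat_lit 11) (nat_lit 5) (nat_lit 12) (nat_lit 5) (nat_lit 13) (nat_lit 4) (nat_lit 339) (nat_lit 288) (nat_lit 273))))) (XT.nd (nat_lit 234) (nat_lit 152) (nat_lit 0) (XT.nd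 (nat_lit 78) (nat_lit 76) (nat_lit 0) (XT.lf (nat_lit 0) (nat_lit 10816318384) (nat_lit 152) (nat_lit 12305841793) (nat_lit 0) (nat_lit 4034268976) (nat_lit 11) (nat_lit 5) (nat_lit 13) (nat_lit 4) (nat_lit 11) (nat_lit 4) (nat_lit 340) (nat_lit 288) (nat_lit 272)) (XT.nd (nat_lit 78) (nat_lit 0) (nat_lit 0) (XT.lf (nat_lit 0) (nat_lit 450936857) (nat_lit 76) (nat_lit 17750285954) (nat_lit 76) (nat_lit 10761152495) (nat_lit 10) (nat_lit 4) (nat_lit 11) (nat_lit 5) (nat_lit 11) (nat_lit 4) (nat_lit 341) (nat_lit 288) (nat_lit 271)) (XT.lf (nat_lit 0) (nat_lit 14289690445) (nat_lit 76) (nat_lit 11901661866) (nat_lit 76) (nat_lit 4720783916) (nat_lit 10) (nat_lit 4) (nat_lit 11) (nat_lit 5) (nat_lit 11) (nat_lit 4) (nat_lit 342) (nat_lit 288) (nat_lit 270)))) (XT.nd (nat_lit 78) (nat_lit 76) (nat_lit 0) (XT.lf (nat_lit 0) (nat_lit 1556906016) (nat_lit 152) (nat_lit 4166761812) (nat_lit 76)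 (nat_lit 27302266721) (nat_lit 9) (nat_lit 5) (nat_lit 11) (nat_lit 5) (nat_lit 10) (nat_lit 4) (nat_lit 343) (nat_lit 288) (nat_lit 269)) (XT.nd (nat_lit 78) (nat_lit 0) (nat_lit 0) (XT.lf (nat_lit 0) (nat_lit 8158554734) (nat_lit 152) (nat_lit 26153130636) (nat_lit 0) (nat_lit 993974598) (nat_lit 8) (nat_lit 5) (nat_lit 10) (nat_lit 4) (nat_lit 8) (nat_lit 4) (nat_lit 344) (nat_lit 288) (nat_lit 268)) (XT.lf (nat_lit 0) (nat_lit 15290004818) (nat_lit 152) (nat_lit 14497261071) (nat_lit 0) (nat_lit 7980459958) (nat_lit 8) (nat_lit 5) (nat_lit 10) (nat_lit 4) (nat_lit 8) (nat_lit 4) (nat_lit 345) (nat_lit 288) (nat_lit 267))))))) (XT.nd (nat_lit 858) (nat_lit 152) (nat_lit 0) (XT.nd (nat_lit 390) (nat_lit 76) (nat_lit 0) (XT.nd (nat_lit 156) (nat_lit 152) (nat_lit 0) (XT.nd (nat_lit 78) (nat_lit 76) (nat_lit 0) (XT.lf (nat_lit 0) (nat_lit 22835846645) (nat_lit 152) (nat_lit 2206683871)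 (nat_lit 0) (nat_lit 15392075190) (nat_lit 8) (nat_lit 5) (nat_lit 10) (nat_lit 4) (nat_lit 8) (nat_lit 4) (nat_lit 346) (nat_lit 288) (nat_lit 266)) (XT.lf (nat_lit 0) (nat_lit 11148247556) (nat_lit 76) (nat_lit 19866604148) (nat_lit 76) (nat_lit 12298548807) (nat_lit 7) (nat_lit 4) (nat_lit 8) (nat_lit 5) (nat_lit 8) (nat_lit 4) (nat_lit 347) (nat_lit 288) (nat_lit 265))) (XT.nd (nat_lit 78) (nat_lit 152) (nat_lit 0) (XT.lf (nat_lit 0) (nat_lit 25386649801) (nat_lit 76) (nat_lit 14361997520) (nat_lit 76) (nat_lit 6678864508) (nat_lit 7) (nat_lit 4) (nat_lit 8) (nat_lit 5) (nat_lit 8) (nat_lit 4) (nat_lit 348) (nat_lit 288) (nat_lit 264)) (XT.nd (nat_lit 78) (nat_lit 152) (nat_lit 0) (XT.lf (nat_lit 0) (nat_lit 40519935645) (nat_lit 76) (nat_lit 8533462000) (nat_lit 76) (nat_lit 743775589) (nat_lit 7) (nat_lit 4) (nat_lit 8) (nat_lit 5) (nat_lit 8) (nat_lit 4) (nat_lit 349) (nat_lit 288)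 (nat_lit 263)) (XT.lf (nat_lit 0) (nat_lit 3211700792) (nat_lit 76) (nat_lit 2202956650) (nat_lit 152) (nat_lit 48020862249) (nat_lit 5) (nat_lit 5) (nat_lit 6) (nat_lit 5) (nat_lit 7) (nat_lit 4) (nat_lit 350) (nat_lit 288) (nat_lit 262))))) (XT.nd (nat_lit 234) (nat_lit 76) (nat_lit 0) (XT.nd (nat_lit 78) (nat_lit 0) (nat_lit 0) (XT.lf (nat_lit 0) (nat_lit 12160229051) (nat_lit 152) (nat_lit 40637581195) (nat_lit 0) (nat_lit 4560515401) (nat_lit 5) (nat_lit 5) (nat_lit 7) (nat_lit 4) (nat_lit 5) (nat_lit 4) (nat_lit 351) (nat_lit 288) (nat_lit 261)) (XT.nd (nat_lit 78) (nat_lit 0) (nat_lit 0) (XT.lf (nat_lit 0) (nat_lit 19374788137) (nat_lit 152) (nat_lit 30529209516) (nat_lit 0) (nat_lit 11694516846) (nat_lit 5) (nat_lit 5) (nat_lit 7) (nat_lit 4) (nat_lit 5) (nat_lit 4) (nat_lit 352) (nat_lit 288) (nat_lit 260)) (XT.lf (nat_lit 0) (nat_lit 27066693316) (nat_lit 152) (nat_lit 19804408073)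 (nat_lit 0) (nat_lit 19311831616) (nat_lit 5) (nat_lit 5) (nat_lit 7) (nat_lit 4) (nat_lit 5) (nat_lit 4) (nat_lit 353) (nat_lit 288) (nat_lit 259)))) (XT.nd (nat_lit 78) (nat_lit 76) (nat_lit 0) (XT.lf (nat_lit 0) (nat_lit 35281526249) (nat_lit 152) (nat_lit 8399622489) (nat_lit 0) (nat_lit 27457599356) (nat_lit 5) (nat_lit 5) (nat_lit 7) (nat_lit 4) (nat_lit 5) (nat_lit 4) (nat_lit 354) (nat_lit 288) (nat_lit 258)) (XT.nd (nat_lit 78) (nat_lit 0) (nat_lit 0) (XT.lf (nat_lit 0) (nat_lit 3876813391) (nat_lit 76) (nat_lit 40251681958) (nat_lit 76) (nat_lit 32363805812) (nat_lit 4) (nat_lit 4) (nat_lit 5) (nat_lit 5) (nat_lit 5) (nat_lit 4) (nat_lit 355) (nat_lit 288) (nat_lit 257)) (XT.lf (nat_lit 0) (nat_lit 17277659811) (nat_lit 76) (nat_lit 36470177530) (nat_lit 76) (nat_lit 28523089111) (nat_lit 4) (nat_lit 4) (nat_lit 5) (nat_lit 5) (nat_lit 5) (nat_lit 4) (nat_lit 356) (nat_lit 288)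 (nat_lit 256)))))) (XT.nd (nat_lit 468) (nat_lit 76) (nat_lit 0) (XT.nd (nat_lit 234) (nat_lit 76) (nat_lit 0) (XT.nd (nat_lit 78) (nat_lit 0) (nat_lit 0) (XT.lf (nat_lit 0) (nat_lit 31604599742) (nat_lit 76) (nat_lit 32456478208) (nat_lit 76) (nat_lit 24454563613) (nat_lit 4) (nat_lit 4) (nat_lit 5) (nat_lit 5) (nat_lit 5) (nat_lit 4) (nat_lit 357) (nat_lit 288) (nat_lit 255)) (XT.nd (nat_lit 78) (nat_lit 0) (nat_lit 0) (XT.lf (nat_lit 0) (nat_lit 46942533567) (nat_lit 76) (nat_lit 28186799110) (nat_lit 76) (nat_lit 20134119535) (nat_lit 4) (nat_lit 4) (nat_lit 5) (nat_lit 5) (nat_lit 5) (nat_lit 4) (nat_lit 358) (nat_lit 288) (nat_lit 254)) (XT.lf (nat_lit 0) (nat_lit 63382352746) (nat_lit 76) (nat_lit 23635838432) (nat_lit 76) (nat_lit 15536154247) (nat_lit 4) (nat_lit 4) (nat_lit 5) (nat_lit 5) (nat_lit 5) (nat_lit 4) (nat_lit 359) (nat_lit 288) (nat_lit 253)))) (XT.nd (nat_lit 78)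 (nat_lit 76) (nat_lit 0) (XT.lf (nat_lit 0) (nat_lit 81021478431) (nat_lit 76) (nat_lit 18776627519) (nat_lit 76) (nat_lit 10633420547) (nat_lit 4) (nat_lit 4) (nat_lit 5) (nat_lit 5) (nat_lit 5) (nat_lit 4) (nat_lit 360) (nat_lit 288) (nat_lit 252)) (XT.nd (nat_lit 78) (nat_lit 76) (nat_lit 0) (XT.lf (nat_lit 0) (nat_lit 99964438773) (nat_lit 76) (nat_lit 13580371047) (nat_lit 76) (nat_lit 5396865198) (nat_lit 4) (nat_lit 4) (nat_lit 5) (nat_lit 5) (nat_lit 5) (nat_lit 4) (nat_lit 361) (nat_lit 288) (nat_lit 251)) (XT.lf (nat_lit 0) (nat_lit 197996577) (nat_lit 152) (nat_lit 7814926640) (nat_lit 76) (nat_lit 120122138606) (nat_lit 3) (nat_lit 5) (nat_lit 5) (nat_lit 5) (nat_lit 4) (nat_lit 4) (nat_lit 362) (nat_lit 288) (nat_lit 250))))) (XT.nd (nat_lit 234) (nat_lit 0) (nat_lit 0) (XT.nd (nat_lit 78) (nat_lit 0) (nat_lit 0) (XT.lf (nat_lit 0) (nat_lit 4189867293) (nat_lit 76) (nat_lit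 1880979881) (nat_lit 152) (nat_lit 131987685169) (nat_lit 2) (nat_lit 5) (nat_lit 3) (nat_lit 5) (nat_lit 4) (nat_lit 4) (nat_lit 363) (nat_lit 288) (nat_lit 249)) (XT.nd (nat_lit 78) (nat_lit 0) (nat_lit 0) (XT.lf (nat_lit 0) (nat_lit 12578969814) (nat_lit 152) (nat_lit 131502402098) (nat_lit 0) (nat_lit 4686246039) (nat_lit 2) (nat_lit 5) (nat_lit 4) (nat_lit 4) (nat_lit 2) (nat_lit 4) (nat_lit 364) (nat_lit 288) (nat_lit 248)) (XT.lf (nat_lit 0) (nat_lit 19595989539) (nat_lit 152) (nat_lit 129062982033) (nat_lit 0) (nat_lit 11675055405) (nat_lit 2) (nat_lit 5) (nat_lit 4) (nat_lit 4) (nat_lit 2) (nat_lit 4) (nat_lit 365) (nat_lit 288) (nat_lit 247)))) (XT.nd (nat_lit 78) (nat_lit 0) (nat_lit 0) (XT.lf (nat_lit 0) (nat_lit 27134121322) (nat_lit 152) (nat_lit 126506581664) (nat_lit 0) (nat_lit 19187066484) (nat_lit 2) (nat_lit 5) (nat_lit 4) (nat_lit 4) (nat_lit 2) (nat_lit 4) (nat_lit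 366) (nat_lit 288) (nat_lit 246)) (XT.nd (nat_lit 78) (nat_lit 0) (nat_lit 0) (XT.lf (nat_lit 0) (nat_lit 35238035573) (nat_lit 152) (nat_lit 123818051953) (nat_lit 0) (nat_lit 27266794899) (nat_lit 2) (nat_lit 5) (nat_lit 4) (nat_lit 4) (nat_lit 2) (nat_lit 4) (nat_lit 367) (nat_lit 288) (nat_lit 245)) (XT.lf (nat_lit 0) (nat_lit 43955755488) (nat_lit 152) (nat_lit 120981460872) (nat_lit 0) (nat_lit 35962120520) (nat_lit 2) (nat_lit 5) (nat_lit 4) (nat_lit 4) (nat_lit 2) (nat_lit 4) (nat_lit 368) (nat_lit 288) (nat_lit 244))))))))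
noncomputable def xc27 : XT := (XT.nd (nat_lit 1794) (nat_lit 0) (nat_lit 0) (XT.nd (nat_lit 858) (nat_lit 76) (nat_lit 0) (XT.nd (nat_lit 390) (nat_lit 0) (nat_lit 0) (XT.nd (nat_lit 156) (nat_lit 0) (nat_lit 0) (XT.nd (nat_lit 78) (nat_lit 0) (nat_lit 0) (XT.lf (nat_lit 0) (nat_lit 53338941629) (nat_lit 152) (nat_lit 117979998992) (nat_lit 0) (nat_lit 45324571205) (nat_lit 2) (nat_lit 5) (nat_lit 4) (nat_lit 4) (nat_lit 2) (nat_lit 4) (nat_lit 369) (nat_lit 288) (nat_lit 243)) (XT.lf (nat_lit 0) (nat_lit 63443198062) (nat_lit 152) (nat_lit 114795879872) (nat_lit 0) (nat_lit 55409628141) (nat_lit 2) (nat_lit 5) (nat_lit 4) (nat_lit 4) (nat_lit 2) (nat_lit 4) (nat_lit 370) (nat_lit 288) (nat_lit 242))) (XT.nd (nat_lit 78) (nat_lit 0) (nat_lit 0) (XT.lf (nat_lit 0) (nat_lit 74328401862) (nat_lit 152) (nat_lit 111410234658) (nat_lit 0) (nat_lit 66277054630) (nat_lit 2) (nat_lit 5) (nat_lit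 4) (nat_lit 4) (nat_lit 2) (nat_lit 4) (nat_lit 371) (nat_lit 288) (nat_lit 241)) (XT.nd (nat_lit 78) (nat_lit 0) (nat_lit 0) (XT.lf (nat_lit 0) (nat_lit 86059057941) (nat_lit 152) (nat_lit 107803000267) (nat_lit 0) (nat_lit 77991250235) (nat_lit 2) (nat_lit 5) (nat_lit 4) (nat_lit 4) (nat_lit 2) (nat_lit 4) (nat_lit 372) (nat_lit 288) (nat_lit 240)) (XT.lf (nat_lit 0) (nat_lit 98704681299) (nat_lit 152) (nat_lit 103952800497) (nat_lit 0) (nat_lit 90621632413) (nat_lit 2) (nat_lit 5) (nat_lit 4) (nat_lit 4) (nat_lit 2) (nat_lit 4) (nat_lit 373) (nat_lit 288) (nat_lit 239))))) (XT.nd (nat_lit 234) (nat_lit 0) (nat_lit 0) (XT.nd (nat_lit 78) (nat_lit 0) (nat_lit 0) (XT.lf (nat_lit 0) (nat_lit 112340208961) (nat_lit 152) (nat_lit 99836819347) (nat_lit 0) (nat_lit 104243047872) (nat_lit 2) (nat_lit 5) (nat_lit 4) (nat_lit 4) (nat_lit 2) (nat_lit 4) (nat_lit 374) (nat_lit 288) (nat_lit 238))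 (XT.nd (nat_lit 78) (nat_lit 0) (nat_lit 0) (XT.lf (nat_lit 0) (nat_lit 127046444055) (nat_lit 152) (nat_lit 95430665819) (nat_lit 0) (nat_lit 118936216111) (nat_lit 2) (nat_lit 5) (nat_lit 4) (nat_lit 4) (nat_lit 2) (nat_lit 4) (nat_lit 375) (nat_lit 288) (nat_lit 237)) (XT.lf (nat_lit 0) (nat_lit 142910534641) (nat_lit 152) (nat_lit 90708229373) (nat_lit 0) (nat_lit 134788207757) (nat_lit 2) (nat_lit 5) (nat_lit 4) (nat_lit 4) (nat_lit 2) (nat_lit 4) (nat_lit 376) (nat_lit 288) (nat_lit 236)))) (XT.nd (nat_lit 78) (nat_lit 0) (nat_lit 0) (XT.lf (nat_lit 0) (nat_lit 160026490144) (nat_lit 152) (nat_lit 85641525201) (nat_lit 0) (nat_lit 151892960538) (nat_lit 2) (nat_lit 5) (nat_lit 4) (nat_lit 4) (nat_lit 2) (nat_lit 4) (nat_lit 377) (nat_lit 288) (nat_lit 235)) (XT.nd (nat_lit 78) (nat_lit 0) (nat_lit 0) (XT.lf (nat_lit 0) (nat_lit 178495738450) (nat_lit 152) (nat_lit 80200528389) (nat_lit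 0) (nat_lit 170351835953) (nat_lit 2) (nat_lit 5) (nat_lit 4) (nat_lit 4) (nat_lit 2) (nat_lit 4) (nat_lit 378) (nat_lit 288) (nat_lit 234)) (XT.lf (nat_lit 0) (nat_lit 198427726954) (nat_lit 152) (nat_lit 74352995993) (nat_lit 0) (nat_lit 190274219929) (nat_lit 2) (nat_lit 5) (nat_lit 4) (nat_lit 4) (nat_lit 2) (nat_lit 4) (nat_lit 379) (nat_lit 288) (nat_lit 233)))))) (XT.nd (nat_lit 468) (nat_lit 76) (nat_lit 0) (XT.nd (nat_lit 234) (nat_lit 0) (nat_lit 0) (XT.nd (nat_lit 78) (nat_lit 0) (nat_lit 0) (XT.lf (nat_lit 0) (nat_lit 219940571146) (nat_lit 152) (nat_lit 68064275969) (nat_lit 0) (nat_lit 211778171039) (nat_lit 2) (nat_lit 5) (nat_lit 4) (nat_lit 4) (nat_lit 2) (nat_lit 4) (nat_lit 380) (nat_lit 288) (nat_lit 232)) (XT.nd (nat_lit 78) (nat_lit 0) (nat_lit 0) (XT.lf (nat_lit 0) (nat_lit 243161754545) (nat_lit 152) (nat_lit 61297101828) (nat_lit 0) (nat_lit 234991120103) (nat_lit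 2) (nat_lit 5) (nat_lit 4) (nat_lit 4) (nat_lit 2) (nat_lit 4) (nat_lit 381) (nat_lit 288) (nat_lit 231)) (XT.lf (nat_lit 0) (nat_lit 268228884165) (nat_lit 152) (nat_lit 54011371797) (nat_lit 0) (nat_lit 260050625339) (nat_lit 2) (nat_lit 5) (nat_lit 4) (nat_lit 4) (nat_lit 2) (nat_lit 4) (nat_lit 382) (nat_lit 288) (nat_lit 230)))) (XT.nd (nat_lit 78) (nat_lit 0) (nat_lit 0) (XT.lf (nat_lit 0) (nat_lit 295290505959) (nat_lit 152) (nat_lit 46163911181) (nat_lit 0) (nat_lit 287105187517) (nat_lit 2) (nat_lit 5) (nat_lit 4) (nat_lit 4) (nat_lit 2) (nat_lit 4) (nat_lit 383) (nat_lit 288) (nat_lit 229)) (XT.nd (nat_lit 78) (nat_lit 0) (nat_lit 0) (XT.lf (nat_lit 0) (nat_lit 324506985092) (nat_lit 152) (nat_lit 37708216508) (nat_lit 0) (nat_lit 316315129971) (nat_lit 2) (nat_lit 5) (nat_lit 4) (nat_lit 4) (nat_lit 2) (nat_lit 4) (nat_lit 384) (nat_lit 288) (nat_lit 228)) (XT.lf (nat_lit 0)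 (nat_lit 356051456258) (nat_lit 152) (nat_lit 28594179958) (nat_lit 0) (nat_lit 347853548654) (nat_lit 2) (nat_lit 5) (nat_lit 4) (nat_lit 4) (nat_lit 2) (nat_lit 4) (nat_lit 385) (nat_lit 288) (nat_lit 227))))) (XT.nd (nat_lit 234) (nat_lit 0) (nat_lit 0) (XT.nd (nat_lit 78) (nat_lit 76) (nat_lit 0) (XT.lf (nat_lit 0) (nat_lit 390110849654) (nat_lit 152) (nat_lit 18767792426) (nat_lit 0) (nat_lit 381907337899) (nat_lit 2) (nat_lit 5) (nat_lit 4) (nat_lit 4) (nat_lit 2) (nat_lit 4) (nat_lit 386) (nat_lit 288) (nat_lit 226)) (XT.nd (nat_lit 78) (nat_lit 76) (nat_lit 0) (XT.lf (nat_lit 0) (nat_lit 426886998723) (nat_lit 152) (nat_lit 8170823467) (nat_lit 0) (nat_lit 418678297941) (nat_lit 2) (nat_lit 5) (nat_lit 4) (nat_lit 4) (nat_lit 2) (nat_lit 4) (nat_lit 387) (nat_lit 288) (nat_lit 225)) (XT.lf (nat_lit 0) (nat_lit 3367298346) (nat_lit 76) (nat_lit 463283110817) (nat_lit 76) (nat_lit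 455069605380) (nat_lit 1) (nat_lit 4) (nat_lit 2) (nat_lit 5) (nat_lit 2) (nat_lit 4) (nat_lit 388) (nat_lit 288) (nat_lit 224)))) (XT.nd (nat_lit 78) (nat_lit 0) (nat_lit 0) (XT.lf (nat_lit 0) (nat_lit 16106493044) (nat_lit 76) (nat_lit 493623660017) (nat_lit 76) (nat_lit 485405705825) (nat_lit 1) (nat_lit 4) (nat_lit 2) (nat_lit 5) (nat_lit 2) (nat_lit 4) (nat_lit 389) (nat_lit 288) (nat_lit 223)) (XT.nd (nat_lit 78) (nat_lit 0) (nat_lit 0) (XT.lf (nat_lit 0) (nat_lit 29852087824) (nat_lit 76) (nat_lit 526397642487) (nat_lit 76) (nat_lit 518175569077) (nat_lit 1) (nat_lit 4) (nat_lit 2) (nat_lit 5) (nat_lit 2) (nat_lit 4) (nat_lit 390) (nat_lit 288) (nat_lit 222)) (XT.lf (nat_lit 0) (nat_lit 44685538063) (nat_lit 76) (nat_lit 561799274420) (nat_lit 76) (nat_lit 553573386919) (nat_lit 1) (nat_lit 4) (nat_lit 2) (nat_lit 5) (nat_lit 2) (nat_lit 4) (nat_lit 391) (nat_lit 288) (nat_lit 221)))))))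 (XT.nd (nat_lit 42198) (nat_lit 0) (nat_lit 684) (XT.nd (nat_lit 41730) (nat_lit 0) (nat_lit 1444) (XT.nd (nat_lit 41496) (nat_lit 0) (nat_lit 2356) (XT.nd (nat_lit 41418) (nat_lit 0) (nat_lit 2964) (XT.lf (nat_lit 0) (nat_lit 60694745689) (nat_lit 76) (nat_lit 600038343263) (nat_lit 76) (nat_lit 591808924197) (nat_lit 1) (nat_lit 4) (nat_lit 2) (nat_lit 5) (nat_lit 2) (nat_lit 4) (nat_lit 392) (nat_lit 288) (nat_lit 220)) (XT.lf (nat_lit 0) (nat_lit 2370039729) (nat_lit 152) (nat_lit 1439023343) (nat_lit 152) (nat_lit 1439023343) (nat_lit 40) (nat_lit 4) (nat_lit 42) (nat_lit 5) (nat_lit 42) (nat_lit 4) (nat_lit 322) (nat_lit 289) (nat_lit 289))) (XT.nd (nat_lit 78) (nat_lit 380) (nat_lit 0) (XT.lf (nat_lit 0) (nat_lit 3800345909) (nat_lit 228) (nat_lit 4410582642) (nat_lit 0) (nat_lit 2722204842) (nat_lit 37) (nat_lit 5) (nat_lit 40) (nat_lit 4) (nat_lit 37) (nat_lit 4) (nat_lit 323)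 (nat_lit 289) (nat_lit 288)) (XT.nd (nat_lit 78) (nat_lit 228) (nat_lit 0) (XT.lf (nat_lit 0) (nat_lit 8103435748) (nat_lit 152) (nat_lit 2690940963) (nat_lit 152) (nat_lit 614521129) (nat_lit 35) (nat_lit 4) (nat_lit 37) (nat_lit 5) (nat_lit 37) (nat_lit 4) (nat_lit 324) (nat_lit 289) (nat_lit 287)) (XT.lf (nat_lit 0) (nat_lit 6114475137) (nat_lit 228) (nat_lit 2552149422) (nat_lit 0) (nat_lit 3256616066) (nat_lit 32) (nat_lit 5) (nat_lit 35) (nat_lit 4) (nat_lit 32) (nat_lit 4) (nat_lit 325) (nat_lit 289) (nat_lit 286))))) (XT.nd (nat_lit 234) (nat_lit 380) (nat_lit 0) (XT.nd (nat_lit 78) (nat_lit 304) (nat_lit 0) (XT.lf (nat_lit 0) (nat_lit 750151211) (nat_lit 228) (nat_lit 2135156838) (nat_lit 76) (nat_lit 9597658932) (nat_lit 29) (nat_lit 5) (nat_lit 32) (nat_lit 5) (nat_lit 30) (nat_lit 4) (nat_lit 326) (nat_lit 289) (nat_lit 285)) (XT.nd (nat_lit 78) (nat_lit 228) (nat_lit 0) (XT.lf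 (nat_lit 0) (nat_lit 7546950117) (nat_lit 152) (nat_lit 2210057068) (nat_lit 0) (nat_lit 3330096572) (nat_lit 28) (nat_lit 5) (nat_lit 30) (nat_lit 4) (nat_lit 28) (nat_lit 4) (nat_lit 327) (nat_lit 289) (nat_lit 284)) (XT.lf (nat_lit 0) (nat_lit 1025445945) (nat_lit 228) (nat_lit 2780235564) (nat_lit 76) (nat_lit 9937481285) (nat_lit 25) (nat_lit 5) (nat_lit 28) (nat_lit 5) (nat_lit 26) (nat_lit 4) (nat_lit 328) (nat_lit 289) (nat_lit 283)))) (XT.nd (nat_lit 78) (nat_lit 304) (nat_lit 0) (XT.lf (nat_lit 0) (nat_lit 7838520913) (nat_lit 152) (nat_lit 4011299016) (nat_lit 0) (nat_lit 2601714968) (nat_lit 24) (nat_lit 5) (nat_lit 26) (nat_lit 4) (nat_lit 24) (nat_lit 4) (nat_lit 329) (nat_lit 289) (nat_lit 282)) (XT.nd (nat_lit 78) (nat_lit 152) (nat_lit 0) (XT.lf (nat_lit 0) (nat_lit 9271952157) (nat_lit 152) (nat_lit 5864031386) (nat_lit 152) (nat_lit 83798201) (nat_lit 22) (nat_lit 4)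 (nat_lit 24) (nat_lit 5) (nat_lit 24) (nat_lit 4) (nat_lit 330) (nat_lit 289) (nat_lit 281)) (XT.lf (nat_lit 0) (nat_lit 6631263304) (nat_lit 152) (nat_lit 8771544861) (nat_lit 0) (nat_lit 647066586) (nat_lit 20) (nat_lit 5) (nat_lit 22) (nat_lit 4) (nat_lit 20) (nat_lit 4) (nat_lit 331) (nat_lit 289) (nat_lit 280)))))) (XT.nd (nat_lit 468) (nat_lit 304) (nat_lit 0) (XT.nd (nat_lit 234) (nat_lit 228) (nat_lit 0) (XT.nd (nat_lit 78) (nat_lit 152) (nat_lit 0) (XT.lf (nat_lit 0) (nat_lit 4333945726) (nat_lit 76) (nat_lit 9520851653) (nat_lit 76) (nat_lit 3092939442) (nat_lit 19) (nat_lit 4) (nat_lit 20) (nat_lit 5) (nat_lit 20) (nat_lit 4) (nat_lit 332) (nat_lit 289) (nat_lit 279)) (XT.nd (nat_lit 78) (nat_lit 0) (nat_lit 0) (XT.lf (nat_lit 0) (nat_lit 317704819) (nat_lit 76) (nat_lit 3173253575) (nat_lit 152) (nat_lit 14430082875) (nat_lit 17) (nat_lit 5) (nat_lit 18) (nat_lit 5) (nat_lit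 19) (nat_lit 4) (nat_lit 333) (nat_lit 289) (nat_lit 278)) (XT.lf (nat_lit 0) (nat_lit 10497084684) (nat_lit 152) (nat_lit 4850830509) (nat_lit 0) (nat_lit 3621680486) (nat_lit 17) (nat_lit 5) (nat_lit 19) (nat_lit 4) (nat_lit 17) (nat_lit 4) (nat_lit 334) (nat_lit 289) (nat_lit 277)))) (XT.nd (nat_lit 78) (nat_lit 152) (nat_lit 0) (XT.lf (nat_lit 0) (nat_lit 8673265783) (nat_lit 76) (nat_lit 9321591889) (nat_lit 76) (nat_lit 2110725153) (nat_lit 16) (nat_lit 4) (nat_lit 17) (nat_lit 5) (nat_lit 17) (nat_lit 4) (nat_lit 335) (nat_lit 289) (nat_lit 276)) (XT.nd (nat_lit 78) (nat_lit 0) (nat_lit 0) (XT.lf (nat_lit 0) (nat_lit 1640580095) (nat_lit 76) (nat_lit 2828717607) (nat_lit 152) (nat_lit 16866446854) (nat_lit 14) (nat_lit 5) (nat_lit 15) (nat_lit 5) (nat_lit 16) (nat_lit 4) (nat_lit 336) (nat_lit 289) (nat_lit 275)) (XT.lf (nat_lit 0) (nat_lit 11529105734) (nat_lit 152) (nat_lit 7040321786)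 (nat_lit 0) (nat_lit 4091881684) (nat_lit 14) (nat_lit 5) (nat_lit 16) (nat_lit 4) (nat_lit 14) (nat_lit 4) (nat_lit 337) (nat_lit 289) (nat_lit 274))))) (XT.nd (nat_lit 234) (nat_lit 76) (nat_lit 0) (XT.nd (nat_lit 78) (nat_lit 152) (nat_lit 0) (XT.lf (nat_lit 0) (nat_lit 6366936908) (nat_lit 76) (nat_lit 12710363181) (nat_lit 76) (nat_lit 5019519152) (nat_lit 13) (nat_lit 4) (nat_lit 14) (nat_lit 5) (nat_lit 14) (nat_lit 4) (nat_lit 338) (nat_lit 289) (nat_lit 273)) (XT.nd (nat_lit 78) (nat_lit 76) (nat_lit 0) (XT.lf (nat_lit 0) (nat_lit 1439462975) (nat_lit 152) (nat_lit 4974778242) (nat_lit 76) (nat_lit 19236368426) (nat_lit 12) (nat_lit 5) (nat_lit 14) (nat_lit 5) (nat_lit 13) (nat_lit 4) (nat_lit 339) (nat_lit 289) (nat_lit 272)) (XT.lf (nat_lit 0) (nat_lit 8182401982) (nat_lit 152) (nat_lit 18718043817) (nat_lit 0) (nat_lit 427053795) (nat_lit 11) (nat_lit 5) (nat_lit 13) (nat_lit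 4) (nat_lit 11) (nat_lit 4) (nat_lit 340) (nat_lit 289) (nat_lit 271)))) (XT.nd (nat_lit 78) (nat_lit 76) (nat_lit 0) (XT.lf (nat_lit 0) (nat_lit 15466984585) (nat_lit 152) (nat_lit 6151614536) (nat_lit 0) (nat_lit 7519891906) (nat_lit 11) (nat_lit 5) (nat_lit 13) (nat_lit 4) (nat_lit 11) (nat_lit 4) (nat_lit 341) (nat_lit 289) (nat_lit 270)) (XT.nd (nat_lit 78) (nat_lit 0) (nat_lit 0) (XT.lf (nat_lit 0) (nat_lit 7315467438) (nat_lit 76) (nat_lit 15953428167) (nat_lit 76) (nat_lit 7828794292) (nat_lit 10) (nat_lit 4) (nat_lit 11) (nat_lit 5) (nat_lit 11) (nat_lit 4) (nat_lit 342) (nat_lit 289) (nat_lit 269)) (XT.lf (nat_lit 0) (nat_lit 21755509784) (nat_lit 76) (nat_lit 9875201608) (nat_lit 76) (nat_lit 1586177737) (nat_lit 10) (nat_lit 4) (nat_lit 11) (nat_lit 5) (nat_lit 11) (nat_lit 4) (nat_lit 343) (nat_lit 289) (nat_lit 268))))))))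
noncomputable def xc28 : XT := (XT.nd (nat_lit 1716) (nat_lit 0) (nat_lit 0) (XT.nd (nat_lit 858) (nat_lit 228) (nat_lit 0) (XT.nd (nat_lit 390) (nat_lit 152) (nat_lit 0) (XT.nd (nat_lit 156) (nat_lit 76) (nat_lit 0) (XT.nd (nat_lit 78) (nat_lit 0) (nat_lit 0) (XT.lf (nat_lit 0) (nat_lit 1507427425) (nat_lit 76) (nat_lit 3345579528) (nat_lit 152) (nat_lit 30655529478) (nat_lit 8) (nat_lit 5) (nat_lit 9) (nat_lit 5) (nat_lit 10) (nat_lit 4) (nat_lit 344) (nat_lit 289) (nat_lit 267)) (XT.lf (nat_lit 0) (nat_lit 11857163423) (nat_lit 152) (nat_lit 22436160343) (nat_lit 0) (nat_lit 3683663655) (nat_lit 8) (nat_lit 5) (nat_lit 10) (nat_lit 4) (nat_lit 8) (nat_lit 4) (nat_lit 345) (nat_lit 289) (nat_lit 266))) (XT.nd (nat_lit 78) (nat_lit 76) (nat_lit 0) (XT.lf (nat_lit 0) (nat_lit 19333505490) (nat_lit 152) (nat_lit 10278133861) (nat_lit 0) (nat_lit 11035721837) (nat_lit 8) (nat_lit 5) (nat_lit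 10) (nat_lit 4) (nat_lit 8) (nat_lit 4) (nat_lit 346) (nat_lit 289) (nat_lit 265)) (XT.nd (nat_lit 78) (nat_lit 0) (nat_lit 0) (XT.lf (nat_lit 0) (nat_lit 2683128754) (nat_lit 76) (nat_lit 24632865936) (nat_lit 76) (nat_lit 16220004612) (nat_lit 7) (nat_lit 4) (nat_lit 8) (nat_lit 5) (nat_lit 8) (nat_lit 4) (nat_lit 347) (nat_lit 289) (nat_lit 264)) (XT.lf (nat_lit 0) (nat_lit 16804132643) (nat_lit 76) (nat_lit 19184239904) (nat_lit 76) (nat_lit 10664825181) (nat_lit 7) (nat_lit 4) (nat_lit 8) (nat_lit 5) (nat_lit 8) (nat_lit 4) (nat_lit 348) (nat_lit 289) (nat_lit 263))))) (XT.nd (nat_lit 234) (nat_lit 0) (nat_lit 0) (XT.nd (nat_lit 78) (nat_lit 152) (nat_lit 0) (XT.lf (nat_lit 0) (nat_lit 31828716306) (nat_lit 76) (nat_lit 13407538269) (nat_lit 76) (nat_lit 4789462991) (nat_lit 7) (nat_lit 4) (nat_lit 8) (nat_lit 5) (nat_lit 8) (nat_lit 4) (nat_lit 349) (nat_lit 289) (nat_lit 262)) (XT.nd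 (nat_lit 78) (nat_lit 76) (nat_lit 0) (XT.lf (nat_lit 0) (nat_lit 1394781152) (nat_lit 152) (nat_lit 5850126281) (nat_lit 76) (nat_lit 46427511867) (nat_lit 6) (nat_lit 5) (nat_lit 8) (nat_lit 5) (nat_lit 7) (nat_lit 4) (nat_lit 350) (nat_lit 289) (nat_lit 261)) (XT.lf (nat_lit 0) (nat_lit 7444738514) (nat_lit 76) (nat_lit 476603769) (nat_lit 152) (nat_lit 49684845759) (nat_lit 5) (nat_lit 5) (nat_lit 6) (nat_lit 5) (nat_lit 7) (nat_lit 4) (nat_lit 351) (nat_lit 289) (nat_lit 260)))) (XT.nd (nat_lit 78) (nat_lit 0) (nat_lit 0) (XT.lf (nat_lit 0) (nat_lit 15080470521) (nat_lit 152) (nat_lit 40138059792) (nat_lit 0) (nat_lit 6630629477) (nat_lit 5) (nat_lit 5) (nat_lit 7) (nat_lit 4) (nat_lit 5) (nat_lit 4) (nat_lit 352) (nat_lit 289) (nat_lit 259)) (XT.nd (nat_lit 78) (nat_lit 0) (nat_lit 0) (XT.lf (nat_lit 0) (nat_lit 22727940768) (nat_lit 152) (nat_lit 29498835260) (nat_lit 0) (nat_lit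 14209034530) (nat_lit 5) (nat_lit 5) (nat_lit 7) (nat_lit 4) (nat_lit 5) (nat_lit 4) (nat_lit 353) (nat_lit 289) (nat_lit 258)) (XT.lf (nat_lit 0) (nat_lit 30901630245) (nat_lit 152) (nat_lit 18173287556) (nat_lit 0) (nat_lit 22318774753) (nat_lit 5) (nat_lit 5) (nat_lit 7) (nat_lit 4) (nat_lit 5) (nat_lit 4) (nat_lit 354) (nat_lit 289) (nat_lit 257)))))) (XT.nd (nat_lit 390) (nat_lit 152) (nat_lit 0) (XT.nd (nat_lit 156) (nat_lit 0) (nat_lit 0) (XT.nd (nat_lit 78) (nat_lit 76) (nat_lit 0) (XT.lf (nat_lit 0) (nat_lit 39649975630) (nat_lit 152) (nat_lit 6094302322) (nat_lit 0) (nat_lit 31007907867) (nat_lit 5) (nat_lit 5) (nat_lit 7) (nat_lit 4) (nat_lit 5) (nat_lit 4) (nat_lit 355) (nat_lit 289) (nat_lit 256)) (XT.lf (nat_lit 0) (nat_lit 7034859035) (nat_lit 76) (nat_lit 42099793800) (nat_lit 76) (nat_lit 33402899860) (nat_lit 4) (nat_lit 4) (nat_lit 5) (nat_lit 5) (nat_lit 5) (nat_lit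 4) (nat_lit 356) (nat_lit 289) (nat_lit 255))) (XT.nd (nat_lit 78) (nat_lit 0) (nat_lit 0) (XT.lf (nat_lit 0) (nat_lit 21296817571) (nat_lit 76) (nat_lit 38117400329) (nat_lit 76) (nat_lit 29369741410) (nat_lit 4) (nat_lit 4) (nat_lit 5) (nat_lit 5) (nat_lit 5) (nat_lit 4) (nat_lit 357) (nat_lit 289) (nat_lit 254)) (XT.nd (nat_lit 78) (nat_lit 0) (nat_lit 0) (XT.lf (nat_lit 0) (nat_lit 36574583439) (nat_lit 76) (nat_lit 33876708129) (nat_lit 76) (nat_lit 25082044600) (nat_lit 4) (nat_lit 4) (nat_lit 5) (nat_lit 5) (nat_lit 5) (nat_lit 4) (nat_lit 358) (nat_lit 289) (nat_lit 253)) (XT.lf (nat_lit 0) (nat_lit 52958691546) (nat_lit 76) (nat_lit 29352587172) (nat_lit 76) (nat_lit 20514400856) (nat_lit 4) (nat_lit 4) (nat_lit 5) (nat_lit 5) (nat_lit 5) (nat_lit 4) (nat_lit 359) (nat_lit 289) (nat_lit 252))))) (XT.nd (nat_lit 234) (nat_lit 152) (nat_lit 0) (XT.nd (nat_lit 78) (nat_lit 0) (nat_lit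 0) (XT.lf (nat_lit 0) (nat_lit 70546232905) (nat_lit 76) (nat_lit 24518227853) (nat_lit 76) (nat_lit 15639742659) (nat_lit 4) (nat_lit 4) (nat_lit 5) (nat_lit 5) (nat_lit 5) (nat_lit 4) (nat_lit 360) (nat_lit 289) (nat_lit 251)) (XT.nd (nat_lit 78) (nat_lit 0) (nat_lit 0) (XT.lf (nat_lit 0) (nat_lit 89441429982) (nat_lit 76) (nat_lit 19344982115) (nat_lit 76) (nat_lit 10429183146) (nat_lit 4) (nat_lit 4) (nat_lit 5) (nat_lit 5) (nat_lit 5) (nat_lit 4) (nat_lit 361) (nat_lit 289) (nat_lit 250)) (XT.lf (nat_lit 0) (nat_lit 109756254316) (nat_lit 76) (nat_lit 13802193689) (nat_lit 76) (nat_lit 4851844928) (nat_lit 4) (nat_lit 4) (nat_lit 5) (nat_lit 5) (nat_lit 5) (nat_lit 4) (nat_lit 362) (nat_lit 289) (nat_lit 249)))) (XT.nd (nat_lit 78) (nat_lit 76) (nat_lit 0) (XT.lf (nat_lit 0) (nat_lit 1089305527) (nat_lit 152) (nat_lit 6749262976) (nat_lit 76) (nat_lit 130503336606) (nat_lit 3) (nat_lit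 5) (nat_lit 5) (nat_lit 5) (nat_lit 4) (nat_lit 4) (nat_lit 363) (nat_lit 289) (nat_lit 248)) (XT.nd (nat_lit 78) (nat_lit 0) (nat_lit 0) (XT.lf (nat_lit 0) (nat_lit 6142431853) (nat_lit 76) (nat_lit 1249954507) (nat_lit 152) (nat_lit 141668860743) (nat_lit 2) (nat_lit 5) (nat_lit 3) (nat_lit 5) (nat_lit 4) (nat_lit 4) (nat_lit 364) (nat_lit 289) (nat_lit 247)) (XT.lf (nat_lit 0) (nat_lit 14370540061) (nat_lit 152) (nat_lit 140497463210) (nat_lit 0) (nat_lit 5761600133) (nat_lit 2) (nat_lit 5) (nat_lit 4) (nat_lit 4) (nat_lit 2) (nat_lit 4) (nat_lit 365) (nat_lit 289) (nat_lit 246))))))) (XT.nd (nat_lit 858) (nat_lit 0) (nat_lit 0) (XT.nd (nat_lit 390) (nat_lit 0) (nat_lit 0) (XT.nd (nat_lit 156) (nat_lit 0) (nat_lit 0) (XT.nd (nat_lit 78) (nat_lit 0) (nat_lit 0) (XT.lf (nat_lit 0) (nat_lit 21890754501) (nat_lit 152) (nat_lit 137975862210) (nat_lit 0) (nat_lit 13257628736) (nat_lit 2) (nat_lit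 5) (nat_lit 4) (nat_lit 4) (nat_lit 2) (nat_lit 4) (nat_lit 366) (nat_lit 289) (nat_lit 245)) (XT.lf (nat_lit 0) (nat_lit 29978078619) (nat_lit 152) (nat_lit 135319554137) (nat_lit 0) (nat_lit 21322558561) (nat_lit 2) (nat_lit 5) (nat_lit 4) (nat_lit 4) (nat_lit 2) (nat_lit 4) (nat_lit 367) (nat_lit 289) (nat_lit 244))) (XT.nd (nat_lit 78) (nat_lit 0) (nat_lit 0) (XT.lf (nat_lit 0) (nat_lit 38680437299) (nat_lit 152) (nat_lit 132512797905) (nat_lit 0) (nat_lit 30004181785) (nat_lit 2) (nat_lit 5) (nat_lit 4) (nat_lit 4) (nat_lit 2) (nat_lit 4) (nat_lit 368) (nat_lit 289) (nat_lit 243)) (XT.nd (nat_lit 78) (nat_lit 0) (nat_lit 0) (XT.lf (nat_lit 0) (nat_lit 48049400075) (nat_lit 152) (nat_lit 129538960886) (nat_lit 0) (nat_lit 39353945064) (nat_lit 2) (nat_lit 5) (nat_lit 4) (nat_lit 4) (nat_lit 2) (nat_lit 4) (nat_lit 369) (nat_lit 289) (nat_lit 242)) (XT.lf (nat_lit 0) (nat_lit 58140486726)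 (nat_lit 152) (nat_lit 126380420341) (nat_lit 0) (nat_lit 49427254403) (nat_lit 2) (nat_lit 5) (nat_lit 4) (nat_lit 4) (nat_lit 2) (nat_lit 4) (nat_lit 370) (nat_lit 289) (nat_lit 241))))) (XT.nd (nat_lit 234) (nat_lit 0) (nat_lit 0) (XT.nd (nat_lit 78) (nat_lit 0) (nat_lit 0) (XT.lf (nat_lit 0) (nat_lit 69013496284) (nat_lit 152) (nat_lit 123018458993) (nat_lit 0) (nat_lit 60283803487) (nat_lit 2) (nat_lit 5) (nat_lit 4) (nat_lit 4) (nat_lit 2) (nat_lit 4) (nat_lit 371) (nat_lit 289) (nat_lit 240)) (XT.nd (nat_lit 78) (nat_lit 0) (nat_lit 0) (XT.lf (nat_lit 0) (nat_lit 80732861398) (nat_lit 152) (nat_lit 119433154108) (nat_lit 0) (nat_lit 71987927421) (nat_lit 2) (nat_lit 5) (nat_lit 4) (nat_lit 4) (nat_lit 2) (nat_lit 4) (nat_lit 372) (nat_lit 289) (nat_lit 239)) (XT.lf (nat_lit 0) (nat_lit 93368030157) (nat_lit 152) (nat_lit 115603259434) (nat_lit 0) (nat_lit 84608983977) (nat_lit 2)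 (nat_lit 5) (nat_lit 4) (nat_lit 4) (nat_lit 2) (nat_lit 4) (nat_lit 373) (nat_lit 289) (nat_lit 238)))) (XT.nd (nat_lit 78) (nat_lit 0) (nat_lit 0) (XT.lf (nat_lit 0) (nat_lit 106993877636) (nat_lit 152) (nat_lit 111506079301) (nat_lit 0) (nat_lit 98221764601) (nat_lit 2) (nat_lit 5) (nat_lit 4) (nat_lit 4) (nat_lit 2) (nat_lit 4) (nat_lit 374) (nat_lit 289) (nat_lit 237)) (XT.nd (nat_lit 78) (nat_lit 0) (nat_lit 0) (XT.lf (nat_lit 0) (nat_lit 121691149597) (nat_lit 152) (nat_lit 107117334121) (nat_lit 0) (nat_lit 112906937623) (nat_lit 2) (nat_lit 5) (nat_lit 4) (nat_lit 4) (nat_lit 2) (nat_lit 4) (nat_lit 375) (nat_lit 289) (nat_lit 236)) (XT.lf (nat_lit 0) (nat_lit 137546940986) (nat_lit 152) (nat_lit 102411016517) (nat_lit 0) (nat_lit 128751526290) (nat_lit 2) (nat_lit 5) (nat_lit 4) (nat_lit 4) (nat_lit 2) (nat_lit 4) (nat_lit 376) (nat_lit 289) (nat_lit 235)))))) (XT.nd (nat_lit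 468) (nat_lit 0) (nat_lit 0) (XT.nd (nat_lit 234) (nat_lit 0) (nat_lit 0) (XT.nd (nat_lit 78) (nat_lit 0) (nat_lit 0) (XT.lf (nat_lit 0) (nat_lit 154655212048) (nat_lit 152) (nat_lit 97359237197) (nat_lit 0) (nat_lit 145849424461) (nat_lit 2) (nat_lit 5) (nat_lit 4) (nat_lit 4) (nat_lit 2) (nat_lit 4) (nat_lit 377) (nat_lit 289) (nat_lit 234)) (XT.nd (nat_lit 78) (nat_lit 0) (nat_lit 0) (XT.lf (nat_lit 0) (nat_lit 173117345130) (nat_lit 152) (nat_lit 91932059693) (nat_lit 0) (nat_lit 164301953015) (nat_lit 2) (nat_lit 5) (nat_lit 4) (nat_lit 4) (nat_lit 2) (nat_lit 4) (nat_lit 378) (nat_lit 289) (nat_lit 233)) (XT.lf (nat_lit 0) (nat_lit 193042745465) (nat_lit 152) (nat_lit 86097322953) (nat_lit 0) (nat_lit 184218460268) (nat_lit 2) (nat_lit 5) (nat_lit 4) (nat_lit 4) (nat_lit 2) (nat_lit 4) (nat_lit 379) (nat_lit 289) (nat_lit 232)))) (XT.nd (nat_lit 78) (nat_lit 0) (nat_lit 0) (XT.lf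 (nat_lit 0) (nat_lit 214549489499) (nat_lit 152) (nat_lit 79820450758) (nat_lit 0) (nat_lit 205716969966) (nat_lit 2) (nat_lit 5) (nat_lit 4) (nat_lit 4) (nat_lit 2) (nat_lit 4) (nat_lit 380) (nat_lit 289) (nat_lit 231)) (XT.nd (nat_lit 78) (nat_lit 0) (nat_lit 0) (XT.lf (nat_lit 0) (nat_lit 237765024604) (nat_lit 152) (nat_lit 73064246829) (nat_lit 0) (nat_lit 228924880687) (nat_lit 2) (nat_lit 5) (nat_lit 4) (nat_lit 4) (nat_lit 2) (nat_lit 4) (nat_lit 381) (nat_lit 289) (nat_lit 230)) (XT.lf (nat_lit 0) (nat_lit 262826924322) (nat_lit 152) (nat_lit 65788674403) (nat_lit 0) (nat_lit 253979720790) (nat_lit 2) (nat_lit 5) (nat_lit 4) (nat_lit 4) (nat_lit 2) (nat_lit 4) (nat_lit 382) (nat_lit 289) (nat_lit 229))))) (XT.nd (nat_lit 234) (nat_lit 0) (nat_lit 0) (XT.nd (nat_lit 78) (nat_lit 0) (nat_lit 0) (XT.lf (nat_lit 0) (nat_lit 289883703614) (nat_lit 152) (nat_lit 57950618975) (nat_lit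 0) (nat_lit 281029963402) (nat_lit 2) (nat_lit 5) (nat_lit 4) (nat_lit 4) (nat_lit 2) (nat_lit 4) (nat_lit 383) (nat_lit 289) (nat_lit 228)) (XT.nd (nat_lit 78) (nat_lit 0) (nat_lit 0) (XT.lf (nat_lit 0) (nat_lit 319095698950) (nat_lit 152) (nat_lit 49503632810) (nat_lit 0) (nat_lit 310235906256) (nat_lit 2) (nat_lit 5) (nat_lit 4) (nat_lit 4) (nat_lit 2) (nat_lit 4) (nat_lit 384) (nat_lit 289) (nat_lit 227)) (XT.lf (nat_lit 0) (nat_lit 350636018451) (nat_lit 152) (nat_lit 40397659694) (nat_lit 0) (nat_lit 341770621606) (nat_lit 2) (nat_lit 5) (nat_lit 4) (nat_lit 4) (nat_lit 2) (nat_lit 4) (nat_lit 385) (nat_lit 289) (nat_lit 226)))) (XT.nd (nat_lit 78) (nat_lit 0) (nat_lit 0) (XT.lf (nat_lit 0) (nat_lit 384691567713) (nat_lit 152) (nat_lit 30578738304) (nat_lit 0) (nat_lit 375820981841) (nat_lit 2) (nat_lit 5) (nat_lit 4) (nat_lit 4) (nat_lit 2) (nat_lit 4) (nat_lit 386) (nat_lit 289)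 (nat_lit 225)) (XT.nd (nat_lit 78) (nat_lit 0) (nat_lit 0) (XT.lf (nat_lit 0) (nat_lit 421464157399) (nat_lit 152) (nat_lit 19988682440) (nat_lit 0) (nat_lit 412588766871) (nat_lit 2) (nat_lit 5) (nat_lit 4) (nat_lit 4) (nat_lit 2) (nat_lit 4) (nat_lit 387) (nat_lit 289) (nat_lit 224)) (XT.lf (nat_lit 0) (nat_lit 461171699151) (nat_lit 152) (nat_lit 8564736215) (nat_lit 0) (nat_lit 452291859868) (nat_lit 2) (nat_lit 5) (nat_lit 4) (nat_lit 4) (nat_lit 2) (nat_lit 4) (nat_lit 388) (nat_lit 289) (nat_lit 223))))))))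
noncomputable def xc29 : XT := (XT.nd (nat_lit 42978) (nat_lit 0) (nat_lit 228) (XT.nd (nat_lit 42042) (nat_lit 0) (nat_lit 988) (XT.nd (nat_lit 41574) (nat_lit 0) (nat_lit 2128) (XT.nd (nat_lit 156) (nat_lit 0) (nat_lit 0) (XT.nd (nat_lit 78) (nat_lit 0) (nat_lit 0) (XT.lf (nat_lit 0) (nat_lit 3885146789) (nat_lit 76) (nat_lit 500225008160) (nat_lit 76) (nat_lit 491341049660) (nat_lit 1) (nat_lit 4) (nat_lit 2) (nat_lit 5) (nat_lit 2) (nat_lit 4) (nat_lit 389) (nat_lit 289) (nat_lit 222)) (XT.lf (nat_lit 0) (nat_lit 17625072279) (nat_lit 76) (nat_lit 533001745854) (nat_lit 76) (nat_lit 524113973263) (nat_lit 1) (nat_lit 4) (nat_lit 2) (nat_lit 5) (nat_lit 2) (nat_lit 4) (nat_lit 390) (nat_lit 289) (nat_lit 221))) (XT.nd (nat_lit 78) (nat_lit 0) (nat_lit 0) (XT.lf (nat_lit 0) (nat_lit 32453273176) (nat_lit 76) (nat_lit 568405928919) (nat_lit 76) (nat_lit 559514624763) (nat_lit 1) (nat_lit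 4) (nat_lit 2) (nat_lit 5) (nat_lit 2) (nat_lit 4) (nat_lit 391) (nat_lit 289) (nat_lit 220)) (XT.nd (nat_lit 41262) (nat_lit 0) (nat_lit 3344) (XT.lf (nat_lit 0) (nat_lit 48457620299) (nat_lit 76) (nat_lit 606647359922) (nat_lit 76) (nat_lit 597752785798) (nat_lit 1) (nat_lit 4) (nat_lit 2) (nat_lit 5) (nat_lit 2) (nat_lit 4) (nat_lit 392) (nat_lit 289) (nat_lit 219)) (XT.lf (nat_lit 0) (nat_lit 490035060) (nat_lit 228) (nat_lit 2184093286) (nat_lit 228) (nat_lit 2184093286) (nat_lit 45) (nat_lit 4) (nat_lit 48) (nat_lit 5) (nat_lit 48) (nat_lit 4) (nat_lit 320) (nat_lit 290) (nat_lit 290))))) (XT.nd (nat_lit 234) (nat_lit 608) (nat_lit 0) (XT.nd (nat_lit 78) (nat_lit 380) (nat_lit 0) (XT.lf (nat_lit 0) (nat_lit 2008373792) (nat_lit 228) (nat_lit 7301182603) (nat_lit 0) (nat_lit 785761821) (nat_lit 42) (nat_lit 5) (nat_lit 45) (nat_lit 4) (nat_lit 42) (nat_lit 4) (nat_lit 321) (nat_lit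 290) (nat_lit 289)) (XT.nd (nat_lit 78) (nat_lit 228) (nat_lit 0) (XT.lf (nat_lit 0) (nat_lit 4430168936) (nat_lit 152) (nat_lit 4215299886) (nat_lit 152) (nat_lit 1860639795) (nat_lit 40) (nat_lit 4) (nat_lit 42) (nat_lit 5) (nat_lit 42) (nat_lit 4) (nat_lit 322) (nat_lit 290) (nat_lit 288)) (XT.lf (nat_lit 0) (nat_lit 4568632137) (nat_lit 228) (nat_lit 5056802683) (nat_lit 0) (nat_lit 1327819951) (nat_lit 37) (nat_lit 5) (nat_lit 40) (nat_lit 4) (nat_lit 37) (nat_lit 4) (nat_lit 323) (nat_lit 290) (nat_lit 287)))) (XT.nd (nat_lit 78) (nat_lit 456) (nat_lit 0) (XT.lf (nat_lit 0) (nat_lit 7138667934) (nat_lit 152) (nat_lit 4232602982) (nat_lit 152) (nat_lit 67458605) (nat_lit 35) (nat_lit 4) (nat_lit 37) (nat_lit 5) (nat_lit 37) (nat_lit 4) (nat_lit 324) (nat_lit 290) (nat_lit 286)) (XT.nd (nat_lit 78) (nat_lit 228) (nat_lit 0) (XT.lf (nat_lit 0) (nat_lit 6426886194) (nat_lit 228) (nat_lit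 3891765958) (nat_lit 0) (nat_lit 1644974274) (nat_lit 32) (nat_lit 5) (nat_lit 35) (nat_lit 4) (nat_lit 32) (nat_lit 4) (nat_lit 325) (nat_lit 290) (nat_lit 285)) (XT.lf (nat_lit 0) (nat_lit 820528485) (nat_lit 228) (nat_lit 3854557925) (nat_lit 76) (nat_lit 7857810506) (nat_lit 29) (nat_lit 5) (nat_lit 32) (nat_lit 5) (nat_lit 30) (nat_lit 4) (nat_lit 326) (nat_lit 290) (nat_lit 284)))))) (XT.nd (nat_lit 468) (nat_lit 380) (nat_lit 0) (XT.nd (nat_lit 234) (nat_lit 380) (nat_lit 0) (XT.nd (nat_lit 78) (nat_lit 304) (nat_lit 0) (XT.lf (nat_lit 0) (nat_lit 7396755279) (nat_lit 152) (nat_lit 4293190990) (nat_lit 0) (nat_lit 1458217337) (nat_lit 28) (nat_lit 5) (nat_lit 30) (nat_lit 4) (nat_lit 28) (nat_lit 4) (nat_lit 327) (nat_lit 290) (nat_lit 283)) (XT.nd (nat_lit 78) (nat_lit 76) (nat_lit 0) (XT.lf (nat_lit 0) (nat_lit 627644917) (nat_lit 228) (nat_lit 5268112351) (nat_lit 76) (nat_lit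 7918385019) (nat_lit 25) (nat_lit 5) (nat_lit 28) (nat_lit 5) (nat_lit 26) (nat_lit 4) (nat_lit 328) (nat_lit 290) (nat_lit 282)) (XT.lf (nat_lit 0) (nat_lit 7214027080) (nat_lit 152) (nat_lit 6891956668) (nat_lit 0) (nat_lit 427948002) (nat_lit 24) (nat_lit 5) (nat_lit 26) (nat_lit 4) (nat_lit 24) (nat_lit 4) (nat_lit 329) (nat_lit 290) (nat_lit 281)))) (XT.nd (nat_lit 78) (nat_lit 228) (nat_lit 0) (XT.lf (nat_lit 0) (nat_lit 6036992310) (nat_lit 152) (nat_lit 8282068389) (nat_lit 152) (nat_lit 992815942) (nat_lit 22) (nat_lit 4) (nat_lit 24) (nat_lit 5) (nat_lit 24) (nat_lit 4) (nat_lit 330) (nat_lit 290) (nat_lit 280)) (XT.nd (nat_lit 78) (nat_lit 76) (nat_lit 0) (XT.lf (nat_lit 0) (nat_lit 3614326832) (nat_lit 76) (nat_lit 1931761239) (nat_lit 152) (nat_lit 10606921320) (nat_lit 20) (nat_lit 5) (nat_lit 21) (nat_lit 5) (nat_lit 22) (nat_lit 4) (nat_lit 331) (nat_lit 290) (nat_lit 279))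 (XT.lf (nat_lit 0) (nat_lit 226655934) (nat_lit 76) (nat_lit 12316163287) (nat_lit 76) (nat_lit 4519454926) (nat_lit 19) (nat_lit 4) (nat_lit 20) (nat_lit 5) (nat_lit 20) (nat_lit 4) (nat_lit 332) (nat_lit 290) (nat_lit 278))))) (XT.nd (nat_lit 234) (nat_lit 152) (nat_lit 0) (XT.nd (nat_lit 78) (nat_lit 152) (nat_lit 0) (XT.lf (nat_lit 0) (nat_lit 1976746550) (nat_lit 152) (nat_lit 4124792450) (nat_lit 76) (nat_lit 11941876029) (nat_lit 18) (nat_lit 5) (nat_lit 20) (nat_lit 5) (nat_lit 19) (nat_lit 4) (nat_lit 333) (nat_lit 290) (nat_lit 277)) (XT.nd (nat_lit 78) (nat_lit 76) (nat_lit 0) (XT.lf (nat_lit 0) (nat_lit 8745609433) (nat_lit 152) (nat_lit 9735863419) (nat_lit 0) (nat_lit 622410821) (nat_lit 17) (nat_lit 5) (nat_lit 19) (nat_lit 4) (nat_lit 17) (nat_lit 4) (nat_lit 334) (nat_lit 290) (nat_lit 276)) (XT.lf (nat_lit 0) (nat_lit 3409327541) (nat_lit 76) (nat_lit 12637124574) (nat_lit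 76) (nat_lit 4203312501) (nat_lit 16) (nat_lit 4) (nat_lit 17) (nat_lit 5) (nat_lit 17) (nat_lit 4) (nat_lit 335) (nat_lit 290) (nat_lit 275)))) (XT.nd (nat_lit 78) (nat_lit 76) (nat_lit 0) (XT.lf (nat_lit 0) (nat_lit 2306848153) (nat_lit 152) (nat_lit 3992378413) (nat_lit 76) (nat_lit 15189216936) (nat_lit 15) (nat_lit 5) (nat_lit 17) (nat_lit 5) (nat_lit 16) (nat_lit 4) (nat_lit 336) (nat_lit 290) (nat_lit 274)) (XT.nd (nat_lit 78) (nat_lit 0) (nat_lit 0) (XT.lf (nat_lit 0) (nat_lit 9139570394) (nat_lit 152) (nat_lit 13105991788) (nat_lit 0) (nat_lit 579838864) (nat_lit 14) (nat_lit 5) (nat_lit 16) (nat_lit 4) (nat_lit 14) (nat_lit 4) (nat_lit 337) (nat_lit 290) (nat_lit 273)) (XT.lf (nat_lit 0) (nat_lit 16488865879) (nat_lit 152) (nat_lit 87724858) (nat_lit 0) (nat_lit 7694301035) (nat_lit 14) (nat_lit 5) (nat_lit 16) (nat_lit 4) (nat_lit 14) (nat_lit 4) (nat_lit 338) (nat_lit 290) (nat_lit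 272))))))) (XT.nd (nat_lit 858) (nat_lit 228) (nat_lit 0) (XT.nd (nat_lit 390) (nat_lit 228) (nat_lit 0) (XT.nd (nat_lit 156) (nat_lit 76) (nat_lit 0) (XT.nd (nat_lit 78) (nat_lit 152) (nat_lit 0) (XT.lf (nat_lit 0) (nat_lit 14065486037) (nat_lit 76) (nat_lit 10388604200) (nat_lit 76) (nat_lit 1376601102) (nat_lit 13) (nat_lit 4) (nat_lit 14) (nat_lit 5) (nat_lit 14) (nat_lit 4) (nat_lit 339) (nat_lit 290) (nat_lit 271)) (XT.lf (nat_lit 0) (nat_lit 1451398840) (nat_lit 76) (nat_lit 3750910259) (nat_lit 152) (nat_lit 22316780440) (nat_lit 11) (nat_lit 5) (nat_lit 12) (nat_lit 5) (nat_lit 13) (nat_lit 4) (nat_lit 340) (nat_lit 290) (nat_lit 270))) (XT.nd (nat_lit 78) (nat_lit 76) (nat_lit 0) (XT.lf (nat_lit 0) (nat_lit 12341957779) (nat_lit 152) (nat_lit 13605584915) (nat_lit 0) (nat_lit 3389811999) (nat_lit 11) (nat_lit 5) (nat_lit 13) (nat_lit 4) (nat_lit 11) (nat_lit 4) (nat_lit 341) (nat_lit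 290) (nat_lit 269)) (XT.nd (nat_lit 78) (nat_lit 76) (nat_lit 0) (XT.lf (nat_lit 0) (nat_lit 19949680054) (nat_lit 152) (nat_lit 523463693) (nat_lit 0) (nat_lit 10833144277) (nat_lit 11) (nat_lit 5) (nat_lit 13) (nat_lit 4) (nat_lit 11) (nat_lit 4) (nat_lit 342) (nat_lit 290) (nat_lit 268)) (XT.lf (nat_lit 0) (nat_lit 13755004929) (nat_lit 76) (nat_lit 14471745747) (nat_lit 76) (nat_lit 5202997010) (nat_lit 10) (nat_lit 4) (nat_lit 11) (nat_lit 5) (nat_lit 11) (nat_lit 4) (nat_lit 343) (nat_lit 290) (nat_lit 267))))) (XT.nd (nat_lit 234) (nat_lit 76) (nat_lit 0) (XT.nd (nat_lit 78) (nat_lit 76) (nat_lit 0) (XT.lf (nat_lit 0) (nat_lit 1256584163) (nat_lit 152) (nat_lit 6833689126) (nat_lit 76) (nat_lit 27638733779) (nat_lit 9) (nat_lit 5) (nat_lit 11) (nat_lit 5) (nat_lit 10) (nat_lit 4) (nat_lit 344) (nat_lit 290) (nat_lit 266)) (XT.nd (nat_lit 78) (nat_lit 0) (nat_lit 0) (XT.lf (nat_lit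 0) (nat_lit 6906077091) (nat_lit 76) (nat_lit 1116489656) (nat_lit 152) (nat_lit 30186818925) (nat_lit 8) (nat_lit 5) (nat_lit 9) (nat_lit 5) (nat_lit 10) (nat_lit 4) (nat_lit 345) (nat_lit 290) (nat_lit 265)) (XT.lf (nat_lit 0) (nat_lit 15417125652) (nat_lit 152) (nat_lit 19250582711) (nat_lit 0) (nat_lit 6216157751) (nat_lit 8) (nat_lit 5) (nat_lit 10) (nat_lit 4) (nat_lit 8) (nat_lit 4) (nat_lit 346) (nat_lit 290) (nat_lit 264)))) (XT.nd (nat_lit 78) (nat_lit 76) (nat_lit 0) (XT.lf (nat_lit 0) (nat_lit 23298138850) (nat_lit 152) (nat_lit 6488837848) (nat_lit 0) (nat_lit 13990617550) (nat_lit 8) (nat_lit 5) (nat_lit 10) (nat_lit 4) (nat_lit 8) (nat_lit 4) (nat_lit 347) (nat_lit 290) (nat_lit 263)) (XT.nd (nat_lit 78) (nat_lit 0) (nat_lit 0) (XT.lf (nat_lit 0) (nat_lit 7308913576) (nat_lit 76) (nat_lit 24500076160) (nat_lit 76) (nat_lit 15093894304) (nat_lit 7) (nat_lit 4) (nat_lit 8)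 (nat_lit 5) (nat_lit 8) (nat_lit 4) (nat_lit 348) (nat_lit 290) (nat_lit 262)) (XT.lf (nat_lit 0) (nat_lit 22232847071) (nat_lit 76) (nat_lit 18771368863) (nat_lit 76) (nat_lit 9273834642) (nat_lit 7) (nat_lit 4) (nat_lit 8) (nat_lit 5) (nat_lit 8) (nat_lit 4) (nat_lit 349) (nat_lit 290) (nat_lit 261)))))) (XT.nd (nat_lit 468) (nat_lit 76) (nat_lit 0) (XT.nd (nat_lit 234) (nat_lit 0) (nat_lit 0) (XT.nd (nat_lit 78) (nat_lit 152) (nat_lit 0) (XT.lf (nat_lit 0) (nat_lit 38156850477) (nat_lit 76) (nat_lit 12676798523) (nat_lit 76) (nat_lit 3094678778) (nat_lit 7) (nat_lit 4) (nat_lit 8) (nat_lit 5) (nat_lit 8) (nat_lit 4) (nat_lit 350) (nat_lit 290) (nat_lit 260)) (XT.nd (nat_lit 78) (nat_lit 76) (nat_lit 0) (XT.lf (nat_lit 0) (nat_lit 3368802677) (nat_lit 152) (nat_lit 2754394185) (nat_lit 76) (nat_lit 51749433279) (nat_lit 6) (nat_lit 5) (nat_lit 8) (nat_lit 5) (nat_lit 7) (nat_lit 4) (nat_lit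 351) (nat_lit 290) (nat_lit 259)) (XT.lf (nat_lit 0) (nat_lit 10350182836) (nat_lit 152) (nat_lit 50693618064) (nat_lit 0) (nat_lit 1080698905) (nat_lit 5) (nat_lit 5) (nat_lit 7) (nat_lit 4) (nat_lit 5) (nat_lit 4) (nat_lit 352) (nat_lit 290) (nat_lit 258)))) (XT.nd (nat_lit 78) (nat_lit 0) (nat_lit 0) (XT.lf (nat_lit 0) (nat_lit 17956509626) (nat_lit 152) (nat_lit 40133631412) (nat_lit 0) (nat_lit 8623076442) (nat_lit 5) (nat_lit 5) (nat_lit 7) (nat_lit 4) (nat_lit 5) (nat_lit 4) (nat_lit 353) (nat_lit 290) (nat_lit 257)) (XT.nd (nat_lit 78) (nat_lit 0) (nat_lit 0) (XT.lf (nat_lit 0) (nat_lit 26092103310) (nat_lit 152) (nat_lit 28881452115) (nat_lit 0) (nat_lit 16699457855) (nat_lit 5) (nat_lit 5) (nat_lit 7) (nat_lit 4) (nat_lit 5) (nat_lit 4) (nat_lit 354) (nat_lit 290) (nat_lit 256)) (XT.lf (nat_lit 0) (nat_lit 34805174813) (nat_lit 152) (nat_lit 16870400591) (nat_lit 0) (nat_lit 25357703180)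 (nat_lit 5) (nat_lit 5) (nat_lit 7) (nat_lit 4) (nat_lit 5) (nat_lit 4) (nat_lit 355) (nat_lit 290) (nat_lit 255))))) (XT.nd (nat_lit 234) (nat_lit 0) (nat_lit 0) (XT.nd (nat_lit 78) (nat_lit 76) (nat_lit 0) (XT.lf (nat_lit 0) (nat_lit 44147357152) (nat_lit 152) (nat_lit 4029300240) (nat_lit 0) (nat_lit 34649120540) (nat_lit 5) (nat_lit 5) (nat_lit 7) (nat_lit 4) (nat_lit 5) (nat_lit 4) (nat_lit 356) (nat_lit 290) (nat_lit 254)) (XT.nd (nat_lit 78) (nat_lit 0) (nat_lit 0) (XT.lf (nat_lit 0) (nat_lit 10039263475) (nat_lit 76) (nat_lit 44291488969) (nat_lit 76) (nat_lit 34746247747) (nat_lit 4) (nat_lit 4) (nat_lit 5) (nat_lit 5) (nat_lit 5) (nat_lit 4) (nat_lit 357) (nat_lit 290) (nat_lit 253)) (XT.lf (nat_lit 0) (nat_lit 25261318271) (nat_lit 76) (nat_lit 40077636490) (nat_lit 76) (nat_lit 30488872480) (nat_lit 4) (nat_lit 4) (nat_lit 5) (nat_lit 5) (nat_lit 5) (nat_lit 4) (nat_lit 358)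 (nat_lit 290) (nat_lit 252)))) (XT.nd (nat_lit 78) (nat_lit 0) (nat_lit 0) (XT.lf (nat_lit 0) (nat_lit 41593842052) (nat_lit 76) (nat_lit 35578367126) (nat_lit 76) (nat_lit 25949304239) (nat_lit 4) (nat_lit 4) (nat_lit 5) (nat_lit 5) (nat_lit 5) (nat_lit 4) (nat_lit 359) (nat_lit 290) (nat_lit 251)) (XT.nd (nat_lit 78) (nat_lit 0) (nat_lit 0) (XT.lf (nat_lit 0) (nat_lit 59133620147) (nat_lit 76) (nat_lit 30767018541) (nat_lit 76) (nat_lit 21100641879) (nat_lit 4) (nat_lit 4) (nat_lit 5) (nat_lit 5) (nat_lit 5) (nat_lit 4) (nat_lit 360) (nat_lit 290) (nat_lit 250)) (XT.lf (nat_lit 0) (nat_lit 77984591979) (nat_lit 76) (nat_lit 25615079039) (nat_lit 76) (nat_lit 15914152586) (nat_lit 4) (nat_lit 4) (nat_lit 5) (nat_lit 5) (nat_lit 5) (nat_lit 4) (nat_lit 361) (nat_lit 290) (nat_lit 249))))))))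
noncomputable def xc30 : XT := (XT.nd (nat_lit 1716) (nat_lit 76) (nat_lit 0) (XT.nd (nat_lit 858) (nat_lit 0) (nat_lit 0) (XT.nd (nat_lit 390) (nat_lit 0) (nat_lit 0) (XT.nd (nat_lit 156) (nat_lit 152) (nat_lit 0) (XT.nd (nat_lit 78) (nat_lit 0) (nat_lit 0) (XT.lf (nat_lit 0) (nat_lit 98258467011) (nat_lit 76) (nat_lit 20092018608) (nat_lit 76) (nat_lit 10359101607) (nat_lit 4) (nat_lit 4) (nat_lit 5) (nat_lit 5) (nat_lit 5) (nat_lit 4) (nat_lit 362) (nat_lit 290) (nat_lit 248)) (XT.lf (nat_lit 0) (nat_lit 120075386726) (nat_lit 76) (nat_lit 14165108002) (nat_lit 76) (nat_lit 4402570124) (nat_lit 4) (nat_lit 4) (nat_lit 5) (nat_lit 5) (nat_lit 5) (nat_lit 4) (nat_lit 363) (nat_lit 290) (nat_lit 247))) (XT.nd (nat_lit 78) (nat_lit 76) (nat_lit 0) (XT.lf (nat_lit 0) (nat_lit 1927023722) (nat_lit 152) (nat_lit 5839565986) (nat_lit 76) (nat_lit 141604977773) (nat_lit 3) (nat_lit 5) (nat_lit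 5) (nat_lit 5) (nat_lit 4) (nat_lit 4) (nat_lit 364) (nat_lit 290) (nat_lit 246)) (XT.nd (nat_lit 78) (nat_lit 0) (nat_lit 0) (XT.lf (nat_lit 0) (nat_lit 8020464927) (nat_lit 76) (nat_lit 679937352) (nat_lit 152) (nat_lit 152249763944) (nat_lit 2) (nat_lit 5) (nat_lit 3) (nat_lit 5) (nat_lit 4) (nat_lit 4) (nat_lit 365) (nat_lit 290) (nat_lit 245)) (XT.lf (nat_lit 0) (nat_lit 16193410858) (nat_lit 152) (nat_lit 150429706206) (nat_lit 0) (nat_lit 6823054902) (nat_lit 2) (nat_lit 5) (nat_lit 4) (nat_lit 4) (nat_lit 2) (nat_lit 4) (nat_lit 366) (nat_lit 290) (nat_lit 244))))) (XT.nd (nat_lit 234) (nat_lit 0) (nat_lit 0) (XT.nd (nat_lit 78) (nat_lit 0) (nat_lit 0) (XT.lf (nat_lit 0) (nat_lit 24265373742) (nat_lit 152) (nat_lit 147803232983) (nat_lit 0) (nat_lit 14874282330) (nat_lit 2) (nat_lit 5) (nat_lit 4) (nat_lit 4) (nat_lit 2) (nat_lit 4) (nat_lit 367) (nat_lit 290) (nat_lit 243)) (XT.nd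 (nat_lit 78) (nat_lit 0) (nat_lit 0) (XT.lf (nat_lit 0) (nat_lit 32953509057) (nat_lit 152) (nat_lit 145024101612) (nat_lit 0) (nat_lit 23543218149) (nat_lit 2) (nat_lit 5) (nat_lit 4) (nat_lit 4) (nat_lit 2) (nat_lit 4) (nat_lit 368) (nat_lit 290) (nat_lit 242)) (XT.lf (nat_lit 0) (nat_lit 42309302051) (nat_lit 152) (nat_lit 142075843168) (nat_lit 0) (nat_lit 32881233830) (nat_lit 2) (nat_lit 5) (nat_lit 4) (nat_lit 4) (nat_lit 2) (nat_lit 4) (nat_lit 369) (nat_lit 290) (nat_lit 241)))) (XT.nd (nat_lit 78) (nat_lit 0) (nat_lit 0) (XT.lf (nat_lit 0) (nat_lit 52388194459) (nat_lit 152) (nat_lit 138940986488) (nat_lit 0) (nat_lit 42943665764) (nat_lit 2) (nat_lit 5) (nat_lit 4) (nat_lit 4) (nat_lit 2) (nat_lit 4) (nat_lit 370) (nat_lit 290) (nat_lit 240)) (XT.nd (nat_lit 78) (nat_lit 0) (nat_lit 0) (XT.lf (nat_lit 0) (nat_lit 63249913051) (nat_lit 152) (nat_lit 135600954646) (nat_lit 0) (nat_lit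 53790143177) (nat_lit 2) (nat_lit 5) (nat_lit 4) (nat_lit 4) (nat_lit 2) (nat_lit 4) (nat_lit 371) (nat_lit 290) (nat_lit 239)) (XT.lf (nat_lit 0) (nat_lit 74958823567) (nat_lit 152) (nat_lit 132035954858) (nat_lit 0) (nat_lit 65484941489) (nat_lit 2) (nat_lit 5) (nat_lit 4) (nat_lit 4) (nat_lit 2) (nat_lit 4) (nat_lit 372) (nat_lit 290) (nat_lit 238)))))) (XT.nd (nat_lit 390) (nat_lit 0) (nat_lit 0) (XT.nd (nat_lit 156) (nat_lit 0) (nat_lit 0) (XT.nd (nat_lit 78) (nat_lit 0) (nat_lit 0) (XT.lf (nat_lit 0) (nat_lit 87584312143) (nat_lit 152) (nat_lit 128224861201) (nat_lit 0) (nat_lit 78097363211) (nat_lit 2) (nat_lit 5) (nat_lit 4) (nat_lit 4) (nat_lit 2) (nat_lit 4) (nat_lit 373) (nat_lit 290) (nat_lit 237)) (XT.lf (nat_lit 0) (nat_lit 101201196489) (nat_lit 152) (nat_lit 124145089416) (nat_lit 0) (nat_lit 91702148617) (nat_lit 2) (nat_lit 5) (nat_lit 4) (nat_lit 4) (nat_lit 2) (nat_lit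 4) (nat_lit 374) (nat_lit 290) (nat_lit 236))) (XT.nd (nat_lit 78) (nat_lit 0) (nat_lit 0) (XT.lf (nat_lit 0) (nat_lit 115890169254) (nat_lit 152) (nat_lit 119772463077) (nat_lit 0) (nat_lit 106379918660) (nat_lit 2) (nat_lit 5) (nat_lit 4) (nat_lit 4) (nat_lit 2) (nat_lit 4) (nat_lit 375) (nat_lit 290) (nat_lit 235)) (XT.nd (nat_lit 78) (nat_lit 0) (nat_lit 0) (XT.lf (nat_lit 0) (nat_lit 131738276201) (nat_lit 152) (nat_lit 115081070325) (nat_lit 0) (nat_lit 122217652717) (nat_lit 2) (nat_lit 5) (nat_lit 4) (nat_lit 4) (nat_lit 2) (nat_lit 4) (nat_lit 376) (nat_lit 290) (nat_lit 234)) (XT.lf (nat_lit 0) (nat_lit 148839432040) (nat_lit 152) (nat_lit 110043110314) (nat_lit 0) (nat_lit 139309204027) (nat_lit 2) (nat_lit 5) (nat_lit 4) (nat_lit 4) (nat_lit 2) (nat_lit 4) (nat_lit 377) (nat_lit 290) (nat_lit 233))))) (XT.nd (nat_lit 234) (nat_lit 0) (nat_lit 0) (XT.nd (nat_lit 78) (nat_lit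 0) (nat_lit 0) (XT.lf (nat_lit 0) (nat_lit 167294976951) (nat_lit 152) (nat_lit 104628728465) (nat_lit 0) (nat_lit 157755855857) (nat_lit 2) (nat_lit 5) (nat_lit 4) (nat_lit 4) (nat_lit 2) (nat_lit 4) (nat_lit 378) (nat_lit 290) (nat_lit 232)) (XT.nd (nat_lit 78) (nat_lit 0) (nat_lit 0) (XT.lf (nat_lit 0) (nat_lit 187214277129) (nat_lit 152) (nat_lit 98805839554) (nat_lit 0) (nat_lit 177666921699) (nat_lit 2) (nat_lit 5) (nat_lit 4) (nat_lit 4) (nat_lit 2) (nat_lit 4) (nat_lit 379) (nat_lit 290) (nat_lit 231)) (XT.lf (nat_lit 0) (nat_lit 208715372869) (nat_lit 152) (nat_lit 92539937572) (nat_lit 0) (nat_lit 199160393054) (nat_lit 2) (nat_lit 5) (nat_lit 4) (nat_lit 4) (nat_lit 2) (nat_lit 4) (nat_lit 380) (nat_lit 290) (nat_lit 230)))) (XT.nd (nat_lit 78) (nat_lit 0) (nat_lit 0) (XT.lf (nat_lit 0) (nat_lit 231925678072) (nat_lit 152) (nat_lit 85793891247) (nat_lit 0) (nat_lit 222363638643)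 (nat_lit 2) (nat_lit 5) (nat_lit 4) (nat_lit 4) (nat_lit 2) (nat_lit 4) (nat_lit 381) (nat_lit 290) (nat_lit 229)) (XT.nd (nat_lit 78) (nat_lit 0) (nat_lit 0) (XT.lf (nat_lit 0) (nat_lit 256982735289) (nat_lit 152) (nat_lit 78527724010) (nat_lit 0) (nat_lit 247414159179) (nat_lit 2) (nat_lit 5) (nat_lit 4) (nat_lit 4) (nat_lit 2) (nat_lit 4) (nat_lit 382) (nat_lit 290) (nat_lit 228)) (XT.lf (nat_lit 0) (nat_lit 284035030783) (nat_lit 152) (nat_lit 70698377090) (nat_lit 0) (nat_lit 274460402191) (nat_lit 2) (nat_lit 5) (nat_lit 4) (nat_lit 4) (nat_lit 2) (nat_lit 4) (nat_lit 383) (nat_lit 290) (nat_lit 227))))))) (XT.nd (nat_lit 41886) (nat_lit 0) (nat_lit 1520) (XT.nd (nat_lit 390) (nat_lit 76) (nat_lit 0) (XT.nd (nat_lit 156) (nat_lit 0) (nat_lit 0) (XT.nd (nat_lit 78) (nat_lit 0) (nat_lit 0) (XT.lf (nat_lit 0) (nat_lit 313242874455) (nat_lit 152) (nat_lit 62259454359) (nat_lit 0) (nat_lit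 303662641712) (nat_lit 2) (nat_lit 5) (nat_lit 4) (nat_lit 4) (nat_lit 2) (nat_lit 4) (nat_lit 384) (nat_lit 290) (nat_lit 226)) (XT.lf (nat_lit 0) (nat_lit 344779349821) (nat_lit 152) (nat_lit 53160947385) (nat_lit 0) (nat_lit 335193928051) (nat_lit 2) (nat_lit 5) (nat_lit 4) (nat_lit 4) (nat_lit 2) (nat_lit 4) (nat_lit 385) (nat_lit 290) (nat_lit 225))) (XT.nd (nat_lit 78) (nat_lit 0) (nat_lit 0) (XT.lf (nat_lit 0) (nat_lit 378831339700) (nat_lit 152) (nat_lit 43348939090) (nat_lit 0) (nat_lit 369241113274) (nat_lit 2) (nat_lit 5) (nat_lit 4) (nat_lit 4) (nat_lit 2) (nat_lit 4) (nat_lit 386) (nat_lit 290) (nat_lit 224)) (XT.nd (nat_lit 78) (nat_lit 0) (nat_lit 0) (XT.lf (nat_lit 0) (nat_lit 415600633660) (nat_lit 152) (nat_lit 32765284239) (nat_lit 0) (nat_lit 406005958480) (nat_lit 2) (nat_lit 5) (nat_lit 4) (nat_lit 4) (nat_lit 2) (nat_lit 4) (nat_lit 387) (nat_lit 290) (nat_lit 223))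 (XT.lf (nat_lit 0) (nat_lit 455305123815) (nat_lit 152) (nat_lit 21347264879) (nat_lit 0) (nat_lit 445706329417) (nat_lit 2) (nat_lit 5) (nat_lit 4) (nat_lit 4) (nat_lit 2) (nat_lit 4) (nat_lit 388) (nat_lit 290) (nat_lit 222))))) (XT.nd (nat_lit 234) (nat_lit 0) (nat_lit 0) (XT.nd (nat_lit 78) (nat_lit 76) (nat_lit 0) (XT.lf (nat_lit 0) (nat_lit 498180096032) (nat_lit 152) (nat_lit 9027218671) (nat_lit 0) (nat_lit 488577487543) (nat_lit 2) (nat_lit 5) (nat_lit 4) (nat_lit 4) (nat_lit 2) (nat_lit 4) (nat_lit 389) (nat_lit 290) (nat_lit 221)) (XT.nd (nat_lit 78) (nat_lit 0) (nat_lit 0) (XT.lf (nat_lit 0) (nat_lit 4408976858) (nat_lit 76) (nat_lit 540139483846) (nat_lit 76) (nat_lit 530533343792) (nat_lit 1) (nat_lit 4) (nat_lit 2) (nat_lit 5) (nat_lit 2) (nat_lit 4) (nat_lit 390) (nat_lit 290) (nat_lit 220)) (XT.lf (nat_lit 0) (nat_lit 19232317252) (nat_lit 76) (nat_lit 575546029071) (nat_lit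 76) (nat_lit 565936619049) (nat_lit 1) (nat_lit 4) (nat_lit 2) (nat_lit 5) (nat_lit 2) (nat_lit 4) (nat_lit 391) (nat_lit 290) (nat_lit 219)))) (XT.nd (nat_lit 41106) (nat_lit 0) (nat_lit 3724) (XT.lf (nat_lit 0) (nat_lit 35232163910) (nat_lit 76) (nat_lit 613789647259) (nat_lit 76) (nat_lit 604177209490) (nat_lit 1) (nat_lit 4) (nat_lit 2) (nat_lit 5) (nat_lit 2) (nat_lit 4) (nat_lit 392) (nat_lit 290) (nat_lit 218)) (XT.nd (nat_lit 78) (nat_lit 304) (nat_lit 0) (XT.lf (nat_lit 0) (nat_lit 1631130453) (nat_lit 304) (nat_lit 1258948895) (nat_lit 0) (nat_lit 1631130453) (nat_lit 54) (nat_lit 5) (nat_lit 58) (nat_lit 4) (nat_lit 54) (nat_lit 4) (nat_lit 318) (nat_lit 291) (nat_lit 291)) (XT.lf (nat_lit 0) (nat_lit 288835415) (nat_lit 304) (nat_lit 863651470) (nat_lit 76) (nat_lit 8218415104) (nat_lit 50) (nat_lit 5) (nat_lit 54) (nat_lit 5) (nat_lit 51) (nat_lit 4) (nat_lit 319) (nat_lit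 291) (nat_lit 290)))))) (XT.nd (nat_lit 468) (nat_lit 836) (nat_lit 0) (XT.nd (nat_lit 234) (nat_lit 608) (nat_lit 0) (XT.nd (nat_lit 78) (nat_lit 380) (nat_lit 0) (XT.lf (nat_lit 0) (nat_lit 681581241) (nat_lit 228) (nat_lit 5857511147) (nat_lit 228) (nat_lit 3187326604) (nat_lit 45) (nat_lit 4) (nat_lit 48) (nat_lit 5) (nat_lit 48) (nat_lit 4) (nat_lit 320) (nat_lit 291) (nat_lit 289)) (XT.nd (nat_lit 78) (nat_lit 152) (nat_lit 0) (XT.lf (nat_lit 0) (nat_lit 2177744015) (nat_lit 152) (nat_lit 766928709) (nat_lit 228) (nat_lit 7170210018) (nat_lit 42) (nat_lit 5) (nat_lit 44) (nat_lit 5) (nat_lit 45) (nat_lit 4) (nat_lit 321) (nat_lit 291) (nat_lit 288)) (XT.lf (nat_lit 0) (nat_lit 3498600860) (nat_lit 152) (nat_lit 5880323856) (nat_lit 152) (nat_lit 1157050133) (nat_lit 40) (nat_lit 4) (nat_lit 42) (nat_lit 5) (nat_lit 42) (nat_lit 4) (nat_lit 322) (nat_lit 291) (nat_lit 287)))) (XT.nd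 (nat_lit 78) (nat_lit 380) (nat_lit 0) (XT.lf (nat_lit 0) (nat_lit 4633921560) (nat_lit 152) (nat_lit 404002382) (nat_lit 228) (nat_lit 5955377443) (nat_lit 37) (nat_lit 5) (nat_lit 39) (nat_lit 5) (nat_lit 40) (nat_lit 4) (nat_lit 323) (nat_lit 291) (nat_lit 286)) (XT.nd (nat_lit 78) (nat_lit 152) (nat_lit 0) (XT.lf (nat_lit 0) (nat_lit 152108763) (nat_lit 228) (nat_lit 5966728292) (nat_lit 76) (nat_lit 5369685651) (nat_lit 34) (nat_lit 5) (nat_lit 37) (nat_lit 5) (nat_lit 35) (nat_lit 4) (nat_lit 324) (nat_lit 291) (nat_lit 285)) (XT.lf (nat_lit 0) (nat_lit 6108138450) (nat_lit 152) (nat_lit 320717928) (nat_lit 228) (nat_lit 5595397360) (nat_lit 32) (nat_lit 5) (nat_lit 34) (nat_lit 5) (nat_lit 35) (nat_lit 4) (nat_lit 325) (nat_lit 291) (nat_lit 284))))) (XT.nd (nat_lit 234) (nat_lit 380) (nat_lit 0) (XT.nd (nat_lit 78) (nat_lit 228) (nat_lit 0) (XT.lf (nat_lit 0) (nat_lit 567240068)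 (nat_lit 228) (nat_lit 6270283404) (nat_lit 76) (nat_lit 5765973290) (nat_lit 29) (nat_lit 5) (nat_lit 32) (nat_lit 5) (nat_lit 30) (nat_lit 4) (nat_lit 326) (nat_lit 291) (nat_lit 283)) (XT.nd (nat_lit 78) (nat_lit 152) (nat_lit 0) (XT.lf (nat_lit 0) (nat_lit 6127102218) (nat_lit 76) (nat_lit 803281477) (nat_lit 152) (nat_lit 6299127722) (nat_lit 28) (nat_lit 5) (nat_lit 29) (nat_lit 5) (nat_lit 30) (nat_lit 4) (nat_lit 327) (nat_lit 291) (nat_lit 282)) (XT.lf (nat_lit 0) (nat_lit 5416009585) (nat_lit 152) (nat_lit 8378106857) (nat_lit 152) (nat_lit 112094582) (nat_lit 26) (nat_lit 4) (nat_lit 28) (nat_lit 5) (nat_lit 28) (nat_lit 4) (nat_lit 328) (nat_lit 291) (nat_lit 281)))) (XT.nd (nat_lit 78) (nat_lit 228) (nat_lit 0) (XT.lf (nat_lit 0) (nat_lit 4077092285) (nat_lit 76) (nat_lit 2201657274) (nat_lit 152) (nat_lit 8357371314) (nat_lit 24) (nat_lit 5) (nat_lit 25) (nat_lit 5) (nat_lit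 26) (nat_lit 4) (nat_lit 329) (nat_lit 291) (nat_lit 280)) (XT.nd (nat_lit 78) (nat_lit 76) (nat_lit 0) (XT.lf (nat_lit 0) (nat_lit 2044315621) (nat_lit 152) (nat_lit 11111347181) (nat_lit 152) (nat_lit 2269879900) (nat_lit 22) (nat_lit 4) (nat_lit 24) (nat_lit 5) (nat_lit 24) (nat_lit 4) (nat_lit 330) (nat_lit 291) (nat_lit 279)) (XT.lf (nat_lit 0) (nat_lit 4126210279) (nat_lit 228) (nat_lit 814126270) (nat_lit 76) (nat_lit 11336582763) (nat_lit 21) (nat_lit 5) (nat_lit 24) (nat_lit 5) (nat_lit 22) (nat_lit 4) (nat_lit 331) (nat_lit 291) (nat_lit 278))))))))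
noncomputable def xc31 : XT := (XT.nd (nat_lit 1794) (nat_lit 228) (nat_lit 0) (XT.nd (nat_lit 858) (nat_lit 456) (nat_lit 0) (XT.nd (nat_lit 390) (nat_lit 380) (nat_lit 0) (XT.nd (nat_lit 156) (nat_lit 152) (nat_lit 0) (XT.nd (nat_lit 78) (nat_lit 152) (nat_lit 0) (XT.lf (nat_lit 0) (nat_lit 10936383686) (nat_lit 152) (nat_lit 4534509716) (nat_lit 0) (nat_lit 1724676460) (nat_lit 20) (nat_lit 5) (nat_lit 22) (nat_lit 4) (nat_lit 20) (nat_lit 4) (nat_lit 332) (nat_lit 291) (nat_lit 277)) (XT.lf (nat_lit 0) (nat_lit 99478467) (nat_lit 152) (nat_lit 9360012031) (nat_lit 76) (nat_lit 8728290368) (nat_lit 18) (nat_lit 5) (nat_lit 20) (nat_lit 5) (nat_lit 19) (nat_lit 4) (nat_lit 333) (nat_lit 291) (nat_lit 276))) (XT.nd (nat_lit 78) (nat_lit 76) (nat_lit 0) (XT.lf (nat_lit 0) (nat_lit 3764077181) (nat_lit 76) (nat_lit 2896490723) (nat_lit 152) (nat_lit 12598117560) (nat_lit 17) (nat_lit 5)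 (nat_lit 18) (nat_lit 5) (nat_lit 19) (nat_lit 4) (nat_lit 334) (nat_lit 291) (nat_lit 275)) (XT.nd (nat_lit 78) (nat_lit 76) (nat_lit 0) (XT.lf (nat_lit 0) (nat_lit 13756713279) (nat_lit 152) (nat_lit 2608154050) (nat_lit 0) (nat_lit 4049977723) (nat_lit 17) (nat_lit 5) (nat_lit 19) (nat_lit 4) (nat_lit 17) (nat_lit 4) (nat_lit 335) (nat_lit 291) (nat_lit 274)) (XT.lf (nat_lit 0) (nat_lit 11245041923) (nat_lit 76) (nat_lit 10195293537) (nat_lit 76) (nat_lit 222257003) (nat_lit 16) (nat_lit 4) (nat_lit 17) (nat_lit 5) (nat_lit 17) (nat_lit 4) (nat_lit 336) (nat_lit 291) (nat_lit 273))))) (XT.nd (nat_lit 234) (nat_lit 152) (nat_lit 0) (XT.nd (nat_lit 78) (nat_lit 76) (nat_lit 0) (XT.lf (nat_lit 0) (nat_lit 2913630144) (nat_lit 76) (nat_lit 3492829200) (nat_lit 152) (nat_lit 16603855887) (nat_lit 14) (nat_lit 5) (nat_lit 15) (nat_lit 5) (nat_lit 16) (nat_lit 4) (nat_lit 337) (nat_lit 291)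 (nat_lit 272)) (XT.nd (nat_lit 78) (nat_lit 76) (nat_lit 0) (XT.lf (nat_lit 0) (nat_lit 13609098698) (nat_lit 152) (nat_lit 7195376065) (nat_lit 0) (nat_lit 3658697099) (nat_lit 14) (nat_lit 5) (nat_lit 16) (nat_lit 4) (nat_lit 14) (nat_lit 4) (nat_lit 338) (nat_lit 291) (nat_lit 271)) (XT.lf (nat_lit 0) (nat_lit 6558785801) (nat_lit 76) (nat_lit 14813037294) (nat_lit 76) (nat_lit 4661303979) (nat_lit 13) (nat_lit 4) (nat_lit 14) (nat_lit 5) (nat_lit 14) (nat_lit 4) (nat_lit 339) (nat_lit 291) (nat_lit 270)))) (XT.nd (nat_lit 78) (nat_lit 76) (nat_lit 0) (XT.lf (nat_lit 0) (nat_lit 1917363467) (nat_lit 152) (nat_lit 6407556462) (nat_lit 76) (nat_lit 19404465229) (nat_lit 12) (nat_lit 5) (nat_lit 14) (nat_lit 5) (nat_lit 13) (nat_lit 4) (nat_lit 340) (nat_lit 291) (nat_lit 269)) (XT.nd (nat_lit 78) (nat_lit 0) (nat_lit 0) (XT.lf (nat_lit 0) (nat_lit 7570431760) (nat_lit 76) (nat_lit 1249662302)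 (nat_lit 152) (nat_lit 20739427179) (nat_lit 11) (nat_lit 5) (nat_lit 12) (nat_lit 5) (nat_lit 13) (nat_lit 4) (nat_lit 341) (nat_lit 291) (nat_lit 268)) (XT.lf (nat_lit 0) (nat_lit 16334255793) (nat_lit 152) (nat_lit 9027105776) (nat_lit 0) (nat_lit 6171794198) (nat_lit 11) (nat_lit 5) (nat_lit 13) (nat_lit 4) (nat_lit 11) (nat_lit 4) (nat_lit 342) (nat_lit 291) (nat_lit 267)))))) (XT.nd (nat_lit 468) (nat_lit 228) (nat_lit 0) (XT.nd (nat_lit 234) (nat_lit 76) (nat_lit 0) (XT.nd (nat_lit 78) (nat_lit 76) (nat_lit 0) (XT.lf (nat_lit 0) (nat_lit 4836614728) (nat_lit 76) (nat_lit 19566905980) (nat_lit 76) (nat_lit 9263506459) (nat_lit 10) (nat_lit 4) (nat_lit 11) (nat_lit 5) (nat_lit 11) (nat_lit 4) (nat_lit 343) (nat_lit 291) (nat_lit 266)) (XT.nd (nat_lit 78) (nat_lit 76) (nat_lit 0) (XT.lf (nat_lit 0) (nat_lit 19874524061) (nat_lit 76) (nat_lit 13264982085) (nat_lit 76) (nat_lit 2831084485)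 (nat_lit 10) (nat_lit 4) (nat_lit 11) (nat_lit 5) (nat_lit 11) (nat_lit 4) (nat_lit 344) (nat_lit 291) (nat_lit 265)) (XT.lf (nat_lit 0) (nat_lit 3856105341) (nat_lit 152) (nat_lit 2649713205) (nat_lit 76) (nat_lit 31955848522) (nat_lit 9) (nat_lit 5) (nat_lit 11) (nat_lit 5) (nat_lit 10) (nat_lit 4) (nat_lit 345) (nat_lit 291) (nat_lit 264)))) (XT.nd (nat_lit 78) (nat_lit 0) (nat_lit 0) (XT.lf (nat_lit 0) (nat_lit 11063498953) (nat_lit 152) (nat_lit 29177200491) (nat_lit 0) (nat_lit 904822549) (nat_lit 8) (nat_lit 5) (nat_lit 10) (nat_lit 4) (nat_lit 8) (nat_lit 4) (nat_lit 346) (nat_lit 291) (nat_lit 263)) (XT.nd (nat_lit 78) (nat_lit 0) (nat_lit 0) (XT.lf (nat_lit 0) (nat_lit 18889341001) (nat_lit 152) (nat_lit 16520678660) (nat_lit 0) (nat_lit 8632004043) (nat_lit 8) (nat_lit 5) (nat_lit 10) (nat_lit 4) (nat_lit 8) (nat_lit 4) (nat_lit 347) (nat_lit 291) (nat_lit 262)) (XT.lf (nat_lit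 0) (nat_lit 27234994863) (nat_lit 152) (nat_lit 3054286849) (nat_lit 0) (nat_lit 16886305539) (nat_lit 8) (nat_lit 5) (nat_lit 10) (nat_lit 4) (nat_lit 8) (nat_lit 4) (nat_lit 348) (nat_lit 291) (nat_lit 261))))) (XT.nd (nat_lit 234) (nat_lit 152) (nat_lit 0) (XT.nd (nat_lit 78) (nat_lit 0) (nat_lit 0) (XT.lf (nat_lit 0) (nat_lit 11675463528) (nat_lit 76) (nat_lit 24656739444) (nat_lit 76) (nat_lit 14223464596) (nat_lit 7) (nat_lit 4) (nat_lit 8) (nat_lit 5) (nat_lit 8) (nat_lit 4) (nat_lit 349) (nat_lit 291) (nat_lit 260)) (XT.nd (nat_lit 78) (nat_lit 0) (nat_lit 0) (XT.lf (nat_lit 0) (nat_lit 27513175639) (nat_lit 76) (nat_lit 18603316513) (nat_lit 76) (nat_lit 8091721735) (nat_lit 7) (nat_lit 4) (nat_lit 8) (nat_lit 5) (nat_lit 8) (nat_lit 4) (nat_lit 350) (nat_lit 291) (nat_lit 259)) (XT.lf (nat_lit 0) (nat_lit 44451714073) (nat_lit 76) (nat_lit 12144866608) (nat_lit 76) (nat_lit 1560753378)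 (nat_lit 7) (nat_lit 4) (nat_lit 8) (nat_lit 5) (nat_lit 8) (nat_lit 4) (nat_lit 351) (nat_lit 291) (nat_lit 258)))) (XT.nd (nat_lit 78) (nat_lit 0) (nat_lit 0) (XT.lf (nat_lit 0) (nat_lit 83253442) (nat_lit 76) (nat_lit 5153094551) (nat_lit 152) (nat_lit 57185795484) (nat_lit 5) (nat_lit 5) (nat_lit 6) (nat_lit 5) (nat_lit 7) (nat_lit 4) (nat_lit 352) (nat_lit 291) (nat_lit 257)) (XT.nd (nat_lit 78) (nat_lit 0) (nat_lit 0) (XT.lf (nat_lit 0) (nat_lit 12724124744) (nat_lit 152) (nat_lit 51771817543) (nat_lit 0) (nat_lit 2520855380) (nat_lit 5) (nat_lit 5) (nat_lit 7) (nat_lit 4) (nat_lit 5) (nat_lit 4) (nat_lit 353) (nat_lit 291) (nat_lit 256)) (XT.lf (nat_lit 0) (nat_lit 20824444545) (nat_lit 152) (nat_lit 40587571956) (nat_lit 0) (nat_lit 10566349004) (nat_lit 5) (nat_lit 5) (nat_lit 7) (nat_lit 4) (nat_lit 5) (nat_lit 4) (nat_lit 354) (nat_lit 291) (nat_lit 255))))))) (XT.nd (nat_lit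 858) (nat_lit 76) (nat_lit 0) (XT.nd (nat_lit 390) (nat_lit 76) (nat_lit 0) (XT.nd (nat_lit 156) (nat_lit 76) (nat_lit 0) (XT.nd (nat_lit 78) (nat_lit 0) (nat_lit 0) (XT.lf (nat_lit 0) (nat_lit 29504855046) (nat_lit 152) (nat_lit 28639422017) (nat_lit 0) (nat_lit 19195994526) (nat_lit 5) (nat_lit 5) (nat_lit 7) (nat_lit 4) (nat_lit 5) (nat_lit 4) (nat_lit 355) (nat_lit 291) (nat_lit 254)) (XT.lf (nat_lit 0) (nat_lit 38816795716) (nat_lit 152) (nat_lit 15856563873) (nat_lit 0) (nat_lit 28460930586) (nat_lit 5) (nat_lit 5) (nat_lit 7) (nat_lit 4) (nat_lit 5) (nat_lit 4) (nat_lit 356) (nat_lit 291) (nat_lit 253))) (XT.nd (nat_lit 78) (nat_lit 76) (nat_lit 0) (XT.lf (nat_lit 0) (nat_lit 48815448425) (nat_lit 152) (nat_lit 2163247254) (nat_lit 0) (nat_lit 38416060508) (nat_lit 5) (nat_lit 5) (nat_lit 7) (nat_lit 4) (nat_lit 5) (nat_lit 4) (nat_lit 357) (nat_lit 291) (nat_lit 252)) (XT.nd (nat_lit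 78) (nat_lit 0) (nat_lit 0) (XT.lf (nat_lit 0) (nat_lit 12935696492) (nat_lit 76) (nat_lit 46826330433) (nat_lit 76) (nat_lit 36386643638) (nat_lit 4) (nat_lit 4) (nat_lit 5) (nat_lit 5) (nat_lit 5) (nat_lit 4) (nat_lit 358) (nat_lit 291) (nat_lit 251)) (XT.lf (nat_lit 0) (nat_lit 29220457009) (nat_lit 76) (nat_lit 42350071803) (nat_lit 76) (nat_lit 31873071234) (nat_lit 4) (nat_lit 4) (nat_lit 5) (nat_lit 5) (nat_lit 5) (nat_lit 4) (nat_lit 359) (nat_lit 291) (nat_lit 250))))) (XT.nd (nat_lit 234) (nat_lit 76) (nat_lit 0) (XT.nd (nat_lit 78) (nat_lit 0) (nat_lit 0) (XT.lf (nat_lit 0) (nat_lit 46716009858) (nat_lit 76) (nat_lit 37560029454) (nat_lit 76) (nat_lit 27048479093) (nat_lit 4) (nat_lit 4) (nat_lit 5) (nat_lit 5) (nat_lit 5) (nat_lit 4) (nat_lit 360) (nat_lit 291) (nat_lit 249)) (XT.nd (nat_lit 78) (nat_lit 0) (nat_lit 0) (XT.lf (nat_lit 0) (nat_lit 65526032389) (nat_lit 76) (nat_lit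 32427817948) (nat_lit 76) (nat_lit 21884277039) (nat_lit 4) (nat_lit 4) (nat_lit 5) (nat_lit 5) (nat_lit 5) (nat_lit 4) (nat_lit 361) (nat_lit 291) (nat_lit 248)) (XT.lf (nat_lit 0) (nat_lit 85761991402) (nat_lit 76) (nat_lit 26923024180) (nat_lit 76) (nat_lit 16349862394) (nat_lit 4) (nat_lit 4) (nat_lit 5) (nat_lit 5) (nat_lit 5) (nat_lit 4) (nat_lit 362) (nat_lit 291) (nat_lit 247)))) (XT.nd (nat_lit 78) (nat_lit 76) (nat_lit 0) (XT.lf (nat_lit 0) (nat_lit 107543803692) (nat_lit 76) (nat_lit 21013027151) (nat_lit 76) (nat_lit 10412438626) (nat_lit 4) (nat_lit 4) (nat_lit 5) (nat_lit 5) (nat_lit 5) (nat_lit 4) (nat_lit 363) (nat_lit 291) (nat_lit 246)) (XT.nd (nat_lit 78) (nat_lit 76) (nat_lit 0) (XT.lf (nat_lit 0) (nat_lit 131000546665) (nat_lit 76) (nat_lit 14662804656) (nat_lit 76) (nat_lit 4036821002) (nat_lit 4) (nat_lit 4) (nat_lit 5) (nat_lit 5) (nat_lit 5) (nat_lit 4) (nat_lit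 364) (nat_lit 291) (nat_lit 245)) (XT.lf (nat_lit 0) (nat_lit 2724681634) (nat_lit 152) (nat_lit 5063900309) (nat_lit 76) (nat_lit 153500397804) (nat_lit 3) (nat_lit 5) (nat_lit 5) (nat_lit 5) (nat_lit 4) (nat_lit 4) (nat_lit 365) (nat_lit 291) (nat_lit 244)))))) (XT.nd (nat_lit 468) (nat_lit 0) (nat_lit 0) (XT.nd (nat_lit 234) (nat_lit 0) (nat_lit 0) (XT.nd (nat_lit 78) (nat_lit 0) (nat_lit 0) (XT.lf (nat_lit 0) (nat_lit 9850921158) (nat_lit 76) (nat_lit 159903743) (nat_lit 152) (nat_lit 163784507012) (nat_lit 2) (nat_lit 5) (nat_lit 3) (nat_lit 5) (nat_lit 4) (nat_lit 4) (nat_lit 366) (nat_lit 291) (nat_lit 243)) (XT.nd (nat_lit 78) (nat_lit 0) (nat_lit 0) (XT.lf (nat_lit 0) (nat_lit 18066067875) (nat_lit 152) (nat_lit 161343065847) (nat_lit 0) (nat_lit 7883754197) (nat_lit 2) (nat_lit 5) (nat_lit 4) (nat_lit 4) (nat_lit 2) (nat_lit 4) (nat_lit 367) (nat_lit 291) (nat_lit 242)) (XT.lf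 (nat_lit 0) (nat_lit 26741033408) (nat_lit 152) (nat_lit 158589513052) (nat_lit 0) (nat_lit 16540942418) (nat_lit 2) (nat_lit 5) (nat_lit 4) (nat_lit 4) (nat_lit 2) (nat_lit 4) (nat_lit 368) (nat_lit 291) (nat_lit 241)))) (XT.nd (nat_lit 78) (nat_lit 0) (nat_lit 0) (XT.lf (nat_lit 0) (nat_lit 36084632159) (nat_lit 152) (nat_lit 155664938473) (nat_lit 0) (nat_lit 25868080695) (nat_lit 2) (nat_lit 5) (nat_lit 4) (nat_lit 4) (nat_lit 2) (nat_lit 4) (nat_lit 369) (nat_lit 291) (nat_lit 240)) (XT.nd (nat_lit 78) (nat_lit 0) (nat_lit 0) (XT.lf (nat_lit 0) (nat_lit 46152233601) (nat_lit 152) (nat_lit 152552011299) (nat_lit 0) (nat_lit 35920440958) (nat_lit 2) (nat_lit 5) (nat_lit 4) (nat_lit 4) (nat_lit 2) (nat_lit 4) (nat_lit 370) (nat_lit 291) (nat_lit 239)) (XT.lf (nat_lit 0) (nat_lit 57003497595) (nat_lit 152) (nat_lit 149232284553) (nat_lit 0) (nat_lit 46757592749) (nat_lit 2) (nat_lit 5)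 (nat_lit 4) (nat_lit 4) (nat_lit 2) (nat_lit 4) (nat_lit 371) (nat_lit 291) (nat_lit 238))))) (XT.nd (nat_lit 234) (nat_lit 0) (nat_lit 0) (XT.nd (nat_lit 78) (nat_lit 0) (nat_lit 0) (XT.lf (nat_lit 0) (nat_lit 68702727928) (nat_lit 152) (nat_lit 145686085782) (nat_lit 0) (nat_lit 58443756227) (nat_lit 2) (nat_lit 5) (nat_lit 4) (nat_lit 4) (nat_lit 2) (nat_lit 4) (nat_lit 372) (nat_lit 291) (nat_lit 237)) (XT.nd (nat_lit 78) (nat_lit 0) (nat_lit 0) (XT.lf (nat_lit 0) (nat_lit 81319253372) (nat_lit 152) (nat_lit 141892400473) (nat_lit 0) (nat_lit 71048182730) (nat_lit 2) (nat_lit 5) (nat_lit 4) (nat_lit 4) (nat_lit 2) (nat_lit 4) (nat_lit 373) (nat_lit 291) (nat_lit 236)) (XT.lf (nat_lit 0) (nat_lit 94927838521) (nat_lit 152) (nat_lit 137828747529) (nat_lit 0) (nat_lit 84645565158) (nat_lit 2) (nat_lit 5) (nat_lit 4) (nat_lit 4) (nat_lit 2) (nat_lit 4) (nat_lit 374) (nat_lit 291) (nat_lit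 235)))) (XT.nd (nat_lit 78) (nat_lit 0) (nat_lit 0) (XT.lf (nat_lit 0) (nat_lit 109609126844) (nat_lit 152) (nat_lit 133471046043) (nat_lit 0) (nat_lit 99316480590) (nat_lit 2) (nat_lit 5) (nat_lit 4) (nat_lit 4) (nat_lit 2) (nat_lit 4) (nat_lit 375) (nat_lit 291) (nat_lit 234)) (XT.nd (nat_lit 78) (nat_lit 0) (nat_lit 0) (XT.lf (nat_lit 0) (nat_lit 125450118568) (nat_lit 152) (nat_lit 128793472599) (nat_lit 0) (nat_lit 115147867786) (nat_lit 2) (nat_lit 5) (nat_lit 4) (nat_lit 4) (nat_lit 2) (nat_lit 4) (nat_lit 376) (nat_lit 291) (nat_lit 233)) (XT.lf (nat_lit 0) (nat_lit 142544686237) (nat_lit 152) (nat_lit 123768308243) (nat_lit 0) (nat_lit 132233542372) (nat_lit 2) (nat_lit 5) (nat_lit 4) (nat_lit 4) (nat_lit 2) (nat_lit 4) (nat_lit 377) (nat_lit 291) (nat_lit 232))))))))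
noncomputable def xc32 : XT := (XT.nd (nat_lit 42588) (nat_lit 0) (nat_lit 684) (XT.nd (nat_lit 858) (nat_lit 76) (nat_lit 0) (XT.nd (nat_lit 390) (nat_lit 0) (nat_lit 0) (XT.nd (nat_lit 156) (nat_lit 0) (nat_lit 0) (XT.nd (nat_lit 78) (nat_lit 0) (nat_lit 0) (XT.lf (nat_lit 0) (nat_lit 160994130991) (nat_lit 152) (nat_lit 118365774224) (nat_lit 0) (nat_lit 150674752792) (nat_lit 2) (nat_lit 5) (nat_lit 4) (nat_lit 4) (nat_lit 2) (nat_lit 4) (nat_lit 378) (nat_lit 291) (nat_lit 231)) (XT.lf (nat_lit 0) (nat_lit 180907782874) (nat_lit 152) (nat_lit 112553855526) (nat_lit 0) (nat_lit 170580780291) (nat_lit 2) (nat_lit 5) (nat_lit 4) (nat_lit 4) (nat_lit 2) (nat_lit 4) (nat_lit 379) (nat_lit 291) (nat_lit 230))) (XT.nd (nat_lit 78) (nat_lit 0) (nat_lit 0) (XT.lf (nat_lit 0) (nat_lit 202403648713) (nat_lit 152) (nat_lit 106298111147) (nat_lit 0) (nat_lit 192069586514) (nat_lit 2) (nat_lit 5)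 (nat_lit 4) (nat_lit 4) (nat_lit 2) (nat_lit 4) (nat_lit 380) (nat_lit 291) (nat_lit 229)) (XT.nd (nat_lit 78) (nat_lit 0) (nat_lit 0) (XT.lf (nat_lit 0) (nat_lit 225609111415) (nat_lit 152) (nat_lit 99561470012) (nat_lit 0) (nat_lit 215268512535) (nat_lit 2) (nat_lit 5) (nat_lit 4) (nat_lit 4) (nat_lit 2) (nat_lit 4) (nat_lit 381) (nat_lit 291) (nat_lit 228)) (XT.lf (nat_lit 0) (nat_lit 250661684833) (nat_lit 152) (nat_lit 92304011282) (nat_lit 0) (nat_lit 240315033472) (nat_lit 2) (nat_lit 5) (nat_lit 4) (nat_lit 4) (nat_lit 2) (nat_lit 4) (nat_lit 382) (nat_lit 291) (nat_lit 227))))) (XT.nd (nat_lit 234) (nat_lit 0) (nat_lit 0) (XT.nd (nat_lit 78) (nat_lit 0) (nat_lit 0) (XT.lf (nat_lit 0) (nat_lit 277709828663) (nat_lit 152) (nat_lit 84482727796) (nat_lit 0) (nat_lit 267357573151) (nat_lit 2) (nat_lit 5) (nat_lit 4) (nat_lit 4) (nat_lit 2) (nat_lit 4) (nat_lit 383) (nat_lit 291) (nat_lit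 226)) (XT.nd (nat_lit 78) (nat_lit 0) (nat_lit 0) (XT.lf (nat_lit 0) (nat_lit 306913828201) (nat_lit 152) (nat_lit 76051271207) (nat_lit 0) (nat_lit 296556383661) (nat_lit 2) (nat_lit 5) (nat_lit 4) (nat_lit 4) (nat_lit 2) (nat_lit 4) (nat_lit 384) (nat_lit 291) (nat_lit 225)) (XT.lf (nat_lit 0) (nat_lit 338446744184) (nat_lit 152) (nat_lit 66959677328) (nat_lit 0) (nat_lit 328084494989) (nat_lit 2) (nat_lit 5) (nat_lit 4) (nat_lit 4) (nat_lit 2) (nat_lit 4) (nat_lit 385) (nat_lit 291) (nat_lit 224)))) (XT.nd (nat_lit 78) (nat_lit 0) (nat_lit 0) (XT.lf (nat_lit 0) (nat_lit 372495438337) (nat_lit 152) (nat_lit 57154070046) (nat_lit 0) (nat_lit 362128740387) (nat_lit 2) (nat_lit 5) (nat_lit 4) (nat_lit 4) (nat_lit 2) (nat_lit 4) (nat_lit 386) (nat_lit 291) (nat_lit 223)) (XT.nd (nat_lit 78) (nat_lit 0) (nat_lit 0) (XT.lf (nat_lit 0) (nat_lit 409261680700) (nat_lit 152) (nat_lit 46576342060)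 (nat_lit 0) (nat_lit 398890863533) (nat_lit 2) (nat_lit 5) (nat_lit 4) (nat_lit 4) (nat_lit 2) (nat_lit 4) (nat_lit 387) (nat_lit 291) (nat_lit 222)) (XT.lf (nat_lit 0) (nat_lit 448963345302) (nat_lit 152) (nat_lit 35163810537) (nat_lit 0) (nat_lit 438588714044) (nat_lit 2) (nat_lit 5) (nat_lit 4) (nat_lit 4) (nat_lit 2) (nat_lit 4) (nat_lit 388) (nat_lit 291) (nat_lit 221)))))) (XT.nd (nat_lit 41262) (nat_lit 0) (nat_lit 2964) (XT.nd (nat_lit 156) (nat_lit 76) (nat_lit 0) (XT.nd (nat_lit 78) (nat_lit 0) (nat_lit 0) (XT.lf (nat_lit 0) (nat_lit 491835701265) (nat_lit 152) (nat_lit 22848845660) (nat_lit 0) (nat_lit 481457538442) (nat_lit 2) (nat_lit 5) (nat_lit 4) (nat_lit 4) (nat_lit 2) (nat_lit 4) (nat_lit 389) (nat_lit 291) (nat_lit 220)) (XT.lf (nat_lit 0) (nat_lit 538132806997) (nat_lit 152) (nat_lit 9558469860) (nat_lit 0) (nat_lit 527751374206) (nat_lit 2) (nat_lit 5) (nat_lit 4) (nat_lit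 4) (nat_lit 2) (nat_lit 4) (nat_lit 390) (nat_lit 291) (nat_lit 219))) (XT.nd (nat_lit 78) (nat_lit 0) (nat_lit 0) (XT.lf (nat_lit 0) (nat_lit 4944323887) (nat_lit 76) (nat_lit 583261886580) (nat_lit 76) (nat_lit 572877426041) (nat_lit 1) (nat_lit 4) (nat_lit 2) (nat_lit 5) (nat_lit 2) (nat_lit 4) (nat_lit 391) (nat_lit 291) (nat_lit 218)) (XT.nd (nat_lit 40950) (nat_lit 0) (nat_lit 4636) (XT.lf (nat_lit 0) (nat_lit 20940003447) (nat_lit 76) (nat_lit 621507529940) (nat_lit 76) (nat_lit 611120265930) (nat_lit 1) (nat_lit 4) (nat_lit 2) (nat_lit 5) (nat_lit 2) (nat_lit 4) (nat_lit 392) (nat_lit 291) (nat_lit 217)) (XT.lf (nat_lit 0) (nat_lit 708471134) (nat_lit 304) (nat_lit 2814681396) (nat_lit 0) (nat_lit 708471134) (nat_lit 62) (nat_lit 5) (nat_lit 66) (nat_lit 4) (nat_lit 62) (nat_lit 4) (nat_lit 316) (nat_lit 292) (nat_lit 292))))) (XT.nd (nat_lit 234) (nat_lit 760) (nat_lit 0) (XT.nd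 (nat_lit 78) (nat_lit 608) (nat_lit 0) (XT.lf (nat_lit 0) (nat_lit 4550701481) (nat_lit 304) (nat_lit 2922122329) (nat_lit 304) (nat_lit 1271285870) (nat_lit 58) (nat_lit 4) (nat_lit 62) (nat_lit 5) (nat_lit 62) (nat_lit 4) (nat_lit 317) (nat_lit 292) (nat_lit 291)) (XT.nd (nat_lit 78) (nat_lit 304) (nat_lit 0) (XT.lf (nat_lit 0) (nat_lit 4642445458) (nat_lit 304) (nat_lit 2795341588) (nat_lit 0) (nat_lit 1614456185) (nat_lit 54) (nat_lit 5) (nat_lit 58) (nat_lit 4) (nat_lit 54) (nat_lit 4) (nat_lit 318) (nat_lit 292) (nat_lit 290)) (XT.lf (nat_lit 0) (nat_lit 1425647585) (nat_lit 304) (nat_lit 1453341418) (nat_lit 76) (nat_lit 6510346699) (nat_lit 50) (nat_lit 5) (nat_lit 54) (nat_lit 5) (nat_lit 51) (nat_lit 4) (nat_lit 319) (nat_lit 292) (nat_lit 289)))) (XT.nd (nat_lit 78) (nat_lit 608) (nat_lit 0) (XT.lf (nat_lit 0) (nat_lit 7451838698) (nat_lit 228) (nat_lit 208751940) (nat_lit 0)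 (nat_lit 2095646296) (nat_lit 48) (nat_lit 5) (nat_lit 51) (nat_lit 4) (nat_lit 48) (nat_lit 4) (nat_lit 320) (nat_lit 292) (nat_lit 288)) (XT.nd (nat_lit 78) (nat_lit 152) (nat_lit 0) (XT.lf (nat_lit 0) (nat_lit 935320281) (nat_lit 152) (nat_lit 2670589485) (nat_lit 228) (nat_lit 6547932829) (nat_lit 42) (nat_lit 5) (nat_lit 44) (nat_lit 5) (nat_lit 45) (nat_lit 4) (nat_lit 321) (nat_lit 292) (nat_lit 287)) (XT.lf (nat_lit 0) (nat_lit 1939854828) (nat_lit 152) (nat_lit 7882985407) (nat_lit 152) (nat_lit 763108281) (nat_lit 40) (nat_lit 4) (nat_lit 42) (nat_lit 5) (nat_lit 42) (nat_lit 4) (nat_lit 322) (nat_lit 292) (nat_lit 286))))))) (XT.nd (nat_lit 858) (nat_lit 684) (nat_lit 0) (XT.nd (nat_lit 390) (nat_lit 684) (nat_lit 0) (XT.nd (nat_lit 156) (nat_lit 456) (nat_lit 0) (XT.nd (nat_lit 78) (nat_lit 228) (nat_lit 0) (XT.lf (nat_lit 0) (nat_lit 2705984281) (nat_lit 152) (nat_lit 2525487769)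 (nat_lit 228) (nat_lit 5821015013) (nat_lit 37) (nat_lit 5) (nat_lit 39) (nat_lit 5) (nat_lit 40) (nat_lit 4) (nat_lit 323) (nat_lit 292) (nat_lit 285)) (XT.lf (nat_lit 0) (nat_lit 58660546) (nat_lit 228) (nat_lit 8308910248) (nat_lit 76) (nat_lit 3191323096) (nat_lit 34) (nat_lit 5) (nat_lit 37) (nat_lit 5) (nat_lit 35) (nat_lit 4) (nat_lit 324) (nat_lit 292) (nat_lit 284))) (XT.nd (nat_lit 78) (nat_lit 304) (nat_lit 0) (XT.lf (nat_lit 0) (nat_lit 3439700253) (nat_lit 152) (nat_lit 2707923802) (nat_lit 228) (nat_lit 5956496447) (nat_lit 32) (nat_lit 5) (nat_lit 34) (nat_lit 5) (nat_lit 35) (nat_lit 4) (nat_lit 325) (nat_lit 292) (nat_lit 283)) (XT.nd (nat_lit 78) (nat_lit 152) (nat_lit 0) (XT.lf (nat_lit 0) (nat_lit 3298346271) (nat_lit 152) (nat_lit 9385243747) (nat_lit 152) (nat_lit 11585827) (nat_lit 30) (nat_lit 4) (nat_lit 32) (nat_lit 5) (nat_lit 32) (nat_lit 4) (nat_lit 326) (nat_lit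 292) (nat_lit 282)) (XT.lf (nat_lit 0) (nat_lit 2659433937) (nat_lit 76) (nat_lit 3502624788) (nat_lit 152) (nat_lit 7168721171) (nat_lit 28) (nat_lit 5) (nat_lit 29) (nat_lit 5) (nat_lit 30) (nat_lit 4) (nat_lit 327) (nat_lit 292) (nat_lit 281))))) (XT.nd (nat_lit 234) (nat_lit 380) (nat_lit 0) (XT.nd (nat_lit 78) (nat_lit 152) (nat_lit 0) (XT.lf (nat_lit 0) (nat_lit 1539732931) (nat_lit 152) (nat_lit 11252855521) (nat_lit 152) (nat_lit 1226631625) (nat_lit 26) (nat_lit 4) (nat_lit 28) (nat_lit 5) (nat_lit 28) (nat_lit 4) (nat_lit 328) (nat_lit 292) (nat_lit 280)) (XT.nd (nat_lit 78) (nat_lit 76) (nat_lit 0) (XT.lf (nat_lit 0) (nat_lit 5009885015) (nat_lit 228) (nat_lit 245155945) (nat_lit 76) (nat_lit 9504529920) (nat_lit 25) (nat_lit 5) (nat_lit 28) (nat_lit 5) (nat_lit 26) (nat_lit 4) (nat_lit 329) (nat_lit 292) (nat_lit 279)) (XT.lf (nat_lit 0) (nat_lit 11681514505) (nat_lit 152) (nat_lit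 2642369546) (nat_lit 0) (nat_lit 1235438511) (nat_lit 24) (nat_lit 5) (nat_lit 26) (nat_lit 4) (nat_lit 24) (nat_lit 4) (nat_lit 330) (nat_lit 292) (nat_lit 278)))) (XT.nd (nat_lit 78) (nat_lit 152) (nat_lit 0) (XT.lf (nat_lit 0) (nat_lit 2408596771) (nat_lit 228) (nat_lit 5907887856) (nat_lit 76) (nat_lit 8103585121) (nat_lit 21) (nat_lit 5) (nat_lit 24) (nat_lit 5) (nat_lit 22) (nat_lit 4) (nat_lit 331) (nat_lit 292) (nat_lit 277)) (XT.nd (nat_lit 78) (nat_lit 76) (nat_lit 0) (XT.lf (nat_lit 0) (nat_lit 7227593106) (nat_lit 76) (nat_lit 1768968742) (nat_lit 152) (nat_lit 8353322482) (nat_lit 20) (nat_lit 5) (nat_lit 21) (nat_lit 5) (nat_lit 22) (nat_lit 4) (nat_lit 332) (nat_lit 292) (nat_lit 276)) (XT.lf (nat_lit 0) (nat_lit 2889567647) (nat_lit 76) (nat_lit 13235686654) (nat_lit 76) (nat_lit 2228248535) (nat_lit 19) (nat_lit 4) (nat_lit 20) (nat_lit 5) (nat_lit 20) (nat_lit 4) (nat_lit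 333) (nat_lit 292) (nat_lit 275)))))) (XT.nd (nat_lit 468) (nat_lit 304) (nat_lit 0) (XT.nd (nat_lit 234) (nat_lit 152) (nat_lit 0) (XT.nd (nat_lit 78) (nat_lit 152) (nat_lit 0) (XT.lf (nat_lit 0) (nat_lit 4243468075) (nat_lit 152) (nat_lit 2610313872) (nat_lit 76) (nat_lit 12580443261) (nat_lit 18) (nat_lit 5) (nat_lit 20) (nat_lit 5) (nat_lit 19) (nat_lit 4) (nat_lit 334) (nat_lit 292) (nat_lit 274)) (XT.nd (nat_lit 78) (nat_lit 76) (nat_lit 0) (XT.lf (nat_lit 0) (nat_lit 11136661260) (nat_lit 152) (nat_lit 9364430856) (nat_lit 0) (nat_lit 99480826) (nat_lit 17) (nat_lit 5) (nat_lit 19) (nat_lit 4) (nat_lit 17) (nat_lit 4) (nat_lit 335) (nat_lit 292) (nat_lit 273)) (XT.lf (nat_lit 0) (nat_lit 4092805599) (nat_lit 76) (nat_lit 14524722728) (nat_lit 76) (nat_lit 3240967315) (nat_lit 16) (nat_lit 4) (nat_lit 17) (nat_lit 5) (nat_lit 17) (nat_lit 4) (nat_lit 336) (nat_lit 292) (nat_lit 272))))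 (XT.nd (nat_lit 78) (nat_lit 76) (nat_lit 0) (XT.lf (nat_lit 0) (nat_lit 3350583476) (nat_lit 152) (nat_lit 4643369452) (nat_lit 76) (nat_lit 15221344264) (nat_lit 15) (nat_lit 5) (nat_lit 17) (nat_lit 5) (nat_lit 16) (nat_lit 4) (nat_lit 337) (nat_lit 292) (nat_lit 271)) (XT.nd (nat_lit 78) (nat_lit 0) (nat_lit 0) (XT.lf (nat_lit 0) (nat_lit 9463563300) (nat_lit 76) (nat_lit 871571910) (nat_lit 152) (nat_lit 14343953641) (nat_lit 14) (nat_lit 5) (nat_lit 15) (nat_lit 5) (nat_lit 16) (nat_lit 4) (nat_lit 338) (nat_lit 292) (nat_lit 270)) (XT.lf (nat_lit 0) (nat_lit 17902870037) (nat_lit 152) (nat_lit 1804703797) (nat_lit 0) (nat_lit 6551248084) (nat_lit 14) (nat_lit 5) (nat_lit 16) (nat_lit 4) (nat_lit 14) (nat_lit 4) (nat_lit 339) (nat_lit 292) (nat_lit 269))))) (XT.nd (nat_lit 234) (nat_lit 76) (nat_lit 0) (XT.nd (nat_lit 78) (nat_lit 152) (nat_lit 0) (XT.lf (nat_lit 0) (nat_lit 12790502789)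 (nat_lit 76) (nat_lit 13347801456) (nat_lit 76) (nat_lit 1823570007) (nat_lit 13) (nat_lit 4) (nat_lit 14) (nat_lit 5) (nat_lit 14) (nat_lit 4) (nat_lit 340) (nat_lit 292) (nat_lit 268)) (XT.nd (nat_lit 78) (nat_lit 76) (nat_lit 0) (XT.lf (nat_lit 0) (nat_lit 4948417187) (nat_lit 152) (nat_lit 1539799821) (nat_lit 76) (nat_lit 23314695498) (nat_lit 12) (nat_lit 5) (nat_lit 14) (nat_lit 5) (nat_lit 13) (nat_lit 4) (nat_lit 341) (nat_lit 292) (nat_lit 267)) (XT.lf (nat_lit 0) (nat_lit 12286983137) (nat_lit 152) (nat_lit 18479991409) (nat_lit 0) (nat_lit 1018373730) (nat_lit 11) (nat_lit 5) (nat_lit 13) (nat_lit 4) (nat_lit 11) (nat_lit 4) (nat_lit 342) (nat_lit 292) (nat_lit 266)))) (XT.nd (nat_lit 78) (nat_lit 76) (nat_lit 0) (XT.lf (nat_lit 0) (nat_lit 20217249164) (nat_lit 152) (nat_lit 4890798645) (nat_lit 0) (nat_lit 8818141677) (nat_lit 11) (nat_lit 5) (nat_lit 13) (nat_lit 4) (nat_lit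 11) (nat_lit 4) (nat_lit 343) (nat_lit 292) (nat_lit 265)) (XT.nd (nat_lit 78) (nat_lit 0) (nat_lit 0) (XT.lf (nat_lit 0) (nat_lit 9870876071) (nat_lit 76) (nat_lit 18942903532) (nat_lit 76) (nat_lit 7422964490) (nat_lit 10) (nat_lit 4) (nat_lit 11) (nat_lit 5) (nat_lit 11) (nat_lit 4) (nat_lit 344) (nat_lit 292) (nat_lit 264)) (XT.lf (nat_lit 0) (nat_lit 25767571324) (nat_lit 76) (nat_lit 12299000164) (nat_lit 76) (nat_lit 667180053) (nat_lit 10) (nat_lit 4) (nat_lit 11) (nat_lit 5) (nat_lit 11) (nat_lit 4) (nat_lit 345) (nat_lit 292) (nat_lit 263))))))))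
noncomputable def xc33 : XT := (XT.nd (nat_lit 1716) (nat_lit 0) (nat_lit 0) (XT.nd (nat_lit 858) (nat_lit 228) (nat_lit 0) (XT.nd (nat_lit 390) (nat_lit 152) (nat_lit 0) (XT.nd (nat_lit 156) (nat_lit 76) (nat_lit 0) (XT.nd (nat_lit 78) (nat_lit 0) (nat_lit 0) (XT.lf (nat_lit 0) (nat_lit 1233579938) (nat_lit 76) (nat_lit 5092758418) (nat_lit 152) (nat_lit 35103565413) (nat_lit 8) (nat_lit 5) (nat_lit 9) (nat_lit 5) (nat_lit 10) (nat_lit 4) (nat_lit 346) (nat_lit 292) (nat_lit 262)) (XT.lf (nat_lit 0) (nat_lit 14021583774) (nat_lit 152) (nat_lit 27557718504) (nat_lit 0) (nat_lit 2753646939) (nat_lit 8) (nat_lit 5) (nat_lit 10) (nat_lit 4) (nat_lit 8) (nat_lit 4) (nat_lit 347) (nat_lit 292) (nat_lit 261))) (XT.nd (nat_lit 78) (nat_lit 76) (nat_lit 0) (XT.lf (nat_lit 0) (nat_lit 22319937267) (nat_lit 152) (nat_lit 14181538484) (nat_lit 0) (nat_lit 10967414908) (nat_lit 8) (nat_lit 5) (nat_lit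 10) (nat_lit 4) (nat_lit 8) (nat_lit 4) (nat_lit 348) (nat_lit 292) (nat_lit 260)) (XT.nd (nat_lit 78) (nat_lit 0) (nat_lit 0) (XT.lf (nat_lit 0) (nat_lit 94003406) (nat_lit 76) (nat_lit 31098526282) (nat_lit 76) (nat_lit 19667683993) (nat_lit 7) (nat_lit 4) (nat_lit 8) (nat_lit 5) (nat_lit 8) (nat_lit 4) (nat_lit 349) (nat_lit 292) (nat_lit 259)) (XT.lf (nat_lit 0) (nat_lit 15851816168) (nat_lit 76) (nat_lit 25083202804) (nat_lit 76) (nat_lit 13579842061) (nat_lit 7) (nat_lit 4) (nat_lit 8) (nat_lit 5) (nat_lit 8) (nat_lit 4) (nat_lit 350) (nat_lit 292) (nat_lit 258))))) (XT.nd (nat_lit 234) (nat_lit 0) (nat_lit 0) (XT.nd (nat_lit 78) (nat_lit 152) (nat_lit 0) (XT.lf (nat_lit 0) (nat_lit 32716373725) (nat_lit 76) (nat_lit 18660030171) (nat_lit 76) (nat_lit 7089522712) (nat_lit 7) (nat_lit 4) (nat_lit 8) (nat_lit 5) (nat_lit 8) (nat_lit 4) (nat_lit 351) (nat_lit 292) (nat_lit 257)) (XT.nd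 (nat_lit 78) (nat_lit 152) (nat_lit 0) (XT.lf (nat_lit 0) (nat_lit 50787614195) (nat_lit 76) (nat_lit 11790945138) (nat_lit 76) (nat_lit 158264795) (nat_lit 7) (nat_lit 4) (nat_lit 8) (nat_lit 5) (nat_lit 8) (nat_lit 4) (nat_lit 352) (nat_lit 292) (nat_lit 256)) (XT.lf (nat_lit 0) (nat_lit 2795981697) (nat_lit 76) (nat_lit 4270471730) (nat_lit 152) (nat_lit 60278562984) (nat_lit 5) (nat_lit 5) (nat_lit 6) (nat_lit 5) (nat_lit 7) (nat_lit 4) (nat_lit 353) (nat_lit 292) (nat_lit 255)))) (XT.nd (nat_lit 78) (nat_lit 0) (nat_lit 0) (XT.lf (nat_lit 0) (nat_lit 15067438195) (nat_lit 152) (nat_lit 53361016679) (nat_lit 0) (nat_lit 3883103854) (nat_lit 5) (nat_lit 5) (nat_lit 7) (nat_lit 4) (nat_lit 5) (nat_lit 4) (nat_lit 354) (nat_lit 292) (nat_lit 254)) (XT.nd (nat_lit 78) (nat_lit 0) (nat_lit 0) (XT.lf (nat_lit 0) (nat_lit 23717607027) (nat_lit 152) (nat_lit 41471108947) (nat_lit 0) (nat_lit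 12486268076) (nat_lit 5) (nat_lit 5) (nat_lit 7) (nat_lit 4) (nat_lit 5) (nat_lit 4) (nat_lit 355) (nat_lit 292) (nat_lit 253)) (XT.lf (nat_lit 0) (nat_lit 33001546151) (nat_lit 152) (nat_lit 28742178772) (nat_lit 0) (nat_lit 21726684414) (nat_lit 5) (nat_lit 5) (nat_lit 7) (nat_lit 4) (nat_lit 5) (nat_lit 4) (nat_lit 356) (nat_lit 292) (nat_lit 252)))))) (XT.nd (nat_lit 390) (nat_lit 152) (nat_lit 0) (XT.nd (nat_lit 156) (nat_lit 76) (nat_lit 0) (XT.nd (nat_lit 78) (nat_lit 0) (nat_lit 0) (XT.lf (nat_lit 0) (nat_lit 42974271504) (nat_lit 152) (nat_lit 15098795459) (nat_lit 0) (nat_lit 31659110890) (nat_lit 5) (nat_lit 5) (nat_lit 7) (nat_lit 4) (nat_lit 5) (nat_lit 4) (nat_lit 357) (nat_lit 292) (nat_lit 251)) (XT.lf (nat_lit 0) (nat_lit 53694880717) (nat_lit 152) (nat_lit 460109327) (nat_lit 0) (nat_lit 42342406327) (nat_lit 5) (nat_lit 5) (nat_lit 7) (nat_lit 4) (nat_lit 5) (nat_lit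 4) (nat_lit 358) (nat_lit 292) (nat_lit 250))) (XT.nd (nat_lit 78) (nat_lit 0) (nat_lit 0) (XT.lf (nat_lit 0) (nat_lit 15765212652) (nat_lit 76) (nat_lit 49707829825) (nat_lit 76) (nat_lit 38320805643) (nat_lit 4) (nat_lit 4) (nat_lit 5) (nat_lit 5) (nat_lit 5) (nat_lit 4) (nat_lit 359) (nat_lit 292) (nat_lit 249)) (XT.nd (nat_lit 78) (nat_lit 0) (nat_lit 0) (XT.lf (nat_lit 0) (nat_lit 33219816200) (nat_lit 76) (nat_lit 44937515471) (nat_lit 76) (nat_lit 33518500742) (nat_lit 4) (nat_lit 4) (nat_lit 5) (nat_lit 5) (nat_lit 5) (nat_lit 4) (nat_lit 360) (nat_lit 292) (nat_lit 248)) (XT.lf (nat_lit 0) (nat_lit 51991922712) (nat_lit 76) (nat_lit 39823570628) (nat_lit 76) (nat_lit 28374935021) (nat_lit 4) (nat_lit 4) (nat_lit 5) (nat_lit 5) (nat_lit 5) (nat_lit 4) (nat_lit 361) (nat_lit 292) (nat_lit 247))))) (XT.nd (nat_lit 234) (nat_lit 152) (nat_lit 0) (XT.nd (nat_lit 78) (nat_lit 0) (nat_lit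 0) (XT.lf (nat_lit 0) (nat_lit 72192774300) (nat_lit 76) (nat_lit 34335690438) (nat_lit 76) (nat_lit 22859628092) (nat_lit 4) (nat_lit 4) (nat_lit 5) (nat_lit 5) (nat_lit 5) (nat_lit 4) (nat_lit 362) (nat_lit 292) (nat_lit 246)) (XT.nd (nat_lit 78) (nat_lit 0) (nat_lit 0) (XT.lf (nat_lit 0) (nat_lit 93942079715) (nat_lit 76) (nat_lit 28441354128) (nat_lit 76) (nat_lit 16939896654) (nat_lit 4) (nat_lit 4) (nat_lit 5) (nat_lit 5) (nat_lit 5) (nat_lit 4) (nat_lit 363) (nat_lit 292) (nat_lit 245)) (XT.lf (nat_lit 0) (nat_lit 117368723728) (nat_lit 76) (nat_lit 22105632298) (nat_lit 76) (nat_lit 10580660817) (nat_lit 4) (nat_lit 4) (nat_lit 5) (nat_lit 5) (nat_lit 5) (nat_lit 4) (nat_lit 364) (nat_lit 292) (nat_lit 244)))) (XT.nd (nat_lit 78) (nat_lit 152) (nat_lit 0) (XT.lf (nat_lit 0) (nat_lit 142611530898) (nat_lit 76) (nat_lit 15290979931) (nat_lit 76) (nat_lit 3744236220) (nat_lit 4) (nat_lit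 4) (nat_lit 5) (nat_lit 5) (nat_lit 5) (nat_lit 4) (nat_lit 365) (nat_lit 292) (nat_lit 243)) (XT.nd (nat_lit 78) (nat_lit 76) (nat_lit 0) (XT.lf (nat_lit 0) (nat_lit 3494350280) (nat_lit 152) (nat_lit 4403485108) (nat_lit 76) (nat_lit 166266559437) (nat_lit 3) (nat_lit 5) (nat_lit 5) (nat_lit 5) (nat_lit 4) (nat_lit 4) (nat_lit 366) (nat_lit 292) (nat_lit 242)) (XT.lf (nat_lit 0) (nat_lit 11343424392) (nat_lit 152) (nat_lit 176019288777) (nat_lit 0) (nat_lit 309548811) (nat_lit 2) (nat_lit 5) (nat_lit 4) (nat_lit 4) (nat_lit 2) (nat_lit 4) (nat_lit 367) (nat_lit 292) (nat_lit 241))))))) (XT.nd (nat_lit 858) (nat_lit 0) (nat_lit 0) (XT.nd (nat_lit 390) (nat_lit 0) (nat_lit 0) (XT.nd (nat_lit 156) (nat_lit 0) (nat_lit 0) (XT.nd (nat_lit 78) (nat_lit 0) (nat_lit 0) (XT.lf (nat_lit 0) (nat_lit 20006195682) (nat_lit 152) (nat_lit 173289419847) (nat_lit 0) (nat_lit 8955859627) (nat_lit 2) (nat_lit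 5) (nat_lit 4) (nat_lit 4) (nat_lit 2) (nat_lit 4) (nat_lit 368) (nat_lit 292) (nat_lit 240)) (XT.lf (nat_lit 0) (nat_lit 29338503467) (nat_lit 152) (nat_lit 170386774773) (nat_lit 0) (nat_lit 18272926233) (nat_lit 2) (nat_lit 5) (nat_lit 4) (nat_lit 4) (nat_lit 2) (nat_lit 4) (nat_lit 369) (nat_lit 292) (nat_lit 239))) (XT.nd (nat_lit 78) (nat_lit 0) (nat_lit 0) (XT.lf (nat_lit 0) (nat_lit 39395650312) (nat_lit 152) (nat_lit 167294152696) (nat_lit 0) (nat_lit 28315960874) (nat_lit 2) (nat_lit 5) (nat_lit 4) (nat_lit 4) (nat_lit 2) (nat_lit 4) (nat_lit 370) (nat_lit 292) (nat_lit 238)) (XT.nd (nat_lit 78) (nat_lit 0) (nat_lit 0) (XT.lf (nat_lit 0) (nat_lit 50237234123) (nat_lit 152) (nat_lit 163993226967) (nat_lit 0) (nat_lit 39144477830) (nat_lit 2) (nat_lit 5) (nat_lit 4) (nat_lit 4) (nat_lit 2) (nat_lit 4) (nat_lit 371) (nat_lit 292) (nat_lit 237)) (XT.lf (nat_lit 0) (nat_lit 61927501323)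 (nat_lit 152) (nat_lit 160464436544) (nat_lit 0) (nat_lit 50822646091) (nat_lit 2) (nat_lit 5) (nat_lit 4) (nat_lit 4) (nat_lit 2) (nat_lit 4) (nat_lit 372) (nat_lit 292) (nat_lit 236))))) (XT.nd (nat_lit 234) (nat_lit 0) (nat_lit 0) (XT.nd (nat_lit 78) (nat_lit 0) (nat_lit 0) (XT.lf (nat_lit 0) (nat_lit 74535727570) (nat_lit 152) (nat_lit 156686870076) (nat_lit 0) (nat_lit 63419669615) (nat_lit 2) (nat_lit 5) (nat_lit 4) (nat_lit 4) (nat_lit 2) (nat_lit 4) (nat_lit 373) (nat_lit 292) (nat_lit 235)) (XT.nd (nat_lit 78) (nat_lit 0) (nat_lit 0) (XT.lf (nat_lit 0) (nat_lit 88136628278) (nat_lit 152) (nat_lit 152638141985) (nat_lit 0) (nat_lit 77010197433) (nat_lit 2) (nat_lit 5) (nat_lit 4) (nat_lit 4) (nat_lit 2) (nat_lit 4) (nat_lit 374) (nat_lit 292) (nat_lit 234)) (XT.lf (nat_lit 0) (nat_lit 102810801377) (nat_lit 152) (nat_lit 148294259807) (nat_lit 0) (nat_lit 91674766004) (nat_lit 2)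 (nat_lit 5) (nat_lit 4) (nat_lit 4) (nat_lit 2) (nat_lit 4) (nat_lit 375) (nat_lit 292) (nat_lit 233)))) (XT.nd (nat_lit 78) (nat_lit 0) (nat_lit 0) (XT.lf (nat_lit 0) (nat_lit 118645204931) (nat_lit 152) (nat_lit 143629482019) (nat_lit 0) (nat_lit 107500276476) (nat_lit 2) (nat_lit 5) (nat_lit 4) (nat_lit 4) (nat_lit 2) (nat_lit 4) (nat_lit 376) (nat_lit 292) (nat_lit 232)) (XT.nd (nat_lit 78) (nat_lit 0) (nat_lit 0) (XT.lf (nat_lit 0) (nat_lit 135733672442) (nat_lit 152) (nat_lit 138616165493) (nat_lit 0) (nat_lit 124580509652) (nat_lit 2) (nat_lit 5) (nat_lit 4) (nat_lit 4) (nat_lit 2) (nat_lit 4) (nat_lit 377) (nat_lit 292) (nat_lit 231)) (XT.lf (nat_lit 0) (nat_lit 154177468902) (nat_lit 152) (nat_lit 133224601686) (nat_lit 0) (nat_lit 143016681728) (nat_lit 2) (nat_lit 5) (nat_lit 4) (nat_lit 4) (nat_lit 2) (nat_lit 4) (nat_lit 378) (nat_lit 292) (nat_lit 230)))))) (XT.nd (nat_lit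 468) (nat_lit 0) (nat_lit 0) (XT.nd (nat_lit 234) (nat_lit 0) (nat_lit 0) (XT.nd (nat_lit 78) (nat_lit 0) (nat_lit 0) (XT.lf (nat_lit 0) (nat_lit 174085890884) (nat_lit 152) (nat_lit 127422840591) (nat_lit 0) (nat_lit 162918044094) (nat_lit 2) (nat_lit 5) (nat_lit 4) (nat_lit 4) (nat_lit 2) (nat_lit 4) (nat_lit 379) (nat_lit 292) (nat_lit 229)) (XT.nd (nat_lit 78) (nat_lit 0) (nat_lit 0) (XT.lf (nat_lit 0) (nat_lit 195576914221) (nat_lit 152) (nat_lit 121176501402) (nat_lit 0) (nat_lit 184402530750) (nat_lit 2) (nat_lit 5) (nat_lit 4) (nat_lit 4) (nat_lit 2) (nat_lit 4) (nat_lit 380) (nat_lit 292) (nat_lit 228)) (XT.lf (nat_lit 0) (nat_lit 218777893125) (nat_lit 152) (nat_lit 114448568774) (nat_lit 0) (nat_lit 207597457172) (nat_lit 2) (nat_lit 5) (nat_lit 4) (nat_lit 4) (nat_lit 2) (nat_lit 4) (nat_lit 381) (nat_lit 292) (nat_lit 227)))) (XT.nd (nat_lit 78) (nat_lit 0) (nat_lit 0) (XT.lf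 (nat_lit 0) (nat_lit 243826314879) (nat_lit 152) (nat_lit 107199173478) (nat_lit 0) (nat_lit 232640274776) (nat_lit 2) (nat_lit 5) (nat_lit 4) (nat_lit 4) (nat_lit 2) (nat_lit 4) (nat_lit 382) (nat_lit 292) (nat_lit 226)) (XT.nd (nat_lit 78) (nat_lit 0) (nat_lit 0) (XT.lf (nat_lit 0) (nat_lit 270870614575) (nat_lit 152) (nat_lit 99385356135) (nat_lit 0) (nat_lit 259679385444) (nat_lit 2) (nat_lit 5) (nat_lit 4) (nat_lit 4) (nat_lit 2) (nat_lit 4) (nat_lit 383) (nat_lit 292) (nat_lit 225)) (XT.lf (nat_lit 0) (nat_lit 300071054729) (nat_lit 152) (nat_lit 90960812640) (nat_lit 0) (nat_lit 288875020943) (nat_lit 2) (nat_lit 5) (nat_lit 4) (nat_lit 4) (nat_lit 2) (nat_lit 4) (nat_lit 384) (nat_lit 292) (nat_lit 224))))) (XT.nd (nat_lit 234) (nat_lit 0) (nat_lit 0) (XT.nd (nat_lit 78) (nat_lit 0) (nat_lit 0) (XT.lf (nat_lit 0) (nat_lit 331600674987) (nat_lit 152) (nat_lit 81875619775) (nat_lit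 0) (nat_lit 320400192446) (nat_lit 2) (nat_lit 5) (nat_lit 4) (nat_lit 4) (nat_lit 2) (nat_lit 4) (nat_lit 385) (nat_lit 292) (nat_lit 223)) (XT.nd (nat_lit 78) (nat_lit 0) (nat_lit 0) (XT.lf (nat_lit 0) (nat_lit 365646317543) (nat_lit 152) (nat_lit 72075939357) (nat_lit 0) (nat_lit 354441715784) (nat_lit 2) (nat_lit 5) (nat_lit 4) (nat_lit 4) (nat_lit 2) (nat_lit 4) (nat_lit 386) (nat_lit 292) (nat_lit 222)) (XT.lf (nat_lit 0) (nat_lit 402409734353) (nat_lit 152) (nat_lit 61503699209) (nat_lit 0) (nat_lit 391201318504) (nat_lit 2) (nat_lit 5) (nat_lit 4) (nat_lit 4) (nat_lit 2) (nat_lit 4) (nat_lit 387) (nat_lit 292) (nat_lit 221)))) (XT.nd (nat_lit 78) (nat_lit 0) (nat_lit 0) (XT.lf (nat_lit 0) (nat_lit 442108782702) (nat_lit 152) (nat_lit 50096249016) (nat_lit 0) (nat_lit 430896835287) (nat_lit 2) (nat_lit 5) (nat_lit 4) (nat_lit 4) (nat_lit 2) (nat_lit 4) (nat_lit 388) (nat_lit 292)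 (nat_lit 220)) (XT.nd (nat_lit 78) (nat_lit 0) (nat_lit 0) (XT.lf (nat_lit 0) (nat_lit 484978716209) (nat_lit 152) (nat_lit 37785989076) (nat_lit 0) (nat_lit 473763498827) (nat_lit 2) (nat_lit 5) (nat_lit 4) (nat_lit 4) (nat_lit 2) (nat_lit 4) (nat_lit 389) (nat_lit 292) (nat_lit 219)) (XT.lf (nat_lit 0) (nat_lit 531273578924) (nat_lit 152) (nat_lit 24499969698) (nat_lit 0) (nat_lit 520055333795) (nat_lit 2) (nat_lit 5) (nat_lit 4) (nat_lit 4) (nat_lit 2) (nat_lit 4) (nat_lit 390) (nat_lit 292) (nat_lit 218))))))))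
noncomputable def xc34 : XT := (XT.nd (nat_lit 42432) (nat_lit 0) (nat_lit 304) (XT.nd (nat_lit 41574) (nat_lit 0) (nat_lit 1444) (XT.nd (nat_lit 41106) (nat_lit 0) (nat_lit 3116) (XT.nd (nat_lit 40872) (nat_lit 0) (nat_lit 4636) (XT.nd (nat_lit 78) (nat_lit 76) (nat_lit 0) (XT.lf (nat_lit 0) (nat_lit 581267710777) (nat_lit 152) (nat_lit 10159458917) (nat_lit 0) (nat_lit 570046662176) (nat_lit 2) (nat_lit 5) (nat_lit 4) (nat_lit 4) (nat_lit 2) (nat_lit 4) (nat_lit 391) (nat_lit 292) (nat_lit 217)) (XT.lf (nat_lit 0) (nat_lit 5496444626) (nat_lit 76) (nat_lit 629846743565) (nat_lit 76) (nat_lit 618623099159) (nat_lit 1) (nat_lit 4) (nat_lit 2) (nat_lit 5) (nat_lit 2) (nat_lit 4) (nat_lit 392) (nat_lit 292) (nat_lit 216))) (XT.nd (nat_lit 78) (nat_lit 988) (nat_lit 0) (XT.lf (nat_lit 0) (nat_lit 3846489165) (nat_lit 304) (nat_lit 69097984) (nat_lit 304) (nat_lit 69097984) (nat_lit 75) (nat_lit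 4) (nat_lit 79) (nat_lit 5) (nat_lit 79) (nat_lit 4) (nat_lit 314) (nat_lit 293) (nat_lit 293)) (XT.nd (nat_lit 78) (nat_lit 304) (nat_lit 0) (XT.lf (nat_lit 0) (nat_lit 1111367868) (nat_lit 304) (nat_lit 4484184533) (nat_lit 304) (nat_lit 2612135988) (nat_lit 66) (nat_lit 4) (nat_lit 70) (nat_lit 5) (nat_lit 70) (nat_lit 4) (nat_lit 315) (nat_lit 293) (nat_lit 292)) (XT.lf (nat_lit 0) (nat_lit 2571144994) (nat_lit 228) (nat_lit 441816869) (nat_lit 304) (nat_lit 5459880947) (nat_lit 62) (nat_lit 5) (nat_lit 65) (nat_lit 5) (nat_lit 66) (nat_lit 4) (nat_lit 316) (nat_lit 293) (nat_lit 291))))) (XT.nd (nat_lit 234) (nat_lit 608) (nat_lit 0) (XT.nd (nat_lit 78) (nat_lit 532) (nat_lit 0) (XT.lf (nat_lit 0) (nat_lit 107066006) (nat_lit 380) (nat_lit 4742806797) (nat_lit 76) (nat_lit 3913707236) (nat_lit 57) (nat_lit 5) (nat_lit 62) (nat_lit 5) (nat_lit 58) (nat_lit 4) (nat_lit 317) (nat_lit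 293) (nat_lit 290)) (XT.nd (nat_lit 78) (nat_lit 304) (nat_lit 0) (XT.lf (nat_lit 0) (nat_lit 5447192818) (nat_lit 228) (nat_lit 321007723) (nat_lit 304) (nat_lit 3313321197) (nat_lit 54) (nat_lit 5) (nat_lit 57) (nat_lit 5) (nat_lit 58) (nat_lit 4) (nat_lit 318) (nat_lit 293) (nat_lit 289)) (XT.lf (nat_lit 0) (nat_lit 2296838059) (nat_lit 304) (nat_lit 2613487215) (nat_lit 76) (nat_lit 4517123520) (nat_lit 50) (nat_lit 5) (nat_lit 54) (nat_lit 5) (nat_lit 51) (nat_lit 4) (nat_lit 319) (nat_lit 293) (nat_lit 288)))) (XT.nd (nat_lit 78) (nat_lit 456) (nat_lit 0) (XT.lf (nat_lit 0) (nat_lit 8108590090) (nat_lit 228) (nat_lit 1661999993) (nat_lit 0) (nat_lit 34649429) (nat_lit 48) (nat_lit 5) (nat_lit 51) (nat_lit 4) (nat_lit 48) (nat_lit 4) (nat_lit 320) (nat_lit 293) (nat_lit 287)) (XT.nd (nat_lit 78) (nat_lit 152) (nat_lit 0) (XT.lf (nat_lit 0) (nat_lit 3997805832) (nat_lit 304) (nat_lit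 897514943) (nat_lit 76) (nat_lit 5317017752) (nat_lit 44) (nat_lit 5) (nat_lit 48) (nat_lit 5) (nat_lit 45) (nat_lit 4) (nat_lit 321) (nat_lit 293) (nat_lit 286)) (XT.lf (nat_lit 0) (nat_lit 9983832034) (nat_lit 228) (nat_lit 247134781) (nat_lit 0) (nat_lit 425159641) (nat_lit 42) (nat_lit 5) (nat_lit 45) (nat_lit 4) (nat_lit 42) (nat_lit 4) (nat_lit 322) (nat_lit 293) (nat_lit 285)))))) (XT.nd (nat_lit 390) (nat_lit 684) (nat_lit 0) (XT.nd (nat_lit 156) (nat_lit 456) (nat_lit 0) (XT.nd (nat_lit 78) (nat_lit 152) (nat_lit 0) (XT.lf (nat_lit 0) (nat_lit 123702710) (nat_lit 152) (nat_lit 5005304248) (nat_lit 228) (nat_lit 6003226395) (nat_lit 37) (nat_lit 5) (nat_lit 39) (nat_lit 5) (nat_lit 40) (nat_lit 4) (nat_lit 323) (nat_lit 293) (nat_lit 284)) (XT.lf (nat_lit 0) (nat_lit 305015885) (nat_lit 152) (nat_lit 10987372876) (nat_lit 152) (nat_lit 357644794) (nat_lit 35) (nat_lit 4) (nat_lit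 37) (nat_lit 5) (nat_lit 37) (nat_lit 4) (nat_lit 324) (nat_lit 293) (nat_lit 283))) (XT.nd (nat_lit 78) (nat_lit 228) (nat_lit 0) (XT.lf (nat_lit 0) (nat_lit 78591346) (nat_lit 152) (nat_lit 5476399474) (nat_lit 228) (nat_lit 6650035774) (nat_lit 32) (nat_lit 5) (nat_lit 34) (nat_lit 5) (nat_lit 35) (nat_lit 4) (nat_lit 325) (nat_lit 293) (nat_lit 282)) (XT.nd (nat_lit 78) (nat_lit 228) (nat_lit 0) (XT.lf (nat_lit 0) (nat_lit 11866307319) (nat_lit 228) (nat_lit 444528870) (nat_lit 0) (nat_lit 496569420) (nat_lit 32) (nat_lit 5) (nat_lit 35) (nat_lit 4) (nat_lit 32) (nat_lit 4) (nat_lit 326) (nat_lit 293) (nat_lit 281)) (XT.lf (nat_lit 0) (nat_lit 5087812082) (nat_lit 228) (nat_lit 1494471768) (nat_lit 76) (nat_lit 6870256066) (nat_lit 29) (nat_lit 5) (nat_lit 32) (nat_lit 5) (nat_lit 30) (nat_lit 4) (nat_lit 327) (nat_lit 293) (nat_lit 280))))) (XT.nd (nat_lit 234) (nat_lit 304) (nat_lit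 0) (XT.nd (nat_lit 78) (nat_lit 304) (nat_lit 0) (XT.lf (nat_lit 0) (nat_lit 11150009136) (nat_lit 76) (nat_lit 356406386) (nat_lit 152) (nat_lit 2645235354) (nat_lit 28) (nat_lit 5) (nat_lit 29) (nat_lit 5) (nat_lit 30) (nat_lit 4) (nat_lit 328) (nat_lit 293) (nat_lit 279)) (XT.nd (nat_lit 78) (nat_lit 76) (nat_lit 0) (XT.lf (nat_lit 0) (nat_lit 3464927784) (nat_lit 228) (nat_lit 5195707784) (nat_lit 76) (nat_lit 6241127081) (nat_lit 25) (nat_lit 5) (nat_lit 28) (nat_lit 5) (nat_lit 26) (nat_lit 4) (nat_lit 329) (nat_lit 293) (nat_lit 278)) (XT.lf (nat_lit 0) (nat_lit 7628899452) (nat_lit 76) (nat_lit 2296523084) (nat_lit 152) (nat_lit 5786709334) (nat_lit 24) (nat_lit 5) (nat_lit 25) (nat_lit 5) (nat_lit 26) (nat_lit 4) (nat_lit 330) (nat_lit 293) (nat_lit 277)))) (XT.nd (nat_lit 78) (nat_lit 76) (nat_lit 0) (XT.lf (nat_lit 0) (nat_lit 326639326) (nat_lit 228) (nat_lit 11812824208) (nat_lit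 76) (nat_lit 4446666950) (nat_lit 21) (nat_lit 5) (nat_lit 24) (nat_lit 5) (nat_lit 22) (nat_lit 4) (nat_lit 331) (nat_lit 293) (nat_lit 276)) (XT.nd (nat_lit 78) (nat_lit 0) (nat_lit 0) (XT.lf (nat_lit 0) (nat_lit 941773147) (nat_lit 76) (nat_lit 5773670421) (nat_lit 152) (nat_lit 10810509188) (nat_lit 20) (nat_lit 5) (nat_lit 21) (nat_lit 5) (nat_lit 22) (nat_lit 4) (nat_lit 332) (nat_lit 293) (nat_lit 275)) (XT.lf (nat_lit 0) (nat_lit 13639093634) (nat_lit 152) (nat_lit 3777844691) (nat_lit 0) (nat_lit 1122931022) (nat_lit 20) (nat_lit 5) (nat_lit 22) (nat_lit 4) (nat_lit 20) (nat_lit 4) (nat_lit 333) (nat_lit 293) (nat_lit 274))))))) (XT.nd (nat_lit 858) (nat_lit 456) (nat_lit 0) (XT.nd (nat_lit 390) (nat_lit 228) (nat_lit 0) (XT.nd (nat_lit 156) (nat_lit 228) (nat_lit 0) (XT.nd (nat_lit 78) (nat_lit 76) (nat_lit 0) (XT.lf (nat_lit 0) (nat_lit 1500173519) (nat_lit 152) (nat_lit 9720422923)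 (nat_lit 76) (nat_lit 8409937343) (nat_lit 18) (nat_lit 5) (nat_lit 20) (nat_lit 5) (nat_lit 19) (nat_lit 4) (nat_lit 334) (nat_lit 293) (nat_lit 273)) (XT.lf (nat_lit 0) (nat_lit 3728965594) (nat_lit 76) (nat_lit 4458179752) (nat_lit 152) (nat_lit 12620084774) (nat_lit 17) (nat_lit 5) (nat_lit 18) (nat_lit 5) (nat_lit 19) (nat_lit 4) (nat_lit 335) (nat_lit 293) (nat_lit 272))) (XT.nd (nat_lit 78) (nat_lit 228) (nat_lit 0) (XT.lf (nat_lit 0) (nat_lit 15450166218) (nat_lit 152) (nat_lit 3837088441) (nat_lit 0) (nat_lit 2788825225) (nat_lit 17) (nat_lit 5) (nat_lit 19) (nat_lit 4) (nat_lit 17) (nat_lit 4) (nat_lit 336) (nat_lit 293) (nat_lit 271)) (XT.nd (nat_lit 78) (nat_lit 152) (nat_lit 0) (XT.lf (nat_lit 0) (nat_lit 10423958026) (nat_lit 76) (nat_lit 12945755789) (nat_lit 76) (nat_lit 73016494) (nat_lit 16) (nat_lit 4) (nat_lit 17) (nat_lit 5) (nat_lit 17) (nat_lit 4) (nat_lit 337) (nat_lit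 293) (nat_lit 270)) (XT.lf (nat_lit 0) (nat_lit 668276233) (nat_lit 76) (nat_lit 6032579716) (nat_lit 152) (nat_lit 18216402209) (nat_lit 14) (nat_lit 5) (nat_lit 15) (nat_lit 5) (nat_lit 16) (nat_lit 4) (nat_lit 338) (nat_lit 293) (nat_lit 269))))) (XT.nd (nat_lit 234) (nat_lit 76) (nat_lit 0) (XT.nd (nat_lit 78) (nat_lit 152) (nat_lit 0) (XT.lf (nat_lit 0) (nat_lit 14114882551) (nat_lit 152) (nat_lit 10893717269) (nat_lit 0) (nat_lit 1496103090) (nat_lit 14) (nat_lit 5) (nat_lit 16) (nat_lit 4) (nat_lit 14) (nat_lit 4) (nat_lit 339) (nat_lit 293) (nat_lit 268)) (XT.nd (nat_lit 78) (nat_lit 76) (nat_lit 0) (XT.lf (nat_lit 0) (nat_lit 3270746846) (nat_lit 76) (nat_lit 18863226483) (nat_lit 76) (nat_lit 6084623415) (nat_lit 13) (nat_lit 4) (nat_lit 14) (nat_lit 5) (nat_lit 14) (nat_lit 4) (nat_lit 340) (nat_lit 293) (nat_lit 267)) (XT.lf (nat_lit 0) (nat_lit 758083570) (nat_lit 152) (nat_lit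 11372516571) (nat_lit 76) (nat_lit 17935665687) (nat_lit 12) (nat_lit 5) (nat_lit 14) (nat_lit 5) (nat_lit 13) (nat_lit 4) (nat_lit 341) (nat_lit 293) (nat_lit 266)))) (XT.nd (nat_lit 78) (nat_lit 0) (nat_lit 0) (XT.lf (nat_lit 0) (nat_lit 3047342678) (nat_lit 76) (nat_lit 4811659054) (nat_lit 152) (nat_lit 24201602120) (nat_lit 11) (nat_lit 5) (nat_lit 12) (nat_lit 5) (nat_lit 13) (nat_lit 4) (nat_lit 342) (nat_lit 293) (nat_lit 265)) (XT.nd (nat_lit 78) (nat_lit 0) (nat_lit 0) (XT.lf (nat_lit 0) (nat_lit 15655361147) (nat_lit 152) (nat_lit 15459802210) (nat_lit 0) (nat_lit 3092995427) (nat_lit 11) (nat_lit 5) (nat_lit 13) (nat_lit 4) (nat_lit 11) (nat_lit 4) (nat_lit 343) (nat_lit 293) (nat_lit 264)) (XT.lf (nat_lit 0) (nat_lit 24043350726) (nat_lit 152) (nat_lit 1116702803) (nat_lit 0) (nat_lit 11369103936) (nat_lit 11) (nat_lit 5) (nat_lit 13) (nat_lit 4) (nat_lit 11) (nat_lit 4) (nat_lit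 344) (nat_lit 293) (nat_lit 263)))))) (XT.nd (nat_lit 468) (nat_lit 152) (nat_lit 0) (XT.nd (nat_lit 234) (nat_lit 76) (nat_lit 0) (XT.nd (nat_lit 78) (nat_lit 152) (nat_lit 0) (XT.lf (nat_lit 0) (nat_lit 14644884433) (nat_lit 76) (nat_lit 18581316844) (nat_lit 76) (nat_lit 5803476472) (nat_lit 10) (nat_lit 4) (nat_lit 11) (nat_lit 5) (nat_lit 11) (nat_lit 4) (nat_lit 345) (nat_lit 293) (nat_lit 262)) (XT.nd (nat_lit 78) (nat_lit 76) (nat_lit 0) (XT.lf (nat_lit 0) (nat_lit 1286290144) (nat_lit 152) (nat_lit 10236865559) (nat_lit 76) (nat_lit 30210105046) (nat_lit 9) (nat_lit 5) (nat_lit 11) (nat_lit 5) (nat_lit 10) (nat_lit 4) (nat_lit 346) (nat_lit 293) (nat_lit 261)) (XT.lf (nat_lit 0) (nat_lit 4924422201) (nat_lit 76) (nat_lit 3800942363) (nat_lit 152) (nat_lit 35923763059) (nat_lit 8) (nat_lit 5) (nat_lit 9) (nat_lit 5) (nat_lit 10) (nat_lit 4) (nat_lit 347) (nat_lit 293) (nat_lit 260))))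 (XT.nd (nat_lit 78) (nat_lit 76) (nat_lit 0) (XT.lf (nat_lit 0) (nat_lit 16920578056) (nat_lit 152) (nat_lit 26372711476) (nat_lit 0) (nat_lit 4496948454) (nat_lit 8) (nat_lit 5) (nat_lit 10) (nat_lit 4) (nat_lit 8) (nat_lit 4) (nat_lit 348) (nat_lit 293) (nat_lit 259)) (XT.nd (nat_lit 78) (nat_lit 76) (nat_lit 0) (XT.lf (nat_lit 0) (nat_lit 25751150378) (nat_lit 152) (nat_lit 12177520351) (nat_lit 0) (nat_lit 13255002323) (nat_lit 8) (nat_lit 5) (nat_lit 10) (nat_lit 4) (nat_lit 8) (nat_lit 4) (nat_lit 349) (nat_lit 293) (nat_lit 258)) (XT.lf (nat_lit 0) (nat_lit 3103667714) (nat_lit 76) (nat_lit 32154856722) (nat_lit 76) (nat_lit 19591561951) (nat_lit 7) (nat_lit 4) (nat_lit 8) (nat_lit 5) (nat_lit 8) (nat_lit 4) (nat_lit 350) (nat_lit 293) (nat_lit 257))))) (XT.nd (nat_lit 234) (nat_lit 76) (nat_lit 0) (XT.nd (nat_lit 78) (nat_lit 76) (nat_lit 0) (XT.lf (nat_lit 0) (nat_lit 19899724457)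 (nat_lit 76) (nat_lit 25764348229) (nat_lit 76) (nat_lit 13138880573) (nat_lit 7) (nat_lit 4) (nat_lit 8) (nat_lit 5) (nat_lit 8) (nat_lit 4) (nat_lit 351) (nat_lit 293) (nat_lit 256)) (XT.nd (nat_lit 78) (nat_lit 76) (nat_lit 0) (XT.lf (nat_lit 0) (nat_lit 37907538248) (nat_lit 76) (nat_lit 18925507770) (nat_lit 76) (nat_lit 6242472628) (nat_lit 7) (nat_lit 4) (nat_lit 8) (nat_lit 5) (nat_lit 8) (nat_lit 4) (nat_lit 352) (nat_lit 293) (nat_lit 255)) (XT.lf (nat_lit 0) (nat_lit 1102089431) (nat_lit 152) (nat_lit 10477055035) (nat_lit 76) (nat_lit 56113068208) (nat_lit 6) (nat_lit 5) (nat_lit 8) (nat_lit 5) (nat_lit 7) (nat_lit 4) (nat_lit 353) (nat_lit 293) (nat_lit 254)))) (XT.nd (nat_lit 78) (nat_lit 0) (nat_lit 0) (XT.lf (nat_lit 0) (nat_lit 5339677361) (nat_lit 76) (nat_lit 3501966819) (nat_lit 152) (nat_lit 63830189467) (nat_lit 5) (nat_lit 5) (nat_lit 6) (nat_lit 5) (nat_lit 7) (nat_lit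 4) (nat_lit 354) (nat_lit 293) (nat_lit 253)) (XT.nd (nat_lit 78) (nat_lit 0) (nat_lit 0) (XT.lf (nat_lit 0) (nat_lit 17409135952) (nat_lit 152) (nat_lit 55441501008) (nat_lit 0) (nat_lit 5188762488) (nat_lit 5) (nat_lit 5) (nat_lit 7) (nat_lit 4) (nat_lit 5) (nat_lit 4) (nat_lit 355) (nat_lit 293) (nat_lit 252)) (XT.lf (nat_lit 0) (nat_lit 26667147720) (nat_lit 152) (nat_lit 42762504139) (nat_lit 0) (nat_lit 14406475379) (nat_lit 5) (nat_lit 5) (nat_lit 7) (nat_lit 4) (nat_lit 5) (nat_lit 4) (nat_lit 356) (nat_lit 293) (nat_lit 251))))))))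
noncomputable def xc35 : XT := (XT.nd (nat_lit 1794) (nat_lit 0) (nat_lit 0) (XT.nd (nat_lit 858) (nat_lit 76) (nat_lit 0) (XT.nd (nat_lit 390) (nat_lit 76) (nat_lit 0) (XT.nd (nat_lit 156) (nat_lit 76) (nat_lit 0) (XT.nd (nat_lit 78) (nat_lit 0) (nat_lit 0) (XT.lf (nat_lit 0) (nat_lit 36615866261) (nat_lit 152) (nat_lit 29165355367) (nat_lit 0) (nat_lit 24317880145) (nat_lit 5) (nat_lit 5) (nat_lit 7) (nat_lit 4) (nat_lit 5) (nat_lit 4) (nat_lit 357) (nat_lit 293) (nat_lit 250)) (XT.lf (nat_lit 0) (nat_lit 47314246945) (nat_lit 152) (nat_lit 14569478996) (nat_lit 0) (nat_lit 34981711037) (nat_lit 5) (nat_lit 5) (nat_lit 7) (nat_lit 4) (nat_lit 5) (nat_lit 4) (nat_lit 358) (nat_lit 293) (nat_lit 249))) (XT.nd (nat_lit 78) (nat_lit 0) (nat_lit 0) (XT.lf (nat_lit 0) (nat_lit 1148374201) (nat_lit 76) (nat_lit 57695242720) (nat_lit 76) (nat_lit 45330716265) (nat_lit 4) (nat_lit 4) (nat_lit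 5) (nat_lit 5) (nat_lit 5) (nat_lit 4) (nat_lit 359) (nat_lit 293) (nat_lit 248)) (XT.nd (nat_lit 78) (nat_lit 0) (nat_lit 0) (XT.lf (nat_lit 0) (nat_lit 18565061730) (nat_lit 76) (nat_lit 52943195029) (nat_lit 76) (nat_lit 40549047696) (nat_lit 4) (nat_lit 4) (nat_lit 5) (nat_lit 5) (nat_lit 5) (nat_lit 4) (nat_lit 360) (nat_lit 293) (nat_lit 247)) (XT.lf (nat_lit 0) (nat_lit 37302060816) (nat_lit 76) (nat_lit 47846163763) (nat_lit 76) (nat_lit 35424589691) (nat_lit 4) (nat_lit 4) (nat_lit 5) (nat_lit 5) (nat_lit 5) (nat_lit 4) (nat_lit 361) (nat_lit 293) (nat_lit 246))))) (XT.nd (nat_lit 234) (nat_lit 76) (nat_lit 0) (XT.nd (nat_lit 78) (nat_lit 0) (nat_lit 0) (XT.lf (nat_lit 0) (nat_lit 57470405529) (nat_lit 76) (nat_lit 42373944292) (nat_lit 76) (nat_lit 29926975092) (nat_lit 4) (nat_lit 4) (nat_lit 5) (nat_lit 5) (nat_lit 5) (nat_lit 4) (nat_lit 362) (nat_lit 293) (nat_lit 245)) (XT.nd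 (nat_lit 78) (nat_lit 0) (nat_lit 0) (XT.lf (nat_lit 0) (nat_lit 79189611985) (nat_lit 76) (nat_lit 36494108648) (nat_lit 76) (nat_lit 24023625440) (nat_lit 4) (nat_lit 4) (nat_lit 5) (nat_lit 5) (nat_lit 5) (nat_lit 4) (nat_lit 363) (nat_lit 293) (nat_lit 244)) (XT.lf (nat_lit 0) (nat_lit 102588386593) (nat_lit 76) (nat_lit 30171813361) (nat_lit 76) (nat_lit 17679557924) (nat_lit 4) (nat_lit 4) (nat_lit 5) (nat_lit 5) (nat_lit 5) (nat_lit 4) (nat_lit 364) (nat_lit 293) (nat_lit 243)))) (XT.nd (nat_lit 78) (nat_lit 76) (nat_lit 0) (XT.lf (nat_lit 0) (nat_lit 127805388757) (nat_lit 76) (nat_lit 23369592977) (nat_lit 76) (nat_lit 10857178069) (nat_lit 4) (nat_lit 4) (nat_lit 5) (nat_lit 5) (nat_lit 5) (nat_lit 4) (nat_lit 365) (nat_lit 293) (nat_lit 242)) (XT.nd (nat_lit 78) (nat_lit 76) (nat_lit 0) (XT.lf (nat_lit 0) (nat_lit 154990052565) (nat_lit 76) (nat_lit 16047138043) (nat_lit 76)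 (nat_lit 3516056957) (nat_lit 4) (nat_lit 4) (nat_lit 5) (nat_lit 5) (nat_lit 5) (nat_lit 4) (nat_lit 366) (nat_lit 293) (nat_lit 241)) (XT.lf (nat_lit 0) (nat_lit 4246887083) (nat_lit 152) (nat_lit 3842246061) (nat_lit 76) (nat_lit 179984662149) (nat_lit 3) (nat_lit 5) (nat_lit 5) (nat_lit 5) (nat_lit 4) (nat_lit 4) (nat_lit 367) (nat_lit 293) (nat_lit 240)))))) (XT.nd (nat_lit 468) (nat_lit 0) (nat_lit 0) (XT.nd (nat_lit 234) (nat_lit 0) (nat_lit 0) (XT.nd (nat_lit 78) (nat_lit 0) (nat_lit 0) (XT.lf (nat_lit 0) (nat_lit 12709085730) (nat_lit 152) (nat_lit 189210932556) (nat_lit 0) (nat_lit 743021137) (nat_lit 2) (nat_lit 5) (nat_lit 4) (nat_lit 4) (nat_lit 2) (nat_lit 4) (nat_lit 368) (nat_lit 293) (nat_lit 239)) (XT.nd (nat_lit 78) (nat_lit 0) (nat_lit 0) (XT.lf (nat_lit 0) (nat_lit 22030938917) (nat_lit 152) (nat_lit 186328592580) (nat_lit 0) (nat_lit 10050762121) (nat_lit 2) (nat_lit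 5) (nat_lit 4) (nat_lit 4) (nat_lit 2) (nat_lit 4) (nat_lit 369) (nat_lit 293) (nat_lit 238)) (XT.lf (nat_lit 0) (nat_lit 32078405578) (nat_lit 152) (nat_lit 183254771520) (nat_lit 0) (nat_lit 20085161927) (nat_lit 2) (nat_lit 5) (nat_lit 4) (nat_lit 4) (nat_lit 2) (nat_lit 4) (nat_lit 370) (nat_lit 293) (nat_lit 237)))) (XT.nd (nat_lit 78) (nat_lit 0) (nat_lit 0) (XT.lf (nat_lit 0) (nat_lit 42911026257) (nat_lit 152) (nat_lit 179971254138) (nat_lit 0) (nat_lit 30905683666) (nat_lit 2) (nat_lit 5) (nat_lit 4) (nat_lit 4) (nat_lit 2) (nat_lit 4) (nat_lit 371) (nat_lit 293) (nat_lit 236)) (XT.nd (nat_lit 78) (nat_lit 0) (nat_lit 0) (XT.lf (nat_lit 0) (nat_lit 54592994260) (nat_lit 152) (nat_lit 176458582556) (nat_lit 0) (nat_lit 42576448947) (nat_lit 2) (nat_lit 5) (nat_lit 4) (nat_lit 4) (nat_lit 2) (nat_lit 4) (nat_lit 372) (nat_lit 293) (nat_lit 235)) (XT.lf (nat_lit 0) (nat_lit 67193536065)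 (nat_lit 152) (nat_lit 172695940941) (nat_lit 0) (nat_lit 55166617862) (nat_lit 2) (nat_lit 5) (nat_lit 4) (nat_lit 4) (nat_lit 2) (nat_lit 4) (nat_lit 373) (nat_lit 293) (nat_lit 234))))) (XT.nd (nat_lit 234) (nat_lit 0) (nat_lit 0) (XT.nd (nat_lit 78) (nat_lit 0) (nat_lit 0) (XT.lf (nat_lit 0) (nat_lit 80787321549) (nat_lit 152) (nat_lit 168661032158) (nat_lit 0) (nat_lit 68750798818) (nat_lit 2) (nat_lit 5) (nat_lit 4) (nat_lit 4) (nat_lit 2) (nat_lit 4) (nat_lit 374) (nat_lit 293) (nat_lit 233)) (XT.nd (nat_lit 78) (nat_lit 0) (nat_lit 0) (XT.lf (nat_lit 0) (nat_lit 95454906479) (nat_lit 152) (nat_lit 164329945636) (nat_lit 0) (nat_lit 83409490665) (nat_lit 2) (nat_lit 5) (nat_lit 4) (nat_lit 4) (nat_lit 2) (nat_lit 4) (nat_lit 375) (nat_lit 293) (nat_lit 232)) (XT.lf (nat_lit 0) (nat_lit 111283209876) (nat_lit 152) (nat_lit 159677015677) (nat_lit 0) (nat_lit 99229559727) (nat_lit 2)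 (nat_lit 5) (nat_lit 4) (nat_lit 4) (nat_lit 2) (nat_lit 4) (nat_lit 376) (nat_lit 293) (nat_lit 231)))) (XT.nd (nat_lit 78) (nat_lit 0) (nat_lit 0) (XT.lf (nat_lit 0) (nat_lit 128366029093) (nat_lit 152) (nat_lit 154674669363) (nat_lit 0) (nat_lit 116304754560) (nat_lit 2) (nat_lit 5) (nat_lit 4) (nat_lit 4) (nat_lit 2) (nat_lit 4) (nat_lit 377) (nat_lit 293) (nat_lit 230)) (XT.nd (nat_lit 78) (nat_lit 0) (nat_lit 0) (XT.lf (nat_lit 0) (nat_lit 146804595651) (nat_lit 152) (nat_lit 149293263161) (nat_lit 0) (nat_lit 134736261503) (nat_lit 2) (nat_lit 5) (nat_lit 4) (nat_lit 4) (nat_lit 2) (nat_lit 4) (nat_lit 378) (nat_lit 293) (nat_lit 229)) (XT.lf (nat_lit 0) (nat_lit 166708175131) (nat_lit 152) (nat_lit 143500907255) (nat_lit 0) (nat_lit 154633304302) (nat_lit 2) (nat_lit 5) (nat_lit 4) (nat_lit 4) (nat_lit 2) (nat_lit 4) (nat_lit 379) (nat_lit 293) (nat_lit 228))))))) (XT.nd (nat_lit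 858) (nat_lit 0) (nat_lit 0) (XT.nd (nat_lit 390) (nat_lit 0) (nat_lit 0) (XT.nd (nat_lit 156) (nat_lit 0) (nat_lit 0) (XT.nd (nat_lit 78) (nat_lit 0) (nat_lit 0) (XT.lf (nat_lit 0) (nat_lit 188194714670) (nat_lit 152) (nat_lit 137263276574) (nat_lit 0) (nat_lit 176113791359) (nat_lit 2) (nat_lit 5) (nat_lit 4) (nat_lit 4) (nat_lit 2) (nat_lit 4) (nat_lit 380) (nat_lit 293) (nat_lit 227)) (XT.lf (nat_lit 0) (nat_lit 211391541909) (nat_lit 152) (nat_lit 130543407380) (nat_lit 0) (nat_lit 199305014448) (nat_lit 2) (nat_lit 5) (nat_lit 4) (nat_lit 4) (nat_lit 2) (nat_lit 4) (nat_lit 381) (nat_lit 293) (nat_lit 226))) (XT.nd (nat_lit 78) (nat_lit 0) (nat_lit 0) (XT.lf (nat_lit 0) (nat_lit 236436119530) (nat_lit 152) (nat_lit 123301478226) (nat_lit 0) (nat_lit 224344403041) (nat_lit 2) (nat_lit 5) (nat_lit 4) (nat_lit 4) (nat_lit 2) (nat_lit 4) (nat_lit 382) (nat_lit 293) (nat_lit 225)) (XT.nd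 (nat_lit 78) (nat_lit 0) (nat_lit 0) (XT.lf (nat_lit 0) (nat_lit 263476859842) (nat_lit 152) (nat_lit 115494573977) (nat_lit 0) (nat_lit 251380338698) (nat_lit 2) (nat_lit 5) (nat_lit 4) (nat_lit 4) (nat_lit 2) (nat_lit 4) (nat_lit 383) (nat_lit 293) (nat_lit 224)) (XT.lf (nat_lit 0) (nat_lit 292674004271) (nat_lit 152) (nat_lit 107076431496) (nat_lit 0) (nat_lit 280573034372) (nat_lit 2) (nat_lit 5) (nat_lit 4) (nat_lit 4) (nat_lit 2) (nat_lit 4) (nat_lit 384) (nat_lit 293) (nat_lit 223))))) (XT.nd (nat_lit 234) (nat_lit 0) (nat_lit 0) (XT.nd (nat_lit 78) (nat_lit 0) (nat_lit 0) (XT.lf (nat_lit 0) (nat_lit 324200572932) (nat_lit 152) (nat_lit 97997165495) (nat_lit 0) (nat_lit 312095483815) (nat_lit 2) (nat_lit 5) (nat_lit 4) (nat_lit 4) (nat_lit 2) (nat_lit 4) (nat_lit 385) (nat_lit 293) (nat_lit 222)) (XT.nd (nat_lit 78) (nat_lit 0) (nat_lit 0) (XT.lf (nat_lit 0) (nat_lit 358243389935)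 (nat_lit 152) (nat_lit 88202972915) (nat_lit 0) (nat_lit 346134486727) (nat_lit 2) (nat_lit 5) (nat_lit 4) (nat_lit 4) (nat_lit 2) (nat_lit 4) (nat_lit 386) (nat_lit 293) (nat_lit 221)) (XT.lf (nat_lit 0) (nat_lit 395004190492) (nat_lit 152) (nat_lit 77635814097) (nat_lit 0) (nat_lit 382891755719) (nat_lit 2) (nat_lit 5) (nat_lit 4) (nat_lit 4) (nat_lit 2) (nat_lit 4) (nat_lit 387) (nat_lit 293) (nat_lit 220)))) (XT.nd (nat_lit 78) (nat_lit 0) (nat_lit 0) (XT.lf (nat_lit 0) (nat_lit 434700816384) (nat_lit 152) (nat_lit 66233068841) (nat_lit 0) (nat_lit 422585111643) (nat_lit 2) (nat_lit 5) (nat_lit 4) (nat_lit 4) (nat_lit 2) (nat_lit 4) (nat_lit 388) (nat_lit 293) (nat_lit 219)) (XT.nd (nat_lit 78) (nat_lit 0) (nat_lit 0) (XT.lf (nat_lit 0) (nat_lit 477568506875) (nat_lit 152) (nat_lit 53927165322) (nat_lit 0) (nat_lit 465449774387) (nat_lit 2) (nat_lit 5) (nat_lit 4) (nat_lit 4) (nat_lit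 2) (nat_lit 4) (nat_lit 389) (nat_lit 293) (nat_lit 218)) (XT.lf (nat_lit 0) (nat_lit 523861292725) (nat_lit 152) (nat_lit 40645179669) (nat_lit 0) (nat_lit 511739756767) (nat_lit 2) (nat_lit 5) (nat_lit 4) (nat_lit 4) (nat_lit 2) (nat_lit 4) (nat_lit 390) (nat_lit 293) (nat_lit 217)))))) (XT.nd (nat_lit 41106) (nat_lit 0) (nat_lit 3040) (XT.nd (nat_lit 40872) (nat_lit 0) (nat_lit 4560) (XT.nd (nat_lit 40716) (nat_lit 0) (nat_lit 5852) (XT.lf (nat_lit 0) (nat_lit 573853501553) (nat_lit 152) (nat_lit 26308403818) (nat_lit 0) (nat_lit 561729369789) (nat_lit 2) (nat_lit 5) (nat_lit 4) (nat_lit 4) (nat_lit 2) (nat_lit 4) (nat_lit 391) (nat_lit 293) (nat_lit 216)) (XT.nd (nat_lit 78) (nat_lit 380) (nat_lit 0) (XT.lf (nat_lit 0) (nat_lit 2433644755) (nat_lit 380) (nat_lit 670661814) (nat_lit 380) (nat_lit 670661814) (nat_lit 84) (nat_lit 4) (nat_lit 89) (nat_lit 5) (nat_lit 89) (nat_lit 4) (nat_lit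 312) (nat_lit 294) (nat_lit 294)) (XT.lf (nat_lit 0) (nat_lit 4115918575) (nat_lit 380) (nat_lit 1642818211) (nat_lit 0) (nat_lit 1993015525) (nat_lit 79) (nat_lit 5) (nat_lit 84) (nat_lit 4) (nat_lit 79) (nat_lit 4) (nat_lit 313) (nat_lit 294) (nat_lit 293)))) (XT.nd (nat_lit 78) (nat_lit 912) (nat_lit 0) (XT.lf (nat_lit 0) (nat_lit 1729489855) (nat_lit 380) (nat_lit 543099816) (nat_lit 76) (nat_lit 5705100928) (nat_lit 74) (nat_lit 5) (nat_lit 79) (nat_lit 5) (nat_lit 75) (nat_lit 4) (nat_lit 314) (nat_lit 294) (nat_lit 292)) (XT.nd (nat_lit 78) (nat_lit 304) (nat_lit 0) (XT.lf (nat_lit 0) (nat_lit 608345595) (nat_lit 304) (nat_lit 6623210648) (nat_lit 304) (nat_lit 995971393) (nat_lit 66) (nat_lit 4) (nat_lit 70) (nat_lit 5) (nat_lit 70) (nat_lit 4) (nat_lit 315) (nat_lit 294) (nat_lit 291)) (XT.lf (nat_lit 0) (nat_lit 1767389422) (nat_lit 228) (nat_lit 2622663537) (nat_lit 304) (nat_lit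 4110967438) (nat_lit 62) (nat_lit 5) (nat_lit 65) (nat_lit 5) (nat_lit 66) (nat_lit 4) (nat_lit 316) (nat_lit 294) (nat_lit 290))))) (XT.nd (nat_lit 234) (nat_lit 608) (nat_lit 0) (XT.nd (nat_lit 78) (nat_lit 532) (nat_lit 0) (XT.lf (nat_lit 0) (nat_lit 1192319095) (nat_lit 380) (nat_lit 5858899793) (nat_lit 76) (nat_lit 1750715242) (nat_lit 57) (nat_lit 5) (nat_lit 62) (nat_lit 5) (nat_lit 58) (nat_lit 4) (nat_lit 317) (nat_lit 294) (nat_lit 289)) (XT.nd (nat_lit 78) (nat_lit 304) (nat_lit 0) (XT.lf (nat_lit 0) (nat_lit 4063658214) (nat_lit 228) (nat_lit 2608195131) (nat_lit 304) (nat_lit 2457292482) (nat_lit 54) (nat_lit 5) (nat_lit 57) (nat_lit 5) (nat_lit 58) (nat_lit 4) (nat_lit 318) (nat_lit 294) (nat_lit 288)) (XT.lf (nat_lit 0) (nat_lit 2907569446) (nat_lit 304) (nat_lit 4350963801) (nat_lit 76) (nat_lit 2226933872) (nat_lit 50) (nat_lit 5) (nat_lit 54) (nat_lit 5) (nat_lit 51)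 (nat_lit 4) (nat_lit 319) (nat_lit 294) (nat_lit 287)))) (XT.nd (nat_lit 78) (nat_lit 456) (nat_lit 0) (XT.lf (nat_lit 0) (nat_lit 6126082401) (nat_lit 152) (nat_lit 2414207169) (nat_lit 228) (nat_lit 1332074987) (nat_lit 48) (nat_lit 5) (nat_lit 50) (nat_lit 5) (nat_lit 51) (nat_lit 4) (nat_lit 320) (nat_lit 294) (nat_lit 286)) (XT.nd (nat_lit 78) (nat_lit 152) (nat_lit 0) (XT.lf (nat_lit 0) (nat_lit 4132578028) (nat_lit 304) (nat_lit 3311338646) (nat_lit 76) (nat_lit 2846305768) (nat_lit 44) (nat_lit 5) (nat_lit 48) (nat_lit 5) (nat_lit 45) (nat_lit 4) (nat_lit 321) (nat_lit 294) (nat_lit 285)) (XT.lf (nat_lit 0) (nat_lit 7707935794) (nat_lit 152) (nat_lit 2226090069) (nat_lit 228) (nat_lit 809340086) (nat_lit 42) (nat_lit 5) (nat_lit 44) (nat_lit 5) (nat_lit 45) (nat_lit 4) (nat_lit 322) (nat_lit 294) (nat_lit 284))))))))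
noncomputable def xc36 : XT := (XT.nd (nat_lit 1716) (nat_lit 532) (nat_lit 0) (XT.nd (nat_lit 858) (nat_lit 684) (nat_lit 0) (XT.nd (nat_lit 390) (nat_lit 684) (nat_lit 0) (XT.nd (nat_lit 156) (nat_lit 608) (nat_lit 0) (XT.nd (nat_lit 78) (nat_lit 152) (nat_lit 0) (XT.lf (nat_lit 0) (nat_lit 4778761838) (nat_lit 228) (nat_lit 3028102805) (nat_lit 76) (nat_lit 3423706171) (nat_lit 39) (nat_lit 5) (nat_lit 42) (nat_lit 5) (nat_lit 40) (nat_lit 4) (nat_lit 323) (nat_lit 294) (nat_lit 283)) (XT.lf (nat_lit 0) (nat_lit 8498602578) (nat_lit 152) (nat_lit 2250933759) (nat_lit 228) (nat_lit 1008568461) (nat_lit 37) (nat_lit 5) (nat_lit 39) (nat_lit 5) (nat_lit 40) (nat_lit 4) (nat_lit 324) (nat_lit 294) (nat_lit 282))) (XT.nd (nat_lit 78) (nat_lit 380) (nat_lit 0) (XT.lf (nat_lit 0) (nat_lit 4709819570) (nat_lit 228) (nat_lit 3867237613) (nat_lit 76) (nat_lit 3747394050) (nat_lit 34) (nat_lit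 5) (nat_lit 37) (nat_lit 5) (nat_lit 35) (nat_lit 4) (nat_lit 325) (nat_lit 294) (nat_lit 281)) (XT.nd (nat_lit 78) (nat_lit 228) (nat_lit 0) (XT.lf (nat_lit 0) (nat_lit 8100073199) (nat_lit 152) (nat_lit 2731598510) (nat_lit 228) (nat_lit 2104716202) (nat_lit 32) (nat_lit 5) (nat_lit 34) (nat_lit 5) (nat_lit 35) (nat_lit 4) (nat_lit 326) (nat_lit 294) (nat_lit 280)) (XT.lf (nat_lit 0) (nat_lit 3730426325) (nat_lit 228) (nat_lit 6299476282) (nat_lit 76) (nat_lit 3564152988) (nat_lit 29) (nat_lit 5) (nat_lit 32) (nat_lit 5) (nat_lit 30) (nat_lit 4) (nat_lit 327) (nat_lit 294) (nat_lit 279))))) (XT.nd (nat_lit 234) (nat_lit 304) (nat_lit 0) (XT.nd (nat_lit 78) (nat_lit 304) (nat_lit 0) (XT.lf (nat_lit 0) (nat_lit 5997251981) (nat_lit 76) (nat_lit 3963582054) (nat_lit 152) (nat_lit 4341811256) (nat_lit 28) (nat_lit 5) (nat_lit 29) (nat_lit 5) (nat_lit 30) (nat_lit 4) (nat_lit 328) (nat_lit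 294) (nat_lit 278)) (XT.nd (nat_lit 78) (nat_lit 76) (nat_lit 0) (XT.lf (nat_lit 0) (nat_lit 1571067728) (nat_lit 228) (nat_lit 10934392251) (nat_lit 76) (nat_lit 2561261562) (nat_lit 25) (nat_lit 5) (nat_lit 28) (nat_lit 5) (nat_lit 26) (nat_lit 4) (nat_lit 329) (nat_lit 294) (nat_lit 277)) (XT.lf (nat_lit 0) (nat_lit 1520156241) (nat_lit 76) (nat_lit 6315735054) (nat_lit 152) (nat_lit 8051039324) (nat_lit 24) (nat_lit 5) (nat_lit 25) (nat_lit 5) (nat_lit 26) (nat_lit 4) (nat_lit 330) (nat_lit 294) (nat_lit 276)))) (XT.nd (nat_lit 78) (nat_lit 304) (nat_lit 0) (XT.lf (nat_lit 0) (nat_lit 14600350062) (nat_lit 152) (nat_lit 1765570661) (nat_lit 0) (nat_lit 407021661) (nat_lit 24) (nat_lit 5) (nat_lit 26) (nat_lit 4) (nat_lit 24) (nat_lit 4) (nat_lit 331) (nat_lit 294) (nat_lit 275)) (XT.nd (nat_lit 78) (nat_lit 76) (nat_lit 0) (XT.lf (nat_lit 0) (nat_lit 4148562451) (nat_lit 228) (nat_lit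 6005859951) (nat_lit 76) (nat_lit 7566943534) (nat_lit 21) (nat_lit 5) (nat_lit 24) (nat_lit 5) (nat_lit 22) (nat_lit 4) (nat_lit 332) (nat_lit 294) (nat_lit 274)) (XT.lf (nat_lit 0) (nat_lit 7475671927) (nat_lit 76) (nat_lit 3392465502) (nat_lit 152) (nat_lit 7877391417) (nat_lit 20) (nat_lit 5) (nat_lit 21) (nat_lit 5) (nat_lit 22) (nat_lit 4) (nat_lit 333) (nat_lit 294) (nat_lit 273)))))) (XT.nd (nat_lit 390) (nat_lit 304) (nat_lit 0) (XT.nd (nat_lit 156) (nat_lit 228) (nat_lit 0) (XT.nd (nat_lit 78) (nat_lit 76) (nat_lit 0) (XT.lf (nat_lit 0) (nat_lit 2095007273) (nat_lit 76) (nat_lit 16056670112) (nat_lit 76) (nat_lit 1698709427) (nat_lit 19) (nat_lit 4) (nat_lit 20) (nat_lit 5) (nat_lit 20) (nat_lit 4) (nat_lit 334) (nat_lit 294) (nat_lit 272)) (XT.lf (nat_lit 0) (nat_lit 4903502421) (nat_lit 152) (nat_lit 4545506395) (nat_lit 76) (nat_lit 11586391630) (nat_lit 18) (nat_lit 5) (nat_lit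 20) (nat_lit 5) (nat_lit 19) (nat_lit 4) (nat_lit 335) (nat_lit 294) (nat_lit 271))) (XT.nd (nat_lit 78) (nat_lit 152) (nat_lit 0) (XT.lf (nat_lit 0) (nat_lit 9721142618) (nat_lit 76) (nat_lit 2249977964) (nat_lit 152) (nat_lit 10342931942) (nat_lit 17) (nat_lit 5) (nat_lit 18) (nat_lit 5) (nat_lit 19) (nat_lit 4) (nat_lit 336) (nat_lit 294) (nat_lit 270)) (XT.nd (nat_lit 78) (nat_lit 76) (nat_lit 0) (XT.lf (nat_lit 0) (nat_lit 1277930680) (nat_lit 76) (nat_lit 18362504804) (nat_lit 76) (nat_lit 4052808895) (nat_lit 16) (nat_lit 4) (nat_lit 17) (nat_lit 5) (nat_lit 17) (nat_lit 4) (nat_lit 337) (nat_lit 294) (nat_lit 269)) (XT.lf (nat_lit 0) (nat_lit 2767918100) (nat_lit 152) (nat_lit 8816703774) (nat_lit 76) (nat_lit 13590309598) (nat_lit 15) (nat_lit 5) (nat_lit 17) (nat_lit 5) (nat_lit 16) (nat_lit 4) (nat_lit 338) (nat_lit 294) (nat_lit 268))))) (XT.nd (nat_lit 234) (nat_lit 152) (nat_lit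 0) (XT.nd (nat_lit 78) (nat_lit 76) (nat_lit 0) (XT.lf (nat_lit 0) (nat_lit 5736251763) (nat_lit 76) (nat_lit 4212529910) (nat_lit 152) (nat_lit 16825277031) (nat_lit 14) (nat_lit 5) (nat_lit 15) (nat_lit 5) (nat_lit 16) (nat_lit 4) (nat_lit 339) (nat_lit 294) (nat_lit 267)) (XT.nd (nat_lit 78) (nat_lit 76) (nat_lit 0) (XT.lf (nat_lit 0) (nat_lit 17788339974) (nat_lit 152) (nat_lit 7028971483) (nat_lit 0) (nat_lit 3679640231) (nat_lit 14) (nat_lit 5) (nat_lit 16) (nat_lit 4) (nat_lit 14) (nat_lit 4) (nat_lit 340) (nat_lit 294) (nat_lit 266)) (XT.lf (nat_lit 0) (nat_lit 8062818405) (nat_lit 76) (nat_lit 18268407825) (nat_lit 76) (nat_lit 4022685099) (nat_lit 13) (nat_lit 4) (nat_lit 14) (nat_lit 5) (nat_lit 14) (nat_lit 4) (nat_lit 341) (nat_lit 294) (nat_lit 265)))) (XT.nd (nat_lit 78) (nat_lit 76) (nat_lit 0) (XT.lf (nat_lit 0) (nat_lit 3103113228) (nat_lit 152) (nat_lit 8011213741) (nat_lit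 76) (nat_lit 21242274590) (nat_lit 12) (nat_lit 5) (nat_lit 14) (nat_lit 5) (nat_lit 13) (nat_lit 4) (nat_lit 342) (nat_lit 294) (nat_lit 264)) (XT.nd (nat_lit 78) (nat_lit 0) (nat_lit 0) (XT.lf (nat_lit 0) (nat_lit 7376617266) (nat_lit 76) (nat_lit 3290059927) (nat_lit 152) (nat_lit 23849136102) (nat_lit 11) (nat_lit 5) (nat_lit 12) (nat_lit 5) (nat_lit 13) (nat_lit 4) (nat_lit 343) (nat_lit 294) (nat_lit 263)) (XT.lf (nat_lit 0) (nat_lit 18952902658) (nat_lit 152) (nat_lit 12839771818) (nat_lit 0) (nat_lit 5049241474) (nat_lit 11) (nat_lit 5) (nat_lit 13) (nat_lit 4) (nat_lit 11) (nat_lit 4) (nat_lit 344) (nat_lit 294) (nat_lit 262))))))) (XT.nd (nat_lit 858) (nat_lit 76) (nat_lit 0) (XT.nd (nat_lit 390) (nat_lit 228) (nat_lit 0) (XT.nd (nat_lit 156) (nat_lit 152) (nat_lit 0) (XT.nd (nat_lit 78) (nat_lit 0) (nat_lit 0) (XT.lf (nat_lit 0) (nat_lit 2443285982) (nat_lit 76) (nat_lit 25455302138)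 (nat_lit 76) (nat_lit 11455720970) (nat_lit 10) (nat_lit 4) (nat_lit 11) (nat_lit 5) (nat_lit 11) (nat_lit 4) (nat_lit 345) (nat_lit 294) (nat_lit 261)) (XT.lf (nat_lit 0) (nat_lit 19232403064) (nat_lit 76) (nat_lit 18458580962) (nat_lit 76) (nat_lit 4370184994) (nat_lit 10) (nat_lit 4) (nat_lit 11) (nat_lit 5) (nat_lit 11) (nat_lit 4) (nat_lit 346) (nat_lit 294) (nat_lit 260))) (XT.nd (nat_lit 78) (nat_lit 76) (nat_lit 0) (XT.lf (nat_lit 0) (nat_lit 3089966984) (nat_lit 152) (nat_lit 7836199576) (nat_lit 76) (nat_lit 34060232580) (nat_lit 9) (nat_lit 5) (nat_lit 11) (nat_lit 5) (nat_lit 10) (nat_lit 4) (nat_lit 347) (nat_lit 294) (nat_lit 259)) (XT.nd (nat_lit 78) (nat_lit 0) (nat_lit 0) (XT.lf (nat_lit 0) (nat_lit 8398070651) (nat_lit 76) (nat_lit 2648196139) (nat_lit 152) (nat_lit 37093199437) (nat_lit 8) (nat_lit 5) (nat_lit 9) (nat_lit 5) (nat_lit 10) (nat_lit 4) (nat_lit 348) (nat_lit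 294) (nat_lit 258)) (XT.lf (nat_lit 0) (nat_lit 19797944791) (nat_lit 152) (nat_lit 25576471717) (nat_lit 0) (nat_lit 6162439723) (nat_lit 8) (nat_lit 5) (nat_lit 10) (nat_lit 4) (nat_lit 8) (nat_lit 4) (nat_lit 349) (nat_lit 294) (nat_lit 257))))) (XT.nd (nat_lit 234) (nat_lit 152) (nat_lit 0) (XT.nd (nat_lit 78) (nat_lit 76) (nat_lit 0) (XT.lf (nat_lit 0) (nat_lit 29222094714) (nat_lit 152) (nat_lit 10460928760) (nat_lit 0) (nat_lit 15524416761) (nat_lit 8) (nat_lit 5) (nat_lit 10) (nat_lit 4) (nat_lit 8) (nat_lit 4) (nat_lit 350) (nat_lit 294) (nat_lit 256)) (XT.nd (nat_lit 78) (nat_lit 0) (nat_lit 0) (XT.lf (nat_lit 0) (nat_lit 5925815756) (nat_lit 76) (nat_lit 33499920446) (nat_lit 76) (nat_lit 19744675006) (nat_lit 7) (nat_lit 4) (nat_lit 8) (nat_lit 5) (nat_lit 8) (nat_lit 4) (nat_lit 351) (nat_lit 294) (nat_lit 255)) (XT.lf (nat_lit 0) (nat_lit 23874901141) (nat_lit 76) (nat_lit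 26689084222) (nat_lit 76) (nat_lit 12880535555) (nat_lit 7) (nat_lit 4) (nat_lit 8) (nat_lit 5) (nat_lit 8) (nat_lit 4) (nat_lit 352) (nat_lit 294) (nat_lit 254)))) (XT.nd (nat_lit 78) (nat_lit 152) (nat_lit 0) (XT.lf (nat_lit 0) (nat_lit 43146806796) (nat_lit 76) (nat_lit 19387315184) (nat_lit 76) (nat_lit 5529411676) (nat_lit 7) (nat_lit 4) (nat_lit 8) (nat_lit 5) (nat_lit 8) (nat_lit 4) (nat_lit 353) (nat_lit 294) (nat_lit 253)) (XT.nd (nat_lit 78) (nat_lit 76) (nat_lit 0) (XT.lf (nat_lit 0) (nat_lit 2276971873) (nat_lit 152) (nat_lit 9235810094) (nat_lit 76) (nat_lit 61540203113) (nat_lit 6) (nat_lit 5) (nat_lit 8) (nat_lit 5) (nat_lit 7) (nat_lit 4) (nat_lit 354) (nat_lit 294) (nat_lit 252)) (XT.lf (nat_lit 0) (nat_lit 7755892298) (nat_lit 76) (nat_lit 2830355776) (nat_lit 152) (nat_lit 67847219718) (nat_lit 5) (nat_lit 5) (nat_lit 6) (nat_lit 5) (nat_lit 7) (nat_lit 4) (nat_lit 355)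 (nat_lit 294) (nat_lit 251)))))) (XT.nd (nat_lit 468) (nat_lit 0) (nat_lit 0) (XT.nd (nat_lit 234) (nat_lit 76) (nat_lit 0) (XT.nd (nat_lit 78) (nat_lit 0) (nat_lit 0) (XT.lf (nat_lit 0) (nat_lit 19776063246) (nat_lit 152) (nat_lit 58000623381) (nat_lit 0) (nat_lit 6456924465) (nat_lit 5) (nat_lit 5) (nat_lit 7) (nat_lit 4) (nat_lit 5) (nat_lit 4) (nat_lit 356) (nat_lit 294) (nat_lit 250)) (XT.nd (nat_lit 78) (nat_lit 0) (nat_lit 0) (XT.lf (nat_lit 0) (nat_lit 29702553258) (nat_lit 152) (nat_lit 44446284371) (nat_lit 0) (nat_lit 16348864685) (nat_lit 5) (nat_lit 5) (nat_lit 7) (nat_lit 4) (nat_lit 5) (nat_lit 4) (nat_lit 357) (nat_lit 294) (nat_lit 249)) (XT.lf (nat_lit 0) (nat_lit 40380351970) (nat_lit 152) (nat_lit 29890046667) (nat_lit 0) (nat_lit 26994672850) (nat_lit 5) (nat_lit 5) (nat_lit 7) (nat_lit 4) (nat_lit 5) (nat_lit 4) (nat_lit 358) (nat_lit 294) (nat_lit 248)))) (XT.nd (nat_lit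 78) (nat_lit 76) (nat_lit 0) (XT.lf (nat_lit 0) (nat_lit 51872735226) (nat_lit 152) (nat_lit 14245651085) (nat_lit 0) (nat_lit 38457435228) (nat_lit 5) (nat_lit 5) (nat_lit 7) (nat_lit 4) (nat_lit 5) (nat_lit 4) (nat_lit 359) (nat_lit 294) (nat_lit 247)) (XT.nd (nat_lit 78) (nat_lit 0) (nat_lit 0) (XT.lf (nat_lit 0) (nat_lit 2664903457) (nat_lit 76) (nat_lit 61624509192) (nat_lit 76) (nat_lit 48181782456) (nat_lit 4) (nat_lit 4) (nat_lit 5) (nat_lit 5) (nat_lit 5) (nat_lit 4) (nat_lit 360) (nat_lit 294) (nat_lit 246)) (XT.lf (nat_lit 0) (nat_lit 21369395668) (nat_lit 76) (nat_lit 56543138645) (nat_lit 76) (nat_lit 43075016780) (nat_lit 4) (nat_lit 4) (nat_lit 5) (nat_lit 5) (nat_lit 5) (nat_lit 4) (nat_lit 361) (nat_lit 294) (nat_lit 245))))) (XT.nd (nat_lit 234) (nat_lit 0) (nat_lit 0) (XT.nd (nat_lit 78) (nat_lit 0) (nat_lit 0) (XT.lf (nat_lit 0) (nat_lit 41507641422) (nat_lit 76) (nat_lit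 51085419839) (nat_lit 76) (nat_lit 37593783967) (nat_lit 4) (nat_lit 4) (nat_lit 5) (nat_lit 5) (nat_lit 5) (nat_lit 4) (nat_lit 362) (nat_lit 294) (nat_lit 244)) (XT.nd (nat_lit 78) (nat_lit 0) (nat_lit 0) (XT.lf (nat_lit 0) (nat_lit 63198978472) (nat_lit 76) (nat_lit 45219010738) (nat_lit 76) (nat_lit 31705602637) (nat_lit 4) (nat_lit 4) (nat_lit 5) (nat_lit 5) (nat_lit 5) (nat_lit 4) (nat_lit 363) (nat_lit 294) (nat_lit 243)) (XT.lf (nat_lit 0) (nat_lit 86571948074) (nat_lit 76) (nat_lit 38909147435) (nat_lit 76) (nat_lit 25375579862) (nat_lit 4) (nat_lit 4) (nat_lit 5) (nat_lit 5) (nat_lit 5) (nat_lit 4) (nat_lit 364) (nat_lit 294) (nat_lit 242)))) (XT.nd (nat_lit 78) (nat_lit 0) (nat_lit 0) (XT.lf (nat_lit 0) (nat_lit 111765056715) (nat_lit 76) (nat_lit 32118438148) (nat_lit 76) (nat_lit 18566204397) (nat_lit 4) (nat_lit 4) (nat_lit 5) (nat_lit 5) (nat_lit 5) (nat_lit 4) (nat_lit 365)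 (nat_lit 294) (nat_lit 241)) (XT.nd (nat_lit 78) (nat_lit 0) (nat_lit 0) (XT.lf (nat_lit 0) (nat_lit 138927596890) (nat_lit 76) (nat_lit 24806641636) (nat_lit 76) (nat_lit 11237124388) (nat_lit 4) (nat_lit 4) (nat_lit 5) (nat_lit 5) (nat_lit 5) (nat_lit 4) (nat_lit 366) (nat_lit 294) (nat_lit 240)) (XT.lf (nat_lit 0) (nat_lit 168220531800) (nat_lit 76) (nat_lit 16930428735) (nat_lit 76) (nat_lit 3344908248) (nat_lit 4) (nat_lit 4) (nat_lit 5) (nat_lit 5) (nat_lit 5) (nat_lit 4) (nat_lit 367) (nat_lit 294) (nat_lit 239))))))))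
noncomputable def xc37 : XT := (XT.nd (nat_lit 1716) (nat_lit 0) (nat_lit 0) (XT.nd (nat_lit 858) (nat_lit 0) (nat_lit 0) (XT.nd (nat_lit 390) (nat_lit 0) (nat_lit 0) (XT.nd (nat_lit 156) (nat_lit 0) (nat_lit 0) (XT.nd (nat_lit 78) (nat_lit 76) (nat_lit 0) (XT.lf (nat_lit 0) (nat_lit 4992149694) (nat_lit 152) (nat_lit 3366431426) (nat_lit 76) (nat_lit 194740755043) (nat_lit 3) (nat_lit 5) (nat_lit 5) (nat_lit 5) (nat_lit 4) (nat_lit 4) (nat_lit 368) (nat_lit 294) (nat_lit 238)) (XT.lf (nat_lit 0) (nat_lit 14118634421) (nat_lit 152) (nat_lit 203584861925) (nat_lit 0) (nat_lit 1152864423) (nat_lit 2) (nat_lit 5) (nat_lit 4) (nat_lit 4) (nat_lit 2) (nat_lit 4) (nat_lit 369) (nat_lit 294) (nat_lit 237))) (XT.nd (nat_lit 78) (nat_lit 0) (nat_lit 0) (XT.lf (nat_lit 0) (nat_lit 24157137950) (nat_lit 152) (nat_lit 200528449213) (nat_lit 0) (nat_lit 11179269012) (nat_lit 2) (nat_lit 5) (nat_lit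 4) (nat_lit 4) (nat_lit 2) (nat_lit 4) (nat_lit 370) (nat_lit 294) (nat_lit 236)) (XT.nd (nat_lit 78) (nat_lit 0) (nat_lit 0) (XT.lf (nat_lit 0) (nat_lit 34981459432) (nat_lit 152) (nat_lit 197261050673) (nat_lit 0) (nat_lit 21992387772) (nat_lit 2) (nat_lit 5) (nat_lit 4) (nat_lit 4) (nat_lit 2) (nat_lit 4) (nat_lit 371) (nat_lit 294) (nat_lit 235)) (XT.lf (nat_lit 0) (nat_lit 46655742993) (nat_lit 152) (nat_lit 193763303944) (nat_lit 0) (nat_lit 33656298443) (nat_lit 2) (nat_lit 5) (nat_lit 4) (nat_lit 4) (nat_lit 2) (nat_lit 4) (nat_lit 372) (nat_lit 294) (nat_lit 234))))) (XT.nd (nat_lit 234) (nat_lit 0) (nat_lit 0) (XT.nd (nat_lit 78) (nat_lit 0) (nat_lit 0) (XT.lf (nat_lit 0) (nat_lit 59249169575) (nat_lit 152) (nat_lit 190014481637) (nat_lit 0) (nat_lit 46240120496) (nat_lit 2) (nat_lit 5) (nat_lit 4) (nat_lit 4) (nat_lit 2) (nat_lit 4) (nat_lit 373) (nat_lit 294) (nat_lit 233))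 (XT.nd (nat_lit 78) (nat_lit 0) (nat_lit 0) (XT.lf (nat_lit 0) (nat_lit 72836366889) (nat_lit 152) (nat_lit 185992368509) (nat_lit 0) (nat_lit 59818424729) (nat_lit 2) (nat_lit 5) (nat_lit 4) (nat_lit 4) (nat_lit 2) (nat_lit 4) (nat_lit 374) (nat_lit 294) (nat_lit 232)) (XT.lf (nat_lit 0) (nat_lit 87497851662) (nat_lit 152) (nat_lit 181673129816) (nat_lit 0) (nat_lit 74471675166) (nat_lit 2) (nat_lit 5) (nat_lit 4) (nat_lit 4) (nat_lit 2) (nat_lit 4) (nat_lit 375) (nat_lit 294) (nat_lit 231)))) (XT.nd (nat_lit 78) (nat_lit 0) (nat_lit 0) (XT.lf (nat_lit 0) (nat_lit 103320506764) (nat_lit 152) (nat_lit 177031170070) (nat_lit 0) (nat_lit 90286705884) (nat_lit 2) (nat_lit 5) (nat_lit 4) (nat_lit 4) (nat_lit 2) (nat_lit 4) (nat_lit 376) (nat_lit 294) (nat_lit 230)) (XT.nd (nat_lit 78) (nat_lit 0) (nat_lit 0) (XT.lf (nat_lit 0) (nat_lit 120398096079) (nat_lit 152) (nat_lit 172038981360) (nat_lit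 0) (nat_lit 107357235584) (nat_lit 2) (nat_lit 5) (nat_lit 4) (nat_lit 4) (nat_lit 2) (nat_lit 4) (nat_lit 377) (nat_lit 294) (nat_lit 229)) (XT.lf (nat_lit 0) (nat_lit 138831820136) (nat_lit 152) (nat_lit 166666980346) (nat_lit 0) (nat_lit 125784422961) (nat_lit 2) (nat_lit 5) (nat_lit 4) (nat_lit 4) (nat_lit 2) (nat_lit 4) (nat_lit 378) (nat_lit 294) (nat_lit 228)))))) (XT.nd (nat_lit 390) (nat_lit 0) (nat_lit 0) (XT.nd (nat_lit 156) (nat_lit 0) (nat_lit 0) (XT.nd (nat_lit 78) (nat_lit 0) (nat_lit 0) (XT.lf (nat_lit 0) (nat_lit 158730915818) (nat_lit 152) (nat_lit 160883332949) (nat_lit 0) (nat_lit 145677466161) (nat_lit 2) (nat_lit 5) (nat_lit 4) (nat_lit 4) (nat_lit 2) (nat_lit 4) (nat_lit 379) (nat_lit 294) (nat_lit 227)) (XT.lf (nat_lit 0) (nat_lit 180213303693) (nat_lit 152) (nat_lit 154653765701) (nat_lit 0) (nat_lit 167154249885) (nat_lit 2) (nat_lit 5) (nat_lit 4) (nat_lit 4)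 (nat_lit 2) (nat_lit 4) (nat_lit 380) (nat_lit 294) (nat_lit 226))) (XT.nd (nat_lit 78) (nat_lit 0) (nat_lit 0) (XT.lf (nat_lit 0) (nat_lit 203406286798) (nat_lit 152) (nat_lit 147941362649) (nat_lit 0) (nat_lit 190342043962) (nat_lit 2) (nat_lit 5) (nat_lit 4) (nat_lit 4) (nat_lit 2) (nat_lit 4) (nat_lit 381) (nat_lit 294) (nat_lit 225)) (XT.nd (nat_lit 78) (nat_lit 0) (nat_lit 0) (XT.lf (nat_lit 0) (nat_lit 228447305035) (nat_lit 152) (nat_lit 140706346590) (nat_lit 0) (nat_lit 215378257544) (nat_lit 2) (nat_lit 5) (nat_lit 4) (nat_lit 4) (nat_lit 2) (nat_lit 4) (nat_lit 382) (nat_lit 294) (nat_lit 224)) (XT.lf (nat_lit 0) (nat_lit 255484749622) (nat_lit 152) (nat_lit 132905843355) (nat_lit 0) (nat_lit 242411253376) (nat_lit 2) (nat_lit 5) (nat_lit 4) (nat_lit 4) (nat_lit 2) (nat_lit 4) (nat_lit 383) (nat_lit 294) (nat_lit 223))))) (XT.nd (nat_lit 234) (nat_lit 0) (nat_lit 0) (XT.nd (nat_lit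 78) (nat_lit 0) (nat_lit 0) (XT.lf (nat_lit 0) (nat_lit 284678842454) (nat_lit 152) (nat_lit 124493627738) (nat_lit 0) (nat_lit 271601226990) (nat_lit 2) (nat_lit 5) (nat_lit 4) (nat_lit 4) (nat_lit 2) (nat_lit 4) (nat_lit 384) (nat_lit 294) (nat_lit 222)) (XT.nd (nat_lit 78) (nat_lit 0) (nat_lit 0) (XT.lf (nat_lit 0) (nat_lit 316202585561) (nat_lit 152) (nat_lit 115419849574) (nat_lit 0) (nat_lit 303121156007) (nat_lit 2) (nat_lit 5) (nat_lit 4) (nat_lit 4) (nat_lit 2) (nat_lit 4) (nat_lit 385) (nat_lit 294) (nat_lit 221)) (XT.lf (nat_lit 0) (nat_lit 350242786311) (nat_lit 152) (nat_lit 105630738326) (nat_lit 0) (nat_lit 337157825192) (nat_lit 2) (nat_lit 5) (nat_lit 4) (nat_lit 4) (nat_lit 2) (nat_lit 4) (nat_lit 386) (nat_lit 294) (nat_lit 220)))) (XT.nd (nat_lit 78) (nat_lit 0) (nat_lit 0) (XT.lf (nat_lit 0) (nat_lit 387001164412) (nat_lit 152) (nat_lit 95068284444) (nat_lit 0) (nat_lit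 373912933325) (nat_lit 2) (nat_lit 5) (nat_lit 4) (nat_lit 4) (nat_lit 2) (nat_lit 4) (nat_lit 387) (nat_lit 294) (nat_lit 219)) (XT.nd (nat_lit 78) (nat_lit 0) (nat_lit 0) (XT.lf (nat_lit 0) (nat_lit 426695547289) (nat_lit 152) (nat_lit 83669895610) (nat_lit 0) (nat_lit 413604288454) (nat_lit 2) (nat_lit 5) (nat_lit 4) (nat_lit 4) (nat_lit 2) (nat_lit 4) (nat_lit 388) (nat_lit 294) (nat_lit 218)) (XT.lf (nat_lit 0) (nat_lit 469561160915) (nat_lit 152) (nat_lit 71368025816) (nat_lit 0) (nat_lit 456467098609) (nat_lit 2) (nat_lit 5) (nat_lit 4) (nat_lit 4) (nat_lit 2) (nat_lit 4) (nat_lit 389) (nat_lit 294) (nat_lit 217))))))) (XT.nd (nat_lit 41340) (nat_lit 0) (nat_lit 1748) (XT.nd (nat_lit 40872) (nat_lit 0) (nat_lit 3952) (XT.nd (nat_lit 40638) (nat_lit 0) (nat_lit 6156) (XT.nd (nat_lit 78) (nat_lit 0) (nat_lit 0) (XT.lf (nat_lit 0) (nat_lit 515852023741) (nat_lit 152) (nat_lit 58089775092)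 (nat_lit 0) (nat_lit 502755365629) (nat_lit 2) (nat_lit 5) (nat_lit 4) (nat_lit 4) (nat_lit 2) (nat_lit 4) (nat_lit 390) (nat_lit 294) (nat_lit 216)) (XT.lf (nat_lit 0) (nat_lit 565842451991) (nat_lit 152) (nat_lit 43756457509) (nat_lit 0) (nat_lit 552743390356) (nat_lit 2) (nat_lit 5) (nat_lit 4) (nat_lit 4) (nat_lit 2) (nat_lit 4) (nat_lit 391) (nat_lit 294) (nat_lit 215))) (XT.nd (nat_lit 78) (nat_lit 1216) (nat_lit 0) (XT.lf (nat_lit 0) (nat_lit 1421558453) (nat_lit 684) (nat_lit 1090052914) (nat_lit 684) (nat_lit 1090052914) (nat_lit 99) (nat_lit 4) (nat_lit 108) (nat_lit 5) (nat_lit 108) (nat_lit 4) (nat_lit 310) (nat_lit 295) (nat_lit 295)) (XT.nd (nat_lit 78) (nat_lit 456) (nat_lit 0) (XT.lf (nat_lit 0) (nat_lit 3053164683) (nat_lit 760) (nat_lit 3671386716) (nat_lit 0) (nat_lit 645792625) (nat_lit 89) (nat_lit 5) (nat_lit 99) (nat_lit 4) (nat_lit 89) (nat_lit 4) (nat_lit 311) (nat_lit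 295) (nat_lit 294)) (XT.lf (nat_lit 0) (nat_lit 836473688) (nat_lit 456) (nat_lit 2921649198) (nat_lit 76) (nat_lit 3801077557) (nat_lit 83) (nat_lit 5) (nat_lit 89) (nat_lit 5) (nat_lit 84) (nat_lit 4) (nat_lit 312) (nat_lit 295) (nat_lit 293))))) (XT.nd (nat_lit 234) (nat_lit 1140) (nat_lit 0) (XT.nd (nat_lit 78) (nat_lit 760) (nat_lit 0) (XT.lf (nat_lit 0) (nat_lit 5661453576) (nat_lit 304) (nat_lit 368696353) (nat_lit 380) (nat_lit 1741149939) (nat_lit 79) (nat_lit 5) (nat_lit 83) (nat_lit 5) (nat_lit 84) (nat_lit 4) (nat_lit 313) (nat_lit 295) (nat_lit 292)) (XT.nd (nat_lit 78) (nat_lit 380) (nat_lit 0) (XT.lf (nat_lit 0) (nat_lit 3372624726) (nat_lit 380) (nat_lit 1287455821) (nat_lit 76) (nat_lit 3345487758) (nat_lit 74) (nat_lit 5) (nat_lit 79) (nat_lit 5) (nat_lit 75) (nat_lit 4) (nat_lit 314) (nat_lit 295) (nat_lit 291)) (XT.lf (nat_lit 0) (nat_lit 380873363) (nat_lit 380) (nat_lit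 406390792) (nat_lit 76) (nat_lit 7478819993) (nat_lit 69) (nat_lit 5) (nat_lit 74) (nat_lit 5) (nat_lit 70) (nat_lit 5) (nat_lit 315) (nat_lit 295) (nat_lit 290)))) (XT.nd (nat_lit 78) (nat_lit 608) (nat_lit 0) (XT.lf (nat_lit 0) (nat_lit 441851428) (nat_lit 228) (nat_lit 5091670759) (nat_lit 304) (nat_lit 3015567577) (nat_lit 62) (nat_lit 5) (nat_lit 65) (nat_lit 5) (nat_lit 66) (nat_lit 4) (nat_lit 316) (nat_lit 295) (nat_lit 289)) (XT.nd (nat_lit 78) (nat_lit 228) (nat_lit 0) (XT.lf (nat_lit 0) (nat_lit 1320089925) (nat_lit 304) (nat_lit 722788438) (nat_lit 380) (nat_lit 6816949052) (nat_lit 57) (nat_lit 5) (nat_lit 61) (nat_lit 5) (nat_lit 62) (nat_lit 5) (nat_lit 317) (nat_lit 295) (nat_lit 288)) (XT.lf (nat_lit 0) (nat_lit 2125440705) (nat_lit 228) (nat_lit 5207278527) (nat_lit 304) (nat_lit 1863980461) (nat_lit 54) (nat_lit 5) (nat_lit 57) (nat_lit 5) (nat_lit 58) (nat_lit 4) (nat_lit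 318) (nat_lit 295) (nat_lit 287)))))) (XT.nd (nat_lit 468) (nat_lit 912) (nat_lit 0) (XT.nd (nat_lit 234) (nat_lit 532) (nat_lit 0) (XT.nd (nat_lit 78) (nat_lit 456) (nat_lit 0) (XT.lf (nat_lit 0) (nat_lit 2881336780) (nat_lit 228) (nat_lit 386153046) (nat_lit 304) (nat_lit 6295943216) (nat_lit 50) (nat_lit 5) (nat_lit 53) (nat_lit 5) (nat_lit 54) (nat_lit 5) (nat_lit 319) (nat_lit 295) (nat_lit 286)) (XT.nd (nat_lit 78) (nat_lit 304) (nat_lit 0) (XT.lf (nat_lit 0) (nat_lit 3517787006) (nat_lit 152) (nat_lit 5199587501) (nat_lit 228) (nat_lit 1242241378) (nat_lit 48) (nat_lit 5) (nat_lit 50) (nat_lit 5) (nat_lit 51) (nat_lit 4) (nat_lit 320) (nat_lit 295) (nat_lit 285)) (XT.lf (nat_lit 0) (nat_lit 3996422033) (nat_lit 304) (nat_lit 6350391057) (nat_lit 76) (nat_lit 41872932) (nat_lit 44) (nat_lit 5) (nat_lit 48) (nat_lit 5) (nat_lit 45) (nat_lit 4) (nat_lit 321) (nat_lit 295) (nat_lit 284))))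 (XT.nd (nat_lit 78) (nat_lit 380) (nat_lit 0) (XT.lf (nat_lit 0) (nat_lit 4369675855) (nat_lit 152) (nat_lit 5250669343) (nat_lit 228) (nat_lit 1230477842) (nat_lit 42) (nat_lit 5) (nat_lit 44) (nat_lit 5) (nat_lit 45) (nat_lit 4) (nat_lit 322) (nat_lit 295) (nat_lit 283)) (XT.nd (nat_lit 78) (nat_lit 152) (nat_lit 0) (XT.lf (nat_lit 0) (nat_lit 4142218644) (nat_lit 228) (nat_lit 6842816789) (nat_lit 76) (nat_lit 364868873) (nat_lit 39) (nat_lit 5) (nat_lit 42) (nat_lit 5) (nat_lit 40) (nat_lit 4) (nat_lit 323) (nat_lit 295) (nat_lit 282)) (XT.lf (nat_lit 0) (nat_lit 4366890146) (nat_lit 152) (nat_lit 5565692469) (nat_lit 228) (nat_lit 1953971962) (nat_lit 37) (nat_lit 5) (nat_lit 39) (nat_lit 5) (nat_lit 40) (nat_lit 4) (nat_lit 324) (nat_lit 295) (nat_lit 281))))) (XT.nd (nat_lit 234) (nat_lit 304) (nat_lit 0) (XT.nd (nat_lit 78) (nat_lit 380) (nat_lit 0) (XT.lf (nat_lit 0) (nat_lit 3557086889)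 (nat_lit 228) (nat_lit 8523700058) (nat_lit 76) (nat_lit 384815928) (nat_lit 34) (nat_lit 5) (nat_lit 37) (nat_lit 5) (nat_lit 35) (nat_lit 4) (nat_lit 325) (nat_lit 295) (nat_lit 280)) (XT.nd (nat_lit 78) (nat_lit 228) (nat_lit 0) (XT.lf (nat_lit 0) (nat_lit 3106762000) (nat_lit 152) (nat_lit 6386813188) (nat_lit 228) (nat_lit 3593310745) (nat_lit 32) (nat_lit 5) (nat_lit 34) (nat_lit 5) (nat_lit 35) (nat_lit 4) (nat_lit 326) (nat_lit 295) (nat_lit 279)) (XT.lf (nat_lit 0) (nat_lit 1886507625) (nat_lit 152) (nat_lit 156268634) (nat_lit 228) (nat_lit 11715343356) (nat_lit 29) (nat_lit 5) (nat_lit 31) (nat_lit 5) (nat_lit 32) (nat_lit 5) (nat_lit 327) (nat_lit 295) (nat_lit 278)))) (XT.nd (nat_lit 78) (nat_lit 228) (nat_lit 0) (XT.lf (nat_lit 0) (nat_lit 68510197) (nat_lit 76) (nat_lit 8009904199) (nat_lit 152) (nat_lit 6398097236) (nat_lit 28) (nat_lit 5) (nat_lit 29) (nat_lit 5) (nat_lit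 30) (nat_lit 4) (nat_lit 328) (nat_lit 295) (nat_lit 277)) (XT.nd (nat_lit 78) (nat_lit 228) (nat_lit 0) (XT.lf (nat_lit 0) (nat_lit 13048232925) (nat_lit 76) (nat_lit 1560659295) (nat_lit 152) (nat_lit 643006314) (nat_lit 28) (nat_lit 5) (nat_lit 29) (nat_lit 5) (nat_lit 30) (nat_lit 4) (nat_lit 329) (nat_lit 295) (nat_lit 276)) (XT.lf (nat_lit 0) (nat_lit 5465304432) (nat_lit 228) (nat_lit 5250934228) (nat_lit 76) (nat_lit 5365277689) (nat_lit 25) (nat_lit 5) (nat_lit 28) (nat_lit 5) (nat_lit 26) (nat_lit 4) (nat_lit 330) (nat_lit 295) (nat_lit 275))))))))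
noncomputable def xc38 : XT := (XT.nd (nat_lit 1716) (nat_lit 380) (nat_lit 0) (XT.nd (nat_lit 858) (nat_lit 532) (nat_lit 0) (XT.nd (nat_lit 390) (nat_lit 304) (nat_lit 0) (XT.nd (nat_lit 156) (nat_lit 228) (nat_lit 0) (XT.nd (nat_lit 78) (nat_lit 228) (nat_lit 0) (XT.lf (nat_lit 0) (nat_lit 7914966354) (nat_lit 76) (nat_lit 4135137778) (nat_lit 152) (nat_lit 4926455202) (nat_lit 24) (nat_lit 5) (nat_lit 25) (nat_lit 5) (nat_lit 26) (nat_lit 4) (nat_lit 331) (nat_lit 295) (nat_lit 274)) (XT.lf (nat_lit 0) (nat_lit 1212062654) (nat_lit 228) (nat_lit 13797198975) (nat_lit 76) (nat_lit 2931452483) (nat_lit 21) (nat_lit 5) (nat_lit 24) (nat_lit 5) (nat_lit 22) (nat_lit 4) (nat_lit 332) (nat_lit 295) (nat_lit 273))) (XT.nd (nat_lit 78) (nat_lit 228) (nat_lit 0) (XT.lf (nat_lit 0) (nat_lit 7734727264) (nat_lit 228) (nat_lit 697585439) (nat_lit 76) (nat_lit 10542449247) (nat_lit 21) (nat_lit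 5) (nat_lit 24) (nat_lit 5) (nat_lit 22) (nat_lit 4) (nat_lit 333) (nat_lit 295) (nat_lit 272)) (XT.nd (nat_lit 78) (nat_lit 152) (nat_lit 0) (XT.lf (nat_lit 0) (nat_lit 13610897259) (nat_lit 76) (nat_lit 1226363984) (nat_lit 152) (nat_lit 5251445464) (nat_lit 20) (nat_lit 5) (nat_lit 21) (nat_lit 5) (nat_lit 22) (nat_lit 4) (nat_lit 334) (nat_lit 295) (nat_lit 271)) (XT.lf (nat_lit 0) (nat_lit 1264219173) (nat_lit 152) (nat_lit 13635545854) (nat_lit 76) (nat_lit 6386773748) (nat_lit 18) (nat_lit 5) (nat_lit 20) (nat_lit 5) (nat_lit 19) (nat_lit 4) (nat_lit 335) (nat_lit 295) (nat_lit 270))))) (XT.nd (nat_lit 234) (nat_lit 152) (nat_lit 0) (XT.nd (nat_lit 78) (nat_lit 76) (nat_lit 0) (XT.lf (nat_lit 0) (nat_lit 200626911) (nat_lit 76) (nat_lit 7913201478) (nat_lit 152) (nat_lit 14462292708) (nat_lit 17) (nat_lit 5) (nat_lit 18) (nat_lit 5) (nat_lit 19) (nat_lit 4) (nat_lit 336) (nat_lit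 295) (nat_lit 269)) (XT.nd (nat_lit 78) (nat_lit 76) (nat_lit 0) (XT.lf (nat_lit 0) (nat_lit 15380401051) (nat_lit 76) (nat_lit 231025440) (nat_lit 152) (nat_lit 8352499888) (nat_lit 17) (nat_lit 5) (nat_lit 18) (nat_lit 5) (nat_lit 19) (nat_lit 4) (nat_lit 337) (nat_lit 295) (nat_lit 268)) (XT.lf (nat_lit 0) (nat_lit 6146117970) (nat_lit 76) (nat_lit 17655654869) (nat_lit 76) (nat_lit 1656389360) (nat_lit 16) (nat_lit 4) (nat_lit 17) (nat_lit 5) (nat_lit 17) (nat_lit 4) (nat_lit 338) (nat_lit 295) (nat_lit 267)))) (XT.nd (nat_lit 78) (nat_lit 76) (nat_lit 0) (XT.lf (nat_lit 0) (nat_lit 5427839178) (nat_lit 152) (nat_lit 5027579256) (nat_lit 76) (nat_lit 16610669059) (nat_lit 15) (nat_lit 5) (nat_lit 17) (nat_lit 5) (nat_lit 16) (nat_lit 4) (nat_lit 339) (nat_lit 295) (nat_lit 266)) (XT.nd (nat_lit 78) (nat_lit 0) (nat_lit 0) (XT.lf (nat_lit 0) (nat_lit 10494288934) (nat_lit 76) (nat_lit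 2575375767) (nat_lit 152) (nat_lit 15729223272) (nat_lit 14) (nat_lit 5) (nat_lit 15) (nat_lit 5) (nat_lit 16) (nat_lit 4) (nat_lit 340) (nat_lit 295) (nat_lit 265)) (XT.lf (nat_lit 0) (nat_lit 21392705885) (nat_lit 152) (nat_lit 3530724071) (nat_lit 0) (nat_lit 5743429225) (nat_lit 14) (nat_lit 5) (nat_lit 16) (nat_lit 4) (nat_lit 14) (nat_lit 4) (nat_lit 341) (nat_lit 295) (nat_lit 264)))))) (XT.nd (nat_lit 390) (nat_lit 228) (nat_lit 0) (XT.nd (nat_lit 156) (nat_lit 152) (nat_lit 0) (XT.nd (nat_lit 78) (nat_lit 76) (nat_lit 0) (XT.lf (nat_lit 0) (nat_lit 12591941796) (nat_lit 76) (nat_lit 17926145217) (nat_lit 76) (nat_lit 2159393434) (nat_lit 13) (nat_lit 4) (nat_lit 14) (nat_lit 5) (nat_lit 14) (nat_lit 4) (nat_lit 342) (nat_lit 295) (nat_lit 263)) (XT.lf (nat_lit 0) (nat_lit 5309852488) (nat_lit 152) (nat_lit 4990327442) (nat_lit 76) (nat_lit 24546385337) (nat_lit 12) (nat_lit 5)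 (nat_lit 14) (nat_lit 5) (nat_lit 13) (nat_lit 4) (nat_lit 343) (nat_lit 295) (nat_lit 262))) (XT.nd (nat_lit 78) (nat_lit 76) (nat_lit 0) (XT.lf (nat_lit 0) (nat_lit 11469393402) (nat_lit 76) (nat_lit 1918720954) (nat_lit 152) (nat_lit 23794966348) (nat_lit 11) (nat_lit 5) (nat_lit 12) (nat_lit 5) (nat_lit 13) (nat_lit 4) (nat_lit 344) (nat_lit 295) (nat_lit 261)) (XT.nd (nat_lit 78) (nat_lit 76) (nat_lit 0) (XT.lf (nat_lit 0) (nat_lit 22222489311) (nat_lit 152) (nat_lit 10560356712) (nat_lit 0) (nat_lit 6918206865) (nat_lit 11) (nat_lit 5) (nat_lit 13) (nat_lit 4) (nat_lit 11) (nat_lit 4) (nat_lit 345) (nat_lit 295) (nat_lit 260)) (XT.lf (nat_lit 0) (nat_lit 5801645043) (nat_lit 76) (nat_lit 26001688134) (nat_lit 76) (nat_lit 10615169762) (nat_lit 10) (nat_lit 4) (nat_lit 11) (nat_lit 5) (nat_lit 11) (nat_lit 4) (nat_lit 346) (nat_lit 295) (nat_lit 259))))) (XT.nd (nat_lit 234) (nat_lit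 76) (nat_lit 0) (XT.nd (nat_lit 78) (nat_lit 152) (nat_lit 0) (XT.lf (nat_lit 0) (nat_lit 23699602886) (nat_lit 76) (nat_lit 18555602462) (nat_lit 76) (nat_lit 3092939714) (nat_lit 10) (nat_lit 4) (nat_lit 11) (nat_lit 5) (nat_lit 11) (nat_lit 4) (nat_lit 347) (nat_lit 295) (nat_lit 258)) (XT.nd (nat_lit 78) (nat_lit 76) (nat_lit 0) (XT.lf (nat_lit 0) (nat_lit 4795303599) (nat_lit 152) (nat_lit 5702794421) (nat_lit 76) (nat_lit 38013891318) (nat_lit 9) (nat_lit 5) (nat_lit 11) (nat_lit 5) (nat_lit 10) (nat_lit 4) (nat_lit 348) (nat_lit 295) (nat_lit 257)) (XT.lf (nat_lit 0) (nat_lit 11710258101) (nat_lit 76) (nat_lit 1611062108) (nat_lit 152) (nat_lit 38599351665) (nat_lit 8) (nat_lit 5) (nat_lit 9) (nat_lit 5) (nat_lit 10) (nat_lit 4) (nat_lit 349) (nat_lit 295) (nat_lit 256)))) (XT.nd (nat_lit 78) (nat_lit 76) (nat_lit 0) (XT.lf (nat_lit 0) (nat_lit 22688125102) (nat_lit 152) (nat_lit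 25131114251) (nat_lit 0) (nat_lit 7774892541) (nat_lit 8) (nat_lit 5) (nat_lit 10) (nat_lit 4) (nat_lit 8) (nat_lit 4) (nat_lit 350) (nat_lit 295) (nat_lit 255)) (XT.nd (nat_lit 78) (nat_lit 76) (nat_lit 0) (XT.lf (nat_lit 0) (nat_lit 32769440743) (nat_lit 152) (nat_lit 8990881576) (nat_lit 0) (nat_lit 17802904954) (nat_lit 8) (nat_lit 5) (nat_lit 10) (nat_lit 4) (nat_lit 8) (nat_lit 4) (nat_lit 351) (nat_lit 295) (nat_lit 254)) (XT.lf (nat_lit 0) (nat_lit 8606546505) (nat_lit 76) (nat_lit 35127680873) (nat_lit 76) (nat_lit 20111790244) (nat_lit 7) (nat_lit 4) (nat_lit 8) (nat_lit 5) (nat_lit 8) (nat_lit 4) (nat_lit 352) (nat_lit 295) (nat_lit 253))))))) (XT.nd (nat_lit 858) (nat_lit 152) (nat_lit 0) (XT.nd (nat_lit 390) (nat_lit 76) (nat_lit 0) (XT.nd (nat_lit 156) (nat_lit 152) (nat_lit 0) (XT.nd (nat_lit 78) (nat_lit 0) (nat_lit 0) (XT.lf (nat_lit 0) (nat_lit 27828102017) (nat_lit 76)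 (nat_lit 27849920953) (nat_lit 76) (nat_lit 12788331397) (nat_lit 7) (nat_lit 4) (nat_lit 8) (nat_lit 5) (nat_lit 8) (nat_lit 4) (nat_lit 353) (nat_lit 295) (nat_lit 252)) (XT.lf (nat_lit 0) (nat_lit 48490411326) (nat_lit 76) (nat_lit 20036180021) (nat_lit 76) (nat_lit 4932276644) (nat_lit 7) (nat_lit 4) (nat_lit 8) (nat_lit 5) (nat_lit 8) (nat_lit 4) (nat_lit 354) (nat_lit 295) (nat_lit 251))) (XT.nd (nat_lit 78) (nat_lit 76) (nat_lit 0) (XT.lf (nat_lit 0) (nat_lit 3390812825) (nat_lit 152) (nat_lit 8191916547) (nat_lit 76) (nat_lit 67267679864) (nat_lit 6) (nat_lit 5) (nat_lit 8) (nat_lit 5) (nat_lit 7) (nat_lit 4) (nat_lit 355) (nat_lit 295) (nat_lit 250)) (XT.nd (nat_lit 78) (nat_lit 0) (nat_lit 0) (XT.lf (nat_lit 0) (nat_lit 10081645531) (nat_lit 76) (nat_lit 2240796250) (nat_lit 152) (nat_lit 72341025325) (nat_lit 5) (nat_lit 5) (nat_lit 6) (nat_lit 5) (nat_lit 7) (nat_lit 4) (nat_lit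 356) (nat_lit 295) (nat_lit 249)) (XT.lf (nat_lit 0) (nat_lit 22193364713) (nat_lit 152) (nat_lit 61032136123) (nat_lit 0) (nat_lit 7704840715) (nat_lit 5) (nat_lit 5) (nat_lit 7) (nat_lit 4) (nat_lit 5) (nat_lit 4) (nat_lit 357) (nat_lit 295) (nat_lit 248))))) (XT.nd (nat_lit 234) (nat_lit 76) (nat_lit 0) (XT.nd (nat_lit 78) (nat_lit 0) (nat_lit 0) (XT.lf (nat_lit 0) (nat_lit 32852106044) (nat_lit 152) (nat_lit 46512600890) (nat_lit 0) (nat_lit 18333961169) (nat_lit 5) (nat_lit 5) (nat_lit 7) (nat_lit 4) (nat_lit 5) (nat_lit 4) (nat_lit 358) (nat_lit 295) (nat_lit 247)) (XT.nd (nat_lit 78) (nat_lit 0) (nat_lit 0) (XT.lf (nat_lit 0) (nat_lit 44326843577) (nat_lit 152) (nat_lit 30902189076) (nat_lit 0) (nat_lit 29781271963) (nat_lit 5) (nat_lit 5) (nat_lit 7) (nat_lit 4) (nat_lit 5) (nat_lit 4) (nat_lit 359) (nat_lit 295) (nat_lit 246)) (XT.lf (nat_lit 0) (nat_lit 56685575756) (nat_lit 152)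 (nat_lit 14108394538) (nat_lit 0) (nat_lit 42114609014) (nat_lit 5) (nat_lit 5) (nat_lit 7) (nat_lit 4) (nat_lit 5) (nat_lit 4) (nat_lit 360) (nat_lit 295) (nat_lit 245)))) (XT.nd (nat_lit 78) (nat_lit 0) (nat_lit 0) (XT.lf (nat_lit 0) (nat_lit 4099511474) (nat_lit 76) (nat_lit 65966032902) (nat_lit 76) (nat_lit 51371552153) (nat_lit 4) (nat_lit 4) (nat_lit 5) (nat_lit 5) (nat_lit 5) (nat_lit 4) (nat_lit 361) (nat_lit 295) (nat_lit 244)) (XT.nd (nat_lit 78) (nat_lit 0) (nat_lit 0) (XT.lf (nat_lit 0) (nat_lit 24209887822) (nat_lit 76) (nat_lit 60521740639) (nat_lit 76) (nat_lit 45905487660) (nat_lit 4) (nat_lit 4) (nat_lit 5) (nat_lit 5) (nat_lit 5) (nat_lit 4) (nat_lit 362) (nat_lit 295) (nat_lit 243)) (XT.lf (nat_lit 0) (nat_lit 45875419866) (nat_lit 76) (nat_lit 54667763522) (nat_lit 76) (nat_lit 40031351071) (nat_lit 4) (nat_lit 4) (nat_lit 5) (nat_lit 5) (nat_lit 5) (nat_lit 4) (nat_lit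 363) (nat_lit 295) (nat_lit 242)))))) (XT.nd (nat_lit 468) (nat_lit 76) (nat_lit 0) (XT.nd (nat_lit 234) (nat_lit 76) (nat_lit 0) (XT.nd (nat_lit 78) (nat_lit 0) (nat_lit 0) (XT.lf (nat_lit 0) (nat_lit 69224495945) (nat_lit 76) (nat_lit 48369411315) (nat_lit 76) (nat_lit 33714332687) (nat_lit 4) (nat_lit 4) (nat_lit 5) (nat_lit 5) (nat_lit 5) (nat_lit 4) (nat_lit 364) (nat_lit 295) (nat_lit 241)) (XT.nd (nat_lit 78) (nat_lit 0) (nat_lit 0) (XT.lf (nat_lit 0) (nat_lit 94395480952) (nat_lit 76) (nat_lit 41589360450) (nat_lit 76) (nat_lit 26916998324) (nat_lit 4) (nat_lit 4) (nat_lit 5) (nat_lit 5) (nat_lit 5) (nat_lit 4) (nat_lit 365) (nat_lit 295) (nat_lit 240)) (XT.lf (nat_lit 0) (nat_lit 121537536282) (nat_lit 76) (nat_lit 34287432848) (nat_lit 76) (nat_lit 19599067484) (nat_lit 4) (nat_lit 4) (nat_lit 5) (nat_lit 5) (nat_lit 5) (nat_lit 4) (nat_lit 366) (nat_lit 295) (nat_lit 239))))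 (XT.nd (nat_lit 78) (nat_lit 76) (nat_lit 0) (XT.lf (nat_lit 0) (nat_lit 150811503742) (nat_lit 76) (nat_lit 26420357826) (nat_lit 76) (nat_lit 11717174649) (nat_lit 4) (nat_lit 4) (nat_lit 5) (nat_lit 5) (nat_lit 5) (nat_lit 4) (nat_lit 367) (nat_lit 295) (nat_lit 238)) (XT.nd (nat_lit 78) (nat_lit 76) (nat_lit 0) (XT.lf (nat_lit 0) (nat_lit 182390858697) (nat_lit 76) (nat_lit 17941515682) (nat_lit 76) (nat_lit 3224612306) (nat_lit 4) (nat_lit 4) (nat_lit 5) (nat_lit 5) (nat_lit 5) (nat_lit 4) (nat_lit 368) (nat_lit 295) (nat_lit 237)) (XT.lf (nat_lit 0) (nat_lit 5739182544) (nat_lit 152) (nat_lit 2964283046) (nat_lit 76) (nat_lit 210626359687) (nat_lit 3) (nat_lit 5) (nat_lit 5) (nat_lit 5) (nat_lit 4) (nat_lit 4) (nat_lit 369) (nat_lit 295) (nat_lit 236))))) (XT.nd (nat_lit 234) (nat_lit 0) (nat_lit 0) (XT.nd (nat_lit 78) (nat_lit 0) (nat_lit 0) (XT.lf (nat_lit 0) (nat_lit 15584906582)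 (nat_lit 152) (nat_lit 219217548311) (nat_lit 0) (nat_lit 1545506468) (nat_lit 2) (nat_lit 5) (nat_lit 4) (nat_lit 4) (nat_lit 2) (nat_lit 4) (nat_lit 370) (nat_lit 295) (nat_lit 235)) (XT.nd (nat_lit 78) (nat_lit 0) (nat_lit 0) (XT.lf (nat_lit 0) (nat_lit 26401543622) (nat_lit 152) (nat_lit 215965074624) (nat_lit 0) (nat_lit 12351770617) (nat_lit 2) (nat_lit 5) (nat_lit 4) (nat_lit 4) (nat_lit 2) (nat_lit 4) (nat_lit 371) (nat_lit 295) (nat_lit 234)) (XT.lf (nat_lit 0) (nat_lit 38068711960) (nat_lit 152) (nat_lit 212481147203) (nat_lit 0) (nat_lit 24009334427) (nat_lit 2) (nat_lit 5) (nat_lit 4) (nat_lit 4) (nat_lit 2) (nat_lit 4) (nat_lit 372) (nat_lit 295) (nat_lit 233)))) (XT.nd (nat_lit 78) (nat_lit 0) (nat_lit 0) (XT.lf (nat_lit 0) (nat_lit 50655550372) (nat_lit 152) (nat_lit 208745120551) (nat_lit 0) (nat_lit 36587279757) (nat_lit 2) (nat_lit 5) (nat_lit 4) (nat_lit 4) (nat_lit 2)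 (nat_lit 4) (nat_lit 373) (nat_lit 295) (nat_lit 232)) (XT.nd (nat_lit 78) (nat_lit 0) (nat_lit 0) (XT.lf (nat_lit 0) (nat_lit 64236647529) (nat_lit 152) (nat_lit 204734855253) (nat_lit 0) (nat_lit 50160142579) (nat_lit 2) (nat_lit 5) (nat_lit 4) (nat_lit 4) (nat_lit 2) (nat_lit 4) (nat_lit 374) (nat_lit 295) (nat_lit 231)) (XT.lf (nat_lit 0) (nat_lit 78892484007) (nat_lit 152) (nat_lit 200426586773) (nat_lit 0) (nat_lit 64808354673) (nat_lit 2) (nat_lit 5) (nat_lit 4) (nat_lit 4) (nat_lit 2) (nat_lit 4) (nat_lit 375) (nat_lit 295) (nat_lit 230))))))))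
noncomputable def xc39 : XT := (XT.nd (nat_lit 42120) (nat_lit 0) (nat_lit 1140) (XT.nd (nat_lit 858) (nat_lit 0) (nat_lit 0) (XT.nd (nat_lit 390) (nat_lit 0) (nat_lit 0) (XT.nd (nat_lit 156) (nat_lit 0) (nat_lit 0) (XT.nd (nat_lit 78) (nat_lit 0) (nat_lit 0) (XT.lf (nat_lit 0) (nat_lit 94709909208) (nat_lit 152) (nat_lit 195794784630) (nat_lit 0) (nat_lit 80618720258) (nat_lit 2) (nat_lit 5) (nat_lit 4) (nat_lit 4) (nat_lit 2) (nat_lit 4) (nat_lit 376) (nat_lit 295) (nat_lit 229)) (XT.lf (nat_lit 0) (nat_lit 111782656022) (nat_lit 152) (nat_lit 190812001109) (nat_lit 0) (nat_lit 97684930391) (nat_lit 2) (nat_lit 5) (nat_lit 4) (nat_lit 4) (nat_lit 2) (nat_lit 4) (nat_lit 377) (nat_lit 295) (nat_lit 228))) (XT.nd (nat_lit 78) (nat_lit 0) (nat_lit 0) (XT.lf (nat_lit 0) (nat_lit 130211896281) (nat_lit 152) (nat_lit 185448708604) (nat_lit 0) (nat_lit 116108118168) (nat_lit 2) (nat_lit 5) (nat_lit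 4) (nat_lit 4) (nat_lit 2) (nat_lit 4) (nat_lit 378) (nat_lit 295) (nat_lit 227)) (XT.nd (nat_lit 78) (nat_lit 0) (nat_lit 0) (XT.lf (nat_lit 0) (nat_lit 150106840298) (nat_lit 152) (nat_lit 179673124640) (nat_lit 0) (nat_lit 135997458036) (nat_lit 2) (nat_lit 5) (nat_lit 4) (nat_lit 4) (nat_lit 2) (nat_lit 4) (nat_lit 379) (nat_lit 295) (nat_lit 226)) (XT.lf (nat_lit 0) (nat_lit 171585384039) (nat_lit 152) (nat_lit 173451023534) (nat_lit 0) (nat_lit 157470812748) (nat_lit 2) (nat_lit 5) (nat_lit 4) (nat_lit 4) (nat_lit 2) (nat_lit 4) (nat_lit 380) (nat_lit 295) (nat_lit 225))))) (XT.nd (nat_lit 234) (nat_lit 0) (nat_lit 0) (XT.nd (nat_lit 78) (nat_lit 0) (nat_lit 0) (XT.lf (nat_lit 0) (nat_lit 194774807761) (nat_lit 152) (nat_lit 166745533577) (nat_lit 0) (nat_lit 180655431815) (nat_lit 2) (nat_lit 5) (nat_lit 4) (nat_lit 4) (nat_lit 2) (nat_lit 4) (nat_lit 381) (nat_lit 295) (nat_lit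 224)) (XT.nd (nat_lit 78) (nat_lit 0) (nat_lit 0) (XT.lf (nat_lit 0) (nat_lit 219812530273) (nat_lit 152) (nat_lit 159516918532) (nat_lit 0) (nat_lit 205688705572) (nat_lit 2) (nat_lit 5) (nat_lit 4) (nat_lit 4) (nat_lit 2) (nat_lit 4) (nat_lit 382) (nat_lit 295) (nat_lit 223)) (XT.lf (nat_lit 0) (nat_lit 246846923262) (nat_lit 152) (nat_lit 151722342161) (nat_lit 0) (nat_lit 232718979344) (nat_lit 2) (nat_lit 5) (nat_lit 4) (nat_lit 4) (nat_lit 2) (nat_lit 4) (nat_lit 383) (nat_lit 295) (nat_lit 222)))) (XT.nd (nat_lit 78) (nat_lit 0) (nat_lit 0) (XT.lf (nat_lit 0) (nat_lit 276038190541) (nat_lit 152) (nat_lit 143315614382) (nat_lit 0) (nat_lit 261906432532) (nat_lit 2) (nat_lit 5) (nat_lit 4) (nat_lit 4) (nat_lit 2) (nat_lit 4) (nat_lit 384) (nat_lit 295) (nat_lit 221)) (XT.nd (nat_lit 78) (nat_lit 0) (nat_lit 0) (XT.lf (nat_lit 0) (nat_lit 307559317395) (nat_lit 152) (nat_lit 134246917549)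 (nat_lit 0) (nat_lit 293424027821) (nat_lit 2) (nat_lit 5) (nat_lit 4) (nat_lit 4) (nat_lit 2) (nat_lit 4) (nat_lit 385) (nat_lit 295) (nat_lit 220)) (XT.lf (nat_lit 0) (nat_lit 341597095689) (nat_lit 152) (nat_lit 124462511236) (nat_lit 0) (nat_lit 327458536147) (nat_lit 2) (nat_lit 5) (nat_lit 4) (nat_lit 4) (nat_lit 2) (nat_lit 4) (nat_lit 386) (nat_lit 295) (nat_lit 219)))))) (XT.nd (nat_lit 40794) (nat_lit 0) (nat_lit 5472) (XT.nd (nat_lit 234) (nat_lit 0) (nat_lit 0) (XT.nd (nat_lit 78) (nat_lit 0) (nat_lit 0) (XT.lf (nat_lit 0) (nat_lit 378353230774) (nat_lit 152) (nat_lit 113904413776) (nat_lit 0) (nat_lit 364211643484) (nat_lit 2) (nat_lit 5) (nat_lit 4) (nat_lit 4) (nat_lit 2) (nat_lit 4) (nat_lit 387) (nat_lit 295) (nat_lit 218)) (XT.nd (nat_lit 78) (nat_lit 0) (nat_lit 0) (XT.lf (nat_lit 0) (nat_lit 418045536785) (nat_lit 152) (nat_lit 102510058667) (nat_lit 0) (nat_lit 403901146025)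 (nat_lit 2) (nat_lit 5) (nat_lit 4) (nat_lit 4) (nat_lit 2) (nat_lit 4) (nat_lit 388) (nat_lit 295) (nat_lit 217)) (XT.lf (nat_lit 0) (nat_lit 460909227387) (nat_lit 152) (nat_lit 90211923802) (nat_lit 0) (nat_lit 446762240821) (nat_lit 2) (nat_lit 5) (nat_lit 4) (nat_lit 4) (nat_lit 2) (nat_lit 4) (nat_lit 389) (nat_lit 295) (nat_lit 216)))) (XT.nd (nat_lit 78) (nat_lit 0) (nat_lit 0) (XT.lf (nat_lit 0) (nat_lit 507198309635) (nat_lit 152) (nat_lit 76937131347) (nat_lit 0) (nat_lit 493048919545) (nat_lit 2) (nat_lit 5) (nat_lit 4) (nat_lit 4) (nat_lit 2) (nat_lit 4) (nat_lit 390) (nat_lit 295) (nat_lit 215)) (XT.nd (nat_lit 40404) (nat_lit 0) (nat_lit 8740) (XT.lf (nat_lit 0) (nat_lit 557187089202) (nat_lit 152) (nat_lit 62607015865) (nat_lit 0) (nat_lit 543035473627) (nat_lit 2) (nat_lit 5) (nat_lit 4) (nat_lit 4) (nat_lit 2) (nat_lit 4) (nat_lit 391) (nat_lit 295) (nat_lit 214)) (XT.lf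 (nat_lit 0) (nat_lit 836272622) (nat_lit 532) (nat_lit 1313089831) (nat_lit 532) (nat_lit 1313089831) (nat_lit 117) (nat_lit 4) (nat_lit 124) (nat_lit 5) (nat_lit 124) (nat_lit 4) (nat_lit 308) (nat_lit 296) (nat_lit 296))))) (XT.nd (nat_lit 234) (nat_lit 1140) (nat_lit 0) (XT.nd (nat_lit 78) (nat_lit 1444) (nat_lit 0) (XT.lf (nat_lit 0) (nat_lit 2106079238) (nat_lit 608) (nat_lit 319548638) (nat_lit 684) (nat_lit 4633094772) (nat_lit 108) (nat_lit 5) (nat_lit 116) (nat_lit 5) (nat_lit 117) (nat_lit 4) (nat_lit 309) (nat_lit 296) (nat_lit 295)) (XT.nd (nat_lit 78) (nat_lit 684) (nat_lit 0) (XT.lf (nat_lit 0) (nat_lit 332089090) (nat_lit 760) (nat_lit 4576917939) (nat_lit 76) (nat_lit 2304267057) (nat_lit 98) (nat_lit 5) (nat_lit 108) (nat_lit 5) (nat_lit 99) (nat_lit 4) (nat_lit 310) (nat_lit 296) (nat_lit 294)) (XT.lf (nat_lit 0) (nat_lit 3251782739) (nat_lit 684) (nat_lit 2040892346)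 (nat_lit 760) (nat_lit 2096397266) (nat_lit 89) (nat_lit 5) (nat_lit 98) (nat_lit 5) (nat_lit 99) (nat_lit 4) (nat_lit 311) (nat_lit 296) (nat_lit 293)))) (XT.nd (nat_lit 78) (nat_lit 684) (nat_lit 0) (XT.lf (nat_lit 0) (nat_lit 2765698647) (nat_lit 456) (nat_lit 3630633375) (nat_lit 76) (nat_lit 1191186238) (nat_lit 83) (nat_lit 5) (nat_lit 89) (nat_lit 5) (nat_lit 84) (nat_lit 4) (nat_lit 312) (nat_lit 296) (nat_lit 292)) (XT.nd (nat_lit 78) (nat_lit 380) (nat_lit 0) (XT.lf (nat_lit 0) (nat_lit 4732087799) (nat_lit 304) (nat_lit 3045206326) (nat_lit 380) (nat_lit 31704645) (nat_lit 79) (nat_lit 5) (nat_lit 83) (nat_lit 5) (nat_lit 84) (nat_lit 4) (nat_lit 313) (nat_lit 296) (nat_lit 291)) (XT.lf (nat_lit 0) (nat_lit 4805368871) (nat_lit 380) (nat_lit 2511713324) (nat_lit 76) (nat_lit 736194271) (nat_lit 74) (nat_lit 5) (nat_lit 79) (nat_lit 5) (nat_lit 75) (nat_lit 4) (nat_lit 314) (nat_lit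 296) (nat_lit 290))))))) (XT.nd (nat_lit 858) (nat_lit 1444) (nat_lit 0) (XT.nd (nat_lit 390) (nat_lit 1064) (nat_lit 0) (XT.nd (nat_lit 156) (nat_lit 1140) (nat_lit 0) (XT.nd (nat_lit 78) (nat_lit 304) (nat_lit 0) (XT.lf (nat_lit 0) (nat_lit 1543555509) (nat_lit 380) (nat_lit 1939872043) (nat_lit 76) (nat_lit 4838400186) (nat_lit 69) (nat_lit 5) (nat_lit 74) (nat_lit 5) (nat_lit 70) (nat_lit 5) (nat_lit 315) (nat_lit 296) (nat_lit 289)) (XT.lf (nat_lit 0) (nat_lit 6472211614) (nat_lit 380) (nat_lit 1368088830) (nat_lit 76) (nat_lit 775932029) (nat_lit 65) (nat_lit 5) (nat_lit 70) (nat_lit 5) (nat_lit 66) (nat_lit 4) (nat_lit 316) (nat_lit 296) (nat_lit 288))) (XT.nd (nat_lit 78) (nat_lit 836) (nat_lit 0) (XT.lf (nat_lit 0) (nat_lit 2699286605) (nat_lit 304) (nat_lit 852338095) (nat_lit 76) (nat_lit 5384203146) (nat_lit 61) (nat_lit 5) (nat_lit 65) (nat_lit 5) (nat_lit 62) (nat_lit 5) (nat_lit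 317) (nat_lit 296) (nat_lit 287)) (XT.nd (nat_lit 78) (nat_lit 532) (nat_lit 0) (XT.lf (nat_lit 0) (nat_lit 7760630844) (nat_lit 380) (nat_lit 366816821) (nat_lit 76) (nat_lit 1156840169) (nat_lit 57) (nat_lit 5) (nat_lit 62) (nat_lit 5) (nat_lit 58) (nat_lit 4) (nat_lit 318) (nat_lit 296) (nat_lit 286)) (XT.lf (nat_lit 0) (nat_lit 4243439) (nat_lit 228) (nat_lit 3409599506) (nat_lit 304) (nat_lit 6246210095) (nat_lit 50) (nat_lit 5) (nat_lit 53) (nat_lit 5) (nat_lit 54) (nat_lit 5) (nat_lit 319) (nat_lit 296) (nat_lit 285))))) (XT.nd (nat_lit 234) (nat_lit 456) (nat_lit 0) (XT.nd (nat_lit 78) (nat_lit 456) (nat_lit 0) (XT.lf (nat_lit 0) (nat_lit 303483576) (nat_lit 152) (nat_lit 8336851857) (nat_lit 228) (nat_lit 1427203054) (nat_lit 48) (nat_lit 5) (nat_lit 50) (nat_lit 5) (nat_lit 51) (nat_lit 4) (nat_lit 320) (nat_lit 296) (nat_lit 284)) (XT.nd (nat_lit 78) (nat_lit 152) (nat_lit 0)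 (XT.lf (nat_lit 0) (nat_lit 422912920) (nat_lit 228) (nat_lit 3215826136) (nat_lit 304) (nat_lit 6867063297) (nat_lit 44) (nat_lit 5) (nat_lit 47) (nat_lit 5) (nat_lit 48) (nat_lit 5) (nat_lit 321) (nat_lit 296) (nat_lit 283)) (XT.lf (nat_lit 0) (nat_lit 381629861) (nat_lit 152) (nat_lit 8652443915) (nat_lit 228) (nat_lit 1945403608) (nat_lit 42) (nat_lit 5) (nat_lit 44) (nat_lit 5) (nat_lit 45) (nat_lit 4) (nat_lit 322) (nat_lit 296) (nat_lit 282)))) (XT.nd (nat_lit 78) (nat_lit 228) (nat_lit 0) (XT.lf (nat_lit 0) (nat_lit 92047498) (nat_lit 152) (nat_lit 3171136757) (nat_lit 228) (nat_lit 8225377788) (nat_lit 39) (nat_lit 5) (nat_lit 41) (nat_lit 5) (nat_lit 42) (nat_lit 5) (nat_lit 323) (nat_lit 296) (nat_lit 281)) (XT.nd (nat_lit 78) (nat_lit 228) (nat_lit 0) (XT.lf (nat_lit 0) (nat_lit 8828540985) (nat_lit 228) (nat_lit 448137114) (nat_lit 76) (nat_lit 2759873245) (nat_lit 39) (nat_lit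 5) (nat_lit 42) (nat_lit 5) (nat_lit 40) (nat_lit 4) (nat_lit 324) (nat_lit 296) (nat_lit 280)) (XT.lf (nat_lit 0) (nat_lit 2164313185) (nat_lit 228) (nat_lit 1305603140) (nat_lit 76) (nat_lit 9155684075) (nat_lit 36) (nat_lit 5) (nat_lit 39) (nat_lit 5) (nat_lit 37) (nat_lit 5) (nat_lit 325) (nat_lit 296) (nat_lit 279)))))) (XT.nd (nat_lit 468) (nat_lit 608) (nat_lit 0) (XT.nd (nat_lit 234) (nat_lit 304) (nat_lit 0) (XT.nd (nat_lit 78) (nat_lit 380) (nat_lit 0) (XT.lf (nat_lit 0) (nat_lit 7877269388) (nat_lit 228) (nat_lit 2553797138) (nat_lit 76) (nat_lit 2827065935) (nat_lit 34) (nat_lit 5) (nat_lit 37) (nat_lit 5) (nat_lit 35) (nat_lit 4) (nat_lit 326) (nat_lit 296) (nat_lit 278)) (XT.nd (nat_lit 78) (nat_lit 152) (nat_lit 0) (XT.lf (nat_lit 0) (nat_lit 144973172) (nat_lit 228) (nat_lit 4223630982) (nat_lit 76) (nat_lit 9570594446) (nat_lit 31) (nat_lit 5) (nat_lit 34) (nat_lit 5) (nat_lit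 32) (nat_lit 5) (nat_lit 327) (nat_lit 296) (nat_lit 277)) (XT.lf (nat_lit 0) (nat_lit 5952159988) (nat_lit 228) (nat_lit 6457824653) (nat_lit 76) (nat_lit 2259087655) (nat_lit 29) (nat_lit 5) (nat_lit 32) (nat_lit 5) (nat_lit 30) (nat_lit 4) (nat_lit 328) (nat_lit 296) (nat_lit 276)))) (XT.nd (nat_lit 78) (nat_lit 228) (nat_lit 0) (XT.lf (nat_lit 0) (nat_lit 6158436184) (nat_lit 76) (nat_lit 6132169384) (nat_lit 152) (nat_lit 3163509976) (nat_lit 28) (nat_lit 5) (nat_lit 29) (nat_lit 5) (nat_lit 30) (nat_lit 4) (nat_lit 329) (nat_lit 296) (nat_lit 275)) (XT.nd (nat_lit 78) (nat_lit 0) (nat_lit 0) (XT.lf (nat_lit 0) (nat_lit 2751847868) (nat_lit 228) (nat_lit 12822417560) (nat_lit 76) (nat_lit 725165042) (nat_lit 25) (nat_lit 5) (nat_lit 28) (nat_lit 5) (nat_lit 26) (nat_lit 4) (nat_lit 330) (nat_lit 296) (nat_lit 274)) (XT.lf (nat_lit 0) (nat_lit 9133454100) (nat_lit 228) (nat_lit 48401454)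 (nat_lit 76) (nat_lit 8022822266) (nat_lit 25) (nat_lit 5) (nat_lit 28) (nat_lit 5) (nat_lit 26) (nat_lit 4) (nat_lit 331) (nat_lit 296) (nat_lit 273))))) (XT.nd (nat_lit 234) (nat_lit 228) (nat_lit 0) (XT.nd (nat_lit 78) (nat_lit 304) (nat_lit 0) (XT.lf (nat_lit 0) (nat_lit 13926419505) (nat_lit 76) (nat_lit 2163260117) (nat_lit 152) (nat_lit 2089546868) (nat_lit 24) (nat_lit 5) (nat_lit 25) (nat_lit 5) (nat_lit 26) (nat_lit 4) (nat_lit 332) (nat_lit 296) (nat_lit 272)) (XT.nd (nat_lit 78) (nat_lit 76) (nat_lit 0) (XT.lf (nat_lit 0) (nat_lit 4322249720) (nat_lit 228) (nat_lit 9541027385) (nat_lit 76) (nat_lit 5360552227) (nat_lit 21) (nat_lit 5) (nat_lit 24) (nat_lit 5) (nat_lit 22) (nat_lit 4) (nat_lit 333) (nat_lit 296) (nat_lit 271)) (XT.lf (nat_lit 0) (nat_lit 4348707894) (nat_lit 76) (nat_lit 6862713488) (nat_lit 152) (nat_lit 9137054612) (nat_lit 20) (nat_lit 5) (nat_lit 21) (nat_lit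 5) (nat_lit 22) (nat_lit 4) (nat_lit 334) (nat_lit 296) (nat_lit 270)))) (XT.nd (nat_lit 78) (nat_lit 228) (nat_lit 0) (XT.lf (nat_lit 0) (nat_lit 18693660290) (nat_lit 152) (nat_lit 2126607322) (nat_lit 0) (nat_lit 740795173) (nat_lit 20) (nat_lit 5) (nat_lit 22) (nat_lit 4) (nat_lit 20) (nat_lit 4) (nat_lit 335) (nat_lit 296) (nat_lit 269)) (XT.nd (nat_lit 78) (nat_lit 76) (nat_lit 0) (XT.lf (nat_lit 0) (nat_lit 3971758027) (nat_lit 152) (nat_lit 10001063130) (nat_lit 76) (nat_lit 8885201121) (nat_lit 18) (nat_lit 5) (nat_lit 20) (nat_lit 5) (nat_lit 19) (nat_lit 4) (nat_lit 336) (nat_lit 296) (nat_lit 268)) (XT.lf (nat_lit 0) (nat_lit 4736646530) (nat_lit 76) (nat_lit 6510192076) (nat_lit 152) (nat_lit 13010140375) (nat_lit 17) (nat_lit 5) (nat_lit 18) (nat_lit 5) (nat_lit 19) (nat_lit 4) (nat_lit 337) (nat_lit 296) (nat_lit 267))))))))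
noncomputable def xc40 : XT := (XT.nd (nat_lit 1716) (nat_lit 228) (nat_lit 0) (XT.nd (nat_lit 858) (nat_lit 380) (nat_lit 0) (XT.nd (nat_lit 390) (nat_lit 304) (nat_lit 0) (XT.nd (nat_lit 156) (nat_lit 76) (nat_lit 0) (XT.nd (nat_lit 78) (nat_lit 152) (nat_lit 0) (XT.lf (nat_lit 0) (nat_lit 19185790133) (nat_lit 152) (nat_lit 4994633528) (nat_lit 0) (nat_lit 1583384532) (nat_lit 17) (nat_lit 5) (nat_lit 19) (nat_lit 4) (nat_lit 17) (nat_lit 4) (nat_lit 338) (nat_lit 296) (nat_lit 266)) (XT.lf (nat_lit 0) (nat_lit 526214395) (nat_lit 152) (nat_lit 16667540221) (nat_lit 76) (nat_lit 10188717698) (nat_lit 15) (nat_lit 5) (nat_lit 17) (nat_lit 5) (nat_lit 16) (nat_lit 4) (nat_lit 339) (nat_lit 296) (nat_lit 265))) (XT.nd (nat_lit 78) (nat_lit 76) (nat_lit 0) (XT.lf (nat_lit 0) (nat_lit 7952676420) (nat_lit 152) (nat_lit 1576509859) (nat_lit 76) (nat_lit 19596874002) (nat_lit 15) (nat_lit 5)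 (nat_lit 17) (nat_lit 5) (nat_lit 16) (nat_lit 4) (nat_lit 340) (nat_lit 296) (nat_lit 264)) (XT.nd (nat_lit 78) (nat_lit 0) (nat_lit 0) (XT.lf (nat_lit 0) (nat_lit 15019649119) (nat_lit 76) (nat_lit 1088884792) (nat_lit 152) (nat_lit 14893874644) (nat_lit 14) (nat_lit 5) (nat_lit 15) (nat_lit 5) (nat_lit 16) (nat_lit 4) (nat_lit 341) (nat_lit 296) (nat_lit 263)) (XT.lf (nat_lit 0) (nat_lit 24974234422) (nat_lit 152) (nat_lit 331901878) (nat_lit 0) (nat_lit 7719894111) (nat_lit 14) (nat_lit 5) (nat_lit 16) (nat_lit 4) (nat_lit 14) (nat_lit 4) (nat_lit 342) (nat_lit 296) (nat_lit 262))))) (XT.nd (nat_lit 234) (nat_lit 76) (nat_lit 0) (XT.nd (nat_lit 78) (nat_lit 152) (nat_lit 0) (XT.lf (nat_lit 0) (nat_lit 16929285067) (nat_lit 76) (nat_lit 17813824597) (nat_lit 76) (nat_lit 458768304) (nat_lit 13) (nat_lit 4) (nat_lit 14) (nat_lit 5) (nat_lit 14) (nat_lit 4) (nat_lit 343) (nat_lit 296)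 (nat_lit 261)) (XT.nd (nat_lit 78) (nat_lit 76) (nat_lit 0) (XT.lf (nat_lit 0) (nat_lit 7413730367) (nat_lit 152) (nat_lit 2250164578) (nat_lit 76) (nat_lit 27885892443) (nat_lit 12) (nat_lit 5) (nat_lit 14) (nat_lit 5) (nat_lit 13) (nat_lit 4) (nat_lit 344) (nat_lit 296) (nat_lit 260)) (XT.lf (nat_lit 0) (nat_lit 15389899910) (nat_lit 76) (nat_lit 670860804) (nat_lit 152) (nat_lit 24016378607) (nat_lit 11) (nat_lit 5) (nat_lit 12) (nat_lit 5) (nat_lit 13) (nat_lit 4) (nat_lit 345) (nat_lit 296) (nat_lit 259)))) (XT.nd (nat_lit 78) (nat_lit 76) (nat_lit 0) (XT.lf (nat_lit 0) (nat_lit 25503507283) (nat_lit 152) (nat_lit 8570311405) (nat_lit 0) (nat_lit 8727687140) (nat_lit 11) (nat_lit 5) (nat_lit 13) (nat_lit 4) (nat_lit 11) (nat_lit 4) (nat_lit 346) (nat_lit 296) (nat_lit 258)) (XT.nd (nat_lit 78) (nat_lit 0) (nat_lit 0) (XT.lf (nat_lit 0) (nat_lit 8977450328) (nat_lit 76) (nat_lit 26804355613)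 (nat_lit 76) (nat_lit 9958031418) (nat_lit 10) (nat_lit 4) (nat_lit 11) (nat_lit 5) (nat_lit 11) (nat_lit 4) (nat_lit 347) (nat_lit 296) (nat_lit 257)) (XT.lf (nat_lit 0) (nat_lit 28106380081) (nat_lit 76) (nat_lit 18857210315) (nat_lit 76) (nat_lit 1945604591) (nat_lit 10) (nat_lit 4) (nat_lit 11) (nat_lit 5) (nat_lit 11) (nat_lit 4) (nat_lit 348) (nat_lit 296) (nat_lit 256)))))) (XT.nd (nat_lit 390) (nat_lit 152) (nat_lit 0) (XT.nd (nat_lit 156) (nat_lit 76) (nat_lit 0) (XT.nd (nat_lit 78) (nat_lit 76) (nat_lit 0) (XT.lf (nat_lit 0) (nat_lit 6429047276) (nat_lit 152) (nat_lit 3792504667) (nat_lit 76) (nat_lit 42108534973) (nat_lit 9) (nat_lit 5) (nat_lit 11) (nat_lit 5) (nat_lit 10) (nat_lit 4) (nat_lit 349) (nat_lit 296) (nat_lit 255)) (XT.lf (nat_lit 0) (nat_lit 14910746272) (nat_lit 76) (nat_lit 669139701) (nat_lit 152) (nat_lit 40434467385) (nat_lit 8) (nat_lit 5) (nat_lit 9) (nat_lit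 5) (nat_lit 10) (nat_lit 4) (nat_lit 350) (nat_lit 296) (nat_lit 254))) (XT.nd (nat_lit 78) (nat_lit 76) (nat_lit 0) (XT.lf (nat_lit 0) (nat_lit 25623155157) (nat_lit 152) (nat_lit 25005564979) (nat_lit 0) (nat_lit 9356638437) (nat_lit 8) (nat_lit 5) (nat_lit 10) (nat_lit 4) (nat_lit 8) (nat_lit 4) (nat_lit 351) (nat_lit 296) (nat_lit 253)) (XT.nd (nat_lit 78) (nat_lit 76) (nat_lit 0) (XT.lf (nat_lit 0) (nat_lit 36428014565) (nat_lit 152) (nat_lit 7732338758) (nat_lit 0) (nat_lit 20115798918) (nat_lit 8) (nat_lit 5) (nat_lit 10) (nat_lit 4) (nat_lit 8) (nat_lit 4) (nat_lit 352) (nat_lit 296) (nat_lit 252)) (XT.lf (nat_lit 0) (nat_lit 11186930211) (nat_lit 76) (nat_lit 37035774966) (nat_lit 76) (nat_lit 20681245498) (nat_lit 7) (nat_lit 4) (nat_lit 8) (nat_lit 5) (nat_lit 8) (nat_lit 4) (nat_lit 353) (nat_lit 296) (nat_lit 251))))) (XT.nd (nat_lit 234) (nat_lit 76) (nat_lit 0) (XT.nd (nat_lit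 78) (nat_lit 76) (nat_lit 0) (XT.lf (nat_lit 0) (nat_lit 31806072388) (nat_lit 76) (nat_lit 29242617983) (nat_lit 76) (nat_lit 12848909052) (nat_lit 7) (nat_lit 4) (nat_lit 8) (nat_lit 5) (nat_lit 8) (nat_lit 4) (nat_lit 354) (nat_lit 296) (nat_lit 250)) (XT.nd (nat_lit 78) (nat_lit 76) (nat_lit 0) (XT.lf (nat_lit 0) (nat_lit 53991609241) (nat_lit 76) (nat_lit 20865651603) (nat_lit 76) (nat_lit 4435665390) (nat_lit 7) (nat_lit 4) (nat_lit 8) (nat_lit 5) (nat_lit 8) (nat_lit 4) (nat_lit 355) (nat_lit 296) (nat_lit 249)) (XT.lf (nat_lit 0) (nat_lit 4460846029) (nat_lit 152) (nat_lit 7318841927) (nat_lit 76) (nat_lit 73338618002) (nat_lit 6) (nat_lit 5) (nat_lit 8) (nat_lit 5) (nat_lit 7) (nat_lit 4) (nat_lit 356) (nat_lit 296) (nat_lit 248)))) (XT.nd (nat_lit 78) (nat_lit 0) (nat_lit 0) (XT.lf (nat_lit 0) (nat_lit 12350181502) (nat_lit 76) (nat_lit 1720481771) (nat_lit 152) (nat_lit 77327576923)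 (nat_lit 5) (nat_lit 5) (nat_lit 6) (nat_lit 5) (nat_lit 7) (nat_lit 4) (nat_lit 357) (nat_lit 296) (nat_lit 247)) (XT.nd (nat_lit 78) (nat_lit 0) (nat_lit 0) (XT.lf (nat_lit 0) (nat_lit 24684897339) (nat_lit 152) (nat_lit 64535645688) (nat_lit 0) (nat_lit 8948253258) (nat_lit 5) (nat_lit 5) (nat_lit 7) (nat_lit 4) (nat_lit 5) (nat_lit 4) (nat_lit 358) (nat_lit 296) (nat_lit 246)) (XT.lf (nat_lit 0) (nat_lit 36143296240) (nat_lit 152) (nat_lit 48956700327) (nat_lit 0) (nat_lit 20381257030) (nat_lit 5) (nat_lit 5) (nat_lit 7) (nat_lit 4) (nat_lit 5) (nat_lit 4) (nat_lit 359) (nat_lit 296) (nat_lit 245))))))) (XT.nd (nat_lit 858) (nat_lit 76) (nat_lit 0) (XT.nd (nat_lit 390) (nat_lit 76) (nat_lit 0) (XT.nd (nat_lit 156) (nat_lit 76) (nat_lit 0) (XT.nd (nat_lit 78) (nat_lit 0) (nat_lit 0) (XT.lf (nat_lit 0) (nat_lit 48486900056) (nat_lit 152) (nat_lit 32192041393) (nat_lit 0) (nat_lit 32701346839)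 (nat_lit 5) (nat_lit 5) (nat_lit 7) (nat_lit 4) (nat_lit 5) (nat_lit 4) (nat_lit 360) (nat_lit 296) (nat_lit 244)) (XT.lf (nat_lit 0) (nat_lit 61788856070) (nat_lit 152) (nat_lit 14142322760) (nat_lit 0) (nat_lit 45981530623) (nat_lit 5) (nat_lit 5) (nat_lit 7) (nat_lit 4) (nat_lit 5) (nat_lit 4) (nat_lit 361) (nat_lit 296) (nat_lit 243))) (XT.nd (nat_lit 78) (nat_lit 0) (nat_lit 0) (XT.lf (nat_lit 0) (nat_lit 5474639523) (nat_lit 76) (nat_lit 70738825630) (nat_lit 76) (nat_lit 54911340712) (nat_lit 4) (nat_lit 4) (nat_lit 5) (nat_lit 5) (nat_lit 5) (nat_lit 4) (nat_lit 362) (nat_lit 296) (nat_lit 242)) (XT.nd (nat_lit 78) (nat_lit 0) (nat_lit 0) (XT.lf (nat_lit 0) (nat_lit 27116278043) (nat_lit 76) (nat_lit 64896359608) (nat_lit 76) (nat_lit 49050208513) (nat_lit 4) (nat_lit 4) (nat_lit 5) (nat_lit 5) (nat_lit 5) (nat_lit 4) (nat_lit 363) (nat_lit 296) (nat_lit 241)) (XT.lf (nat_lit 0)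 (nat_lit 50443230488) (nat_lit 76) (nat_lit 58608665824) (nat_lit 76) (nat_lit 42745231231) (nat_lit 4) (nat_lit 4) (nat_lit 5) (nat_lit 5) (nat_lit 5) (nat_lit 4) (nat_lit 364) (nat_lit 296) (nat_lit 240))))) (XT.nd (nat_lit 234) (nat_lit 76) (nat_lit 0) (XT.nd (nat_lit 78) (nat_lit 0) (nat_lit 0) (XT.lf (nat_lit 0) (nat_lit 75593730650) (nat_lit 76) (nat_lit 51838483868) (nat_lit 76) (nat_lit 35959046037) (nat_lit 4) (nat_lit 4) (nat_lit 5) (nat_lit 5) (nat_lit 5) (nat_lit 4) (nat_lit 365) (nat_lit 296) (nat_lit 239)) (XT.nd (nat_lit 78) (nat_lit 0) (nat_lit 0) (XT.lf (nat_lit 0) (nat_lit 102716818530) (nat_lit 76) (nat_lit 44545694146) (nat_lit 76) (nat_lit 28651438500) (nat_lit 4) (nat_lit 4) (nat_lit 5) (nat_lit 5) (nat_lit 5) (nat_lit 4) (nat_lit 366) (nat_lit 296) (nat_lit 238)) (XT.lf (nat_lit 0) (nat_lit 131973223537) (nat_lit 76) (nat_lit 36687080123) (nat_lit 76) (nat_lit 20779104280)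 (nat_lit 4) (nat_lit 4) (nat_lit 5) (nat_lit 5) (nat_lit 5) (nat_lit 4) (nat_lit 367) (nat_lit 296) (nat_lit 237)))) (XT.nd (nat_lit 78) (nat_lit 76) (nat_lit 0) (XT.lf (nat_lit 0) (nat_lit 163536316961) (nat_lit 76) (nat_lit 28216072237) (nat_lit 76) (nat_lit 12295392508) (nat_lit 4) (nat_lit 4) (nat_lit 5) (nat_lit 5) (nat_lit 5) (nat_lit 4) (nat_lit 368) (nat_lit 296) (nat_lit 236)) (XT.nd (nat_lit 78) (nat_lit 76) (nat_lit 0) (XT.lf (nat_lit 0) (nat_lit 197593139356) (nat_lit 76) (nat_lit 19082471922) (nat_lit 76) (nat_lit 3150029335) (nat_lit 4) (nat_lit 4) (nat_lit 5) (nat_lit 5) (nat_lit 5) (nat_lit 4) (nat_lit 369) (nat_lit 296) (nat_lit 235)) (XT.lf (nat_lit 0) (nat_lit 6496380311) (nat_lit 152) (nat_lit 2625754484) (nat_lit 76) (nat_lit 227739109271) (nat_lit 3) (nat_lit 5) (nat_lit 5) (nat_lit 5) (nat_lit 4) (nat_lit 4) (nat_lit 370) (nat_lit 296) (nat_lit 234)))))) (XT.nd (nat_lit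 468) (nat_lit 0) (nat_lit 0) (XT.nd (nat_lit 234) (nat_lit 0) (nat_lit 0) (XT.nd (nat_lit 78) (nat_lit 0) (nat_lit 0) (XT.lf (nat_lit 0) (nat_lit 17120434883) (nat_lit 152) (nat_lit 236194164652) (nat_lit 0) (nat_lit 1926702619) (nat_lit 2) (nat_lit 5) (nat_lit 4) (nat_lit 4) (nat_lit 2) (nat_lit 4) (nat_lit 371) (nat_lit 296) (nat_lit 233)) (XT.nd (nat_lit 78) (nat_lit 0) (nat_lit 0) (XT.lf (nat_lit 0) (nat_lit 28781015051) (nat_lit 152) (nat_lit 232723032886) (nat_lit 0) (nat_lit 13578389705) (nat_lit 2) (nat_lit 5) (nat_lit 4) (nat_lit 4) (nat_lit 2) (nat_lit 4) (nat_lit 372) (nat_lit 296) (nat_lit 232)) (XT.lf (nat_lit 0) (nat_lit 41361753305) (nat_lit 152) (nat_lit 228998854064) (nat_lit 0) (nat_lit 26150893624) (nat_lit 2) (nat_lit 5) (nat_lit 4) (nat_lit 4) (nat_lit 2) (nat_lit 4) (nat_lit 373) (nat_lit 296) (nat_lit 231)))) (XT.nd (nat_lit 78) (nat_lit 0) (nat_lit 0) (XT.lf (nat_lit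 0) (nat_lit 54937202169) (nat_lit 152) (nat_lit 224999558979) (nat_lit 0) (nat_lit 39718718103) (nat_lit 2) (nat_lit 5) (nat_lit 4) (nat_lit 4) (nat_lit 2) (nat_lit 4) (nat_lit 374) (nat_lit 296) (nat_lit 230)) (XT.nd (nat_lit 78) (nat_lit 0) (nat_lit 0) (XT.lf (nat_lit 0) (nat_lit 69587808745) (nat_lit 152) (nat_lit 220701448102) (nat_lit 0) (nat_lit 54362265064) (nat_lit 2) (nat_lit 5) (nat_lit 4) (nat_lit 4) (nat_lit 2) (nat_lit 4) (nat_lit 375) (nat_lit 296) (nat_lit 229)) (XT.lf (nat_lit 0) (nat_lit 85400391444) (nat_lit 152) (nat_lit 216079051149) (nat_lit 0) (nat_lit 70168311083) (nat_lit 2) (nat_lit 5) (nat_lit 4) (nat_lit 4) (nat_lit 2) (nat_lit 4) (nat_lit 376) (nat_lit 296) (nat_lit 228))))) (XT.nd (nat_lit 234) (nat_lit 0) (nat_lit 0) (XT.nd (nat_lit 78) (nat_lit 0) (nat_lit 0) (XT.lf (nat_lit 0) (nat_lit 102468654460) (nat_lit 152) (nat_lit 211104976136) (nat_lit 0) (nat_lit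 87230521616) (nat_lit 2) (nat_lit 5) (nat_lit 4) (nat_lit 4) (nat_lit 2) (nat_lit 4) (nat_lit 377) (nat_lit 296) (nat_lit 227)) (XT.nd (nat_lit 78) (nat_lit 0) (nat_lit 0) (XT.lf (nat_lit 0) (nat_lit 120893743055) (nat_lit 152) (nat_lit 205749747064) (nat_lit 0) (nat_lit 105650006061) (nat_lit 2) (nat_lit 5) (nat_lit 4) (nat_lit 4) (nat_lit 2) (nat_lit 4) (nat_lit 378) (nat_lit 296) (nat_lit 226)) (XT.lf (nat_lit 0) (nat_lit 140784842938) (nat_lit 152) (nat_lit 199981629242) (nat_lit 0) (nat_lit 125535916916) (nat_lit 2) (nat_lit 5) (nat_lit 4) (nat_lit 4) (nat_lit 2) (nat_lit 4) (nat_lit 379) (nat_lit 296) (nat_lit 225)))) (XT.nd (nat_lit 78) (nat_lit 0) (nat_lit 0) (XT.lf (nat_lit 0) (nat_lit 162259827295) (nat_lit 152) (nat_lit 193766441231) (nat_lit 0) (nat_lit 147006096618) (nat_lit 2) (nat_lit 5) (nat_lit 4) (nat_lit 4) (nat_lit 2) (nat_lit 4) (nat_lit 380) (nat_lit 296) (nat_lit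 224)) (XT.nd (nat_lit 78) (nat_lit 0) (nat_lit 0) (XT.lf (nat_lit 0) (nat_lit 185445955292) (nat_lit 152) (nat_lit 187067352288) (nat_lit 0) (nat_lit 170187775860) (nat_lit 2) (nat_lit 5) (nat_lit 4) (nat_lit 4) (nat_lit 2) (nat_lit 4) (nat_lit 381) (nat_lit 296) (nat_lit 223)) (XT.lf (nat_lit 0) (nat_lit 210480626206) (nat_lit 152) (nat_lit 179844664107) (nat_lit 0) (nat_lit 195218327557) (nat_lit 2) (nat_lit 5) (nat_lit 4) (nat_lit 4) (nat_lit 2) (nat_lit 4) (nat_lit 382) (nat_lit 296) (nat_lit 222))))))))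
noncomputable def xc41 : XT := (XT.nd (nat_lit 41886) (nat_lit 0) (nat_lit 912) (XT.nd (nat_lit 41028) (nat_lit 0) (nat_lit 4180) (XT.nd (nat_lit 390) (nat_lit 0) (nat_lit 0) (XT.nd (nat_lit 156) (nat_lit 0) (nat_lit 0) (XT.nd (nat_lit 78) (nat_lit 0) (nat_lit 0) (XT.lf (nat_lit 0) (nat_lit 237512193643) (nat_lit 152) (nat_lit 172055575573) (nat_lit 0) (nat_lit 222246080903) (nat_lit 2) (nat_lit 5) (nat_lit 4) (nat_lit 4) (nat_lit 2) (nat_lit 4) (nat_lit 383) (nat_lit 296) (nat_lit 221)) (XT.lf (nat_lit 0) (nat_lit 266700844668) (nat_lit 152) (nat_lit 163653929125) (nat_lit 0) (nat_lit 251431200363) (nat_lit 2) (nat_lit 5) (nat_lit 4) (nat_lit 4) (nat_lit 2) (nat_lit 4) (nat_lit 384) (nat_lit 296) (nat_lit 220))) (XT.nd (nat_lit 78) (nat_lit 0) (nat_lit 0) (XT.lf (nat_lit 0) (nat_lit 298219549066) (nat_lit 152) (nat_lit 154589937228) (nat_lit 0) (nat_lit 282946634793) (nat_lit 2) (nat_lit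 5) (nat_lit 4) (nat_lit 4) (nat_lit 2) (nat_lit 4) (nat_lit 385) (nat_lit 296) (nat_lit 219)) (XT.nd (nat_lit 78) (nat_lit 0) (nat_lit 0) (XT.lf (nat_lit 0) (nat_lit 332255084345) (nat_lit 152) (nat_lit 144809887337) (nat_lit 0) (nat_lit 316979142324) (nat_lit 2) (nat_lit 5) (nat_lit 4) (nat_lit 4) (nat_lit 2) (nat_lit 4) (nat_lit 386) (nat_lit 296) (nat_lit 218)) (XT.lf (nat_lit 0) (nat_lit 369009142564) (nat_lit 152) (nat_lit 134255823602) (nat_lit 0) (nat_lit 353730397073) (nat_lit 2) (nat_lit 5) (nat_lit 4) (nat_lit 4) (nat_lit 2) (nat_lit 4) (nat_lit 387) (nat_lit 296) (nat_lit 217))))) (XT.nd (nat_lit 234) (nat_lit 0) (nat_lit 0) (XT.nd (nat_lit 78) (nat_lit 0) (nat_lit 0) (XT.lf (nat_lit 0) (nat_lit 408699525551) (nat_lit 152) (nat_lit 122865203422) (nat_lit 0) (nat_lit 393418184254) (nat_lit 2) (nat_lit 5) (nat_lit 4) (nat_lit 4) (nat_lit 2) (nat_lit 4) (nat_lit 388) (nat_lit 296)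 (nat_lit 216)) (XT.nd (nat_lit 78) (nat_lit 0) (nat_lit 0) (XT.lf (nat_lit 0) (nat_lit 451561435575) (nat_lit 152) (nat_lit 110570526827) (nat_lit 0) (nat_lit 436277690754) (nat_lit 2) (nat_lit 5) (nat_lit 4) (nat_lit 4) (nat_lit 2) (nat_lit 4) (nat_lit 389) (nat_lit 296) (nat_lit 215)) (XT.lf (nat_lit 0) (nat_lit 497848869140) (nat_lit 152) (nat_lit 97298936472) (nat_lit 0) (nat_lit 482562898834) (nat_lit 2) (nat_lit 5) (nat_lit 4) (nat_lit 4) (nat_lit 2) (nat_lit 4) (nat_lit 390) (nat_lit 296) (nat_lit 214)))) (XT.nd (nat_lit 40248) (nat_lit 0) (nat_lit 9272) (XT.lf (nat_lit 0) (nat_lit 547836122149) (nat_lit 152) (nat_lit 82971785897) (nat_lit 0) (nat_lit 532548091208) (nat_lit 2) (nat_lit 5) (nat_lit 4) (nat_lit 4) (nat_lit 2) (nat_lit 4) (nat_lit 391) (nat_lit 296) (nat_lit 213)) (XT.nd (nat_lit 78) (nat_lit 532) (nat_lit 0) (XT.lf (nat_lit 0) (nat_lit 700693696) (nat_lit 380) (nat_lit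 1327477314) (nat_lit 380) (nat_lit 1327477314) (nat_lit 131) (nat_lit 4) (nat_lit 136) (nat_lit 5) (nat_lit 136) (nat_lit 4) (nat_lit 306) (nat_lit 297) (nat_lit 297)) (XT.lf (nat_lit 0) (nat_lit 1379513038) (nat_lit 456) (nat_lit 879060770) (nat_lit 532) (nat_lit 4554371619) (nat_lit 124) (nat_lit 5) (nat_lit 130) (nat_lit 5) (nat_lit 131) (nat_lit 4) (nat_lit 307) (nat_lit 297) (nat_lit 296)))))) (XT.nd (nat_lit 390) (nat_lit 1976) (nat_lit 0) (XT.nd (nat_lit 156) (nat_lit 1900) (nat_lit 0) (XT.nd (nat_lit 78) (nat_lit 608) (nat_lit 0) (XT.lf (nat_lit 0) (nat_lit 248617263) (nat_lit 608) (nat_lit 5452567061) (nat_lit 76) (nat_lit 1234066597) (nat_lit 116) (nat_lit 5) (nat_lit 124) (nat_lit 5) (nat_lit 117) (nat_lit 4) (nat_lit 308) (nat_lit 297) (nat_lit 295)) (XT.lf (nat_lit 0) (nat_lit 1672400108) (nat_lit 608) (nat_lit 3346507332) (nat_lit 684) (nat_lit 2058369392) (nat_lit 108) (nat_lit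 5) (nat_lit 116) (nat_lit 5) (nat_lit 117) (nat_lit 4) (nat_lit 309) (nat_lit 297) (nat_lit 294))) (XT.nd (nat_lit 78) (nat_lit 1140) (nat_lit 0) (XT.lf (nat_lit 0) (nat_lit 1983605096) (nat_lit 684) (nat_lit 610318797) (nat_lit 760) (nat_lit 4647757913) (nat_lit 98) (nat_lit 5) (nat_lit 107) (nat_lit 5) (nat_lit 108) (nat_lit 5) (nat_lit 310) (nat_lit 297) (nat_lit 293)) (XT.nd (nat_lit 78) (nat_lit 456) (nat_lit 0) (XT.lf (nat_lit 0) (nat_lit 2373615253) (nat_lit 684) (nat_lit 4986044913) (nat_lit 760) (nat_lit 67876562) (nat_lit 89) (nat_lit 5) (nat_lit 98) (nat_lit 5) (nat_lit 99) (nat_lit 4) (nat_lit 311) (nat_lit 297) (nat_lit 292)) (XT.lf (nat_lit 0) (nat_lit 2815175731) (nat_lit 380) (nat_lit 1712272058) (nat_lit 456) (nat_lit 3107320662) (nat_lit 83) (nat_lit 5) (nat_lit 88) (nat_lit 5) (nat_lit 89) (nat_lit 5) (nat_lit 312) (nat_lit 297) (nat_lit 291))))) (XT.nd (nat_lit 234)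 (nat_lit 912) (nat_lit 0) (XT.nd (nat_lit 78) (nat_lit 684) (nat_lit 0) (XT.lf (nat_lit 0) (nat_lit 1421866189) (nat_lit 380) (nat_lit 4540530916) (nat_lit 76) (nat_lit 1903135920) (nat_lit 78) (nat_lit 5) (nat_lit 83) (nat_lit 5) (nat_lit 79) (nat_lit 5) (nat_lit 313) (nat_lit 297) (nat_lit 290)) (XT.nd (nat_lit 78) (nat_lit 380) (nat_lit 0) (XT.lf (nat_lit 0) (nat_lit 3861758452) (nat_lit 304) (nat_lit 2208941950) (nat_lit 380) (nat_lit 2048673010) (nat_lit 74) (nat_lit 5) (nat_lit 78) (nat_lit 5) (nat_lit 79) (nat_lit 5) (nat_lit 314) (nat_lit 297) (nat_lit 289)) (XT.lf (nat_lit 0) (nat_lit 2495044060) (nat_lit 380) (nat_lit 3978806127) (nat_lit 76) (nat_lit 1923805959) (nat_lit 69) (nat_lit 5) (nat_lit 74) (nat_lit 5) (nat_lit 70) (nat_lit 5) (nat_lit 315) (nat_lit 297) (nat_lit 288)))) (XT.nd (nat_lit 78) (nat_lit 608) (nat_lit 0) (XT.lf (nat_lit 0) (nat_lit 4978905403) (nat_lit 304)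 (nat_lit 2261225092) (nat_lit 380) (nat_lit 1461293575) (nat_lit 65) (nat_lit 5) (nat_lit 69) (nat_lit 5) (nat_lit 70) (nat_lit 5) (nat_lit 316) (nat_lit 297) (nat_lit 287)) (XT.nd (nat_lit 78) (nat_lit 304) (nat_lit 0) (XT.lf (nat_lit 0) (nat_lit 3152737424) (nat_lit 304) (nat_lit 3525614861) (nat_lit 76) (nat_lit 2352668321) (nat_lit 61) (nat_lit 5) (nat_lit 65) (nat_lit 5) (nat_lit 62) (nat_lit 5) (nat_lit 317) (nat_lit 297) (nat_lit 286)) (XT.lf (nat_lit 0) (nat_lit 6004006233) (nat_lit 304) (nat_lit 2021990471) (nat_lit 380) (nat_lit 1363038953) (nat_lit 57) (nat_lit 5) (nat_lit 61) (nat_lit 5) (nat_lit 62) (nat_lit 5) (nat_lit 318) (nat_lit 297) (nat_lit 285))))))) (XT.nd (nat_lit 858) (nat_lit 1140) (nat_lit 0) (XT.nd (nat_lit 390) (nat_lit 912) (nat_lit 0) (XT.nd (nat_lit 156) (nat_lit 684) (nat_lit 0) (XT.nd (nat_lit 78) (nat_lit 228) (nat_lit 0) (XT.lf (nat_lit 0) (nat_lit 3365849642)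 (nat_lit 304) (nat_lit 3364854652) (nat_lit 76) (nat_lit 3044277706) (nat_lit 53) (nat_lit 5) (nat_lit 57) (nat_lit 5) (nat_lit 54) (nat_lit 5) (nat_lit 319) (nat_lit 297) (nat_lit 284)) (XT.lf (nat_lit 0) (nat_lit 6744334446) (nat_lit 228) (nat_lit 1645273633) (nat_lit 304) (nat_lit 1803119211) (nat_lit 50) (nat_lit 5) (nat_lit 53) (nat_lit 5) (nat_lit 54) (nat_lit 5) (nat_lit 320) (nat_lit 297) (nat_lit 283))) (XT.nd (nat_lit 78) (nat_lit 456) (nat_lit 0) (XT.lf (nat_lit 0) (nat_lit 3073525436) (nat_lit 228) (nat_lit 3719627205) (nat_lit 76) (nat_lit 3848307018) (nat_lit 47) (nat_lit 5) (nat_lit 50) (nat_lit 5) (nat_lit 48) (nat_lit 5) (nat_lit 321) (nat_lit 297) (nat_lit 282)) (XT.nd (nat_lit 78) (nat_lit 228) (nat_lit 0) (XT.lf (nat_lit 0) (nat_lit 6962648473) (nat_lit 228) (nat_lit 1296145608) (nat_lit 304) (nat_lit 2866944460) (nat_lit 44) (nat_lit 5) (nat_lit 47) (nat_lit 5) (nat_lit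 48) (nat_lit 5) (nat_lit 322) (nat_lit 297) (nat_lit 281)) (XT.lf (nat_lit 0) (nat_lit 2177441477) (nat_lit 228) (nat_lit 4868434988) (nat_lit 76) (nat_lit 4599439642) (nat_lit 41) (nat_lit 5) (nat_lit 44) (nat_lit 5) (nat_lit 42) (nat_lit 5) (nat_lit 323) (nat_lit 297) (nat_lit 280))))) (XT.nd (nat_lit 234) (nat_lit 380) (nat_lit 0) (XT.nd (nat_lit 78) (nat_lit 380) (nat_lit 0) (XT.lf (nat_lit 0) (nat_lit 6359435309) (nat_lit 152) (nat_lit 1161828266) (nat_lit 228) (nat_lit 4683200663) (nat_lit 39) (nat_lit 5) (nat_lit 41) (nat_lit 5) (nat_lit 42) (nat_lit 5) (nat_lit 324) (nat_lit 297) (nat_lit 279)) (XT.nd (nat_lit 78) (nat_lit 152) (nat_lit 0) (XT.lf (nat_lit 0) (nat_lit 533731403) (nat_lit 228) (nat_lit 7165370137) (nat_lit 76) (nat_lit 5105766083) (nat_lit 36) (nat_lit 5) (nat_lit 39) (nat_lit 5) (nat_lit 37) (nat_lit 5) (nat_lit 325) (nat_lit 297) (nat_lit 278)) (XT.lf (nat_lit 0)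 (nat_lit 4550658905) (nat_lit 152) (nat_lit 1464724122) (nat_lit 228) (nat_lit 7433648920) (nat_lit 34) (nat_lit 5) (nat_lit 36) (nat_lit 5) (nat_lit 37) (nat_lit 5) (nat_lit 326) (nat_lit 297) (nat_lit 277)))) (XT.nd (nat_lit 78) (nat_lit 228) (nat_lit 0) (XT.lf (nat_lit 0) (nat_lit 3042111085) (nat_lit 152) (nat_lit 8972725606) (nat_lit 228) (nat_lit 2126058332) (nat_lit 32) (nat_lit 5) (nat_lit 34) (nat_lit 5) (nat_lit 35) (nat_lit 4) (nat_lit 327) (nat_lit 297) (nat_lit 276)) (XT.nd (nat_lit 78) (nat_lit 0) (nat_lit 0) (XT.lf (nat_lit 0) (nat_lit 1039578253) (nat_lit 152) (nat_lit 2478164966) (nat_lit 228) (nat_lit 11366311542) (nat_lit 29) (nat_lit 5) (nat_lit 31) (nat_lit 5) (nat_lit 32) (nat_lit 5) (nat_lit 328) (nat_lit 297) (nat_lit 275)) (XT.lf (nat_lit 0) (nat_lit 9642150175) (nat_lit 228) (nat_lit 1521020136) (nat_lit 76) (nat_lit 4516680309) (nat_lit 29) (nat_lit 5) (nat_lit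 32) (nat_lit 5) (nat_lit 30) (nat_lit 4) (nat_lit 329) (nat_lit 297) (nat_lit 274)))))) (XT.nd (nat_lit 468) (nat_lit 456) (nat_lit 0) (XT.nd (nat_lit 234) (nat_lit 304) (nat_lit 0) (XT.nd (nat_lit 78) (nat_lit 304) (nat_lit 0) (XT.lf (nat_lit 0) (nat_lit 11867542125) (nat_lit 76) (nat_lit 4463511838) (nat_lit 152) (nat_lit 204626578) (nat_lit 28) (nat_lit 5) (nat_lit 29) (nat_lit 5) (nat_lit 30) (nat_lit 4) (nat_lit 330) (nat_lit 297) (nat_lit 273)) (XT.nd (nat_lit 78) (nat_lit 76) (nat_lit 0) (XT.lf (nat_lit 0) (nat_lit 5963593210) (nat_lit 228) (nat_lit 8642092897) (nat_lit 76) (nat_lit 2846439692) (nat_lit 25) (nat_lit 5) (nat_lit 28) (nat_lit 5) (nat_lit 26) (nat_lit 4) (nat_lit 331) (nat_lit 297) (nat_lit 272)) (XT.lf (nat_lit 0) (nat_lit 4925864549) (nat_lit 76) (nat_lit 7785170126) (nat_lit 152) (nat_lit 5726117313) (nat_lit 24) (nat_lit 5) (nat_lit 25) (nat_lit 5) (nat_lit 26)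 (nat_lit 4) (nat_lit 332) (nat_lit 297) (nat_lit 271)))) (XT.nd (nat_lit 78) (nat_lit 76) (nat_lit 0) (XT.lf (nat_lit 0) (nat_lit 147956141) (nat_lit 152) (nat_lit 351295077) (nat_lit 228) (nat_lit 19000517304) (nat_lit 21) (nat_lit 5) (nat_lit 23) (nat_lit 5) (nat_lit 24) (nat_lit 5) (nat_lit 333) (nat_lit 297) (nat_lit 270)) (XT.nd (nat_lit 78) (nat_lit 76) (nat_lit 0) (XT.lf (nat_lit 0) (nat_lit 7251381937) (nat_lit 228) (nat_lit 5709018504) (nat_lit 76) (nat_lit 7670898074) (nat_lit 21) (nat_lit 5) (nat_lit 24) (nat_lit 5) (nat_lit 22) (nat_lit 4) (nat_lit 334) (nat_lit 297) (nat_lit 269)) (XT.lf (nat_lit 0) (nat_lit 9092189848) (nat_lit 76) (nat_lit 5476765465) (nat_lit 152) (nat_lit 7283192238) (nat_lit 20) (nat_lit 5) (nat_lit 21) (nat_lit 5) (nat_lit 22) (nat_lit 4) (nat_lit 335) (nat_lit 297) (nat_lit 268))))) (XT.nd (nat_lit 234) (nat_lit 228) (nat_lit 0) (XT.nd (nat_lit 78) (nat_lit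 152) (nat_lit 0) (XT.lf (nat_lit 0) (nat_lit 1921793501) (nat_lit 76) (nat_lit 20603688684) (nat_lit 76) (nat_lit 642560733) (nat_lit 19) (nat_lit 4) (nat_lit 20) (nat_lit 5) (nat_lit 20) (nat_lit 4) (nat_lit 336) (nat_lit 297) (nat_lit 267)) (XT.nd (nat_lit 78) (nat_lit 76) (nat_lit 0) (XT.lf (nat_lit 0) (nat_lit 6524067703) (nat_lit 152) (nat_lit 6749942425) (nat_lit 76) (nat_lit 11299965660) (nat_lit 18) (nat_lit 5) (nat_lit 20) (nat_lit 5) (nat_lit 19) (nat_lit 4) (nat_lit 337) (nat_lit 297) (nat_lit 266)) (XT.lf (nat_lit 0) (nat_lit 8990723543) (nat_lit 76) (nat_lit 5285409431) (nat_lit 152) (nat_lit 11814038239) (nat_lit 17) (nat_lit 5) (nat_lit 18) (nat_lit 5) (nat_lit 19) (nat_lit 4) (nat_lit 338) (nat_lit 297) (nat_lit 265)))) (XT.nd (nat_lit 78) (nat_lit 228) (nat_lit 0) (XT.lf (nat_lit 0) (nat_lit 22717691266) (nat_lit 152) (nat_lit 1731928563) (nat_lit 0) (nat_lit 3274618233)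 (nat_lit 17) (nat_lit 5) (nat_lit 19) (nat_lit 4) (nat_lit 17) (nat_lit 4) (nat_lit 339) (nat_lit 297) (nat_lit 264)) (XT.nd (nat_lit 78) (nat_lit 76) (nat_lit 0) (XT.lf (nat_lit 0) (nat_lit 2504061647) (nat_lit 152) (nat_lit 14433095533) (nat_lit 76) (nat_lit 12538399760) (nat_lit 15) (nat_lit 5) (nat_lit 17) (nat_lit 5) (nat_lit 16) (nat_lit 4) (nat_lit 340) (nat_lit 297) (nat_lit 263)) (XT.lf (nat_lit 0) (nat_lit 1653866276) (nat_lit 76) (nat_lit 8753206949) (nat_lit 152) (nat_lit 20957490843) (nat_lit 14) (nat_lit 5) (nat_lit 15) (nat_lit 5) (nat_lit 16) (nat_lit 4) (nat_lit 341) (nat_lit 297) (nat_lit 262))))))))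
noncomputable def xc42 : XT := (XT.nd (nat_lit 1716) (nat_lit 152) (nat_lit 0) (XT.nd (nat_lit 858) (nat_lit 304) (nat_lit 0) (XT.nd (nat_lit 390) (nat_lit 228) (nat_lit 0) (XT.nd (nat_lit 156) (nat_lit 152) (nat_lit 0) (XT.nd (nat_lit 78) (nat_lit 76) (nat_lit 0) (XT.lf (nat_lit 0) (nat_lit 19110441284) (nat_lit 152) (nat_lit 14019612088) (nat_lit 0) (nat_lit 266264504) (nat_lit 14) (nat_lit 5) (nat_lit 16) (nat_lit 4) (nat_lit 14) (nat_lit 4) (nat_lit 342) (nat_lit 297) (nat_lit 261)) (XT.lf (nat_lit 0) (nat_lit 2713016017) (nat_lit 76) (nat_lit 25904834614) (nat_lit 76) (nat_lit 6967402294) (nat_lit 13) (nat_lit 4) (nat_lit 14) (nat_lit 5) (nat_lit 14) (nat_lit 4) (nat_lit 343) (nat_lit 297) (nat_lit 260))) (XT.nd (nat_lit 78) (nat_lit 76) (nat_lit 0) (XT.lf (nat_lit 0) (nat_lit 1075101024) (nat_lit 152) (nat_lit 16819822941) (nat_lit 76) (nat_lit 20045247412) (nat_lit 12) (nat_lit 5)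 (nat_lit 14) (nat_lit 5) (nat_lit 13) (nat_lit 4) (nat_lit 344) (nat_lit 297) (nat_lit 259)) (XT.nd (nat_lit 78) (nat_lit 0) (nat_lit 0) (XT.lf (nat_lit 0) (nat_lit 269983525) (nat_lit 76) (nat_lit 9180609236) (nat_lit 152) (nat_lit 31030519070) (nat_lit 11) (nat_lit 5) (nat_lit 12) (nat_lit 5) (nat_lit 13) (nat_lit 4) (nat_lit 345) (nat_lit 297) (nat_lit 258)) (XT.lf (nat_lit 0) (nat_lit 18726178918) (nat_lit 152) (nat_lit 24026023437) (nat_lit 0) (nat_lit 461644736) (nat_lit 11) (nat_lit 5) (nat_lit 13) (nat_lit 4) (nat_lit 11) (nat_lit 4) (nat_lit 346) (nat_lit 297) (nat_lit 257))))) (XT.nd (nat_lit 234) (nat_lit 152) (nat_lit 0) (XT.nd (nat_lit 78) (nat_lit 76) (nat_lit 0) (XT.lf (nat_lit 0) (nat_lit 28832555722) (nat_lit 152) (nat_lit 6825488920) (nat_lit 0) (nat_lit 10502740010) (nat_lit 11) (nat_lit 5) (nat_lit 13) (nat_lit 4) (nat_lit 11) (nat_lit 4) (nat_lit 347) (nat_lit 297)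 (nat_lit 256)) (XT.nd (nat_lit 78) (nat_lit 0) (nat_lit 0) (XT.lf (nat_lit 0) (nat_lit 12020469470) (nat_lit 76) (nat_lit 27853481521) (nat_lit 76) (nat_lit 9463219949) (nat_lit 10) (nat_lit 4) (nat_lit 11) (nat_lit 5) (nat_lit 11) (nat_lit 4) (nat_lit 348) (nat_lit 297) (nat_lit 255)) (XT.lf (nat_lit 0) (nat_lit 32507504484) (nat_lit 76) (nat_lit 19351692195) (nat_lit 76) (nat_lit 905462234) (nat_lit 10) (nat_lit 4) (nat_lit 11) (nat_lit 5) (nat_lit 11) (nat_lit 4) (nat_lit 349) (nat_lit 297) (nat_lit 254)))) (XT.nd (nat_lit 78) (nat_lit 76) (nat_lit 0) (XT.lf (nat_lit 0) (nat_lit 8015146941) (nat_lit 152) (nat_lit 2067001313) (nat_lit 76) (nat_lit 46380451952) (nat_lit 9) (nat_lit 5) (nat_lit 11) (nat_lit 5) (nat_lit 10) (nat_lit 4) (nat_lit 350) (nat_lit 297) (nat_lit 253)) (XT.nd (nat_lit 78) (nat_lit 0) (nat_lit 0) (XT.lf (nat_lit 0) (nat_lit 17852012496) (nat_lit 152) (nat_lit 42402799392)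 (nat_lit 0) (nat_lit 189120671) (nat_lit 8) (nat_lit 5) (nat_lit 10) (nat_lit 4) (nat_lit 8) (nat_lit 4) (nat_lit 351) (nat_lit 297) (nat_lit 252)) (XT.lf (nat_lit 0) (nat_lit 28633209943) (nat_lit 152) (nat_lit 25174701526) (nat_lit 0) (nat_lit 10928004296) (nat_lit 8) (nat_lit 5) (nat_lit 10) (nat_lit 4) (nat_lit 8) (nat_lit 4) (nat_lit 352) (nat_lit 297) (nat_lit 251)))))) (XT.nd (nat_lit 390) (nat_lit 152) (nat_lit 0) (XT.nd (nat_lit 156) (nat_lit 76) (nat_lit 0) (XT.nd (nat_lit 78) (nat_lit 76) (nat_lit 0) (XT.lf (nat_lit 0) (nat_lit 40231332001) (nat_lit 152) (nat_lit 6655269700) (nat_lit 0) (nat_lit 22486946891) (nat_lit 8) (nat_lit 5) (nat_lit 10) (nat_lit 4) (nat_lit 8) (nat_lit 4) (nat_lit 353) (nat_lit 297) (nat_lit 250)) (XT.lf (nat_lit 0) (nat_lit 13703849637) (nat_lit 76) (nat_lit 39225214143) (nat_lit 76) (nat_lit 21444551752) (nat_lit 7) (nat_lit 4) (nat_lit 8) (nat_lit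 5) (nat_lit 8) (nat_lit 4) (nat_lit 354) (nat_lit 297) (nat_lit 249))) (XT.nd (nat_lit 78) (nat_lit 76) (nat_lit 0) (XT.lf (nat_lit 0) (nat_lit 35852377632) (nat_lit 76) (nat_lit 30865895181) (nat_lit 76) (nat_lit 13051642715) (nat_lit 7) (nat_lit 4) (nat_lit 8) (nat_lit 5) (nat_lit 8) (nat_lit 4) (nat_lit 355) (nat_lit 297) (nat_lit 248)) (XT.nd (nat_lit 78) (nat_lit 76) (nat_lit 0) (XT.lf (nat_lit 0) (nat_lit 59701511548) (nat_lit 76) (nat_lit 21871818323) (nat_lit 76) (nat_lit 4026463935) (nat_lit 7) (nat_lit 4) (nat_lit 8) (nat_lit 5) (nat_lit 8) (nat_lit 4) (nat_lit 356) (nat_lit 297) (nat_lit 247)) (XT.lf (nat_lit 0) (nat_lit 5502528679) (nat_lit 152) (nat_lit 6593968671) (nat_lit 76) (nat_lit 79796862920) (nat_lit 6) (nat_lit 5) (nat_lit 8) (nat_lit 5) (nat_lit 7) (nat_lit 4) (nat_lit 357) (nat_lit 297) (nat_lit 246))))) (XT.nd (nat_lit 234) (nat_lit 76) (nat_lit 0) (XT.nd (nat_lit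 78) (nat_lit 0) (nat_lit 0) (XT.lf (nat_lit 0) (nat_lit 14591629088) (nat_lit 76) (nat_lit 1258344783) (nat_lit 152) (nat_lit 82827285797) (nat_lit 5) (nat_lit 5) (nat_lit 6) (nat_lit 5) (nat_lit 7) (nat_lit 4) (nat_lit 358) (nat_lit 297) (nat_lit 245)) (XT.nd (nat_lit 78) (nat_lit 0) (nat_lit 0) (XT.lf (nat_lit 0) (nat_lit 27273598119) (nat_lit 152) (nat_lit 68516174534) (nat_lit 0) (nat_lit 10201686637) (nat_lit 5) (nat_lit 5) (nat_lit 7) (nat_lit 4) (nat_lit 5) (nat_lit 4) (nat_lit 359) (nat_lit 297) (nat_lit 244)) (XT.lf (nat_lit 0) (nat_lit 39603194192) (nat_lit 152) (nat_lit 51778493012) (nat_lit 0) (nat_lit 22509510480) (nat_lit 5) (nat_lit 5) (nat_lit 7) (nat_lit 4) (nat_lit 5) (nat_lit 4) (nat_lit 360) (nat_lit 297) (nat_lit 243)))) (XT.nd (nat_lit 78) (nat_lit 76) (nat_lit 0) (XT.lf (nat_lit 0) (nat_lit 52892180072) (nat_lit 152) (nat_lit 33753753462) (nat_lit 0) (nat_lit 35778336889)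 (nat_lit 5) (nat_lit 5) (nat_lit 7) (nat_lit 4) (nat_lit 5) (nat_lit 4) (nat_lit 361) (nat_lit 297) (nat_lit 242)) (XT.nd (nat_lit 78) (nat_lit 76) (nat_lit 0) (XT.lf (nat_lit 0) (nat_lit 67219305307) (nat_lit 152) (nat_lit 14335142615) (nat_lit 0) (nat_lit 50086795946) (nat_lit 5) (nat_lit 5) (nat_lit 7) (nat_lit 4) (nat_lit 5) (nat_lit 4) (nat_lit 362) (nat_lit 297) (nat_lit 241)) (XT.lf (nat_lit 0) (nat_lit 6810387717) (nat_lit 76) (nat_lit 75965412900) (nat_lit 76) (nat_lit 58815620042) (nat_lit 4) (nat_lit 4) (nat_lit 5) (nat_lit 5) (nat_lit 5) (nat_lit 4) (nat_lit 363) (nat_lit 297) (nat_lit 240))))))) (XT.nd (nat_lit 858) (nat_lit 0) (nat_lit 0) (XT.nd (nat_lit 390) (nat_lit 152) (nat_lit 0) (XT.nd (nat_lit 156) (nat_lit 0) (nat_lit 0) (XT.nd (nat_lit 78) (nat_lit 0) (nat_lit 0) (XT.lf (nat_lit 0) (nat_lit 30116855316) (nat_lit 76) (nat_lit 69687588025) (nat_lit 76) (nat_lit 52521791929)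 (nat_lit 4) (nat_lit 4) (nat_lit 5) (nat_lit 5) (nat_lit 5) (nat_lit 4) (nat_lit 364) (nat_lit 297) (nat_lit 239)) (XT.lf (nat_lit 0) (nat_lit 55248388029) (nat_lit 76) (nat_lit 62926543949) (nat_lit 76) (nat_lit 45745930039) (nat_lit 4) (nat_lit 4) (nat_lit 5) (nat_lit 5) (nat_lit 5) (nat_lit 4) (nat_lit 365) (nat_lit 297) (nat_lit 238))) (XT.nd (nat_lit 78) (nat_lit 0) (nat_lit 0) (XT.lf (nat_lit 0) (nat_lit 82353913455) (nat_lit 76) (nat_lit 55642215226) (nat_lit 76) (nat_lit 38447881118) (nat_lit 4) (nat_lit 4) (nat_lit 5) (nat_lit 5) (nat_lit 5) (nat_lit 4) (nat_lit 366) (nat_lit 297) (nat_lit 237)) (XT.nd (nat_lit 78) (nat_lit 0) (nat_lit 0) (XT.lf (nat_lit 0) (nat_lit 111594056932) (nat_lit 76) (nat_lit 47791435462) (nat_lit 76) (nat_lit 30584397467) (nat_lit 4) (nat_lit 4) (nat_lit 5) (nat_lit 5) (nat_lit 5) (nat_lit 4) (nat_lit 367) (nat_lit 297) (nat_lit 236)) (XT.lf (nat_lit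 0) (nat_lit 143142093383) (nat_lit 76) (nat_lit 39327681519) (nat_lit 76) (nat_lit 22108880667) (nat_lit 4) (nat_lit 4) (nat_lit 5) (nat_lit 5) (nat_lit 5) (nat_lit 4) (nat_lit 368) (nat_lit 297) (nat_lit 235))))) (XT.nd (nat_lit 234) (nat_lit 76) (nat_lit 0) (XT.nd (nat_lit 78) (nat_lit 76) (nat_lit 0) (XT.lf (nat_lit 0) (nat_lit 177184974136) (nat_lit 76) (nat_lit 30200797818) (nat_lit 76) (nat_lit 12971105430) (nat_lit 4) (nat_lit 4) (nat_lit 5) (nat_lit 5) (nat_lit 5) (nat_lit 4) (nat_lit 369) (nat_lit 297) (nat_lit 234)) (XT.nd (nat_lit 78) (nat_lit 76) (nat_lit 0) (XT.lf (nat_lit 0) (nat_lit 213924434780) (nat_lit 76) (nat_lit 20356699122) (nat_lit 76) (nat_lit 3116921979) (nat_lit 4) (nat_lit 4) (nat_lit 5) (nat_lit 5) (nat_lit 5) (nat_lit 4) (nat_lit 370) (nat_lit 297) (nat_lit 233)) (XT.lf (nat_lit 0) (nat_lit 7271631857) (nat_lit 152) (nat_lit 2342269570) (nat_lit 76) (nat_lit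 246183410175) (nat_lit 3) (nat_lit 5) (nat_lit 5) (nat_lit 5) (nat_lit 4) (nat_lit 4) (nat_lit 371) (nat_lit 297) (nat_lit 232)))) (XT.nd (nat_lit 78) (nat_lit 0) (nat_lit 0) (XT.lf (nat_lit 0) (nat_lit 18737614062) (nat_lit 152) (nat_lit 254608912910) (nat_lit 0) (nat_lit 2301651271) (nat_lit 2) (nat_lit 5) (nat_lit 4) (nat_lit 4) (nat_lit 2) (nat_lit 4) (nat_lit 372) (nat_lit 297) (nat_lit 231)) (XT.nd (nat_lit 78) (nat_lit 0) (nat_lit 0) (XT.lf (nat_lit 0) (nat_lit 31312704022) (nat_lit 152) (nat_lit 250895704300) (nat_lit 0) (nat_lit 14869116847) (nat_lit 2) (nat_lit 5) (nat_lit 4) (nat_lit 4) (nat_lit 2) (nat_lit 4) (nat_lit 373) (nat_lit 297) (nat_lit 230)) (XT.lf (nat_lit 0) (nat_lit 44882922984) (nat_lit 152) (nat_lit 246906566818) (nat_lit 0) (nat_lit 28432276193) (nat_lit 2) (nat_lit 5) (nat_lit 4) (nat_lit 4) (nat_lit 2) (nat_lit 4) (nat_lit 374) (nat_lit 297) (nat_lit 229))))))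 (XT.nd (nat_lit 468) (nat_lit 0) (nat_lit 0) (XT.nd (nat_lit 234) (nat_lit 0) (nat_lit 0) (XT.nd (nat_lit 78) (nat_lit 0) (nat_lit 0) (XT.lf (nat_lit 0) (nat_lit 59528687058) (nat_lit 152) (nat_lit 242617861131) (nat_lit 0) (nat_lit 43071503587) (nat_lit 2) (nat_lit 5) (nat_lit 4) (nat_lit 4) (nat_lit 2) (nat_lit 4) (nat_lit 375) (nat_lit 297) (nat_lit 228)) (XT.nd (nat_lit 78) (nat_lit 0) (nat_lit 0) (XT.lf (nat_lit 0) (nat_lit 75336785960) (nat_lit 152) (nat_lit 238004172686) (nat_lit 0) (nat_lit 58873550007) (nat_lit 2) (nat_lit 5) (nat_lit 4) (nat_lit 4) (nat_lit 2) (nat_lit 4) (nat_lit 376) (nat_lit 297) (nat_lit 227)) (XT.lf (nat_lit 0) (nat_lit 92400897311) (nat_lit 152) (nat_lit 233038161106) (nat_lit 0) (nat_lit 75932057208) (nat_lit 2) (nat_lit 5) (nat_lit 4) (nat_lit 4) (nat_lit 2) (nat_lit 4) (nat_lit 377) (nat_lit 297) (nat_lit 226)))) (XT.nd (nat_lit 78) (nat_lit 0) (nat_lit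 0) (XT.lf (nat_lit 0) (nat_lit 110822141772) (nat_lit 152) (nat_lit 227690398177) (nat_lit 0) (nat_lit 94348112640) (nat_lit 2) (nat_lit 5) (nat_lit 4) (nat_lit 4) (nat_lit 2) (nat_lit 4) (nat_lit 378) (nat_lit 297) (nat_lit 225)) (XT.nd (nat_lit 78) (nat_lit 0) (nat_lit 0) (XT.lf (nat_lit 0) (nat_lit 130709682272) (nat_lit 152) (nat_lit 221929193450) (nat_lit 0) (nat_lit 114230848485) (nat_lit 2) (nat_lit 5) (nat_lit 4) (nat_lit 4) (nat_lit 2) (nat_lit 4) (nat_lit 379) (nat_lit 297) (nat_lit 224)) (XT.lf (nat_lit 0) (nat_lit 152181370904) (nat_lit 152) (nat_lit 215720406452) (nat_lit 0) (nat_lit 135698088362) (nat_lit 2) (nat_lit 5) (nat_lit 4) (nat_lit 4) (nat_lit 2) (nat_lit 4) (nat_lit 380) (nat_lit 297) (nat_lit 223))))) (XT.nd (nat_lit 234) (nat_lit 0) (nat_lit 0) (XT.nd (nat_lit 78) (nat_lit 0) (nat_lit 0) (XT.lf (nat_lit 0) (nat_lit 175364447303) (nat_lit 152) (nat_lit 209027244373)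 (nat_lit 0) (nat_lit 158877045544) (nat_lit 2) (nat_lit 5) (nat_lit 4) (nat_lit 4) (nat_lit 2) (nat_lit 4) (nat_lit 381) (nat_lit 297) (nat_lit 222)) (XT.nd (nat_lit 78) (nat_lit 0) (nat_lit 0) (XT.lf (nat_lit 0) (nat_lit 200396292664) (nat_lit 152) (nat_lit 201810044029) (nat_lit 0) (nat_lit 183905076814) (nat_lit 2) (nat_lit 5) (nat_lit 4) (nat_lit 4) (nat_lit 2) (nat_lit 4) (nat_lit 382) (nat_lit 297) (nat_lit 221)) (XT.lf (nat_lit 0) (nat_lit 227425243848) (nat_lit 152) (nat_lit 194026036827) (nat_lit 0) (nat_lit 210930496433) (nat_lit 2) (nat_lit 5) (nat_lit 4) (nat_lit 4) (nat_lit 2) (nat_lit 4) (nat_lit 383) (nat_lit 297) (nat_lit 220)))) (XT.nd (nat_lit 78) (nat_lit 0) (nat_lit 0) (XT.lf (nat_lit 0) (nat_lit 256611472417) (nat_lit 152) (nat_lit 185629095314) (nat_lit 0) (nat_lit 240113455034) (nat_lit 2) (nat_lit 5) (nat_lit 4) (nat_lit 4) (nat_lit 2) (nat_lit 4) (nat_lit 384) (nat_lit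 297) (nat_lit 219)) (XT.nd (nat_lit 78) (nat_lit 0) (nat_lit 0) (XT.lf (nat_lit 0) (nat_lit 288127933800) (nat_lit 152) (nat_lit 176569459840) (nat_lit 0) (nat_lit 271626888669) (nat_lit 2) (nat_lit 5) (nat_lit 4) (nat_lit 4) (nat_lit 2) (nat_lit 4) (nat_lit 385) (nat_lit 297) (nat_lit 218)) (XT.lf (nat_lit 0) (nat_lit 322161392212) (nat_lit 152) (nat_lit 166793443673) (nat_lit 0) (nat_lit 305657543611) (nat_lit 2) (nat_lit 5) (nat_lit 4) (nat_lit 4) (nat_lit 2) (nat_lit 4) (nat_lit 386) (nat_lit 297) (nat_lit 217))))))))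
noncomputable def xc43 : XT := (XT.nd (nat_lit 41808) (nat_lit 0) (nat_lit 836) (XT.nd (nat_lit 40872) (nat_lit 0) (nat_lit 3420) (XT.nd (nat_lit 40404) (nat_lit 0) (nat_lit 7980) (XT.nd (nat_lit 156) (nat_lit 0) (nat_lit 0) (XT.nd (nat_lit 78) (nat_lit 0) (nat_lit 0) (XT.lf (nat_lit 0) (nat_lit 358913527407) (nat_lit 152) (nat_lit 156243114868) (nat_lit 0) (nat_lit 342407083001) (nat_lit 2) (nat_lit 5) (nat_lit 4) (nat_lit 4) (nat_lit 2) (nat_lit 4) (nat_lit 387) (nat_lit 297) (nat_lit 216)) (XT.lf (nat_lit 0) (nat_lit 398602129816) (nat_lit 152) (nat_lit 144855952957) (nat_lit 0) (nat_lit 382093281886) (nat_lit 2) (nat_lit 5) (nat_lit 4) (nat_lit 4) (nat_lit 2) (nat_lit 4) (nat_lit 388) (nat_lit 297) (nat_lit 215))) (XT.nd (nat_lit 78) (nat_lit 0) (nat_lit 0) (XT.lf (nat_lit 0) (nat_lit 441462391157) (nat_lit 152) (nat_lit 132564478462) (nat_lit 0) (nat_lit 424951317742) (nat_lit 2) (nat_lit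 5) (nat_lit 4) (nat_lit 4) (nat_lit 2) (nat_lit 4) (nat_lit 389) (nat_lit 297) (nat_lit 214)) (XT.nd (nat_lit 78) (nat_lit 0) (nat_lit 0) (XT.lf (nat_lit 0) (nat_lit 487748298164) (nat_lit 152) (nat_lit 119295853015) (nat_lit 0) (nat_lit 471235164114) (nat_lit 2) (nat_lit 5) (nat_lit 4) (nat_lit 4) (nat_lit 2) (nat_lit 4) (nat_lit 390) (nat_lit 297) (nat_lit 213)) (XT.lf (nat_lit 0) (nat_lit 537734137692) (nat_lit 152) (nat_lit 104971447725) (nat_lit 0) (nat_lit 521219095647) (nat_lit 2) (nat_lit 5) (nat_lit 4) (nat_lit 4) (nat_lit 2) (nat_lit 4) (nat_lit 391) (nat_lit 297) (nat_lit 212))))) (XT.nd (nat_lit 234) (nat_lit 1748) (nat_lit 0) (XT.nd (nat_lit 78) (nat_lit 836) (nat_lit 0) (XT.lf (nat_lit 0) (nat_lit 1036970112) (nat_lit 228) (nat_lit 1121586657) (nat_lit 228) (nat_lit 1121586657) (nat_lit 141) (nat_lit 4) (nat_lit 144) (nat_lit 5) (nat_lit 144) (nat_lit 4) (nat_lit 304) (nat_lit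 298) (nat_lit 298)) (XT.nd (nat_lit 78) (nat_lit 456) (nat_lit 0) (XT.lf (nat_lit 0) (nat_lit 1574703121) (nat_lit 304) (nat_lit 991561204) (nat_lit 380) (nat_lit 4064488028) (nat_lit 136) (nat_lit 5) (nat_lit 140) (nat_lit 5) (nat_lit 141) (nat_lit 4) (nat_lit 305) (nat_lit 298) (nat_lit 297)) (XT.lf (nat_lit 0) (nat_lit 615334260) (nat_lit 456) (nat_lit 5499736365) (nat_lit 76) (nat_lit 606675965) (nat_lit 130) (nat_lit 5) (nat_lit 136) (nat_lit 5) (nat_lit 131) (nat_lit 4) (nat_lit 306) (nat_lit 298) (nat_lit 296)))) (XT.nd (nat_lit 78) (nat_lit 1292) (nat_lit 0) (XT.lf (nat_lit 0) (nat_lit 971788669) (nat_lit 456) (nat_lit 4268572830) (nat_lit 532) (nat_lit 1591573938) (nat_lit 124) (nat_lit 5) (nat_lit 130) (nat_lit 5) (nat_lit 131) (nat_lit 4) (nat_lit 307) (nat_lit 298) (nat_lit 295)) (XT.nd (nat_lit 78) (nat_lit 684) (nat_lit 0) (XT.lf (nat_lit 0) (nat_lit 846676255) (nat_lit 532)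 (nat_lit 2051330309) (nat_lit 608) (nat_lit 4065235280) (nat_lit 116) (nat_lit 5) (nat_lit 123) (nat_lit 5) (nat_lit 124) (nat_lit 5) (nat_lit 308) (nat_lit 298) (nat_lit 294)) (XT.lf (nat_lit 0) (nat_lit 319579163) (nat_lit 684) (nat_lit 6273146143) (nat_lit 76) (nat_lit 523713699) (nat_lit 107) (nat_lit 5) (nat_lit 116) (nat_lit 5) (nat_lit 108) (nat_lit 5) (nat_lit 309) (nat_lit 298) (nat_lit 293)))))) (XT.nd (nat_lit 468) (nat_lit 1672) (nat_lit 0) (XT.nd (nat_lit 234) (nat_lit 1064) (nat_lit 0) (XT.nd (nat_lit 78) (nat_lit 1140) (nat_lit 0) (XT.lf (nat_lit 0) (nat_lit 883926420) (nat_lit 684) (nat_lit 3835898935) (nat_lit 760) (nat_lit 2569034271) (nat_lit 98) (nat_lit 5) (nat_lit 107) (nat_lit 5) (nat_lit 108) (nat_lit 5) (nat_lit 310) (nat_lit 298) (nat_lit 292)) (XT.nd (nat_lit 78) (nat_lit 380) (nat_lit 0) (XT.lf (nat_lit 0) (nat_lit 1029805290) (nat_lit 684) (nat_lit 693860653)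 (nat_lit 760) (nat_lit 5760896978) (nat_lit 88) (nat_lit 5) (nat_lit 97) (nat_lit 5) (nat_lit 98) (nat_lit 5) (nat_lit 311) (nat_lit 298) (nat_lit 291)) (XT.lf (nat_lit 0) (nat_lit 1209391695) (nat_lit 380) (nat_lit 4919213610) (nat_lit 456) (nat_lit 1572803504) (nat_lit 83) (nat_lit 5) (nat_lit 88) (nat_lit 5) (nat_lit 89) (nat_lit 5) (nat_lit 312) (nat_lit 298) (nat_lit 290)))) (XT.nd (nat_lit 78) (nat_lit 684) (nat_lit 0) (XT.lf (nat_lit 0) (nat_lit 1438143930) (nat_lit 304) (nat_lit 1262419715) (nat_lit 380) (nat_lit 5240973321) (nat_lit 78) (nat_lit 5) (nat_lit 82) (nat_lit 5) (nat_lit 83) (nat_lit 5) (nat_lit 313) (nat_lit 298) (nat_lit 289)) (XT.nd (nat_lit 78) (nat_lit 380) (nat_lit 0) (XT.lf (nat_lit 0) (nat_lit 1687924165) (nat_lit 304) (nat_lit 5469926602) (nat_lit 380) (nat_lit 1047313398) (nat_lit 74) (nat_lit 5) (nat_lit 78) (nat_lit 5) (nat_lit 79) (nat_lit 5) (nat_lit 314)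 (nat_lit 298) (nat_lit 288)) (XT.lf (nat_lit 0) (nat_lit 1937027849) (nat_lit 304) (nat_lit 1324630814) (nat_lit 380) (nat_lit 5231326003) (nat_lit 69) (nat_lit 5) (nat_lit 73) (nat_lit 5) (nat_lit 74) (nat_lit 5) (nat_lit 315) (nat_lit 298) (nat_lit 287))))) (XT.nd (nat_lit 234) (nat_lit 760) (nat_lit 0) (XT.nd (nat_lit 78) (nat_lit 608) (nat_lit 0) (XT.lf (nat_lit 0) (nat_lit 2174918068) (nat_lit 304) (nat_lit 5641978563) (nat_lit 380) (nat_lit 989519407) (nat_lit 65) (nat_lit 5) (nat_lit 69) (nat_lit 5) (nat_lit 70) (nat_lit 5) (nat_lit 316) (nat_lit 298) (nat_lit 286)) (XT.nd (nat_lit 78) (nat_lit 304) (nat_lit 0) (XT.lf (nat_lit 0) (nat_lit 2372297061) (nat_lit 228) (nat_lit 1029077353) (nat_lit 304) (nat_lit 5744822560) (nat_lit 61) (nat_lit 5) (nat_lit 64) (nat_lit 5) (nat_lit 65) (nat_lit 5) (nat_lit 317) (nat_lit 298) (nat_lit 285)) (XT.lf (nat_lit 0) (nat_lit 2506222653) (nat_lit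 304) (nat_lit 5583259041) (nat_lit 380) (nat_lit 1424127575) (nat_lit 57) (nat_lit 5) (nat_lit 61) (nat_lit 5) (nat_lit 62) (nat_lit 5) (nat_lit 318) (nat_lit 298) (nat_lit 284)))) (XT.nd (nat_lit 78) (nat_lit 456) (nat_lit 0) (XT.lf (nat_lit 0) (nat_lit 2564852282) (nat_lit 228) (nat_lit 521732338) (nat_lit 304) (nat_lit 6824148403) (nat_lit 53) (nat_lit 5) (nat_lit 56) (nat_lit 5) (nat_lit 57) (nat_lit 5) (nat_lit 319) (nat_lit 298) (nat_lit 283)) (XT.nd (nat_lit 78) (nat_lit 228) (nat_lit 0) (XT.lf (nat_lit 0) (nat_lit 2486309779) (nat_lit 228) (nat_lit 5444506921) (nat_lit 304) (nat_lit 2406751953) (nat_lit 50) (nat_lit 5) (nat_lit 53) (nat_lit 5) (nat_lit 54) (nat_lit 5) (nat_lit 320) (nat_lit 298) (nat_lit 282)) (XT.lf (nat_lit 0) (nat_lit 2253543910) (nat_lit 228) (nat_lit 8501750237) (nat_lit 76) (nat_lit 43362081) (nat_lit 47) (nat_lit 5) (nat_lit 50) (nat_lit 5) (nat_lit 48) (nat_lit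 5) (nat_lit 321) (nat_lit 298) (nat_lit 281))))))) (XT.nd (nat_lit 858) (nat_lit 912) (nat_lit 0) (XT.nd (nat_lit 390) (nat_lit 836) (nat_lit 0) (XT.nd (nat_lit 156) (nat_lit 380) (nat_lit 0) (XT.nd (nat_lit 78) (nat_lit 228) (nat_lit 0) (XT.lf (nat_lit 0) (nat_lit 1873959744) (nat_lit 228) (nat_lit 5388946720) (nat_lit 304) (nat_lit 4028917050) (nat_lit 44) (nat_lit 5) (nat_lit 47) (nat_lit 5) (nat_lit 48) (nat_lit 5) (nat_lit 322) (nat_lit 298) (nat_lit 280)) (XT.lf (nat_lit 0) (nat_lit 806526428) (nat_lit 228) (nat_lit 10533173144) (nat_lit 76) (nat_lit 484997331) (nat_lit 41) (nat_lit 5) (nat_lit 44) (nat_lit 5) (nat_lit 42) (nat_lit 5) (nat_lit 323) (nat_lit 298) (nat_lit 279))) (XT.nd (nat_lit 78) (nat_lit 228) (nat_lit 0) (XT.lf (nat_lit 0) (nat_lit 364558497) (nat_lit 152) (nat_lit 5603221986) (nat_lit 228) (nat_lit 6425268969) (nat_lit 39) (nat_lit 5) (nat_lit 41) (nat_lit 5) (nat_lit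 42) (nat_lit 5) (nat_lit 324) (nat_lit 298) (nat_lit 278)) (XT.nd (nat_lit 78) (nat_lit 228) (nat_lit 0) (XT.lf (nat_lit 0) (nat_lit 11560469743) (nat_lit 228) (nat_lit 782173912) (nat_lit 76) (nat_lit 663446207) (nat_lit 39) (nat_lit 5) (nat_lit 42) (nat_lit 5) (nat_lit 40) (nat_lit 4) (nat_lit 325) (nat_lit 298) (nat_lit 277)) (XT.lf (nat_lit 0) (nat_lit 3916130145) (nat_lit 228) (nat_lit 2354284199) (nat_lit 76) (nat_lit 7389338930) (nat_lit 36) (nat_lit 5) (nat_lit 39) (nat_lit 5) (nat_lit 37) (nat_lit 5) (nat_lit 326) (nat_lit 298) (nat_lit 276))))) (XT.nd (nat_lit 234) (nat_lit 304) (nat_lit 0) (XT.nd (nat_lit 78) (nat_lit 380) (nat_lit 0) (XT.lf (nat_lit 0) (nat_lit 9675517479) (nat_lit 228) (nat_lit 4305132515) (nat_lit 76) (nat_lit 383027144) (nat_lit 34) (nat_lit 5) (nat_lit 37) (nat_lit 5) (nat_lit 35) (nat_lit 4) (nat_lit 327) (nat_lit 298) (nat_lit 275)) (XT.nd (nat_lit 78)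 (nat_lit 152) (nat_lit 0) (XT.lf (nat_lit 0) (nat_lit 874515937) (nat_lit 228) (nat_lit 6795442318) (nat_lit 76) (nat_lit 7447085840) (nat_lit 31) (nat_lit 5) (nat_lit 34) (nat_lit 5) (nat_lit 32) (nat_lit 5) (nat_lit 328) (nat_lit 298) (nat_lit 274)) (XT.lf (nat_lit 0) (nat_lit 6054092433) (nat_lit 152) (nat_lit 689810572) (nat_lit 228) (nat_lit 9181734869) (nat_lit 29) (nat_lit 5) (nat_lit 31) (nat_lit 5) (nat_lit 32) (nat_lit 5) (nat_lit 329) (nat_lit 298) (nat_lit 273)))) (XT.nd (nat_lit 78) (nat_lit 228) (nat_lit 0) (XT.lf (nat_lit 0) (nat_lit 3133011859) (nat_lit 76) (nat_lit 10084755833) (nat_lit 152) (nat_lit 3574495507) (nat_lit 28) (nat_lit 5) (nat_lit 29) (nat_lit 5) (nat_lit 30) (nat_lit 4) (nat_lit 330) (nat_lit 298) (nat_lit 272)) (XT.nd (nat_lit 78) (nat_lit 152) (nat_lit 0) (XT.lf (nat_lit 0) (nat_lit 2451681236) (nat_lit 152) (nat_lit 476198498) (nat_lit 76) (nat_lit 14795992689)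 (nat_lit 27) (nat_lit 5) (nat_lit 29) (nat_lit 5) (nat_lit 28) (nat_lit 5) (nat_lit 331) (nat_lit 298) (nat_lit 271)) (XT.lf (nat_lit 0) (nat_lit 9005493349) (nat_lit 228) (nat_lit 4870053207) (nat_lit 76) (nat_lit 4843069001) (nat_lit 25) (nat_lit 5) (nat_lit 28) (nat_lit 5) (nat_lit 26) (nat_lit 4) (nat_lit 332) (nat_lit 298) (nat_lit 270)))))) (XT.nd (nat_lit 468) (nat_lit 380) (nat_lit 0) (XT.nd (nat_lit 234) (nat_lit 228) (nat_lit 0) (XT.nd (nat_lit 78) (nat_lit 228) (nat_lit 0) (XT.lf (nat_lit 0) (nat_lit 9589366601) (nat_lit 76) (nat_lit 6580035218) (nat_lit 152) (nat_lit 3619315080) (nat_lit 24) (nat_lit 5) (nat_lit 25) (nat_lit 5) (nat_lit 26) (nat_lit 4) (nat_lit 333) (nat_lit 298) (nat_lit 269)) (XT.nd (nat_lit 78) (nat_lit 0) (nat_lit 0) (XT.lf (nat_lit 0) (nat_lit 2925260654) (nat_lit 228) (nat_lit 16639134754) (nat_lit 76) (nat_lit 1374875618) (nat_lit 21) (nat_lit 5) (nat_lit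 24) (nat_lit 5) (nat_lit 22) (nat_lit 4) (nat_lit 334) (nat_lit 298) (nat_lit 268)) (XT.lf (nat_lit 0) (nat_lit 10046300655) (nat_lit 228) (nat_lit 2226018557) (nat_lit 76) (nat_lit 9897654341) (nat_lit 21) (nat_lit 5) (nat_lit 24) (nat_lit 5) (nat_lit 22) (nat_lit 4) (nat_lit 335) (nat_lit 298) (nat_lit 267)))) (XT.nd (nat_lit 78) (nat_lit 152) (nat_lit 0) (XT.lf (nat_lit 0) (nat_lit 13588070971) (nat_lit 76) (nat_lit 4255986004) (nat_lit 152) (nat_lit 5649775307) (nat_lit 20) (nat_lit 5) (nat_lit 21) (nat_lit 5) (nat_lit 22) (nat_lit 4) (nat_lit 336) (nat_lit 298) (nat_lit 266)) (XT.nd (nat_lit 78) (nat_lit 0) (nat_lit 0) (XT.lf (nat_lit 0) (nat_lit 1397291041) (nat_lit 152) (nat_lit 19183998183) (nat_lit 76) (nat_lit 4336397872) (nat_lit 18) (nat_lit 5) (nat_lit 20) (nat_lit 5) (nat_lit 19) (nat_lit 4) (nat_lit 337) (nat_lit 298) (nat_lit 265)) (XT.lf (nat_lit 0) (nat_lit 8961775898)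 (nat_lit 152) (nat_lit 3816681855) (nat_lit 76) (nat_lit 13664824068) (nat_lit 18) (nat_lit 5) (nat_lit 20) (nat_lit 5) (nat_lit 19) (nat_lit 4) (nat_lit 338) (nat_lit 298) (nat_lit 264))))) (XT.nd (nat_lit 234) (nat_lit 152) (nat_lit 0) (XT.nd (nat_lit 78) (nat_lit 152) (nat_lit 0) (XT.lf (nat_lit 0) (nat_lit 13032293918) (nat_lit 76) (nat_lit 4211673246) (nat_lit 152) (nat_lit 10841368632) (nat_lit 17) (nat_lit 5) (nat_lit 18) (nat_lit 5) (nat_lit 19) (nat_lit 4) (nat_lit 339) (nat_lit 298) (nat_lit 263)) (XT.nd (nat_lit 78) (nat_lit 76) (nat_lit 0) (XT.lf (nat_lit 0) (nat_lit 1311297958) (nat_lit 76) (nat_lit 24956419781) (nat_lit 76) (nat_lit 3587123313) (nat_lit 16) (nat_lit 4) (nat_lit 17) (nat_lit 5) (nat_lit 17) (nat_lit 4) (nat_lit 340) (nat_lit 298) (nat_lit 262)) (XT.lf (nat_lit 0) (nat_lit 4363980286) (nat_lit 152) (nat_lit 12528888662) (nat_lit 76) (nat_lit 14857130731) (nat_lit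 15) (nat_lit 5) (nat_lit 17) (nat_lit 5) (nat_lit 16) (nat_lit 4) (nat_lit 341) (nat_lit 298) (nat_lit 261)))) (XT.nd (nat_lit 78) (nat_lit 76) (nat_lit 0) (XT.lf (nat_lit 0) (nat_lit 4712096002) (nat_lit 76) (nat_lit 8109885738) (nat_lit 152) (nat_lit 20972054273) (nat_lit 14) (nat_lit 5) (nat_lit 15) (nat_lit 5) (nat_lit 16) (nat_lit 4) (nat_lit 342) (nat_lit 298) (nat_lit 260)) (XT.nd (nat_lit 78) (nat_lit 76) (nat_lit 0) (XT.lf (nat_lit 0) (nat_lit 22123831839) (nat_lit 152) (nat_lit 12377628657) (nat_lit 0) (nat_lit 1491801671) (nat_lit 14) (nat_lit 5) (nat_lit 16) (nat_lit 4) (nat_lit 14) (nat_lit 4) (nat_lit 343) (nat_lit 298) (nat_lit 259)) (XT.lf (nat_lit 0) (nat_lit 5573509077) (nat_lit 76) (nat_lit 26749629491) (nat_lit 76) (nat_lit 6037647728) (nat_lit 13) (nat_lit 4) (nat_lit 14) (nat_lit 5) (nat_lit 14) (nat_lit 4) (nat_lit 344) (nat_lit 298) (nat_lit 258))))))))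
noncomputable def xc44 : XT := (XT.nd (nat_lit 1716) (nat_lit 152) (nat_lit 0) (XT.nd (nat_lit 858) (nat_lit 228) (nat_lit 0) (XT.nd (nat_lit 390) (nat_lit 228) (nat_lit 0) (XT.nd (nat_lit 156) (nat_lit 76) (nat_lit 0) (XT.nd (nat_lit 78) (nat_lit 76) (nat_lit 0) (XT.lf (nat_lit 0) (nat_lit 2494024630) (nat_lit 152) (nat_lit 15673260524) (nat_lit 76) (nat_lit 22741018649) (nat_lit 12) (nat_lit 5) (nat_lit 14) (nat_lit 5) (nat_lit 13) (nat_lit 4) (nat_lit 345) (nat_lit 298) (nat_lit 257)) (XT.lf (nat_lit 0) (nat_lit 2675424734) (nat_lit 76) (nat_lit 8802614951) (nat_lit 152) (nat_lit 32177587869) (nat_lit 11) (nat_lit 5) (nat_lit 12) (nat_lit 5) (nat_lit 13) (nat_lit 4) (nat_lit 346) (nat_lit 298) (nat_lit 256))) (XT.nd (nat_lit 78) (nat_lit 76) (nat_lit 0) (XT.lf (nat_lit 0) (nat_lit 21417576801) (nat_lit 152) (nat_lit 23697691055) (nat_lit 0) (nat_lit 1495648444) (nat_lit 11) (nat_lit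 5) (nat_lit 13) (nat_lit 4) (nat_lit 11) (nat_lit 4) (nat_lit 347) (nat_lit 298) (nat_lit 255)) (XT.nd (nat_lit 78) (nat_lit 76) (nat_lit 0) (XT.lf (nat_lit 0) (nat_lit 32244070893) (nat_lit 152) (nat_lit 5287811129) (nat_lit 0) (nat_lit 12266174145) (nat_lit 11) (nat_lit 5) (nat_lit 13) (nat_lit 4) (nat_lit 11) (nat_lit 4) (nat_lit 348) (nat_lit 298) (nat_lit 254)) (XT.lf (nat_lit 0) (nat_lit 14975268134) (nat_lit 76) (nat_lit 29142783242) (nat_lit 76) (nat_lit 9113063912) (nat_lit 10) (nat_lit 4) (nat_lit 11) (nat_lit 5) (nat_lit 11) (nat_lit 4) (nat_lit 349) (nat_lit 298) (nat_lit 253))))) (XT.nd (nat_lit 234) (nat_lit 76) (nat_lit 0) (XT.nd (nat_lit 78) (nat_lit 76) (nat_lit 0) (XT.lf (nat_lit 0) (nat_lit 45784745) (nat_lit 152) (nat_lit 19983844474) (nat_lit 76) (nat_lit 36907064253) (nat_lit 9) (nat_lit 5) (nat_lit 11) (nat_lit 5) (nat_lit 10) (nat_lit 4) (nat_lit 350) (nat_lit 298)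 (nat_lit 252)) (XT.nd (nat_lit 78) (nat_lit 76) (nat_lit 0) (XT.lf (nat_lit 0) (nat_lit 9575233767) (nat_lit 152) (nat_lit 492903491) (nat_lit 76) (nat_lit 50865265835) (nat_lit 9) (nat_lit 5) (nat_lit 11) (nat_lit 5) (nat_lit 10) (nat_lit 4) (nat_lit 351) (nat_lit 298) (nat_lit 251)) (XT.lf (nat_lit 0) (nat_lit 20169249767) (nat_lit 152) (nat_lit 44099367184) (nat_lit 0) (nat_lit 966134384) (nat_lit 8) (nat_lit 5) (nat_lit 10) (nat_lit 4) (nat_lit 8) (nat_lit 4) (nat_lit 352) (nat_lit 298) (nat_lit 250)))) (XT.nd (nat_lit 78) (nat_lit 76) (nat_lit 0) (XT.lf (nat_lit 0) (nat_lit 31747085508) (nat_lit 152) (nat_lit 25618625649) (nat_lit 0) (nat_lit 12507692844) (nat_lit 8) (nat_lit 5) (nat_lit 10) (nat_lit 4) (nat_lit 8) (nat_lit 4) (nat_lit 353) (nat_lit 298) (nat_lit 249)) (XT.nd (nat_lit 78) (nat_lit 76) (nat_lit 0) (XT.lf (nat_lit 0) (nat_lit 44212078162) (nat_lit 152) (nat_lit 5733939425)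 (nat_lit 0) (nat_lit 24939095423) (nat_lit 8) (nat_lit 5) (nat_lit 10) (nat_lit 4) (nat_lit 8) (nat_lit 4) (nat_lit 354) (nat_lit 298) (nat_lit 248)) (XT.lf (nat_lit 0) (nat_lit 16190731176) (nat_lit 76) (nat_lit 41700145867) (nat_lit 76) (nat_lit 22396061206) (nat_lit 7) (nat_lit 4) (nat_lit 8) (nat_lit 5) (nat_lit 8) (nat_lit 4) (nat_lit 355) (nat_lit 298) (nat_lit 247)))))) (XT.nd (nat_lit 390) (nat_lit 76) (nat_lit 0) (XT.nd (nat_lit 156) (nat_lit 152) (nat_lit 0) (XT.nd (nat_lit 78) (nat_lit 0) (nat_lit 0) (XT.lf (nat_lit 0) (nat_lit 40008135961) (nat_lit 76) (nat_lit 32721198825) (nat_lit 76) (nat_lit 13388316089) (nat_lit 7) (nat_lit 4) (nat_lit 8) (nat_lit 5) (nat_lit 8) (nat_lit 4) (nat_lit 356) (nat_lit 298) (nat_lit 246)) (XT.lf (nat_lit 0) (nat_lit 65669825173) (nat_lit 76) (nat_lit 23053074928) (nat_lit 76) (nat_lit 3693527307) (nat_lit 7) (nat_lit 4) (nat_lit 8) (nat_lit 5)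 (nat_lit 8) (nat_lit 4) (nat_lit 357) (nat_lit 298) (nat_lit 245))) (XT.nd (nat_lit 78) (nat_lit 76) (nat_lit 0) (XT.lf (nat_lit 0) (nat_lit 6529849429) (nat_lit 152) (nat_lit 5998045998) (nat_lit 76) (nat_lit 86687432494) (nat_lit 6) (nat_lit 5) (nat_lit 8) (nat_lit 5) (nat_lit 7) (nat_lit 4) (nat_lit 358) (nat_lit 298) (nat_lit 244)) (XT.nd (nat_lit 78) (nat_lit 0) (nat_lit 0) (XT.lf (nat_lit 0) (nat_lit 16833576241) (nat_lit 76) (nat_lit 844801519) (nat_lit 152) (nat_lit 88864907893) (nat_lit 5) (nat_lit 5) (nat_lit 6) (nat_lit 5) (nat_lit 7) (nat_lit 4) (nat_lit 359) (nat_lit 298) (nat_lit 243)) (XT.lf (nat_lit 0) (nat_lit 29981813981) (nat_lit 152) (nat_lit 72983817255) (nat_lit 0) (nat_lit 11478703871) (nat_lit 5) (nat_lit 5) (nat_lit 7) (nat_lit 4) (nat_lit 5) (nat_lit 4) (nat_lit 360) (nat_lit 298) (nat_lit 242))))) (XT.nd (nat_lit 234) (nat_lit 76) (nat_lit 0) (XT.nd (nat_lit 78)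 (nat_lit 0) (nat_lit 0) (XT.lf (nat_lit 0) (nat_lit 43258790479) (nat_lit 152) (nat_lit 54982206487) (nat_lit 0) (nat_lit 24737014192) (nat_lit 5) (nat_lit 5) (nat_lit 7) (nat_lit 4) (nat_lit 5) (nat_lit 4) (nat_lit 361) (nat_lit 298) (nat_lit 241)) (XT.nd (nat_lit 78) (nat_lit 0) (nat_lit 0) (XT.lf (nat_lit 0) (nat_lit 57574795915) (nat_lit 152) (nat_lit 35585011179) (nat_lit 0) (nat_lit 39035736130) (nat_lit 5) (nat_lit 5) (nat_lit 7) (nat_lit 4) (nat_lit 5) (nat_lit 4) (nat_lit 362) (nat_lit 298) (nat_lit 240)) (XT.lf (nat_lit 0) (nat_lit 73014665877) (nat_lit 152) (nat_lit 14677284987) (nat_lit 0) (nat_lit 54459602854) (nat_lit 5) (nat_lit 5) (nat_lit 7) (nat_lit 4) (nat_lit 5) (nat_lit 4) (nat_lit 363) (nat_lit 298) (nat_lit 239)))) (XT.nd (nat_lit 78) (nat_lit 0) (nat_lit 0) (XT.lf (nat_lit 0) (nat_lit 8124917836) (nat_lit 76) (nat_lit 81671830792) (nat_lit 76) (nat_lit 63101949955)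 (nat_lit 4) (nat_lit 4) (nat_lit 5) (nat_lit 5) (nat_lit 5) (nat_lit 4) (nat_lit 364) (nat_lit 298) (nat_lit 238)) (XT.nd (nat_lit 78) (nat_lit 0) (nat_lit 0) (XT.lf (nat_lit 0) (nat_lit 33238888095) (nat_lit 76) (nat_lit 74919247715) (nat_lit 76) (nat_lit 56335646681) (nat_lit 4) (nat_lit 4) (nat_lit 5) (nat_lit 5) (nat_lit 5) (nat_lit 4) (nat_lit 365) (nat_lit 298) (nat_lit 237)) (XT.lf (nat_lit 0) (nat_lit 60328151991) (nat_lit 76) (nat_lit 67642753250) (nat_lit 76) (nat_lit 49046448329) (nat_lit 4) (nat_lit 4) (nat_lit 5) (nat_lit 5) (nat_lit 5) (nat_lit 4) (nat_lit 366) (nat_lit 298) (nat_lit 236))))))) (XT.nd (nat_lit 858) (nat_lit 0) (nat_lit 0) (XT.nd (nat_lit 390) (nat_lit 152) (nat_lit 0) (XT.nd (nat_lit 156) (nat_lit 0) (nat_lit 0) (XT.nd (nat_lit 78) (nat_lit 0) (nat_lit 0) (XT.lf (nat_lit 0) (nat_lit 89553238494) (nat_lit 76) (nat_lit 59799227430) (nat_lit 76) (nat_lit 41191159651)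 (nat_lit 4) (nat_lit 4) (nat_lit 5) (nat_lit 5) (nat_lit 5) (nat_lit 4) (nat_lit 367) (nat_lit 298) (nat_lit 235)) (XT.lf (nat_lit 0) (nat_lit 121087333304) (nat_lit 76) (nat_lit 51342190101) (nat_lit 76) (nat_lit 32723230787) (nat_lit 4) (nat_lit 4) (nat_lit 5) (nat_lit 5) (nat_lit 5) (nat_lit 4) (nat_lit 368) (nat_lit 298) (nat_lit 234))) (XT.nd (nat_lit 78) (nat_lit 0) (nat_lit 0) (XT.lf (nat_lit 0) (nat_lit 155117305129) (nat_lit 76) (nat_lit 42221525487) (nat_lit 76) (nat_lit 23592481418) (nat_lit 4) (nat_lit 4) (nat_lit 5) (nat_lit 5) (nat_lit 5) (nat_lit 4) (nat_lit 369) (nat_lit 298) (nat_lit 233)) (XT.nd (nat_lit 78) (nat_lit 0) (nat_lit 0) (XT.lf (nat_lit 0) (nat_lit 191844813062) (nat_lit 76) (nat_lit 32383185205) (nat_lit 76) (nat_lit 13744803400) (nat_lit 4) (nat_lit 4) (nat_lit 5) (nat_lit 5) (nat_lit 5) (nat_lit 4) (nat_lit 370) (nat_lit 298) (nat_lit 232)) (XT.lf (nat_lit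 0) (nat_lit 231487501595) (nat_lit 76) (nat_lit 21768867979) (nat_lit 76) (nat_lit 3121840122) (nat_lit 4) (nat_lit 4) (nat_lit 5) (nat_lit 5) (nat_lit 5) (nat_lit 4) (nat_lit 371) (nat_lit 298) (nat_lit 231))))) (XT.nd (nat_lit 234) (nat_lit 0) (nat_lit 0) (XT.nd (nat_lit 78) (nat_lit 76) (nat_lit 0) (XT.lf (nat_lit 0) (nat_lit 8072447729) (nat_lit 152) (nat_lit 2106515614) (nat_lit 76) (nat_lit 266071131825) (nat_lit 3) (nat_lit 5) (nat_lit 5) (nat_lit 5) (nat_lit 4) (nat_lit 4) (nat_lit 372) (nat_lit 298) (nat_lit 230)) (XT.nd (nat_lit 78) (nat_lit 0) (nat_lit 0) (XT.lf (nat_lit 0) (nat_lit 20448852601) (nat_lit 152) (nat_lit 274565430371) (nat_lit 0) (nat_lit 2675094452) (nat_lit 2) (nat_lit 5) (nat_lit 4) (nat_lit 4) (nat_lit 2) (nat_lit 4) (nat_lit 373) (nat_lit 298) (nat_lit 229)) (XT.lf (nat_lit 0) (nat_lit 34014229060) (nat_lit 152) (nat_lit 270585698078) (nat_lit 0) (nat_lit 16233934231)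 (nat_lit 2) (nat_lit 5) (nat_lit 4) (nat_lit 4) (nat_lit 2) (nat_lit 4) (nat_lit 374) (nat_lit 298) (nat_lit 228)))) (XT.nd (nat_lit 78) (nat_lit 0) (nat_lit 0) (XT.lf (nat_lit 0) (nat_lit 48655509337) (nat_lit 152) (nat_lit 266305700899) (nat_lit 0) (nat_lit 30869162026) (nat_lit 2) (nat_lit 5) (nat_lit 4) (nat_lit 4) (nat_lit 2) (nat_lit 4) (nat_lit 375) (nat_lit 298) (nat_lit 227)) (XT.nd (nat_lit 78) (nat_lit 0) (nat_lit 0) (XT.lf (nat_lit 0) (nat_lit 64459456574) (nat_lit 152) (nat_lit 261700075887) (nat_lit 0) (nat_lit 46667505112) (nat_lit 2) (nat_lit 5) (nat_lit 4) (nat_lit 4) (nat_lit 2) (nat_lit 4) (nat_lit 376) (nat_lit 298) (nat_lit 226)) (XT.lf (nat_lit 0) (nat_lit 81519723791) (nat_lit 152) (nat_lit 256741530450) (nat_lit 0) (nat_lit 63722583302) (nat_lit 2) (nat_lit 5) (nat_lit 4) (nat_lit 4) (nat_lit 2) (nat_lit 4) (nat_lit 377) (nat_lit 298) (nat_lit 225)))))) (XT.nd (nat_lit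 468) (nat_lit 0) (nat_lit 0) (XT.nd (nat_lit 234) (nat_lit 0) (nat_lit 0) (XT.nd (nat_lit 78) (nat_lit 0) (nat_lit 0) (XT.lf (nat_lit 0) (nat_lit 99937408869) (nat_lit 152) (nat_lit 251400680615) (nat_lit 0) (nat_lit 82135463724) (nat_lit 2) (nat_lit 5) (nat_lit 4) (nat_lit 4) (nat_lit 2) (nat_lit 4) (nat_lit 378) (nat_lit 298) (nat_lit 224)) (XT.nd (nat_lit 78) (nat_lit 0) (nat_lit 0) (XT.lf (nat_lit 0) (nat_lit 119821653644) (nat_lit 152) (nat_lit 245645876902) (nat_lit 0) (nat_lit 102015259744) (nat_lit 2) (nat_lit 5) (nat_lit 4) (nat_lit 4) (nat_lit 2) (nat_lit 4) (nat_lit 379) (nat_lit 298) (nat_lit 223)) (XT.lf (nat_lit 0) (nat_lit 141290290678) (nat_lit 152) (nat_lit 239443016769) (nat_lit 0) (nat_lit 123479777560) (nat_lit 2) (nat_lit 5) (nat_lit 4) (nat_lit 4) (nat_lit 2) (nat_lit 4) (nat_lit 380) (nat_lit 298) (nat_lit 222)))) (XT.nd (nat_lit 78) (nat_lit 0) (nat_lit 0) (XT.lf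 (nat_lit 0) (nat_lit 164470541525) (nat_lit 152) (nat_lit 232755342527) (nat_lit 0) (nat_lit 146656214316) (nat_lit 2) (nat_lit 5) (nat_lit 4) (nat_lit 4) (nat_lit 2) (nat_lit 4) (nat_lit 381) (nat_lit 298) (nat_lit 221)) (XT.nd (nat_lit 78) (nat_lit 0) (nat_lit 0) (XT.lf (nat_lit 0) (nat_lit 189499770633) (nat_lit 152) (nat_lit 225543223514) (nat_lit 0) (nat_lit 171681911859) (nat_lit 2) (nat_lit 5) (nat_lit 4) (nat_lit 4) (nat_lit 2) (nat_lit 4) (nat_lit 382) (nat_lit 298) (nat_lit 220)) (XT.lf (nat_lit 0) (nat_lit 216526299360) (nat_lit 152) (nat_lit 217763921247) (nat_lit 0) (nat_lit 198705170619) (nat_lit 2) (nat_lit 5) (nat_lit 4) (nat_lit 4) (nat_lit 2) (nat_lit 4) (nat_lit 383) (nat_lit 298) (nat_lit 219))))) (XT.nd (nat_lit 234) (nat_lit 0) (nat_lit 0) (XT.nd (nat_lit 78) (nat_lit 0) (nat_lit 0) (XT.lf (nat_lit 0) (nat_lit 245710284914) (nat_lit 152) (nat_lit 209371336158) (nat_lit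 0) (nat_lit 227886128425) (nat_lit 2) (nat_lit 5) (nat_lit 4) (nat_lit 4) (nat_lit 2) (nat_lit 4) (nat_lit 384) (nat_lit 298) (nat_lit 218)) (XT.nd (nat_lit 78) (nat_lit 0) (nat_lit 0) (XT.lf (nat_lit 0) (nat_lit 277224669430) (nat_lit 152) (nat_lit 200315734407) (nat_lit 0) (nat_lit 259397709471) (nat_lit 2) (nat_lit 5) (nat_lit 4) (nat_lit 4) (nat_lit 2) (nat_lit 4) (nat_lit 385) (nat_lit 298) (nat_lit 217)) (XT.lf (nat_lit 0) (nat_lit 311256204819) (nat_lit 152) (nat_lit 190543453171) (nat_lit 0) (nat_lit 293426649054) (nat_lit 2) (nat_lit 5) (nat_lit 4) (nat_lit 4) (nat_lit 2) (nat_lit 4) (nat_lit 386) (nat_lit 298) (nat_lit 216)))) (XT.nd (nat_lit 78) (nat_lit 0) (nat_lit 0) (XT.lf (nat_lit 0) (nat_lit 348006559436) (nat_lit 152) (nat_lit 179996582634) (nat_lit 0) (nat_lit 330174600147) (nat_lit 2) (nat_lit 5) (nat_lit 4) (nat_lit 4) (nat_lit 2) (nat_lit 4) (nat_lit 387) (nat_lit 298)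 (nat_lit 215)) (XT.nd (nat_lit 78) (nat_lit 0) (nat_lit 0) (XT.lf (nat_lit 0) (nat_lit 387693513162) (nat_lit 152) (nat_lit 168612622823) (nat_lit 0) (nat_lit 369859328388) (nat_lit 2) (nat_lit 5) (nat_lit 4) (nat_lit 4) (nat_lit 2) (nat_lit 4) (nat_lit 388) (nat_lit 298) (nat_lit 214)) (XT.lf (nat_lit 0) (nat_lit 430552247945) (nat_lit 152) (nat_lit 156324113235) (nat_lit 0) (nat_lit 412716002536) (nat_lit 2) (nat_lit 5) (nat_lit 4) (nat_lit 4) (nat_lit 2) (nat_lit 4) (nat_lit 389) (nat_lit 298) (nat_lit 213))))))))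
noncomputable def xc45 : XT := (XT.nd (nat_lit 41652) (nat_lit 0) (nat_lit 836) (XT.nd (nat_lit 40716) (nat_lit 0) (nat_lit 3420) (XT.nd (nat_lit 40248) (nat_lit 0) (nat_lit 7980) (XT.nd (nat_lit 40014) (nat_lit 0) (nat_lit 10488) (XT.nd (nat_lit 78) (nat_lit 0) (nat_lit 0) (XT.lf (nat_lit 0) (nat_lit 476836741471) (nat_lit 152) (nat_lit 143058233074) (nat_lit 0) (nat_lit 458998588068) (nat_lit 2) (nat_lit 5) (nat_lit 4) (nat_lit 4) (nat_lit 2) (nat_lit 4) (nat_lit 390) (nat_lit 298) (nat_lit 212)) (XT.lf (nat_lit 0) (nat_lit 526821272222) (nat_lit 152) (nat_lit 128736369714) (nat_lit 0) (nat_lit 508981352157) (nat_lit 2) (nat_lit 5) (nat_lit 4) (nat_lit 4) (nat_lit 2) (nat_lit 4) (nat_lit 391) (nat_lit 298) (nat_lit 211))) (XT.nd (nat_lit 78) (nat_lit 532) (nat_lit 0) (XT.lf (nat_lit 0) (nat_lit 1868433439) (nat_lit 76) (nat_lit 683463454) (nat_lit 76) (nat_lit 683463454) (nat_lit 147)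 (nat_lit 4) (nat_lit 148) (nat_lit 5) (nat_lit 148) (nat_lit 4) (nat_lit 302) (nat_lit 299) (nat_lit 299)) (XT.nd (nat_lit 78) (nat_lit 304) (nat_lit 0) (XT.lf (nat_lit 0) (nat_lit 2736678340) (nat_lit 152) (nat_lit 637350771) (nat_lit 228) (nat_lit 3136436396) (nat_lit 144) (nat_lit 5) (nat_lit 146) (nat_lit 5) (nat_lit 147) (nat_lit 4) (nat_lit 303) (nat_lit 299) (nat_lit 298)) (XT.lf (nat_lit 0) (nat_lit 1460958858) (nat_lit 304) (nat_lit 4672202935) (nat_lit 76) (nat_lit 437366574) (nat_lit 140) (nat_lit 5) (nat_lit 144) (nat_lit 5) (nat_lit 141) (nat_lit 4) (nat_lit 304) (nat_lit 299) (nat_lit 297))))) (XT.nd (nat_lit 234) (nat_lit 1216) (nat_lit 0) (XT.nd (nat_lit 78) (nat_lit 988) (nat_lit 0) (XT.lf (nat_lit 0) (nat_lit 1194695784) (nat_lit 304) (nat_lit 4793087538) (nat_lit 380) (nat_lit 662495117) (nat_lit 136) (nat_lit 5) (nat_lit 140) (nat_lit 5) (nat_lit 141) (nat_lit 4) (nat_lit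 305) (nat_lit 299) (nat_lit 296)) (XT.nd (nat_lit 78) (nat_lit 532) (nat_lit 0) (XT.lf (nat_lit 0) (nat_lit 612314168) (nat_lit 380) (nat_lit 3081171142) (nat_lit 456) (nat_lit 3056315806) (nat_lit 130) (nat_lit 5) (nat_lit 135) (nat_lit 5) (nat_lit 136) (nat_lit 5) (nat_lit 306) (nat_lit 299) (nat_lit 295)) (XT.lf (nat_lit 0) (nat_lit 170057865) (nat_lit 456) (nat_lit 1010580345) (nat_lit 532) (nat_lit 5690158071) (nat_lit 123) (nat_lit 5) (nat_lit 129) (nat_lit 5) (nat_lit 130) (nat_lit 5) (nat_lit 307) (nat_lit 299) (nat_lit 294)))) (XT.nd (nat_lit 78) (nat_lit 1216) (nat_lit 0) (XT.lf (nat_lit 0) (nat_lit 5415818567) (nat_lit 532) (nat_lit 180927885) (nat_lit 76) (nat_lit 1414643052) (nat_lit 123) (nat_lit 5) (nat_lit 130) (nat_lit 5) (nat_lit 124) (nat_lit 5) (nat_lit 308) (nat_lit 299) (nat_lit 293)) (XT.nd (nat_lit 78) (nat_lit 608) (nat_lit 0) (XT.lf (nat_lit 0) (nat_lit 2518684300)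 (nat_lit 608) (nat_lit 445619270) (nat_lit 76) (nat_lit 4208245076) (nat_lit 115) (nat_lit 5) (nat_lit 123) (nat_lit 5) (nat_lit 116) (nat_lit 5) (nat_lit 309) (nat_lit 299) (nat_lit 292)) (XT.lf (nat_lit 0) (nat_lit 6695064572) (nat_lit 684) (nat_lit 610003160) (nat_lit 76) (nat_lit 51385730) (nat_lit 107) (nat_lit 5) (nat_lit 116) (nat_lit 5) (nat_lit 108) (nat_lit 5) (nat_lit 310) (nat_lit 299) (nat_lit 291)))))) (XT.nd (nat_lit 468) (nat_lit 1672) (nat_lit 0) (XT.nd (nat_lit 234) (nat_lit 988) (nat_lit 0) (XT.nd (nat_lit 78) (nat_lit 1140) (nat_lit 0) (XT.lf (nat_lit 0) (nat_lit 3394346584) (nat_lit 760) (nat_lit 765492356) (nat_lit 76) (nat_lit 3399880566) (nat_lit 97) (nat_lit 5) (nat_lit 107) (nat_lit 5) (nat_lit 98) (nat_lit 5) (nat_lit 311) (nat_lit 299) (nat_lit 290)) (XT.nd (nat_lit 78) (nat_lit 456) (nat_lit 0) (XT.lf (nat_lit 0) (nat_lit 6955237909) (nat_lit 684) (nat_lit 627270303)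 (nat_lit 760) (nat_lit 205133592) (nat_lit 88) (nat_lit 5) (nat_lit 97) (nat_lit 5) (nat_lit 98) (nat_lit 5) (nat_lit 312) (nat_lit 299) (nat_lit 289)) (XT.lf (nat_lit 0) (nat_lit 3843337565) (nat_lit 456) (nat_lit 924784643) (nat_lit 76) (nat_lit 3267845652) (nat_lit 82) (nat_lit 5) (nat_lit 88) (nat_lit 5) (nat_lit 83) (nat_lit 5) (nat_lit 313) (nat_lit 299) (nat_lit 288)))) (XT.nd (nat_lit 78) (nat_lit 684) (nat_lit 0) (XT.lf (nat_lit 0) (nat_lit 7349905536) (nat_lit 304) (nat_lit 738315956) (nat_lit 380) (nat_lit 222187669) (nat_lit 78) (nat_lit 5) (nat_lit 82) (nat_lit 5) (nat_lit 83) (nat_lit 5) (nat_lit 314) (nat_lit 299) (nat_lit 287)) (XT.nd (nat_lit 78) (nat_lit 304) (nat_lit 0) (XT.lf (nat_lit 0) (nat_lit 3880258489) (nat_lit 380) (nat_lit 1059190463) (nat_lit 76) (nat_lit 3667313442) (nat_lit 73) (nat_lit 5) (nat_lit 78) (nat_lit 5) (nat_lit 74) (nat_lit 5) (nat_lit 315) (nat_lit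 299) (nat_lit 286)) (XT.lf (nat_lit 0) (nat_lit 7794667977) (nat_lit 304) (nat_lit 423582928) (nat_lit 380) (nat_lit 712963495) (nat_lit 69) (nat_lit 5) (nat_lit 73) (nat_lit 5) (nat_lit 74) (nat_lit 5) (nat_lit 316) (nat_lit 299) (nat_lit 285))))) (XT.nd (nat_lit 234) (nat_lit 684) (nat_lit 0) (XT.nd (nat_lit 78) (nat_lit 608) (nat_lit 0) (XT.lf (nat_lit 0) (nat_lit 3495172680) (nat_lit 380) (nat_lit 1319361571) (nat_lit 76) (nat_lit 4465080145) (nat_lit 64) (nat_lit 5) (nat_lit 69) (nat_lit 5) (nat_lit 65) (nat_lit 5) (nat_lit 317) (nat_lit 299) (nat_lit 284)) (XT.nd (nat_lit 78) (nat_lit 380) (nat_lit 0) (XT.lf (nat_lit 0) (nat_lit 7957424946) (nat_lit 304) (nat_lit 1526541332) (nat_lit 76) (nat_lit 174482462) (nat_lit 61) (nat_lit 5) (nat_lit 65) (nat_lit 5) (nat_lit 62) (nat_lit 5) (nat_lit 318) (nat_lit 299) (nat_lit 283)) (XT.lf (nat_lit 0) (nat_lit 2651453320) (nat_lit 380) (nat_lit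 1881362817) (nat_lit 76) (nat_lit 5531441409) (nat_lit 56) (nat_lit 5) (nat_lit 61) (nat_lit 5) (nat_lit 57) (nat_lit 5) (nat_lit 319) (nat_lit 299) (nat_lit 282)))) (XT.nd (nat_lit 78) (nat_lit 456) (nat_lit 0) (XT.lf (nat_lit 0) (nat_lit 7266270347) (nat_lit 304) (nat_lit 2331443319) (nat_lit 76) (nat_lit 904955836) (nat_lit 53) (nat_lit 5) (nat_lit 57) (nat_lit 5) (nat_lit 54) (nat_lit 5) (nat_lit 320) (nat_lit 299) (nat_lit 281)) (XT.nd (nat_lit 78) (nat_lit 152) (nat_lit 0) (XT.lf (nat_lit 0) (nat_lit 1282061381) (nat_lit 304) (nat_lit 2959183000) (nat_lit 76) (nat_lit 6731672913) (nat_lit 49) (nat_lit 5) (nat_lit 53) (nat_lit 5) (nat_lit 50) (nat_lit 5) (nat_lit 321) (nat_lit 299) (nat_lit 280)) (XT.lf (nat_lit 0) (nat_lit 6058124858) (nat_lit 228) (nat_lit 3782650708) (nat_lit 76) (nat_lit 1637060169) (nat_lit 47) (nat_lit 5) (nat_lit 50) (nat_lit 5) (nat_lit 48) (nat_lit 5) (nat_lit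 322) (nat_lit 299) (nat_lit 279))))))) (XT.nd (nat_lit 858) (nat_lit 912) (nat_lit 0) (XT.nd (nat_lit 390) (nat_lit 684) (nat_lit 0) (XT.nd (nat_lit 156) (nat_lit 532) (nat_lit 0) (XT.nd (nat_lit 78) (nat_lit 228) (nat_lit 0) (XT.lf (nat_lit 0) (nat_lit 7188471700) (nat_lit 228) (nat_lit 4091932044) (nat_lit 304) (nat_lit 739703414) (nat_lit 44) (nat_lit 5) (nat_lit 47) (nat_lit 5) (nat_lit 48) (nat_lit 5) (nat_lit 323) (nat_lit 299) (nat_lit 278)) (XT.lf (nat_lit 0) (nat_lit 4214059568) (nat_lit 228) (nat_lit 6180641684) (nat_lit 76) (nat_lit 2205964592) (nat_lit 41) (nat_lit 5) (nat_lit 44) (nat_lit 5) (nat_lit 42) (nat_lit 5) (nat_lit 324) (nat_lit 299) (nat_lit 277))) (XT.nd (nat_lit 78) (nat_lit 380) (nat_lit 0) (XT.lf (nat_lit 0) (nat_lit 5363132066) (nat_lit 152) (nat_lit 4255037834) (nat_lit 228) (nat_lit 3605030474) (nat_lit 39) (nat_lit 5) (nat_lit 41) (nat_lit 5) (nat_lit 42)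 (nat_lit 5) (nat_lit 325) (nat_lit 299) (nat_lit 276)) (XT.nd (nat_lit 78) (nat_lit 152) (nat_lit 0) (XT.lf (nat_lit 0) (nat_lit 1567167354) (nat_lit 228) (nat_lit 9909860788) (nat_lit 76) (nat_lit 2414512191) (nat_lit 36) (nat_lit 5) (nat_lit 39) (nat_lit 5) (nat_lit 37) (nat_lit 5) (nat_lit 326) (nat_lit 299) (nat_lit 275)) (XT.lf (nat_lit 0) (nat_lit 2142116924) (nat_lit 152) (nat_lit 4984002736) (nat_lit 228) (nat_lit 7479419502) (nat_lit 34) (nat_lit 5) (nat_lit 36) (nat_lit 5) (nat_lit 37) (nat_lit 5) (nat_lit 327) (nat_lit 299) (nat_lit 274))))) (XT.nd (nat_lit 234) (nat_lit 304) (nat_lit 0) (XT.nd (nat_lit 78) (nat_lit 380) (nat_lit 0) (XT.lf (nat_lit 0) (nat_lit 13196131009) (nat_lit 228) (nat_lit 122440539) (nat_lit 76) (nat_lit 2054871693) (nat_lit 34) (nat_lit 5) (nat_lit 37) (nat_lit 5) (nat_lit 35) (nat_lit 4) (nat_lit 328) (nat_lit 299) (nat_lit 273)) (XT.nd (nat_lit 78)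 (nat_lit 152) (nat_lit 0) (XT.lf (nat_lit 0) (nat_lit 3599799590) (nat_lit 228) (nat_lit 2919157342) (nat_lit 76) (nat_lit 9672921376) (nat_lit 31) (nat_lit 5) (nat_lit 34) (nat_lit 5) (nat_lit 32) (nat_lit 5) (nat_lit 329) (nat_lit 299) (nat_lit 272)) (XT.lf (nat_lit 0) (nat_lit 9823015640) (nat_lit 228) (nat_lit 6320528665) (nat_lit 76) (nat_lit 927531993) (nat_lit 29) (nat_lit 5) (nat_lit 32) (nat_lit 5) (nat_lit 30) (nat_lit 4) (nat_lit 330) (nat_lit 299) (nat_lit 271)))) (XT.nd (nat_lit 78) (nat_lit 228) (nat_lit 0) (XT.lf (nat_lit 0) (nat_lit 7524623955) (nat_lit 76) (nat_lit 9177469039) (nat_lit 152) (nat_lit 1310694412) (nat_lit 28) (nat_lit 5) (nat_lit 29) (nat_lit 5) (nat_lit 30) (nat_lit 4) (nat_lit 331) (nat_lit 299) (nat_lit 270)) (XT.nd (nat_lit 78) (nat_lit 0) (nat_lit 0) (XT.lf (nat_lit 0) (nat_lit 3509149090) (nat_lit 152) (nat_lit 1478780657) (nat_lit 228) (nat_lit 14035513741)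 (nat_lit 25) (nat_lit 5) (nat_lit 27) (nat_lit 5) (nat_lit 28) (nat_lit 5) (nat_lit 332) (nat_lit 299) (nat_lit 269)) (XT.lf (nat_lit 0) (nat_lit 11924846297) (nat_lit 228) (nat_lit 1433005267) (nat_lit 76) (nat_lit 6747073278) (nat_lit 25) (nat_lit 5) (nat_lit 28) (nat_lit 5) (nat_lit 26) (nat_lit 4) (nat_lit 333) (nat_lit 299) (nat_lit 268)))))) (XT.nd (nat_lit 468) (nat_lit 380) (nat_lit 0) (XT.nd (nat_lit 234) (nat_lit 152) (nat_lit 0) (XT.nd (nat_lit 78) (nat_lit 304) (nat_lit 0) (XT.lf (nat_lit 0) (nat_lit 14016866485) (nat_lit 76) (nat_lit 5539266810) (nat_lit 152) (nat_lit 1709879132) (nat_lit 24) (nat_lit 5) (nat_lit 25) (nat_lit 5) (nat_lit 26) (nat_lit 4) (nat_lit 334) (nat_lit 299) (nat_lit 267)) (XT.nd (nat_lit 78) (nat_lit 76) (nat_lit 0) (XT.lf (nat_lit 0) (nat_lit 5210029805) (nat_lit 228) (nat_lit 14322375324) (nat_lit 76) (nat_lit 2978462354) (nat_lit 21) (nat_lit 5) (nat_lit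 24) (nat_lit 5) (nat_lit 22) (nat_lit 4) (nat_lit 335) (nat_lit 299) (nat_lit 266)) (XT.lf (nat_lit 0) (nat_lit 1005766900) (nat_lit 76) (nat_lit 11758781663) (nat_lit 152) (nat_lit 11082362522) (nat_lit 20) (nat_lit 5) (nat_lit 21) (nat_lit 5) (nat_lit 22) (nat_lit 4) (nat_lit 336) (nat_lit 299) (nat_lit 265)))) (XT.nd (nat_lit 78) (nat_lit 152) (nat_lit 0) (XT.lf (nat_lit 0) (nat_lit 17906003081) (nat_lit 76) (nat_lit 3174207770) (nat_lit 152) (nat_lit 4201832512) (nat_lit 20) (nat_lit 5) (nat_lit 21) (nat_lit 5) (nat_lit 22) (nat_lit 4) (nat_lit 337) (nat_lit 299) (nat_lit 264)) (XT.nd (nat_lit 78) (nat_lit 0) (nat_lit 0) (XT.lf (nat_lit 0) (nat_lit 3282947268) (nat_lit 152) (nat_lit 17502740295) (nat_lit 76) (nat_lit 6035958919) (nat_lit 18) (nat_lit 5) (nat_lit 20) (nat_lit 5) (nat_lit 19) (nat_lit 4) (nat_lit 338) (nat_lit 299) (nat_lit 263)) (XT.lf (nat_lit 0) (nat_lit 11321192918)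 (nat_lit 152) (nat_lit 1144259234) (nat_lit 76) (nat_lit 16010462972) (nat_lit 18) (nat_lit 5) (nat_lit 20) (nat_lit 5) (nat_lit 19) (nat_lit 4) (nat_lit 339) (nat_lit 299) (nat_lit 262))))) (XT.nd (nat_lit 234) (nat_lit 152) (nat_lit 0) (XT.nd (nat_lit 78) (nat_lit 152) (nat_lit 0) (XT.lf (nat_lit 0) (nat_lit 16923224904) (nat_lit 76) (nat_lit 3265540457) (nat_lit 152) (nat_lit 10064480021) (nat_lit 17) (nat_lit 5) (nat_lit 18) (nat_lit 5) (nat_lit 19) (nat_lit 4) (nat_lit 340) (nat_lit 299) (nat_lit 261)) (XT.nd (nat_lit 78) (nat_lit 76) (nat_lit 0) (XT.lf (nat_lit 0) (nat_lit 4197089499) (nat_lit 76) (nat_lit 25683345601) (nat_lit 76) (nat_lit 2286623390) (nat_lit 16) (nat_lit 4) (nat_lit 17) (nat_lit 5) (nat_lit 17) (nat_lit 4) (nat_lit 341) (nat_lit 299) (nat_lit 260)) (XT.lf (nat_lit 0) (nat_lit 6135932821) (nat_lit 152) (nat_lit 10908725035) (nat_lit 76) (nat_lit 17173666716) (nat_lit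 15) (nat_lit 5) (nat_lit 17) (nat_lit 5) (nat_lit 16) (nat_lit 4) (nat_lit 342) (nat_lit 299) (nat_lit 259)))) (XT.nd (nat_lit 78) (nat_lit 76) (nat_lit 0) (XT.lf (nat_lit 0) (nat_lit 7597568848) (nat_lit 76) (nat_lit 7606775220) (nat_lit 152) (nat_lit 21224890770) (nat_lit 14) (nat_lit 5) (nat_lit 15) (nat_lit 5) (nat_lit 16) (nat_lit 4) (nat_lit 343) (nat_lit 299) (nat_lit 258)) (XT.nd (nat_lit 78) (nat_lit 76) (nat_lit 0) (XT.lf (nat_lit 0) (nat_lit 25166505234) (nat_lit 152) (nat_lit 10998538197) (nat_lit 0) (nat_lit 2643584082) (nat_lit 14) (nat_lit 5) (nat_lit 16) (nat_lit 4) (nat_lit 14) (nat_lit 4) (nat_lit 344) (nat_lit 299) (nat_lit 257)) (XT.lf (nat_lit 0) (nat_lit 8285723632) (nat_lit 76) (nat_lit 27837137666) (nat_lit 76) (nat_lit 5245670908) (nat_lit 13) (nat_lit 4) (nat_lit 14) (nat_lit 5) (nat_lit 14) (nat_lit 4) (nat_lit 345) (nat_lit 299) (nat_lit 256))))))))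
noncomputable def xc46 : XT := (XT.nd (nat_lit 1716) (nat_lit 152) (nat_lit 0) (XT.nd (nat_lit 858) (nat_lit 228) (nat_lit 0) (XT.nd (nat_lit 390) (nat_lit 228) (nat_lit 0) (XT.nd (nat_lit 156) (nat_lit 76) (nat_lit 0) (XT.nd (nat_lit 78) (nat_lit 76) (nat_lit 0) (XT.lf (nat_lit 0) (nat_lit 3836306822) (nat_lit 152) (nat_lit 14790505924) (nat_lit 76) (nat_lit 25496643970) (nat_lit 12) (nat_lit 5) (nat_lit 14) (nat_lit 5) (nat_lit 13) (nat_lit 4) (nat_lit 346) (nat_lit 299) (nat_lit 255)) (XT.lf (nat_lit 0) (nat_lit 4933219451) (nat_lit 76) (nat_lit 8553083558) (nat_lit 152) (nat_lit 33606928019) (nat_lit 11) (nat_lit 5) (nat_lit 12) (nat_lit 5) (nat_lit 13) (nat_lit 4) (nat_lit 347) (nat_lit 299) (nat_lit 254))) (XT.nd (nat_lit 78) (nat_lit 76) (nat_lit 0) (XT.lf (nat_lit 0) (nat_lit 24154048421) (nat_lit 152) (nat_lit 23664138836) (nat_lit 0) (nat_lit 2470128962) (nat_lit 11) (nat_lit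 5) (nat_lit 13) (nat_lit 4) (nat_lit 11) (nat_lit 4) (nat_lit 348) (nat_lit 299) (nat_lit 253)) (XT.nd (nat_lit 78) (nat_lit 76) (nat_lit 0) (XT.lf (nat_lit 0) (nat_lit 35770879412) (nat_lit 152) (nat_lit 3924384626) (nat_lit 0) (nat_lit 14038976080) (nat_lit 11) (nat_lit 5) (nat_lit 13) (nat_lit 4) (nat_lit 11) (nat_lit 4) (nat_lit 349) (nat_lit 299) (nat_lit 252)) (XT.lf (nat_lit 0) (nat_lit 17882103977) (nat_lit 76) (nat_lit 30669184638) (nat_lit 76) (nat_lit 8892851794) (nat_lit 10) (nat_lit 4) (nat_lit 11) (nat_lit 5) (nat_lit 11) (nat_lit 4) (nat_lit 350) (nat_lit 299) (nat_lit 251))))) (XT.nd (nat_lit 234) (nat_lit 76) (nat_lit 0) (XT.nd (nat_lit 78) (nat_lit 76) (nat_lit 0) (XT.lf (nat_lit 0) (nat_lit 900257776) (nat_lit 152) (nat_lit 19971942839) (nat_lit 76) (nat_lit 40576645808) (nat_lit 9) (nat_lit 5) (nat_lit 11) (nat_lit 5) (nat_lit 10) (nat_lit 4) (nat_lit 351) (nat_lit 299)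 (nat_lit 250)) (XT.nd (nat_lit 78) (nat_lit 0) (nat_lit 0) (XT.lf (nat_lit 0) (nat_lit 990676884) (nat_lit 76) (nat_lit 10153830096) (nat_lit 152) (nat_lit 54623181547) (nat_lit 8) (nat_lit 5) (nat_lit 9) (nat_lit 5) (nat_lit 10) (nat_lit 4) (nat_lit 352) (nat_lit 299) (nat_lit 249)) (XT.lf (nat_lit 0) (nat_lit 22545029350) (nat_lit 152) (nat_lit 46173564708) (nat_lit 0) (nat_lit 1696617916) (nat_lit 8) (nat_lit 5) (nat_lit 10) (nat_lit 4) (nat_lit 8) (nat_lit 4) (nat_lit 353) (nat_lit 299) (nat_lit 248)))) (XT.nd (nat_lit 78) (nat_lit 76) (nat_lit 0) (XT.lf (nat_lit 0) (nat_lit 34992629757) (nat_lit 152) (nat_lit 26322049172) (nat_lit 0) (nat_lit 14113116402) (nat_lit 8) (nat_lit 5) (nat_lit 10) (nat_lit 4) (nat_lit 8) (nat_lit 4) (nat_lit 354) (nat_lit 299) (nat_lit 247)) (XT.nd (nat_lit 78) (nat_lit 76) (nat_lit 0) (XT.lf (nat_lit 0) (nat_lit 48402542016) (nat_lit 152) (nat_lit 4946296682)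 (nat_lit 0) (nat_lit 27494230585) (nat_lit 8) (nat_lit 5) (nat_lit 10) (nat_lit 4) (nat_lit 8) (nat_lit 4) (nat_lit 355) (nat_lit 299) (nat_lit 246)) (XT.lf (nat_lit 0) (nat_lit 18678182371) (nat_lit 76) (nat_lit 44467668674) (nat_lit 76) (nat_lit 23532692359) (nat_lit 7) (nat_lit 4) (nat_lit 8) (nat_lit 5) (nat_lit 8) (nat_lit 4) (nat_lit 356) (nat_lit 299) (nat_lit 245)))))) (XT.nd (nat_lit 390) (nat_lit 76) (nat_lit 0) (XT.nd (nat_lit 156) (nat_lit 152) (nat_lit 0) (XT.nd (nat_lit 78) (nat_lit 0) (nat_lit 0) (XT.lf (nat_lit 0) (nat_lit 44312668969) (nat_lit 76) (nat_lit 34812516156) (nat_lit 76) (nat_lit 13852850132) (nat_lit 7) (nat_lit 4) (nat_lit 8) (nat_lit 5) (nat_lit 8) (nat_lit 4) (nat_lit 357) (nat_lit 299) (nat_lit 244)) (XT.lf (nat_lit 0) (nat_lit 71945524272) (nat_lit 76) (nat_lit 24409933352) (nat_lit 76) (nat_lit 3427406488) (nat_lit 7) (nat_lit 4) (nat_lit 8) (nat_lit 5)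 (nat_lit 8) (nat_lit 4) (nat_lit 358) (nat_lit 299) (nat_lit 243))) (XT.nd (nat_lit 78) (nat_lit 76) (nat_lit 0) (XT.lf (nat_lit 0) (nat_lit 7555596828) (nat_lit 152) (nat_lit 5514720810) (nat_lit 76) (nat_lit 94056944017) (nat_lit 6) (nat_lit 5) (nat_lit 8) (nat_lit 5) (nat_lit 7) (nat_lit 4) (nat_lit 359) (nat_lit 299) (nat_lit 242)) (XT.nd (nat_lit 78) (nat_lit 0) (nat_lit 0) (XT.lf (nat_lit 0) (nat_lit 19101573063) (nat_lit 76) (nat_lit 471532721) (nat_lit 152) (nat_lit 95469504529) (nat_lit 5) (nat_lit 5) (nat_lit 6) (nat_lit 5) (nat_lit 7) (nat_lit 4) (nat_lit 360) (nat_lit 299) (nat_lit 241)) (XT.lf (nat_lit 0) (nat_lit 32831600536) (nat_lit 152) (nat_lit 77953480075) (nat_lit 0) (nat_lit 12792132471) (nat_lit 5) (nat_lit 5) (nat_lit 7) (nat_lit 4) (nat_lit 5) (nat_lit 4) (nat_lit 361) (nat_lit 299) (nat_lit 240))))) (XT.nd (nat_lit 234) (nat_lit 76) (nat_lit 0) (XT.nd (nat_lit 78)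 (nat_lit 0) (nat_lit 0) (XT.lf (nat_lit 0) (nat_lit 47137309862) (nat_lit 152) (nat_lit 58576113969) (nat_lit 0) (nat_lit 27081838559) (nat_lit 5) (nat_lit 5) (nat_lit 7) (nat_lit 4) (nat_lit 5) (nat_lit 4) (nat_lit 362) (nat_lit 299) (nat_lit 239)) (XT.nd (nat_lit 78) (nat_lit 0) (nat_lit 0) (XT.lf (nat_lit 0) (nat_lit 62567646389) (nat_lit 152) (nat_lit 37686748150) (nat_lit 0) (nat_lit 42497357272) (nat_lit 5) (nat_lit 5) (nat_lit 7) (nat_lit 4) (nat_lit 5) (nat_lit 4) (nat_lit 363) (nat_lit 299) (nat_lit 238)) (XT.lf (nat_lit 0) (nat_lit 79214049148) (nat_lit 152) (nat_lit 15161593783) (nat_lit 0) (nat_lit 59130039833) (nat_lit 5) (nat_lit 5) (nat_lit 7) (nat_lit 4) (nat_lit 5) (nat_lit 4) (nat_lit 364) (nat_lit 299) (nat_lit 237)))) (XT.nd (nat_lit 78) (nat_lit 0) (nat_lit 0) (XT.lf (nat_lit 0) (nat_lit 9434804182) (nat_lit 76) (nat_lit 87887663040) (nat_lit 76) (nat_lit 67790949839)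 (nat_lit 4) (nat_lit 4) (nat_lit 5) (nat_lit 5) (nat_lit 5) (nat_lit 4) (nat_lit 365) (nat_lit 299) (nat_lit 236)) (XT.nd (nat_lit 78) (nat_lit 0) (nat_lit 0) (XT.lf (nat_lit 0) (nat_lit 36509011105) (nat_lit 76) (nat_lit 80618422519) (nat_lit 76) (nat_lit 60509946459) (nat_lit 4) (nat_lit 4) (nat_lit 5) (nat_lit 5) (nat_lit 5) (nat_lit 4) (nat_lit 366) (nat_lit 299) (nat_lit 235)) (XT.lf (nat_lit 0) (nat_lit 65720155967) (nat_lit 76) (nat_lit 72781613312) (nat_lit 76) (nat_lit 52662245718) (nat_lit 4) (nat_lit 4) (nat_lit 5) (nat_lit 5) (nat_lit 5) (nat_lit 4) (nat_lit 367) (nat_lit 299) (nat_lit 234))))))) (XT.nd (nat_lit 858) (nat_lit 0) (nat_lit 0) (XT.nd (nat_lit 390) (nat_lit 152) (nat_lit 0) (XT.nd (nat_lit 156) (nat_lit 0) (nat_lit 0) (XT.nd (nat_lit 78) (nat_lit 0) (nat_lit 0) (XT.lf (nat_lit 0) (nat_lit 97241341849) (nat_lit 76) (nat_lit 64330795071) (nat_lit 76) (nat_lit 44201342721)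 (nat_lit 4) (nat_lit 4) (nat_lit 5) (nat_lit 5) (nat_lit 5) (nat_lit 4) (nat_lit 368) (nat_lit 299) (nat_lit 233)) (XT.lf (nat_lit 0) (nat_lit 131259360964) (nat_lit 76) (nat_lit 55215888871) (nat_lit 76) (nat_lit 35077098785) (nat_lit 4) (nat_lit 4) (nat_lit 5) (nat_lit 5) (nat_lit 5) (nat_lit 4) (nat_lit 369) (nat_lit 299) (nat_lit 232))) (XT.nd (nat_lit 78) (nat_lit 0) (nat_lit 0) (XT.lf (nat_lit 0) (nat_lit 167975801573) (nat_lit 76) (nat_lit 45382880453) (nat_lit 76) (nat_lit 25235444316) (nat_lit 4) (nat_lit 4) (nat_lit 5) (nat_lit 5) (nat_lit 5) (nat_lit 4) (nat_lit 370) (nat_lit 299) (nat_lit 231)) (XT.nd (nat_lit 78) (nat_lit 0) (nat_lit 0) (XT.lf (nat_lit 0) (nat_lit 207608242582) (nat_lit 76) (nat_lit 34773500139) (nat_lit 76) (nat_lit 14618058398) (nat_lit 4) (nat_lit 4) (nat_lit 5) (nat_lit 5) (nat_lit 5) (nat_lit 4) (nat_lit 371) (nat_lit 299) (nat_lit 230)) (XT.lf (nat_lit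 0) (nat_lit 250391542903) (nat_lit 76) (nat_lit 23324877527) (nat_lit 76) (nat_lit 3162023190) (nat_lit 4) (nat_lit 4) (nat_lit 5) (nat_lit 5) (nat_lit 5) (nat_lit 4) (nat_lit 372) (nat_lit 299) (nat_lit 229))))) (XT.nd (nat_lit 234) (nat_lit 0) (nat_lit 0) (XT.nd (nat_lit 78) (nat_lit 76) (nat_lit 0) (XT.lf (nat_lit 0) (nat_lit 8906073900) (nat_lit 152) (nat_lit 1912266354) (nat_lit 76) (nat_lit 287522330632) (nat_lit 3) (nat_lit 5) (nat_lit 5) (nat_lit 5) (nat_lit 4) (nat_lit 4) (nat_lit 373) (nat_lit 299) (nat_lit 228)) (XT.nd (nat_lit 78) (nat_lit 0) (nat_lit 0) (XT.lf (nat_lit 0) (nat_lit 22266713324) (nat_lit 152) (nat_lit 296177273536) (nat_lit 0) (nat_lit 3051405745) (nat_lit 2) (nat_lit 5) (nat_lit 4) (nat_lit 4) (nat_lit 2) (nat_lit 4) (nat_lit 374) (nat_lit 299) (nat_lit 227)) (XT.lf (nat_lit 0) (nat_lit 36903841936) (nat_lit 152) (nat_lit 291905339790) (nat_lit 0) (nat_lit 17682930207)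 (nat_lit 2) (nat_lit 5) (nat_lit 4) (nat_lit 4) (nat_lit 2) (nat_lit 4) (nat_lit 375) (nat_lit 299) (nat_lit 226)))) (XT.nd (nat_lit 78) (nat_lit 0) (nat_lit 0) (XT.lf (nat_lit 0) (nat_lit 52703945039) (nat_lit 152) (nat_lit 287307180921) (nat_lit 0) (nat_lit 33477844282) (nat_lit 2) (nat_lit 5) (nat_lit 4) (nat_lit 4) (nat_lit 2) (nat_lit 4) (nat_lit 376) (nat_lit 299) (nat_lit 225)) (XT.nd (nat_lit 78) (nat_lit 0) (nat_lit 0) (XT.lf (nat_lit 0) (nat_lit 69760652873) (nat_lit 152) (nat_lit 282355548579) (nat_lit 0) (nat_lit 50529747461) (nat_lit 2) (nat_lit 5) (nat_lit 4) (nat_lit 4) (nat_lit 2) (nat_lit 4) (nat_lit 377) (nat_lit 299) (nat_lit 224)) (XT.lf (nat_lit 0) (nat_lit 88175042225) (nat_lit 152) (nat_lit 277021099757) (nat_lit 0) (nat_lit 68939688058) (nat_lit 2) (nat_lit 5) (nat_lit 4) (nat_lit 4) (nat_lit 2) (nat_lit 4) (nat_lit 378) (nat_lit 299) (nat_lit 223)))))) (XT.nd (nat_lit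 468) (nat_lit 0) (nat_lit 0) (XT.nd (nat_lit 234) (nat_lit 0) (nat_lit 0) (XT.nd (nat_lit 78) (nat_lit 0) (nat_lit 0) (XT.lf (nat_lit 0) (nat_lit 108056235403) (nat_lit 152) (nat_lit 271272222908) (nat_lit 0) (nat_lit 88816762018) (nat_lit 2) (nat_lit 5) (nat_lit 4) (nat_lit 4) (nat_lit 2) (nat_lit 4) (nat_lit 379) (nat_lit 299) (nat_lit 222)) (XT.nd (nat_lit 78) (nat_lit 0) (nat_lit 0) (XT.lf (nat_lit 0) (nat_lit 129522046884) (nat_lit 152) (nat_lit 265074850612) (nat_lit 0) (nat_lit 110278759409) (nat_lit 2) (nat_lit 5) (nat_lit 4) (nat_lit 4) (nat_lit 2) (nat_lit 4) (nat_lit 380) (nat_lit 299) (nat_lit 221)) (XT.lf (nat_lit 0) (nat_lit 152699681477) (nat_lit 152) (nat_lit 258392257701) (nat_lit 0) (nat_lit 133452862437) (nat_lit 2) (nat_lit 5) (nat_lit 4) (nat_lit 4) (nat_lit 2) (nat_lit 4) (nat_lit 381) (nat_lit 299) (nat_lit 220)))) (XT.nd (nat_lit 78) (nat_lit 0) (nat_lit 0) (XT.lf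 (nat_lit 0) (nat_lit 177726488129) (nat_lit 152) (nat_lit 251184843625) (nat_lit 0) (nat_lit 158476399121) (nat_lit 2) (nat_lit 5) (nat_lit 4) (nat_lit 4) (nat_lit 2) (nat_lit 4) (nat_lit 382) (nat_lit 299) (nat_lit 219)) (XT.nd (nat_lit 78) (nat_lit 0) (nat_lit 0) (XT.lf (nat_lit 0) (nat_lit 204750773841) (nat_lit 152) (nat_lit 243409897780) (nat_lit 0) (nat_lit 185497657085) (nat_lit 2) (nat_lit 5) (nat_lit 4) (nat_lit 4) (nat_lit 2) (nat_lit 4) (nat_lit 383) (nat_lit 299) (nat_lit 218)) (XT.lf (nat_lit 0) (nat_lit 233932682529) (nat_lit 152) (nat_lit 235021346415) (nat_lit 0) (nat_lit 214676762302) (nat_lit 2) (nat_lit 5) (nat_lit 4) (nat_lit 4) (nat_lit 2) (nat_lit 4) (nat_lit 384) (nat_lit 299) (nat_lit 217))))) (XT.nd (nat_lit 234) (nat_lit 0) (nat_lit 0) (XT.nd (nat_lit 78) (nat_lit 0) (nat_lit 0) (XT.lf (nat_lit 0) (nat_lit 265445144022) (nat_lit 152) (nat_lit 225969479594) (nat_lit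 0) (nat_lit 246186627990) (nat_lit 2) (nat_lit 5) (nat_lit 4) (nat_lit 4) (nat_lit 2) (nat_lit 4) (nat_lit 385) (nat_lit 299) (nat_lit 216)) (XT.nd (nat_lit 78) (nat_lit 0) (nat_lit 0) (XT.lf (nat_lit 0) (nat_lit 299474898832) (nat_lit 152) (nat_lit 216200656626) (nat_lit 0) (nat_lit 280213979276) (nat_lit 2) (nat_lit 5) (nat_lit 4) (nat_lit 4) (nat_lit 2) (nat_lit 4) (nat_lit 386) (nat_lit 299) (nat_lit 215)) (XT.lf (nat_lit 0) (nat_lit 336223604766) (nat_lit 152) (nat_lit 205656988190) (nat_lit 0) (nat_lit 316960459725) (nat_lit 2) (nat_lit 5) (nat_lit 4) (nat_lit 4) (nat_lit 2) (nat_lit 4) (nat_lit 387) (nat_lit 299) (nat_lit 214)))) (XT.nd (nat_lit 78) (nat_lit 0) (nat_lit 0) (XT.lf (nat_lit 0) (nat_lit 375909031934) (nat_lit 152) (nat_lit 194275993287) (nat_lit 0) (nat_lit 356643826258) (nat_lit 2) (nat_lit 5) (nat_lit 4) (nat_lit 4) (nat_lit 2) (nat_lit 4) (nat_lit 388) (nat_lit 299)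 (nat_lit 213)) (XT.nd (nat_lit 78) (nat_lit 0) (nat_lit 0) (XT.lf (nat_lit 0) (nat_lit 418766353236) (nat_lit 152) (nat_lit 181990228984) (nat_lit 0) (nat_lit 399499239566) (nat_lit 2) (nat_lit 5) (nat_lit 4) (nat_lit 4) (nat_lit 2) (nat_lit 4) (nat_lit 389) (nat_lit 299) (nat_lit 212)) (XT.lf (nat_lit 0) (nat_lit 465049537985) (nat_lit 152) (nat_lit 168726890753) (nat_lit 0) (nat_lit 445780657653) (nat_lit 2) (nat_lit 5) (nat_lit 4) (nat_lit 4) (nat_lit 2) (nat_lit 4) (nat_lit 390) (nat_lit 299) (nat_lit 211))))))))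
noncomputable def xc47 : XT := (XT.nd (nat_lit 41496) (nat_lit 0) (nat_lit 912) (XT.nd (nat_lit 40560) (nat_lit 0) (nat_lit 3572) (XT.nd (nat_lit 40092) (nat_lit 0) (nat_lit 8588) (XT.nd (nat_lit 39858) (nat_lit 0) (nat_lit 10716) (XT.nd (nat_lit 39780) (nat_lit 0) (nat_lit 11172) (XT.lf (nat_lit 0) (nat_lit 515032856904) (nat_lit 152) (nat_lit 154407381033) (nat_lit 0) (nat_lit 495762340774) (nat_lit 2) (nat_lit 5) (nat_lit 4) (nat_lit 4) (nat_lit 2) (nat_lit 4) (nat_lit 391) (nat_lit 299) (nat_lit 210)) (XT.lf (nat_lit 0) (nat_lit 0) (nat_lit 0) (nat_lit 0) (nat_lit 0) (nat_lit 1073741823) (nat_lit 1) (nat_lit 0) (nat_lit 1) (nat_lit 0) (nat_lit 149) (nat_lit 0) (nat_lit 300) (nat_lit 300) (nat_lit 300))) (XT.nd (nat_lit 78) (nat_lit 380) (nat_lit 0) (XT.lf (nat_lit 0) (nat_lit 4712829279) (nat_lit 76) (nat_lit 1540108305) (nat_lit 0) (nat_lit 198341433) (nat_lit 148) (nat_lit 5) (nat_lit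 149) (nat_lit 0) (nat_lit 148) (nat_lit 4) (nat_lit 301) (nat_lit 300) (nat_lit 299)) (XT.nd (nat_lit 78) (nat_lit 228) (nat_lit 0) (XT.lf (nat_lit 0) (nat_lit 2815671766) (nat_lit 152) (nat_lit 2922442063) (nat_lit 76) (nat_lit 742313123) (nat_lit 146) (nat_lit 5) (nat_lit 148) (nat_lit 5) (nat_lit 147) (nat_lit 4) (nat_lit 302) (nat_lit 300) (nat_lit 298)) (XT.lf (nat_lit 0) (nat_lit 738330541) (nat_lit 228) (nat_lit 4156127589) (nat_lit 76) (nat_lit 1635586934) (nat_lit 143) (nat_lit 5) (nat_lit 146) (nat_lit 5) (nat_lit 144) (nat_lit 5) (nat_lit 303) (nat_lit 300) (nat_lit 297))))) (XT.nd (nat_lit 234) (nat_lit 1520) (nat_lit 0) (XT.nd (nat_lit 78) (nat_lit 380) (nat_lit 0) (XT.lf (nat_lit 0) (nat_lit 1325098020) (nat_lit 228) (nat_lit 3690239306) (nat_lit 304) (nat_lit 1583817114) (nat_lit 140) (nat_lit 5) (nat_lit 143) (nat_lit 5) (nat_lit 144) (nat_lit 5) (nat_lit 304) (nat_lit 300)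 (nat_lit 296)) (XT.nd (nat_lit 78) (nat_lit 0) (nat_lit 0) (XT.lf (nat_lit 0) (nat_lit 414523722) (nat_lit 304) (nat_lit 2127331347) (nat_lit 380) (nat_lit 4146738607) (nat_lit 135) (nat_lit 5) (nat_lit 139) (nat_lit 5) (nat_lit 140) (nat_lit 5) (nat_lit 305) (nat_lit 300) (nat_lit 295)) (XT.lf (nat_lit 0) (nat_lit 6456466205) (nat_lit 304) (nat_lit 199495083) (nat_lit 380) (nat_lit 143075418) (nat_lit 135) (nat_lit 5) (nat_lit 139) (nat_lit 5) (nat_lit 140) (nat_lit 5) (nat_lit 306) (nat_lit 300) (nat_lit 294)))) (XT.nd (nat_lit 78) (nat_lit 1064) (nat_lit 0) (XT.lf (nat_lit 0) (nat_lit 3816465447) (nat_lit 456) (nat_lit 1030076937) (nat_lit 76) (nat_lit 2080780128) (nat_lit 129) (nat_lit 5) (nat_lit 135) (nat_lit 5) (nat_lit 130) (nat_lit 5) (nat_lit 307) (nat_lit 300) (nat_lit 293)) (XT.nd (nat_lit 78) (nat_lit 532) (nat_lit 0) (XT.lf (nat_lit 0) (nat_lit 747163632) (nat_lit 532) (nat_lit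 1600893578) (nat_lit 76) (nat_lit 4729658804) (nat_lit 122) (nat_lit 5) (nat_lit 129) (nat_lit 5) (nat_lit 123) (nat_lit 5) (nat_lit 308) (nat_lit 300) (nat_lit 292)) (XT.lf (nat_lit 0) (nat_lit 4595971223) (nat_lit 608) (nat_lit 2106879896) (nat_lit 76) (nat_lit 545788341) (nat_lit 115) (nat_lit 5) (nat_lit 123) (nat_lit 5) (nat_lit 116) (nat_lit 5) (nat_lit 309) (nat_lit 300) (nat_lit 291)))))) (XT.nd (nat_lit 468) (nat_lit 1824) (nat_lit 0) (XT.nd (nat_lit 234) (nat_lit 1064) (nat_lit 0) (XT.nd (nat_lit 78) (nat_lit 1444) (nat_lit 0) (XT.lf (nat_lit 0) (nat_lit 1121132567) (nat_lit 684) (nat_lit 2561356356) (nat_lit 76) (nat_lit 3758055593) (nat_lit 106) (nat_lit 5) (nat_lit 115) (nat_lit 5) (nat_lit 107) (nat_lit 5) (nat_lit 310) (nat_lit 300) (nat_lit 290)) (XT.nd (nat_lit 78) (nat_lit 760) (nat_lit 0) (XT.lf (nat_lit 0) (nat_lit 4692298989) (nat_lit 684) (nat_lit 238915795) (nat_lit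 760) (nat_lit 2723541229) (nat_lit 97) (nat_lit 5) (nat_lit 106) (nat_lit 5) (nat_lit 107) (nat_lit 5) (nat_lit 311) (nat_lit 300) (nat_lit 289)) (XT.lf (nat_lit 0) (nat_lit 1024480650) (nat_lit 760) (nat_lit 3351741615) (nat_lit 76) (nat_lit 3514331854) (nat_lit 87) (nat_lit 5) (nat_lit 97) (nat_lit 5) (nat_lit 88) (nat_lit 5) (nat_lit 312) (nat_lit 300) (nat_lit 288)))) (XT.nd (nat_lit 78) (nat_lit 684) (nat_lit 0) (XT.lf (nat_lit 0) (nat_lit 4428646902) (nat_lit 380) (nat_lit 419240434) (nat_lit 456) (nat_lit 3301951592) (nat_lit 82) (nat_lit 5) (nat_lit 87) (nat_lit 5) (nat_lit 88) (nat_lit 5) (nat_lit 313) (nat_lit 300) (nat_lit 287)) (XT.nd (nat_lit 78) (nat_lit 304) (nat_lit 0) (XT.lf (nat_lit 0) (nat_lit 474596369) (nat_lit 380) (nat_lit 4105058877) (nat_lit 76) (nat_lit 3852899093) (nat_lit 77) (nat_lit 5) (nat_lit 82) (nat_lit 5) (nat_lit 78) (nat_lit 5) (nat_lit 314) (nat_lit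 300) (nat_lit 286)) (XT.lf (nat_lit 0) (nat_lit 4227087972) (nat_lit 304) (nat_lit 119667769) (nat_lit 380) (nat_lit 4393295509) (nat_lit 73) (nat_lit 5) (nat_lit 77) (nat_lit 5) (nat_lit 78) (nat_lit 5) (nat_lit 315) (nat_lit 300) (nat_lit 285))))) (XT.nd (nat_lit 234) (nat_lit 912) (nat_lit 0) (XT.nd (nat_lit 78) (nat_lit 608) (nat_lit 0) (XT.lf (nat_lit 0) (nat_lit 4098508263) (nat_lit 304) (nat_lit 4421553405) (nat_lit 380) (nat_lit 552822536) (nat_lit 69) (nat_lit 5) (nat_lit 73) (nat_lit 5) (nat_lit 74) (nat_lit 5) (nat_lit 316) (nat_lit 300) (nat_lit 284)) (XT.nd (nat_lit 78) (nat_lit 228) (nat_lit 0) (XT.lf (nat_lit 0) (nat_lit 3421499015) (nat_lit 380) (nat_lit 5500850772) (nat_lit 76) (nat_lit 510373156) (nat_lit 64) (nat_lit 5) (nat_lit 69) (nat_lit 5) (nat_lit 65) (nat_lit 5) (nat_lit 317) (nat_lit 300) (nat_lit 283)) (XT.lf (nat_lit 0) (nat_lit 3687958422) (nat_lit 228) (nat_lit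 4027851519) (nat_lit 304) (nat_lit 2104264135) (nat_lit 61) (nat_lit 5) (nat_lit 64) (nat_lit 5) (nat_lit 65) (nat_lit 5) (nat_lit 318) (nat_lit 300) (nat_lit 282)))) (XT.nd (nat_lit 78) (nat_lit 532) (nat_lit 0) (XT.lf (nat_lit 0) (nat_lit 2028261837) (nat_lit 380) (nat_lit 6863363468) (nat_lit 76) (nat_lit 1346320803) (nat_lit 56) (nat_lit 5) (nat_lit 61) (nat_lit 5) (nat_lit 57) (nat_lit 5) (nat_lit 319) (nat_lit 300) (nat_lit 281)) (XT.nd (nat_lit 78) (nat_lit 304) (nat_lit 0) (XT.lf (nat_lit 0) (nat_lit 2916233801) (nat_lit 228) (nat_lit 3542492264) (nat_lit 304) (nat_lit 4226947394) (nat_lit 53) (nat_lit 5) (nat_lit 56) (nat_lit 5) (nat_lit 57) (nat_lit 5) (nat_lit 320) (nat_lit 300) (nat_lit 280)) (XT.lf (nat_lit 0) (nat_lit 92097415) (nat_lit 304) (nat_lit 8817191700) (nat_lit 76) (nat_lit 2259047573) (nat_lit 49) (nat_lit 5) (nat_lit 53) (nat_lit 5) (nat_lit 50) (nat_lit 5) (nat_lit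 321) (nat_lit 300) (nat_lit 279))))))) (XT.nd (nat_lit 858) (nat_lit 988) (nat_lit 0) (XT.nd (nat_lit 390) (nat_lit 912) (nat_lit 0) (XT.nd (nat_lit 156) (nat_lit 380) (nat_lit 0) (XT.nd (nat_lit 78) (nat_lit 228) (nat_lit 0) (XT.lf (nat_lit 0) (nat_lit 1551612608) (nat_lit 152) (nat_lit 3113548641) (nat_lit 228) (nat_lit 7018323681) (nat_lit 47) (nat_lit 5) (nat_lit 49) (nat_lit 5) (nat_lit 50) (nat_lit 5) (nat_lit 322) (nat_lit 300) (nat_lit 278)) (XT.lf (nat_lit 0) (nat_lit 561692568) (nat_lit 228) (nat_lit 9097102761) (nat_lit 304) (nat_lit 2578467169) (nat_lit 44) (nat_lit 5) (nat_lit 47) (nat_lit 5) (nat_lit 48) (nat_lit 5) (nat_lit 323) (nat_lit 300) (nat_lit 277))) (XT.nd (nat_lit 78) (nat_lit 304) (nat_lit 0) (XT.lf (nat_lit 0) (nat_lit 2223890738) (nat_lit 304) (nat_lit 676139913) (nat_lit 76) (nat_lit 9929803968) (nat_lit 43) (nat_lit 5) (nat_lit 47) (nat_lit 5) (nat_lit 44)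 (nat_lit 5) (nat_lit 324) (nat_lit 300) (nat_lit 276)) (XT.nd (nat_lit 78) (nat_lit 152) (nat_lit 0) (XT.lf (nat_lit 0) (nat_lit 7417277463) (nat_lit 228) (nat_lit 2221058973) (nat_lit 76) (nat_lit 3824629238) (nat_lit 41) (nat_lit 5) (nat_lit 44) (nat_lit 5) (nat_lit 42) (nat_lit 5) (nat_lit 325) (nat_lit 300) (nat_lit 275)) (XT.lf (nat_lit 0) (nat_lit 10052649785) (nat_lit 152) (nat_lit 3055281473) (nat_lit 228) (nat_lit 1034842366) (nat_lit 39) (nat_lit 5) (nat_lit 41) (nat_lit 5) (nat_lit 42) (nat_lit 5) (nat_lit 326) (nat_lit 300) (nat_lit 274))))) (XT.nd (nat_lit 234) (nat_lit 304) (nat_lit 0) (XT.nd (nat_lit 78) (nat_lit 380) (nat_lit 0) (XT.lf (nat_lit 0) (nat_lit 4343702460) (nat_lit 228) (nat_lit 6428406372) (nat_lit 76) (nat_lit 4096197178) (nat_lit 36) (nat_lit 5) (nat_lit 39) (nat_lit 5) (nat_lit 37) (nat_lit 5) (nat_lit 327) (nat_lit 300) (nat_lit 273)) (XT.nd (nat_lit 78)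 (nat_lit 228) (nat_lit 0) (XT.lf (nat_lit 0) (nat_lit 6401976153) (nat_lit 152) (nat_lit 3812845233) (nat_lit 228) (nat_lit 5431378947) (nat_lit 34) (nat_lit 5) (nat_lit 36) (nat_lit 5) (nat_lit 37) (nat_lit 5) (nat_lit 328) (nat_lit 300) (nat_lit 272)) (XT.lf (nat_lit 0) (nat_lit 180229416) (nat_lit 228) (nat_lit 12610766158) (nat_lit 76) (nat_lit 3689703009) (nat_lit 31) (nat_lit 5) (nat_lit 34) (nat_lit 5) (nat_lit 32) (nat_lit 5) (nat_lit 329) (nat_lit 300) (nat_lit 271)))) (XT.nd (nat_lit 78) (nat_lit 152) (nat_lit 0) (XT.lf (nat_lit 0) (nat_lit 657730873) (nat_lit 152) (nat_lit 5516832661) (nat_lit 228) (nat_lit 11196814385) (nat_lit 29) (nat_lit 5) (nat_lit 31) (nat_lit 5) (nat_lit 32) (nat_lit 5) (nat_lit 330) (nat_lit 300) (nat_lit 270)) (XT.nd (nat_lit 78) (nat_lit 152) (nat_lit 0) (XT.lf (nat_lit 0) (nat_lit 12796127004) (nat_lit 228) (nat_lit 3114657801) (nat_lit 76) (nat_lit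 2415214410) (nat_lit 29) (nat_lit 5) (nat_lit 32) (nat_lit 5) (nat_lit 30) (nat_lit 4) (nat_lit 331) (nat_lit 300) (nat_lit 269)) (XT.lf (nat_lit 0) (nat_lit 745799400) (nat_lit 152) (nat_lit 7683700286) (nat_lit 76) (nat_lit 10918379316) (nat_lit 27) (nat_lit 5) (nat_lit 29) (nat_lit 5) (nat_lit 28) (nat_lit 5) (nat_lit 332) (nat_lit 300) (nat_lit 268)))))) (XT.nd (nat_lit 468) (nat_lit 456) (nat_lit 0) (XT.nd (nat_lit 234) (nat_lit 228) (nat_lit 0) (XT.nd (nat_lit 78) (nat_lit 152) (nat_lit 0) (XT.lf (nat_lit 0) (nat_lit 7253914251) (nat_lit 152) (nat_lit 146432148) (nat_lit 228) (nat_lit 13043160596) (nat_lit 25) (nat_lit 5) (nat_lit 27) (nat_lit 5) (nat_lit 28) (nat_lit 5) (nat_lit 333) (nat_lit 300) (nat_lit 267)) (XT.nd (nat_lit 78) (nat_lit 76) (nat_lit 0) (XT.lf (nat_lit 0) (nat_lit 1790395633) (nat_lit 76) (nat_lit 13001605349) (nat_lit 152) (nat_lit 6824601296) (nat_lit 24) (nat_lit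 5) (nat_lit 25) (nat_lit 5) (nat_lit 26) (nat_lit 4) (nat_lit 334) (nat_lit 300) (nat_lit 266)) (XT.lf (nat_lit 0) (nat_lit 37366926) (nat_lit 152) (nat_lit 4600811671) (nat_lit 76) (nat_lit 18238376678) (nat_lit 23) (nat_lit 5) (nat_lit 25) (nat_lit 5) (nat_lit 24) (nat_lit 5) (nat_lit 335) (nat_lit 300) (nat_lit 265)))) (XT.nd (nat_lit 78) (nat_lit 76) (nat_lit 0) (XT.lf (nat_lit 0) (nat_lit 7385018316) (nat_lit 228) (nat_lit 12340687460) (nat_lit 76) (nat_lit 4497257763) (nat_lit 21) (nat_lit 5) (nat_lit 24) (nat_lit 5) (nat_lit 22) (nat_lit 4) (nat_lit 336) (nat_lit 300) (nat_lit 264)) (XT.nd (nat_lit 78) (nat_lit 0) (nat_lit 0) (XT.lf (nat_lit 0) (nat_lit 4077789764) (nat_lit 76) (nat_lit 11382579461) (nat_lit 152) (nat_lit 10209761876) (nat_lit 20) (nat_lit 5) (nat_lit 21) (nat_lit 5) (nat_lit 22) (nat_lit 4) (nat_lit 337) (nat_lit 300) (nat_lit 263)) (XT.lf (nat_lit 0) (nat_lit 22108447690)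 (nat_lit 76) (nat_lit 2208788156) (nat_lit 152) (nat_lit 2909099809) (nat_lit 20) (nat_lit 5) (nat_lit 21) (nat_lit 5) (nat_lit 22) (nat_lit 4) (nat_lit 338) (nat_lit 300) (nat_lit 262))))) (XT.nd (nat_lit 234) (nat_lit 228) (nat_lit 0) (XT.nd (nat_lit 78) (nat_lit 76) (nat_lit 0) (XT.lf (nat_lit 0) (nat_lit 5066393186) (nat_lit 152) (nat_lit 16145776953) (nat_lit 76) (nat_lit 7678514316) (nat_lit 18) (nat_lit 5) (nat_lit 20) (nat_lit 5) (nat_lit 19) (nat_lit 4) (nat_lit 339) (nat_lit 300) (nat_lit 261)) (XT.nd (nat_lit 78) (nat_lit 0) (nat_lit 0) (XT.lf (nat_lit 0) (nat_lit 1360697669) (nat_lit 76) (nat_lit 12295592520) (nat_lit 152) (nat_lit 17025623203) (nat_lit 17) (nat_lit 5) (nat_lit 18) (nat_lit 5) (nat_lit 19) (nat_lit 4) (nat_lit 340) (nat_lit 300) (nat_lit 260)) (XT.lf (nat_lit 0) (nat_lit 20719081758) (nat_lit 76) (nat_lit 2426760847) (nat_lit 152) (nat_lit 9460003562) (nat_lit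 17) (nat_lit 5) (nat_lit 18) (nat_lit 5) (nat_lit 19) (nat_lit 4) (nat_lit 341) (nat_lit 300) (nat_lit 259)))) (XT.nd (nat_lit 78) (nat_lit 152) (nat_lit 0) (XT.lf (nat_lit 0) (nat_lit 6917019642) (nat_lit 76) (nat_lit 26649546374) (nat_lit 76) (nat_lit 1108553787) (nat_lit 16) (nat_lit 4) (nat_lit 17) (nat_lit 5) (nat_lit 17) (nat_lit 4) (nat_lit 342) (nat_lit 300) (nat_lit 258)) (XT.nd (nat_lit 78) (nat_lit 76) (nat_lit 0) (XT.lf (nat_lit 0) (nat_lit 7846658365) (nat_lit 152) (nat_lit 9533073654) (nat_lit 76) (nat_lit 19514608687) (nat_lit 15) (nat_lit 5) (nat_lit 17) (nat_lit 5) (nat_lit 16) (nat_lit 4) (nat_lit 343) (nat_lit 300) (nat_lit 257)) (XT.lf (nat_lit 0) (nat_lit 10356013214) (nat_lit 76) (nat_lit 7227747470) (nat_lit 152) (nat_lit 21701236074) (nat_lit 14) (nat_lit 5) (nat_lit 15) (nat_lit 5) (nat_lit 16) (nat_lit 4) (nat_lit 344) (nat_lit 300) (nat_lit 256))))))))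
noncomputable def xc48 : XT := (XT.nd (nat_lit 1716) (nat_lit 152) (nat_lit 0) (XT.nd (nat_lit 858) (nat_lit 304) (nat_lit 0) (XT.nd (nat_lit 390) (nat_lit 228) (nat_lit 0) (XT.nd (nat_lit 156) (nat_lit 152) (nat_lit 0) (XT.nd (nat_lit 78) (nat_lit 76) (nat_lit 0) (XT.lf (nat_lit 0) (nat_lit 28271018081) (nat_lit 152) (nat_lit 9847127740) (nat_lit 0) (nat_lit 3740220224) (nat_lit 14) (nat_lit 5) (nat_lit 16) (nat_lit 4) (nat_lit 14) (nat_lit 4) (nat_lit 345) (nat_lit 300) (nat_lit 255)) (XT.lf (nat_lit 0) (nat_lit 10891597495) (nat_lit 76) (nat_lit 29161791991) (nat_lit 76) (nat_lit 4572227325) (nat_lit 13) (nat_lit 4) (nat_lit 14) (nat_lit 5) (nat_lit 14) (nat_lit 4) (nat_lit 346) (nat_lit 300) (nat_lit 254))) (XT.nd (nat_lit 78) (nat_lit 76) (nat_lit 0) (XT.lf (nat_lit 0) (nat_lit 5122944069) (nat_lit 152) (nat_lit 14141943035) (nat_lit 76) (nat_lit 28339139403) (nat_lit 12) (nat_lit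 5) (nat_lit 14) (nat_lit 5) (nat_lit 13) (nat_lit 4) (nat_lit 347) (nat_lit 300) (nat_lit 253)) (XT.nd (nat_lit 78) (nat_lit 0) (nat_lit 0) (XT.lf (nat_lit 0) (nat_lit 7080072429) (nat_lit 76) (nat_lit 8419651411) (nat_lit 152) (nat_lit 35313943442) (nat_lit 11) (nat_lit 5) (nat_lit 12) (nat_lit 5) (nat_lit 13) (nat_lit 4) (nat_lit 348) (nat_lit 300) (nat_lit 252)) (XT.lf (nat_lit 0) (nat_lit 26963486042) (nat_lit 152) (nat_lit 23903148283) (nat_lit 0) (nat_lit 3400617059) (nat_lit 11) (nat_lit 5) (nat_lit 13) (nat_lit 4) (nat_lit 11) (nat_lit 4) (nat_lit 349) (nat_lit 300) (nat_lit 251))))) (XT.nd (nat_lit 234) (nat_lit 76) (nat_lit 0) (XT.nd (nat_lit 78) (nat_lit 152) (nat_lit 0) (XT.lf (nat_lit 0) (nat_lit 39444692124) (nat_lit 152) (nat_lit 2706741267) (nat_lit 0) (nat_lit 15840684703) (nat_lit 11) (nat_lit 5) (nat_lit 13) (nat_lit 4) (nat_lit 11) (nat_lit 4) (nat_lit 350) (nat_lit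 300) (nat_lit 250)) (XT.nd (nat_lit 78) (nat_lit 76) (nat_lit 0) (XT.lf (nat_lit 0) (nat_lit 20777705211) (nat_lit 76) (nat_lit 32432543429) (nat_lit 76) (nat_lit 8790444863) (nat_lit 10) (nat_lit 4) (nat_lit 11) (nat_lit 5) (nat_lit 11) (nat_lit 4) (nat_lit 351) (nat_lit 300) (nat_lit 249)) (XT.lf (nat_lit 0) (nat_lit 1701711054) (nat_lit 152) (nat_lit 20188860482) (nat_lit 76) (nat_lit 44437503479) (nat_lit 9) (nat_lit 5) (nat_lit 11) (nat_lit 5) (nat_lit 10) (nat_lit 4) (nat_lit 352) (nat_lit 300) (nat_lit 248)))) (XT.nd (nat_lit 78) (nat_lit 0) (nat_lit 0) (XT.lf (nat_lit 0) (nat_lit 2390759292) (nat_lit 76) (nat_lit 10341330685) (nat_lit 152) (nat_lit 58262020391) (nat_lit 8) (nat_lit 5) (nat_lit 9) (nat_lit 5) (nat_lit 10) (nat_lit 4) (nat_lit 353) (nat_lit 300) (nat_lit 247)) (XT.nd (nat_lit 78) (nat_lit 0) (nat_lit 0) (XT.lf (nat_lit 0) (nat_lit 25002129298) (nat_lit 152) (nat_lit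 48621091987) (nat_lit 0) (nat_lit 2392354878) (nat_lit 8) (nat_lit 5) (nat_lit 10) (nat_lit 4) (nat_lit 8) (nat_lit 4) (nat_lit 354) (nat_lit 300) (nat_lit 246)) (XT.lf (nat_lit 0) (nat_lit 38397130508) (nat_lit 152) (nat_lit 27273778016) (nat_lit 0) (nat_lit 15760691203) (nat_lit 8) (nat_lit 5) (nat_lit 10) (nat_lit 4) (nat_lit 8) (nat_lit 4) (nat_lit 355) (nat_lit 300) (nat_lit 245)))))) (XT.nd (nat_lit 390) (nat_lit 152) (nat_lit 0) (XT.nd (nat_lit 156) (nat_lit 76) (nat_lit 0) (XT.nd (nat_lit 78) (nat_lit 76) (nat_lit 0) (XT.lf (nat_lit 0) (nat_lit 52835014239) (nat_lit 152) (nat_lit 4273449407) (nat_lit 0) (nat_lit 30173885226) (nat_lit 8) (nat_lit 5) (nat_lit 10) (nat_lit 4) (nat_lit 8) (nat_lit 4) (nat_lit 356) (nat_lit 300) (nat_lit 244)) (XT.lf (nat_lit 0) (nat_lit 21194550046) (nat_lit 76) (nat_lit 47537694598) (nat_lit 76) (nat_lit 24853704744) (nat_lit 7) (nat_lit 4) (nat_lit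 8) (nat_lit 5) (nat_lit 8) (nat_lit 4) (nat_lit 357) (nat_lit 300) (nat_lit 243))) (XT.nd (nat_lit 78) (nat_lit 76) (nat_lit 0) (XT.lf (nat_lit 0) (nat_lit 48804083490) (nat_lit 76) (nat_lit 37146232661) (nat_lit 76) (nat_lit 14441075362) (nat_lit 7) (nat_lit 4) (nat_lit 8) (nat_lit 5) (nat_lit 8) (nat_lit 4) (nat_lit 358) (nat_lit 300) (nat_lit 242)) (XT.nd (nat_lit 78) (nat_lit 76) (nat_lit 0) (XT.lf (nat_lit 0) (nat_lit 78577463440) (nat_lit 76) (nat_lit 25944871736) (nat_lit 76) (nat_lit 3220114950) (nat_lit 7) (nat_lit 4) (nat_lit 8) (nat_lit 5) (nat_lit 8) (nat_lit 4) (nat_lit 359) (nat_lit 300) (nat_lit 241)) (XT.lf (nat_lit 0) (nat_lit 8591594167) (nat_lit 152) (nat_lit 5130136414) (nat_lit 76) (nat_lit 101954027765) (nat_lit 6) (nat_lit 5) (nat_lit 8) (nat_lit 5) (nat_lit 7) (nat_lit 4) (nat_lit 360) (nat_lit 300) (nat_lit 240))))) (XT.nd (nat_lit 234) (nat_lit 76) (nat_lit 0)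 (XT.nd (nat_lit 78) (nat_lit 0) (nat_lit 0) (XT.lf (nat_lit 0) (nat_lit 21419574356) (nat_lit 76) (nat_lit 131295016) (nat_lit 152) (nat_lit 102674455157) (nat_lit 5) (nat_lit 5) (nat_lit 6) (nat_lit 5) (nat_lit 7) (nat_lit 4) (nat_lit 361) (nat_lit 300) (nat_lit 239)) (XT.nd (nat_lit 78) (nat_lit 0) (nat_lit 0) (XT.lf (nat_lit 0) (nat_lit 35844995380) (nat_lit 152) (nat_lit 83444694557) (nat_lit 0) (nat_lit 14154265320) (nat_lit 5) (nat_lit 5) (nat_lit 7) (nat_lit 4) (nat_lit 5) (nat_lit 4) (nat_lit 362) (nat_lit 300) (nat_lit 238)) (XT.lf (nat_lit 0) (nat_lit 51266504652) (nat_lit 152) (nat_lit 62572329083) (nat_lit 0) (nat_lit 29562054395) (nat_lit 5) (nat_lit 5) (nat_lit 7) (nat_lit 4) (nat_lit 5) (nat_lit 4) (nat_lit 363) (nat_lit 300) (nat_lit 237)))) (XT.nd (nat_lit 78) (nat_lit 76) (nat_lit 0) (XT.lf (nat_lit 0) (nat_lit 67904734027) (nat_lit 152) (nat_lit 40062915777) (nat_lit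 0) (nat_lit 46187579883) (nat_lit 5) (nat_lit 5) (nat_lit 7) (nat_lit 4) (nat_lit 5) (nat_lit 4) (nat_lit 364) (nat_lit 300) (nat_lit 236)) (XT.nd (nat_lit 78) (nat_lit 76) (nat_lit 0) (XT.lf (nat_lit 0) (nat_lit 85858280420) (nat_lit 152) (nat_lit 15783065522) (nat_lit 0) (nat_lit 64129363417) (nat_lit 5) (nat_lit 5) (nat_lit 7) (nat_lit 4) (nat_lit 5) (nat_lit 4) (nat_lit 365) (nat_lit 300) (nat_lit 235)) (XT.lf (nat_lit 0) (nat_lit 10755340334) (nat_lit 76) (nat_lit 94646115886) (nat_lit 76) (nat_lit 72906307348) (nat_lit 4) (nat_lit 4) (nat_lit 5) (nat_lit 5) (nat_lit 5) (nat_lit 4) (nat_lit 366) (nat_lit 300) (nat_lit 234))))))) (XT.nd (nat_lit 858) (nat_lit 0) (nat_lit 0) (XT.nd (nat_lit 390) (nat_lit 152) (nat_lit 0) (XT.nd (nat_lit 156) (nat_lit 0) (nat_lit 0) (XT.nd (nat_lit 78) (nat_lit 0) (nat_lit 0) (XT.lf (nat_lit 0) (nat_lit 39953576269) (nat_lit 76) (nat_lit 86815525766)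 (nat_lit 76) (nat_lit 65065632474) (nat_lit 4) (nat_lit 4) (nat_lit 5) (nat_lit 5) (nat_lit 5) (nat_lit 4) (nat_lit 367) (nat_lit 300) (nat_lit 233)) (XT.lf (nat_lit 0) (nat_lit 71462809440) (nat_lit 76) (nat_lit 78370465939) (nat_lit 76) (nat_lit 56611234910) (nat_lit 4) (nat_lit 4) (nat_lit 5) (nat_lit 5) (nat_lit 5) (nat_lit 4) (nat_lit 368) (nat_lit 300) (nat_lit 232))) (XT.nd (nat_lit 78) (nat_lit 0) (nat_lit 0) (XT.lf (nat_lit 0) (nat_lit 105469761230) (nat_lit 76) (nat_lit 69260891603) (nat_lit 76) (nat_lit 47493014523) (nat_lit 4) (nat_lit 4) (nat_lit 5) (nat_lit 5) (nat_lit 5) (nat_lit 4) (nat_lit 369) (nat_lit 300) (nat_lit 231)) (XT.nd (nat_lit 78) (nat_lit 0) (nat_lit 0) (XT.lf (nat_lit 0) (nat_lit 142175954316) (nat_lit 76) (nat_lit 59432820098) (nat_lit 76) (nat_lit 37656937414) (nat_lit 4) (nat_lit 4) (nat_lit 5) (nat_lit 5) (nat_lit 5) (nat_lit 4) (nat_lit 370) (nat_lit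 300) (nat_lit 230)) (XT.lf (nat_lit 0) (nat_lit 181798906879) (nat_lit 76) (nat_lit 48828010999) (nat_lit 76) (nat_lit 27044715719) (nat_lit 4) (nat_lit 4) (nat_lit 5) (nat_lit 5) (nat_lit 5) (nat_lit 4) (nat_lit 371) (nat_lit 300) (nat_lit 229))))) (XT.nd (nat_lit 234) (nat_lit 76) (nat_lit 0) (XT.nd (nat_lit 78) (nat_lit 76) (nat_lit 0) (XT.lf (nat_lit 0) (nat_lit 224573421601) (nat_lit 76) (nat_lit 37383620992) (nat_lit 76) (nat_lit 15593462198) (nat_lit 4) (nat_lit 4) (nat_lit 5) (nat_lit 5) (nat_lit 5) (nat_lit 4) (nat_lit 372) (nat_lit 300) (nat_lit 228)) (XT.nd (nat_lit 78) (nat_lit 76) (nat_lit 0) (XT.lf (nat_lit 0) (nat_lit 270752977087) (nat_lit 76) (nat_lit 25031831471) (nat_lit 76) (nat_lit 3235317571) (nat_lit 4) (nat_lit 4) (nat_lit 5) (nat_lit 5) (nat_lit 5) (nat_lit 4) (nat_lit 373) (nat_lit 300) (nat_lit 227)) (XT.lf (nat_lit 0) (nat_lit 9779594066) (nat_lit 152) (nat_lit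 1754230422) (nat_lit 76) (nat_lit 310666013739) (nat_lit 3) (nat_lit 5) (nat_lit 5) (nat_lit 5) (nat_lit 4) (nat_lit 4) (nat_lit 374) (nat_lit 300) (nat_lit 226)))) (XT.nd (nat_lit 78) (nat_lit 0) (nat_lit 0) (XT.lf (nat_lit 0) (nat_lit 24204045345) (nat_lit 152) (nat_lit 319568479369) (nat_lit 0) (nat_lit 3434667499) (nat_lit 2) (nat_lit 5) (nat_lit 4) (nat_lit 4) (nat_lit 2) (nat_lit 4) (nat_lit 375) (nat_lit 300) (nat_lit 225)) (XT.nd (nat_lit 78) (nat_lit 0) (nat_lit 0) (XT.lf (nat_lit 0) (nat_lit 40000589064) (nat_lit 152) (nat_lit 314977233594) (nat_lit 0) (nat_lit 19226406564) (nat_lit 2) (nat_lit 5) (nat_lit 4) (nat_lit 4) (nat_lit 2) (nat_lit 4) (nat_lit 376) (nat_lit 300) (nat_lit 224)) (XT.lf (nat_lit 0) (nat_lit 57054001173) (nat_lit 152) (nat_lit 310032002265) (nat_lit 0) (nat_lit 36275369917) (nat_lit 2) (nat_lit 5) (nat_lit 4) (nat_lit 4) (nat_lit 2) (nat_lit 4) (nat_lit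 377) (nat_lit 300) (nat_lit 223)))))) (XT.nd (nat_lit 468) (nat_lit 0) (nat_lit 0) (XT.nd (nat_lit 234) (nat_lit 0) (nat_lit 0) (XT.nd (nat_lit 78) (nat_lit 0) (nat_lit 0) (XT.lf (nat_lit 0) (nat_lit 75465338927) (nat_lit 152) (nat_lit 304703480308) (nat_lit 0) (nat_lit 54682588454) (nat_lit 2) (nat_lit 5) (nat_lit 4) (nat_lit 4) (nat_lit 2) (nat_lit 4) (nat_lit 378) (nat_lit 300) (nat_lit 222)) (XT.nd (nat_lit 78) (nat_lit 0) (nat_lit 0) (XT.lf (nat_lit 0) (nat_lit 95343706552) (nat_lit 152) (nat_lit 298960091296) (nat_lit 0) (nat_lit 74557141988) (nat_lit 2) (nat_lit 5) (nat_lit 4) (nat_lit 4) (nat_lit 2) (nat_lit 4) (nat_lit 379) (nat_lit 300) (nat_lit 221)) (XT.lf (nat_lit 0) (nat_lit 116806901780) (nat_lit 152) (nat_lit 292767800332) (nat_lit 0) (nat_lit 96016805651) (nat_lit 2) (nat_lit 5) (nat_lit 4) (nat_lit 4) (nat_lit 2) (nat_lit 4) (nat_lit 380) (nat_lit 300) (nat_lit 220))))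 (XT.nd (nat_lit 78) (nat_lit 0) (nat_lit 0) (XT.lf (nat_lit 0) (nat_lit 139982113917) (nat_lit 152) (nat_lit 286089912357) (nat_lit 0) (nat_lit 119188747821) (nat_lit 2) (nat_lit 5) (nat_lit 4) (nat_lit 4) (nat_lit 2) (nat_lit 4) (nat_lit 381) (nat_lit 300) (nat_lit 219)) (XT.nd (nat_lit 78) (nat_lit 0) (nat_lit 0) (XT.lf (nat_lit 0) (nat_lit 165006677553) (nat_lit 152) (nat_lit 278886854702) (nat_lit 0) (nat_lit 144210283709) (nat_lit 2) (nat_lit 5) (nat_lit 4) (nat_lit 4) (nat_lit 2) (nat_lit 4) (nat_lit 382) (nat_lit 300) (nat_lit 218)) (XT.lf (nat_lit 0) (nat_lit 192028886399) (nat_lit 152) (nat_lit 271115942582) (nat_lit 0) (nat_lit 171229689085) (nat_lit 2) (nat_lit 5) (nat_lit 4) (nat_lit 4) (nat_lit 2) (nat_lit 4) (nat_lit 383) (nat_lit 300) (nat_lit 217))))) (XT.nd (nat_lit 234) (nat_lit 0) (nat_lit 0) (XT.nd (nat_lit 78) (nat_lit 0) (nat_lit 0) (XT.lf (nat_lit 0) (nat_lit 221208872063)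 (nat_lit 152) (nat_lit 262731126146) (nat_lit 0) (nat_lit 200407078943) (nat_lit 2) (nat_lit 5) (nat_lit 4) (nat_lit 4) (nat_lit 2) (nat_lit 4) (nat_lit 384) (nat_lit 300) (nat_lit 216)) (XT.nd (nat_lit 78) (nat_lit 0) (nat_lit 0) (XT.lf (nat_lit 0) (nat_lit 252719552978) (nat_lit 152) (nat_lit 253682717594) (nat_lit 0) (nat_lit 231915356334) (nat_lit 2) (nat_lit 5) (nat_lit 4) (nat_lit 4) (nat_lit 2) (nat_lit 4) (nat_lit 385) (nat_lit 300) (nat_lit 215)) (XT.lf (nat_lit 0) (nat_lit 286747659106) (nat_lit 152) (nat_lit 243917096727) (nat_lit 0) (nat_lit 265941236976) (nat_lit 2) (nat_lit 5) (nat_lit 4) (nat_lit 4) (nat_lit 2) (nat_lit 4) (nat_lit 386) (nat_lit 300) (nat_lit 214)))) (XT.nd (nat_lit 78) (nat_lit 0) (nat_lit 0) (XT.lf (nat_lit 0) (nat_lit 323494838481) (nat_lit 152) (nat_lit 233376393198) (nat_lit 0) (nat_lit 302686355718) (nat_lit 2) (nat_lit 5) (nat_lit 4) (nat_lit 4) (nat_lit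 2) (nat_lit 4) (nat_lit 387) (nat_lit 300) (nat_lit 213)) (XT.nd (nat_lit 78) (nat_lit 0) (nat_lit 0) (XT.lf (nat_lit 0) (nat_lit 363178852169) (nat_lit 152) (nat_lit 221998143580) (nat_lit 0) (nat_lit 342368461410) (nat_lit 2) (nat_lit 5) (nat_lit 4) (nat_lit 4) (nat_lit 2) (nat_lit 4) (nat_lit 388) (nat_lit 300) (nat_lit 212)) (XT.lf (nat_lit 0) (nat_lit 406034864693) (nat_lit 152) (nat_lit 209714921208) (nat_lit 0) (nat_lit 385222707273) (nat_lit 2) (nat_lit 5) (nat_lit 4) (nat_lit 4) (nat_lit 2) (nat_lit 4) (nat_lit 389) (nat_lit 300) (nat_lit 211))))))))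
noncomputable def xc49 : XT := (XT.nd (nat_lit 41496) (nat_lit 0) (nat_lit 1064) (XT.nd (nat_lit 40638) (nat_lit 0) (nat_lit 4104) (XT.nd (nat_lit 40170) (nat_lit 0) (nat_lit 8588) (XT.nd (nat_lit 39936) (nat_lit 0) (nat_lit 10640) (XT.nd (nat_lit 78) (nat_lit 0) (nat_lit 0) (XT.lf (nat_lit 0) (nat_lit 452316837611) (nat_lit 152) (nat_lit 196453936616) (nat_lit 0) (nat_lit 431503044392) (nat_lit 2) (nat_lit 5) (nat_lit 4) (nat_lit 4) (nat_lit 2) (nat_lit 4) (nat_lit 390) (nat_lit 300) (nat_lit 210)) (XT.lf (nat_lit 0) (nat_lit 502299034464) (nat_lit 152) (nat_lit 182136606192) (nat_lit 0) (nat_lit 481483726618) (nat_lit 2) (nat_lit 5) (nat_lit 4) (nat_lit 4) (nat_lit 2) (nat_lit 4) (nat_lit 391) (nat_lit 300) (nat_lit 209))) (XT.nd (nat_lit 78) (nat_lit 228) (nat_lit 0) (XT.lf (nat_lit 0) (nat_lit 1316634636) (nat_lit 228) (nat_lit 959249271) (nat_lit 228) (nat_lit 959249271) (nat_lit 145)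 (nat_lit 3) (nat_lit 148) (nat_lit 3) (nat_lit 148) (nat_lit 5) (nat_lit 301) (nat_lit 301) (nat_lit 298)) (XT.nd (nat_lit 78) (nat_lit 0) (nat_lit 0) (XT.lf (nat_lit 0) (nat_lit 378190727) (nat_lit 228) (nat_lit 3484232011) (nat_lit 304) (nat_lit 2647435124) (nat_lit 142) (nat_lit 5) (nat_lit 145) (nat_lit 3) (nat_lit 146) (nat_lit 5) (nat_lit 302) (nat_lit 301) (nat_lit 297)) (XT.lf (nat_lit 76) (nat_lit 1630938447) (nat_lit 0) (nat_lit 2803415934) (nat_lit 304) (nat_lit 2134236888) (nat_lit 143) (nat_lit 5) (nat_lit 142) (nat_lit 5) (nat_lit 146) (nat_lit 5) (nat_lit 303) (nat_lit 301) (nat_lit 296))))) (XT.nd (nat_lit 234) (nat_lit 1444) (nat_lit 0) (XT.nd (nat_lit 78) (nat_lit 304) (nat_lit 0) (XT.lf (nat_lit 76) (nat_lit 385309710) (nat_lit 0) (nat_lit 1392842211) (nat_lit 380) (nat_lit 4869823200) (nat_lit 139) (nat_lit 5) (nat_lit 138) (nat_lit 5) (nat_lit 143) (nat_lit 5) (nat_lit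 304) (nat_lit 301) (nat_lit 295)) (XT.nd (nat_lit 78) (nat_lit 380) (nat_lit 0) (XT.lf (nat_lit 0) (nat_lit 5645003268) (nat_lit 304) (nat_lit 712482913) (nat_lit 76) (nat_lit 389502235) (nat_lit 139) (nat_lit 5) (nat_lit 143) (nat_lit 5) (nat_lit 140) (nat_lit 5) (nat_lit 305) (nat_lit 301) (nat_lit 294)) (XT.lf (nat_lit 0) (nat_lit 2625595037) (nat_lit 380) (nat_lit 1720087380) (nat_lit 76) (nat_lit 2519000693) (nat_lit 134) (nat_lit 5) (nat_lit 139) (nat_lit 5) (nat_lit 135) (nat_lit 5) (nat_lit 306) (nat_lit 301) (nat_lit 293)))) (XT.nd (nat_lit 78) (nat_lit 1064) (nat_lit 0) (XT.lf (nat_lit 0) (nat_lit 4389584739) (nat_lit 380) (nat_lit 1974496771) (nat_lit 456) (nat_lit 639929351) (nat_lit 129) (nat_lit 5) (nat_lit 134) (nat_lit 5) (nat_lit 135) (nat_lit 5) (nat_lit 307) (nat_lit 301) (nat_lit 292)) (XT.nd (nat_lit 78) (nat_lit 532) (nat_lit 0) (XT.lf (nat_lit 0) (nat_lit 2929424798)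 (nat_lit 532) (nat_lit 3449333168) (nat_lit 76) (nat_lit 784487463) (nat_lit 122) (nat_lit 5) (nat_lit 129) (nat_lit 5) (nat_lit 123) (nat_lit 5) (nat_lit 308) (nat_lit 301) (nat_lit 291)) (XT.lf (nat_lit 0) (nat_lit 3120532035) (nat_lit 532) (nat_lit 3475732027) (nat_lit 608) (nat_lit 747272579) (nat_lit 115) (nat_lit 5) (nat_lit 122) (nat_lit 5) (nat_lit 123) (nat_lit 5) (nat_lit 309) (nat_lit 301) (nat_lit 290)))))) (XT.nd (nat_lit 390) (nat_lit 1596) (nat_lit 0) (XT.nd (nat_lit 156) (nat_lit 1520) (nat_lit 0) (XT.nd (nat_lit 78) (nat_lit 684) (nat_lit 0) (XT.lf (nat_lit 0) (nat_lit 2596243484) (nat_lit 608) (nat_lit 145846428) (nat_lit 684) (nat_lit 4803274569) (nat_lit 106) (nat_lit 5) (nat_lit 114) (nat_lit 5) (nat_lit 115) (nat_lit 5) (nat_lit 310) (nat_lit 301) (nat_lit 289)) (XT.lf (nat_lit 0) (nat_lit 2105626025) (nat_lit 684) (nat_lit 4277240914) (nat_lit 760) (nat_lit 1385394226)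 (nat_lit 97) (nat_lit 5) (nat_lit 106) (nat_lit 5) (nat_lit 107) (nat_lit 5) (nat_lit 311) (nat_lit 301) (nat_lit 288))) (XT.nd (nat_lit 78) (nat_lit 760) (nat_lit 0) (XT.lf (nat_lit 0) (nat_lit 1665953716) (nat_lit 684) (nat_lit 430200964) (nat_lit 760) (nat_lit 5918236118) (nat_lit 87) (nat_lit 5) (nat_lit 96) (nat_lit 5) (nat_lit 97) (nat_lit 5) (nat_lit 312) (nat_lit 301) (nat_lit 287)) (XT.nd (nat_lit 78) (nat_lit 380) (nat_lit 0) (XT.lf (nat_lit 0) (nat_lit 1217646749) (nat_lit 380) (nat_lit 4531133997) (nat_lit 456) (nat_lit 2533613466) (nat_lit 82) (nat_lit 5) (nat_lit 87) (nat_lit 5) (nat_lit 88) (nat_lit 5) (nat_lit 313) (nat_lit 301) (nat_lit 286)) (XT.lf (nat_lit 0) (nat_lit 805502062) (nat_lit 304) (nat_lit 185513187) (nat_lit 380) (nat_lit 7585019315) (nat_lit 77) (nat_lit 5) (nat_lit 81) (nat_lit 5) (nat_lit 82) (nat_lit 5) (nat_lit 314) (nat_lit 301) (nat_lit 285))))) (XT.nd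 (nat_lit 234) (nat_lit 912) (nat_lit 0) (XT.nd (nat_lit 78) (nat_lit 380) (nat_lit 0) (XT.lf (nat_lit 0) (nat_lit 322594969) (nat_lit 304) (nat_lit 4373747785) (nat_lit 380) (nat_lit 4195676940) (nat_lit 73) (nat_lit 5) (nat_lit 77) (nat_lit 5) (nat_lit 78) (nat_lit 5) (nat_lit 315) (nat_lit 301) (nat_lit 284)) (XT.nd (nat_lit 78) (nat_lit 380) (nat_lit 0) (XT.lf (nat_lit 0) (nat_lit 8641916624) (nat_lit 380) (nat_lit 139337982) (nat_lit 76) (nat_lit 455120410) (nat_lit 73) (nat_lit 5) (nat_lit 78) (nat_lit 5) (nat_lit 74) (nat_lit 5) (nat_lit 316) (nat_lit 301) (nat_lit 283)) (XT.lf (nat_lit 0) (nat_lit 3215672461) (nat_lit 380) (nat_lit 705742612) (nat_lit 76) (nat_lit 5683227071) (nat_lit 68) (nat_lit 5) (nat_lit 73) (nat_lit 5) (nat_lit 69) (nat_lit 5) (nat_lit 317) (nat_lit 301) (nat_lit 282)))) (XT.nd (nat_lit 78) (nat_lit 608) (nat_lit 0) (XT.lf (nat_lit 0) (nat_lit 7291000492) (nat_lit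 380) (nat_lit 1316075114) (nat_lit 76) (nat_lit 1395977668) (nat_lit 64) (nat_lit 5) (nat_lit 69) (nat_lit 5) (nat_lit 65) (nat_lit 5) (nat_lit 318) (nat_lit 301) (nat_lit 281)) (XT.nd (nat_lit 78) (nat_lit 304) (nat_lit 0) (XT.lf (nat_lit 0) (nat_lit 1258373363) (nat_lit 304) (nat_lit 2045037588) (nat_lit 76) (nat_lit 7127164219) (nat_lit 60) (nat_lit 5) (nat_lit 64) (nat_lit 5) (nat_lit 61) (nat_lit 5) (nat_lit 319) (nat_lit 301) (nat_lit 280)) (XT.lf (nat_lit 0) (nat_lit 5477213430) (nat_lit 380) (nat_lit 2917277036) (nat_lit 76) (nat_lit 2494483774) (nat_lit 56) (nat_lit 5) (nat_lit 61) (nat_lit 5) (nat_lit 57) (nat_lit 5) (nat_lit 320) (nat_lit 301) (nat_lit 279))))))) (XT.nd (nat_lit 858) (nat_lit 988) (nat_lit 0) (XT.nd (nat_lit 390) (nat_lit 912) (nat_lit 0) (XT.nd (nat_lit 156) (nat_lit 608) (nat_lit 0) (XT.nd (nat_lit 78) (nat_lit 304) (nat_lit 0) (XT.lf (nat_lit 0) (nat_lit 7449334034)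 (nat_lit 228) (nat_lit 2636454148) (nat_lit 304) (nat_lit 1295820003) (nat_lit 53) (nat_lit 5) (nat_lit 56) (nat_lit 5) (nat_lit 57) (nat_lit 5) (nat_lit 321) (nat_lit 301) (nat_lit 278)) (XT.lf (nat_lit 0) (nat_lit 3114567002) (nat_lit 304) (nat_lit 5172688374) (nat_lit 76) (nat_lit 3620794086) (nat_lit 49) (nat_lit 5) (nat_lit 53) (nat_lit 5) (nat_lit 50) (nat_lit 5) (nat_lit 322) (nat_lit 301) (nat_lit 277))) (XT.nd (nat_lit 78) (nat_lit 456) (nat_lit 0) (XT.lf (nat_lit 0) (nat_lit 5836579854) (nat_lit 152) (nat_lit 2058517561) (nat_lit 228) (nat_lit 4577453227) (nat_lit 47) (nat_lit 5) (nat_lit 49) (nat_lit 5) (nat_lit 50) (nat_lit 5) (nat_lit 323) (nat_lit 301) (nat_lit 276)) (XT.nd (nat_lit 78) (nat_lit 152) (nat_lit 0) (XT.lf (nat_lit 0) (nat_lit 79571050) (nat_lit 304) (nat_lit 8372106719) (nat_lit 76) (nat_lit 4625531512) (nat_lit 43) (nat_lit 5) (nat_lit 47) (nat_lit 5) (nat_lit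 44) (nat_lit 5) (nat_lit 324) (nat_lit 301) (nat_lit 275)) (XT.lf (nat_lit 0) (nat_lit 3257387812) (nat_lit 152) (nat_lit 1764888153) (nat_lit 228) (nat_lit 8700654335) (nat_lit 41) (nat_lit 5) (nat_lit 43) (nat_lit 5) (nat_lit 44) (nat_lit 5) (nat_lit 325) (nat_lit 301) (nat_lit 274))))) (XT.nd (nat_lit 234) (nat_lit 532) (nat_lit 0) (XT.nd (nat_lit 78) (nat_lit 228) (nat_lit 0) (XT.lf (nat_lit 0) (nat_lit 1466820004) (nat_lit 152) (nat_lit 9023953729) (nat_lit 228) (nat_lit 3923124056) (nat_lit 39) (nat_lit 5) (nat_lit 41) (nat_lit 5) (nat_lit 42) (nat_lit 5) (nat_lit 326) (nat_lit 301) (nat_lit 273)) (XT.nd (nat_lit 78) (nat_lit 152) (nat_lit 0) (XT.lf (nat_lit 0) (nat_lit 1290481736) (nat_lit 228) (nat_lit 666928890) (nat_lit 76) (nat_lit 13197188984) (nat_lit 38) (nat_lit 5) (nat_lit 41) (nat_lit 5) (nat_lit 39) (nat_lit 5) (nat_lit 327) (nat_lit 301) (nat_lit 272)) (XT.lf (nat_lit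 0) (nat_lit 6964142516) (nat_lit 228) (nat_lit 3278204192) (nat_lit 76) (nat_lit 5700062373) (nat_lit 36) (nat_lit 5) (nat_lit 39) (nat_lit 5) (nat_lit 37) (nat_lit 5) (nat_lit 328) (nat_lit 301) (nat_lit 271)))) (XT.nd (nat_lit 78) (nat_lit 380) (nat_lit 0) (XT.lf (nat_lit 0) (nat_lit 10419355331) (nat_lit 152) (nat_lit 2771955738) (nat_lit 228) (nat_lit 3597032853) (nat_lit 34) (nat_lit 5) (nat_lit 36) (nat_lit 5) (nat_lit 37) (nat_lit 5) (nat_lit 329) (nat_lit 301) (nat_lit 270)) (XT.nd (nat_lit 78) (nat_lit 152) (nat_lit 0) (XT.lf (nat_lit 0) (nat_lit 2302528283) (nat_lit 228) (nat_lit 10110952166) (nat_lit 76) (nat_lit 5278880315) (nat_lit 31) (nat_lit 5) (nat_lit 34) (nat_lit 5) (nat_lit 32) (nat_lit 5) (nat_lit 330) (nat_lit 301) (nat_lit 269)) (XT.lf (nat_lit 0) (nat_lit 4066541876) (nat_lit 152) (nat_lit 4606127529) (nat_lit 228) (nat_lit 9986915708) (nat_lit 29) (nat_lit 5) (nat_lit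 31) (nat_lit 5) (nat_lit 32) (nat_lit 5) (nat_lit 331) (nat_lit 301) (nat_lit 268)))))) (XT.nd (nat_lit 468) (nat_lit 380) (nat_lit 0) (XT.nd (nat_lit 234) (nat_lit 304) (nat_lit 0) (XT.nd (nat_lit 78) (nat_lit 304) (nat_lit 0) (XT.lf (nat_lit 0) (nat_lit 15695048742) (nat_lit 228) (nat_lit 181806114) (nat_lit 76) (nat_lit 3820262716) (nat_lit 29) (nat_lit 5) (nat_lit 32) (nat_lit 5) (nat_lit 30) (nat_lit 4) (nat_lit 332) (nat_lit 301) (nat_lit 267)) (XT.nd (nat_lit 78) (nat_lit 152) (nat_lit 0) (XT.lf (nat_lit 0) (nat_lit 2619629098) (nat_lit 152) (nat_lit 5193616181) (nat_lit 76) (nat_lit 12990697553) (nat_lit 27) (nat_lit 5) (nat_lit 29) (nat_lit 5) (nat_lit 28) (nat_lit 5) (nat_lit 333) (nat_lit 301) (nat_lit 266)) (XT.lf (nat_lit 0) (nat_lit 9735473413) (nat_lit 228) (nat_lit 11204571162) (nat_lit 76) (nat_lit 1050808199) (nat_lit 25) (nat_lit 5) (nat_lit 28) (nat_lit 5) (nat_lit 26)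 (nat_lit 4) (nat_lit 334) (nat_lit 301) (nat_lit 265)))) (XT.nd (nat_lit 78) (nat_lit 228) (nat_lit 0) (XT.lf (nat_lit 0) (nat_lit 4839331568) (nat_lit 76) (nat_lit 12797662731) (nat_lit 152) (nat_lit 5624947262) (nat_lit 24) (nat_lit 5) (nat_lit 25) (nat_lit 5) (nat_lit 26) (nat_lit 4) (nat_lit 335) (nat_lit 301) (nat_lit 264)) (XT.nd (nat_lit 78) (nat_lit 152) (nat_lit 0) (XT.lf (nat_lit 0) (nat_lit 1604940842) (nat_lit 152) (nat_lit 2225877410) (nat_lit 76) (nat_lit 20796832183) (nat_lit 23) (nat_lit 5) (nat_lit 25) (nat_lit 5) (nat_lit 24) (nat_lit 5) (nat_lit 336) (nat_lit 301) (nat_lit 263)) (XT.lf (nat_lit 0) (nat_lit 9483181001) (nat_lit 228) (nat_lit 10646634253) (nat_lit 76) (nat_lit 5954876536) (nat_lit 21) (nat_lit 5) (nat_lit 24) (nat_lit 5) (nat_lit 22) (nat_lit 4) (nat_lit 337) (nat_lit 301) (nat_lit 262))))) (XT.nd (nat_lit 234) (nat_lit 152) (nat_lit 0) (XT.nd (nat_lit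 78) (nat_lit 152) (nat_lit 0) (XT.lf (nat_lit 0) (nat_lit 6968794762) (nat_lit 76) (nat_lit 11164152266) (nat_lit 152) (nat_lit 9518321248) (nat_lit 20) (nat_lit 5) (nat_lit 21) (nat_lit 5) (nat_lit 22) (nat_lit 4) (nat_lit 338) (nat_lit 301) (nat_lit 261)) (XT.nd (nat_lit 78) (nat_lit 152) (nat_lit 0) (XT.lf (nat_lit 0) (nat_lit 26251921484) (nat_lit 76) (nat_lit 1340089771) (nat_lit 152) (nat_lit 1745326333) (nat_lit 20) (nat_lit 5) (nat_lit 21) (nat_lit 5) (nat_lit 22) (nat_lit 4) (nat_lit 339) (nat_lit 301) (nat_lit 260)) (XT.lf (nat_lit 0) (nat_lit 6775554210) (nat_lit 152) (nat_lit 15073599462) (nat_lit 76) (nat_lit 9287033016) (nat_lit 18) (nat_lit 5) (nat_lit 20) (nat_lit 5) (nat_lit 19) (nat_lit 4) (nat_lit 340) (nat_lit 301) (nat_lit 259)))) (XT.nd (nat_lit 78) (nat_lit 76) (nat_lit 0) (XT.lf (nat_lit 0) (nat_lit 3730663539) (nat_lit 76) (nat_lit 12260700248) (nat_lit 152) (nat_lit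 17082455596) (nat_lit 17) (nat_lit 5) (nat_lit 18) (nat_lit 5) (nat_lit 19) (nat_lit 4) (nat_lit 341) (nat_lit 301) (nat_lit 258)) (XT.nd (nat_lit 78) (nat_lit 76) (nat_lit 0) (XT.lf (nat_lit 0) (nat_lit 24470228722) (nat_lit 76) (nat_lit 1677809424) (nat_lit 152) (nat_lit 9008269158) (nat_lit 17) (nat_lit 5) (nat_lit 18) (nat_lit 5) (nat_lit 19) (nat_lit 4) (nat_lit 342) (nat_lit 301) (nat_lit 257)) (XT.lf (nat_lit 0) (nat_lit 9514416693) (nat_lit 76) (nat_lit 27848325177) (nat_lit 76) (nat_lit 30400406) (nat_lit 16) (nat_lit 4) (nat_lit 17) (nat_lit 5) (nat_lit 17) (nat_lit 4) (nat_lit 343) (nat_lit 301) (nat_lit 256))))))))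
noncomputable def xc50 : XT := (XT.nd (nat_lit 1716) (nat_lit 228) (nat_lit 0) (XT.nd (nat_lit 858) (nat_lit 228) (nat_lit 0) (XT.nd (nat_lit 390) (nat_lit 304) (nat_lit 0) (XT.nd (nat_lit 156) (nat_lit 152) (nat_lit 0) (XT.nd (nat_lit 78) (nat_lit 76) (nat_lit 0) (XT.lf (nat_lit 0) (nat_lit 9520216581) (nat_lit 152) (nat_lit 8368122339) (nat_lit 76) (nat_lit 21904865717) (nat_lit 15) (nat_lit 5) (nat_lit 17) (nat_lit 5) (nat_lit 16) (nat_lit 4) (nat_lit 344) (nat_lit 301) (nat_lit 255)) (XT.lf (nat_lit 0) (nat_lit 13028320454) (nat_lit 76) (nat_lit 6959285367) (nat_lit 152) (nat_lit 22389970457) (nat_lit 14) (nat_lit 5) (nat_lit 15) (nat_lit 5) (nat_lit 16) (nat_lit 4) (nat_lit 345) (nat_lit 301) (nat_lit 254))) (XT.nd (nat_lit 78) (nat_lit 152) (nat_lit 0) (XT.lf (nat_lit 0) (nat_lit 31468221157) (nat_lit 152) (nat_lit 8893391176) (nat_lit 0) (nat_lit 4798310796) (nat_lit 14) (nat_lit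 5) (nat_lit 16) (nat_lit 4) (nat_lit 14) (nat_lit 4) (nat_lit 346) (nat_lit 301) (nat_lit 253)) (XT.nd (nat_lit 78) (nat_lit 76) (nat_lit 0) (XT.lf (nat_lit 0) (nat_lit 13428748316) (nat_lit 76) (nat_lit 30721144226) (nat_lit 76) (nat_lit 4000850799) (nat_lit 13) (nat_lit 4) (nat_lit 14) (nat_lit 5) (nat_lit 14) (nat_lit 4) (nat_lit 347) (nat_lit 301) (nat_lit 252)) (XT.lf (nat_lit 0) (nat_lit 6372742473) (nat_lit 152) (nat_lit 13702822344) (nat_lit 76) (nat_lit 31294511222) (nat_lit 12) (nat_lit 5) (nat_lit 14) (nat_lit 5) (nat_lit 13) (nat_lit 4) (nat_lit 348) (nat_lit 301) (nat_lit 251))))) (XT.nd (nat_lit 234) (nat_lit 228) (nat_lit 0) (XT.nd (nat_lit 78) (nat_lit 0) (nat_lit 0) (XT.lf (nat_lit 0) (nat_lit 9148703378) (nat_lit 76) (nat_lit 8392195720) (nat_lit 152) (nat_lit 37297547584) (nat_lit 11) (nat_lit 5) (nat_lit 12) (nat_lit 5) (nat_lit 13) (nat_lit 4) (nat_lit 349) (nat_lit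 301) (nat_lit 250)) (XT.nd (nat_lit 78) (nat_lit 0) (nat_lit 0) (XT.lf (nat_lit 0) (nat_lit 29872548591) (nat_lit 152) (nat_lit 24397257433) (nat_lit 0) (nat_lit 4300990995) (nat_lit 11) (nat_lit 5) (nat_lit 13) (nat_lit 4) (nat_lit 11) (nat_lit 4) (nat_lit 350) (nat_lit 301) (nat_lit 249)) (XT.lf (nat_lit 0) (nat_lit 43296548666) (nat_lit 152) (nat_lit 1610185464) (nat_lit 0) (nat_lit 17689721490) (nat_lit 11) (nat_lit 5) (nat_lit 13) (nat_lit 4) (nat_lit 11) (nat_lit 4) (nat_lit 351) (nat_lit 301) (nat_lit 248)))) (XT.nd (nat_lit 78) (nat_lit 152) (nat_lit 0) (XT.lf (nat_lit 0) (nat_lit 23695951219) (nat_lit 76) (nat_lit 34435432243) (nat_lit 76) (nat_lit 8795948050) (nat_lit 10) (nat_lit 4) (nat_lit 11) (nat_lit 5) (nat_lit 11) (nat_lit 4) (nat_lit 352) (nat_lit 301) (nat_lit 247)) (XT.nd (nat_lit 78) (nat_lit 76) (nat_lit 0) (XT.lf (nat_lit 0) (nat_lit 2463218872) (nat_lit 152) (nat_lit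 20620123483) (nat_lit 76) (nat_lit 48519532227) (nat_lit 9) (nat_lit 5) (nat_lit 11) (nat_lit 5) (nat_lit 10) (nat_lit 4) (nat_lit 353) (nat_lit 301) (nat_lit 246)) (XT.lf (nat_lit 0) (nat_lit 3714417376) (nat_lit 76) (nat_lit 10632966856) (nat_lit 152) (nat_lit 62296253902) (nat_lit 8) (nat_lit 5) (nat_lit 9) (nat_lit 5) (nat_lit 10) (nat_lit 4) (nat_lit 354) (nat_lit 301) (nat_lit 245)))))) (XT.nd (nat_lit 390) (nat_lit 152) (nat_lit 0) (XT.nd (nat_lit 156) (nat_lit 76) (nat_lit 0) (XT.nd (nat_lit 78) (nat_lit 0) (nat_lit 0) (XT.lf (nat_lit 0) (nat_lit 27562568504) (nat_lit 152) (nat_lit 51442228337) (nat_lit 0) (nat_lit 3063859462) (nat_lit 8) (nat_lit 5) (nat_lit 10) (nat_lit 4) (nat_lit 8) (nat_lit 4) (nat_lit 355) (nat_lit 301) (nat_lit 244)) (XT.lf (nat_lit 0) (nat_lit 41987668414) (nat_lit 152) (nat_lit 28466281175) (nat_lit 0) (nat_lit 17466098531) (nat_lit 8) (nat_lit 5) (nat_lit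 10) (nat_lit 4) (nat_lit 8) (nat_lit 4) (nat_lit 356) (nat_lit 301) (nat_lit 243))) (XT.nd (nat_lit 78) (nat_lit 76) (nat_lit 0) (XT.lf (nat_lit 0) (nat_lit 57542155624) (nat_lit 152) (nat_lit 3699215098) (nat_lit 0) (nat_lit 32999418295) (nat_lit 8) (nat_lit 5) (nat_lit 10) (nat_lit 4) (nat_lit 8) (nat_lit 4) (nat_lit 357) (nat_lit 301) (nat_lit 242)) (XT.nd (nat_lit 78) (nat_lit 0) (nat_lit 0) (XT.lf (nat_lit 0) (nat_lit 23766411275) (nat_lit 76) (nat_lit 50922853882) (nat_lit 76) (nat_lit 26360517067) (nat_lit 7) (nat_lit 4) (nat_lit 8) (nat_lit 5) (nat_lit 8) (nat_lit 4) (nat_lit 358) (nat_lit 301) (nat_lit 241)) (XT.lf (nat_lit 0) (nat_lit 53519796490) (nat_lit 76) (nat_lit 39731027307) (nat_lit 76) (nat_lit 15150542820) (nat_lit 7) (nat_lit 4) (nat_lit 8) (nat_lit 5) (nat_lit 8) (nat_lit 4) (nat_lit 359) (nat_lit 301) (nat_lit 240))))) (XT.nd (nat_lit 234) (nat_lit 0) (nat_lit 0)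 (XT.nd (nat_lit 78) (nat_lit 152) (nat_lit 0) (XT.lf (nat_lit 0) (nat_lit 85614944145) (nat_lit 76) (nat_lit 27662217061) (nat_lit 76) (nat_lit 3064929173) (nat_lit 7) (nat_lit 4) (nat_lit 8) (nat_lit 5) (nat_lit 8) (nat_lit 4) (nat_lit 360) (nat_lit 301) (nat_lit 239)) (XT.nd (nat_lit 78) (nat_lit 76) (nat_lit 0) (XT.lf (nat_lit 0) (nat_lit 9648905919) (nat_lit 152) (nat_lit 4832589457) (nat_lit 76) (nat_lit 110429732897) (nat_lit 6) (nat_lit 5) (nat_lit 8) (nat_lit 5) (nat_lit 7) (nat_lit 4) (nat_lit 361) (nat_lit 301) (nat_lit 238)) (XT.lf (nat_lit 0) (nat_lit 23630935050) (nat_lit 152) (nat_lit 110338122311) (nat_lit 0) (nat_lit 176408574) (nat_lit 5) (nat_lit 5) (nat_lit 7) (nat_lit 4) (nat_lit 5) (nat_lit 4) (nat_lit 362) (nat_lit 301) (nat_lit 237)))) (XT.nd (nat_lit 78) (nat_lit 0) (nat_lit 0) (XT.lf (nat_lit 0) (nat_lit 39044270938) (nat_lit 152) (nat_lit 89481497897) (nat_lit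 0) (nat_lit 15577040575) (nat_lit 5) (nat_lit 5) (nat_lit 7) (nat_lit 4) (nat_lit 5) (nat_lit 4) (nat_lit 363) (nat_lit 301) (nat_lit 236)) (XT.nd (nat_lit 78) (nat_lit 0) (nat_lit 0) (XT.lf (nat_lit 0) (nat_lit 55674932364) (nat_lit 152) (nat_lit 66986659646) (nat_lit 0) (nat_lit 32195939144) (nat_lit 5) (nat_lit 5) (nat_lit 7) (nat_lit 4) (nat_lit 5) (nat_lit 4) (nat_lit 364) (nat_lit 301) (nat_lit 235)) (XT.lf (nat_lit 0) (nat_lit 73621471397) (nat_lit 152) (nat_lit 42720304813) (nat_lit 0) (nat_lit 50131586641) (nat_lit 5) (nat_lit 5) (nat_lit 7) (nat_lit 4) (nat_lit 5) (nat_lit 4) (nat_lit 365) (nat_lit 301) (nat_lit 234))))))) (XT.nd (nat_lit 858) (nat_lit 0) (nat_lit 0) (XT.nd (nat_lit 390) (nat_lit 152) (nat_lit 0) (XT.nd (nat_lit 156) (nat_lit 0) (nat_lit 0) (XT.nd (nat_lit 78) (nat_lit 76) (nat_lit 0) (XT.lf (nat_lit 0) (nat_lit 92990237897) (nat_lit 152) (nat_lit 16538632776)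 (nat_lit 0) (nat_lit 69490268387) (nat_lit 5) (nat_lit 5) (nat_lit 7) (nat_lit 4) (nat_lit 5) (nat_lit 4) (nat_lit 366) (nat_lit 301) (nat_lit 233)) (XT.lf (nat_lit 0) (nat_lit 12100808557) (nat_lit 76) (nat_lit 101984128718) (nat_lit 76) (nat_lit 78474821471) (nat_lit 4) (nat_lit 4) (nat_lit 5) (nat_lit 5) (nat_lit 5) (nat_lit 4) (nat_lit 367) (nat_lit 301) (nat_lit 232))) (XT.nd (nat_lit 78) (nat_lit 0) (nat_lit 0) (XT.lf (nat_lit 0) (nat_lit 43598974403) (nat_lit 76) (nat_lit 93544400755) (nat_lit 76) (nat_lit 70026447456) (nat_lit 4) (nat_lit 4) (nat_lit 5) (nat_lit 5) (nat_lit 5) (nat_lit 4) (nat_lit 368) (nat_lit 301) (nat_lit 231)) (XT.nd (nat_lit 78) (nat_lit 0) (nat_lit 0) (XT.lf (nat_lit 0) (nat_lit 77595678671) (nat_lit 76) (nat_lit 84439763331) (nat_lit 76) (nat_lit 60913804429) (nat_lit 4) (nat_lit 4) (nat_lit 5) (nat_lit 5) (nat_lit 5) (nat_lit 4) (nat_lit 369) (nat_lit 301)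 (nat_lit 230)) (XT.lf (nat_lit 0) (nat_lit 114292383309) (nat_lit 76) (nat_lit 74616263041) (nat_lit 76) (nat_lit 51082891543) (nat_lit 4) (nat_lit 4) (nat_lit 5) (nat_lit 5) (nat_lit 5) (nat_lit 4) (nat_lit 370) (nat_lit 301) (nat_lit 229))))) (XT.nd (nat_lit 234) (nat_lit 152) (nat_lit 0) (XT.nd (nat_lit 78) (nat_lit 0) (nat_lit 0) (XT.lf (nat_lit 0) (nat_lit 153906550273) (nat_lit 76) (nat_lit 64015686547) (nat_lit 76) (nat_lit 40475451535) (nat_lit 4) (nat_lit 4) (nat_lit 5) (nat_lit 5) (nat_lit 5) (nat_lit 4) (nat_lit 371) (nat_lit 301) (nat_lit 228)) (XT.nd (nat_lit 78) (nat_lit 0) (nat_lit 0) (XT.lf (nat_lit 0) (nat_lit 196672930181) (nat_lit 76) (nat_lit 52575215621) (nat_lit 76) (nat_lit 29028625502) (nat_lit 4) (nat_lit 4) (nat_lit 5) (nat_lit 5) (nat_lit 5) (nat_lit 4) (nat_lit 372) (nat_lit 301) (nat_lit 227)) (XT.lf (nat_lit 0) (nat_lit 242844953432) (nat_lit 76) (nat_lit 40227054877)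 (nat_lit 76) (nat_lit 16674580401) (nat_lit 4) (nat_lit 4) (nat_lit 5) (nat_lit 5) (nat_lit 5) (nat_lit 4) (nat_lit 373) (nat_lit 301) (nat_lit 226)))) (XT.nd (nat_lit 78) (nat_lit 152) (nat_lit 0) (XT.lf (nat_lit 0) (nat_lit 292696232016) (nat_lit 76) (nat_lit 26898030031) (nat_lit 76) (nat_lit 3340107076) (nat_lit 4) (nat_lit 4) (nat_lit 5) (nat_lit 5) (nat_lit 5) (nat_lit 4) (nat_lit 374) (nat_lit 301) (nat_lit 225)) (XT.nd (nat_lit 78) (nat_lit 76) (nat_lit 0) (XT.lf (nat_lit 0) (nat_lit 10700022507) (nat_lit 152) (nat_lit 1627921702) (nat_lit 76) (nat_lit 335640948351) (nat_lit 3) (nat_lit 5) (nat_lit 5) (nat_lit 5) (nat_lit 4) (nat_lit 4) (nat_lit 375) (nat_lit 301) (nat_lit 224)) (XT.lf (nat_lit 0) (nat_lit 26274109503) (nat_lit 152) (nat_lit 344874204589) (nat_lit 0) (nat_lit 3828738992) (nat_lit 2) (nat_lit 5) (nat_lit 4) (nat_lit 4) (nat_lit 2) (nat_lit 4) (nat_lit 376) (nat_lit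 301) (nat_lit 223)))))) (XT.nd (nat_lit 468) (nat_lit 0) (nat_lit 0) (XT.nd (nat_lit 234) (nat_lit 0) (nat_lit 0) (XT.nd (nat_lit 78) (nat_lit 0) (nat_lit 0) (XT.lf (nat_lit 0) (nat_lit 43324470014) (nat_lit 152) (nat_lit 339934900125) (nat_lit 0) (nat_lit 20874980285) (nat_lit 2) (nat_lit 5) (nat_lit 4) (nat_lit 4) (nat_lit 2) (nat_lit 4) (nat_lit 377) (nat_lit 301) (nat_lit 222)) (XT.nd (nat_lit 78) (nat_lit 0) (nat_lit 0) (XT.lf (nat_lit 0) (nat_lit 61732982215) (nat_lit 152) (nat_lit 334611866005) (nat_lit 0) (nat_lit 39279678396) (nat_lit 2) (nat_lit 5) (nat_lit 4) (nat_lit 4) (nat_lit 2) (nat_lit 4) (nat_lit 378) (nat_lit 301) (nat_lit 221)) (XT.lf (nat_lit 0) (nat_lit 81608733587) (nat_lit 152) (nat_lit 328873558324) (nat_lit 0) (nat_lit 59151898202) (nat_lit 2) (nat_lit 5) (nat_lit 4) (nat_lit 4) (nat_lit 2) (nat_lit 4) (nat_lit 379) (nat_lit 301) (nat_lit 220)))) (XT.nd (nat_lit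 78) (nat_lit 0) (nat_lit 0) (XT.lf (nat_lit 0) (nat_lit 103069506358) (nat_lit 152) (nat_lit 322685972295) (nat_lit 0) (nat_lit 80609401006) (nat_lit 2) (nat_lit 5) (nat_lit 4) (nat_lit 4) (nat_lit 2) (nat_lit 4) (nat_lit 380) (nat_lit 301) (nat_lit 219)) (XT.nd (nat_lit 78) (nat_lit 0) (nat_lit 0) (XT.lf (nat_lit 0) (nat_lit 126242475480) (nat_lit 152) (nat_lit 316012440743) (nat_lit 0) (nat_lit 103779342380) (nat_lit 2) (nat_lit 5) (nat_lit 4) (nat_lit 4) (nat_lit 2) (nat_lit 4) (nat_lit 381) (nat_lit 301) (nat_lit 218)) (XT.lf (nat_lit 0) (nat_lit 151264962251) (nat_lit 152) (nat_lit 308813416813) (nat_lit 0) (nat_lit 128799025680) (nat_lit 2) (nat_lit 5) (nat_lit 4) (nat_lit 4) (nat_lit 2) (nat_lit 4) (nat_lit 382) (nat_lit 301) (nat_lit 217))))) (XT.nd (nat_lit 234) (nat_lit 0) (nat_lit 0) (XT.nd (nat_lit 78) (nat_lit 0) (nat_lit 0) (XT.lf (nat_lit 0) (nat_lit 178285248073) (nat_lit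 152) (nat_lit 301046239622) (nat_lit 0) (nat_lit 155816715697) (nat_lit 2) (nat_lit 5) (nat_lit 4) (nat_lit 4) (nat_lit 2) (nat_lit 4) (nat_lit 383) (nat_lit 301) (nat_lit 216)) (XT.nd (nat_lit 78) (nat_lit 0) (nat_lit 0) (XT.lf (nat_lit 0) (nat_lit 207463453159) (nat_lit 152) (nat_lit 292664881455) (nat_lit 0) (nat_lit 184992517259) (nat_lit 2) (nat_lit 5) (nat_lit 4) (nat_lit 4) (nat_lit 2) (nat_lit 4) (nat_lit 384) (nat_lit 301) (nat_lit 215)) (XT.lf (nat_lit 0) (nat_lit 238972485391) (nat_lit 152) (nat_lit 283619675004) (nat_lit 0) (nat_lit 216499324006) (nat_lit 2) (nat_lit 5) (nat_lit 4) (nat_lit 4) (nat_lit 2) (nat_lit 4) (nat_lit 385) (nat_lit 301) (nat_lit 214)))) (XT.nd (nat_lit 78) (nat_lit 0) (nat_lit 0) (XT.lf (nat_lit 0) (nat_lit 272999064959) (nat_lit 152) (nat_lit 273857019044) (nat_lit 0) (nat_lit 250523842940) (nat_lit 2) (nat_lit 5) (nat_lit 4) (nat_lit 4) (nat_lit 2)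 (nat_lit 4) (nat_lit 386) (nat_lit 301) (nat_lit 213)) (XT.nd (nat_lit 78) (nat_lit 0) (nat_lit 0) (XT.lf (nat_lit 0) (nat_lit 309744830855) (nat_lit 152) (nat_lit 263319060800) (nat_lit 0) (nat_lit 287267700841) (nat_lit 2) (nat_lit 5) (nat_lit 4) (nat_lit 4) (nat_lit 2) (nat_lit 4) (nat_lit 387) (nat_lit 301) (nat_lit 212)) (XT.lf (nat_lit 0) (nat_lit 349427535765) (nat_lit 152) (nat_lit 251943353113) (nat_lit 0) (nat_lit 326948639089) (nat_lit 2) (nat_lit 5) (nat_lit 4) (nat_lit 4) (nat_lit 2) (nat_lit 4) (nat_lit 388) (nat_lit 301) (nat_lit 211))))))))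
noncomputable def xc51 : XT := (XT.nd (nat_lit 41652) (nat_lit 0) (nat_lit 988) (XT.nd (nat_lit 40716) (nat_lit 0) (nat_lit 3876) (XT.nd (nat_lit 40248) (nat_lit 0) (nat_lit 8512) (XT.nd (nat_lit 156) (nat_lit 0) (nat_lit 0) (XT.nd (nat_lit 78) (nat_lit 0) (nat_lit 0) (XT.lf (nat_lit 0) (nat_lit 392282336458) (nat_lit 152) (nat_lit 239662484380) (nat_lit 0) (nat_lit 369801803984) (nat_lit 2) (nat_lit 5) (nat_lit 4) (nat_lit 4) (nat_lit 2) (nat_lit 4) (nat_lit 389) (nat_lit 301) (nat_lit 210)) (XT.lf (nat_lit 0) (nat_lit 438563187309) (nat_lit 152) (nat_lit 226403679084) (nat_lit 0) (nat_lit 416081140207) (nat_lit 2) (nat_lit 5) (nat_lit 4) (nat_lit 4) (nat_lit 2) (nat_lit 4) (nat_lit 390) (nat_lit 301) (nat_lit 209))) (XT.nd (nat_lit 39936) (nat_lit 0) (nat_lit 10260) (XT.lf (nat_lit 0) (nat_lit 488544345212) (nat_lit 152) (nat_lit 212088366526) (nat_lit 0) (nat_lit 466060895678) (nat_lit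 2) (nat_lit 5) (nat_lit 4) (nat_lit 4) (nat_lit 2) (nat_lit 4) (nat_lit 391) (nat_lit 301) (nat_lit 208)) (XT.nd (nat_lit 78) (nat_lit 380) (nat_lit 0) (XT.lf (nat_lit 0) (nat_lit 1060276742) (nat_lit 0) (nat_lit 1060276742) (nat_lit 228) (nat_lit 1158657535) (nat_lit 142) (nat_lit 5) (nat_lit 142) (nat_lit 3) (nat_lit 145) (nat_lit 3) (nat_lit 302) (nat_lit 302) (nat_lit 296)) (XT.lf (nat_lit 76) (nat_lit 532508367) (nat_lit 0) (nat_lit 865005067) (nat_lit 380) (nat_lit 5230208157) (nat_lit 138) (nat_lit 5) (nat_lit 137) (nat_lit 3) (nat_lit 142) (nat_lit 5) (nat_lit 303) (nat_lit 302) (nat_lit 295))))) (XT.nd (nat_lit 234) (nat_lit 1444) (nat_lit 0) (XT.nd (nat_lit 78) (nat_lit 380) (nat_lit 0) (XT.lf (nat_lit 0) (nat_lit 5042820984) (nat_lit 304) (nat_lit 912438683) (nat_lit 380) (nat_lit 760522334) (nat_lit 138) (nat_lit 5) (nat_lit 142) (nat_lit 5) (nat_lit 143) (nat_lit 5) (nat_lit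 304) (nat_lit 302) (nat_lit 294)) (XT.nd (nat_lit 78) (nat_lit 0) (nat_lit 0) (XT.lf (nat_lit 0) (nat_lit 1835788109) (nat_lit 380) (nat_lit 2244368145) (nat_lit 456) (nat_lit 2742961956) (nat_lit 133) (nat_lit 5) (nat_lit 138) (nat_lit 5) (nat_lit 139) (nat_lit 5) (nat_lit 305) (nat_lit 302) (nat_lit 293)) (XT.lf (nat_lit 76) (nat_lit 3475757147) (nat_lit 0) (nat_lit 1833323386) (nat_lit 456) (nat_lit 1642152866) (nat_lit 134) (nat_lit 5) (nat_lit 133) (nat_lit 5) (nat_lit 139) (nat_lit 5) (nat_lit 306) (nat_lit 302) (nat_lit 292)))) (XT.nd (nat_lit 78) (nat_lit 1064) (nat_lit 0) (XT.lf (nat_lit 0) (nat_lit 1685475591) (nat_lit 456) (nat_lit 4631411430) (nat_lit 76) (nat_lit 782882004) (nat_lit 128) (nat_lit 5) (nat_lit 134) (nat_lit 5) (nat_lit 129) (nat_lit 5) (nat_lit 307) (nat_lit 302) (nat_lit 291)) (XT.nd (nat_lit 78) (nat_lit 608) (nat_lit 0) (XT.lf (nat_lit 0) (nat_lit 1524037631)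 (nat_lit 456) (nat_lit 3522987924) (nat_lit 532) (nat_lit 2221113957) (nat_lit 122) (nat_lit 5) (nat_lit 128) (nat_lit 5) (nat_lit 129) (nat_lit 5) (nat_lit 308) (nat_lit 302) (nat_lit 290)) (XT.lf (nat_lit 0) (nat_lit 672458719) (nat_lit 532) (nat_lit 329850123) (nat_lit 608) (nat_lit 6456502730) (nat_lit 114) (nat_lit 5) (nat_lit 121) (nat_lit 5) (nat_lit 122) (nat_lit 5) (nat_lit 309) (nat_lit 302) (nat_lit 289)))))) (XT.nd (nat_lit 468) (nat_lit 1824) (nat_lit 0) (XT.nd (nat_lit 234) (nat_lit 1444) (nat_lit 0) (XT.nd (nat_lit 78) (nat_lit 1368) (nat_lit 0) (XT.lf (nat_lit 0) (nat_lit 4296930102) (nat_lit 608) (nat_lit 164739227) (nat_lit 76) (nat_lit 3207147853) (nat_lit 114) (nat_lit 5) (nat_lit 122) (nat_lit 5) (nat_lit 115) (nat_lit 5) (nat_lit 310) (nat_lit 302) (nat_lit 288)) (XT.nd (nat_lit 78) (nat_lit 760) (nat_lit 0) (XT.lf (nat_lit 0) (nat_lit 6996946529) (nat_lit 608) (nat_lit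 731969287) (nat_lit 684) (nat_lit 173441255) (nat_lit 106) (nat_lit 5) (nat_lit 114) (nat_lit 5) (nat_lit 115) (nat_lit 5) (nat_lit 311) (nat_lit 302) (nat_lit 287)) (XT.lf (nat_lit 0) (nat_lit 3104834144) (nat_lit 760) (nat_lit 1679172249) (nat_lit 76) (nat_lit 3371937958) (nat_lit 96) (nat_lit 5) (nat_lit 106) (nat_lit 5) (nat_lit 97) (nat_lit 5) (nat_lit 312) (nat_lit 302) (nat_lit 286)))) (XT.nd (nat_lit 78) (nat_lit 760) (nat_lit 0) (XT.lf (nat_lit 0) (nat_lit 6020554907) (nat_lit 684) (nat_lit 525098248) (nat_lit 760) (nat_lit 1889051236) (nat_lit 87) (nat_lit 5) (nat_lit 96) (nat_lit 5) (nat_lit 97) (nat_lit 5) (nat_lit 313) (nat_lit 302) (nat_lit 285)) (XT.nd (nat_lit 78) (nat_lit 304) (nat_lit 0) (XT.lf (nat_lit 0) (nat_lit 1453506880) (nat_lit 456) (nat_lit 3195602744) (nat_lit 76) (nat_lit 4086950602) (nat_lit 81) (nat_lit 5) (nat_lit 87) (nat_lit 5) (nat_lit 82) (nat_lit 5)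 (nat_lit 314) (nat_lit 302) (nat_lit 284)) (XT.lf (nat_lit 0) (nat_lit 4936373994) (nat_lit 380) (nat_lit 3994849323) (nat_lit 76) (nat_lit 132080824) (nat_lit 77) (nat_lit 5) (nat_lit 82) (nat_lit 5) (nat_lit 78) (nat_lit 5) (nat_lit 315) (nat_lit 302) (nat_lit 283))))) (XT.nd (nat_lit 234) (nat_lit 836) (nat_lit 0) (XT.nd (nat_lit 78) (nat_lit 684) (nat_lit 0) (XT.lf (nat_lit 0) (nat_lit 4551633779) (nat_lit 304) (nat_lit 4168638407) (nat_lit 380) (nat_lit 695596768) (nat_lit 73) (nat_lit 5) (nat_lit 77) (nat_lit 5) (nat_lit 78) (nat_lit 5) (nat_lit 316) (nat_lit 302) (nat_lit 282)) (XT.nd (nat_lit 78) (nat_lit 304) (nat_lit 0) (XT.lf (nat_lit 0) (nat_lit 2888669724) (nat_lit 380) (nat_lit 5808524218) (nat_lit 76) (nat_lit 1098587018) (nat_lit 68) (nat_lit 5) (nat_lit 73) (nat_lit 5) (nat_lit 69) (nat_lit 5) (nat_lit 317) (nat_lit 302) (nat_lit 281)) (XT.lf (nat_lit 0) (nat_lit 3337469177)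 (nat_lit 304) (nat_lit 3439974757) (nat_lit 380) (nat_lit 3426178488) (nat_lit 64) (nat_lit 5) (nat_lit 68) (nat_lit 5) (nat_lit 69) (nat_lit 5) (nat_lit 318) (nat_lit 302) (nat_lit 280)))) (XT.nd (nat_lit 78) (nat_lit 532) (nat_lit 0) (XT.lf (nat_lit 0) (nat_lit 343503891) (nat_lit 304) (nat_lit 8020986679) (nat_lit 76) (nat_lit 2278481748) (nat_lit 60) (nat_lit 5) (nat_lit 64) (nat_lit 5) (nat_lit 61) (nat_lit 5) (nat_lit 319) (nat_lit 302) (nat_lit 279)) (XT.nd (nat_lit 78) (nat_lit 228) (nat_lit 0) (XT.lf (nat_lit 0) (nat_lit 1741265661) (nat_lit 304) (nat_lit 2609847924) (nat_lit 380) (nat_lit 6760903131) (nat_lit 56) (nat_lit 5) (nat_lit 60) (nat_lit 5) (nat_lit 61) (nat_lit 5) (nat_lit 320) (nat_lit 302) (nat_lit 278)) (XT.lf (nat_lit 0) (nat_lit 726463490) (nat_lit 228) (nat_lit 8018076627) (nat_lit 304) (nat_lit 2870945556) (nat_lit 53) (nat_lit 5) (nat_lit 56) (nat_lit 5) (nat_lit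 57) (nat_lit 5) (nat_lit 321) (nat_lit 302) (nat_lit 277))))))) (XT.nd (nat_lit 858) (nat_lit 1064) (nat_lit 0) (XT.nd (nat_lit 390) (nat_lit 912) (nat_lit 0) (XT.nd (nat_lit 156) (nat_lit 608) (nat_lit 0) (XT.nd (nat_lit 78) (nat_lit 228) (nat_lit 0) (XT.lf (nat_lit 0) (nat_lit 1358480288) (nat_lit 304) (nat_lit 446132730) (nat_lit 76) (nat_lit 10350180718) (nat_lit 52) (nat_lit 5) (nat_lit 56) (nat_lit 5) (nat_lit 53) (nat_lit 5) (nat_lit 322) (nat_lit 302) (nat_lit 276)) (XT.lf (nat_lit 0) (nat_lit 5948696177) (nat_lit 304) (nat_lit 1857183602) (nat_lit 76) (nat_lit 4922994227) (nat_lit 49) (nat_lit 5) (nat_lit 53) (nat_lit 5) (nat_lit 50) (nat_lit 5) (nat_lit 323) (nat_lit 302) (nat_lit 275))) (XT.nd (nat_lit 78) (nat_lit 456) (nat_lit 0) (XT.lf (nat_lit 0) (nat_lit 9870754388) (nat_lit 152) (nat_lit 1105130575) (nat_lit 228) (nat_lit 2369629983) (nat_lit 47) (nat_lit 5) (nat_lit 49)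 (nat_lit 5) (nat_lit 50) (nat_lit 5) (nat_lit 324) (nat_lit 302) (nat_lit 274)) (XT.nd (nat_lit 78) (nat_lit 152) (nat_lit 0) (XT.lf (nat_lit 0) (nat_lit 2465211749) (nat_lit 304) (nat_lit 5446169546) (nat_lit 76) (nat_lit 6090941541) (nat_lit 43) (nat_lit 5) (nat_lit 47) (nat_lit 5) (nat_lit 44) (nat_lit 5) (nat_lit 325) (nat_lit 302) (nat_lit 273)) (XT.lf (nat_lit 0) (nat_lit 6957419558) (nat_lit 152) (nat_lit 723370213) (nat_lit 228) (nat_lit 7025194443) (nat_lit 41) (nat_lit 5) (nat_lit 43) (nat_lit 5) (nat_lit 44) (nat_lit 5) (nat_lit 326) (nat_lit 302) (nat_lit 272))))) (XT.nd (nat_lit 234) (nat_lit 532) (nat_lit 0) (XT.nd (nat_lit 78) (nat_lit 228) (nat_lit 0) (XT.lf (nat_lit 0) (nat_lit 4966261793) (nat_lit 152) (nat_lit 8523241849) (nat_lit 228) (nat_lit 1967732641) (nat_lit 39) (nat_lit 5) (nat_lit 41) (nat_lit 5) (nat_lit 42) (nat_lit 5) (nat_lit 327) (nat_lit 302) (nat_lit 271))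 (XT.nd (nat_lit 78) (nat_lit 0) (nat_lit 0) (XT.lf (nat_lit 0) (nat_lit 2562128600) (nat_lit 152) (nat_lit 905493168) (nat_lit 228) (nat_lit 12794063498) (nat_lit 36) (nat_lit 5) (nat_lit 38) (nat_lit 5) (nat_lit 39) (nat_lit 5) (nat_lit 328) (nat_lit 302) (nat_lit 270)) (XT.lf (nat_lit 0) (nat_lit 9469956924) (nat_lit 228) (nat_lit 398764119) (nat_lit 76) (nat_lit 7250176949) (nat_lit 36) (nat_lit 5) (nat_lit 39) (nat_lit 5) (nat_lit 37) (nat_lit 5) (nat_lit 329) (nat_lit 302) (nat_lit 269)))) (XT.nd (nat_lit 78) (nat_lit 380) (nat_lit 0) (XT.lf (nat_lit 0) (nat_lit 14258065868) (nat_lit 152) (nat_lit 1839805207) (nat_lit 228) (nat_lit 1939616805) (nat_lit 34) (nat_lit 5) (nat_lit 36) (nat_lit 5) (nat_lit 37) (nat_lit 5) (nat_lit 330) (nat_lit 302) (nat_lit 268)) (XT.nd (nat_lit 78) (nat_lit 152) (nat_lit 0) (XT.lf (nat_lit 0) (nat_lit 4293898339) (nat_lit 228) (nat_lit 7911704809) (nat_lit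 76) (nat_lit 6810588086) (nat_lit 31) (nat_lit 5) (nat_lit 34) (nat_lit 5) (nat_lit 32) (nat_lit 5) (nat_lit 331) (nat_lit 302) (nat_lit 267)) (XT.lf (nat_lit 0) (nat_lit 7269259373) (nat_lit 152) (nat_lit 3815451283) (nat_lit 228) (nat_lit 8980618770) (nat_lit 29) (nat_lit 5) (nat_lit 31) (nat_lit 5) (nat_lit 32) (nat_lit 5) (nat_lit 332) (nat_lit 302) (nat_lit 266)))))) (XT.nd (nat_lit 468) (nat_lit 456) (nat_lit 0) (XT.nd (nat_lit 234) (nat_lit 304) (nat_lit 0) (XT.nd (nat_lit 78) (nat_lit 228) (nat_lit 0) (XT.lf (nat_lit 0) (nat_lit 2615432541) (nat_lit 76) (nat_lit 15983763162) (nat_lit 152) (nat_lit 2590235316) (nat_lit 28) (nat_lit 5) (nat_lit 29) (nat_lit 5) (nat_lit 30) (nat_lit 4) (nat_lit 333) (nat_lit 302) (nat_lit 265)) (XT.nd (nat_lit 78) (nat_lit 152) (nat_lit 0) (XT.lf (nat_lit 0) (nat_lit 4384554146) (nat_lit 152) (nat_lit 2947256945) (nat_lit 76) (nat_lit 15057772195)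 (nat_lit 27) (nat_lit 5) (nat_lit 29) (nat_lit 5) (nat_lit 28) (nat_lit 5) (nat_lit 334) (nat_lit 302) (nat_lit 264)) (XT.lf (nat_lit 0) (nat_lit 12010854852) (nat_lit 228) (nat_lit 9496581669) (nat_lit 76) (nat_lit 2167017262) (nat_lit 25) (nat_lit 5) (nat_lit 28) (nat_lit 5) (nat_lit 26) (nat_lit 4) (nat_lit 335) (nat_lit 302) (nat_lit 263)))) (XT.nd (nat_lit 78) (nat_lit 228) (nat_lit 0) (XT.lf (nat_lit 0) (nat_lit 7717651177) (nat_lit 76) (nat_lit 12754885346) (nat_lit 152) (nat_lit 4578353419) (nat_lit 24) (nat_lit 5) (nat_lit 25) (nat_lit 5) (nat_lit 26) (nat_lit 4) (nat_lit 336) (nat_lit 302) (nat_lit 262)) (XT.nd (nat_lit 78) (nat_lit 152) (nat_lit 0) (XT.lf (nat_lit 0) (nat_lit 3074715193) (nat_lit 152) (nat_lit 52267909) (nat_lit 76) (nat_lit 23403124515) (nat_lit 23) (nat_lit 5) (nat_lit 25) (nat_lit 5) (nat_lit 24) (nat_lit 5) (nat_lit 337) (nat_lit 302) (nat_lit 261)) (XT.lf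 (nat_lit 0) (nat_lit 11534154771) (nat_lit 228) (nat_lit 9199575380) (nat_lit 76) (nat_lit 7372485925) (nat_lit 21) (nat_lit 5) (nat_lit 24) (nat_lit 5) (nat_lit 22) (nat_lit 4) (nat_lit 338) (nat_lit 302) (nat_lit 260))))) (XT.nd (nat_lit 234) (nat_lit 228) (nat_lit 0) (XT.nd (nat_lit 78) (nat_lit 152) (nat_lit 0) (XT.lf (nat_lit 0) (nat_lit 9725185361) (nat_lit 76) (nat_lit 11089320153) (nat_lit 152) (nat_lit 8986730040) (nat_lit 20) (nat_lit 5) (nat_lit 21) (nat_lit 5) (nat_lit 22) (nat_lit 4) (nat_lit 339) (nat_lit 302) (nat_lit 259)) (XT.nd (nat_lit 78) (nat_lit 152) (nat_lit 0) (XT.lf (nat_lit 0) (nat_lit 30388081701) (nat_lit 76) (nat_lit 551033718) (nat_lit 152) (nat_lit 687677525) (nat_lit 20) (nat_lit 5) (nat_lit 21) (nat_lit 5) (nat_lit 22) (nat_lit 4) (nat_lit 340) (nat_lit 302) (nat_lit 258)) (XT.lf (nat_lit 0) (nat_lit 8435439397) (nat_lit 152) (nat_lit 14252875924) (nat_lit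 76) (nat_lit 10882394110) (nat_lit 18) (nat_lit 5) (nat_lit 20) (nat_lit 5) (nat_lit 19) (nat_lit 4) (nat_lit 341) (nat_lit 302) (nat_lit 257)))) (XT.nd (nat_lit 78) (nat_lit 152) (nat_lit 0) (XT.lf (nat_lit 0) (nat_lit 5967654052) (nat_lit 76) (nat_lit 12368322666) (nat_lit 152) (nat_lit 17330038443) (nat_lit 17) (nat_lit 5) (nat_lit 18) (nat_lit 5) (nat_lit 19) (nat_lit 4) (nat_lit 342) (nat_lit 302) (nat_lit 256)) (XT.nd (nat_lit 78) (nat_lit 152) (nat_lit 0) (XT.lf (nat_lit 0) (nat_lit 28222789084) (nat_lit 76) (nat_lit 1003484547) (nat_lit 152) (nat_lit 8692806986) (nat_lit 17) (nat_lit 5) (nat_lit 18) (nat_lit 5) (nat_lit 19) (nat_lit 4) (nat_lit 343) (nat_lit 302) (nat_lit 255)) (XT.lf (nat_lit 0) (nat_lit 936575392) (nat_lit 152) (nat_lit 28323698794) (nat_lit 76) (nat_lit 11075564246) (nat_lit 15) (nat_lit 5) (nat_lit 17) (nat_lit 5) (nat_lit 16) (nat_lit 4) (nat_lit 344) (nat_lit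 302) (nat_lit 254))))))))
noncomputable def xc52 : XT := (XT.nd (nat_lit 1716) (nat_lit 228) (nat_lit 0) (XT.nd (nat_lit 858) (nat_lit 228) (nat_lit 0) (XT.nd (nat_lit 390) (nat_lit 304) (nat_lit 0) (XT.nd (nat_lit 156) (nat_lit 152) (nat_lit 0) (XT.nd (nat_lit 78) (nat_lit 76) (nat_lit 0) (XT.lf (nat_lit 0) (nat_lit 11178460749) (nat_lit 152) (nat_lit 7384968210) (nat_lit 76) (nat_lit 24368064590) (nat_lit 15) (nat_lit 5) (nat_lit 17) (nat_lit 5) (nat_lit 16) (nat_lit 4) (nat_lit 345) (nat_lit 302) (nat_lit 253)) (XT.lf (nat_lit 0) (nat_lit 15651369854) (nat_lit 76) (nat_lit 6790134936) (nat_lit 152) (nat_lit 23283221845) (nat_lit 14) (nat_lit 5) (nat_lit 15) (nat_lit 5) (nat_lit 16) (nat_lit 4) (nat_lit 346) (nat_lit 302) (nat_lit 252))) (XT.nd (nat_lit 78) (nat_lit 152) (nat_lit 0) (XT.lf (nat_lit 0) (nat_lit 34787737860) (nat_lit 152) (nat_lit 8111801098) (nat_lit 0) (nat_lit 5832786904)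 (nat_lit 14) (nat_lit 5) (nat_lit 16) (nat_lit 4) (nat_lit 14) (nat_lit 4) (nat_lit 347) (nat_lit 302) (nat_lit 251)) (XT.nd (nat_lit 78) (nat_lit 76) (nat_lit 0) (XT.lf (nat_lit 0) (nat_lit 15931222925) (nat_lit 76) (nat_lit 32515606062) (nat_lit 76) (nat_lit 3517459748) (nat_lit 13) (nat_lit 4) (nat_lit 14) (nat_lit 5) (nat_lit 14) (nat_lit 4) (nat_lit 348) (nat_lit 302) (nat_lit 250)) (XT.lf (nat_lit 0) (nat_lit 7602694654) (nat_lit 152) (nat_lit 13452617975) (nat_lit 76) (nat_lit 34388127562) (nat_lit 12) (nat_lit 5) (nat_lit 14) (nat_lit 5) (nat_lit 13) (nat_lit 4) (nat_lit 349) (nat_lit 302) (nat_lit 249))))) (XT.nd (nat_lit 234) (nat_lit 228) (nat_lit 0) (XT.nd (nat_lit 78) (nat_lit 0) (nat_lit 0) (XT.lf (nat_lit 0) (nat_lit 11168515591) (nat_lit 76) (nat_lit 8462553026) (nat_lit 152) (nat_lit 39559891057) (nat_lit 11) (nat_lit 5) (nat_lit 12) (nat_lit 5) (nat_lit 13) (nat_lit 4)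 (nat_lit 350) (nat_lit 302) (nat_lit 248)) (XT.nd (nat_lit 78) (nat_lit 0) (nat_lit 0) (XT.lf (nat_lit 0) (nat_lit 32907057268) (nat_lit 152) (nat_lit 25133209227) (nat_lit 0) (nat_lit 5183757322) (nat_lit 11) (nat_lit 5) (nat_lit 13) (nat_lit 4) (nat_lit 11) (nat_lit 4) (nat_lit 351) (nat_lit 302) (nat_lit 247)) (XT.lf (nat_lit 0) (nat_lit 47357221437) (nat_lit 152) (nat_lit 613232894) (nat_lit 0) (nat_lit 19603683512) (nat_lit 11) (nat_lit 5) (nat_lit 13) (nat_lit 4) (nat_lit 11) (nat_lit 4) (nat_lit 352) (nat_lit 302) (nat_lit 246)))) (XT.nd (nat_lit 78) (nat_lit 152) (nat_lit 0) (XT.lf (nat_lit 0) (nat_lit 26668470244) (nat_lit 76) (nat_lit 36682966874) (nat_lit 76) (nat_lit 8901430819) (nat_lit 10) (nat_lit 4) (nat_lit 11) (nat_lit 5) (nat_lit 11) (nat_lit 4) (nat_lit 353) (nat_lit 302) (nat_lit 245)) (XT.nd (nat_lit 78) (nat_lit 76) (nat_lit 0) (XT.lf (nat_lit 0) (nat_lit 3196431160)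 (nat_lit 152) (nat_lit 21254776367) (nat_lit 76) (nat_lit 52852936772) (nat_lit 9) (nat_lit 5) (nat_lit 11) (nat_lit 5) (nat_lit 10) (nat_lit 4) (nat_lit 354) (nat_lit 302) (nat_lit 244)) (XT.lf (nat_lit 0) (nat_lit 4982418966) (nat_lit 76) (nat_lit 11024353276) (nat_lit 152) (nat_lit 66742635867) (nat_lit 8) (nat_lit 5) (nat_lit 9) (nat_lit 5) (nat_lit 10) (nat_lit 4) (nat_lit 355) (nat_lit 302) (nat_lit 243)))))) (XT.nd (nat_lit 390) (nat_lit 152) (nat_lit 0) (XT.nd (nat_lit 156) (nat_lit 76) (nat_lit 0) (XT.nd (nat_lit 78) (nat_lit 0) (nat_lit 0) (XT.lf (nat_lit 0) (nat_lit 30247914230) (nat_lit 152) (nat_lit 54641496343) (nat_lit 0) (nat_lit 3720590470) (nat_lit 8) (nat_lit 5) (nat_lit 10) (nat_lit 4) (nat_lit 8) (nat_lit 4) (nat_lit 356) (nat_lit 302) (nat_lit 242)) (XT.lf (nat_lit 0) (nat_lit 45791441373) (nat_lit 152) (nat_lit 29895333426) (nat_lit 0) (nat_lit 19244518127) (nat_lit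 8) (nat_lit 5) (nat_lit 10) (nat_lit 4) (nat_lit 8) (nat_lit 4) (nat_lit 357) (nat_lit 302) (nat_lit 241))) (XT.nd (nat_lit 78) (nat_lit 76) (nat_lit 0) (XT.lf (nat_lit 0) (nat_lit 62557342413) (nat_lit 152) (nat_lit 3209735415) (nat_lit 0) (nat_lit 35992271494) (nat_lit 8) (nat_lit 5) (nat_lit 10) (nat_lit 4) (nat_lit 8) (nat_lit 4) (nat_lit 358) (nat_lit 302) (nat_lit 240)) (XT.nd (nat_lit 78) (nat_lit 0) (nat_lit 0) (XT.lf (nat_lit 0) (nat_lit 26419007807) (nat_lit 76) (nat_lit 54638437779) (nat_lit 76) (nat_lit 28056563460) (nat_lit 7) (nat_lit 4) (nat_lit 8) (nat_lit 5) (nat_lit 8) (nat_lit 4) (nat_lit 359) (nat_lit 302) (nat_lit 239)) (XT.lf (nat_lit 0) (nat_lit 58497013200) (nat_lit 76) (nat_lit 42577801702) (nat_lit 76) (nat_lit 15980368678) (nat_lit 7) (nat_lit 4) (nat_lit 8) (nat_lit 5) (nat_lit 8) (nat_lit 4) (nat_lit 360) (nat_lit 302) (nat_lit 238))))) (XT.nd (nat_lit 234)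 (nat_lit 0) (nat_lit 0) (XT.nd (nat_lit 78) (nat_lit 152) (nat_lit 0) (XT.lf (nat_lit 0) (nat_lit 93108244297) (nat_lit 76) (nat_lit 29568057583) (nat_lit 76) (nat_lit 2956218352) (nat_lit 7) (nat_lit 4) (nat_lit 8) (nat_lit 5) (nat_lit 8) (nat_lit 4) (nat_lit 361) (nat_lit 302) (nat_lit 237)) (XT.nd (nat_lit 78) (nat_lit 76) (nat_lit 0) (XT.lf (nat_lit 0) (nat_lit 10738020226) (nat_lit 152) (nat_lit 4612236848) (nat_lit 76) (nat_lit 119537930896) (nat_lit 6) (nat_lit 5) (nat_lit 8) (nat_lit 5) (nat_lit 7) (nat_lit 4) (nat_lit 362) (nat_lit 302) (nat_lit 236)) (XT.lf (nat_lit 0) (nat_lit 25828517193) (nat_lit 152) (nat_lit 118573716331) (nat_lit 0) (nat_lit 459441657) (nat_lit 5) (nat_lit 5) (nat_lit 7) (nat_lit 4) (nat_lit 5) (nat_lit 4) (nat_lit 363) (nat_lit 302) (nat_lit 235)))) (XT.nd (nat_lit 78) (nat_lit 0) (nat_lit 0) (XT.lf (nat_lit 0) (nat_lit 42452171260) (nat_lit 152) (nat_lit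 96092373503) (nat_lit 0) (nat_lit 17072204189) (nat_lit 5) (nat_lit 5) (nat_lit 7) (nat_lit 4) (nat_lit 5) (nat_lit 4) (nat_lit 364) (nat_lit 302) (nat_lit 234)) (XT.nd (nat_lit 78) (nat_lit 0) (nat_lit 0) (XT.lf (nat_lit 0) (nat_lit 60392221998) (nat_lit 152) (nat_lit 71838514431) (nat_lit 0) (nat_lit 35002170171) (nat_lit 5) (nat_lit 5) (nat_lit 7) (nat_lit 4) (nat_lit 5) (nat_lit 4) (nat_lit 365) (nat_lit 302) (nat_lit 233)) (XT.lf (nat_lit 0) (nat_lit 79754980817) (nat_lit 152) (nat_lit 45668412543) (nat_lit 0) (nat_lit 54355591254) (nat_lit 5) (nat_lit 5) (nat_lit 7) (nat_lit 4) (nat_lit 5) (nat_lit 4) (nat_lit 366) (nat_lit 302) (nat_lit 232))))))) (XT.nd (nat_lit 858) (nat_lit 0) (nat_lit 0) (XT.nd (nat_lit 390) (nat_lit 152) (nat_lit 0) (XT.nd (nat_lit 156) (nat_lit 0) (nat_lit 0) (XT.nd (nat_lit 78) (nat_lit 76) (nat_lit 0) (XT.lf (nat_lit 0) (nat_lit 100655189992) (nat_lit 152)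 (nat_lit 17426985755) (nat_lit 0) (nat_lit 75247154378) (nat_lit 5) (nat_lit 5) (nat_lit 7) (nat_lit 4) (nat_lit 5) (nat_lit 4) (nat_lit 367) (nat_lit 302) (nat_lit 231)) (XT.lf (nat_lit 0) (nat_lit 13484717716) (nat_lit 76) (nat_lit 109942519133) (nat_lit 76) (nat_lit 84526477915) (nat_lit 4) (nat_lit 4) (nat_lit 5) (nat_lit 5) (nat_lit 5) (nat_lit 4) (nat_lit 368) (nat_lit 302) (nat_lit 230))) (XT.nd (nat_lit 78) (nat_lit 0) (nat_lit 0) (XT.lf (nat_lit 0) (nat_lit 47471933536) (nat_lit 76) (nat_lit 100842452924) (nat_lit 76) (nat_lit 75418999111) (nat_lit 4) (nat_lit 4) (nat_lit 5) (nat_lit 5) (nat_lit 5) (nat_lit 4) (nat_lit 369) (nat_lit 302) (nat_lit 229)) (XT.nd (nat_lit 78) (nat_lit 0) (nat_lit 0) (XT.lf (nat_lit 0) (nat_lit 84159852576) (nat_lit 76) (nat_lit 91023185240) (nat_lit 76) (nat_lit 65592867911) (nat_lit 4) (nat_lit 4) (nat_lit 5) (nat_lit 5) (nat_lit 5) (nat_lit 4) (nat_lit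 370) (nat_lit 302) (nat_lit 228)) (XT.lf (nat_lit 0) (nat_lit 123765884726) (nat_lit 76) (nat_lit 80426527826) (nat_lit 76) (nat_lit 54989855392) (nat_lit 4) (nat_lit 4) (nat_lit 5) (nat_lit 5) (nat_lit 5) (nat_lit 4) (nat_lit 371) (nat_lit 302) (nat_lit 227))))) (XT.nd (nat_lit 234) (nat_lit 152) (nat_lit 0) (XT.nd (nat_lit 78) (nat_lit 0) (nat_lit 0) (XT.lf (nat_lit 0) (nat_lit 166524732398) (nat_lit 76) (nat_lit 68989685677) (nat_lit 76) (nat_lit 43547128885) (nat_lit 4) (nat_lit 4) (nat_lit 5) (nat_lit 5) (nat_lit 5) (nat_lit 4) (nat_lit 372) (nat_lit 302) (nat_lit 226)) (XT.nd (nat_lit 78) (nat_lit 0) (nat_lit 0) (XT.lf (nat_lit 0) (nat_lit 212689781358) (nat_lit 76) (nat_lit 56644884913) (nat_lit 76) (nat_lit 31196879642) (nat_lit 4) (nat_lit 4) (nat_lit 5) (nat_lit 5) (nat_lit 5) (nat_lit 4) (nat_lit 373) (nat_lit 302) (nat_lit 225)) (XT.lf (nat_lit 0) (nat_lit 262534602264) (nat_lit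 76) (nat_lit 43318971159) (nat_lit 76) (nat_lit 17865920999) (nat_lit 4) (nat_lit 4) (nat_lit 5) (nat_lit 5) (nat_lit 5) (nat_lit 4) (nat_lit 374) (nat_lit 302) (nat_lit 224)))) (XT.nd (nat_lit 78) (nat_lit 152) (nat_lit 0) (XT.lf (nat_lit 0) (nat_lit 316354571835) (nat_lit 76) (nat_lit 28932976037) (nat_lit 76) (nat_lit 3475254684) (nat_lit 4) (nat_lit 4) (nat_lit 5) (nat_lit 5) (nat_lit 5) (nat_lit 4) (nat_lit 375) (nat_lit 302) (nat_lit 223)) (XT.nd (nat_lit 78) (nat_lit 76) (nat_lit 0) (XT.lf (nat_lit 0) (nat_lit 11674389291) (nat_lit 152) (nat_lit 1529548482) (nat_lit 76) (nat_lit 362596522499) (nat_lit 3) (nat_lit 5) (nat_lit 5) (nat_lit 5) (nat_lit 4) (nat_lit 4) (nat_lit 376) (nat_lit 302) (nat_lit 222)) (XT.lf (nat_lit 0) (nat_lit 28490699211) (nat_lit 152) (nat_lit 372241444515) (nat_lit 0) (nat_lit 4237316996) (nat_lit 2) (nat_lit 5) (nat_lit 4) (nat_lit 4) (nat_lit 2) (nat_lit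 4) (nat_lit 377) (nat_lit 302) (nat_lit 221)))))) (XT.nd (nat_lit 468) (nat_lit 0) (nat_lit 0) (XT.nd (nat_lit 234) (nat_lit 0) (nat_lit 0) (XT.nd (nat_lit 78) (nat_lit 0) (nat_lit 0) (XT.lf (nat_lit 0) (nat_lit 46896595160) (nat_lit 152) (nat_lit 366923491726) (nat_lit 0) (nat_lit 22639681380) (nat_lit 2) (nat_lit 5) (nat_lit 4) (nat_lit 4) (nat_lit 2) (nat_lit 4) (nat_lit 378) (nat_lit 302) (nat_lit 220)) (XT.nd (nat_lit 78) (nat_lit 0) (nat_lit 0) (XT.lf (nat_lit 0) (nat_lit 66769924075) (nat_lit 152) (nat_lit 361189888981) (nat_lit 0) (nat_lit 42509740327) (nat_lit 2) (nat_lit 5) (nat_lit 4) (nat_lit 4) (nat_lit 2) (nat_lit 4) (nat_lit 379) (nat_lit 302) (nat_lit 219)) (XT.lf (nat_lit 0) (nat_lit 88228453831) (nat_lit 152) (nat_lit 355006659375) (nat_lit 0) (nat_lit 63965242336) (nat_lit 2) (nat_lit 5) (nat_lit 4) (nat_lit 4) (nat_lit 2) (nat_lit 4) (nat_lit 380) (nat_lit 302) (nat_lit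 218)))) (XT.nd (nat_lit 78) (nat_lit 0) (nat_lit 0) (XT.lf (nat_lit 0) (nat_lit 111399346087) (nat_lit 152) (nat_lit 348337161546) (nat_lit 0) (nat_lit 87133331121) (nat_lit 2) (nat_lit 5) (nat_lit 4) (nat_lit 4) (nat_lit 2) (nat_lit 4) (nat_lit 381) (nat_lit 302) (nat_lit 217)) (XT.nd (nat_lit 78) (nat_lit 0) (nat_lit 0) (XT.lf (nat_lit 0) (nat_lit 136419909834) (nat_lit 152) (nat_lit 341141872546) (nat_lit 0) (nat_lit 112151299062) (nat_lit 2) (nat_lit 5) (nat_lit 4) (nat_lit 4) (nat_lit 2) (nat_lit 4) (nat_lit 382) (nat_lit 302) (nat_lit 216)) (XT.lf (nat_lit 0) (nat_lit 163438415078) (nat_lit 152) (nat_lit 333378153624) (nat_lit 0) (nat_lit 139167400782) (nat_lit 2) (nat_lit 5) (nat_lit 4) (nat_lit 4) (nat_lit 2) (nat_lit 4) (nat_lit 383) (nat_lit 302) (nat_lit 215))))) (XT.nd (nat_lit 234) (nat_lit 0) (nat_lit 0) (XT.nd (nat_lit 78) (nat_lit 0) (nat_lit 0) (XT.lf (nat_lit 0) (nat_lit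 192614971481) (nat_lit 152) (nat_lit 324999997558) (nat_lit 0) (nat_lit 168341731700) (nat_lit 2) (nat_lit 5) (nat_lit 4) (nat_lit 4) (nat_lit 2) (nat_lit 4) (nat_lit 384) (nat_lit 302) (nat_lit 214)) (XT.nd (nat_lit 78) (nat_lit 0) (nat_lit 0) (XT.lf (nat_lit 0) (nat_lit 224122477154) (nat_lit 152) (nat_lit 315957756014) (nat_lit 0) (nat_lit 199847176739) (nat_lit 2) (nat_lit 5) (nat_lit 4) (nat_lit 4) (nat_lit 2) (nat_lit 4) (nat_lit 385) (nat_lit 302) (nat_lit 213)) (XT.lf (nat_lit 0) (nat_lit 258147643243) (nat_lit 152) (nat_lit 306197845339) (nat_lit 0) (nat_lit 233870434833) (nat_lit 2) (nat_lit 5) (nat_lit 4) (nat_lit 4) (nat_lit 2) (nat_lit 4) (nat_lit 386) (nat_lit 302) (nat_lit 212)))) (XT.nd (nat_lit 78) (nat_lit 0) (nat_lit 0) (XT.lf (nat_lit 0) (nat_lit 294892100361) (nat_lit 152) (nat_lit 295662429026) (nat_lit 0) (nat_lit 270613125289) (nat_lit 2) (nat_lit 5) (nat_lit 4)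 (nat_lit 4) (nat_lit 2) (nat_lit 4) (nat_lit 387) (nat_lit 302) (nat_lit 211)) (XT.nd (nat_lit 78) (nat_lit 0) (nat_lit 0) (XT.lf (nat_lit 0) (nat_lit 334573593439) (nat_lit 152) (nat_lit 284289074978) (nat_lit 0) (nat_lit 310292982569) (nat_lit 2) (nat_lit 5) (nat_lit 4) (nat_lit 4) (nat_lit 2) (nat_lit 4) (nat_lit 388) (nat_lit 302) (nat_lit 210)) (XT.lf (nat_lit 0) (nat_lit 377427272066) (nat_lit 152) (nat_lit 272010385541) (nat_lit 0) (nat_lit 353145146569) (nat_lit 2) (nat_lit 5) (nat_lit 4) (nat_lit 4) (nat_lit 2) (nat_lit 4) (nat_lit 389) (nat_lit 302) (nat_lit 209))))))))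
noncomputable def xc53 : XT := (XT.nd (nat_lit 41652) (nat_lit 0) (nat_lit 988) (XT.nd (nat_lit 40794) (nat_lit 0) (nat_lit 3876) (XT.nd (nat_lit 40326) (nat_lit 0) (nat_lit 7828) (XT.nd (nat_lit 40092) (nat_lit 0) (nat_lit 9880) (XT.nd (nat_lit 78) (nat_lit 0) (nat_lit 0) (XT.lf (nat_lit 0) (nat_lit 423707083967) (nat_lit 152) (nat_lit 258753598111) (nat_lit 0) (nat_lit 399423556037) (nat_lit 2) (nat_lit 5) (nat_lit 4) (nat_lit 4) (nat_lit 2) (nat_lit 4) (nat_lit 390) (nat_lit 302) (nat_lit 208)) (XT.lf (nat_lit 0) (nat_lit 473687279880) (nat_lit 152) (nat_lit 244440153948) (nat_lit 0) (nat_lit 449402453400) (nat_lit 2) (nat_lit 5) (nat_lit 4) (nat_lit 4) (nat_lit 2) (nat_lit 4) (nat_lit 391) (nat_lit 302) (nat_lit 207))) (XT.nd (nat_lit 78) (nat_lit 380) (nat_lit 0) (XT.lf (nat_lit 0) (nat_lit 2421256827) (nat_lit 380) (nat_lit 465721374) (nat_lit 380) (nat_lit 465721374) (nat_lit 137)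 (nat_lit 3) (nat_lit 142) (nat_lit 3) (nat_lit 142) (nat_lit 5) (nat_lit 303) (nat_lit 303) (nat_lit 294)) (XT.nd (nat_lit 78) (nat_lit 0) (nat_lit 0) (XT.lf (nat_lit 0) (nat_lit 1442114703) (nat_lit 380) (nat_lit 2595442758) (nat_lit 456) (nat_lit 2764836523) (nat_lit 132) (nat_lit 5) (nat_lit 137) (nat_lit 3) (nat_lit 138) (nat_lit 5) (nat_lit 304) (nat_lit 303) (nat_lit 293)) (XT.lf (nat_lit 76) (nat_lit 2754777756) (nat_lit 0) (nat_lit 1923898201) (nat_lit 456) (nat_lit 2241010270) (nat_lit 133) (nat_lit 5) (nat_lit 132) (nat_lit 5) (nat_lit 138) (nat_lit 5) (nat_lit 305) (nat_lit 303) (nat_lit 292))))) (XT.nd (nat_lit 234) (nat_lit 1672) (nat_lit 0) (XT.nd (nat_lit 78) (nat_lit 0) (nat_lit 0) (XT.lf (nat_lit 0) (nat_lit 856728727) (nat_lit 456) (nat_lit 5646443526) (nat_lit 532) (nat_lit 554663005) (nat_lit 127) (nat_lit 5) (nat_lit 133) (nat_lit 5) (nat_lit 134) (nat_lit 5) (nat_lit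 306) (nat_lit 303) (nat_lit 291)) (XT.nd (nat_lit 78) (nat_lit 0) (nat_lit 0) (XT.lf (nat_lit 76) (nat_lit 114703775) (nat_lit 0) (nat_lit 3828090508) (nat_lit 532) (nat_lit 3272014210) (nat_lit 128) (nat_lit 5) (nat_lit 127) (nat_lit 5) (nat_lit 134) (nat_lit 5) (nat_lit 307) (nat_lit 303) (nat_lit 290)) (XT.lf (nat_lit 76) (nat_lit 6350257423) (nat_lit 0) (nat_lit 752390624) (nat_lit 532) (nat_lit 290865142) (nat_lit 128) (nat_lit 5) (nat_lit 127) (nat_lit 5) (nat_lit 134) (nat_lit 5) (nat_lit 308) (nat_lit 303) (nat_lit 289)))) (XT.nd (nat_lit 78) (nat_lit 1216) (nat_lit 0) (XT.lf (nat_lit 0) (nat_lit 2707488465) (nat_lit 532) (nat_lit 2193088710) (nat_lit 76) (nat_lit 2690485634) (nat_lit 121) (nat_lit 5) (nat_lit 128) (nat_lit 5) (nat_lit 122) (nat_lit 5) (nat_lit 309) (nat_lit 303) (nat_lit 288)) (XT.nd (nat_lit 78) (nat_lit 684) (nat_lit 0) (XT.lf (nat_lit 0) (nat_lit 4526679082)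 (nat_lit 532) (nat_lit 1272107936) (nat_lit 608) (nat_lit 2012651174) (nat_lit 114) (nat_lit 5) (nat_lit 121) (nat_lit 5) (nat_lit 122) (nat_lit 5) (nat_lit 310) (nat_lit 303) (nat_lit 287)) (XT.lf (nat_lit 0) (nat_lit 966086451) (nat_lit 684) (nat_lit 4371071328) (nat_lit 76) (nat_lit 2716161966) (nat_lit 105) (nat_lit 5) (nat_lit 114) (nat_lit 5) (nat_lit 106) (nat_lit 5) (nat_lit 311) (nat_lit 303) (nat_lit 286)))))) (XT.nd (nat_lit 390) (nat_lit 1824) (nat_lit 0) (XT.nd (nat_lit 156) (nat_lit 760) (nat_lit 0) (XT.nd (nat_lit 78) (nat_lit 684) (nat_lit 0) (XT.lf (nat_lit 0) (nat_lit 2855639296) (nat_lit 684) (nat_lit 1168814751) (nat_lit 760) (nat_lit 4293201686) (nat_lit 96) (nat_lit 5) (nat_lit 105) (nat_lit 5) (nat_lit 106) (nat_lit 5) (nat_lit 312) (nat_lit 303) (nat_lit 285)) (XT.lf (nat_lit 0) (nat_lit 2035165432) (nat_lit 684) (nat_lit 5253440624) (nat_lit 760) (nat_lit 1316797023)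 (nat_lit 87) (nat_lit 5) (nat_lit 96) (nat_lit 5) (nat_lit 97) (nat_lit 5) (nat_lit 313) (nat_lit 303) (nat_lit 284))) (XT.nd (nat_lit 78) (nat_lit 304) (nat_lit 0) (XT.lf (nat_lit 0) (nat_lit 1211515933) (nat_lit 380) (nat_lit 569260111) (nat_lit 456) (nat_lit 7137005378) (nat_lit 81) (nat_lit 5) (nat_lit 86) (nat_lit 5) (nat_lit 87) (nat_lit 5) (nat_lit 314) (nat_lit 303) (nat_lit 283)) (XT.nd (nat_lit 78) (nat_lit 0) (nat_lit 0) (XT.lf (nat_lit 0) (nat_lit 324217911) (nat_lit 304) (nat_lit 4767633060) (nat_lit 380) (nat_lit 4161889682) (nat_lit 77) (nat_lit 5) (nat_lit 81) (nat_lit 5) (nat_lit 82) (nat_lit 5) (nat_lit 315) (nat_lit 303) (nat_lit 282)) (XT.lf (nat_lit 0) (nat_lit 8648504092) (nat_lit 380) (nat_lit 547121006) (nat_lit 76) (nat_lit 422159018) (nat_lit 77) (nat_lit 5) (nat_lit 82) (nat_lit 5) (nat_lit 78) (nat_lit 5) (nat_lit 316) (nat_lit 303) (nat_lit 281))))) (XT.nd (nat_lit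 234) (nat_lit 836) (nat_lit 0) (XT.nd (nat_lit 78) (nat_lit 608) (nat_lit 0) (XT.lf (nat_lit 0) (nat_lit 2456070645) (nat_lit 380) (nat_lit 1528633155) (nat_lit 76) (nat_lit 6021692380) (nat_lit 72) (nat_lit 5) (nat_lit 77) (nat_lit 5) (nat_lit 73) (nat_lit 5) (nat_lit 317) (nat_lit 303) (nat_lit 280)) (XT.nd (nat_lit 78) (nat_lit 304) (nat_lit 0) (XT.lf (nat_lit 0) (nat_lit 6131254440) (nat_lit 380) (nat_lit 2576121578) (nat_lit 76) (nat_lit 1717636185) (nat_lit 68) (nat_lit 5) (nat_lit 73) (nat_lit 5) (nat_lit 69) (nat_lit 5) (nat_lit 318) (nat_lit 303) (nat_lit 279)) (XT.lf (nat_lit 0) (nat_lit 7140880498) (nat_lit 304) (nat_lit 3022390002) (nat_lit 380) (nat_lit 710889168) (nat_lit 64) (nat_lit 5) (nat_lit 68) (nat_lit 5) (nat_lit 69) (nat_lit 5) (nat_lit 319) (nat_lit 303) (nat_lit 278)))) (XT.nd (nat_lit 78) (nat_lit 532) (nat_lit 0) (XT.lf (nat_lit 0) (nat_lit 3116247459) (nat_lit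 304) (nat_lit 5056948130) (nat_lit 76) (nat_lit 3180802325) (nat_lit 60) (nat_lit 5) (nat_lit 64) (nat_lit 5) (nat_lit 61) (nat_lit 5) (nat_lit 320) (nat_lit 303) (nat_lit 277)) (XT.nd (nat_lit 78) (nat_lit 228) (nat_lit 0) (XT.lf (nat_lit 0) (nat_lit 5329584310) (nat_lit 304) (nat_lit 1965377613) (nat_lit 380) (nat_lit 4573312404) (nat_lit 56) (nat_lit 5) (nat_lit 60) (nat_lit 5) (nat_lit 61) (nat_lit 5) (nat_lit 321) (nat_lit 303) (nat_lit 276)) (XT.lf (nat_lit 0) (nat_lit 4197901653) (nat_lit 228) (nat_lit 7715308923) (nat_lit 304) (nat_lit 505358806) (nat_lit 53) (nat_lit 5) (nat_lit 56) (nat_lit 5) (nat_lit 57) (nat_lit 5) (nat_lit 322) (nat_lit 303) (nat_lit 275))))))) (XT.nd (nat_lit 858) (nat_lit 1064) (nat_lit 0) (XT.nd (nat_lit 390) (nat_lit 912) (nat_lit 0) (XT.nd (nat_lit 156) (nat_lit 456) (nat_lit 0) (XT.nd (nat_lit 78) (nat_lit 152) (nat_lit 0) (XT.lf (nat_lit 0) (nat_lit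 2849141901) (nat_lit 228) (nat_lit 988608965) (nat_lit 304) (nat_lit 9168516001) (nat_lit 49) (nat_lit 5) (nat_lit 52) (nat_lit 5) (nat_lit 53) (nat_lit 5) (nat_lit 323) (nat_lit 303) (nat_lit 274)) (XT.lf (nat_lit 0) (nat_lit 1230929823) (nat_lit 152) (nat_lit 7429070139) (nat_lit 228) (nat_lit 4973209151) (nat_lit 47) (nat_lit 5) (nat_lit 49) (nat_lit 5) (nat_lit 50) (nat_lit 5) (nat_lit 324) (nat_lit 303) (nat_lit 273))) (XT.nd (nat_lit 78) (nat_lit 456) (nat_lit 0) (XT.lf (nat_lit 0) (nat_lit 13718755056) (nat_lit 152) (nat_lit 234977586) (nat_lit 228) (nat_lit 352393537) (nat_lit 47) (nat_lit 5) (nat_lit 49) (nat_lit 5) (nat_lit 50) (nat_lit 5) (nat_lit 325) (nat_lit 303) (nat_lit 272)) (XT.nd (nat_lit 78) (nat_lit 152) (nat_lit 0) (XT.lf (nat_lit 0) (nat_lit 4702273523) (nat_lit 304) (nat_lit 2799125019) (nat_lit 76) (nat_lit 7517317952) (nat_lit 43) (nat_lit 5) (nat_lit 47) (nat_lit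 5) (nat_lit 44) (nat_lit 5) (nat_lit 326) (nat_lit 303) (nat_lit 271)) (XT.lf (nat_lit 0) (nat_lit 10233670436) (nat_lit 228) (nat_lit 5324911756) (nat_lit 76) (nat_lit 225293287) (nat_lit 41) (nat_lit 5) (nat_lit 44) (nat_lit 5) (nat_lit 42) (nat_lit 5) (nat_lit 327) (nat_lit 303) (nat_lit 270))))) (XT.nd (nat_lit 234) (nat_lit 380) (nat_lit 0) (XT.nd (nat_lit 78) (nat_lit 380) (nat_lit 0) (XT.lf (nat_lit 0) (nat_lit 8263165093) (nat_lit 152) (nat_lit 8156894597) (nat_lit 228) (nat_lit 179642560) (nat_lit 39) (nat_lit 5) (nat_lit 41) (nat_lit 5) (nat_lit 42) (nat_lit 5) (nat_lit 328) (nat_lit 303) (nat_lit 269)) (XT.nd (nat_lit 78) (nat_lit 152) (nat_lit 0) (XT.lf (nat_lit 0) (nat_lit 5534099358) (nat_lit 228) (nat_lit 11871274775) (nat_lit 76) (nat_lit 66431760) (nat_lit 36) (nat_lit 5) (nat_lit 39) (nat_lit 5) (nat_lit 37) (nat_lit 5) (nat_lit 329) (nat_lit 303) (nat_lit 268)) (XT.lf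 (nat_lit 0) (nat_lit 2337652522) (nat_lit 152) (nat_lit 9597079854) (nat_lit 228) (nat_lit 6467058511) (nat_lit 34) (nat_lit 5) (nat_lit 36) (nat_lit 5) (nat_lit 37) (nat_lit 5) (nat_lit 330) (nat_lit 303) (nat_lit 267)))) (XT.nd (nat_lit 78) (nat_lit 380) (nat_lit 0) (XT.lf (nat_lit 0) (nat_lit 17975153276) (nat_lit 152) (nat_lit 997700365) (nat_lit 228) (nat_lit 427108957) (nat_lit 34) (nat_lit 5) (nat_lit 36) (nat_lit 5) (nat_lit 37) (nat_lit 5) (nat_lit 331) (nat_lit 303) (nat_lit 266)) (XT.nd (nat_lit 78) (nat_lit 152) (nat_lit 0) (XT.lf (nat_lit 0) (nat_lit 6186765310) (nat_lit 228) (nat_lit 5965660115) (nat_lit 76) (nat_lit 8306564546) (nat_lit 31) (nat_lit 5) (nat_lit 34) (nat_lit 5) (nat_lit 32) (nat_lit 5) (nat_lit 332) (nat_lit 303) (nat_lit 265)) (XT.lf (nat_lit 0) (nat_lit 10317701827) (nat_lit 152) (nat_lit 3126888990) (nat_lit 228) (nat_lit 8151357198) (nat_lit 29) (nat_lit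 5) (nat_lit 31) (nat_lit 5) (nat_lit 32) (nat_lit 5) (nat_lit 333) (nat_lit 303) (nat_lit 264)))))) (XT.nd (nat_lit 468) (nat_lit 456) (nat_lit 0) (XT.nd (nat_lit 234) (nat_lit 304) (nat_lit 0) (XT.nd (nat_lit 78) (nat_lit 228) (nat_lit 0) (XT.lf (nat_lit 0) (nat_lit 5240884035) (nat_lit 76) (nat_lit 16262322431) (nat_lit 152) (nat_lit 1309693241) (nat_lit 28) (nat_lit 5) (nat_lit 29) (nat_lit 5) (nat_lit 30) (nat_lit 4) (nat_lit 334) (nat_lit 303) (nat_lit 263)) (XT.nd (nat_lit 78) (nat_lit 152) (nat_lit 0) (XT.lf (nat_lit 0) (nat_lit 6068784459) (nat_lit 152) (nat_lit 900931420) (nat_lit 76) (nat_lit 17143582960) (nat_lit 27) (nat_lit 5) (nat_lit 29) (nat_lit 5) (nat_lit 28) (nat_lit 5) (nat_lit 335) (nat_lit 303) (nat_lit 262)) (XT.lf (nat_lit 0) (nat_lit 14254768136) (nat_lit 228) (nat_lit 8023493400) (nat_lit 76) (nat_lit 3225276111) (nat_lit 25) (nat_lit 5) (nat_lit 28) (nat_lit 5)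 (nat_lit 26) (nat_lit 4) (nat_lit 336) (nat_lit 303) (nat_lit 261)))) (XT.nd (nat_lit 78) (nat_lit 228) (nat_lit 0) (XT.lf (nat_lit 0) (nat_lit 10470842663) (nat_lit 76) (nat_lit 12860846816) (nat_lit 152) (nat_lit 3661537310) (nat_lit 24) (nat_lit 5) (nat_lit 25) (nat_lit 5) (nat_lit 26) (nat_lit 4) (nat_lit 337) (nat_lit 303) (nat_lit 260)) (XT.nd (nat_lit 78) (nat_lit 0) (nat_lit 0) (XT.lf (nat_lit 0) (nat_lit 2024534705) (nat_lit 152) (nat_lit 2477782724) (nat_lit 228) (nat_lit 24090529499) (nat_lit 21) (nat_lit 5) (nat_lit 23) (nat_lit 5) (nat_lit 24) (nat_lit 5) (nat_lit 338) (nat_lit 303) (nat_lit 259)) (XT.lf (nat_lit 0) (nat_lit 13564842648) (nat_lit 228) (nat_lit 7964699836) (nat_lit 76) (nat_lit 8769228615) (nat_lit 21) (nat_lit 5) (nat_lit 24) (nat_lit 5) (nat_lit 22) (nat_lit 4) (nat_lit 339) (nat_lit 303) (nat_lit 258))))) (XT.nd (nat_lit 234) (nat_lit 228) (nat_lit 0) (XT.nd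 (nat_lit 78) (nat_lit 152) (nat_lit 0) (XT.lf (nat_lit 0) (nat_lit 12388391391) (nat_lit 76) (nat_lit 11146592400) (nat_lit 152) (nat_lit 8597080559) (nat_lit 20) (nat_lit 5) (nat_lit 21) (nat_lit 5) (nat_lit 22) (nat_lit 4) (nat_lit 340) (nat_lit 303) (nat_lit 257)) (XT.nd (nat_lit 78) (nat_lit 0) (nat_lit 0) (XT.lf (nat_lit 0) (nat_lit 284894155) (nat_lit 152) (nat_lit 33642324590) (nat_lit 76) (nat_lit 179662072) (nat_lit 18) (nat_lit 5) (nat_lit 20) (nat_lit 5) (nat_lit 19) (nat_lit 4) (nat_lit 341) (nat_lit 303) (nat_lit 256)) (XT.lf (nat_lit 0) (nat_lit 10068642905) (nat_lit 152) (nat_lit 13655613290) (nat_lit 76) (nat_lit 12483779922) (nat_lit 18) (nat_lit 5) (nat_lit 20) (nat_lit 5) (nat_lit 19) (nat_lit 4) (nat_lit 342) (nat_lit 303) (nat_lit 255)))) (XT.nd (nat_lit 78) (nat_lit 152) (nat_lit 0) (XT.lf (nat_lit 0) (nat_lit 8107049768) (nat_lit 76) (nat_lit 12609131413) (nat_lit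 152) (nat_lit 17757067718) (nat_lit 17) (nat_lit 5) (nat_lit 18) (nat_lit 5) (nat_lit 19) (nat_lit 4) (nat_lit 343) (nat_lit 303) (nat_lit 254)) (XT.nd (nat_lit 78) (nat_lit 152) (nat_lit 0) (XT.lf (nat_lit 0) (nat_lit 32019485722) (nat_lit 76) (nat_lit 390562323) (nat_lit 152) (nat_lit 8499922471) (nat_lit 17) (nat_lit 5) (nat_lit 18) (nat_lit 5) (nat_lit 19) (nat_lit 4) (nat_lit 344) (nat_lit 303) (nat_lit 253)) (XT.lf (nat_lit 0) (nat_lit 1841711461) (nat_lit 152) (nat_lit 29059405887) (nat_lit 76) (nat_lit 12619766436) (nat_lit 15) (nat_lit 5) (nat_lit 17) (nat_lit 5) (nat_lit 16) (nat_lit 4) (nat_lit 345) (nat_lit 303) (nat_lit 252))))))))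
noncomputable def xc54 : XT := (XT.nd (nat_lit 1716) (nat_lit 228) (nat_lit 0) (XT.nd (nat_lit 858) (nat_lit 228) (nat_lit 0) (XT.nd (nat_lit 390) (nat_lit 304) (nat_lit 0) (XT.nd (nat_lit 156) (nat_lit 152) (nat_lit 0) (XT.nd (nat_lit 78) (nat_lit 76) (nat_lit 0) (XT.lf (nat_lit 0) (nat_lit 12841450607) (nat_lit 152) (nat_lit 6558924175) (nat_lit 76) (nat_lit 26926914434) (nat_lit 15) (nat_lit 5) (nat_lit 17) (nat_lit 5) (nat_lit 16) (nat_lit 4) (nat_lit 346) (nat_lit 303) (nat_lit 251)) (XT.lf (nat_lit 0) (nat_lit 18258746729) (nat_lit 76) (nat_lit 6711009258) (nat_lit 152) (nat_lit 24376035416) (nat_lit 14) (nat_lit 5) (nat_lit 15) (nat_lit 5) (nat_lit 16) (nat_lit 4) (nat_lit 347) (nat_lit 303) (nat_lit 250))) (XT.nd (nat_lit 78) (nat_lit 152) (nat_lit 0) (XT.lf (nat_lit 0) (nat_lit 38258393214) (nat_lit 152) (nat_lit 7480685712) (nat_lit 0) (nat_lit 6857204133) (nat_lit 14) (nat_lit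 5) (nat_lit 16) (nat_lit 4) (nat_lit 14) (nat_lit 4) (nat_lit 348) (nat_lit 303) (nat_lit 249)) (XT.nd (nat_lit 78) (nat_lit 76) (nat_lit 0) (XT.lf (nat_lit 0) (nat_lit 18430150409) (nat_lit 76) (nat_lit 34548241977) (nat_lit 76) (nat_lit 3110019838) (nat_lit 13) (nat_lit 4) (nat_lit 14) (nat_lit 5) (nat_lit 14) (nat_lit 4) (nat_lit 349) (nat_lit 303) (nat_lit 248)) (XT.lf (nat_lit 0) (nat_lit 8828308017) (nat_lit 152) (nat_lit 13374480571) (nat_lit 76) (nat_lit 37645055203) (nat_lit 12) (nat_lit 5) (nat_lit 14) (nat_lit 5) (nat_lit 13) (nat_lit 4) (nat_lit 350) (nat_lit 303) (nat_lit 247))))) (XT.nd (nat_lit 234) (nat_lit 152) (nat_lit 0) (XT.nd (nat_lit 78) (nat_lit 76) (nat_lit 0) (XT.lf (nat_lit 0) (nat_lit 13166177173) (nat_lit 76) (nat_lit 8624280904) (nat_lit 152) (nat_lit 42106146390) (nat_lit 11) (nat_lit 5) (nat_lit 12) (nat_lit 5) (nat_lit 13) (nat_lit 4) (nat_lit 351) (nat_lit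 303) (nat_lit 246)) (XT.nd (nat_lit 78) (nat_lit 76) (nat_lit 0) (XT.lf (nat_lit 0) (nat_lit 36092352292) (nat_lit 152) (nat_lit 26101488736) (nat_lit 0) (nat_lit 6060295225) (nat_lit 11) (nat_lit 5) (nat_lit 13) (nat_lit 4) (nat_lit 11) (nat_lit 4) (nat_lit 352) (nat_lit 303) (nat_lit 245)) (XT.lf (nat_lit 0) (nat_lit 312886910) (nat_lit 76) (nat_lit 51349584731) (nat_lit 76) (nat_lit 21291603469) (nat_lit 10) (nat_lit 4) (nat_lit 11) (nat_lit 5) (nat_lit 11) (nat_lit 4) (nat_lit 353) (nat_lit 303) (nat_lit 244)))) (XT.nd (nat_lit 78) (nat_lit 152) (nat_lit 0) (XT.lf (nat_lit 0) (nat_lit 29725167109) (nat_lit 76) (nat_lit 39182676284) (nat_lit 76) (nat_lit 9100691140) (nat_lit 10) (nat_lit 4) (nat_lit 11) (nat_lit 5) (nat_lit 11) (nat_lit 4) (nat_lit 354) (nat_lit 303) (nat_lit 243)) (XT.nd (nat_lit 78) (nat_lit 76) (nat_lit 0) (XT.lf (nat_lit 0) (nat_lit 3911811958) (nat_lit 152) (nat_lit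 22084996445) (nat_lit 76) (nat_lit 57468553372) (nat_lit 9) (nat_lit 5) (nat_lit 11) (nat_lit 5) (nat_lit 10) (nat_lit 4) (nat_lit 355) (nat_lit 303) (nat_lit 242)) (XT.lf (nat_lit 0) (nat_lit 6213358333) (nat_lit 76) (nat_lit 11512567888) (nat_lit 152) (nat_lit 71621382858) (nat_lit 8) (nat_lit 5) (nat_lit 9) (nat_lit 5) (nat_lit 10) (nat_lit 4) (nat_lit 356) (nat_lit 303) (nat_lit 241)))))) (XT.nd (nat_lit 390) (nat_lit 152) (nat_lit 0) (XT.nd (nat_lit 156) (nat_lit 76) (nat_lit 0) (XT.nd (nat_lit 78) (nat_lit 0) (nat_lit 0) (XT.lf (nat_lit 0) (nat_lit 33079561707) (nat_lit 152) (nat_lit 58227399159) (nat_lit 0) (nat_lit 4371137442) (nat_lit 8) (nat_lit 5) (nat_lit 10) (nat_lit 4) (nat_lit 8) (nat_lit 4) (nat_lit 357) (nat_lit 303) (nat_lit 240)) (XT.lf (nat_lit 0) (nat_lit 49836066257) (nat_lit 152) (nat_lit 31559722239) (nat_lit 0) (nat_lit 21110838591) (nat_lit 8) (nat_lit 5) (nat_lit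 10) (nat_lit 4) (nat_lit 8) (nat_lit 4) (nat_lit 358) (nat_lit 303) (nat_lit 239))) (XT.nd (nat_lit 78) (nat_lit 76) (nat_lit 0) (XT.lf (nat_lit 0) (nat_lit 67914994226) (nat_lit 152) (nat_lit 2793145857) (nat_lit 0) (nat_lit 39174207856) (nat_lit 8) (nat_lit 5) (nat_lit 10) (nat_lit 4) (nat_lit 8) (nat_lit 4) (nat_lit 359) (nat_lit 303) (nat_lit 238)) (XT.nd (nat_lit 78) (nat_lit 0) (nat_lit 0) (XT.lf (nat_lit 0) (nat_lit 29176633053) (nat_lit 76) (nat_lit 58702375958) (nat_lit 76) (nat_lit 29947183381) (nat_lit 7) (nat_lit 4) (nat_lit 8) (nat_lit 5) (nat_lit 8) (nat_lit 4) (nat_lit 360) (nat_lit 303) (nat_lit 237)) (XT.lf (nat_lit 0) (nat_lit 63773167424) (nat_lit 76) (nat_lit 45699639872) (nat_lit 76) (nat_lit 16931108214) (nat_lit 7) (nat_lit 4) (nat_lit 8) (nat_lit 5) (nat_lit 8) (nat_lit 4) (nat_lit 361) (nat_lit 303) (nat_lit 236))))) (XT.nd (nat_lit 234) (nat_lit 0) (nat_lit 0)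 (XT.nd (nat_lit 78) (nat_lit 152) (nat_lit 0) (XT.lf (nat_lit 0) (nat_lit 101109119737) (nat_lit 76) (nat_lit 31670181851) (nat_lit 76) (nat_lit 2889299192) (nat_lit 7) (nat_lit 4) (nat_lit 8) (nat_lit 5) (nat_lit 8) (nat_lit 4) (nat_lit 362) (nat_lit 303) (nat_lit 235)) (XT.nd (nat_lit 78) (nat_lit 76) (nat_lit 0) (XT.lf (nat_lit 0) (nat_lit 11869011290) (nat_lit 152) (nat_lit 4460845626) (nat_lit 76) (nat_lit 129335721342) (nat_lit 6) (nat_lit 5) (nat_lit 8) (nat_lit 5) (nat_lit 7) (nat_lit 4) (nat_lit 363) (nat_lit 303) (nat_lit 234)) (XT.lf (nat_lit 0) (nat_lit 28158093613) (nat_lit 152) (nat_lit 127552535651) (nat_lit 0) (nat_lit 726752886) (nat_lit 5) (nat_lit 5) (nat_lit 7) (nat_lit 4) (nat_lit 5) (nat_lit 4) (nat_lit 364) (nat_lit 303) (nat_lit 233)))) (XT.nd (nat_lit 78) (nat_lit 0) (nat_lit 0) (XT.lf (nat_lit 0) (nat_lit 46092136669) (nat_lit 152) (nat_lit 103310246728) (nat_lit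 0) (nat_lit 18651458206) (nat_lit 5) (nat_lit 5) (nat_lit 7) (nat_lit 4) (nat_lit 5) (nat_lit 4) (nat_lit 365) (nat_lit 303) (nat_lit 232)) (XT.nd (nat_lit 78) (nat_lit 0) (nat_lit 0) (XT.lf (nat_lit 0) (nat_lit 65449332820) (nat_lit 152) (nat_lit 77150857942) (nat_lit 0) (nat_lit 38000008305) (nat_lit 5) (nat_lit 5) (nat_lit 7) (nat_lit 4) (nat_lit 5) (nat_lit 4) (nat_lit 366) (nat_lit 303) (nat_lit 231)) (XT.lf (nat_lit 0) (nat_lit 86344391377) (nat_lit 152) (nat_lit 48919350692) (nat_lit 0) (nat_lit 58887061258) (nat_lit 5) (nat_lit 5) (nat_lit 7) (nat_lit 4) (nat_lit 5) (nat_lit 4) (nat_lit 367) (nat_lit 303) (nat_lit 230))))))) (XT.nd (nat_lit 858) (nat_lit 0) (nat_lit 0) (XT.nd (nat_lit 390) (nat_lit 152) (nat_lit 0) (XT.nd (nat_lit 156) (nat_lit 0) (nat_lit 0) (XT.nd (nat_lit 78) (nat_lit 76) (nat_lit 0) (XT.lf (nat_lit 0) (nat_lit 108901134909) (nat_lit 152) (nat_lit 18448427158)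 (nat_lit 0) (nat_lit 81436392195) (nat_lit 5) (nat_lit 5) (nat_lit 7) (nat_lit 4) (nat_lit 5) (nat_lit 4) (nat_lit 368) (nat_lit 303) (nat_lit 229)) (XT.lf (nat_lit 0) (nat_lit 14920014745) (nat_lit 76) (nat_lit 118566161505) (nat_lit 76) (nat_lit 91094555276) (nat_lit 4) (nat_lit 4) (nat_lit 5) (nat_lit 5) (nat_lit 5) (nat_lit 4) (nat_lit 369) (nat_lit 303) (nat_lit 228))) (XT.nd (nat_lit 78) (nat_lit 0) (nat_lit 0) (XT.lf (nat_lit 0) (nat_lit 51599798971) (nat_lit 76) (nat_lit 108750812900) (nat_lit 76) (nat_lit 81272851565) (nat_lit 4) (nat_lit 4) (nat_lit 5) (nat_lit 5) (nat_lit 5) (nat_lit 4) (nat_lit 370) (nat_lit 303) (nat_lit 227)) (XT.nd (nat_lit 78) (nat_lit 0) (nat_lit 0) (XT.lf (nat_lit 0) (nat_lit 91198298885) (nat_lit 76) (nat_lit 98157784265) (nat_lit 76) (nat_lit 70673938572) (nat_lit 4) (nat_lit 4) (nat_lit 5) (nat_lit 5) (nat_lit 5) (nat_lit 4) (nat_lit 371) (nat_lit 303)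 (nat_lit 226)) (XT.lf (nat_lit 0) (nat_lit 133950172266) (nat_lit 76) (nat_lit 86724302095) (nat_lit 76) (nat_lit 59235007923) (nat_lit 4) (nat_lit 4) (nat_lit 5) (nat_lit 5) (nat_lit 5) (nat_lit 4) (nat_lit 372) (nat_lit 303) (nat_lit 225))))) (XT.nd (nat_lit 234) (nat_lit 152) (nat_lit 0) (XT.nd (nat_lit 78) (nat_lit 0) (nat_lit 0) (XT.lf (nat_lit 0) (nat_lit 180108763548) (nat_lit 76) (nat_lit 74382612422) (nat_lit 76) (nat_lit 46888273362) (nat_lit 4) (nat_lit 4) (nat_lit 5) (nat_lit 5) (nat_lit 5) (nat_lit 4) (nat_lit 373) (nat_lit 303) (nat_lit 224)) (XT.nd (nat_lit 78) (nat_lit 0) (nat_lit 0) (XT.lf (nat_lit 0) (nat_lit 229947605123) (nat_lit 76) (nat_lit 61059579309) (nat_lit 76) (nat_lit 33560569056) (nat_lit 4) (nat_lit 4) (nat_lit 5) (nat_lit 5) (nat_lit 5) (nat_lit 4) (nat_lit 374) (nat_lit 303) (nat_lit 223)) (XT.lf (nat_lit 0) (nat_lit 283762038276) (nat_lit 76) (nat_lit 46676251447)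 (nat_lit 76) (nat_lit 19172916015) (nat_lit 4) (nat_lit 4) (nat_lit 5) (nat_lit 5) (nat_lit 5) (nat_lit 4) (nat_lit 375) (nat_lit 303) (nat_lit 222)))) (XT.nd (nat_lit 78) (nat_lit 152) (nat_lit 0) (XT.lf (nat_lit 0) (nat_lit 341870963351) (nat_lit 76) (nat_lit 31147394300) (nat_lit 76) (nat_lit 3640054074) (nat_lit 4) (nat_lit 4) (nat_lit 5) (nat_lit 5) (nat_lit 5) (nat_lit 4) (nat_lit 376) (nat_lit 303) (nat_lit 221)) (XT.nd (nat_lit 78) (nat_lit 76) (nat_lit 0) (XT.lf (nat_lit 0) (nat_lit 12709819330) (nat_lit 152) (nat_lit 1455918742) (nat_lit 76) (nat_lit 391693663262) (nat_lit 3) (nat_lit 5) (nat_lit 5) (nat_lit 5) (nat_lit 4) (nat_lit 4) (nat_lit 377) (nat_lit 303) (nat_lit 220)) (XT.lf (nat_lit 0) (nat_lit 30868258431) (nat_lit 152) (nat_lit 401829833771) (nat_lit 0) (nat_lit 4663990015) (nat_lit 2) (nat_lit 5) (nat_lit 4) (nat_lit 4) (nat_lit 2) (nat_lit 4) (nat_lit 378) (nat_lit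 303) (nat_lit 219)))))) (XT.nd (nat_lit 468) (nat_lit 0) (nat_lit 0) (XT.nd (nat_lit 234) (nat_lit 0) (nat_lit 0) (XT.nd (nat_lit 78) (nat_lit 0) (nat_lit 0) (XT.lf (nat_lit 0) (nat_lit 50739344330) (nat_lit 152) (nat_lit 396100587449) (nat_lit 0) (nat_lit 24532048167) (nat_lit 2) (nat_lit 5) (nat_lit 4) (nat_lit 4) (nat_lit 2) (nat_lit 4) (nat_lit 379) (nat_lit 303) (nat_lit 218)) (XT.nd (nat_lit 78) (nat_lit 0) (nat_lit 0) (XT.lf (nat_lit 0) (nat_lit 72195797221) (nat_lit 152) (nat_lit 389921391567) (nat_lit 0) (nat_lit 45985697587) (nat_lit 2) (nat_lit 5) (nat_lit 4) (nat_lit 4) (nat_lit 2) (nat_lit 4) (nat_lit 380) (nat_lit 303) (nat_lit 217)) (XT.lf (nat_lit 0) (nat_lit 95364766453) (nat_lit 152) (nat_lit 383255628668) (nat_lit 0) (nat_lit 69152071013) (nat_lit 2) (nat_lit 5) (nat_lit 4) (nat_lit 4) (nat_lit 2) (nat_lit 4) (nat_lit 381) (nat_lit 303) (nat_lit 216)))) (XT.nd (nat_lit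 78) (nat_lit 0) (nat_lit 0) (XT.lf (nat_lit 0) (nat_lit 120383549621) (nat_lit 152) (nat_lit 376063797937) (nat_lit 0) (nat_lit 94168450658) (nat_lit 2) (nat_lit 5) (nat_lit 4) (nat_lit 4) (nat_lit 2) (nat_lit 4) (nat_lit 382) (nat_lit 303) (nat_lit 215)) (XT.nd (nat_lit 78) (nat_lit 0) (nat_lit 0) (XT.lf (nat_lit 0) (nat_lit 147400406183) (nat_lit 152) (nat_lit 368303281115) (nat_lit 0) (nat_lit 121183081734) (nat_lit 2) (nat_lit 5) (nat_lit 4) (nat_lit 4) (nat_lit 2) (nat_lit 4) (nat_lit 383) (nat_lit 303) (nat_lit 214)) (XT.lf (nat_lit 0) (nat_lit 176575436027) (nat_lit 152) (nat_lit 359928089956) (nat_lit 0) (nat_lit 150356050944) (nat_lit 2) (nat_lit 5) (nat_lit 4) (nat_lit 4) (nat_lit 2) (nat_lit 4) (nat_lit 384) (nat_lit 303) (nat_lit 213))))) (XT.nd (nat_lit 234) (nat_lit 0) (nat_lit 0) (XT.nd (nat_lit 78) (nat_lit 0) (nat_lit 0) (XT.lf (nat_lit 0) (nat_lit 208081528220) (nat_lit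 152) (nat_lit 350888593697) (nat_lit 0) (nat_lit 181860235143) (nat_lit 2) (nat_lit 5) (nat_lit 4) (nat_lit 4) (nat_lit 2) (nat_lit 4) (nat_lit 385) (nat_lit 303) (nat_lit 212)) (XT.nd (nat_lit 78) (nat_lit 0) (nat_lit 0) (XT.lf (nat_lit 0) (nat_lit 242105385531) (nat_lit 152) (nat_lit 341131224953) (nat_lit 0) (nat_lit 215882325792) (nat_lit 2) (nat_lit 5) (nat_lit 4) (nat_lit 4) (nat_lit 2) (nat_lit 4) (nat_lit 386) (nat_lit 303) (nat_lit 211)) (XT.lf (nat_lit 0) (nat_lit 278848630818) (nat_lit 152) (nat_lit 330598162280) (nat_lit 0) (nat_lit 252623935280) (nat_lit 2) (nat_lit 5) (nat_lit 4) (nat_lit 4) (nat_lit 2) (nat_lit 4) (nat_lit 387) (nat_lit 303) (nat_lit 210)))) (XT.nd (nat_lit 78) (nat_lit 0) (nat_lit 0) (XT.lf (nat_lit 0) (nat_lit 318529001830) (nat_lit 152) (nat_lit 319226987527) (nat_lit 0) (nat_lit 292302791665) (nat_lit 2) (nat_lit 5) (nat_lit 4) (nat_lit 4) (nat_lit 2)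 (nat_lit 4) (nat_lit 388) (nat_lit 303) (nat_lit 209)) (XT.nd (nat_lit 78) (nat_lit 0) (nat_lit 0) (XT.lf (nat_lit 0) (nat_lit 361381641507) (nat_lit 152) (nat_lit 306950315957) (nat_lit 0) (nat_lit 335154028909) (nat_lit 2) (nat_lit 5) (nat_lit 4) (nat_lit 4) (nat_lit 2) (nat_lit 4) (nat_lit 389) (nat_lit 303) (nat_lit 208)) (XT.lf (nat_lit 0) (nat_lit 407660491418) (nat_lit 152) (nat_lit 293695396922) (nat_lit 0) (nat_lit 381431580270) (nat_lit 2) (nat_lit 5) (nat_lit 4) (nat_lit 4) (nat_lit 2) (nat_lit 4) (nat_lit 390) (nat_lit 303) (nat_lit 207))))))))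
noncomputable def xc55 : XT := (XT.nd (nat_lit 41808) (nat_lit 0) (nat_lit 912) (XT.nd (nat_lit 40872) (nat_lit 0) (nat_lit 3420) (XT.nd (nat_lit 40404) (nat_lit 0) (nat_lit 7144) (XT.nd (nat_lit 40170) (nat_lit 0) (nat_lit 9424) (XT.nd (nat_lit 40092) (nat_lit 0) (nat_lit 9880) (XT.lf (nat_lit 0) (nat_lit 457639796598) (nat_lit 152) (nat_lit 279383682754) (nat_lit 0) (nat_lit 431409683090) (nat_lit 2) (nat_lit 5) (nat_lit 4) (nat_lit 4) (nat_lit 2) (nat_lit 4) (nat_lit 391) (nat_lit 303) (nat_lit 206)) (XT.lf (nat_lit 0) (nat_lit 1117243314) (nat_lit 0) (nat_lit 1117243314) (nat_lit 380) (nat_lit 1220108542) (nat_lit 132) (nat_lit 5) (nat_lit 132) (nat_lit 3) (nat_lit 137) (nat_lit 3) (nat_lit 304) (nat_lit 304) (nat_lit 292))) (XT.nd (nat_lit 78) (nat_lit 0) (nat_lit 0) (XT.lf (nat_lit 0) (nat_lit 438318450) (nat_lit 456) (nat_lit 6486911987) (nat_lit 532) (nat_lit 111962927) (nat_lit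 126) (nat_lit 5) (nat_lit 132) (nat_lit 5) (nat_lit 133) (nat_lit 5) (nat_lit 305) (nat_lit 304) (nat_lit 291)) (XT.nd (nat_lit 78) (nat_lit 0) (nat_lit 0) (XT.lf (nat_lit 0) (nat_lit 3294288866) (nat_lit 456) (nat_lit 1065341951) (nat_lit 532) (nat_lit 2822733620) (nat_lit 126) (nat_lit 5) (nat_lit 132) (nat_lit 5) (nat_lit 133) (nat_lit 5) (nat_lit 306) (nat_lit 304) (nat_lit 290)) (XT.lf (nat_lit 76) (nat_lit 4781878376) (nat_lit 0) (nat_lit 1403979681) (nat_lit 532) (nat_lit 1163453833) (nat_lit 127) (nat_lit 5) (nat_lit 126) (nat_lit 5) (nat_lit 133) (nat_lit 5) (nat_lit 307) (nat_lit 304) (nat_lit 289))))) (XT.nd (nat_lit 234) (nat_lit 1368) (nat_lit 0) (XT.nd (nat_lit 78) (nat_lit 456) (nat_lit 0) (XT.lf (nat_lit 0) (nat_lit 1572464228) (nat_lit 532) (nat_lit 4040668683) (nat_lit 608) (nat_lit 1923037310) (nat_lit 120) (nat_lit 5) (nat_lit 127) (nat_lit 5) (nat_lit 128) (nat_lit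 5) (nat_lit 308) (nat_lit 304) (nat_lit 288)) (XT.nd (nat_lit 78) (nat_lit 456) (nat_lit 0) (XT.lf (nat_lit 76) (nat_lit 2258121804) (nat_lit 0) (nat_lit 2096328430) (nat_lit 608) (nat_lit 3389599087) (nat_lit 121) (nat_lit 5) (nat_lit 120) (nat_lit 5) (nat_lit 128) (nat_lit 5) (nat_lit 309) (nat_lit 304) (nat_lit 287)) (XT.lf (nat_lit 0) (nat_lit 1072060504) (nat_lit 532) (nat_lit 6180763244) (nat_lit 608) (nat_lit 721435763) (nat_lit 114) (nat_lit 5) (nat_lit 121) (nat_lit 5) (nat_lit 122) (nat_lit 5) (nat_lit 310) (nat_lit 304) (nat_lit 286)))) (XT.nd (nat_lit 78) (nat_lit 1292) (nat_lit 0) (XT.lf (nat_lit 0) (nat_lit 2012513241) (nat_lit 608) (nat_lit 112491181) (nat_lit 76) (nat_lit 6100468024) (nat_lit 113) (nat_lit 5) (nat_lit 121) (nat_lit 5) (nat_lit 114) (nat_lit 5) (nat_lit 311) (nat_lit 304) (nat_lit 285)) (XT.nd (nat_lit 78) (nat_lit 684) (nat_lit 0) (XT.lf (nat_lit 0) (nat_lit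 4896327786) (nat_lit 684) (nat_lit 1258571983) (nat_lit 76) (nat_lit 2343790274) (nat_lit 105) (nat_lit 5) (nat_lit 114) (nat_lit 5) (nat_lit 106) (nat_lit 5) (nat_lit 312) (nat_lit 304) (nat_lit 284)) (XT.lf (nat_lit 0) (nat_lit 6395813148) (nat_lit 684) (nat_lit 1569852883) (nat_lit 760) (nat_lit 830654600) (nat_lit 96) (nat_lit 5) (nat_lit 105) (nat_lit 5) (nat_lit 106) (nat_lit 5) (nat_lit 313) (nat_lit 304) (nat_lit 283)))))) (XT.nd (nat_lit 468) (nat_lit 1292) (nat_lit 0) (XT.nd (nat_lit 234) (nat_lit 988) (nat_lit 0) (XT.nd (nat_lit 78) (nat_lit 684) (nat_lit 0) (XT.lf (nat_lit 0) (nat_lit 2083319072) (nat_lit 760) (nat_lit 3603126717) (nat_lit 76) (nat_lit 3430401378) (nat_lit 86) (nat_lit 5) (nat_lit 96) (nat_lit 5) (nat_lit 87) (nat_lit 5) (nat_lit 314) (nat_lit 304) (nat_lit 282)) (XT.nd (nat_lit 78) (nat_lit 304) (nat_lit 0) (XT.lf (nat_lit 0) (nat_lit 4628138702) (nat_lit 380)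 (nat_lit 550579706) (nat_lit 456) (nat_lit 4284988166) (nat_lit 81) (nat_lit 5) (nat_lit 86) (nat_lit 5) (nat_lit 87) (nat_lit 5) (nat_lit 315) (nat_lit 304) (nat_lit 281)) (XT.lf (nat_lit 0) (nat_lit 3684845688) (nat_lit 304) (nat_lit 4881679216) (nat_lit 380) (nat_lit 1269775238) (nat_lit 77) (nat_lit 5) (nat_lit 81) (nat_lit 5) (nat_lit 82) (nat_lit 5) (nat_lit 316) (nat_lit 304) (nat_lit 280)))) (XT.nd (nat_lit 78) (nat_lit 608) (nat_lit 0) (XT.lf (nat_lit 0) (nat_lit 1924468510) (nat_lit 380) (nat_lit 7543637612) (nat_lit 76) (nat_lit 769171935) (nat_lit 72) (nat_lit 5) (nat_lit 77) (nat_lit 5) (nat_lit 73) (nat_lit 5) (nat_lit 317) (nat_lit 304) (nat_lit 279)) (XT.nd (nat_lit 78) (nat_lit 304) (nat_lit 0) (XT.lf (nat_lit 0) (nat_lit 1583052929) (nat_lit 304) (nat_lit 3823360755) (nat_lit 380) (nat_lit 5259230326) (nat_lit 68) (nat_lit 5) (nat_lit 72) (nat_lit 5) (nat_lit 73) (nat_lit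 5) (nat_lit 318) (nat_lit 304) (nat_lit 278)) (XT.lf (nat_lit 0) (nat_lit 400253434) (nat_lit 304) (nat_lit 8809618699) (nat_lit 380) (nat_lit 1916428703) (nat_lit 64) (nat_lit 5) (nat_lit 68) (nat_lit 5) (nat_lit 69) (nat_lit 5) (nat_lit 319) (nat_lit 304) (nat_lit 277))))) (XT.nd (nat_lit 234) (nat_lit 684) (nat_lit 0) (XT.nd (nat_lit 78) (nat_lit 532) (nat_lit 0) (XT.lf (nat_lit 0) (nat_lit 1737698157) (nat_lit 380) (nat_lit 903104752) (nat_lit 76) (nat_lit 8976928845) (nat_lit 63) (nat_lit 5) (nat_lit 68) (nat_lit 5) (nat_lit 64) (nat_lit 5) (nat_lit 320) (nat_lit 304) (nat_lit 276)) (XT.nd (nat_lit 78) (nat_lit 304) (nat_lit 0) (XT.lf (nat_lit 0) (nat_lit 5719168018) (nat_lit 304) (nat_lit 2370182408) (nat_lit 76) (nat_lit 4052586501) (nat_lit 60) (nat_lit 5) (nat_lit 64) (nat_lit 5) (nat_lit 61) (nat_lit 5) (nat_lit 321) (nat_lit 304) (nat_lit 275)) (XT.lf (nat_lit 0) (nat_lit 8712927559)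 (nat_lit 304) (nat_lit 1391076491) (nat_lit 380) (nat_lit 2599960165) (nat_lit 56) (nat_lit 5) (nat_lit 60) (nat_lit 5) (nat_lit 61) (nat_lit 5) (nat_lit 322) (nat_lit 304) (nat_lit 274)))) (XT.nd (nat_lit 78) (nat_lit 380) (nat_lit 0) (XT.lf (nat_lit 0) (nat_lit 1625485787) (nat_lit 304) (nat_lit 5870008286) (nat_lit 76) (nat_lit 5807092281) (nat_lit 52) (nat_lit 5) (nat_lit 56) (nat_lit 5) (nat_lit 53) (nat_lit 5) (nat_lit 323) (nat_lit 304) (nat_lit 273)) (XT.nd (nat_lit 78) (nat_lit 152) (nat_lit 0) (XT.lf (nat_lit 0) (nat_lit 5946497555) (nat_lit 228) (nat_lit 237336737) (nat_lit 304) (nat_lit 7758939638) (nat_lit 49) (nat_lit 5) (nat_lit 52) (nat_lit 5) (nat_lit 53) (nat_lit 5) (nat_lit 324) (nat_lit 304) (nat_lit 272)) (XT.lf (nat_lit 0) (nat_lit 4161200799) (nat_lit 152) (nat_lit 7135837014) (nat_lit 228) (nat_lit 3327726213) (nat_lit 47) (nat_lit 5) (nat_lit 49) (nat_lit 5) (nat_lit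 50) (nat_lit 5) (nat_lit 325) (nat_lit 304) (nat_lit 271))))))) (XT.nd (nat_lit 858) (nat_lit 836) (nat_lit 0) (XT.nd (nat_lit 390) (nat_lit 836) (nat_lit 0) (XT.nd (nat_lit 156) (nat_lit 532) (nat_lit 0) (XT.nd (nat_lit 78) (nat_lit 0) (nat_lit 0) (XT.lf (nat_lit 0) (nat_lit 1505979784) (nat_lit 304) (nat_lit 13242004500) (nat_lit 76) (nat_lit 607543304) (nat_lit 43) (nat_lit 5) (nat_lit 47) (nat_lit 5) (nat_lit 44) (nat_lit 5) (nat_lit 326) (nat_lit 304) (nat_lit 270)) (XT.lf (nat_lit 0) (nat_lit 6827293568) (nat_lit 304) (nat_lit 380103982) (nat_lit 76) (nat_lit 8923831207) (nat_lit 43) (nat_lit 5) (nat_lit 47) (nat_lit 5) (nat_lit 44) (nat_lit 5) (nat_lit 327) (nat_lit 304) (nat_lit 269))) (XT.nd (nat_lit 78) (nat_lit 380) (nat_lit 0) (XT.lf (nat_lit 0) (nat_lit 12724701883) (nat_lit 228) (nat_lit 3152018610) (nat_lit 76) (nat_lit 1084819292) (nat_lit 41) (nat_lit 5) (nat_lit 44) (nat_lit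 5) (nat_lit 42) (nat_lit 5) (nat_lit 328) (nat_lit 304) (nat_lit 268)) (XT.nd (nat_lit 78) (nat_lit 152) (nat_lit 0) (XT.lf (nat_lit 0) (nat_lit 1426770680) (nat_lit 228) (nat_lit 6459844222) (nat_lit 76) (nat_lit 9959226232) (nat_lit 38) (nat_lit 5) (nat_lit 41) (nat_lit 5) (nat_lit 39) (nat_lit 5) (nat_lit 329) (nat_lit 304) (nat_lit 267)) (XT.lf (nat_lit 0) (nat_lit 7523754705) (nat_lit 228) (nat_lit 10326996856) (nat_lit 76) (nat_lit 940285765) (nat_lit 36) (nat_lit 5) (nat_lit 39) (nat_lit 5) (nat_lit 37) (nat_lit 5) (nat_lit 330) (nat_lit 304) (nat_lit 266))))) (XT.nd (nat_lit 234) (nat_lit 456) (nat_lit 0) (XT.nd (nat_lit 78) (nat_lit 228) (nat_lit 0) (XT.lf (nat_lit 0) (nat_lit 4910259296) (nat_lit 152) (nat_lit 9448837670) (nat_lit 228) (nat_lit 5440277643) (nat_lit 34) (nat_lit 5) (nat_lit 36) (nat_lit 5) (nat_lit 37) (nat_lit 5) (nat_lit 331) (nat_lit 304) (nat_lit 265)) (XT.nd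 (nat_lit 78) (nat_lit 0) (nat_lit 0) (XT.lf (nat_lit 0) (nat_lit 747944516) (nat_lit 152) (nat_lit 201222092) (nat_lit 228) (nat_lit 19932416465) (nat_lit 31) (nat_lit 5) (nat_lit 33) (nat_lit 5) (nat_lit 34) (nat_lit 5) (nat_lit 332) (nat_lit 304) (nat_lit 264)) (XT.lf (nat_lit 0) (nat_lit 8010028812) (nat_lit 228) (nat_lit 4231852329) (nat_lit 76) (nat_lit 9786529877) (nat_lit 31) (nat_lit 5) (nat_lit 34) (nat_lit 5) (nat_lit 32) (nat_lit 5) (nat_lit 333) (nat_lit 304) (nat_lit 263)))) (XT.nd (nat_lit 78) (nat_lit 304) (nat_lit 0) (XT.lf (nat_lit 0) (nat_lit 13258088569) (nat_lit 152) (nat_lit 2525018165) (nat_lit 228) (nat_lit 7476552989) (nat_lit 29) (nat_lit 5) (nat_lit 31) (nat_lit 5) (nat_lit 32) (nat_lit 5) (nat_lit 334) (nat_lit 304) (nat_lit 262)) (XT.nd (nat_lit 78) (nat_lit 228) (nat_lit 0) (XT.lf (nat_lit 0) (nat_lit 7731671297) (nat_lit 76) (nat_lit 16705847849) (nat_lit 152)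 (nat_lit 138953526) (nat_lit 28) (nat_lit 5) (nat_lit 29) (nat_lit 5) (nat_lit 30) (nat_lit 4) (nat_lit 335) (nat_lit 304) (nat_lit 261)) (XT.lf (nat_lit 0) (nat_lit 1016052215) (nat_lit 152) (nat_lit 6697330574) (nat_lit 228) (nat_lit 18270358332) (nat_lit 25) (nat_lit 5) (nat_lit 27) (nat_lit 5) (nat_lit 28) (nat_lit 5) (nat_lit 336) (nat_lit 304) (nat_lit 260)))))) (XT.nd (nat_lit 468) (nat_lit 304) (nat_lit 0) (XT.nd (nat_lit 234) (nat_lit 228) (nat_lit 0) (XT.nd (nat_lit 78) (nat_lit 304) (nat_lit 0) (XT.lf (nat_lit 0) (nat_lit 16495153784) (nat_lit 228) (nat_lit 6751094063) (nat_lit 76) (nat_lit 4241955152) (nat_lit 25) (nat_lit 5) (nat_lit 28) (nat_lit 5) (nat_lit 26) (nat_lit 4) (nat_lit 337) (nat_lit 304) (nat_lit 259)) (XT.nd (nat_lit 78) (nat_lit 228) (nat_lit 0) (XT.lf (nat_lit 0) (nat_lit 13139596661) (nat_lit 76) (nat_lit 13105738774) (nat_lit 152) (nat_lit 2854422244) (nat_lit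 24) (nat_lit 5) (nat_lit 25) (nat_lit 5) (nat_lit 26) (nat_lit 4) (nat_lit 338) (nat_lit 304) (nat_lit 258)) (XT.lf (nat_lit 0) (nat_lit 3972206088) (nat_lit 152) (nat_lit 1904130321) (nat_lit 228) (nat_lit 24952742437) (nat_lit 21) (nat_lit 5) (nat_lit 23) (nat_lit 5) (nat_lit 24) (nat_lit 5) (nat_lit 339) (nat_lit 304) (nat_lit 257)))) (XT.nd (nat_lit 78) (nat_lit 228) (nat_lit 0) (XT.lf (nat_lit 0) (nat_lit 15599923318) (nat_lit 228) (nat_lit 6912196832) (nat_lit 76) (nat_lit 10162591163) (nat_lit 21) (nat_lit 5) (nat_lit 24) (nat_lit 5) (nat_lit 22) (nat_lit 4) (nat_lit 340) (nat_lit 304) (nat_lit 256)) (XT.nd (nat_lit 78) (nat_lit 152) (nat_lit 0) (XT.lf (nat_lit 0) (nat_lit 14995710304) (nat_lit 76) (nat_lit 11326837139) (nat_lit 152) (nat_lit 8334411575) (nat_lit 20) (nat_lit 5) (nat_lit 21) (nat_lit 5) (nat_lit 22) (nat_lit 4) (nat_lit 341) (nat_lit 304) (nat_lit 255)) (XT.lf (nat_lit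 0) (nat_lit 1195063795) (nat_lit 152) (nat_lit 34724921012) (nat_lit 76) (nat_lit 870696411) (nat_lit 18) (nat_lit 5) (nat_lit 20) (nat_lit 5) (nat_lit 19) (nat_lit 4) (nat_lit 342) (nat_lit 304) (nat_lit 254))))) (XT.nd (nat_lit 234) (nat_lit 228) (nat_lit 0) (XT.nd (nat_lit 78) (nat_lit 76) (nat_lit 0) (XT.lf (nat_lit 0) (nat_lit 11695780734) (nat_lit 152) (nat_lit 13258442405) (nat_lit 76) (nat_lit 14109020625) (nat_lit 18) (nat_lit 5) (nat_lit 20) (nat_lit 5) (nat_lit 19) (nat_lit 4) (nat_lit 343) (nat_lit 304) (nat_lit 253)) (XT.nd (nat_lit 78) (nat_lit 0) (nat_lit 0) (XT.lf (nat_lit 0) (nat_lit 10180496631) (nat_lit 76) (nat_lit 12976009160) (nat_lit 152) (nat_lit 18355124733) (nat_lit 17) (nat_lit 5) (nat_lit 18) (nat_lit 5) (nat_lit 19) (nat_lit 4) (nat_lit 344) (nat_lit 304) (nat_lit 252)) (XT.lf (nat_lit 0) (nat_lit 35730572994) (nat_lit 152) (nat_lit 8248526829) (nat_lit 0) (nat_lit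 166979703) (nat_lit 17) (nat_lit 5) (nat_lit 19) (nat_lit 4) (nat_lit 17) (nat_lit 4) (nat_lit 345) (nat_lit 304) (nat_lit 251)))) (XT.nd (nat_lit 78) (nat_lit 76) (nat_lit 0) (XT.lf (nat_lit 0) (nat_lit 2700819673) (nat_lit 152) (nat_lit 30072268087) (nat_lit 76) (nat_lit 14193611341) (nat_lit 15) (nat_lit 5) (nat_lit 17) (nat_lit 5) (nat_lit 16) (nat_lit 4) (nat_lit 346) (nat_lit 304) (nat_lit 250)) (XT.nd (nat_lit 78) (nat_lit 76) (nat_lit 0) (XT.lf (nat_lit 0) (nat_lit 14527814150) (nat_lit 152) (nat_lit 5868924896) (nat_lit 76) (nat_lit 29603533876) (nat_lit 15) (nat_lit 5) (nat_lit 17) (nat_lit 5) (nat_lit 16) (nat_lit 4) (nat_lit 347) (nat_lit 304) (nat_lit 249)) (XT.lf (nat_lit 0) (nat_lit 20881369725) (nat_lit 76) (nat_lit 6714336782) (nat_lit 152) (nat_lit 25666100950) (nat_lit 14) (nat_lit 5) (nat_lit 15) (nat_lit 5) (nat_lit 16) (nat_lit 4) (nat_lit 348) (nat_lit 304) (nat_lit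 248))))))))
noncomputable def xc56 : XT := (XT.nd (nat_lit 1716) (nat_lit 152) (nat_lit 0) (XT.nd (nat_lit 858) (nat_lit 304) (nat_lit 0) (XT.nd (nat_lit 390) (nat_lit 228) (nat_lit 0) (XT.nd (nat_lit 156) (nat_lit 152) (nat_lit 0) (XT.nd (nat_lit 78) (nat_lit 76) (nat_lit 0) (XT.lf (nat_lit 0) (nat_lit 41908601987) (nat_lit 152) (nat_lit 6981695888) (nat_lit 0) (nat_lit 7883999151) (nat_lit 14) (nat_lit 5) (nat_lit 16) (nat_lit 4) (nat_lit 14) (nat_lit 4) (nat_lit 349) (nat_lit 304) (nat_lit 247)) (XT.lf (nat_lit 0) (nat_lit 20954313513) (nat_lit 76) (nat_lit 36824607704) (nat_lit 76) (nat_lit 2768254990) (nat_lit 13) (nat_lit 4) (nat_lit 14) (nat_lit 5) (nat_lit 14) (nat_lit 4) (nat_lit 350) (nat_lit 304) (nat_lit 246))) (XT.nd (nat_lit 78) (nat_lit 76) (nat_lit 0) (XT.lf (nat_lit 0) (nat_lit 10063891752) (nat_lit 152) (nat_lit 13454772658) (nat_lit 76) (nat_lit 41090367984) (nat_lit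 12) (nat_lit 5) (nat_lit 14) (nat_lit 5) (nat_lit 13) (nat_lit 4) (nat_lit 351) (nat_lit 304) (nat_lit 245)) (XT.nd (nat_lit 78) (nat_lit 0) (nat_lit 0) (XT.lf (nat_lit 0) (nat_lit 15166128012) (nat_lit 76) (nat_lit 8872456946) (nat_lit 152) (nat_lit 44944343218) (nat_lit 11) (nat_lit 5) (nat_lit 12) (nat_lit 5) (nat_lit 13) (nat_lit 4) (nat_lit 352) (nat_lit 304) (nat_lit 244)) (XT.lf (nat_lit 0) (nat_lit 39453617742) (nat_lit 152) (nat_lit 27295937371) (nat_lit 0) (nat_lit 6941069903) (nat_lit 11) (nat_lit 5) (nat_lit 13) (nat_lit 4) (nat_lit 11) (nat_lit 4) (nat_lit 353) (nat_lit 304) (nat_lit 243))))) (XT.nd (nat_lit 234) (nat_lit 76) (nat_lit 0) (XT.nd (nat_lit 78) (nat_lit 76) (nat_lit 0) (XT.lf (nat_lit 0) (nat_lit 1192750498) (nat_lit 76) (nat_lit 55054840454) (nat_lit 76) (nat_lit 22520066798) (nat_lit 10) (nat_lit 4) (nat_lit 11) (nat_lit 5) (nat_lit 11) (nat_lit 4) (nat_lit 354)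 (nat_lit 304) (nat_lit 242)) (XT.nd (nat_lit 78) (nat_lit 76) (nat_lit 0) (XT.lf (nat_lit 0) (nat_lit 32894692177) (nat_lit 76) (nat_lit 41944409780) (nat_lit 76) (nat_lit 9389056664) (nat_lit 10) (nat_lit 4) (nat_lit 11) (nat_lit 5) (nat_lit 11) (nat_lit 4) (nat_lit 355) (nat_lit 304) (nat_lit 241)) (XT.lf (nat_lit 0) (nat_lit 4618846683) (nat_lit 152) (nat_lit 23105772471) (nat_lit 76) (nat_lit 62398154976) (nat_lit 9) (nat_lit 5) (nat_lit 11) (nat_lit 5) (nat_lit 10) (nat_lit 4) (nat_lit 356) (nat_lit 304) (nat_lit 240)))) (XT.nd (nat_lit 78) (nat_lit 0) (nat_lit 0) (XT.lf (nat_lit 0) (nat_lit 7424029409) (nat_lit 76) (nat_lit 12096010176) (nat_lit 152) (nat_lit 76956148461) (nat_lit 8) (nat_lit 5) (nat_lit 9) (nat_lit 5) (nat_lit 10) (nat_lit 4) (nat_lit 357) (nat_lit 304) (nat_lit 239)) (XT.nd (nat_lit 78) (nat_lit 0) (nat_lit 0) (XT.lf (nat_lit 0) (nat_lit 36078991064) (nat_lit 152)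 (nat_lit 62212222701) (nat_lit 0) (nat_lit 5023383081) (nat_lit 8) (nat_lit 5) (nat_lit 10) (nat_lit 4) (nat_lit 8) (nat_lit 4) (nat_lit 358) (nat_lit 304) (nat_lit 238)) (XT.lf (nat_lit 0) (nat_lit 54149863057) (nat_lit 152) (nat_lit 33461010767) (nat_lit 0) (nat_lit 23079848866) (nat_lit 8) (nat_lit 5) (nat_lit 10) (nat_lit 4) (nat_lit 8) (nat_lit 4) (nat_lit 359) (nat_lit 304) (nat_lit 237)))))) (XT.nd (nat_lit 390) (nat_lit 152) (nat_lit 0) (XT.nd (nat_lit 156) (nat_lit 76) (nat_lit 0) (XT.nd (nat_lit 78) (nat_lit 76) (nat_lit 0) (XT.lf (nat_lit 0) (nat_lit 73650889597) (nat_lit 152) (nat_lit 2439292664) (nat_lit 0) (nat_lit 42567536325) (nat_lit 8) (nat_lit 5) (nat_lit 10) (nat_lit 4) (nat_lit 8) (nat_lit 4) (nat_lit 360) (nat_lit 304) (nat_lit 236)) (XT.lf (nat_lit 0) (nat_lit 32062979593) (nat_lit 76) (nat_lit 63135245696) (nat_lit 76) (nat_lit 32039541423) (nat_lit 7) (nat_lit 4)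 (nat_lit 8) (nat_lit 5) (nat_lit 8) (nat_lit 4) (nat_lit 361) (nat_lit 304) (nat_lit 235))) (XT.nd (nat_lit 78) (nat_lit 76) (nat_lit 0) (XT.lf (nat_lit 0) (nat_lit 69386331833) (nat_lit 76) (nat_lit 49111795933) (nat_lit 76) (nat_lit 18004655549) (nat_lit 7) (nat_lit 4) (nat_lit 8) (nat_lit 5) (nat_lit 8) (nat_lit 4) (nat_lit 362) (nat_lit 304) (nat_lit 234)) (XT.nd (nat_lit 78) (nat_lit 76) (nat_lit 0) (XT.lf (nat_lit 0) (nat_lit 109671285441) (nat_lit 76) (nat_lit 33978041650) (nat_lit 76) (nat_lit 2860312273) (nat_lit 7) (nat_lit 4) (nat_lit 8) (nat_lit 5) (nat_lit 8) (nat_lit 4) (nat_lit 363) (nat_lit 304) (nat_lit 233)) (XT.lf (nat_lit 0) (nat_lit 13051685010) (nat_lit 152) (nat_lit 4371579729) (nat_lit 76) (nat_lit 139883844459) (nat_lit 6) (nat_lit 5) (nat_lit 8) (nat_lit 5) (nat_lit 7) (nat_lit 4) (nat_lit 364) (nat_lit 304) (nat_lit 232))))) (XT.nd (nat_lit 234) (nat_lit 76) (nat_lit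 0) (XT.nd (nat_lit 78) (nat_lit 0) (nat_lit 0) (XT.lf (nat_lit 0) (nat_lit 30636474165) (nat_lit 152) (nat_lit 137322000860) (nat_lit 0) (nat_lit 982557637) (nat_lit 5) (nat_lit 5) (nat_lit 7) (nat_lit 4) (nat_lit 5) (nat_lit 4) (nat_lit 365) (nat_lit 304) (nat_lit 231)) (XT.nd (nat_lit 78) (nat_lit 0) (nat_lit 0) (XT.lf (nat_lit 0) (nat_lit 49988519698) (nat_lit 152) (nat_lit 111172531612) (nat_lit 0) (nat_lit 20326597566) (nat_lit 5) (nat_lit 5) (nat_lit 7) (nat_lit 4) (nat_lit 5) (nat_lit 4) (nat_lit 366) (nat_lit 304) (nat_lit 230)) (XT.lf (nat_lit 0) (nat_lit 70878809163) (nat_lit 152) (nat_lit 82950209119) (nat_lit 0) (nat_lit 41209474436) (nat_lit 5) (nat_lit 5) (nat_lit 7) (nat_lit 4) (nat_lit 5) (nat_lit 4) (nat_lit 367) (nat_lit 304) (nat_lit 229)))) (XT.nd (nat_lit 78) (nat_lit 76) (nat_lit 0) (XT.lf (nat_lit 0) (nat_lit 93431136870) (nat_lit 152) (nat_lit 52487789990) (nat_lit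 0) (nat_lit 63754938628) (nat_lit 5) (nat_lit 5) (nat_lit 7) (nat_lit 4) (nat_lit 5) (nat_lit 4) (nat_lit 368) (nat_lit 304) (nat_lit 228)) (XT.nd (nat_lit 78) (nat_lit 76) (nat_lit 0) (XT.lf (nat_lit 0) (nat_lit 117779146242) (nat_lit 152) (nat_lit 19604756184) (nat_lit 0) (nat_lit 88096592893) (nat_lit 5) (nat_lit 5) (nat_lit 7) (nat_lit 4) (nat_lit 5) (nat_lit 4) (nat_lit 369) (nat_lit 304) (nat_lit 227)) (XT.lf (nat_lit 0) (nat_lit 16419274028) (nat_lit 76) (nat_lit 127904198632) (nat_lit 76) (nat_lit 98215760926) (nat_lit 4) (nat_lit 4) (nat_lit 5) (nat_lit 5) (nat_lit 5) (nat_lit 4) (nat_lit 370) (nat_lit 304) (nat_lit 226))))))) (XT.nd (nat_lit 858) (nat_lit 0) (nat_lit 0) (XT.nd (nat_lit 390) (nat_lit 152) (nat_lit 0) (XT.nd (nat_lit 156) (nat_lit 0) (nat_lit 0) (XT.nd (nat_lit 78) (nat_lit 0) (nat_lit 0) (XT.lf (nat_lit 0) (nat_lit 56010799651) (nat_lit 76) (nat_lit 117314529975)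 (nat_lit 76) (nat_lit 87620643790) (nat_lit 4) (nat_lit 4) (nat_lit 5) (nat_lit 5) (nat_lit 5) (nat_lit 4) (nat_lit 371) (nat_lit 304) (nat_lit 225)) (XT.lf (nat_lit 0) (nat_lit 98756215354) (nat_lit 76) (nat_lit 105884158897) (nat_lit 76) (nat_lit 76185227824) (nat_lit 4) (nat_lit 4) (nat_lit 5) (nat_lit 5) (nat_lit 5) (nat_lit 4) (nat_lit 372) (nat_lit 304) (nat_lit 224))) (XT.nd (nat_lit 78) (nat_lit 0) (nat_lit 0) (XT.lf (nat_lit 0) (nat_lit 144908827304) (nat_lit 76) (nat_lit 93545349865) (nat_lit 76) (nat_lit 63841747599) (nat_lit 4) (nat_lit 4) (nat_lit 5) (nat_lit 5) (nat_lit 5) (nat_lit 4) (nat_lit 373) (nat_lit 304) (nat_lit 223)) (XT.nd (nat_lit 78) (nat_lit 0) (nat_lit 0) (XT.lf (nat_lit 0) (nat_lit 194742132462) (nat_lit 76) (nat_lit 80224984012) (nat_lit 76) (nat_lit 50517056567) (nat_lit 4) (nat_lit 4) (nat_lit 5) (nat_lit 5) (nat_lit 5) (nat_lit 4) (nat_lit 374) (nat_lit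 304) (nat_lit 222)) (XT.lf (nat_lit 0) (nat_lit 248551439302) (nat_lit 76) (nat_lit 65844125834) (nat_lit 76) (nat_lit 36132193595) (nat_lit 4) (nat_lit 4) (nat_lit 5) (nat_lit 5) (nat_lit 5) (nat_lit 4) (nat_lit 375) (nat_lit 304) (nat_lit 221))))) (XT.nd (nat_lit 234) (nat_lit 76) (nat_lit 0) (XT.nd (nat_lit 78) (nat_lit 76) (nat_lit 0) (XT.lf (nat_lit 0) (nat_lit 306655617791) (nat_lit 76) (nat_lit 50317555434) (nat_lit 76) (nat_lit 20601915051) (nat_lit 4) (nat_lit 4) (nat_lit 5) (nat_lit 5) (nat_lit 5) (nat_lit 4) (nat_lit 376) (nat_lit 304) (nat_lit 220)) (XT.nd (nat_lit 78) (nat_lit 76) (nat_lit 0) (XT.lf (nat_lit 0) (nat_lit 369398988986) (nat_lit 76) (nat_lit 33553263503) (nat_lit 76) (nat_lit 3834189654) (nat_lit 4) (nat_lit 4) (nat_lit 5) (nat_lit 5) (nat_lit 5) (nat_lit 4) (nat_lit 377) (nat_lit 304) (nat_lit 219)) (XT.lf (nat_lit 0) (nat_lit 13813606672) (nat_lit 152) (nat_lit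 1404359304) (nat_lit 76) (nat_lit 423105818672) (nat_lit 3) (nat_lit 5) (nat_lit 5) (nat_lit 5) (nat_lit 4) (nat_lit 4) (nat_lit 378) (nat_lit 304) (nat_lit 218)))) (XT.nd (nat_lit 78) (nat_lit 0) (nat_lit 0) (XT.lf (nat_lit 0) (nat_lit 33421998325) (nat_lit 152) (nat_lit 433812531941) (nat_lit 0) (nat_lit 5112287251) (nat_lit 2) (nat_lit 5) (nat_lit 4) (nat_lit 4) (nat_lit 2) (nat_lit 4) (nat_lit 379) (nat_lit 304) (nat_lit 217)) (XT.nd (nat_lit 78) (nat_lit 0) (nat_lit 0) (XT.lf (nat_lit 0) (nat_lit 54876528192) (nat_lit 152) (nat_lit 427637070989) (nat_lit 0) (nat_lit 26564221311) (nat_lit 2) (nat_lit 5) (nat_lit 4) (nat_lit 4) (nat_lit 2) (nat_lit 4) (nat_lit 380) (nat_lit 304) (nat_lit 216)) (XT.lf (nat_lit 0) (nat_lit 78043716846) (nat_lit 152) (nat_lit 420974766359) (nat_lit 0) (nat_lit 49729006442) (nat_lit 2) (nat_lit 5) (nat_lit 4) (nat_lit 4) (nat_lit 2) (nat_lit 4) (nat_lit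 381) (nat_lit 304) (nat_lit 215)))))) (XT.nd (nat_lit 468) (nat_lit 0) (nat_lit 0) (XT.nd (nat_lit 234) (nat_lit 0) (nat_lit 0) (XT.nd (nat_lit 78) (nat_lit 0) (nat_lit 0) (XT.lf (nat_lit 0) (nat_lit 103060851331) (nat_lit 152) (nat_lit 413786137727) (nat_lit 0) (nat_lit 74743915442) (nat_lit 2) (nat_lit 5) (nat_lit 4) (nat_lit 4) (nat_lit 2) (nat_lit 4) (nat_lit 382) (nat_lit 304) (nat_lit 214)) (XT.nd (nat_lit 78) (nat_lit 0) (nat_lit 0) (XT.lf (nat_lit 0) (nat_lit 130076181334) (nat_lit 152) (nat_lit 406028585814) (nat_lit 0) (nat_lit 101757184810) (nat_lit 2) (nat_lit 5) (nat_lit 4) (nat_lit 4) (nat_lit 2) (nat_lit 4) (nat_lit 383) (nat_lit 304) (nat_lit 213)) (XT.lf (nat_lit 0) (nat_lit 159249797698) (nat_lit 152) (nat_lit 397656139940) (nat_lit 0) (nat_lit 130928893180) (nat_lit 2) (nat_lit 5) (nat_lit 4) (nat_lit 4) (nat_lit 2) (nat_lit 4) (nat_lit 384) (nat_lit 304) (nat_lit 212))))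 (XT.nd (nat_lit 78) (nat_lit 0) (nat_lit 0) (XT.lf (nat_lit 0) (nat_lit 190754581114) (nat_lit 152) (nat_lit 388619185611) (nat_lit 0) (nat_lit 162431909933) (nat_lit 2) (nat_lit 5) (nat_lit 4) (nat_lit 4) (nat_lit 2) (nat_lit 4) (nat_lit 385) (nat_lit 304) (nat_lit 211)) (XT.nd (nat_lit 78) (nat_lit 0) (nat_lit 0) (XT.lf (nat_lit 0) (nat_lit 224777226593) (nat_lit 152) (nat_lit 378864170507) (nat_lit 0) (nat_lit 196452919615) (nat_lit 2) (nat_lit 5) (nat_lit 4) (nat_lit 4) (nat_lit 2) (nat_lit 4) (nat_lit 386) (nat_lit 304) (nat_lit 210)) (XT.lf (nat_lit 0) (nat_lit 261519349814) (nat_lit 152) (nat_lit 368333287129) (nat_lit 0) (nat_lit 233193528208) (nat_lit 2) (nat_lit 5) (nat_lit 4) (nat_lit 4) (nat_lit 2) (nat_lit 4) (nat_lit 387) (nat_lit 304) (nat_lit 209))))) (XT.nd (nat_lit 234) (nat_lit 0) (nat_lit 0) (XT.nd (nat_lit 78) (nat_lit 0) (nat_lit 0) (XT.lf (nat_lit 0) (nat_lit 301198681876)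 (nat_lit 152) (nat_lit 356964130243) (nat_lit 0) (nat_lit 272871457837) (nat_lit 2) (nat_lit 5) (nat_lit 4) (nat_lit 4) (nat_lit 2) (nat_lit 4) (nat_lit 388) (nat_lit 304) (nat_lit 208)) (XT.nd (nat_lit 78) (nat_lit 0) (nat_lit 0) (XT.lf (nat_lit 0) (nat_lit 344050359562) (nat_lit 152) (nat_lit 344689327067) (nat_lit 0) (nat_lit 315721836974) (nat_lit 2) (nat_lit 5) (nat_lit 4) (nat_lit 4) (nat_lit 2) (nat_lit 4) (nat_lit 389) (nat_lit 304) (nat_lit 207)) (XT.lf (nat_lit 0) (nat_lit 390328318741) (nat_lit 152) (nat_lit 331436138027) (nat_lit 0) (nat_lit 361998593792) (nat_lit 2) (nat_lit 5) (nat_lit 4) (nat_lit 4) (nat_lit 2) (nat_lit 4) (nat_lit 390) (nat_lit 304) (nat_lit 206)))) (XT.nd (nat_lit 40170) (nat_lit 0) (nat_lit 9348) (XT.lf (nat_lit 0) (nat_lit 440306799169) (nat_lit 152) (nat_lit 317126025707) (nat_lit 0) (nat_lit 411975960923) (nat_lit 2) (nat_lit 5) (nat_lit 4) (nat_lit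 4) (nat_lit 2) (nat_lit 4) (nat_lit 391) (nat_lit 304) (nat_lit 205)) (XT.nd (nat_lit 78) (nat_lit 0) (nat_lit 0) (XT.lf (nat_lit 0) (nat_lit 1539576927) (nat_lit 532) (nat_lit 1023096713) (nat_lit 532) (nat_lit 1023096713) (nat_lit 125) (nat_lit 3) (nat_lit 132) (nat_lit 3) (nat_lit 132) (nat_lit 5) (nat_lit 305) (nat_lit 305) (nat_lit 290)) (XT.lf (nat_lit 76) (nat_lit 3428995561) (nat_lit 0) (nat_lit 2299846834) (nat_lit 532) (nat_lit 1598432878) (nat_lit 126) (nat_lit 5) (nat_lit 125) (nat_lit 3) (nat_lit 132) (nat_lit 5) (nat_lit 306) (nat_lit 305) (nat_lit 289))))))))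
noncomputable def xc57 : XT := (XT.nd (nat_lit 1716) (nat_lit 2128) (nat_lit 0) (XT.nd (nat_lit 858) (nat_lit 2660) (nat_lit 0) (XT.nd (nat_lit 390) (nat_lit 2736) (nat_lit 0) (XT.nd (nat_lit 156) (nat_lit 532) (nat_lit 0) (XT.nd (nat_lit 78) (nat_lit 0) (nat_lit 0) (XT.lf (nat_lit 0) (nat_lit 885347304) (nat_lit 532) (nat_lit 5700529499) (nat_lit 608) (nat_lit 917926529) (nat_lit 119) (nat_lit 5) (nat_lit 126) (nat_lit 5) (nat_lit 127) (nat_lit 5) (nat_lit 307) (nat_lit 305) (nat_lit 288)) (XT.lf (nat_lit 76) (nat_lit 197652943) (nat_lit 0) (nat_lit 3189983160) (nat_lit 608) (nat_lit 4312140532) (nat_lit 120) (nat_lit 5) (nat_lit 119) (nat_lit 5) (nat_lit 127) (nat_lit 5) (nat_lit 308) (nat_lit 305) (nat_lit 287))) (XT.nd (nat_lit 78) (nat_lit 608) (nat_lit 0) (XT.lf (nat_lit 0) (nat_lit 5979071290) (nat_lit 532) (nat_lit 1301274478) (nat_lit 608) (nat_lit 637026062) (nat_lit 120) (nat_lit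 5) (nat_lit 127) (nat_lit 5) (nat_lit 128) (nat_lit 5) (nat_lit 309) (nat_lit 305) (nat_lit 286)) (XT.nd (nat_lit 78) (nat_lit 0) (nat_lit 76) (XT.lf (nat_lit 0) (nat_lit 538438438) (nat_lit 608) (nat_lit 2796380146) (nat_lit 684) (nat_lit 4820763157) (nat_lit 112) (nat_lit 5) (nat_lit 120) (nat_lit 5) (nat_lit 121) (nat_lit 5) (nat_lit 310) (nat_lit 305) (nat_lit 285)) (XT.lf (nat_lit 0) (nat_lit 3057459015) (nat_lit 608) (nat_lit 4293032719) (nat_lit 76) (nat_lit 1065485616) (nat_lit 113) (nat_lit 5) (nat_lit 121) (nat_lit 5) (nat_lit 114) (nat_lit 5) (nat_lit 311) (nat_lit 305) (nat_lit 284))))) (XT.nd (nat_lit 234) (nat_lit 760) (nat_lit 0) (XT.nd (nat_lit 78) (nat_lit 1444) (nat_lit 0) (XT.lf (nat_lit 0) (nat_lit 2886810568) (nat_lit 608) (nat_lit 2861100817) (nat_lit 684) (nat_lit 2951094223) (nat_lit 105) (nat_lit 5) (nat_lit 113) (nat_lit 5) (nat_lit 114) (nat_lit 5) (nat_lit 312)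 (nat_lit 305) (nat_lit 283)) (XT.nd (nat_lit 78) (nat_lit 760) (nat_lit 0) (XT.lf (nat_lit 0) (nat_lit 1662208973) (nat_lit 684) (nat_lit 6955064171) (nat_lit 760) (nat_lit 389493869) (nat_lit 96) (nat_lit 5) (nat_lit 105) (nat_lit 5) (nat_lit 106) (nat_lit 5) (nat_lit 313) (nat_lit 305) (nat_lit 282)) (XT.lf (nat_lit 0) (nat_lit 382117687) (nat_lit 684) (nat_lit 1914051133) (nat_lit 760) (nat_lit 7041606293) (nat_lit 86) (nat_lit 5) (nat_lit 95) (nat_lit 5) (nat_lit 96) (nat_lit 5) (nat_lit 314) (nat_lit 305) (nat_lit 281)))) (XT.nd (nat_lit 78) (nat_lit 760) (nat_lit 0) (XT.lf (nat_lit 0) (nat_lit 5216327595) (nat_lit 760) (nat_lit 915959897) (nat_lit 76) (nat_lit 3561216830) (nat_lit 86) (nat_lit 5) (nat_lit 96) (nat_lit 5) (nat_lit 87) (nat_lit 5) (nat_lit 315) (nat_lit 305) (nat_lit 280)) (XT.nd (nat_lit 78) (nat_lit 380) (nat_lit 0) (XT.lf (nat_lit 0) (nat_lit 7844498761) (nat_lit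 380) (nat_lit 539566743) (nat_lit 456) (nat_lit 1693135605) (nat_lit 81) (nat_lit 5) (nat_lit 86) (nat_lit 5) (nat_lit 87) (nat_lit 5) (nat_lit 316) (nat_lit 305) (nat_lit 279)) (XT.lf (nat_lit 0) (nat_lit 1349012257) (nat_lit 380) (nat_lit 3671133164) (nat_lit 76) (nat_lit 5466734397) (nat_lit 76) (nat_lit 5) (nat_lit 81) (nat_lit 5) (nat_lit 77) (nat_lit 5) (nat_lit 317) (nat_lit 305) (nat_lit 278)))))) (XT.nd (nat_lit 390) (nat_lit 1140) (nat_lit 0) (XT.nd (nat_lit 156) (nat_lit 912) (nat_lit 0) (XT.nd (nat_lit 78) (nat_lit 304) (nat_lit 0) (XT.lf (nat_lit 0) (nat_lit 4605408856) (nat_lit 380) (nat_lit 5199620142) (nat_lit 76) (nat_lit 1121575683) (nat_lit 72) (nat_lit 5) (nat_lit 77) (nat_lit 5) (nat_lit 73) (nat_lit 5) (nat_lit 318) (nat_lit 305) (nat_lit 277)) (XT.lf (nat_lit 0) (nat_lit 4529110516) (nat_lit 304) (nat_lit 3693634156) (nat_lit 380) (nat_lit 3173898411) (nat_lit 68)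 (nat_lit 5) (nat_lit 72) (nat_lit 5) (nat_lit 73) (nat_lit 5) (nat_lit 319) (nat_lit 305) (nat_lit 276))) (XT.nd (nat_lit 78) (nat_lit 532) (nat_lit 0) (XT.lf (nat_lit 0) (nat_lit 293617753) (nat_lit 380) (nat_lit 8665844611) (nat_lit 76) (nat_lit 2941002678) (nat_lit 63) (nat_lit 5) (nat_lit 68) (nat_lit 5) (nat_lit 64) (nat_lit 5) (nat_lit 320) (nat_lit 305) (nat_lit 275)) (XT.nd (nat_lit 78) (nat_lit 304) (nat_lit 0) (XT.lf (nat_lit 0) (nat_lit 1752948552) (nat_lit 228) (nat_lit 2278093203) (nat_lit 304) (nat_lit 8405892354) (nat_lit 60) (nat_lit 5) (nat_lit 63) (nat_lit 5) (nat_lit 64) (nat_lit 5) (nat_lit 321) (nat_lit 305) (nat_lit 274)) (XT.lf (nat_lit 0) (nat_lit 93505758) (nat_lit 304) (nat_lit 8102506036) (nat_lit 380) (nat_lit 4813999943) (nat_lit 56) (nat_lit 5) (nat_lit 60) (nat_lit 5) (nat_lit 61) (nat_lit 5) (nat_lit 322) (nat_lit 305) (nat_lit 273))))) (XT.nd (nat_lit 234)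 (nat_lit 608) (nat_lit 0) (XT.nd (nat_lit 78) (nat_lit 532) (nat_lit 0) (XT.lf (nat_lit 0) (nat_lit 11945092512) (nat_lit 304) (nat_lit 875192402) (nat_lit 380) (nat_lit 802455237) (nat_lit 56) (nat_lit 5) (nat_lit 60) (nat_lit 5) (nat_lit 61) (nat_lit 5) (nat_lit 323) (nat_lit 305) (nat_lit 272)) (XT.nd (nat_lit 78) (nat_lit 228) (nat_lit 0) (XT.lf (nat_lit 0) (nat_lit 3602065022) (nat_lit 304) (nat_lit 3767771167) (nat_lit 76) (nat_lit 6902740130) (nat_lit 52) (nat_lit 5) (nat_lit 56) (nat_lit 5) (nat_lit 53) (nat_lit 5) (nat_lit 324) (nat_lit 305) (nat_lit 271)) (XT.lf (nat_lit 0) (nat_lit 8433822043) (nat_lit 304) (nat_lit 6093864134) (nat_lit 76) (nat_lit 440995687) (nat_lit 49) (nat_lit 5) (nat_lit 53) (nat_lit 5) (nat_lit 50) (nat_lit 5) (nat_lit 325) (nat_lit 305) (nat_lit 270)))) (XT.nd (nat_lit 78) (nat_lit 456) (nat_lit 0) (XT.lf (nat_lit 0) (nat_lit 6921906010) (nat_lit 152)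 (nat_lit 6945765415) (nat_lit 228) (nat_lit 1842109888) (nat_lit 47) (nat_lit 5) (nat_lit 49) (nat_lit 5) (nat_lit 50) (nat_lit 5) (nat_lit 326) (nat_lit 305) (nat_lit 269)) (XT.nd (nat_lit 78) (nat_lit 152) (nat_lit 0) (XT.lf (nat_lit 0) (nat_lit 3245752763) (nat_lit 304) (nat_lit 11854187973) (nat_lit 76) (nat_lit 1401635489) (nat_lit 43) (nat_lit 5) (nat_lit 47) (nat_lit 5) (nat_lit 44) (nat_lit 5) (nat_lit 327) (nat_lit 305) (nat_lit 268)) (XT.lf (nat_lit 0) (nat_lit 1916739871) (nat_lit 152) (nat_lit 6986009712) (nat_lit 228) (nat_lit 8441190848) (nat_lit 41) (nat_lit 5) (nat_lit 43) (nat_lit 5) (nat_lit 44) (nat_lit 5) (nat_lit 328) (nat_lit 305) (nat_lit 267))))))) (XT.nd (nat_lit 858) (nat_lit 836) (nat_lit 0) (XT.nd (nat_lit 390) (nat_lit 532) (nat_lit 0) (XT.nd (nat_lit 156) (nat_lit 532) (nat_lit 0) (XT.nd (nat_lit 78) (nat_lit 228) (nat_lit 0) (XT.lf (nat_lit 0) (nat_lit 15176438162)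 (nat_lit 228) (nat_lit 1176054168) (nat_lit 76) (nat_lit 1893057632) (nat_lit 41) (nat_lit 5) (nat_lit 44) (nat_lit 5) (nat_lit 42) (nat_lit 5) (nat_lit 329) (nat_lit 305) (nat_lit 266)) (XT.lf (nat_lit 0) (nat_lit 2925150149) (nat_lit 228) (nat_lit 4798488065) (nat_lit 76) (nat_lit 11479578073) (nat_lit 38) (nat_lit 5) (nat_lit 41) (nat_lit 5) (nat_lit 39) (nat_lit 5) (nat_lit 330) (nat_lit 305) (nat_lit 265))) (XT.nd (nat_lit 78) (nat_lit 380) (nat_lit 0) (XT.lf (nat_lit 0) (nat_lit 9451895993) (nat_lit 228) (nat_lit 9014970820) (nat_lit 76) (nat_lit 1760141226) (nat_lit 36) (nat_lit 5) (nat_lit 39) (nat_lit 5) (nat_lit 37) (nat_lit 5) (nat_lit 331) (nat_lit 305) (nat_lit 264)) (XT.nd (nat_lit 78) (nat_lit 228) (nat_lit 0) (XT.lf (nat_lit 0) (nat_lit 7348342877) (nat_lit 152) (nat_lit 9419414975) (nat_lit 228) (nat_lit 4551643932) (nat_lit 34) (nat_lit 5) (nat_lit 36) (nat_lit 5) (nat_lit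 37) (nat_lit 5) (nat_lit 332) (nat_lit 305) (nat_lit 263)) (XT.lf (nat_lit 0) (nat_lit 2251634999) (nat_lit 228) (nat_lit 19693658342) (nat_lit 76) (nat_lit 544672925) (nat_lit 31) (nat_lit 5) (nat_lit 34) (nat_lit 5) (nat_lit 32) (nat_lit 5) (nat_lit 333) (nat_lit 305) (nat_lit 262))))) (XT.nd (nat_lit 234) (nat_lit 228) (nat_lit 0) (XT.nd (nat_lit 78) (nat_lit 304) (nat_lit 0) (XT.lf (nat_lit 0) (nat_lit 9789653371) (nat_lit 228) (nat_lit 2674772433) (nat_lit 76) (nat_lit 11268560780) (nat_lit 31) (nat_lit 5) (nat_lit 34) (nat_lit 5) (nat_lit 32) (nat_lit 5) (nat_lit 334) (nat_lit 305) (nat_lit 261)) (XT.nd (nat_lit 78) (nat_lit 152) (nat_lit 0) (XT.lf (nat_lit 0) (nat_lit 16131982051) (nat_lit 152) (nat_lit 1996548130) (nat_lit 228) (nat_lit 6937063386) (nat_lit 29) (nat_lit 5) (nat_lit 31) (nat_lit 5) (nat_lit 32) (nat_lit 5) (nat_lit 335) (nat_lit 305) (nat_lit 260)) (XT.lf (nat_lit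 0) (nat_lit 913281650) (nat_lit 152) (nat_lit 16378433092) (nat_lit 76) (nat_lit 9197448030) (nat_lit 27) (nat_lit 5) (nat_lit 29) (nat_lit 5) (nat_lit 28) (nat_lit 5) (nat_lit 336) (nat_lit 305) (nat_lit 259)))) (XT.nd (nat_lit 78) (nat_lit 76) (nat_lit 0) (XT.lf (nat_lit 0) (nat_lit 2830215440) (nat_lit 152) (nat_lit 6507430375) (nat_lit 228) (nat_lit 18673863263) (nat_lit 25) (nat_lit 5) (nat_lit 27) (nat_lit 5) (nat_lit 28) (nat_lit 5) (nat_lit 337) (nat_lit 305) (nat_lit 258)) (XT.nd (nat_lit 78) (nat_lit 76) (nat_lit 0) (XT.lf (nat_lit 0) (nat_lit 18757842387) (nat_lit 228) (nat_lit 5649996052) (nat_lit 76) (nat_lit 5231737620) (nat_lit 25) (nat_lit 5) (nat_lit 28) (nat_lit 5) (nat_lit 26) (nat_lit 4) (nat_lit 338) (nat_lit 305) (nat_lit 257)) (XT.lf (nat_lit 0) (nat_lit 15760626007) (nat_lit 76) (nat_lit 13482065000) (nat_lit 152) (nat_lit 2139670699) (nat_lit 24) (nat_lit 5) (nat_lit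 25) (nat_lit 5) (nat_lit 26) (nat_lit 4) (nat_lit 339) (nat_lit 305) (nat_lit 256)))))) (XT.nd (nat_lit 468) (nat_lit 304) (nat_lit 0) (XT.nd (nat_lit 234) (nat_lit 228) (nat_lit 0) (XT.nd (nat_lit 78) (nat_lit 76) (nat_lit 0) (XT.lf (nat_lit 0) (nat_lit 5820939885) (nat_lit 152) (nat_lit 1394702328) (nat_lit 228) (nat_lit 26035870764) (nat_lit 21) (nat_lit 5) (nat_lit 23) (nat_lit 5) (nat_lit 24) (nat_lit 5) (nat_lit 340) (nat_lit 305) (nat_lit 255)) (XT.nd (nat_lit 78) (nat_lit 76) (nat_lit 0) (XT.lf (nat_lit 0) (nat_lit 17662297548) (nat_lit 228) (nat_lit 6016545186) (nat_lit 76) (nat_lit 11568726250) (nat_lit 21) (nat_lit 5) (nat_lit 24) (nat_lit 5) (nat_lit 22) (nat_lit 4) (nat_lit 341) (nat_lit 305) (nat_lit 254)) (XT.lf (nat_lit 0) (nat_lit 17581038939) (nat_lit 76) (nat_lit 11623002413) (nat_lit 152) (nat_lit 8186319312) (nat_lit 20) (nat_lit 5) (nat_lit 21) (nat_lit 5) (nat_lit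 22) (nat_lit 4) (nat_lit 342) (nat_lit 305) (nat_lit 253)))) (XT.nd (nat_lit 78) (nat_lit 76) (nat_lit 0) (XT.lf (nat_lit 0) (nat_lit 2051452599) (nat_lit 152) (nat_lit 36123636963) (nat_lit 76) (nat_lit 1520480188) (nat_lit 18) (nat_lit 5) (nat_lit 20) (nat_lit 5) (nat_lit 19) (nat_lit 4) (nat_lit 343) (nat_lit 305) (nat_lit 252)) (XT.nd (nat_lit 78) (nat_lit 76) (nat_lit 0) (XT.lf (nat_lit 0) (nat_lit 13335872545) (nat_lit 152) (nat_lit 13042008788) (nat_lit 76) (nat_lit 15774897889) (nat_lit 18) (nat_lit 5) (nat_lit 20) (nat_lit 5) (nat_lit 19) (nat_lit 4) (nat_lit 344) (nat_lit 305) (nat_lit 251)) (XT.lf (nat_lit 0) (nat_lit 12216543769) (nat_lit 76) (nat_lit 13463804600) (nat_lit 152) (nat_lit 19118366328) (nat_lit 17) (nat_lit 5) (nat_lit 18) (nat_lit 5) (nat_lit 19) (nat_lit 4) (nat_lit 345) (nat_lit 305) (nat_lit 250))))) (XT.nd (nat_lit 234) (nat_lit 152) (nat_lit 0) (XT.nd (nat_lit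 78) (nat_lit 152) (nat_lit 0) (XT.lf (nat_lit 0) (nat_lit 39218568474) (nat_lit 152) (nat_lit 7753906956) (nat_lit 0) (nat_lit 673553568) (nat_lit 17) (nat_lit 5) (nat_lit 19) (nat_lit 4) (nat_lit 17) (nat_lit 4) (nat_lit 346) (nat_lit 305) (nat_lit 249)) (XT.nd (nat_lit 78) (nat_lit 0) (nat_lit 0) (XT.lf (nat_lit 0) (nat_lit 3527114408) (nat_lit 152) (nat_lit 31353315078) (nat_lit 76) (nat_lit 15812865328) (nat_lit 15) (nat_lit 5) (nat_lit 17) (nat_lit 5) (nat_lit 16) (nat_lit 4) (nat_lit 347) (nat_lit 305) (nat_lit 248)) (XT.lf (nat_lit 0) (nat_lit 16255066284) (nat_lit 152) (nat_lit 5297018094) (nat_lit 76) (nat_lit 32419747216) (nat_lit 15) (nat_lit 5) (nat_lit 17) (nat_lit 5) (nat_lit 16) (nat_lit 4) (nat_lit 348) (nat_lit 305) (nat_lit 247)))) (XT.nd (nat_lit 78) (nat_lit 76) (nat_lit 0) (XT.lf (nat_lit 0) (nat_lit 23548041218) (nat_lit 76) (nat_lit 6794047839) (nat_lit 152) (nat_lit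 27153530574) (nat_lit 14) (nat_lit 5) (nat_lit 15) (nat_lit 5) (nat_lit 16) (nat_lit 4) (nat_lit 349) (nat_lit 305) (nat_lit 246)) (XT.nd (nat_lit 78) (nat_lit 76) (nat_lit 0) (XT.lf (nat_lit 0) (nat_lit 45766723373) (nat_lit 152) (nat_lit 6599349632) (nat_lit 0) (nat_lit 8924714528) (nat_lit 14) (nat_lit 5) (nat_lit 16) (nat_lit 4) (nat_lit 14) (nat_lit 4) (nat_lit 350) (nat_lit 305) (nat_lit 245)) (XT.lf (nat_lit 0) (nat_lit 23530650940) (nat_lit 76) (nat_lit 39352629107) (nat_lit 76) (nat_lit 2483399858) (nat_lit 13) (nat_lit 4) (nat_lit 14) (nat_lit 5) (nat_lit 14) (nat_lit 4) (nat_lit 351) (nat_lit 305) (nat_lit 244))))))))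
noncomputable def xc58 : XT := (XT.nd (nat_lit 1716) (nat_lit 152) (nat_lit 0) (XT.nd (nat_lit 858) (nat_lit 228) (nat_lit 0) (XT.nd (nat_lit 390) (nat_lit 228) (nat_lit 0) (XT.nd (nat_lit 156) (nat_lit 76) (nat_lit 0) (XT.nd (nat_lit 78) (nat_lit 76) (nat_lit 0) (XT.lf (nat_lit 0) (nat_lit 11322808899) (nat_lit 152) (nat_lit 13682675081) (nat_lit 76) (nat_lit 44749432441) (nat_lit 12) (nat_lit 5) (nat_lit 14) (nat_lit 5) (nat_lit 13) (nat_lit 4) (nat_lit 352) (nat_lit 305) (nat_lit 243)) (XT.lf (nat_lit 0) (nat_lit 17191023762) (nat_lit 76) (nat_lit 9203509991) (nat_lit 152) (nat_lit 48085248286) (nat_lit 11) (nat_lit 5) (nat_lit 12) (nat_lit 5) (nat_lit 13) (nat_lit 4) (nat_lit 353) (nat_lit 305) (nat_lit 242))) (XT.nd (nat_lit 78) (nat_lit 76) (nat_lit 0) (XT.lf (nat_lit 0) (nat_lit 43016180537) (nat_lit 152) (nat_lit 28713433979) (nat_lit 0) (nat_lit 7835819711) (nat_lit 11) (nat_lit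 5) (nat_lit 13) (nat_lit 4) (nat_lit 11) (nat_lit 4) (nat_lit 354) (nat_lit 305) (nat_lit 241)) (XT.nd (nat_lit 78) (nat_lit 0) (nat_lit 0) (XT.lf (nat_lit 0) (nat_lit 2021051740) (nat_lit 76) (nat_lit 59113967869) (nat_lit 76) (nat_lit 23914551987) (nat_lit 10) (nat_lit 4) (nat_lit 11) (nat_lit 5) (nat_lit 11) (nat_lit 4) (nat_lit 355) (nat_lit 305) (nat_lit 240)) (XT.lf (nat_lit 0) (nat_lit 36204861257) (nat_lit 76) (nat_lit 44980277543) (nat_lit 76) (nat_lit 9763218090) (nat_lit 10) (nat_lit 4) (nat_lit 11) (nat_lit 5) (nat_lit 11) (nat_lit 4) (nat_lit 356) (nat_lit 305) (nat_lit 239))))) (XT.nd (nat_lit 234) (nat_lit 76) (nat_lit 0) (XT.nd (nat_lit 78) (nat_lit 76) (nat_lit 0) (XT.lf (nat_lit 0) (nat_lit 5326222874) (nat_lit 152) (nat_lit 24314639199) (nat_lit 76) (nat_lit 67674744457) (nat_lit 9) (nat_lit 5) (nat_lit 11) (nat_lit 5) (nat_lit 10) (nat_lit 4) (nat_lit 357) (nat_lit 305)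 (nat_lit 238)) (XT.nd (nat_lit 78) (nat_lit 0) (nat_lit 0) (XT.lf (nat_lit 0) (nat_lit 8629750810) (nat_lit 76) (nat_lit 12774285004) (nat_lit 152) (nat_lit 82774038635) (nat_lit 8) (nat_lit 5) (nat_lit 9) (nat_lit 5) (nat_lit 10) (nat_lit 4) (nat_lit 358) (nat_lit 305) (nat_lit 237)) (XT.lf (nat_lit 0) (nat_lit 39268006182) (nat_lit 152) (nat_lit 66611895656) (nat_lit 0) (nat_lit 5684645567) (nat_lit 8) (nat_lit 5) (nat_lit 10) (nat_lit 4) (nat_lit 8) (nat_lit 4) (nat_lit 359) (nat_lit 305) (nat_lit 236)))) (XT.nd (nat_lit 78) (nat_lit 76) (nat_lit 0) (XT.lf (nat_lit 0) (nat_lit 58762126021) (nat_lit 152) (nat_lit 35603350090) (nat_lit 0) (nat_lit 25166414406) (nat_lit 8) (nat_lit 5) (nat_lit 10) (nat_lit 4) (nat_lit 8) (nat_lit 4) (nat_lit 360) (nat_lit 305) (nat_lit 235)) (XT.nd (nat_lit 78) (nat_lit 76) (nat_lit 0) (XT.lf (nat_lit 0) (nat_lit 79802473653) (nat_lit 152) (nat_lit 2139490208)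 (nat_lit 0) (nat_lit 46195325926) (nat_lit 8) (nat_lit 5) (nat_lit 10) (nat_lit 4) (nat_lit 8) (nat_lit 4) (nat_lit 361) (nat_lit 305) (nat_lit 234)) (XT.lf (nat_lit 0) (nat_lit 35101454086) (nat_lit 76) (nat_lit 67960310603) (nat_lit 76) (nat_lit 34342573883) (nat_lit 7) (nat_lit 4) (nat_lit 8) (nat_lit 5) (nat_lit 8) (nat_lit 4) (nat_lit 362) (nat_lit 305) (nat_lit 233)))))) (XT.nd (nat_lit 390) (nat_lit 76) (nat_lit 0) (XT.nd (nat_lit 156) (nat_lit 152) (nat_lit 0) (XT.nd (nat_lit 78) (nat_lit 0) (nat_lit 0) (XT.lf (nat_lit 0) (nat_lit 75375605161) (nat_lit 76) (nat_lit 52831707433) (nat_lit 76) (nat_lit 19204166091) (nat_lit 7) (nat_lit 4) (nat_lit 8) (nat_lit 5) (nat_lit 8) (nat_lit 4) (nat_lit 363) (nat_lit 305) (nat_lit 232)) (XT.lf (nat_lit 0) (nat_lit 118850883445) (nat_lit 76) (nat_lit 36502736672) (nat_lit 76) (nat_lit 2866116975) (nat_lit 7) (nat_lit 4) (nat_lit 8) (nat_lit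 5) (nat_lit 8) (nat_lit 4) (nat_lit 364) (nat_lit 305) (nat_lit 231))) (XT.nd (nat_lit 78) (nat_lit 76) (nat_lit 0) (XT.lf (nat_lit 0) (nat_lit 14295710771) (nat_lit 152) (nat_lit 4338818498) (nat_lit 76) (nat_lit 151247104664) (nat_lit 6) (nat_lit 5) (nat_lit 8) (nat_lit 5) (nat_lit 7) (nat_lit 4) (nat_lit 365) (nat_lit 305) (nat_lit 230)) (XT.nd (nat_lit 78) (nat_lit 0) (nat_lit 0) (XT.lf (nat_lit 0) (nat_lit 33280921816) (nat_lit 152) (nat_lit 147935043470) (nat_lit 0) (nat_lit 1230627714) (nat_lit 5) (nat_lit 5) (nat_lit 7) (nat_lit 4) (nat_lit 5) (nat_lit 4) (nat_lit 366) (nat_lit 305) (nat_lit 229)) (XT.lf (nat_lit 0) (nat_lit 54166795456) (nat_lit 152) (nat_lit 119721225383) (nat_lit 0) (nat_lit 22109637840) (nat_lit 5) (nat_lit 5) (nat_lit 7) (nat_lit 4) (nat_lit 5) (nat_lit 4) (nat_lit 367) (nat_lit 305) (nat_lit 228))))) (XT.nd (nat_lit 234) (nat_lit 76) (nat_lit 0) (XT.nd (nat_lit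 78) (nat_lit 0) (nat_lit 0) (XT.lf (nat_lit 0) (nat_lit 76715034436) (nat_lit 152) (nat_lit 89266680703) (nat_lit 0) (nat_lit 44651521714) (nat_lit 5) (nat_lit 5) (nat_lit 7) (nat_lit 4) (nat_lit 5) (nat_lit 4) (nat_lit 368) (nat_lit 305) (nat_lit 227)) (XT.nd (nat_lit 78) (nat_lit 0) (nat_lit 0) (XT.lf (nat_lit 0) (nat_lit 101059257949) (nat_lit 152) (nat_lit 56390938054) (nat_lit 0) (nat_lit 68989860869) (nat_lit 5) (nat_lit 5) (nat_lit 7) (nat_lit 4) (nat_lit 5) (nat_lit 4) (nat_lit 369) (nat_lit 305) (nat_lit 226)) (XT.lf (nat_lit 0) (nat_lit 127343728061) (nat_lit 152) (nat_lit 20899178221) (nat_lit 0) (nat_lit 95268882502) (nat_lit 5) (nat_lit 5) (nat_lit 7) (nat_lit 4) (nat_lit 5) (nat_lit 4) (nat_lit 370) (nat_lit 305) (nat_lit 225)))) (XT.nd (nat_lit 78) (nat_lit 0) (nat_lit 0) (XT.lf (nat_lit 0) (nat_lit 17994868508) (nat_lit 76) (nat_lit 138010286413) (nat_lit 76) (nat_lit 105930395966)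 (nat_lit 4) (nat_lit 4) (nat_lit 5) (nat_lit 5) (nat_lit 5) (nat_lit 4) (nat_lit 371) (nat_lit 305) (nat_lit 224)) (XT.nd (nat_lit 78) (nat_lit 0) (nat_lit 0) (XT.lf (nat_lit 0) (nat_lit 60734304880) (nat_lit 76) (nat_lit 126582795976) (nat_lit 76) (nat_lit 94498234336) (nat_lit 4) (nat_lit 4) (nat_lit 5) (nat_lit 5) (nat_lit 5) (nat_lit 4) (nat_lit 372) (nat_lit 305) (nat_lit 223)) (XT.lf (nat_lit 0) (nat_lit 106881380413) (nat_lit 76) (nat_lit 114246654204) (nat_lit 76) (nat_lit 82157767385) (nat_lit 4) (nat_lit 4) (nat_lit 5) (nat_lit 5) (nat_lit 5) (nat_lit 4) (nat_lit 373) (nat_lit 305) (nat_lit 222))))))) (XT.nd (nat_lit 858) (nat_lit 0) (nat_lit 0) (XT.nd (nat_lit 390) (nat_lit 152) (nat_lit 0) (XT.nd (nat_lit 156) (nat_lit 0) (nat_lit 0) (XT.nd (nat_lit 78) (nat_lit 0) (nat_lit 0) (XT.lf (nat_lit 0) (nat_lit 156709559258) (nat_lit 76) (nat_lit 100928758035) (nat_lit 76) (nat_lit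 68835866422) (nat_lit 4) (nat_lit 4) (nat_lit 5) (nat_lit 5) (nat_lit 5) (nat_lit 4) (nat_lit 374) (nat_lit 305) (nat_lit 221)) (XT.lf (nat_lit 0) (nat_lit 210514119512) (nat_lit 76) (nat_lit 86550186604) (nat_lit 76) (nat_lit 54453586847) (nat_lit 4) (nat_lit 4) (nat_lit 5) (nat_lit 5) (nat_lit 5) (nat_lit 4) (nat_lit 375) (nat_lit 305) (nat_lit 220))) (XT.nd (nat_lit 78) (nat_lit 0) (nat_lit 0) (XT.lf (nat_lit 0) (nat_lit 268613903014) (nat_lit 76) (nat_lit 71025733560) (nat_lit 76) (nat_lit 38925700336) (nat_lit 4) (nat_lit 4) (nat_lit 5) (nat_lit 5) (nat_lit 5) (nat_lit 4) (nat_lit 376) (nat_lit 305) (nat_lit 219)) (XT.nd (nat_lit 78) (nat_lit 0) (nat_lit 0) (XT.lf (nat_lit 0) (nat_lit 331353204777) (nat_lit 76) (nat_lit 54263402145) (nat_lit 76) (nat_lit 22160189786) (nat_lit 4) (nat_lit 4) (nat_lit 5) (nat_lit 5) (nat_lit 5) (nat_lit 4) (nat_lit 377) (nat_lit 305) (nat_lit 218)) (XT.lf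 (nat_lit 0) (nat_lit 399103813256) (nat_lit 76) (nat_lit 36163860024) (nat_lit 76) (nat_lit 4057704022) (nat_lit 4) (nat_lit 4) (nat_lit 5) (nat_lit 5) (nat_lit 5) (nat_lit 4) (nat_lit 378) (nat_lit 305) (nat_lit 217))))) (XT.nd (nat_lit 234) (nat_lit 0) (nat_lit 0) (XT.nd (nat_lit 78) (nat_lit 76) (nat_lit 0) (XT.lf (nat_lit 0) (nat_lit 14993285224) (nat_lit 152) (nat_lit 1372646888) (nat_lit 76) (nat_lit 457020009773) (nat_lit 3) (nat_lit 5) (nat_lit 5) (nat_lit 5) (nat_lit 4) (nat_lit 4) (nat_lit 379) (nat_lit 305) (nat_lit 216)) (XT.nd (nat_lit 78) (nat_lit 0) (nat_lit 0) (XT.lf (nat_lit 0) (nat_lit 36168014039) (nat_lit 152) (nat_lit 468377197962) (nat_lit 0) (nat_lit 5585723278) (nat_lit 2) (nat_lit 5) (nat_lit 4) (nat_lit 4) (nat_lit 2) (nat_lit 4) (nat_lit 380) (nat_lit 305) (nat_lit 215)) (XT.lf (nat_lit 0) (nat_lit 59333554010) (nat_lit 152) (nat_lit 461718095433) (nat_lit 0)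 (nat_lit 28749037764) (nat_lit 2) (nat_lit 5) (nat_lit 4) (nat_lit 4) (nat_lit 2) (nat_lit 4) (nat_lit 381) (nat_lit 305) (nat_lit 214)))) (XT.nd (nat_lit 78) (nat_lit 0) (nat_lit 0) (XT.lf (nat_lit 0) (nat_lit 84349161936) (nat_lit 152) (nat_lit 454532431709) (nat_lit 0) (nat_lit 53762585056) (nat_lit 2) (nat_lit 5) (nat_lit 4) (nat_lit 4) (nat_lit 2) (nat_lit 4) (nat_lit 382) (nat_lit 305) (nat_lit 213)) (XT.nd (nat_lit 78) (nat_lit 0) (nat_lit 0) (XT.lf (nat_lit 0) (nat_lit 111363078459) (nat_lit 152) (nat_lit 446777625081) (nat_lit 0) (nat_lit 80774593584) (nat_lit 2) (nat_lit 5) (nat_lit 4) (nat_lit 4) (nat_lit 2) (nat_lit 4) (nat_lit 383) (nat_lit 305) (nat_lit 212)) (XT.lf (nat_lit 0) (nat_lit 140535386045) (nat_lit 152) (nat_lit 438407721137) (nat_lit 0) (nat_lit 109945134509) (nat_lit 2) (nat_lit 5) (nat_lit 4) (nat_lit 4) (nat_lit 2) (nat_lit 4) (nat_lit 384) (nat_lit 305) (nat_lit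 211)))))) (XT.nd (nat_lit 40716) (nat_lit 0) (nat_lit 8284) (XT.nd (nat_lit 234) (nat_lit 0) (nat_lit 0) (XT.nd (nat_lit 78) (nat_lit 0) (nat_lit 0) (XT.lf (nat_lit 0) (nat_lit 172038957630) (nat_lit 152) (nat_lit 429373120448) (nat_lit 0) (nat_lit 141447070295) (nat_lit 2) (nat_lit 5) (nat_lit 4) (nat_lit 4) (nat_lit 2) (nat_lit 4) (nat_lit 385) (nat_lit 305) (nat_lit 210)) (XT.nd (nat_lit 78) (nat_lit 0) (nat_lit 0) (XT.lf (nat_lit 0) (nat_lit 206060481043) (nat_lit 152) (nat_lit 419620284639) (nat_lit 0) (nat_lit 175467079081) (nat_lit 2) (nat_lit 5) (nat_lit 4) (nat_lit 4) (nat_lit 2) (nat_lit 4) (nat_lit 386) (nat_lit 305) (nat_lit 209)) (XT.lf (nat_lit 0) (nat_lit 242801565314) (nat_lit 152) (nat_lit 409091419128) (nat_lit 0) (nat_lit 212206760918) (nat_lit 2) (nat_lit 5) (nat_lit 4) (nat_lit 4) (nat_lit 2) (nat_lit 4) (nat_lit 387) (nat_lit 305) (nat_lit 208)))) (XT.nd (nat_lit 78)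 (nat_lit 0) (nat_lit 0) (XT.lf (nat_lit 0) (nat_lit 282479935385) (nat_lit 152) (nat_lit 397724130637) (nat_lit 0) (nat_lit 251883832440) (nat_lit 2) (nat_lit 5) (nat_lit 4) (nat_lit 4) (nat_lit 2) (nat_lit 4) (nat_lit 388) (nat_lit 305) (nat_lit 207)) (XT.nd (nat_lit 78) (nat_lit 0) (nat_lit 0) (XT.lf (nat_lit 0) (nat_lit 325330722339) (nat_lit 152) (nat_lit 385451057456) (nat_lit 0) (nat_lit 294733417034) (nat_lit 2) (nat_lit 5) (nat_lit 4) (nat_lit 4) (nat_lit 2) (nat_lit 4) (nat_lit 389) (nat_lit 305) (nat_lit 206)) (XT.lf (nat_lit 0) (nat_lit 371607856765) (nat_lit 152) (nat_lit 372199470264) (nat_lit 0) (nat_lit 341009438164) (nat_lit 2) (nat_lit 5) (nat_lit 4) (nat_lit 4) (nat_lit 2) (nat_lit 4) (nat_lit 390) (nat_lit 305) (nat_lit 205))))) (XT.nd (nat_lit 234) (nat_lit 532) (nat_lit 0) (XT.nd (nat_lit 78) (nat_lit 0) (nat_lit 0) (XT.lf (nat_lit 0) (nat_lit 161838360) (nat_lit 0)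 (nat_lit 161838360) (nat_lit 532) (nat_lit 3423076258) (nat_lit 118) (nat_lit 5) (nat_lit 118) (nat_lit 3) (nat_lit 125) (nat_lit 3) (nat_lit 306) (nat_lit 306) (nat_lit 288)) (XT.nd (nat_lit 78) (nat_lit 0) (nat_lit 0) (XT.lf (nat_lit 0) (nat_lit 2918616352) (nat_lit 532) (nat_lit 1594635176) (nat_lit 608) (nat_lit 3163806197) (nat_lit 118) (nat_lit 5) (nat_lit 125) (nat_lit 3) (nat_lit 126) (nat_lit 5) (nat_lit 307) (nat_lit 306) (nat_lit 287)) (XT.lf (nat_lit 76) (nat_lit 4440383907) (nat_lit 0) (nat_lit 788155305) (nat_lit 608) (nat_lit 2654298667) (nat_lit 119) (nat_lit 5) (nat_lit 118) (nat_lit 5) (nat_lit 126) (nat_lit 5) (nat_lit 308) (nat_lit 306) (nat_lit 286)))) (XT.nd (nat_lit 78) (nat_lit 608) (nat_lit 0) (XT.lf (nat_lit 76) (nat_lit 2821401348) (nat_lit 0) (nat_lit 4822461736) (nat_lit 608) (nat_lit 465550144) (nat_lit 120) (nat_lit 5) (nat_lit 119) (nat_lit 5) (nat_lit 127)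 (nat_lit 5) (nat_lit 309) (nat_lit 306) (nat_lit 285)) (XT.nd (nat_lit 78) (nat_lit 0) (nat_lit 76) (XT.lf (nat_lit 76) (nat_lit 1222949289) (nat_lit 0) (nat_lit 515358964) (nat_lit 684) (nat_lit 6619606323) (nat_lit 112) (nat_lit 5) (nat_lit 111) (nat_lit 5) (nat_lit 120) (nat_lit 5) (nat_lit 310) (nat_lit 306) (nat_lit 284)) (XT.lf (nat_lit 0) (nat_lit 4081203197) (nat_lit 608) (nat_lit 386974354) (nat_lit 684) (nat_lit 4159081467) (nat_lit 112) (nat_lit 5) (nat_lit 120) (nat_lit 5) (nat_lit 121) (nat_lit 5) (nat_lit 311) (nat_lit 306) (nat_lit 283))))))))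
noncomputable def xc59 : XT := (XT.nd (nat_lit 1794) (nat_lit 1596) (nat_lit 0) (XT.nd (nat_lit 858) (nat_lit 2204) (nat_lit 0) (XT.nd (nat_lit 390) (nat_lit 1596) (nat_lit 0) (XT.nd (nat_lit 156) (nat_lit 1748) (nat_lit 0) (XT.nd (nat_lit 78) (nat_lit 684) (nat_lit 0) (XT.lf (nat_lit 0) (nat_lit 6569950072) (nat_lit 608) (nat_lit 1936563227) (nat_lit 76) (nat_lit 413991246) (nat_lit 113) (nat_lit 5) (nat_lit 121) (nat_lit 5) (nat_lit 114) (nat_lit 5) (nat_lit 312) (nat_lit 306) (nat_lit 282)) (XT.lf (nat_lit 0) (nat_lit 36042839) (nat_lit 684) (nat_lit 3536907778) (nat_lit 76) (nat_lit 5663679391) (nat_lit 104) (nat_lit 5) (nat_lit 113) (nat_lit 5) (nat_lit 105) (nat_lit 5) (nat_lit 313) (nat_lit 306) (nat_lit 281))) (XT.nd (nat_lit 78) (nat_lit 1064) (nat_lit 0) (XT.lf (nat_lit 0) (nat_lit 2517436855) (nat_lit 760) (nat_lit 5195528011) (nat_lit 76) (nat_lit 1864067083) (nat_lit 95) (nat_lit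 5) (nat_lit 105) (nat_lit 5) (nat_lit 96) (nat_lit 5) (nat_lit 314) (nat_lit 306) (nat_lit 280)) (XT.nd (nat_lit 78) (nat_lit 380) (nat_lit 0) (XT.lf (nat_lit 0) (nat_lit 3024070547) (nat_lit 684) (nat_lit 2204550477) (nat_lit 760) (nat_lit 4714688653) (nat_lit 86) (nat_lit 5) (nat_lit 95) (nat_lit 5) (nat_lit 96) (nat_lit 5) (nat_lit 315) (nat_lit 306) (nat_lit 279)) (XT.lf (nat_lit 0) (nat_lit 1613340755) (nat_lit 380) (nat_lit 6588642824) (nat_lit 456) (nat_lit 2134834054) (nat_lit 81) (nat_lit 5) (nat_lit 86) (nat_lit 5) (nat_lit 87) (nat_lit 5) (nat_lit 316) (nat_lit 306) (nat_lit 278))))) (XT.nd (nat_lit 234) (nat_lit 912) (nat_lit 0) (XT.nd (nat_lit 78) (nat_lit 304) (nat_lit 0) (XT.lf (nat_lit 0) (nat_lit 145811288) (nat_lit 304) (nat_lit 521868302) (nat_lit 380) (nat_lit 10091931606) (nat_lit 76) (nat_lit 5) (nat_lit 80) (nat_lit 5) (nat_lit 81) (nat_lit 5) (nat_lit 317) (nat_lit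 306) (nat_lit 277)) (XT.nd (nat_lit 78) (nat_lit 304) (nat_lit 0) (XT.lf (nat_lit 0) (nat_lit 3751581316) (nat_lit 380) (nat_lit 1434793882) (nat_lit 76) (nat_lit 6021661048) (nat_lit 76) (nat_lit 5) (nat_lit 81) (nat_lit 5) (nat_lit 77) (nat_lit 5) (nat_lit 318) (nat_lit 306) (nat_lit 276)) (XT.lf (nat_lit 0) (nat_lit 7140322074) (nat_lit 380) (nat_lit 3088576311) (nat_lit 76) (nat_lit 1460675874) (nat_lit 72) (nat_lit 5) (nat_lit 77) (nat_lit 5) (nat_lit 73) (nat_lit 5) (nat_lit 319) (nat_lit 306) (nat_lit 275)))) (XT.nd (nat_lit 78) (nat_lit 608) (nat_lit 0) (XT.lf (nat_lit 0) (nat_lit 7308631876) (nat_lit 304) (nat_lit 3615671991) (nat_lit 380) (nat_lit 1279258894) (nat_lit 68) (nat_lit 5) (nat_lit 72) (nat_lit 5) (nat_lit 73) (nat_lit 5) (nat_lit 320) (nat_lit 306) (nat_lit 274)) (XT.nd (nat_lit 78) (nat_lit 228) (nat_lit 0) (XT.lf (nat_lit 0) (nat_lit 2286513938) (nat_lit 380) (nat_lit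 6884856269) (nat_lit 76) (nat_lit 3580347071) (nat_lit 63) (nat_lit 5) (nat_lit 68) (nat_lit 5) (nat_lit 64) (nat_lit 5) (nat_lit 321) (nat_lit 306) (nat_lit 273)) (XT.lf (nat_lit 0) (nat_lit 4259912200) (nat_lit 228) (nat_lit 1954088931) (nat_lit 304) (nat_lit 7122720730) (nat_lit 60) (nat_lit 5) (nat_lit 63) (nat_lit 5) (nat_lit 64) (nat_lit 5) (nat_lit 322) (nat_lit 306) (nat_lit 272)))))) (XT.nd (nat_lit 468) (nat_lit 912) (nat_lit 0) (XT.nd (nat_lit 234) (nat_lit 684) (nat_lit 0) (XT.nd (nat_lit 78) (nat_lit 304) (nat_lit 0) (XT.lf (nat_lit 0) (nat_lit 2448329504) (nat_lit 304) (nat_lit 8169993363) (nat_lit 380) (nat_lit 3342173882) (nat_lit 56) (nat_lit 5) (nat_lit 60) (nat_lit 5) (nat_lit 61) (nat_lit 5) (nat_lit 323) (nat_lit 306) (nat_lit 271)) (XT.nd (nat_lit 78) (nat_lit 0) (nat_lit 0) (XT.lf (nat_lit 0) (nat_lit 446199889) (nat_lit 228) (nat_lit 386216284) (nat_lit 304) (nat_lit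 13795503325) (nat_lit 52) (nat_lit 5) (nat_lit 55) (nat_lit 5) (nat_lit 56) (nat_lit 5) (nat_lit 324) (nat_lit 306) (nat_lit 270)) (XT.lf (nat_lit 0) (nat_lit 5473340968) (nat_lit 304) (nat_lit 1864256491) (nat_lit 76) (nat_lit 7996009124) (nat_lit 52) (nat_lit 5) (nat_lit 56) (nat_lit 5) (nat_lit 53) (nat_lit 5) (nat_lit 325) (nat_lit 306) (nat_lit 269)))) (XT.nd (nat_lit 78) (nat_lit 456) (nat_lit 0) (XT.lf (nat_lit 0) (nat_lit 10616829364) (nat_lit 304) (nat_lit 4405350956) (nat_lit 76) (nat_lit 1067080731) (nat_lit 49) (nat_lit 5) (nat_lit 53) (nat_lit 5) (nat_lit 50) (nat_lit 5) (nat_lit 326) (nat_lit 306) (nat_lit 268)) (XT.nd (nat_lit 78) (nat_lit 304) (nat_lit 0) (XT.lf (nat_lit 0) (nat_lit 9557113522) (nat_lit 152) (nat_lit 6849044481) (nat_lit 228) (nat_lit 487563021) (nat_lit 47) (nat_lit 5) (nat_lit 49) (nat_lit 5) (nat_lit 50) (nat_lit 5) (nat_lit 327) (nat_lit 306) (nat_lit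 267)) (XT.lf (nat_lit 0) (nat_lit 4893697103) (nat_lit 304) (nat_lit 10704463265) (nat_lit 76) (nat_lit 2152902749) (nat_lit 43) (nat_lit 5) (nat_lit 47) (nat_lit 5) (nat_lit 44) (nat_lit 5) (nat_lit 328) (nat_lit 306) (nat_lit 266))))) (XT.nd (nat_lit 234) (nat_lit 532) (nat_lit 0) (XT.nd (nat_lit 78) (nat_lit 228) (nat_lit 0) (XT.lf (nat_lit 0) (nat_lit 4076959686) (nat_lit 152) (nat_lit 6854791152) (nat_lit 228) (nat_lit 7732731502) (nat_lit 41) (nat_lit 5) (nat_lit 43) (nat_lit 5) (nat_lit 44) (nat_lit 5) (nat_lit 329) (nat_lit 306) (nat_lit 265)) (XT.nd (nat_lit 78) (nat_lit 76) (nat_lit 0) (XT.lf (nat_lit 0) (nat_lit 661285625) (nat_lit 152) (nat_lit 16968810327) (nat_lit 228) (nat_lit 2012070628) (nat_lit 39) (nat_lit 5) (nat_lit 41) (nat_lit 5) (nat_lit 42) (nat_lit 5) (nat_lit 330) (nat_lit 306) (nat_lit 264)) (XT.lf (nat_lit 0) (nat_lit 4345922975) (nat_lit 228) (nat_lit 3314959965)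 (nat_lit 76) (nat_lit 13018326471) (nat_lit 38) (nat_lit 5) (nat_lit 41) (nat_lit 5) (nat_lit 39) (nat_lit 5) (nat_lit 331) (nat_lit 306) (nat_lit 263)))) (XT.nd (nat_lit 78) (nat_lit 380) (nat_lit 0) (XT.lf (nat_lit 0) (nat_lit 11345085490) (nat_lit 228) (nat_lit 7903018806) (nat_lit 76) (nat_lit 2539354959) (nat_lit 36) (nat_lit 5) (nat_lit 39) (nat_lit 5) (nat_lit 37) (nat_lit 5) (nat_lit 332) (nat_lit 306) (nat_lit 262)) (XT.nd (nat_lit 78) (nat_lit 228) (nat_lit 0) (XT.lf (nat_lit 0) (nat_lit 9689693535) (nat_lit 152) (nat_lit 9499674527) (nat_lit 228) (nat_lit 3780782372) (nat_lit 34) (nat_lit 5) (nat_lit 36) (nat_lit 5) (nat_lit 37) (nat_lit 5) (nat_lit 333) (nat_lit 306) (nat_lit 261)) (XT.lf (nat_lit 0) (nat_lit 3486230849) (nat_lit 228) (nat_lit 19513939821) (nat_lit 76) (nat_lit 1235569455) (nat_lit 31) (nat_lit 5) (nat_lit 34) (nat_lit 5) (nat_lit 32) (nat_lit 5) (nat_lit 334)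 (nat_lit 306) (nat_lit 260))))))) (XT.nd (nat_lit 858) (nat_lit 608) (nat_lit 0) (XT.nd (nat_lit 390) (nat_lit 532) (nat_lit 0) (XT.nd (nat_lit 156) (nat_lit 304) (nat_lit 0) (XT.nd (nat_lit 78) (nat_lit 152) (nat_lit 0) (XT.lf (nat_lit 0) (nat_lit 11549182168) (nat_lit 228) (nat_lit 1263558684) (nat_lit 76) (nat_lit 12769418509) (nat_lit 31) (nat_lit 5) (nat_lit 34) (nat_lit 5) (nat_lit 32) (nat_lit 5) (nat_lit 335) (nat_lit 306) (nat_lit 259)) (XT.lf (nat_lit 0) (nat_lit 18977107141) (nat_lit 152) (nat_lit 1530010416) (nat_lit 228) (nat_lit 6516707948) (nat_lit 29) (nat_lit 5) (nat_lit 31) (nat_lit 5) (nat_lit 32) (nat_lit 5) (nat_lit 336) (nat_lit 306) (nat_lit 258))) (XT.nd (nat_lit 78) (nat_lit 152) (nat_lit 0) (XT.lf (nat_lit 0) (nat_lit 1893878723) (nat_lit 152) (nat_lit 16135544687) (nat_lit 76) (nat_lit 10532966292) (nat_lit 27) (nat_lit 5) (nat_lit 29) (nat_lit 5) (nat_lit 28)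 (nat_lit 5) (nat_lit 337) (nat_lit 306) (nat_lit 257)) (XT.nd (nat_lit 78) (nat_lit 0) (nat_lit 0) (XT.lf (nat_lit 0) (nat_lit 4542297154) (nat_lit 152) (nat_lit 6405865473) (nat_lit 228) (nat_lit 19260601769) (nat_lit 25) (nat_lit 5) (nat_lit 27) (nat_lit 5) (nat_lit 28) (nat_lit 5) (nat_lit 338) (nat_lit 306) (nat_lit 256)) (XT.lf (nat_lit 0) (nat_lit 21067005701) (nat_lit 228) (nat_lit 4694943665) (nat_lit 76) (nat_lit 6207912137) (nat_lit 25) (nat_lit 5) (nat_lit 28) (nat_lit 5) (nat_lit 26) (nat_lit 4) (nat_lit 339) (nat_lit 306) (nat_lit 255))))) (XT.nd (nat_lit 234) (nat_lit 228) (nat_lit 0) (XT.nd (nat_lit 78) (nat_lit 228) (nat_lit 0) (XT.lf (nat_lit 0) (nat_lit 18367379390) (nat_lit 76) (nat_lit 13984384592) (nat_lit 152) (nat_lit 1502283548) (nat_lit 24) (nat_lit 5) (nat_lit 25) (nat_lit 5) (nat_lit 26) (nat_lit 4) (nat_lit 340) (nat_lit 306) (nat_lit 254)) (XT.nd (nat_lit 78)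 (nat_lit 0) (nat_lit 0) (XT.lf (nat_lit 0) (nat_lit 7599164210) (nat_lit 152) (nat_lit 938927331) (nat_lit 228) (nat_lit 27335912006) (nat_lit 21) (nat_lit 5) (nat_lit 23) (nat_lit 5) (nat_lit 24) (nat_lit 5) (nat_lit 341) (nat_lit 306) (nat_lit 253)) (XT.lf (nat_lit 0) (nat_lit 19773481253) (nat_lit 228) (nat_lit 5255904301) (nat_lit 76) (nat_lit 13002735833) (nat_lit 21) (nat_lit 5) (nat_lit 24) (nat_lit 5) (nat_lit 22) (nat_lit 4) (nat_lit 342) (nat_lit 306) (nat_lit 252)))) (XT.nd (nat_lit 78) (nat_lit 152) (nat_lit 0) (XT.lf (nat_lit 0) (nat_lit 20175512291) (nat_lit 76) (nat_lit 12029881617) (nat_lit 152) (nat_lit 8142626443) (nat_lit 20) (nat_lit 5) (nat_lit 21) (nat_lit 5) (nat_lit 22) (nat_lit 4) (nat_lit 343) (nat_lit 306) (nat_lit 251)) (XT.nd (nat_lit 78) (nat_lit 0) (nat_lit 0) (XT.lf (nat_lit 0) (nat_lit 2867818206) (nat_lit 152) (nat_lit 37831019578) (nat_lit 76) (nat_lit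 2139484913) (nat_lit 18) (nat_lit 5) (nat_lit 20) (nat_lit 5) (nat_lit 19) (nat_lit 4) (nat_lit 344) (nat_lit 306) (nat_lit 250)) (XT.lf (nat_lit 0) (nat_lit 15006676978) (nat_lit 152) (nat_lit 12990454359) (nat_lit 76) (nat_lit 17497414081) (nat_lit 18) (nat_lit 5) (nat_lit 20) (nat_lit 5) (nat_lit 19) (nat_lit 4) (nat_lit 345) (nat_lit 306) (nat_lit 249)))))) (XT.nd (nat_lit 468) (nat_lit 304) (nat_lit 0) (XT.nd (nat_lit 234) (nat_lit 76) (nat_lit 0) (XT.nd (nat_lit 78) (nat_lit 152) (nat_lit 0) (XT.lf (nat_lit 0) (nat_lit 14241198725) (nat_lit 76) (nat_lit 14069128024) (nat_lit 152) (nat_lit 20043267405) (nat_lit 17) (nat_lit 5) (nat_lit 18) (nat_lit 5) (nat_lit 19) (nat_lit 4) (nat_lit 346) (nat_lit 306) (nat_lit 248)) (XT.nd (nat_lit 78) (nat_lit 152) (nat_lit 0) (XT.lf (nat_lit 0) (nat_lit 42895791297) (nat_lit 152) (nat_lit 7384420113) (nat_lit 0) (nat_lit 1150290638) (nat_lit 17)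 (nat_lit 5) (nat_lit 19) (nat_lit 4) (nat_lit 17) (nat_lit 4) (nat_lit 347) (nat_lit 306) (nat_lit 247)) (XT.lf (nat_lit 0) (nat_lit 4332456711) (nat_lit 152) (nat_lit 32897301772) (nat_lit 76) (nat_lit 17492645138) (nat_lit 15) (nat_lit 5) (nat_lit 17) (nat_lit 5) (nat_lit 16) (nat_lit 4) (nat_lit 348) (nat_lit 306) (nat_lit 246)))) (XT.nd (nat_lit 78) (nat_lit 76) (nat_lit 0) (XT.lf (nat_lit 0) (nat_lit 18039891170) (nat_lit 152) (nat_lit 4827929068) (nat_lit 76) (nat_lit 35397355311) (nat_lit 15) (nat_lit 5) (nat_lit 17) (nat_lit 5) (nat_lit 16) (nat_lit 4) (nat_lit 349) (nat_lit 306) (nat_lit 245)) (XT.nd (nat_lit 78) (nat_lit 0) (nat_lit 0) (XT.lf (nat_lit 0) (nat_lit 26285932796) (nat_lit 76) (nat_lit 6945394124) (nat_lit 152) (nat_lit 28840680602) (nat_lit 14) (nat_lit 5) (nat_lit 15) (nat_lit 5) (nat_lit 16) (nat_lit 4) (nat_lit 350) (nat_lit 306) (nat_lit 244)) (XT.lf (nat_lit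 0) (nat_lit 49861388770) (nat_lit 152) (nat_lit 6320643001) (nat_lit 0) (nat_lit 9990196701) (nat_lit 14) (nat_lit 5) (nat_lit 16) (nat_lit 4) (nat_lit 14) (nat_lit 4) (nat_lit 351) (nat_lit 306) (nat_lit 243))))) (XT.nd (nat_lit 234) (nat_lit 76) (nat_lit 0) (XT.nd (nat_lit 78) (nat_lit 152) (nat_lit 0) (XT.lf (nat_lit 0) (nat_lit 26184701391) (nat_lit 76) (nat_lit 42142517064) (nat_lit 76) (nat_lit 2247987887) (nat_lit 13) (nat_lit 4) (nat_lit 14) (nat_lit 5) (nat_lit 14) (nat_lit 4) (nat_lit 352) (nat_lit 306) (nat_lit 242)) (XT.nd (nat_lit 78) (nat_lit 76) (nat_lit 0) (XT.lf (nat_lit 0) (nat_lit 12617698946) (nat_lit 152) (nat_lit 14049854769) (nat_lit 76) (nat_lit 48648175631) (nat_lit 12) (nat_lit 5) (nat_lit 14) (nat_lit 5) (nat_lit 13) (nat_lit 4) (nat_lit 353) (nat_lit 306) (nat_lit 241)) (XT.lf (nat_lit 0) (nat_lit 19262126573) (nat_lit 76) (nat_lit 9615079276) (nat_lit 152) (nat_lit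 51542285580) (nat_lit 11) (nat_lit 5) (nat_lit 12) (nat_lit 5) (nat_lit 13) (nat_lit 4) (nat_lit 354) (nat_lit 306) (nat_lit 240)))) (XT.nd (nat_lit 78) (nat_lit 76) (nat_lit 0) (XT.lf (nat_lit 0) (nat_lit 46805788917) (nat_lit 152) (nat_lit 30353634228) (nat_lit 0) (nat_lit 8753721138) (nat_lit 11) (nat_lit 5) (nat_lit 13) (nat_lit 4) (nat_lit 11) (nat_lit 4) (nat_lit 355) (nat_lit 306) (nat_lit 239)) (XT.nd (nat_lit 78) (nat_lit 0) (nat_lit 0) (XT.lf (nat_lit 0) (nat_lit 2811063385) (nat_lit 76) (nat_lit 63547080651) (nat_lit 76) (nat_lit 25478676232) (nat_lit 10) (nat_lit 4) (nat_lit 11) (nat_lit 5) (nat_lit 11) (nat_lit 4) (nat_lit 356) (nat_lit 306) (nat_lit 238)) (XT.lf (nat_lit 0) (nat_lit 39683034886) (nat_lit 76) (nat_lit 48304621369) (nat_lit 76) (nat_lit 10221090432) (nat_lit 10) (nat_lit 4) (nat_lit 11) (nat_lit 5) (nat_lit 11) (nat_lit 4) (nat_lit 357) (nat_lit 306) (nat_lit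 237))))))))
noncomputable def xc60 : XT := (XT.nd (nat_lit 1716) (nat_lit 152) (nat_lit 0) (XT.nd (nat_lit 858) (nat_lit 76) (nat_lit 0) (XT.nd (nat_lit 390) (nat_lit 228) (nat_lit 0) (XT.nd (nat_lit 156) (nat_lit 0) (nat_lit 0) (XT.nd (nat_lit 78) (nat_lit 76) (nat_lit 0) (XT.lf (nat_lit 0) (nat_lit 6041988448) (nat_lit 152) (nat_lit 25711460652) (nat_lit 76) (nat_lit 73332840169) (nat_lit 9) (nat_lit 5) (nat_lit 11) (nat_lit 5) (nat_lit 10) (nat_lit 4) (nat_lit 358) (nat_lit 306) (nat_lit 236)) (XT.lf (nat_lit 0) (nat_lit 9844649949) (nat_lit 76) (nat_lit 13548108817) (nat_lit 152) (nat_lit 89105665341) (nat_lit 8) (nat_lit 5) (nat_lit 9) (nat_lit 5) (nat_lit 10) (nat_lit 4) (nat_lit 359) (nat_lit 306) (nat_lit 235))) (XT.nd (nat_lit 78) (nat_lit 0) (nat_lit 0) (XT.lf (nat_lit 0) (nat_lit 42668959565) (nat_lit 152) (nat_lit 71445901439) (nat_lit 0) (nat_lit 6361803907) (nat_lit 8) (nat_lit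 5) (nat_lit 10) (nat_lit 4) (nat_lit 8) (nat_lit 4) (nat_lit 360) (nat_lit 306) (nat_lit 234)) (XT.nd (nat_lit 78) (nat_lit 0) (nat_lit 0) (XT.lf (nat_lit 0) (nat_lit 63703385814) (nat_lit 152) (nat_lit 37993334885) (nat_lit 0) (nat_lit 27385641164) (nat_lit 8) (nat_lit 5) (nat_lit 10) (nat_lit 4) (nat_lit 8) (nat_lit 4) (nat_lit 361) (nat_lit 306) (nat_lit 233)) (XT.lf (nat_lit 0) (nat_lit 86409162019) (nat_lit 152) (nat_lit 1886313118) (nat_lit 0) (nat_lit 50081612746) (nat_lit 8) (nat_lit 5) (nat_lit 10) (nat_lit 4) (nat_lit 8) (nat_lit 4) (nat_lit 362) (nat_lit 306) (nat_lit 232))))) (XT.nd (nat_lit 234) (nat_lit 152) (nat_lit 0) (XT.nd (nat_lit 78) (nat_lit 0) (nat_lit 0) (XT.lf (nat_lit 0) (nat_lit 38315465581) (nat_lit 76) (nat_lit 73203587142) (nat_lit 76) (nat_lit 36866959514) (nat_lit 7) (nat_lit 4) (nat_lit 8) (nat_lit 5) (nat_lit 8) (nat_lit 4) (nat_lit 363) (nat_lit 306) (nat_lit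 231)) (XT.nd (nat_lit 78) (nat_lit 0) (nat_lit 0) (XT.lf (nat_lit 0) (nat_lit 81781482434) (nat_lit 76) (nat_lit 56879032630) (nat_lit 76) (nat_lit 20533999119) (nat_lit 7) (nat_lit 4) (nat_lit 8) (nat_lit 5) (nat_lit 8) (nat_lit 4) (nat_lit 364) (nat_lit 306) (nat_lit 230)) (XT.lf (nat_lit 0) (nat_lit 128706943806) (nat_lit 76) (nat_lit 39257019127) (nat_lit 76) (nat_lit 2904202390) (nat_lit 7) (nat_lit 4) (nat_lit 8) (nat_lit 5) (nat_lit 8) (nat_lit 4) (nat_lit 365) (nat_lit 306) (nat_lit 229)))) (XT.nd (nat_lit 78) (nat_lit 76) (nat_lit 0) (XT.lf (nat_lit 0) (nat_lit 15610741914) (nat_lit 152) (nat_lit 4358002502) (nat_lit 76) (nat_lit 163494809122) (nat_lit 6) (nat_lit 5) (nat_lit 8) (nat_lit 5) (nat_lit 7) (nat_lit 4) (nat_lit 366) (nat_lit 306) (nat_lit 228)) (XT.nd (nat_lit 78) (nat_lit 0) (nat_lit 0) (XT.lf (nat_lit 0) (nat_lit 36109316101) (nat_lit 152) (nat_lit 159450301802) (nat_lit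 0) (nat_lit 1474367254) (nat_lit 5) (nat_lit 5) (nat_lit 7) (nat_lit 4) (nat_lit 5) (nat_lit 4) (nat_lit 367) (nat_lit 306) (nat_lit 227)) (XT.lf (nat_lit 0) (nat_lit 58653769223) (nat_lit 152) (nat_lit 129003048279) (nat_lit 0) (nat_lit 24012936018) (nat_lit 5) (nat_lit 5) (nat_lit 7) (nat_lit 4) (nat_lit 5) (nat_lit 4) (nat_lit 368) (nat_lit 306) (nat_lit 226)))))) (XT.nd (nat_lit 390) (nat_lit 0) (nat_lit 0) (XT.nd (nat_lit 156) (nat_lit 76) (nat_lit 0) (XT.nd (nat_lit 78) (nat_lit 0) (nat_lit 0) (XT.lf (nat_lit 0) (nat_lit 82994487311) (nat_lit 152) (nat_lit 96134056701) (nat_lit 0) (nat_lit 48348205628) (nat_lit 5) (nat_lit 5) (nat_lit 7) (nat_lit 4) (nat_lit 5) (nat_lit 4) (nat_lit 369) (nat_lit 306) (nat_lit 225)) (XT.lf (nat_lit 0) (nat_lit 109275711659) (nat_lit 152) (nat_lit 60648547859) (nat_lit 0) (nat_lit 74624385088) (nat_lit 5) (nat_lit 5) (nat_lit 7) (nat_lit 4) (nat_lit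 5) (nat_lit 4) (nat_lit 370) (nat_lit 306) (nat_lit 224))) (XT.nd (nat_lit 78) (nat_lit 76) (nat_lit 0) (XT.lf (nat_lit 0) (nat_lit 137653182856) (nat_lit 152) (nat_lit 22336237257) (nat_lit 0) (nat_lit 102997185091) (nat_lit 5) (nat_lit 5) (nat_lit 7) (nat_lit 4) (nat_lit 5) (nat_lit 4) (nat_lit 371) (nat_lit 306) (nat_lit 223)) (XT.nd (nat_lit 78) (nat_lit 0) (nat_lit 0) (XT.lf (nat_lit 0) (nat_lit 19659125819) (nat_lit 76) (nat_lit 148942871922) (nat_lit 76) (nat_lit 114282548979) (nat_lit 4) (nat_lit 4) (nat_lit 5) (nat_lit 5) (nat_lit 5) (nat_lit 4) (nat_lit 372) (nat_lit 306) (nat_lit 222)) (XT.lf (nat_lit 0) (nat_lit 65801075039) (nat_lit 76) (nat_lit 136609199835) (nat_lit 76) (nat_lit 101944872097) (nat_lit 4) (nat_lit 4) (nat_lit 5) (nat_lit 5) (nat_lit 5) (nat_lit 4) (nat_lit 373) (nat_lit 306) (nat_lit 221))))) (XT.nd (nat_lit 234) (nat_lit 0) (nat_lit 0) (XT.nd (nat_lit 78)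 (nat_lit 0) (nat_lit 0) (XT.lf (nat_lit 0) (nat_lit 115624507299) (nat_lit 76) (nat_lit 123293590412) (nat_lit 76) (nat_lit 88625554530) (nat_lit 4) (nat_lit 4) (nat_lit 5) (nat_lit 5) (nat_lit 5) (nat_lit 4) (nat_lit 374) (nat_lit 306) (nat_lit 220)) (XT.nd (nat_lit 78) (nat_lit 0) (nat_lit 0) (XT.lf (nat_lit 0) (nat_lit 169424672566) (nat_lit 76) (nat_lit 108917136337) (nat_lit 76) (nat_lit 74245666989) (nat_lit 4) (nat_lit 4) (nat_lit 5) (nat_lit 5) (nat_lit 5) (nat_lit 4) (nat_lit 375) (nat_lit 306) (nat_lit 219)) (XT.lf (nat_lit 0) (nat_lit 227520386636) (nat_lit 76) (nat_lit 93394643808) (nat_lit 76) (nat_lit 58719995326) (nat_lit 4) (nat_lit 4) (nat_lit 5) (nat_lit 5) (nat_lit 5) (nat_lit 4) (nat_lit 376) (nat_lit 306) (nat_lit 218)))) (XT.nd (nat_lit 78) (nat_lit 0) (nat_lit 0) (XT.lf (nat_lit 0) (nat_lit 290255920406) (nat_lit 76) (nat_lit 76634127686) (nat_lit 76) (nat_lit 41956535559)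 (nat_lit 4) (nat_lit 4) (nat_lit 5) (nat_lit 5) (nat_lit 5) (nat_lit 4) (nat_lit 377) (nat_lit 306) (nat_lit 217)) (XT.nd (nat_lit 78) (nat_lit 0) (nat_lit 0) (XT.lf (nat_lit 0) (nat_lit 358003040002) (nat_lit 76) (nat_lit 58536266391) (nat_lit 76) (nat_lit 23855948669) (nat_lit 4) (nat_lit 4) (nat_lit 5) (nat_lit 5) (nat_lit 5) (nat_lit 4) (nat_lit 378) (nat_lit 306) (nat_lit 216)) (XT.lf (nat_lit 0) (nat_lit 431163209837) (nat_lit 76) (nat_lit 38993813340) (nat_lit 76) (nat_lit 4310971918) (nat_lit 4) (nat_lit 4) (nat_lit 5) (nat_lit 5) (nat_lit 5) (nat_lit 4) (nat_lit 379) (nat_lit 306) (nat_lit 215))))))) (XT.nd (nat_lit 41184) (nat_lit 0) (nat_lit 5624) (XT.nd (nat_lit 390) (nat_lit 0) (nat_lit 0) (XT.nd (nat_lit 156) (nat_lit 0) (nat_lit 0) (XT.nd (nat_lit 78) (nat_lit 76) (nat_lit 0) (XT.lf (nat_lit 0) (nat_lit 16256696959) (nat_lit 152) (nat_lit 1358949414) (nat_lit 76) (nat_lit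 493637959670) (nat_lit 3) (nat_lit 5) (nat_lit 5) (nat_lit 5) (nat_lit 4) (nat_lit 4) (nat_lit 380) (nat_lit 306) (nat_lit 214)) (XT.lf (nat_lit 0) (nat_lit 39123402905) (nat_lit 152) (nat_lit 505727057841) (nat_lit 0) (nat_lit 6087839240) (nat_lit 2) (nat_lit 5) (nat_lit 4) (nat_lit 4) (nat_lit 2) (nat_lit 4) (nat_lit 381) (nat_lit 306) (nat_lit 213))) (XT.nd (nat_lit 78) (nat_lit 0) (nat_lit 0) (XT.lf (nat_lit 0) (nat_lit 64137597351) (nat_lit 152) (nat_lit 498544139403) (nat_lit 0) (nat_lit 31100125692) (nat_lit 2) (nat_lit 5) (nat_lit 4) (nat_lit 4) (nat_lit 2) (nat_lit 4) (nat_lit 382) (nat_lit 306) (nat_lit 212)) (XT.nd (nat_lit 78) (nat_lit 0) (nat_lit 0) (XT.lf (nat_lit 0) (nat_lit 91150205096) (nat_lit 152) (nat_lit 490791874705) (nat_lit 0) (nat_lit 58110966775) (nat_lit 2) (nat_lit 5) (nat_lit 4) (nat_lit 4) (nat_lit 2) (nat_lit 4) (nat_lit 383) (nat_lit 306) (nat_lit 211)) (XT.lf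 (nat_lit 0) (nat_lit 120321300851) (nat_lit 152) (nat_lit 482424324401) (nat_lit 0) (nat_lit 87280426732) (nat_lit 2) (nat_lit 5) (nat_lit 4) (nat_lit 4) (nat_lit 2) (nat_lit 4) (nat_lit 384) (nat_lit 306) (nat_lit 210))))) (XT.nd (nat_lit 234) (nat_lit 0) (nat_lit 0) (XT.nd (nat_lit 78) (nat_lit 0) (nat_lit 0) (XT.lf (nat_lit 0) (nat_lit 151823750369) (nat_lit 152) (nat_lit 473391903007) (nat_lit 0) (nat_lit 118781361622) (nat_lit 2) (nat_lit 5) (nat_lit 4) (nat_lit 4) (nat_lit 2) (nat_lit 4) (nat_lit 385) (nat_lit 306) (nat_lit 209)) (XT.nd (nat_lit 78) (nat_lit 0) (nat_lit 0) (XT.lf (nat_lit 0) (nat_lit 185844234833) (nat_lit 152) (nat_lit 463641085065) (nat_lit 0) (nat_lit 152800443653) (nat_lit 2) (nat_lit 5) (nat_lit 4) (nat_lit 4) (nat_lit 2) (nat_lit 4) (nat_lit 386) (nat_lit 306) (nat_lit 208)) (XT.lf (nat_lit 0) (nat_lit 222584357113) (nat_lit 152) (nat_lit 453114087948) (nat_lit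 0) (nat_lit 189539267383) (nat_lit 2) (nat_lit 5) (nat_lit 4) (nat_lit 4) (nat_lit 2) (nat_lit 4) (nat_lit 387) (nat_lit 306) (nat_lit 207)))) (XT.nd (nat_lit 78) (nat_lit 0) (nat_lit 0) (XT.lf (nat_lit 0) (nat_lit 262261836452) (nat_lit 152) (nat_lit 441748529452) (nat_lit 0) (nat_lit 229215544362) (nat_lit 2) (nat_lit 5) (nat_lit 4) (nat_lit 4) (nat_lit 2) (nat_lit 4) (nat_lit 388) (nat_lit 306) (nat_lit 206)) (XT.nd (nat_lit 78) (nat_lit 0) (nat_lit 0) (XT.lf (nat_lit 0) (nat_lit 305111798654) (nat_lit 152) (nat_lit 429477058119) (nat_lit 0) (nat_lit 272064393267) (nat_lit 2) (nat_lit 5) (nat_lit 4) (nat_lit 4) (nat_lit 2) (nat_lit 4) (nat_lit 389) (nat_lit 306) (nat_lit 205)) (XT.lf (nat_lit 0) (nat_lit 351388169421) (nat_lit 152) (nat_lit 416226954119) (nat_lit 0) (nat_lit 318339733204) (nat_lit 2) (nat_lit 5) (nat_lit 4) (nat_lit 4) (nat_lit 2) (nat_lit 4) (nat_lit 390) (nat_lit 306)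 (nat_lit 204)))))) (XT.nd (nat_lit 468) (nat_lit 2584) (nat_lit 0) (XT.nd (nat_lit 234) (nat_lit 0) (nat_lit 76) (XT.nd (nat_lit 78) (nat_lit 608) (nat_lit 0) (XT.lf (nat_lit 0) (nat_lit 1245568288) (nat_lit 0) (nat_lit 1245568288) (nat_lit 532) (nat_lit 1444452599) (nat_lit 118) (nat_lit 5) (nat_lit 118) (nat_lit 3) (nat_lit 125) (nat_lit 3) (nat_lit 307) (nat_lit 307) (nat_lit 286)) (XT.nd (nat_lit 78) (nat_lit 608) (nat_lit 0) (XT.lf (nat_lit 76) (nat_lit 513497318) (nat_lit 0) (nat_lit 6581528800) (nat_lit 608) (nat_lit 991965469) (nat_lit 119) (nat_lit 5) (nat_lit 118) (nat_lit 5) (nat_lit 126) (nat_lit 5) (nat_lit 308) (nat_lit 307) (nat_lit 285)) (XT.lf (nat_lit 0) (nat_lit 968301756) (nat_lit 608) (nat_lit 1420258015) (nat_lit 684) (nat_lit 5933735702) (nat_lit 110) (nat_lit 5) (nat_lit 118) (nat_lit 5) (nat_lit 119) (nat_lit 5) (nat_lit 309) (nat_lit 307) (nat_lit 284)))) (XT.nd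 (nat_lit 78) (nat_lit 0) (nat_lit 0) (XT.lf (nat_lit 0) (nat_lit 2991869625) (nat_lit 608) (nat_lit 3346515833) (nat_lit 684) (nat_lit 2240459989) (nat_lit 111) (nat_lit 5) (nat_lit 119) (nat_lit 5) (nat_lit 120) (nat_lit 5) (nat_lit 310) (nat_lit 307) (nat_lit 283)) (XT.nd (nat_lit 78) (nat_lit 0) (nat_lit 76) (XT.lf (nat_lit 76) (nat_lit 3575053459) (nat_lit 0) (nat_lit 1558414184) (nat_lit 684) (nat_lit 3724919086) (nat_lit 112) (nat_lit 5) (nat_lit 111) (nat_lit 5) (nat_lit 120) (nat_lit 5) (nat_lit 311) (nat_lit 307) (nat_lit 282)) (XT.lf (nat_lit 76) (nat_lit 1900363952) (nat_lit 0) (nat_lit 5537425333) (nat_lit 684) (nat_lit 1723186448) (nat_lit 113) (nat_lit 5) (nat_lit 112) (nat_lit 5) (nat_lit 121) (nat_lit 5) (nat_lit 312) (nat_lit 307) (nat_lit 281))))) (XT.nd (nat_lit 234) (nat_lit 1444) (nat_lit 0) (XT.nd (nat_lit 78) (nat_lit 608) (nat_lit 0) (XT.lf (nat_lit 76) (nat_lit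 220930997) (nat_lit 0) (nat_lit 180262677) (nat_lit 760) (nat_lit 9087632423) (nat_lit 104) (nat_lit 5) (nat_lit 103) (nat_lit 5) (nat_lit 113) (nat_lit 5) (nat_lit 313) (nat_lit 307) (nat_lit 280)) (XT.nd (nat_lit 78) (nat_lit 684) (nat_lit 0) (XT.lf (nat_lit 0) (nat_lit 2714864949) (nat_lit 684) (nat_lit 1513188567) (nat_lit 76) (nat_lit 5609660449) (nat_lit 104) (nat_lit 5) (nat_lit 113) (nat_lit 5) (nat_lit 105) (nat_lit 5) (nat_lit 314) (nat_lit 307) (nat_lit 279)) (XT.lf (nat_lit 0) (nat_lit 5226227808) (nat_lit 760) (nat_lit 3270612042) (nat_lit 76) (nat_lit 1717235309) (nat_lit 95) (nat_lit 5) (nat_lit 105) (nat_lit 5) (nat_lit 96) (nat_lit 5) (nat_lit 315) (nat_lit 307) (nat_lit 278)))) (XT.nd (nat_lit 78) (nat_lit 760) (nat_lit 0) (XT.lf (nat_lit 0) (nat_lit 5504836593) (nat_lit 684) (nat_lit 2498691654) (nat_lit 760) (nat_lit 2613943527) (nat_lit 86) (nat_lit 5) (nat_lit 95)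 (nat_lit 5) (nat_lit 96) (nat_lit 5) (nat_lit 316) (nat_lit 307) (nat_lit 277)) (XT.nd (nat_lit 78) (nat_lit 304) (nat_lit 0) (XT.lf (nat_lit 0) (nat_lit 23232128) (nat_lit 456) (nat_lit 7048400795) (nat_lit 76) (nat_lit 3978115496) (nat_lit 80) (nat_lit 5) (nat_lit 86) (nat_lit 5) (nat_lit 81) (nat_lit 5) (nat_lit 317) (nat_lit 307) (nat_lit 276)) (XT.lf (nat_lit 0) (nat_lit 2392871919) (nat_lit 304) (nat_lit 451140093) (nat_lit 380) (nat_lit 8667387405) (nat_lit 76) (nat_lit 5) (nat_lit 80) (nat_lit 5) (nat_lit 81) (nat_lit 5) (nat_lit 318) (nat_lit 307) (nat_lit 275))))))))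
noncomputable def xc61 : XT := (XT.nd (nat_lit 1794) (nat_lit 1292) (nat_lit 0) (XT.nd (nat_lit 858) (nat_lit 1444) (nat_lit 0) (XT.nd (nat_lit 390) (nat_lit 1292) (nat_lit 0) (XT.nd (nat_lit 156) (nat_lit 912) (nat_lit 0) (XT.nd (nat_lit 78) (nat_lit 0) (nat_lit 0) (XT.lf (nat_lit 0) (nat_lit 639999466) (nat_lit 304) (nat_lit 5388991417) (nat_lit 380) (nat_lit 5974199322) (nat_lit 72) (nat_lit 5) (nat_lit 76) (nat_lit 5) (nat_lit 77) (nat_lit 5) (nat_lit 319) (nat_lit 307) (nat_lit 274)) (XT.lf (nat_lit 0) (nat_lit 9568955683) (nat_lit 380) (nat_lit 1169155692) (nat_lit 76) (nat_lit 1791328072) (nat_lit 72) (nat_lit 5) (nat_lit 77) (nat_lit 5) (nat_lit 73) (nat_lit 5) (nat_lit 320) (nat_lit 307) (nat_lit 273))) (XT.nd (nat_lit 78) (nat_lit 532) (nat_lit 0) (XT.lf (nat_lit 0) (nat_lit 445700051) (nat_lit 380) (nat_lit 3131501886) (nat_lit 76) (nat_lit 9512427210) (nat_lit 67) (nat_lit 5)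 (nat_lit 72) (nat_lit 5) (nat_lit 68) (nat_lit 5) (nat_lit 321) (nat_lit 307) (nat_lit 272)) (XT.nd (nat_lit 78) (nat_lit 228) (nat_lit 0) (XT.lf (nat_lit 0) (nat_lit 4157883926) (nat_lit 380) (nat_lit 5314369127) (nat_lit 76) (nat_lit 4213194744) (nat_lit 63) (nat_lit 5) (nat_lit 68) (nat_lit 5) (nat_lit 64) (nat_lit 5) (nat_lit 322) (nat_lit 307) (nat_lit 271)) (XT.lf (nat_lit 0) (nat_lit 6629792766) (nat_lit 228) (nat_lit 1676386786) (nat_lit 304) (nat_lit 6015889716) (nat_lit 60) (nat_lit 5) (nat_lit 63) (nat_lit 5) (nat_lit 64) (nat_lit 5) (nat_lit 323) (nat_lit 307) (nat_lit 270))))) (XT.nd (nat_lit 234) (nat_lit 684) (nat_lit 0) (XT.nd (nat_lit 78) (nat_lit 304) (nat_lit 0) (XT.lf (nat_lit 0) (nat_lit 4656664387) (nat_lit 304) (nat_lit 8325724900) (nat_lit 380) (nat_lit 2017515851) (nat_lit 56) (nat_lit 5) (nat_lit 60) (nat_lit 5) (nat_lit 61) (nat_lit 5) (nat_lit 324) (nat_lit 307)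 (nat_lit 269)) (XT.nd (nat_lit 78) (nat_lit 0) (nat_lit 0) (XT.lf (nat_lit 0) (nat_lit 2358340438) (nat_lit 304) (nat_lit 13268137116) (nat_lit 76) (nat_lit 97208673) (nat_lit 52) (nat_lit 5) (nat_lit 56) (nat_lit 5) (nat_lit 53) (nat_lit 5) (nat_lit 325) (nat_lit 307) (nat_lit 268)) (XT.lf (nat_lit 0) (nat_lit 7268470544) (nat_lit 304) (nat_lit 123019463) (nat_lit 76) (nat_lit 9099552836) (nat_lit 52) (nat_lit 5) (nat_lit 56) (nat_lit 5) (nat_lit 53) (nat_lit 5) (nat_lit 326) (nat_lit 307) (nat_lit 267)))) (XT.nd (nat_lit 78) (nat_lit 456) (nat_lit 0) (XT.lf (nat_lit 0) (nat_lit 12759301192) (nat_lit 304) (nat_lit 2892190634) (nat_lit 76) (nat_lit 1658967585) (nat_lit 49) (nat_lit 5) (nat_lit 53) (nat_lit 5) (nat_lit 50) (nat_lit 5) (nat_lit 327) (nat_lit 307) (nat_lit 266)) (XT.nd (nat_lit 78) (nat_lit 228) (nat_lit 0) (XT.lf (nat_lit 0) (nat_lit 736723139) (nat_lit 228) (nat_lit 6088455579)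 (nat_lit 76) (nat_lit 11356994901) (nat_lit 46) (nat_lit 5) (nat_lit 49) (nat_lit 5) (nat_lit 47) (nat_lit 5) (nat_lit 328) (nat_lit 307) (nat_lit 265)) (XT.lf (nat_lit 0) (nat_lit 6475422739) (nat_lit 304) (nat_lit 9762072259) (nat_lit 76) (nat_lit 2873091433) (nat_lit 43) (nat_lit 5) (nat_lit 47) (nat_lit 5) (nat_lit 44) (nat_lit 5) (nat_lit 329) (nat_lit 307) (nat_lit 264)))))) (XT.nd (nat_lit 468) (nat_lit 532) (nat_lit 0) (XT.nd (nat_lit 234) (nat_lit 532) (nat_lit 0) (XT.nd (nat_lit 78) (nat_lit 228) (nat_lit 0) (XT.lf (nat_lit 0) (nat_lit 6123693130) (nat_lit 152) (nat_lit 6811525492) (nat_lit 228) (nat_lit 7165003475) (nat_lit 41) (nat_lit 5) (nat_lit 43) (nat_lit 5) (nat_lit 44) (nat_lit 5) (nat_lit 330) (nat_lit 307) (nat_lit 263)) (XT.nd (nat_lit 78) (nat_lit 76) (nat_lit 0) (XT.lf (nat_lit 0) (nat_lit 2406078600) (nat_lit 152) (nat_lit 17714696670) (nat_lit 228) (nat_lit 1037850642)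 (nat_lit 39) (nat_lit 5) (nat_lit 41) (nat_lit 5) (nat_lit 42) (nat_lit 5) (nat_lit 331) (nat_lit 307) (nat_lit 262)) (XT.lf (nat_lit 0) (nat_lit 5711052930) (nat_lit 228) (nat_lit 1979156123) (nat_lit 76) (nat_lit 14591670290) (nat_lit 38) (nat_lit 5) (nat_lit 41) (nat_lit 5) (nat_lit 39) (nat_lit 5) (nat_lit 332) (nat_lit 307) (nat_lit 261)))) (XT.nd (nat_lit 78) (nat_lit 380) (nat_lit 0) (XT.lf (nat_lit 0) (nat_lit 13227518991) (nat_lit 228) (nat_lit 6963629928) (nat_lit 76) (nat_lit 3289830546) (nat_lit 36) (nat_lit 5) (nat_lit 39) (nat_lit 5) (nat_lit 37) (nat_lit 5) (nat_lit 333) (nat_lit 307) (nat_lit 260)) (XT.nd (nat_lit 78) (nat_lit 228) (nat_lit 0) (XT.lf (nat_lit 0) (nat_lit 11968198260) (nat_lit 152) (nat_lit 9682407709) (nat_lit 228) (nat_lit 3110171337) (nat_lit 34) (nat_lit 5) (nat_lit 36) (nat_lit 5) (nat_lit 37) (nat_lit 5) (nat_lit 334) (nat_lit 307) (nat_lit 259)) (XT.lf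 (nat_lit 0) (nat_lit 4669163139) (nat_lit 228) (nat_lit 19570244318) (nat_lit 76) (nat_lit 1889389888) (nat_lit 31) (nat_lit 5) (nat_lit 34) (nat_lit 5) (nat_lit 32) (nat_lit 5) (nat_lit 335) (nat_lit 307) (nat_lit 258))))) (XT.nd (nat_lit 234) (nat_lit 228) (nat_lit 0) (XT.nd (nat_lit 78) (nat_lit 152) (nat_lit 0) (XT.lf (nat_lit 0) (nat_lit 29648797) (nat_lit 152) (nat_lit 13280999198) (nat_lit 228) (nat_lit 14275651719) (nat_lit 29) (nat_lit 5) (nat_lit 31) (nat_lit 5) (nat_lit 32) (nat_lit 5) (nat_lit 336) (nat_lit 307) (nat_lit 257)) (XT.nd (nat_lit 78) (nat_lit 152) (nat_lit 0) (XT.lf (nat_lit 0) (nat_lit 21828065944) (nat_lit 152) (nat_lit 1115492899) (nat_lit 228) (nat_lit 6201864449) (nat_lit 29) (nat_lit 5) (nat_lit 31) (nat_lit 5) (nat_lit 32) (nat_lit 5) (nat_lit 337) (nat_lit 307) (nat_lit 256)) (XT.lf (nat_lit 0) (nat_lit 2823453613) (nat_lit 152) (nat_lit 16094801284) (nat_lit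 76) (nat_lit 11889768907) (nat_lit 27) (nat_lit 5) (nat_lit 29) (nat_lit 5) (nat_lit 28) (nat_lit 5) (nat_lit 338) (nat_lit 307) (nat_lit 255)))) (XT.nd (nat_lit 78) (nat_lit 76) (nat_lit 0) (XT.lf (nat_lit 0) (nat_lit 6179398757) (nat_lit 152) (nat_lit 6384933363) (nat_lit 228) (nat_lit 20023697376) (nat_lit 25) (nat_lit 5) (nat_lit 27) (nat_lit 5) (nat_lit 28) (nat_lit 5) (nat_lit 339) (nat_lit 307) (nat_lit 254)) (XT.nd (nat_lit 78) (nat_lit 76) (nat_lit 0) (XT.lf (nat_lit 0) (nat_lit 23445555391) (nat_lit 228) (nat_lit 3864218795) (nat_lit 76) (nat_lit 7182627677) (nat_lit 25) (nat_lit 5) (nat_lit 28) (nat_lit 5) (nat_lit 26) (nat_lit 4) (nat_lit 340) (nat_lit 307) (nat_lit 253)) (XT.lf (nat_lit 0) (nat_lit 20990664891) (nat_lit 76) (nat_lit 14609097631) (nat_lit 152) (nat_lit 929255663) (nat_lit 24) (nat_lit 5) (nat_lit 25) (nat_lit 5) (nat_lit 26) (nat_lit 4) (nat_lit 341) (nat_lit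 307) (nat_lit 252))))))) (XT.nd (nat_lit 858) (nat_lit 532) (nat_lit 0) (XT.nd (nat_lit 390) (nat_lit 304) (nat_lit 0) (XT.nd (nat_lit 156) (nat_lit 228) (nat_lit 0) (XT.nd (nat_lit 78) (nat_lit 0) (nat_lit 0) (XT.lf (nat_lit 0) (nat_lit 9332396673) (nat_lit 152) (nat_lit 527629324) (nat_lit 228) (nat_lit 28851635774) (nat_lit 21) (nat_lit 5) (nat_lit 23) (nat_lit 5) (nat_lit 24) (nat_lit 5) (nat_lit 342) (nat_lit 307) (nat_lit 251)) (XT.lf (nat_lit 0) (nat_lit 21953953633) (nat_lit 228) (nat_lit 4611592266) (nat_lit 76) (nat_lit 14478921335) (nat_lit 21) (nat_lit 5) (nat_lit 24) (nat_lit 5) (nat_lit 22) (nat_lit 4) (nat_lit 343) (nat_lit 307) (nat_lit 250))) (XT.nd (nat_lit 78) (nat_lit 152) (nat_lit 0) (XT.lf (nat_lit 0) (nat_lit 22808063422) (nat_lit 76) (nat_lit 12543917388) (nat_lit 152) (nat_lit 8195101019) (nat_lit 20) (nat_lit 5) (nat_lit 21) (nat_lit 5) (nat_lit 22) (nat_lit 4)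 (nat_lit 344) (nat_lit 307) (nat_lit 249)) (XT.nd (nat_lit 78) (nat_lit 0) (nat_lit 0) (XT.lf (nat_lit 0) (nat_lit 3656442394) (nat_lit 152) (nat_lit 39843690837) (nat_lit 76) (nat_lit 2737055151) (nat_lit 18) (nat_lit 5) (nat_lit 20) (nat_lit 5) (nat_lit 19) (nat_lit 4) (nat_lit 345) (nat_lit 307) (nat_lit 248)) (XT.lf (nat_lit 0) (nat_lit 16724987739) (nat_lit 152) (nat_lit 13090977461) (nat_lit 76) (nat_lit 19292032620) (nat_lit 18) (nat_lit 5) (nat_lit 20) (nat_lit 5) (nat_lit 19) (nat_lit 4) (nat_lit 346) (nat_lit 307) (nat_lit 247))))) (XT.nd (nat_lit 234) (nat_lit 76) (nat_lit 0) (XT.nd (nat_lit 78) (nat_lit 152) (nat_lit 0) (XT.lf (nat_lit 0) (nat_lit 16278412537) (nat_lit 76) (nat_lit 14790182147) (nat_lit 152) (nat_lit 21128408984) (nat_lit 17) (nat_lit 5) (nat_lit 18) (nat_lit 5) (nat_lit 19) (nat_lit 4) (nat_lit 347) (nat_lit 307) (nat_lit 246)) (XT.nd (nat_lit 78) (nat_lit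 152) (nat_lit 0) (XT.lf (nat_lit 0) (nat_lit 46790192379) (nat_lit 152) (nat_lit 7126580273) (nat_lit 0) (nat_lit 1604841997) (nat_lit 17) (nat_lit 5) (nat_lit 19) (nat_lit 4) (nat_lit 17) (nat_lit 4) (nat_lit 348) (nat_lit 307) (nat_lit 245)) (XT.lf (nat_lit 0) (nat_lit 5127589899) (nat_lit 152) (nat_lit 34702372512) (nat_lit 76) (nat_lit 19247638525) (nat_lit 15) (nat_lit 5) (nat_lit 17) (nat_lit 5) (nat_lit 16) (nat_lit 4) (nat_lit 349) (nat_lit 307) (nat_lit 244)))) (XT.nd (nat_lit 78) (nat_lit 76) (nat_lit 0) (XT.lf (nat_lit 0) (nat_lit 19898394178) (nat_lit 152) (nat_lit 4448688021) (nat_lit 76) (nat_lit 38558386121) (nat_lit 15) (nat_lit 5) (nat_lit 17) (nat_lit 5) (nat_lit 16) (nat_lit 4) (nat_lit 350) (nat_lit 307) (nat_lit 243)) (XT.nd (nat_lit 78) (nat_lit 0) (nat_lit 0) (XT.lf (nat_lit 0) (nat_lit 29121016165) (nat_lit 76) (nat_lit 7164796622) (nat_lit 152) (nat_lit 30732012196)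 (nat_lit 14) (nat_lit 5) (nat_lit 15) (nat_lit 5) (nat_lit 16) (nat_lit 4) (nat_lit 351) (nat_lit 307) (nat_lit 242)) (XT.lf (nat_lit 0) (nat_lit 54221808382) (nat_lit 152) (nat_lit 6134718137) (nat_lit 0) (nat_lit 11090771329) (nat_lit 14) (nat_lit 5) (nat_lit 16) (nat_lit 4) (nat_lit 14) (nat_lit 4) (nat_lit 352) (nat_lit 307) (nat_lit 241)))))) (XT.nd (nat_lit 468) (nat_lit 228) (nat_lit 0) (XT.nd (nat_lit 234) (nat_lit 76) (nat_lit 0) (XT.nd (nat_lit 78) (nat_lit 152) (nat_lit 0) (XT.lf (nat_lit 0) (nat_lit 28940998743) (nat_lit 76) (nat_lit 45206714750) (nat_lit 76) (nat_lit 2055669888) (nat_lit 13) (nat_lit 4) (nat_lit 14) (nat_lit 5) (nat_lit 14) (nat_lit 4) (nat_lit 353) (nat_lit 307) (nat_lit 240)) (XT.nd (nat_lit 78) (nat_lit 76) (nat_lit 0) (XT.lf (nat_lit 0) (nat_lit 13960675678) (nat_lit 152) (nat_lit 14550185470) (nat_lit 76) (nat_lit 52813339520) (nat_lit 12) (nat_lit 5)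 (nat_lit 14) (nat_lit 5) (nat_lit 13) (nat_lit 4) (nat_lit 354) (nat_lit 307) (nat_lit 239)) (XT.lf (nat_lit 0) (nat_lit 21399650976) (nat_lit 76) (nat_lit 10105897832) (nat_lit 152) (nat_lit 55331492698) (nat_lit 11) (nat_lit 5) (nat_lit 12) (nat_lit 5) (nat_lit 13) (nat_lit 4) (nat_lit 355) (nat_lit 307) (nat_lit 238)))) (XT.nd (nat_lit 78) (nat_lit 76) (nat_lit 0) (XT.lf (nat_lit 0) (nat_lit 50848875091) (nat_lit 152) (nat_lit 32218760983) (nat_lit 0) (nat_lit 9703535161) (nat_lit 11) (nat_lit 5) (nat_lit 13) (nat_lit 4) (nat_lit 11) (nat_lit 4) (nat_lit 356) (nat_lit 307) (nat_lit 237)) (XT.nd (nat_lit 78) (nat_lit 0) (nat_lit 0) (XT.lf (nat_lit 0) (nat_lit 3574638019) (nat_lit 76) (nat_lit 68377070827) (nat_lit 76) (nat_lit 27217724863) (nat_lit 10) (nat_lit 4) (nat_lit 11) (nat_lit 5) (nat_lit 11) (nat_lit 4) (nat_lit 357) (nat_lit 307) (nat_lit 236)) (XT.lf (nat_lit 0) (nat_lit 43356464308)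 (nat_lit 76) (nat_lit 51934013046) (nat_lit 76) (nat_lit 10761698530) (nat_lit 10) (nat_lit 4) (nat_lit 11) (nat_lit 5) (nat_lit 11) (nat_lit 4) (nat_lit 358) (nat_lit 307) (nat_lit 235))))) (XT.nd (nat_lit 234) (nat_lit 76) (nat_lit 0) (XT.nd (nat_lit 78) (nat_lit 76) (nat_lit 0) (XT.lf (nat_lit 0) (nat_lit 6773690926) (nat_lit 152) (nat_lit 27298256034) (nat_lit 76) (nat_lit 79408757639) (nat_lit 9) (nat_lit 5) (nat_lit 11) (nat_lit 5) (nat_lit 10) (nat_lit 4) (nat_lit 359) (nat_lit 307) (nat_lit 234)) (XT.nd (nat_lit 78) (nat_lit 0) (nat_lit 0) (XT.lf (nat_lit 0) (nat_lit 11081912509) (nat_lit 76) (nat_lit 14419235483) (nat_lit 152) (nat_lit 95985236209) (nat_lit 8) (nat_lit 5) (nat_lit 9) (nat_lit 5) (nat_lit 10) (nat_lit 4) (nat_lit 360) (nat_lit 307) (nat_lit 233)) (XT.lf (nat_lit 0) (nat_lit 46304966804) (nat_lit 152) (nat_lit 76737237247) (nat_lit 0) (nat_lit 7061408966) (nat_lit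 8) (nat_lit 5) (nat_lit 10) (nat_lit 4) (nat_lit 8) (nat_lit 4) (nat_lit 361) (nat_lit 307) (nat_lit 232)))) (XT.nd (nat_lit 78) (nat_lit 76) (nat_lit 0) (XT.lf (nat_lit 0) (nat_lit 69005666377) (nat_lit 152) (nat_lit 40639897687) (nat_lit 0) (nat_lit 29753030185) (nat_lit 8) (nat_lit 5) (nat_lit 10) (nat_lit 4) (nat_lit 8) (nat_lit 4) (nat_lit 362) (nat_lit 307) (nat_lit 231)) (XT.nd (nat_lit 78) (nat_lit 76) (nat_lit 0) (XT.lf (nat_lit 0) (nat_lit 93512644701) (nat_lit 152) (nat_lit 1673418178) (nat_lit 0) (nat_lit 54251602625) (nat_lit 8) (nat_lit 5) (nat_lit 10) (nat_lit 4) (nat_lit 8) (nat_lit 4) (nat_lit 363) (nat_lit 307) (nat_lit 230)) (XT.lf (nat_lit 0) (nat_lit 41728692513) (nat_lit 76) (nat_lit 78893937634) (nat_lit 76) (nat_lit 39625112332) (nat_lit 7) (nat_lit 4) (nat_lit 8) (nat_lit 5) (nat_lit 8) (nat_lit 4) (nat_lit 364) (nat_lit 307) (nat_lit 229))))))))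
noncomputable def xc62 : XT := (XT.nd (nat_lit 1716) (nat_lit 0) (nat_lit 0) (XT.nd (nat_lit 858) (nat_lit 152) (nat_lit 0) (XT.nd (nat_lit 390) (nat_lit 76) (nat_lit 0) (XT.nd (nat_lit 156) (nat_lit 152) (nat_lit 0) (XT.nd (nat_lit 78) (nat_lit 0) (nat_lit 0) (XT.lf (nat_lit 0) (nat_lit 88646213701) (nat_lit 76) (nat_lit 61275710352) (nat_lit 76) (nat_lit 21999678360) (nat_lit 7) (nat_lit 4) (nat_lit 8) (nat_lit 5) (nat_lit 8) (nat_lit 4) (nat_lit 365) (nat_lit 307) (nat_lit 228)) (XT.lf (nat_lit 0) (nat_lit 139301844377) (nat_lit 76) (nat_lit 42255316871) (nat_lit 76) (nat_lit 2972612018) (nat_lit 7) (nat_lit 4) (nat_lit 8) (nat_lit 5) (nat_lit 8) (nat_lit 4) (nat_lit 366) (nat_lit 307) (nat_lit 227))) (XT.nd (nat_lit 78) (nat_lit 76) (nat_lit 0) (XT.lf (nat_lit 0) (nat_lit 17006527091) (nat_lit 152) (nat_lit 4425502892) (nat_lit 76) (nat_lit 176701225200) (nat_lit 6) (nat_lit 5) (nat_lit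 8) (nat_lit 5) (nat_lit 7) (nat_lit 4) (nat_lit 367) (nat_lit 307) (nat_lit 226)) (XT.nd (nat_lit 78) (nat_lit 0) (nat_lit 0) (XT.lf (nat_lit 0) (nat_lit 39140311509) (nat_lit 152) (nat_lit 171932367488) (nat_lit 0) (nat_lit 1716878812) (nat_lit 5) (nat_lit 5) (nat_lit 7) (nat_lit 4) (nat_lit 5) (nat_lit 4) (nat_lit 368) (nat_lit 307) (nat_lit 225)) (XT.lf (nat_lit 0) (nat_lit 63477783834) (nat_lit 152) (nat_lit 139069626902) (nat_lit 0) (nat_lit 26049306249) (nat_lit 5) (nat_lit 5) (nat_lit 7) (nat_lit 4) (nat_lit 5) (nat_lit 4) (nat_lit 369) (nat_lit 307) (nat_lit 224))))) (XT.nd (nat_lit 234) (nat_lit 76) (nat_lit 0) (XT.nd (nat_lit 78) (nat_lit 0) (nat_lit 0) (XT.lf (nat_lit 0) (nat_lit 89756002846) (nat_lit 152) (nat_lit 103589906015) (nat_lit 0) (nat_lit 52322854068) (nat_lit 5) (nat_lit 5) (nat_lit 7) (nat_lit 4) (nat_lit 5) (nat_lit 4) (nat_lit 370) (nat_lit 307) (nat_lit 223))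 (XT.nd (nat_lit 78) (nat_lit 0) (nat_lit 0) (XT.lf (nat_lit 0) (nat_lit 118130691324) (nat_lit 152) (nat_lit 65282954631) (nat_lit 0) (nat_lit 80693217367) (nat_lit 5) (nat_lit 5) (nat_lit 7) (nat_lit 4) (nat_lit 5) (nat_lit 4) (nat_lit 371) (nat_lit 307) (nat_lit 222)) (XT.lf (nat_lit 0) (nat_lit 148769995569) (nat_lit 152) (nat_lit 23921768592) (nat_lit 0) (nat_lit 111328516817) (nat_lit 5) (nat_lit 5) (nat_lit 7) (nat_lit 4) (nat_lit 5) (nat_lit 4) (nat_lit 372) (nat_lit 307) (nat_lit 221)))) (XT.nd (nat_lit 78) (nat_lit 0) (nat_lit 0) (XT.lf (nat_lit 0) (nat_lit 21424472338) (nat_lit 76) (nat_lit 160765505546) (nat_lit 76) (nat_lit 123320318651) (nat_lit 4) (nat_lit 4) (nat_lit 5) (nat_lit 5) (nat_lit 5) (nat_lit 4) (nat_lit 373) (nat_lit 307) (nat_lit 220)) (XT.nd (nat_lit 78) (nat_lit 0) (nat_lit 0) (XT.lf (nat_lit 0) (nat_lit 71243509610) (nat_lit 76) (nat_lit 147452013480) (nat_lit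 76) (nat_lit 110003393119) (nat_lit 4) (nat_lit 4) (nat_lit 5) (nat_lit 5) (nat_lit 5) (nat_lit 4) (nat_lit 374) (nat_lit 307) (nat_lit 219)) (XT.lf (nat_lit 0) (nat_lit 125039605445) (nat_lit 76) (nat_lit 133077519921) (nat_lit 76) (nat_lit 95625720424) (nat_lit 4) (nat_lit 4) (nat_lit 5) (nat_lit 5) (nat_lit 5) (nat_lit 4) (nat_lit 375) (nat_lit 307) (nat_lit 218)))))) (XT.nd (nat_lit 390) (nat_lit 152) (nat_lit 0) (XT.nd (nat_lit 156) (nat_lit 0) (nat_lit 0) (XT.nd (nat_lit 78) (nat_lit 0) (nat_lit 0) (XT.lf (nat_lit 0) (nat_lit 183131551522) (nat_lit 76) (nat_lit 117556842685) (nat_lit 76) (nat_lit 80102099544) (nat_lit 4) (nat_lit 4) (nat_lit 5) (nat_lit 5) (nat_lit 5) (nat_lit 4) (nat_lit 376) (nat_lit 307) (nat_lit 217)) (XT.lf (nat_lit 0) (nat_lit 245863596410) (nat_lit 76) (nat_lit 100798007388) (nat_lit 76) (nat_lit 63340538652) (nat_lit 4) (nat_lit 4) (nat_lit 5) (nat_lit 5)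 (nat_lit 5) (nat_lit 4) (nat_lit 377) (nat_lit 307) (nat_lit 216))) (XT.nd (nat_lit 78) (nat_lit 0) (nat_lit 0) (XT.lf (nat_lit 0) (nat_lit 313607485559) (nat_lit 76) (nat_lit 82701702414) (nat_lit 76) (nat_lit 45241709978) (nat_lit 4) (nat_lit 4) (nat_lit 5) (nat_lit 5) (nat_lit 5) (nat_lit 4) (nat_lit 378) (nat_lit 307) (nat_lit 215)) (XT.nd (nat_lit 78) (nat_lit 0) (nat_lit 0) (XT.lf (nat_lit 0) (nat_lit 386764664241) (nat_lit 76) (nat_lit 63160690401) (nat_lit 76) (nat_lit 25698361205) (nat_lit 4) (nat_lit 4) (nat_lit 5) (nat_lit 5) (nat_lit 5) (nat_lit 4) (nat_lit 379) (nat_lit 307) (nat_lit 214)) (XT.lf (nat_lit 0) (nat_lit 465768656475) (nat_lit 76) (nat_lit 42059172758) (nat_lit 76) (nat_lit 4594679896) (nat_lit 4) (nat_lit 4) (nat_lit 5) (nat_lit 5) (nat_lit 5) (nat_lit 4) (nat_lit 380) (nat_lit 307) (nat_lit 213))))) (XT.nd (nat_lit 234) (nat_lit 0) (nat_lit 0) (XT.nd (nat_lit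 78) (nat_lit 76) (nat_lit 0) (XT.lf (nat_lit 0) (nat_lit 17612058605) (nat_lit 152) (nat_lit 1361776114) (nat_lit 76) (nat_lit 533177306727) (nat_lit 3) (nat_lit 5) (nat_lit 5) (nat_lit 5) (nat_lit 4) (nat_lit 4) (nat_lit 381) (nat_lit 307) (nat_lit 212)) (XT.nd (nat_lit 78) (nat_lit 0) (nat_lit 0) (XT.lf (nat_lit 0) (nat_lit 42306385342) (nat_lit 152) (nat_lit 546082070927) (nat_lit 0) (nat_lit 6622241293) (nat_lit 2) (nat_lit 5) (nat_lit 4) (nat_lit 4) (nat_lit 2) (nat_lit 4) (nat_lit 382) (nat_lit 307) (nat_lit 211)) (XT.lf (nat_lit 0) (nat_lit 69317781255) (nat_lit 152) (nat_lit 538332159868) (nat_lit 0) (nat_lit 33632001408) (nat_lit 2) (nat_lit 5) (nat_lit 4) (nat_lit 4) (nat_lit 2) (nat_lit 4) (nat_lit 383) (nat_lit 307) (nat_lit 210)))) (XT.nd (nat_lit 78) (nat_lit 0) (nat_lit 0) (XT.lf (nat_lit 0) (nat_lit 98487754944) (nat_lit 152) (nat_lit 529966788860) (nat_lit 0) (nat_lit 62800460469)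 (nat_lit 2) (nat_lit 5) (nat_lit 4) (nat_lit 4) (nat_lit 2) (nat_lit 4) (nat_lit 384) (nat_lit 307) (nat_lit 209)) (XT.nd (nat_lit 78) (nat_lit 0) (nat_lit 0) (XT.lf (nat_lit 0) (nat_lit 129989165512) (nat_lit 152) (nat_lit 520936385333) (nat_lit 0) (nat_lit 94300468604) (nat_lit 2) (nat_lit 5) (nat_lit 4) (nat_lit 4) (nat_lit 2) (nat_lit 4) (nat_lit 385) (nat_lit 307) (nat_lit 208)) (XT.lf (nat_lit 0) (nat_lit 164008687985) (nat_lit 152) (nat_lit 511187435786) (nat_lit 0) (nat_lit 128318692528) (nat_lit 2) (nat_lit 5) (nat_lit 4) (nat_lit 4) (nat_lit 2) (nat_lit 4) (nat_lit 386) (nat_lit 307) (nat_lit 207))))))) (XT.nd (nat_lit 41262) (nat_lit 0) (nat_lit 3800) (XT.nd (nat_lit 40794) (nat_lit 0) (nat_lit 7676) (XT.nd (nat_lit 156) (nat_lit 0) (nat_lit 0) (XT.nd (nat_lit 78) (nat_lit 0) (nat_lit 0) (XT.lf (nat_lit 0) (nat_lit 200747919533) (nat_lit 152) (nat_lit 500662168664) (nat_lit 0)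 (nat_lit 165056721715) (nat_lit 2) (nat_lit 5) (nat_lit 4) (nat_lit 4) (nat_lit 2) (nat_lit 4) (nat_lit 387) (nat_lit 307) (nat_lit 206)) (XT.lf (nat_lit 0) (nat_lit 240424574120) (nat_lit 152) (nat_lit 489298212015) (nat_lit 0) (nat_lit 204732263006) (nat_lit 2) (nat_lit 5) (nat_lit 4) (nat_lit 4) (nat_lit 2) (nat_lit 4) (nat_lit 388) (nat_lit 307) (nat_lit 205))) (XT.nd (nat_lit 78) (nat_lit 0) (nat_lit 0) (XT.lf (nat_lit 0) (nat_lit 283273772662) (nat_lit 152) (nat_lit 477028223875) (nat_lit 0) (nat_lit 247580430718) (nat_lit 2) (nat_lit 5) (nat_lit 4) (nat_lit 4) (nat_lit 2) (nat_lit 4) (nat_lit 389) (nat_lit 307) (nat_lit 204)) (XT.nd (nat_lit 40482) (nat_lit 0) (nat_lit 8132) (XT.lf (nat_lit 0) (nat_lit 329549436337) (nat_lit 152) (nat_lit 463779493200) (nat_lit 0) (nat_lit 293855139921) (nat_lit 2) (nat_lit 5) (nat_lit 4) (nat_lit 4) (nat_lit 2) (nat_lit 4) (nat_lit 390) (nat_lit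 307) (nat_lit 203)) (XT.lf (nat_lit 0) (nat_lit 359242770) (nat_lit 684) (nat_lit 1897910743) (nat_lit 684) (nat_lit 1897910743) (nat_lit 109) (nat_lit 3) (nat_lit 118) (nat_lit 3) (nat_lit 118) (nat_lit 5) (nat_lit 308) (nat_lit 308) (nat_lit 284))))) (XT.nd (nat_lit 234) (nat_lit 532) (nat_lit 0) (XT.nd (nat_lit 78) (nat_lit 0) (nat_lit 0) (XT.lf (nat_lit 0) (nat_lit 2428886545) (nat_lit 608) (nat_lit 6076688246) (nat_lit 684) (nat_lit 50131651) (nat_lit 110) (nat_lit 5) (nat_lit 118) (nat_lit 5) (nat_lit 119) (nat_lit 5) (nat_lit 309) (nat_lit 308) (nat_lit 283)) (XT.nd (nat_lit 78) (nat_lit 0) (nat_lit 76) (XT.lf (nat_lit 76) (nat_lit 410710356) (nat_lit 0) (nat_lit 3850653282) (nat_lit 684) (nat_lit 4560579309) (nat_lit 111) (nat_lit 5) (nat_lit 110) (nat_lit 5) (nat_lit 119) (nat_lit 5) (nat_lit 310) (nat_lit 308) (nat_lit 282)) (XT.lf (nat_lit 0) (nat_lit 6213533349) (nat_lit 608)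 (nat_lit 1593757872) (nat_lit 684) (nat_lit 1303786640) (nat_lit 111) (nat_lit 5) (nat_lit 119) (nat_lit 5) (nat_lit 120) (nat_lit 5) (nat_lit 311) (nat_lit 308) (nat_lit 281)))) (XT.nd (nat_lit 78) (nat_lit 608) (nat_lit 0) (XT.lf (nat_lit 76) (nat_lit 5793729399) (nat_lit 0) (nat_lit 2541992071) (nat_lit 684) (nat_lit 1087165234) (nat_lit 112) (nat_lit 5) (nat_lit 111) (nat_lit 5) (nat_lit 120) (nat_lit 5) (nat_lit 312) (nat_lit 308) (nat_lit 280)) (XT.nd (nat_lit 78) (nat_lit 0) (nat_lit 0) (XT.lf (nat_lit 0) (nat_lit 848914154) (nat_lit 684) (nat_lit 5721308553) (nat_lit 760) (nat_lit 3188514851) (nat_lit 103) (nat_lit 5) (nat_lit 112) (nat_lit 5) (nat_lit 113) (nat_lit 5) (nat_lit 313) (nat_lit 308) (nat_lit 279)) (XT.lf (nat_lit 76) (nat_lit 2238825088) (nat_lit 0) (nat_lit 679758458) (nat_lit 760) (nat_lit 7201334373) (nat_lit 104) (nat_lit 5) (nat_lit 103) (nat_lit 5) (nat_lit 113)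 (nat_lit 5) (nat_lit 314) (nat_lit 308) (nat_lit 278)))))) (XT.nd (nat_lit 468) (nat_lit 1520) (nat_lit 0) (XT.nd (nat_lit 234) (nat_lit 1064) (nat_lit 0) (XT.nd (nat_lit 78) (nat_lit 684) (nat_lit 0) (XT.lf (nat_lit 0) (nat_lit 354708543) (nat_lit 684) (nat_lit 4877069709) (nat_lit 760) (nat_lit 5274494823) (nat_lit 95) (nat_lit 5) (nat_lit 104) (nat_lit 5) (nat_lit 105) (nat_lit 5) (nat_lit 315) (nat_lit 308) (nat_lit 277)) (XT.nd (nat_lit 78) (nat_lit 684) (nat_lit 0) (XT.lf (nat_lit 0) (nat_lit 7794013965) (nat_lit 760) (nat_lit 1525609591) (nat_lit 76) (nat_lit 1600878588) (nat_lit 95) (nat_lit 5) (nat_lit 105) (nat_lit 5) (nat_lit 96) (nat_lit 5) (nat_lit 316) (nat_lit 308) (nat_lit 276)) (XT.lf (nat_lit 0) (nat_lit 7864668310) (nat_lit 684) (nat_lit 2799561899) (nat_lit 760) (nat_lit 698641812) (nat_lit 86) (nat_lit 5) (nat_lit 95) (nat_lit 5) (nat_lit 96) (nat_lit 5) (nat_lit 317)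 (nat_lit 308) (nat_lit 275)))) (XT.nd (nat_lit 78) (nat_lit 608) (nat_lit 0) (XT.lf (nat_lit 0) (nat_lit 1958440016) (nat_lit 456) (nat_lit 5608708873) (nat_lit 76) (nat_lit 4267287148) (nat_lit 80) (nat_lit 5) (nat_lit 86) (nat_lit 5) (nat_lit 81) (nat_lit 5) (nat_lit 318) (nat_lit 308) (nat_lit 274)) (XT.nd (nat_lit 78) (nat_lit 304) (nat_lit 0) (XT.lf (nat_lit 0) (nat_lit 4500793209) (nat_lit 304) (nat_lit 390799826) (nat_lit 380) (nat_lit 7447284974) (nat_lit 76) (nat_lit 5) (nat_lit 80) (nat_lit 5) (nat_lit 81) (nat_lit 5) (nat_lit 319) (nat_lit 308) (nat_lit 273)) (XT.lf (nat_lit 0) (nat_lit 2612335300) (nat_lit 304) (nat_lit 5615604009) (nat_lit 380) (nat_lit 4647424323) (nat_lit 72) (nat_lit 5) (nat_lit 76) (nat_lit 5) (nat_lit 77) (nat_lit 5) (nat_lit 320) (nat_lit 308) (nat_lit 272))))) (XT.nd (nat_lit 234) (nat_lit 836) (nat_lit 0) (XT.nd (nat_lit 78) (nat_lit 380) (nat_lit 0)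 (XT.lf (nat_lit 0) (nat_lit 614407033) (nat_lit 304) (nat_lit 11322085570) (nat_lit 380) (nat_lit 1513117336) (nat_lit 68) (nat_lit 5) (nat_lit 72) (nat_lit 5) (nat_lit 73) (nat_lit 5) (nat_lit 321) (nat_lit 308) (nat_lit 271)) (XT.nd (nat_lit 78) (nat_lit 304) (nat_lit 0) (XT.lf (nat_lit 0) (nat_lit 2010059624) (nat_lit 380) (nat_lit 1552930106) (nat_lit 76) (nat_lit 10495537144) (nat_lit 67) (nat_lit 5) (nat_lit 72) (nat_lit 5) (nat_lit 68) (nat_lit 5) (nat_lit 322) (nat_lit 308) (nat_lit 270)) (XT.lf (nat_lit 0) (nat_lit 5938087405) (nat_lit 380) (nat_lit 3920866699) (nat_lit 76) (nat_lit 4847249557) (nat_lit 63) (nat_lit 5) (nat_lit 68) (nat_lit 5) (nat_lit 64) (nat_lit 5) (nat_lit 323) (nat_lit 308) (nat_lit 269)))) (XT.nd (nat_lit 78) (nat_lit 608) (nat_lit 0) (XT.lf (nat_lit 0) (nat_lit 8899791747) (nat_lit 228) (nat_lit 1438387596) (nat_lit 304) (nat_lit 5059704898) (nat_lit 60)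 (nat_lit 5) (nat_lit 63) (nat_lit 5) (nat_lit 64) (nat_lit 5) (nat_lit 324) (nat_lit 308) (nat_lit 268)) (XT.nd (nat_lit 78) (nat_lit 304) (nat_lit 0) (XT.lf (nat_lit 0) (nat_lit 6754564928) (nat_lit 304) (nat_lit 8564941386) (nat_lit 380) (nat_lit 814006332) (nat_lit 56) (nat_lit 5) (nat_lit 60) (nat_lit 5) (nat_lit 61) (nat_lit 5) (nat_lit 325) (nat_lit 308) (nat_lit 267)) (XT.lf (nat_lit 0) (nat_lit 3803732022) (nat_lit 304) (nat_lit 12579238506) (nat_lit 76) (nat_lit 534488129) (nat_lit 52) (nat_lit 5) (nat_lit 56) (nat_lit 5) (nat_lit 53) (nat_lit 5) (nat_lit 326) (nat_lit 308) (nat_lit 266))))))))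
noncomputable def xc63 : XT := (XT.nd (nat_lit 1794) (nat_lit 912) (nat_lit 0) (XT.nd (nat_lit 858) (nat_lit 912) (nat_lit 0) (XT.nd (nat_lit 390) (nat_lit 912) (nat_lit 0) (XT.nd (nat_lit 156) (nat_lit 608) (nat_lit 0) (XT.nd (nat_lit 78) (nat_lit 0) (nat_lit 0) (XT.lf (nat_lit 0) (nat_lit 1537027513) (nat_lit 228) (nat_lit 7500551638) (nat_lit 304) (nat_lit 8712174599) (nat_lit 49) (nat_lit 5) (nat_lit 52) (nat_lit 5) (nat_lit 53) (nat_lit 5) (nat_lit 327) (nat_lit 308) (nat_lit 265)) (XT.lf (nat_lit 0) (nat_lit 14888691960) (nat_lit 304) (nat_lit 1524124528) (nat_lit 76) (nat_lit 2225944590) (nat_lit 49) (nat_lit 5) (nat_lit 53) (nat_lit 5) (nat_lit 50) (nat_lit 5) (nat_lit 328) (nat_lit 308) (nat_lit 264))) (XT.nd (nat_lit 78) (nat_lit 380) (nat_lit 0) (XT.lf (nat_lit 0) (nat_lit 1864280450) (nat_lit 228) (nat_lit 5009294611) (nat_lit 76) (nat_lit 12708769031) (nat_lit 46) (nat_lit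 5) (nat_lit 49) (nat_lit 5) (nat_lit 47) (nat_lit 5) (nat_lit 329) (nat_lit 308) (nat_lit 263)) (XT.nd (nat_lit 78) (nat_lit 152) (nat_lit 0) (XT.lf (nat_lit 0) (nat_lit 8013886830) (nat_lit 304) (nat_lit 9000901493) (nat_lit 76) (nat_lit 3572723097) (nat_lit 43) (nat_lit 5) (nat_lit 47) (nat_lit 5) (nat_lit 44) (nat_lit 5) (nat_lit 330) (nat_lit 308) (nat_lit 262)) (XT.lf (nat_lit 0) (nat_lit 8088705751) (nat_lit 152) (nat_lit 6849203918) (nat_lit 228) (nat_lit 6721102803) (nat_lit 41) (nat_lit 5) (nat_lit 43) (nat_lit 5) (nat_lit 44) (nat_lit 5) (nat_lit 331) (nat_lit 308) (nat_lit 261))))) (XT.nd (nat_lit 234) (nat_lit 532) (nat_lit 0) (XT.nd (nat_lit 78) (nat_lit 228) (nat_lit 0) (XT.lf (nat_lit 0) (nat_lit 4049087972) (nat_lit 152) (nat_lit 18607508135) (nat_lit 228) (nat_lit 147639980) (nat_lit 39) (nat_lit 5) (nat_lit 41) (nat_lit 5) (nat_lit 42) (nat_lit 5) (nat_lit 332) (nat_lit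 308) (nat_lit 260)) (XT.nd (nat_lit 78) (nat_lit 152) (nat_lit 0) (XT.lf (nat_lit 0) (nat_lit 7040241792) (nat_lit 228) (nat_lit 764888614) (nat_lit 76) (nat_lit 16215003315) (nat_lit 38) (nat_lit 5) (nat_lit 41) (nat_lit 5) (nat_lit 39) (nat_lit 5) (nat_lit 333) (nat_lit 308) (nat_lit 259)) (XT.lf (nat_lit 0) (nat_lit 15121477250) (nat_lit 228) (nat_lit 6173300583) (nat_lit 76) (nat_lit 4022261837) (nat_lit 36) (nat_lit 5) (nat_lit 39) (nat_lit 5) (nat_lit 37) (nat_lit 5) (nat_lit 334) (nat_lit 308) (nat_lit 258)))) (XT.nd (nat_lit 78) (nat_lit 380) (nat_lit 0) (XT.lf (nat_lit 0) (nat_lit 14214516639) (nat_lit 152) (nat_lit 9962109396) (nat_lit 228) (nat_lit 2524731251) (nat_lit 34) (nat_lit 5) (nat_lit 36) (nat_lit 5) (nat_lit 37) (nat_lit 5) (nat_lit 335) (nat_lit 308) (nat_lit 257)) (XT.nd (nat_lit 78) (nat_lit 152) (nat_lit 0) (XT.lf (nat_lit 0) (nat_lit 5817759481) (nat_lit 228) (nat_lit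 19845731243) (nat_lit 76) (nat_lit 2516342585) (nat_lit 31) (nat_lit 5) (nat_lit 34) (nat_lit 5) (nat_lit 32) (nat_lit 5) (nat_lit 336) (nat_lit 308) (nat_lit 256)) (XT.lf (nat_lit 0) (nat_lit 1266085731) (nat_lit 152) (nat_lit 13846332513) (nat_lit 228) (nat_lit 14643462991) (nat_lit 29) (nat_lit 5) (nat_lit 31) (nat_lit 5) (nat_lit 32) (nat_lit 5) (nat_lit 337) (nat_lit 308) (nat_lit 255)))))) (XT.nd (nat_lit 468) (nat_lit 304) (nat_lit 0) (XT.nd (nat_lit 234) (nat_lit 304) (nat_lit 0) (XT.nd (nat_lit 78) (nat_lit 304) (nat_lit 0) (XT.lf (nat_lit 0) (nat_lit 24716964024) (nat_lit 152) (nat_lit 744411386) (nat_lit 228) (nat_lit 5981123914) (nat_lit 29) (nat_lit 5) (nat_lit 31) (nat_lit 5) (nat_lit 32) (nat_lit 5) (nat_lit 338) (nat_lit 308) (nat_lit 254)) (XT.nd (nat_lit 78) (nat_lit 152) (nat_lit 0) (XT.lf (nat_lit 0) (nat_lit 3716394882) (nat_lit 152) (nat_lit 16240764177) (nat_lit 76)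 (nat_lit 13281764302) (nat_lit 27) (nat_lit 5) (nat_lit 29) (nat_lit 5) (nat_lit 28) (nat_lit 5) (nat_lit 339) (nat_lit 308) (nat_lit 253)) (XT.lf (nat_lit 0) (nat_lit 7765758400) (nat_lit 152) (nat_lit 6438422349) (nat_lit 228) (nat_lit 20958795727) (nat_lit 25) (nat_lit 5) (nat_lit 27) (nat_lit 5) (nat_lit 28) (nat_lit 5) (nat_lit 340) (nat_lit 308) (nat_lit 252)))) (XT.nd (nat_lit 78) (nat_lit 304) (nat_lit 0) (XT.lf (nat_lit 0) (nat_lit 25915497863) (nat_lit 228) (nat_lit 3139131022) (nat_lit 76) (nat_lit 8167116636) (nat_lit 25) (nat_lit 5) (nat_lit 28) (nat_lit 5) (nat_lit 26) (nat_lit 4) (nat_lit 341) (nat_lit 308) (nat_lit 251)) (XT.nd (nat_lit 78) (nat_lit 228) (nat_lit 0) (XT.lf (nat_lit 0) (nat_lit 23659197189) (nat_lit 76) (nat_lit 15354267717) (nat_lit 152) (nat_lit 409279786) (nat_lit 24) (nat_lit 5) (nat_lit 25) (nat_lit 5) (nat_lit 26) (nat_lit 4) (nat_lit 342) (nat_lit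 308) (nat_lit 250)) (XT.lf (nat_lit 0) (nat_lit 11043751204) (nat_lit 152) (nat_lit 152819613) (nat_lit 228) (nat_lit 30584364378) (nat_lit 21) (nat_lit 5) (nat_lit 23) (nat_lit 5) (nat_lit 24) (nat_lit 5) (nat_lit 343) (nat_lit 308) (nat_lit 249))))) (XT.nd (nat_lit 234) (nat_lit 76) (nat_lit 0) (XT.nd (nat_lit 78) (nat_lit 228) (nat_lit 0) (XT.lf (nat_lit 0) (nat_lit 24223467694) (nat_lit 228) (nat_lit 4067638664) (nat_lit 76) (nat_lit 16011006162) (nat_lit 21) (nat_lit 5) (nat_lit 24) (nat_lit 5) (nat_lit 22) (nat_lit 4) (nat_lit 344) (nat_lit 308) (nat_lit 248)) (XT.nd (nat_lit 78) (nat_lit 152) (nat_lit 0) (XT.lf (nat_lit 0) (nat_lit 25505916784) (nat_lit 76) (nat_lit 13163038841) (nat_lit 152) (nat_lit 8337218412) (nat_lit 20) (nat_lit 5) (nat_lit 21) (nat_lit 5) (nat_lit 22) (nat_lit 4) (nat_lit 345) (nat_lit 308) (nat_lit 247)) (XT.lf (nat_lit 0) (nat_lit 4428380566) (nat_lit 152)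 (nat_lit 42162007172) (nat_lit 76) (nat_lit 3321598649) (nat_lit 18) (nat_lit 5) (nat_lit 20) (nat_lit 5) (nat_lit 19) (nat_lit 4) (nat_lit 346) (nat_lit 308) (nat_lit 246)))) (XT.nd (nat_lit 78) (nat_lit 76) (nat_lit 0) (XT.lf (nat_lit 0) (nat_lit 18506896740) (nat_lit 152) (nat_lit 13333460349) (nat_lit 76) (nat_lit 21173894383) (nat_lit 18) (nat_lit 5) (nat_lit 20) (nat_lit 5) (nat_lit 19) (nat_lit 4) (nat_lit 347) (nat_lit 308) (nat_lit 245)) (XT.nd (nat_lit 78) (nat_lit 0) (nat_lit 0) (XT.lf (nat_lit 0) (nat_lit 18350505425) (nat_lit 76) (nat_lit 15626623641) (nat_lit 152) (nat_lit 22374306006) (nat_lit 17) (nat_lit 5) (nat_lit 18) (nat_lit 5) (nat_lit 19) (nat_lit 4) (nat_lit 348) (nat_lit 308) (nat_lit 244)) (XT.lf (nat_lit 0) (nat_lit 50930130831) (nat_lit 152) (nat_lit 6969174588) (nat_lit 0) (nat_lit 2044038777) (nat_lit 17) (nat_lit 5) (nat_lit 19) (nat_lit 4) (nat_lit 17) (nat_lit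 4) (nat_lit 349) (nat_lit 308) (nat_lit 243))))))) (XT.nd (nat_lit 858) (nat_lit 304) (nat_lit 0) (XT.nd (nat_lit 390) (nat_lit 304) (nat_lit 0) (XT.nd (nat_lit 156) (nat_lit 152) (nat_lit 0) (XT.nd (nat_lit 78) (nat_lit 0) (nat_lit 0) (XT.lf (nat_lit 0) (nat_lit 5922344974) (nat_lit 152) (nat_lit 36769788820) (nat_lit 76) (nat_lit 21092303667) (nat_lit 15) (nat_lit 5) (nat_lit 17) (nat_lit 5) (nat_lit 16) (nat_lit 4) (nat_lit 350) (nat_lit 308) (nat_lit 242)) (XT.lf (nat_lit 0) (nat_lit 21846328567) (nat_lit 152) (nat_lit 4148311310) (nat_lit 76) (nat_lit 41925329288) (nat_lit 15) (nat_lit 5) (nat_lit 17) (nat_lit 5) (nat_lit 16) (nat_lit 4) (nat_lit 351) (nat_lit 308) (nat_lit 241))) (XT.nd (nat_lit 78) (nat_lit 76) (nat_lit 0) (XT.lf (nat_lit 0) (nat_lit 32078448440) (nat_lit 76) (nat_lit 7449718151) (nat_lit 152) (nat_lit 32833986362) (nat_lit 14) (nat_lit 5) (nat_lit 15) (nat_lit 5)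 (nat_lit 16) (nat_lit 4) (nat_lit 352) (nat_lit 308) (nat_lit 240)) (XT.nd (nat_lit 78) (nat_lit 76) (nat_lit 0) (XT.lf (nat_lit 0) (nat_lit 58878061720) (nat_lit 152) (nat_lit 6032580375) (nat_lit 0) (nat_lit 12236399711) (nat_lit 14) (nat_lit 5) (nat_lit 16) (nat_lit 4) (nat_lit 14) (nat_lit 4) (nat_lit 353) (nat_lit 308) (nat_lit 239)) (XT.lf (nat_lit 0) (nat_lit 31823426483) (nat_lit 76) (nat_lit 48559874290) (nat_lit 76) (nat_lit 1901058810) (nat_lit 13) (nat_lit 4) (nat_lit 14) (nat_lit 5) (nat_lit 14) (nat_lit 4) (nat_lit 354) (nat_lit 308) (nat_lit 238))))) (XT.nd (nat_lit 234) (nat_lit 152) (nat_lit 0) (XT.nd (nat_lit 78) (nat_lit 76) (nat_lit 0) (XT.lf (nat_lit 0) (nat_lit 15363504368) (nat_lit 152) (nat_lit 15179514368) (nat_lit 76) (nat_lit 57272725816) (nat_lit 12) (nat_lit 5) (nat_lit 14) (nat_lit 5) (nat_lit 13) (nat_lit 4) (nat_lit 355) (nat_lit 308) (nat_lit 237)) (XT.nd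 (nat_lit 78) (nat_lit 0) (nat_lit 0) (XT.lf (nat_lit 0) (nat_lit 23623072195) (nat_lit 76) (nat_lit 10675697002) (nat_lit 152) (nat_lit 59471510289) (nat_lit 11) (nat_lit 5) (nat_lit 12) (nat_lit 5) (nat_lit 13) (nat_lit 4) (nat_lit 356) (nat_lit 308) (nat_lit 236)) (XT.lf (nat_lit 0) (nat_lit 55172806240) (nat_lit 152) (nat_lit 34313439517) (nat_lit 0) (nat_lit 10693738012) (nat_lit 11) (nat_lit 5) (nat_lit 13) (nat_lit 4) (nat_lit 11) (nat_lit 4) (nat_lit 357) (nat_lit 308) (nat_lit 235)))) (XT.nd (nat_lit 78) (nat_lit 76) (nat_lit 0) (XT.lf (nat_lit 0) (nat_lit 4322448534) (nat_lit 76) (nat_lit 73629664241) (nat_lit 76) (nat_lit 29138588095) (nat_lit 10) (nat_lit 4) (nat_lit 11) (nat_lit 5) (nat_lit 11) (nat_lit 4) (nat_lit 358) (nat_lit 308) (nat_lit 234)) (XT.nd (nat_lit 78) (nat_lit 76) (nat_lit 0) (XT.lf (nat_lit 0) (nat_lit 47252610596) (nat_lit 76) (nat_lit 55887278300) (nat_lit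 76) (nat_lit 11385083712) (nat_lit 10) (nat_lit 4) (nat_lit 11) (nat_lit 5) (nat_lit 11) (nat_lit 4) (nat_lit 359) (nat_lit 308) (nat_lit 233)) (XT.lf (nat_lit 0) (nat_lit 7528500639) (nat_lit 152) (nat_lit 29079063130) (nat_lit 76) (nat_lit 85940890911) (nat_lit 9) (nat_lit 5) (nat_lit 11) (nat_lit 5) (nat_lit 10) (nat_lit 4) (nat_lit 360) (nat_lit 308) (nat_lit 232)))))) (XT.nd (nat_lit 468) (nat_lit 152) (nat_lit 0) (XT.nd (nat_lit 234) (nat_lit 76) (nat_lit 0) (XT.nd (nat_lit 78) (nat_lit 0) (nat_lit 0) (XT.lf (nat_lit 0) (nat_lit 12354002687) (nat_lit 76) (nat_lit 15390399459) (nat_lit 152) (nat_lit 103450678597) (nat_lit 8) (nat_lit 5) (nat_lit 9) (nat_lit 5) (nat_lit 10) (nat_lit 4) (nat_lit 361) (nat_lit 308) (nat_lit 231)) (XT.nd (nat_lit 78) (nat_lit 0) (nat_lit 0) (XT.lf (nat_lit 0) (nat_lit 50200113868) (nat_lit 152) (nat_lit 82512416237) (nat_lit 0) (nat_lit 7789782543) (nat_lit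 8) (nat_lit 5) (nat_lit 10) (nat_lit 4) (nat_lit 8) (nat_lit 4) (nat_lit 362) (nat_lit 308) (nat_lit 230)) (XT.lf (nat_lit 0) (nat_lit 74702739799) (nat_lit 152) (nat_lit 43554237660) (nat_lit 0) (nat_lit 32284625247) (nat_lit 8) (nat_lit 5) (nat_lit 10) (nat_lit 4) (nat_lit 8) (nat_lit 4) (nat_lit 363) (nat_lit 308) (nat_lit 229)))) (XT.nd (nat_lit 78) (nat_lit 76) (nat_lit 0) (XT.lf (nat_lit 0) (nat_lit 101157193417) (nat_lit 152) (nat_lit 1495391778) (nat_lit 0) (nat_lit 58731872175) (nat_lit 8) (nat_lit 5) (nat_lit 10) (nat_lit 4) (nat_lit 8) (nat_lit 4) (nat_lit 364) (nat_lit 308) (nat_lit 228)) (XT.nd (nat_lit 78) (nat_lit 0) (nat_lit 0) (XT.lf (nat_lit 0) (nat_lit 45365332980) (nat_lit 76) (nat_lit 85063188859) (nat_lit 76) (nat_lit 42631194755) (nat_lit 7) (nat_lit 4) (nat_lit 8) (nat_lit 5) (nat_lit 8) (nat_lit 4) (nat_lit 365) (nat_lit 308) (nat_lit 227)) (XT.lf (nat_lit 0) (nat_lit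 96014156228) (nat_lit 76) (nat_lit 66046041453) (nat_lit 76) (nat_lit 23607868774) (nat_lit 7) (nat_lit 4) (nat_lit 8) (nat_lit 5) (nat_lit 8) (nat_lit 4) (nat_lit 366) (nat_lit 308) (nat_lit 226))))) (XT.nd (nat_lit 234) (nat_lit 0) (nat_lit 0) (XT.nd (nat_lit 78) (nat_lit 152) (nat_lit 0) (XT.lf (nat_lit 0) (nat_lit 150701774734) (nat_lit 76) (nat_lit 45513773955) (nat_lit 76) (nat_lit 3069880373) (nat_lit 7) (nat_lit 4) (nat_lit 8) (nat_lit 5) (nat_lit 8) (nat_lit 4) (nat_lit 367) (nat_lit 308) (nat_lit 225)) (XT.nd (nat_lit 78) (nat_lit 76) (nat_lit 0) (XT.lf (nat_lit 0) (nat_lit 18493014470) (nat_lit 152) (nat_lit 4538511049) (nat_lit 76) (nat_lit 190946060654) (nat_lit 6) (nat_lit 5) (nat_lit 8) (nat_lit 5) (nat_lit 7) (nat_lit 4) (nat_lit 368) (nat_lit 308) (nat_lit 224)) (XT.lf (nat_lit 0) (nat_lit 42393492980) (nat_lit 152) (nat_lit 185452081666) (nat_lit 0) (nat_lit 1961021106)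 (nat_lit 5) (nat_lit 5) (nat_lit 7) (nat_lit 4) (nat_lit 5) (nat_lit 4) (nat_lit 369) (nat_lit 308) (nat_lit 223)))) (XT.nd (nat_lit 78) (nat_lit 0) (nat_lit 0) (XT.lf (nat_lit 0) (nat_lit 68668929273) (nat_lit 152) (nat_lit 149977719997) (nat_lit 0) (nat_lit 28232132221) (nat_lit 5) (nat_lit 5) (nat_lit 7) (nat_lit 4) (nat_lit 5) (nat_lit 4) (nat_lit 370) (nat_lit 308) (nat_lit 222)) (XT.nd (nat_lit 78) (nat_lit 0) (nat_lit 0) (XT.lf (nat_lit 0) (nat_lit 97041041159) (nat_lit 152) (nat_lit 111675730851) (nat_lit 0) (nat_lit 56600239312) (nat_lit 5) (nat_lit 5) (nat_lit 7) (nat_lit 4) (nat_lit 5) (nat_lit 4) (nat_lit 371) (nat_lit 308) (nat_lit 221)) (XT.lf (nat_lit 0) (nat_lit 127677959671) (nat_lit 152) (nat_lit 70319139478) (nat_lit 0) (nat_lit 87233449681) (nat_lit 5) (nat_lit 5) (nat_lit 7) (nat_lit 4) (nat_lit 5) (nat_lit 4) (nat_lit 372) (nat_lit 308) (nat_lit 220))))))))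
noncomputable def xc64 : XT := (XT.nd (nat_lit 42198) (nat_lit 0) (nat_lit 2584) (XT.nd (nat_lit 858) (nat_lit 0) (nat_lit 0) (XT.nd (nat_lit 390) (nat_lit 152) (nat_lit 0) (XT.nd (nat_lit 156) (nat_lit 0) (nat_lit 0) (XT.nd (nat_lit 78) (nat_lit 76) (nat_lit 0) (XT.lf (nat_lit 0) (nat_lit 160761236919) (nat_lit 152) (nat_lit 25662869780) (nat_lit 0) (nat_lit 120313293463) (nat_lit 5) (nat_lit 5) (nat_lit 7) (nat_lit 4) (nat_lit 5) (nat_lit 4) (nat_lit 373) (nat_lit 308) (nat_lit 219)) (XT.lf (nat_lit 0) (nat_lit 23303567687) (nat_lit 76) (nat_lit 173547188267) (nat_lit 76) (nat_lit 133096065675) (nat_lit 4) (nat_lit 4) (nat_lit 5) (nat_lit 5) (nat_lit 5) (nat_lit 4) (nat_lit 374) (nat_lit 308) (nat_lit 218))) (XT.nd (nat_lit 78) (nat_lit 0) (nat_lit 0) (XT.lf (nat_lit 0) (nat_lit 77095895529) (nat_lit 76) (nat_lit 159174510000) (nat_lit 76) (nat_lit 118720443764) (nat_lit 4) (nat_lit 4)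 (nat_lit 5) (nat_lit 5) (nat_lit 5) (nat_lit 4) (nat_lit 375) (nat_lit 308) (nat_lit 217)) (XT.nd (nat_lit 78) (nat_lit 0) (nat_lit 0) (XT.lf (nat_lit 0) (nat_lit 135184352724) (nat_lit 76) (nat_lit 143655513590) (nat_lit 76) (nat_lit 103198721758) (nat_lit 4) (nat_lit 4) (nat_lit 5) (nat_lit 5) (nat_lit 5) (nat_lit 4) (nat_lit 376) (nat_lit 308) (nat_lit 216)) (XT.lf (nat_lit 0) (nat_lit 197913167165) (nat_lit 76) (nat_lit 126898234613) (nat_lit 76) (nat_lit 86438919082) (nat_lit 4) (nat_lit 4) (nat_lit 5) (nat_lit 5) (nat_lit 5) (nat_lit 4) (nat_lit 377) (nat_lit 308) (nat_lit 215))))) (XT.nd (nat_lit 234) (nat_lit 152) (nat_lit 0) (XT.nd (nat_lit 78) (nat_lit 0) (nat_lit 0) (XT.lf (nat_lit 0) (nat_lit 265654065161) (nat_lit 76) (nat_lit 108803370677) (nat_lit 76) (nat_lit 68341718386) (nat_lit 4) (nat_lit 4) (nat_lit 5) (nat_lit 5) (nat_lit 5) (nat_lit 4) (nat_lit 378) (nat_lit 308)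 (nat_lit 214)) (XT.nd (nat_lit 78) (nat_lit 0) (nat_lit 0) (XT.lf (nat_lit 0) (nat_lit 338808474254) (nat_lit 76) (nat_lit 89263692958) (nat_lit 76) (nat_lit 48799877001) (nat_lit 4) (nat_lit 4) (nat_lit 5) (nat_lit 5) (nat_lit 5) (nat_lit 4) (nat_lit 379) (nat_lit 308) (nat_lit 213)) (XT.lf (nat_lit 0) (nat_lit 417809902056) (nat_lit 76) (nat_lit 68163410772) (nat_lit 76) (nat_lit 27697591420) (nat_lit 4) (nat_lit 4) (nat_lit 5) (nat_lit 5) (nat_lit 5) (nat_lit 4) (nat_lit 380) (nat_lit 308) (nat_lit 212)))) (XT.nd (nat_lit 78) (nat_lit 152) (nat_lit 0) (XT.lf (nat_lit 0) (nat_lit 503126505174) (nat_lit 76) (nat_lit 45377485411) (nat_lit 76) (nat_lit 4909811064) (nat_lit 4) (nat_lit 4) (nat_lit 5) (nat_lit 5) (nat_lit 5) (nat_lit 4) (nat_lit 381) (nat_lit 308) (nat_lit 211)) (XT.nd (nat_lit 78) (nat_lit 76) (nat_lit 0) (XT.lf (nat_lit 0) (nat_lit 19068027657) (nat_lit 152) (nat_lit 1379935235)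 (nat_lit 76) (nat_lit 575872909547) (nat_lit 3) (nat_lit 5) (nat_lit 5) (nat_lit 5) (nat_lit 4) (nat_lit 4) (nat_lit 382) (nat_lit 308) (nat_lit 210)) (XT.lf (nat_lit 0) (nat_lit 45736429609) (nat_lit 152) (nat_lit 589680200780) (nat_lit 0) (nat_lit 7192636949) (nat_lit 2) (nat_lit 5) (nat_lit 4) (nat_lit 4) (nat_lit 2) (nat_lit 4) (nat_lit 383) (nat_lit 308) (nat_lit 209)))))) (XT.nd (nat_lit 390) (nat_lit 0) (nat_lit 0) (XT.nd (nat_lit 156) (nat_lit 0) (nat_lit 0) (XT.nd (nat_lit 78) (nat_lit 0) (nat_lit 0) (XT.lf (nat_lit 0) (nat_lit 74905364348) (nat_lit 152) (nat_lit 581316847639) (nat_lit 0) (nat_lit 36360169255) (nat_lit 2) (nat_lit 5) (nat_lit 4) (nat_lit 4) (nat_lit 2) (nat_lit 4) (nat_lit 384) (nat_lit 308) (nat_lit 208)) (XT.lf (nat_lit 0) (nat_lit 106405812926) (nat_lit 152) (nat_lit 572288312507) (nat_lit 0) (nat_lit 67859319283) (nat_lit 2) (nat_lit 5) (nat_lit 4) (nat_lit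 4) (nat_lit 2) (nat_lit 4) (nat_lit 385) (nat_lit 308) (nat_lit 207))) (XT.nd (nat_lit 78) (nat_lit 0) (nat_lit 0) (XT.lf (nat_lit 0) (nat_lit 140424444666) (nat_lit 152) (nat_lit 562541092954) (nat_lit 0) (nat_lit 101876748663) (nat_lit 2) (nat_lit 5) (nat_lit 4) (nat_lit 4) (nat_lit 2) (nat_lit 4) (nat_lit 386) (nat_lit 308) (nat_lit 206)) (XT.nd (nat_lit 78) (nat_lit 0) (nat_lit 0) (XT.lf (nat_lit 0) (nat_lit 177162851462) (nat_lit 152) (nat_lit 552017427680) (nat_lit 0) (nat_lit 138614042162) (nat_lit 2) (nat_lit 5) (nat_lit 4) (nat_lit 4) (nat_lit 2) (nat_lit 4) (nat_lit 387) (nat_lit 308) (nat_lit 205)) (XT.lf (nat_lit 0) (nat_lit 216838742390) (nat_lit 152) (nat_lit 540654954223) (nat_lit 0) (nat_lit 178288902260) (nat_lit 2) (nat_lit 5) (nat_lit 4) (nat_lit 4) (nat_lit 2) (nat_lit 4) (nat_lit 388) (nat_lit 308) (nat_lit 204))))) (XT.nd (nat_lit 40716) (nat_lit 0) (nat_lit 8132)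 (XT.nd (nat_lit 78) (nat_lit 0) (nat_lit 0) (XT.lf (nat_lit 0) (nat_lit 259687233840) (nat_lit 152) (nat_lit 528386339409) (nat_lit 0) (nat_lit 221136439238) (nat_lit 2) (nat_lit 5) (nat_lit 4) (nat_lit 4) (nat_lit 2) (nat_lit 4) (nat_lit 389) (nat_lit 308) (nat_lit 203)) (XT.nd (nat_lit 40560) (nat_lit 0) (nat_lit 8132) (XT.lf (nat_lit 0) (nat_lit 305962242800) (nat_lit 152) (nat_lit 515138880332) (nat_lit 0) (nat_lit 267410564427) (nat_lit 2) (nat_lit 5) (nat_lit 4) (nat_lit 4) (nat_lit 2) (nat_lit 4) (nat_lit 390) (nat_lit 308) (nat_lit 202)) (XT.lf (nat_lit 0) (nat_lit 1990624128) (nat_lit 684) (nat_lit 1207017517) (nat_lit 684) (nat_lit 1207017517) (nat_lit 109) (nat_lit 3) (nat_lit 118) (nat_lit 3) (nat_lit 118) (nat_lit 5) (nat_lit 309) (nat_lit 309) (nat_lit 282)))) (XT.nd (nat_lit 78) (nat_lit 0) (nat_lit 76) (XT.lf (nat_lit 76) (nat_lit 4290461049) (nat_lit 0) (nat_lit 1324889624)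 (nat_lit 684) (nat_lit 3470245109) (nat_lit 110) (nat_lit 5) (nat_lit 109) (nat_lit 3) (nat_lit 118) (nat_lit 5) (nat_lit 310) (nat_lit 309) (nat_lit 281)) (XT.nd (nat_lit 78) (nat_lit 0) (nat_lit 76) (XT.lf (nat_lit 76) (nat_lit 2154220451) (nat_lit 0) (nat_lit 5226119598) (nat_lit 684) (nat_lit 2003862826) (nat_lit 111) (nat_lit 5) (nat_lit 110) (nat_lit 5) (nat_lit 119) (nat_lit 5) (nat_lit 311) (nat_lit 309) (nat_lit 280)) (XT.lf (nat_lit 76) (nat_lit 11339717) (nat_lit 0) (nat_lit 9256307042) (nat_lit 684) (nat_lit 440213809) (nat_lit 112) (nat_lit 5) (nat_lit 111) (nat_lit 5) (nat_lit 120) (nat_lit 5) (nat_lit 312) (nat_lit 309) (nat_lit 279))))))) (XT.nd (nat_lit 858) (nat_lit 2356) (nat_lit 0) (XT.nd (nat_lit 390) (nat_lit 1444) (nat_lit 0) (XT.nd (nat_lit 156) (nat_lit 1216) (nat_lit 0) (XT.nd (nat_lit 78) (nat_lit 0) (nat_lit 76) (XT.lf (nat_lit 0) (nat_lit 1299814020) (nat_lit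 684) (nat_lit 2159896824) (nat_lit 760) (nat_lit 6592355195) (nat_lit 102) (nat_lit 5) (nat_lit 111) (nat_lit 5) (nat_lit 112) (nat_lit 5) (nat_lit 313) (nat_lit 309) (nat_lit 278)) (XT.lf (nat_lit 0) (nat_lit 3189110014) (nat_lit 684) (nat_lit 4386235374) (nat_lit 760) (nat_lit 2847005237) (nat_lit 103) (nat_lit 5) (nat_lit 112) (nat_lit 5) (nat_lit 113) (nat_lit 5) (nat_lit 314) (nat_lit 309) (nat_lit 277))) (XT.nd (nat_lit 78) (nat_lit 1292) (nat_lit 0) (XT.lf (nat_lit 76) (nat_lit 4132797018) (nat_lit 0) (nat_lit 1150012564) (nat_lit 760) (nat_lit 5536950173) (nat_lit 104) (nat_lit 5) (nat_lit 103) (nat_lit 5) (nat_lit 113) (nat_lit 5) (nat_lit 315) (nat_lit 309) (nat_lit 276)) (XT.nd (nat_lit 78) (nat_lit 684) (nat_lit 0) (XT.lf (nat_lit 0) (nat_lit 2134617868) (nat_lit 684) (nat_lit 5509943794) (nat_lit 760) (nat_lit 3599524692) (nat_lit 95) (nat_lit 5) (nat_lit 104) (nat_lit 5) (nat_lit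 105) (nat_lit 5) (nat_lit 316) (nat_lit 309) (nat_lit 275)) (XT.lf (nat_lit 0) (nat_lit 75126308) (nat_lit 684) (nat_lit 10186592623) (nat_lit 760) (nat_lit 1437458165) (nat_lit 86) (nat_lit 5) (nat_lit 95) (nat_lit 5) (nat_lit 96) (nat_lit 5) (nat_lit 317) (nat_lit 309) (nat_lit 274))))) (XT.nd (nat_lit 234) (nat_lit 684) (nat_lit 0) (XT.nd (nat_lit 78) (nat_lit 684) (nat_lit 0) (XT.lf (nat_lit 0) (nat_lit 1032667524) (nat_lit 760) (nat_lit 2059940315) (nat_lit 76) (nat_lit 9089300058) (nat_lit 85) (nat_lit 5) (nat_lit 95) (nat_lit 5) (nat_lit 86) (nat_lit 5) (nat_lit 318) (nat_lit 309) (nat_lit 273)) (XT.nd (nat_lit 78) (nat_lit 304) (nat_lit 0) (XT.lf (nat_lit 0) (nat_lit 3772650641) (nat_lit 456) (nat_lit 4339672399) (nat_lit 76) (nat_lit 4583740776) (nat_lit 80) (nat_lit 5) (nat_lit 86) (nat_lit 5) (nat_lit 81) (nat_lit 5) (nat_lit 319) (nat_lit 309) (nat_lit 272)) (XT.lf (nat_lit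 0) (nat_lit 6503939258) (nat_lit 304) (nat_lit 339389365) (nat_lit 380) (nat_lit 6402555578) (nat_lit 76) (nat_lit 5) (nat_lit 80) (nat_lit 5) (nat_lit 81) (nat_lit 5) (nat_lit 320) (nat_lit 309) (nat_lit 271)))) (XT.nd (nat_lit 78) (nat_lit 380) (nat_lit 0) (XT.lf (nat_lit 0) (nat_lit 4468386490) (nat_lit 304) (nat_lit 5889520778) (nat_lit 380) (nat_lit 3471969516) (nat_lit 72) (nat_lit 5) (nat_lit 76) (nat_lit 5) (nat_lit 77) (nat_lit 5) (nat_lit 321) (nat_lit 309) (nat_lit 270)) (XT.nd (nat_lit 78) (nat_lit 76) (nat_lit 0) (XT.lf (nat_lit 0) (nat_lit 2308660207) (nat_lit 304) (nat_lit 11973686649) (nat_lit 380) (nat_lit 171898748) (nat_lit 68) (nat_lit 5) (nat_lit 72) (nat_lit 5) (nat_lit 73) (nat_lit 5) (nat_lit 322) (nat_lit 309) (nat_lit 269)) (XT.lf (nat_lit 0) (nat_lit 3481481307) (nat_lit 380) (nat_lit 109012996) (nat_lit 76) (nat_lit 11525608578) (nat_lit 67) (nat_lit 5) (nat_lit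 72) (nat_lit 5) (nat_lit 68) (nat_lit 5) (nat_lit 323) (nat_lit 309) (nat_lit 268)))))) (XT.nd (nat_lit 468) (nat_lit 988) (nat_lit 0) (XT.nd (nat_lit 234) (nat_lit 456) (nat_lit 0) (XT.nd (nat_lit 78) (nat_lit 608) (nat_lit 0) (XT.lf (nat_lit 0) (nat_lit 7654194724) (nat_lit 380) (nat_lit 2675335111) (nat_lit 76) (nat_lit 5489658495) (nat_lit 63) (nat_lit 5) (nat_lit 68) (nat_lit 5) (nat_lit 64) (nat_lit 5) (nat_lit 324) (nat_lit 309) (nat_lit 267)) (XT.nd (nat_lit 78) (nat_lit 380) (nat_lit 0) (XT.lf (nat_lit 0) (nat_lit 11103215039) (nat_lit 228) (nat_lit 1234434140) (nat_lit 304) (nat_lit 4232094463) (nat_lit 60) (nat_lit 5) (nat_lit 63) (nat_lit 5) (nat_lit 64) (nat_lit 5) (nat_lit 325) (nat_lit 309) (nat_lit 266)) (XT.lf (nat_lit 0) (nat_lit 281748293) (nat_lit 380) (nat_lit 8597669067) (nat_lit 76) (nat_lit 8487634727) (nat_lit 55) (nat_lit 5) (nat_lit 60) (nat_lit 5) (nat_lit 56)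 (nat_lit 5) (nat_lit 326) (nat_lit 309) (nat_lit 265)))) (XT.nd (nat_lit 78) (nat_lit 228) (nat_lit 0) (XT.lf (nat_lit 0) (nat_lit 5185469156) (nat_lit 304) (nat_lit 12084934942) (nat_lit 76) (nat_lit 945476570) (nat_lit 52) (nat_lit 5) (nat_lit 56) (nat_lit 5) (nat_lit 53) (nat_lit 5) (nat_lit 327) (nat_lit 309) (nat_lit 264)) (XT.nd (nat_lit 78) (nat_lit 0) (nat_lit 0) (XT.lf (nat_lit 0) (nat_lit 3095416258) (nat_lit 228) (nat_lit 7685208564) (nat_lit 304) (nat_lit 8337086194) (nat_lit 49) (nat_lit 5) (nat_lit 52) (nat_lit 5) (nat_lit 53) (nat_lit 5) (nat_lit 328) (nat_lit 309) (nat_lit 263)) (XT.lf (nat_lit 0) (nat_lit 17030273147) (nat_lit 304) (nat_lit 274791325) (nat_lit 76) (nat_lit 2776327769) (nat_lit 49) (nat_lit 5) (nat_lit 53) (nat_lit 5) (nat_lit 50) (nat_lit 5) (nat_lit 329) (nat_lit 309) (nat_lit 262))))) (XT.nd (nat_lit 234) (nat_lit 380) (nat_lit 0) (XT.nd (nat_lit 78)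 (nat_lit 380) (nat_lit 0) (XT.lf (nat_lit 0) (nat_lit 2929591832) (nat_lit 228) (nat_lit 4067242042) (nat_lit 76) (nat_lit 14105455583) (nat_lit 46) (nat_lit 5) (nat_lit 49) (nat_lit 5) (nat_lit 47) (nat_lit 5) (nat_lit 330) (nat_lit 309) (nat_lit 261)) (XT.nd (nat_lit 78) (nat_lit 152) (nat_lit 0) (XT.lf (nat_lit 0) (nat_lit 9529852262) (nat_lit 304) (nat_lit 8398840086) (nat_lit 76) (nat_lit 4261305304) (nat_lit 43) (nat_lit 5) (nat_lit 47) (nat_lit 5) (nat_lit 44) (nat_lit 5) (nat_lit 331) (nat_lit 309) (nat_lit 260)) (XT.lf (nat_lit 0) (nat_lit 10000477427) (nat_lit 152) (nat_lit 6962260589) (nat_lit 228) (nat_lit 6386790899) (nat_lit 41) (nat_lit 5) (nat_lit 43) (nat_lit 5) (nat_lit 44) (nat_lit 5) (nat_lit 332) (nat_lit 309) (nat_lit 259)))) (XT.nd (nat_lit 78) (nat_lit 152) (nat_lit 0) (XT.lf (nat_lit 0) (nat_lit 653341724) (nat_lit 228) (nat_lit 18982144559) (nat_lit 76) (nat_lit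 4952198377) (nat_lit 38) (nat_lit 5) (nat_lit 41) (nat_lit 5) (nat_lit 39) (nat_lit 5) (nat_lit 333) (nat_lit 309) (nat_lit 258)) (XT.nd (nat_lit 78) (nat_lit 0) (nat_lit 0) (XT.lf (nat_lit 0) (nat_lit 362299404) (nat_lit 152) (nat_lit 7994678860) (nat_lit 228) (nat_lit 17546506674) (nat_lit 36) (nat_lit 5) (nat_lit 38) (nat_lit 5) (nat_lit 39) (nat_lit 5) (nat_lit 334) (nat_lit 309) (nat_lit 257)) (XT.lf (nat_lit 0) (nat_lit 17047722128) (nat_lit 228) (nat_lit 5511969381) (nat_lit 76) (nat_lit 4746344608) (nat_lit 36) (nat_lit 5) (nat_lit 39) (nat_lit 5) (nat_lit 37) (nat_lit 5) (nat_lit 335) (nat_lit 309) (nat_lit 256))))))))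
noncomputable def xc65 : XT := (XT.nd (nat_lit 1716) (nat_lit 532) (nat_lit 0) (XT.nd (nat_lit 858) (nat_lit 684) (nat_lit 0) (XT.nd (nat_lit 390) (nat_lit 532) (nat_lit 0) (XT.nd (nat_lit 156) (nat_lit 304) (nat_lit 0) (XT.nd (nat_lit 78) (nat_lit 228) (nat_lit 0) (XT.lf (nat_lit 0) (nat_lit 16456669842) (nat_lit 152) (nat_lit 10334788942) (nat_lit 228) (nat_lit 2011471589) (nat_lit 34) (nat_lit 5) (nat_lit 36) (nat_lit 5) (nat_lit 37) (nat_lit 5) (nat_lit 336) (nat_lit 309) (nat_lit 255)) (XT.lf (nat_lit 0) (nat_lit 6947672086) (nat_lit 228) (nat_lit 20327308964) (nat_lit 76) (nat_lit 3125573094) (nat_lit 31) (nat_lit 5) (nat_lit 34) (nat_lit 5) (nat_lit 32) (nat_lit 5) (nat_lit 337) (nat_lit 309) (nat_lit 254))) (XT.nd (nat_lit 78) (nat_lit 152) (nat_lit 0) (XT.lf (nat_lit 0) (nat_lit 2425384445) (nat_lit 152) (nat_lit 14527816016) (nat_lit 228) (nat_lit 15151153280) (nat_lit 29) (nat_lit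 5) (nat_lit 31) (nat_lit 5) (nat_lit 32) (nat_lit 5) (nat_lit 338) (nat_lit 309) (nat_lit 253)) (XT.nd (nat_lit 78) (nat_lit 152) (nat_lit 0) (XT.lf (nat_lit 0) (nat_lit 27673961754) (nat_lit 152) (nat_lit 409313281) (nat_lit 228) (nat_lit 5844996466) (nat_lit 29) (nat_lit 5) (nat_lit 31) (nat_lit 5) (nat_lit 32) (nat_lit 5) (nat_lit 339) (nat_lit 309) (nat_lit 252)) (XT.lf (nat_lit 0) (nat_lit 4585607176) (nat_lit 152) (nat_lit 16561269131) (nat_lit 76) (nat_lit 14722232299) (nat_lit 27) (nat_lit 5) (nat_lit 29) (nat_lit 5) (nat_lit 28) (nat_lit 5) (nat_lit 340) (nat_lit 309) (nat_lit 251))))) (XT.nd (nat_lit 234) (nat_lit 228) (nat_lit 0) (XT.nd (nat_lit 78) (nat_lit 152) (nat_lit 0) (XT.lf (nat_lit 0) (nat_lit 9323239702) (nat_lit 152) (nat_lit 6561430223) (nat_lit 228) (nat_lit 22063828054) (nat_lit 25) (nat_lit 5) (nat_lit 27) (nat_lit 5) (nat_lit 28) (nat_lit 5) (nat_lit 341) (nat_lit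 309) (nat_lit 250)) (XT.nd (nat_lit 78) (nat_lit 152) (nat_lit 0) (XT.lf (nat_lit 0) (nat_lit 28498252473) (nat_lit 228) (nat_lit 2503580025) (nat_lit 76) (nat_lit 9171890926) (nat_lit 25) (nat_lit 5) (nat_lit 28) (nat_lit 5) (nat_lit 26) (nat_lit 4) (nat_lit 342) (nat_lit 309) (nat_lit 249)) (XT.lf (nat_lit 0) (nat_lit 65347605) (nat_lit 152) (nat_lit 16153022356) (nat_lit 76) (nat_lit 26333626048) (nat_lit 23) (nat_lit 5) (nat_lit 25) (nat_lit 5) (nat_lit 24) (nat_lit 5) (nat_lit 343) (nat_lit 309) (nat_lit 248)))) (XT.nd (nat_lit 78) (nat_lit 76) (nat_lit 0) (XT.lf (nat_lit 0) (nat_lit 12564902786) (nat_lit 228) (nat_lit 32348321724) (nat_lit 76) (nat_lit 186321664) (nat_lit 21) (nat_lit 5) (nat_lit 24) (nat_lit 5) (nat_lit 22) (nat_lit 4) (nat_lit 344) (nat_lit 309) (nat_lit 247)) (XT.nd (nat_lit 78) (nat_lit 76) (nat_lit 0) (XT.lf (nat_lit 0) (nat_lit 26601329481) (nat_lit 228) (nat_lit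 3610401452) (nat_lit 76) (nat_lit 17612335147) (nat_lit 21) (nat_lit 5) (nat_lit 24) (nat_lit 5) (nat_lit 22) (nat_lit 4) (nat_lit 345) (nat_lit 309) (nat_lit 246)) (XT.lf (nat_lit 0) (nat_lit 28295025490) (nat_lit 76) (nat_lit 13886527816) (nat_lit 152) (nat_lit 8563960383) (nat_lit 20) (nat_lit 5) (nat_lit 21) (nat_lit 5) (nat_lit 22) (nat_lit 4) (nat_lit 346) (nat_lit 309) (nat_lit 245)))))) (XT.nd (nat_lit 390) (nat_lit 304) (nat_lit 0) (XT.nd (nat_lit 156) (nat_lit 228) (nat_lit 0) (XT.nd (nat_lit 78) (nat_lit 0) (nat_lit 0) (XT.lf (nat_lit 0) (nat_lit 5193678772) (nat_lit 152) (nat_lit 44789786905) (nat_lit 76) (nat_lit 3900751682) (nat_lit 18) (nat_lit 5) (nat_lit 20) (nat_lit 5) (nat_lit 19) (nat_lit 4) (nat_lit 347) (nat_lit 309) (nat_lit 244)) (XT.lf (nat_lit 0) (nat_lit 20368029739) (nat_lit 152) (nat_lit 13710154917) (nat_lit 76) (nat_lit 23158014399) (nat_lit 18) (nat_lit 5)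 (nat_lit 20) (nat_lit 5) (nat_lit 19) (nat_lit 4) (nat_lit 348) (nat_lit 309) (nat_lit 243))) (XT.nd (nat_lit 78) (nat_lit 152) (nat_lit 0) (XT.lf (nat_lit 0) (nat_lit 20478542330) (nat_lit 76) (nat_lit 16579451511) (nat_lit 152) (nat_lit 23783269951) (nat_lit 17) (nat_lit 5) (nat_lit 18) (nat_lit 5) (nat_lit 19) (nat_lit 4) (nat_lit 349) (nat_lit 309) (nat_lit 242)) (XT.nd (nat_lit 78) (nat_lit 152) (nat_lit 0) (XT.lf (nat_lit 0) (nat_lit 55344667379) (nat_lit 152) (nat_lit 6902967037) (nat_lit 0) (nat_lit 2474030861) (nat_lit 17) (nat_lit 5) (nat_lit 19) (nat_lit 4) (nat_lit 17) (nat_lit 4) (nat_lit 350) (nat_lit 309) (nat_lit 241)) (XT.lf (nat_lit 0) (nat_lit 6725820401) (nat_lit 152) (nat_lit 39103712895) (nat_lit 76) (nat_lit 23041051181) (nat_lit 15) (nat_lit 5) (nat_lit 17) (nat_lit 5) (nat_lit 16) (nat_lit 4) (nat_lit 351) (nat_lit 309) (nat_lit 240))))) (XT.nd (nat_lit 234) (nat_lit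 228) (nat_lit 0) (XT.nd (nat_lit 78) (nat_lit 76) (nat_lit 0) (XT.lf (nat_lit 0) (nat_lit 23899301360) (nat_lit 152) (nat_lit 3917528964) (nat_lit 76) (nat_lit 45521358613) (nat_lit 15) (nat_lit 5) (nat_lit 17) (nat_lit 5) (nat_lit 16) (nat_lit 4) (nat_lit 352) (nat_lit 309) (nat_lit 239)) (XT.nd (nat_lit 78) (nat_lit 0) (nat_lit 0) (XT.lf (nat_lit 0) (nat_lit 35182919602) (nat_lit 76) (nat_lit 7798557227) (nat_lit 152) (nat_lit 35154989556) (nat_lit 14) (nat_lit 5) (nat_lit 15) (nat_lit 5) (nat_lit 16) (nat_lit 4) (nat_lit 353) (nat_lit 309) (nat_lit 238)) (XT.lf (nat_lit 0) (nat_lit 63861376504) (nat_lit 152) (nat_lit 6006857575) (nat_lit 0) (nat_lit 13436819470) (nat_lit 14) (nat_lit 5) (nat_lit 16) (nat_lit 4) (nat_lit 14) (nat_lit 4) (nat_lit 354) (nat_lit 309) (nat_lit 237)))) (XT.nd (nat_lit 78) (nat_lit 152) (nat_lit 0) (XT.lf (nat_lit 0) (nat_lit 34855538462) (nat_lit 76) (nat_lit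 52218860358) (nat_lit 76) (nat_lit 1779596988) (nat_lit 13) (nat_lit 4) (nat_lit 14) (nat_lit 5) (nat_lit 14) (nat_lit 4) (nat_lit 355) (nat_lit 309) (nat_lit 236)) (XT.nd (nat_lit 78) (nat_lit 76) (nat_lit 0) (XT.lf (nat_lit 0) (nat_lit 16837761875) (nat_lit 152) (nat_lit 15935468504) (nat_lit 76) (nat_lit 62055434772) (nat_lit 12) (nat_lit 5) (nat_lit 14) (nat_lit 5) (nat_lit 13) (nat_lit 4) (nat_lit 356) (nat_lit 309) (nat_lit 235)) (XT.lf (nat_lit 0) (nat_lit 25951403174) (nat_lit 76) (nat_lit 11325129429) (nat_lit 152) (nat_lit 63983601975) (nat_lit 11) (nat_lit 5) (nat_lit 12) (nat_lit 5) (nat_lit 13) (nat_lit 4) (nat_lit 357) (nat_lit 309) (nat_lit 234))))))) (XT.nd (nat_lit 858) (nat_lit 228) (nat_lit 0) (XT.nd (nat_lit 390) (nat_lit 76) (nat_lit 0) (XT.nd (nat_lit 156) (nat_lit 152) (nat_lit 0) (XT.nd (nat_lit 78) (nat_lit 76) (nat_lit 0) (XT.lf (nat_lit 0) (nat_lit 59806127603)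 (nat_lit 152) (nat_lit 36644572339) (nat_lit 0) (nat_lit 11732639006) (nat_lit 11) (nat_lit 5) (nat_lit 13) (nat_lit 4) (nat_lit 11) (nat_lit 4) (nat_lit 358) (nat_lit 309) (nat_lit 233)) (XT.lf (nat_lit 0) (nat_lit 5064197327) (nat_lit 76) (nat_lit 79333504242) (nat_lit 76) (nat_lit 31249720791) (nat_lit 10) (nat_lit 4) (nat_lit 11) (nat_lit 5) (nat_lit 11) (nat_lit 4) (nat_lit 359) (nat_lit 309) (nat_lit 232))) (XT.nd (nat_lit 78) (nat_lit 152) (nat_lit 0) (XT.lf (nat_lit 0) (nat_lit 51399442508) (nat_lit 76) (nat_lit 60185544695) (nat_lit 76) (nat_lit 12092228972) (nat_lit 10) (nat_lit 4) (nat_lit 11) (nat_lit 5) (nat_lit 11) (nat_lit 4) (nat_lit 360) (nat_lit 309) (nat_lit 231)) (XT.nd (nat_lit 78) (nat_lit 76) (nat_lit 0) (XT.lf (nat_lit 0) (nat_lit 8313320505) (nat_lit 152) (nat_lit 31059834865) (nat_lit 76) (nat_lit 92969996770) (nat_lit 9) (nat_lit 5) (nat_lit 11) (nat_lit 5) (nat_lit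 10) (nat_lit 4) (nat_lit 361) (nat_lit 309) (nat_lit 230)) (XT.lf (nat_lit 0) (nat_lit 13672858891) (nat_lit 76) (nat_lit 16465274366) (nat_lit 152) (nat_lit 111543796921) (nat_lit 8) (nat_lit 5) (nat_lit 9) (nat_lit 5) (nat_lit 10) (nat_lit 4) (nat_lit 362) (nat_lit 309) (nat_lit 229))))) (XT.nd (nat_lit 234) (nat_lit 76) (nat_lit 0) (XT.nd (nat_lit 78) (nat_lit 0) (nat_lit 0) (XT.lf (nat_lit 0) (nat_lit 54379660118) (nat_lit 152) (nat_lit 88801509682) (nat_lit 0) (nat_lit 8553106487) (nat_lit 8) (nat_lit 5) (nat_lit 10) (nat_lit 4) (nat_lit 8) (nat_lit 4) (nat_lit 363) (nat_lit 309) (nat_lit 228)) (XT.nd (nat_lit 78) (nat_lit 0) (nat_lit 0) (XT.lf (nat_lit 0) (nat_lit 80830382261) (nat_lit 152) (nat_lit 46749780512) (nat_lit 0) (nat_lit 34997155768) (nat_lit 8) (nat_lit 5) (nat_lit 10) (nat_lit 4) (nat_lit 8) (nat_lit 4) (nat_lit 364) (nat_lit 309) (nat_lit 227)) (XT.lf (nat_lit 0) (nat_lit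 109389975629) (nat_lit 152) (nat_lit 1347619268) (nat_lit 0) (nat_lit 63550570561) (nat_lit 8) (nat_lit 5) (nat_lit 10) (nat_lit 4) (nat_lit 8) (nat_lit 4) (nat_lit 365) (nat_lit 309) (nat_lit 226)))) (XT.nd (nat_lit 78) (nat_lit 0) (nat_lit 0) (XT.lf (nat_lit 0) (nat_lit 49250342426) (nat_lit 76) (nat_lit 91746275701) (nat_lit 76) (nat_lit 45901149729) (nat_lit 7) (nat_lit 4) (nat_lit 8) (nat_lit 5) (nat_lit 8) (nat_lit 4) (nat_lit 366) (nat_lit 309) (nat_lit 225)) (XT.nd (nat_lit 78) (nat_lit 0) (nat_lit 0) (XT.lf (nat_lit 0) (nat_lit 103932124659) (nat_lit 76) (nat_lit 71216791189) (nat_lit 76) (nat_lit 25366368085) (nat_lit 7) (nat_lit 4) (nat_lit 8) (nat_lit 5) (nat_lit 8) (nat_lit 4) (nat_lit 367) (nat_lit 309) (nat_lit 224)) (XT.lf (nat_lit 0) (nat_lit 162977209243) (nat_lit 76) (nat_lit 49050307742) (nat_lit 76) (nat_lit 3194979885) (nat_lit 7) (nat_lit 4) (nat_lit 8) (nat_lit 5)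 (nat_lit 8) (nat_lit 4) (nat_lit 368) (nat_lit 309) (nat_lit 223)))))) (XT.nd (nat_lit 468) (nat_lit 76) (nat_lit 0) (XT.nd (nat_lit 234) (nat_lit 0) (nat_lit 0) (XT.nd (nat_lit 78) (nat_lit 76) (nat_lit 0) (XT.lf (nat_lit 0) (nat_lit 20080450494) (nat_lit 152) (nat_lit 4694945779) (nat_lit 76) (nat_lit 206314970334) (nat_lit 6) (nat_lit 5) (nat_lit 8) (nat_lit 5) (nat_lit 7) (nat_lit 4) (nat_lit 369) (nat_lit 309) (nat_lit 222)) (XT.nd (nat_lit 78) (nat_lit 0) (nat_lit 0) (XT.lf (nat_lit 0) (nat_lit 45889530503) (nat_lit 152) (nat_lit 200086880554) (nat_lit 0) (nat_lit 2209459713) (nat_lit 5) (nat_lit 5) (nat_lit 7) (nat_lit 4) (nat_lit 5) (nat_lit 4) (nat_lit 370) (nat_lit 309) (nat_lit 221)) (XT.lf (nat_lit 0) (nat_lit 74259256656) (nat_lit 152) (nat_lit 161789486073) (nat_lit 0) (nat_lit 30575477723) (nat_lit 5) (nat_lit 5) (nat_lit 7) (nat_lit 4) (nat_lit 5) (nat_lit 4) (nat_lit 371)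 (nat_lit 309) (nat_lit 220)))) (XT.nd (nat_lit 78) (nat_lit 0) (nat_lit 0) (XT.lf (nat_lit 0) (nat_lit 104893966156) (nat_lit 152) (nat_lit 120437149020) (nat_lit 0) (nat_lit 61206753757) (nat_lit 5) (nat_lit 5) (nat_lit 7) (nat_lit 4) (nat_lit 5) (nat_lit 4) (nat_lit 372) (nat_lit 309) (nat_lit 219)) (XT.nd (nat_lit 78) (nat_lit 0) (nat_lit 0) (XT.lf (nat_lit 0) (nat_lit 137975198023) (nat_lit 152) (nat_lit 75784818507) (nat_lit 0) (nat_lit 94284806489) (nat_lit 5) (nat_lit 5) (nat_lit 7) (nat_lit 4) (nat_lit 5) (nat_lit 4) (nat_lit 373) (nat_lit 309) (nat_lit 218)) (XT.lf (nat_lit 0) (nat_lit 173698989187) (nat_lit 152) (nat_lit 27567888132) (nat_lit 0) (nat_lit 130005654009) (nat_lit 5) (nat_lit 5) (nat_lit 7) (nat_lit 4) (nat_lit 5) (nat_lit 4) (nat_lit 374) (nat_lit 309) (nat_lit 217))))) (XT.nd (nat_lit 234) (nat_lit 0) (nat_lit 0) (XT.nd (nat_lit 78) (nat_lit 0) (nat_lit 0) (XT.lf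 (nat_lit 0) (nat_lit 25309431945) (nat_lit 76) (nat_lit 187362755403) (nat_lit 76) (nat_lit 143666694629) (nat_lit 4) (nat_lit 4) (nat_lit 5) (nat_lit 5) (nat_lit 5) (nat_lit 4) (nat_lit 375) (nat_lit 309) (nat_lit 216)) (XT.nd (nat_lit 78) (nat_lit 0) (nat_lit 0) (XT.lf (nat_lit 0) (nat_lit 83394658693) (nat_lit 76) (nat_lit 171845315314) (nat_lit 76) (nat_lit 128146730839) (nat_lit 4) (nat_lit 4) (nat_lit 5) (nat_lit 5) (nat_lit 5) (nat_lit 4) (nat_lit 376) (nat_lit 309) (nat_lit 215)) (XT.lf (nat_lit 0) (nat_lit 146120481980) (nat_lit 76) (nat_lit 155089477375) (nat_lit 76) (nat_lit 111388556141) (nat_lit 4) (nat_lit 4) (nat_lit 5) (nat_lit 5) (nat_lit 5) (nat_lit 4) (nat_lit 377) (nat_lit 309) (nat_lit 214)))) (XT.nd (nat_lit 78) (nat_lit 0) (nat_lit 0) (XT.lf (nat_lit 0) (nat_lit 213858610388) (nat_lit 76) (nat_lit 136995947733) (nat_lit 76) (nat_lit 93292862833) (nat_lit 4) (nat_lit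 4) (nat_lit 5) (nat_lit 5) (nat_lit 5) (nat_lit 4) (nat_lit 378) (nat_lit 309) (nat_lit 213)) (XT.nd (nat_lit 78) (nat_lit 0) (nat_lit 0) (XT.lf (nat_lit 0) (nat_lit 287010455050) (nat_lit 76) (nat_lit 117457505470) (nat_lit 76) (nat_lit 73752417176) (nat_lit 4) (nat_lit 4) (nat_lit 5) (nat_lit 5) (nat_lit 5) (nat_lit 4) (nat_lit 379) (nat_lit 309) (nat_lit 212)) (XT.lf (nat_lit 0) (nat_lit 366009508377) (nat_lit 76) (nat_lit 96358367227) (nat_lit 76) (nat_lit 52651423938) (nat_lit 4) (nat_lit 4) (nat_lit 5) (nat_lit 5) (nat_lit 5) (nat_lit 4) (nat_lit 380) (nat_lit 309) (nat_lit 211))))))))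
noncomputable def xc66 : XT := (XT.nd (nat_lit 42276) (nat_lit 0) (nat_lit 1596) (XT.nd (nat_lit 41418) (nat_lit 0) (nat_lit 5624) (XT.nd (nat_lit 390) (nat_lit 0) (nat_lit 0) (XT.nd (nat_lit 156) (nat_lit 152) (nat_lit 0) (XT.nd (nat_lit 78) (nat_lit 0) (nat_lit 0) (XT.lf (nat_lit 0) (nat_lit 451323912907) (nat_lit 76) (nat_lit 73573501071) (nat_lit 76) (nat_lit 29864840194) (nat_lit 4) (nat_lit 4) (nat_lit 5) (nat_lit 5) (nat_lit 5) (nat_lit 4) (nat_lit 381) (nat_lit 309) (nat_lit 210)) (XT.lf (nat_lit 0) (nat_lit 543459235483) (nat_lit 76) (nat_lit 48967885574) (nat_lit 76) (nat_lit 5257634338) (nat_lit 4) (nat_lit 4) (nat_lit 5) (nat_lit 5) (nat_lit 5) (nat_lit 4) (nat_lit 382) (nat_lit 309) (nat_lit 209))) (XT.nd (nat_lit 78) (nat_lit 76) (nat_lit 0) (XT.lf (nat_lit 0) (nat_lit 20633768535) (nat_lit 152) (nat_lit 1412498292) (nat_lit 76) (nat_lit 621978251812) (nat_lit 3) (nat_lit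 5) (nat_lit 5) (nat_lit 5) (nat_lit 4) (nat_lit 4) (nat_lit 383) (nat_lit 309) (nat_lit 208)) (XT.nd (nat_lit 78) (nat_lit 0) (nat_lit 0) (XT.lf (nat_lit 0) (nat_lit 49434381564) (nat_lit 152) (nat_lit 636778797381) (nat_lit 0) (nat_lit 7802869881) (nat_lit 2) (nat_lit 5) (nat_lit 4) (nat_lit 4) (nat_lit 2) (nat_lit 4) (nat_lit 384) (nat_lit 309) (nat_lit 207)) (XT.lf (nat_lit 0) (nat_lit 80933939409) (nat_lit 152) (nat_lit 627751992244) (nat_lit 0) (nat_lit 39301225365) (nat_lit 2) (nat_lit 5) (nat_lit 4) (nat_lit 4) (nat_lit 2) (nat_lit 4) (nat_lit 385) (nat_lit 309) (nat_lit 206))))) (XT.nd (nat_lit 234) (nat_lit 0) (nat_lit 0) (XT.nd (nat_lit 78) (nat_lit 0) (nat_lit 0) (XT.lf (nat_lit 0) (nat_lit 114951746398) (nat_lit 152) (nat_lit 618006374539) (nat_lit 0) (nat_lit 73317919057) (nat_lit 2) (nat_lit 5) (nat_lit 4) (nat_lit 4) (nat_lit 2) (nat_lit 4) (nat_lit 386) (nat_lit 309) (nat_lit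 205)) (XT.nd (nat_lit 78) (nat_lit 0) (nat_lit 0) (XT.lf (nat_lit 0) (nat_lit 151689389534) (nat_lit 152) (nat_lit 607484192457) (nat_lit 0) (nat_lit 110054531363) (nat_lit 2) (nat_lit 5) (nat_lit 4) (nat_lit 4) (nat_lit 2) (nat_lit 4) (nat_lit 387) (nat_lit 309) (nat_lit 204)) (XT.lf (nat_lit 0) (nat_lit 191364573370) (nat_lit 152) (nat_lit 596123092326) (nat_lit 0) (nat_lit 149728760727) (nat_lit 2) (nat_lit 5) (nat_lit 4) (nat_lit 4) (nat_lit 2) (nat_lit 4) (nat_lit 388) (nat_lit 309) (nat_lit 203)))) (XT.nd (nat_lit 78) (nat_lit 0) (nat_lit 0) (XT.lf (nat_lit 0) (nat_lit 234212410106) (nat_lit 152) (nat_lit 583855749109) (nat_lit 0) (nat_lit 192575713692) (nat_lit 2) (nat_lit 5) (nat_lit 4) (nat_lit 4) (nat_lit 2) (nat_lit 4) (nat_lit 389) (nat_lit 309) (nat_lit 202)) (XT.nd (nat_lit 40638) (nat_lit 0) (nat_lit 8132) (XT.lf (nat_lit 0) (nat_lit 280486812849) (nat_lit 152) (nat_lit 570609467439)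 (nat_lit 0) (nat_lit 238849298129) (nat_lit 2) (nat_lit 5) (nat_lit 4) (nat_lit 4) (nat_lit 2) (nat_lit 4) (nat_lit 390) (nat_lit 309) (nat_lit 201)) (XT.lf (nat_lit 0) (nat_lit 3523881204) (nat_lit 684) (nat_lit 581077131) (nat_lit 684) (nat_lit 581077131) (nat_lit 109) (nat_lit 3) (nat_lit 118) (nat_lit 3) (nat_lit 118) (nat_lit 5) (nat_lit 310) (nat_lit 310) (nat_lit 280)))))) (XT.nd (nat_lit 390) (nat_lit 1900) (nat_lit 0) (XT.nd (nat_lit 156) (nat_lit 0) (nat_lit 0) (XT.nd (nat_lit 78) (nat_lit 608) (nat_lit 0) (XT.lf (nat_lit 76) (nat_lit 6015903414) (nat_lit 0) (nat_lit 2614713093) (nat_lit 684) (nat_lit 1049273064) (nat_lit 110) (nat_lit 5) (nat_lit 109) (nat_lit 3) (nat_lit 118) (nat_lit 5) (nat_lit 311) (nat_lit 310) (nat_lit 279)) (XT.lf (nat_lit 0) (nat_lit 329696132) (nat_lit 684) (nat_lit 6224064974) (nat_lit 760) (nat_lit 3457887843) (nat_lit 101) (nat_lit 5) (nat_lit 110)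 (nat_lit 5) (nat_lit 111) (nat_lit 5) (nat_lit 312) (nat_lit 310) (nat_lit 278))) (XT.nd (nat_lit 78) (nat_lit 0) (nat_lit 76) (XT.lf (nat_lit 76) (nat_lit 1511317426) (nat_lit 0) (nat_lit 288879290) (nat_lit 760) (nat_lit 8568171494) (nat_lit 102) (nat_lit 5) (nat_lit 101) (nat_lit 5) (nat_lit 111) (nat_lit 5) (nat_lit 313) (nat_lit 310) (nat_lit 277)) (XT.nd (nat_lit 78) (nat_lit 0) (nat_lit 76) (XT.lf (nat_lit 0) (nat_lit 3492596046) (nat_lit 684) (nat_lit 839837512) (nat_lit 760) (nat_lit 6416143287) (nat_lit 102) (nat_lit 5) (nat_lit 111) (nat_lit 5) (nat_lit 112) (nat_lit 5) (nat_lit 314) (nat_lit 310) (nat_lit 276)) (XT.lf (nat_lit 0) (nat_lit 5392355008) (nat_lit 684) (nat_lit 3200116145) (nat_lit 760) (nat_lit 2563285203) (nat_lit 103) (nat_lit 5) (nat_lit 112) (nat_lit 5) (nat_lit 113) (nat_lit 5) (nat_lit 315) (nat_lit 310) (nat_lit 275))))) (XT.nd (nat_lit 234) (nat_lit 684)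 (nat_lit 0) (XT.nd (nat_lit 78) (nat_lit 1368) (nat_lit 0) (XT.lf (nat_lit 76) (nat_lit 5933641907) (nat_lit 0) (nat_lit 1598558004) (nat_lit 760) (nat_lit 4059046319) (nat_lit 104) (nat_lit 5) (nat_lit 103) (nat_lit 5) (nat_lit 113) (nat_lit 5) (nat_lit 316) (nat_lit 310) (nat_lit 274)) (XT.nd (nat_lit 78) (nat_lit 760) (nat_lit 0) (XT.lf (nat_lit 0) (nat_lit 3807044226) (nat_lit 684) (nat_lit 6158822724) (nat_lit 760) (nat_lit 2089707418) (nat_lit 95) (nat_lit 5) (nat_lit 104) (nat_lit 5) (nat_lit 105) (nat_lit 5) (nat_lit 317) (nat_lit 310) (nat_lit 273)) (XT.lf (nat_lit 0) (nat_lit 129687975) (nat_lit 760) (nat_lit 10949792870) (nat_lit 76) (nat_lit 1472969267) (nat_lit 85) (nat_lit 5) (nat_lit 95) (nat_lit 5) (nat_lit 86) (nat_lit 5) (nat_lit 318) (nat_lit 310) (nat_lit 272)))) (XT.nd (nat_lit 78) (nat_lit 684) (nat_lit 0) (XT.lf (nat_lit 0) (nat_lit 2626812911) (nat_lit 760) (nat_lit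 761824604) (nat_lit 76) (nat_lit 9690162772) (nat_lit 85) (nat_lit 5) (nat_lit 95) (nat_lit 5) (nat_lit 86) (nat_lit 5) (nat_lit 319) (nat_lit 310) (nat_lit 271)) (XT.nd (nat_lit 78) (nat_lit 304) (nat_lit 0) (XT.lf (nat_lit 0) (nat_lit 5495532157) (nat_lit 456) (nat_lit 3214166850) (nat_lit 76) (nat_lit 4929067144) (nat_lit 80) (nat_lit 5) (nat_lit 86) (nat_lit 5) (nat_lit 81) (nat_lit 5) (nat_lit 320) (nat_lit 310) (nat_lit 270)) (XT.lf (nat_lit 0) (nat_lit 8432932890) (nat_lit 304) (nat_lit 295660501) (nat_lit 380) (nat_lit 5508285234) (nat_lit 76) (nat_lit 5) (nat_lit 80) (nat_lit 5) (nat_lit 81) (nat_lit 5) (nat_lit 321) (nat_lit 310) (nat_lit 269))))))) (XT.nd (nat_lit 858) (nat_lit 1520) (nat_lit 0) (XT.nd (nat_lit 390) (nat_lit 1292) (nat_lit 0) (XT.nd (nat_lit 156) (nat_lit 532) (nat_lit 0) (XT.nd (nat_lit 78) (nat_lit 380) (nat_lit 0) (XT.lf (nat_lit 0) (nat_lit 6237949629) (nat_lit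 304) (nat_lit 6210363894) (nat_lit 380) (nat_lit 2423210657) (nat_lit 72) (nat_lit 5) (nat_lit 76) (nat_lit 5) (nat_lit 77) (nat_lit 5) (nat_lit 322) (nat_lit 310) (nat_lit 268)) (XT.lf (nat_lit 0) (nat_lit 1033825510) (nat_lit 380) (nat_lit 11662341556) (nat_lit 76) (nat_lit 2852427796) (nat_lit 67) (nat_lit 5) (nat_lit 72) (nat_lit 5) (nat_lit 68) (nat_lit 5) (nat_lit 323) (nat_lit 310) (nat_lit 267))) (XT.nd (nat_lit 78) (nat_lit 228) (nat_lit 0) (XT.lf (nat_lit 0) (nat_lit 1267263482) (nat_lit 304) (nat_lit 3636164623) (nat_lit 380) (nat_lit 11363441029) (nat_lit 63) (nat_lit 5) (nat_lit 67) (nat_lit 5) (nat_lit 68) (nat_lit 5) (nat_lit 324) (nat_lit 310) (nat_lit 266)) (XT.nd (nat_lit 78) (nat_lit 228) (nat_lit 0) (XT.lf (nat_lit 0) (nat_lit 9330539498) (nat_lit 380) (nat_lit 1552598439) (nat_lit 76) (nat_lit 6147134478) (nat_lit 63) (nat_lit 5) (nat_lit 68) (nat_lit 5) (nat_lit 64)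 (nat_lit 5) (nat_lit 325) (nat_lit 310) (nat_lit 265)) (XT.lf (nat_lit 0) (nat_lit 13270141611) (nat_lit 228) (nat_lit 1059676815) (nat_lit 304) (nat_lit 3514088951) (nat_lit 60) (nat_lit 5) (nat_lit 63) (nat_lit 5) (nat_lit 64) (nat_lit 5) (nat_lit 326) (nat_lit 310) (nat_lit 264))))) (XT.nd (nat_lit 234) (nat_lit 456) (nat_lit 0) (XT.nd (nat_lit 78) (nat_lit 456) (nat_lit 0) (XT.lf (nat_lit 0) (nat_lit 1275428060) (nat_lit 380) (nat_lit 7984154716) (nat_lit 76) (nat_lit 9447255416) (nat_lit 55) (nat_lit 5) (nat_lit 60) (nat_lit 5) (nat_lit 56) (nat_lit 5) (nat_lit 327) (nat_lit 310) (nat_lit 263)) (XT.nd (nat_lit 78) (nat_lit 228) (nat_lit 0) (XT.lf (nat_lit 0) (nat_lit 6524036602) (nat_lit 304) (nat_lit 11765170544) (nat_lit 76) (nat_lit 1336812047) (nat_lit 52) (nat_lit 5) (nat_lit 56) (nat_lit 5) (nat_lit 53) (nat_lit 5) (nat_lit 328) (nat_lit 310) (nat_lit 262)) (XT.lf (nat_lit 0)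 (nat_lit 4573696458) (nat_lit 228) (nat_lit 7943897672) (nat_lit 304) (nat_lit 8084932400) (nat_lit 49) (nat_lit 5) (nat_lit 52) (nat_lit 5) (nat_lit 53) (nat_lit 5) (nat_lit 329) (nat_lit 310) (nat_lit 261)))) (XT.nd (nat_lit 78) (nat_lit 304) (nat_lit 0) (XT.lf (nat_lit 0) (nat_lit 907921677) (nat_lit 152) (nat_lit 18313836923) (nat_lit 228) (nat_lit 2423881284) (nat_lit 47) (nat_lit 5) (nat_lit 49) (nat_lit 5) (nat_lit 50) (nat_lit 5) (nat_lit 330) (nat_lit 310) (nat_lit 260)) (XT.nd (nat_lit 78) (nat_lit 228) (nat_lit 0) (XT.lf (nat_lit 0) (nat_lit 3949426382) (nat_lit 228) (nat_lit 3241390148) (nat_lit 76) (nat_lit 15559667946) (nat_lit 46) (nat_lit 5) (nat_lit 49) (nat_lit 5) (nat_lit 47) (nat_lit 5) (nat_lit 331) (nat_lit 310) (nat_lit 259)) (XT.lf (nat_lit 0) (nat_lit 11042287155) (nat_lit 304) (nat_lit 7937230894) (nat_lit 76) (nat_lit 4947515250) (nat_lit 43) (nat_lit 5) (nat_lit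 47) (nat_lit 5) (nat_lit 44) (nat_lit 5) (nat_lit 332) (nat_lit 310) (nat_lit 258)))))) (XT.nd (nat_lit 468) (nat_lit 608) (nat_lit 0) (XT.nd (nat_lit 234) (nat_lit 380) (nat_lit 0) (XT.nd (nat_lit 78) (nat_lit 380) (nat_lit 0) (XT.lf (nat_lit 0) (nat_lit 11884770778) (nat_lit 152) (nat_lit 7146402237) (nat_lit 228) (nat_lit 6150134609) (nat_lit 41) (nat_lit 5) (nat_lit 43) (nat_lit 5) (nat_lit 44) (nat_lit 5) (nat_lit 333) (nat_lit 310) (nat_lit 257)) (XT.nd (nat_lit 78) (nat_lit 152) (nat_lit 0) (XT.lf (nat_lit 0) (nat_lit 1398072599) (nat_lit 228) (nat_lit 19411101991) (nat_lit 76) (nat_lit 5710361274) (nat_lit 38) (nat_lit 5) (nat_lit 41) (nat_lit 5) (nat_lit 39) (nat_lit 5) (nat_lit 334) (nat_lit 310) (nat_lit 256)) (XT.lf (nat_lit 0) (nat_lit 1433544187) (nat_lit 152) (nat_lit 8249434892) (nat_lit 228) (nat_lit 18259412163) (nat_lit 36) (nat_lit 5) (nat_lit 38) (nat_lit 5) (nat_lit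 39) (nat_lit 5) (nat_lit 335) (nat_lit 310) (nat_lit 255)))) (XT.nd (nat_lit 78) (nat_lit 380) (nat_lit 0) (XT.lf (nat_lit 0) (nat_lit 19025846052) (nat_lit 228) (nat_lit 4962533199) (nat_lit 76) (nat_lit 5470961148) (nat_lit 36) (nat_lit 5) (nat_lit 39) (nat_lit 5) (nat_lit 37) (nat_lit 5) (nat_lit 336) (nat_lit 310) (nat_lit 254)) (XT.nd (nat_lit 78) (nat_lit 228) (nat_lit 0) (XT.lf (nat_lit 0) (nat_lit 18720555857) (nat_lit 152) (nat_lit 10797812451) (nat_lit 228) (nat_lit 1559187874) (nat_lit 34) (nat_lit 5) (nat_lit 36) (nat_lit 5) (nat_lit 37) (nat_lit 5) (nat_lit 337) (nat_lit 310) (nat_lit 253)) (XT.lf (nat_lit 0) (nat_lit 8073180510) (nat_lit 228) (nat_lit 21005207690) (nat_lit 76) (nat_lit 3725347253) (nat_lit 31) (nat_lit 5) (nat_lit 34) (nat_lit 5) (nat_lit 32) (nat_lit 5) (nat_lit 338) (nat_lit 310) (nat_lit 252))))) (XT.nd (nat_lit 234) (nat_lit 304) (nat_lit 0) (XT.nd (nat_lit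 78) (nat_lit 152) (nat_lit 0) (XT.lf (nat_lit 0) (nat_lit 3526489838) (nat_lit 152) (nat_lit 15324623690) (nat_lit 228) (nat_lit 15794155393) (nat_lit 29) (nat_lit 5) (nat_lit 31) (nat_lit 5) (nat_lit 32) (nat_lit 5) (nat_lit 339) (nat_lit 310) (nat_lit 251)) (XT.nd (nat_lit 78) (nat_lit 152) (nat_lit 0) (XT.lf (nat_lit 0) (nat_lit 30727762617) (nat_lit 152) (nat_lit 103708706) (nat_lit 228) (nat_lit 5785660860) (nat_lit 29) (nat_lit 5) (nat_lit 31) (nat_lit 5) (nat_lit 32) (nat_lit 5) (nat_lit 340) (nat_lit 310) (nat_lit 250)) (XT.lf (nat_lit 0) (nat_lit 5442768424) (nat_lit 152) (nat_lit 17047044992) (nat_lit 76) (nat_lit 16224022246) (nat_lit 27) (nat_lit 5) (nat_lit 29) (nat_lit 5) (nat_lit 28) (nat_lit 5) (nat_lit 341) (nat_lit 310) (nat_lit 249)))) (XT.nd (nat_lit 78) (nat_lit 152) (nat_lit 0) (XT.lf (nat_lit 0) (nat_lit 10871757169) (nat_lit 152) (nat_lit 6750211312) (nat_lit 228)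 (nat_lit 23338818275) (nat_lit 25) (nat_lit 5) (nat_lit 27) (nat_lit 5) (nat_lit 28) (nat_lit 5) (nat_lit 342) (nat_lit 310) (nat_lit 248)) (XT.nd (nat_lit 78) (nat_lit 152) (nat_lit 0) (XT.lf (nat_lit 0) (nat_lit 31214939472) (nat_lit 228) (nat_lit 1943679974) (nat_lit 76) (nat_lit 10206915314) (nat_lit 25) (nat_lit 5) (nat_lit 28) (nat_lit 5) (nat_lit 26) (nat_lit 4) (nat_lit 343) (nat_lit 310) (nat_lit 247)) (XT.lf (nat_lit 0) (nat_lit 493434043) (nat_lit 152) (nat_lit 16703916628) (nat_lit 76) (nat_lit 28737445863) (nat_lit 23) (nat_lit 5) (nat_lit 25) (nat_lit 5) (nat_lit 24) (nat_lit 5) (nat_lit 344) (nat_lit 310) (nat_lit 246))))))))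
noncomputable def xc67 : XT := (XT.nd (nat_lit 1794) (nat_lit 380) (nat_lit 0) (XT.nd (nat_lit 858) (nat_lit 532) (nat_lit 0) (XT.nd (nat_lit 390) (nat_lit 304) (nat_lit 0) (XT.nd (nat_lit 156) (nat_lit 228) (nat_lit 0) (XT.nd (nat_lit 78) (nat_lit 0) (nat_lit 0) (XT.lf (nat_lit 0) (nat_lit 13977487945) (nat_lit 228) (nat_lit 34211513105) (nat_lit 76) (nat_lit 497938963) (nat_lit 21) (nat_lit 5) (nat_lit 24) (nat_lit 5) (nat_lit 22) (nat_lit 4) (nat_lit 345) (nat_lit 310) (nat_lit 245)) (XT.lf (nat_lit 0) (nat_lit 29106651521) (nat_lit 228) (nat_lit 3228238793) (nat_lit 76) (nat_lit 19296054890) (nat_lit 21) (nat_lit 5) (nat_lit 24) (nat_lit 5) (nat_lit 22) (nat_lit 4) (nat_lit 346) (nat_lit 310) (nat_lit 244))) (XT.nd (nat_lit 78) (nat_lit 152) (nat_lit 0) (XT.lf (nat_lit 0) (nat_lit 31200461689) (nat_lit 76) (nat_lit 14714910492) (nat_lit 152) (nat_lit 8871646229) (nat_lit 20) (nat_lit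 5) (nat_lit 21) (nat_lit 5) (nat_lit 22) (nat_lit 4) (nat_lit 347) (nat_lit 310) (nat_lit 243)) (XT.nd (nat_lit 78) (nat_lit 0) (nat_lit 0) (XT.lf (nat_lit 0) (nat_lit 5961563130) (nat_lit 152) (nat_lit 47734097394) (nat_lit 76) (nat_lit 4481523358) (nat_lit 18) (nat_lit 5) (nat_lit 20) (nat_lit 5) (nat_lit 19) (nat_lit 4) (nat_lit 348) (nat_lit 310) (nat_lit 242)) (XT.lf (nat_lit 0) (nat_lit 22323759207) (nat_lit 152) (nat_lit 14215418734) (nat_lit 76) (nat_lit 25259462533) (nat_lit 18) (nat_lit 5) (nat_lit 20) (nat_lit 5) (nat_lit 19) (nat_lit 4) (nat_lit 349) (nat_lit 310) (nat_lit 241))))) (XT.nd (nat_lit 234) (nat_lit 76) (nat_lit 0) (XT.nd (nat_lit 78) (nat_lit 152) (nat_lit 0) (XT.lf (nat_lit 0) (nat_lit 22682666313) (nat_lit 76) (nat_lit 17650919068) (nat_lit 152) (nat_lit 25359302144) (nat_lit 17) (nat_lit 5) (nat_lit 18) (nat_lit 5) (nat_lit 19) (nat_lit 4) (nat_lit 350) (nat_lit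 310) (nat_lit 240)) (XT.nd (nat_lit 78) (nat_lit 152) (nat_lit 0) (XT.lf (nat_lit 0) (nat_lit 60063844063) (nat_lit 152) (nat_lit 6920446583) (nat_lit 0) (nat_lit 2900407532) (nat_lit 17) (nat_lit 5) (nat_lit 19) (nat_lit 4) (nat_lit 17) (nat_lit 4) (nat_lit 351) (nat_lit 310) (nat_lit 239)) (XT.lf (nat_lit 0) (nat_lit 7546540207) (nat_lit 152) (nat_lit 41711040251) (nat_lit 76) (nat_lit 25108412110) (nat_lit 15) (nat_lit 5) (nat_lit 17) (nat_lit 5) (nat_lit 16) (nat_lit 4) (nat_lit 352) (nat_lit 310) (nat_lit 238)))) (XT.nd (nat_lit 78) (nat_lit 76) (nat_lit 0) (XT.lf (nat_lit 0) (nat_lit 26072962297) (nat_lit 152) (nat_lit 3748551952) (nat_lit 76) (nat_lit 49370545853) (nat_lit 15) (nat_lit 5) (nat_lit 17) (nat_lit 5) (nat_lit 16) (nat_lit 4) (nat_lit 353) (nat_lit 310) (nat_lit 237)) (XT.nd (nat_lit 78) (nat_lit 0) (nat_lit 0) (XT.lf (nat_lit 0) (nat_lit 38458968882) (nat_lit 76) (nat_lit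 8210560482) (nat_lit 152) (nat_lit 37705286770) (nat_lit 14) (nat_lit 5) (nat_lit 15) (nat_lit 5) (nat_lit 16) (nat_lit 4) (nat_lit 354) (nat_lit 310) (nat_lit 236)) (XT.lf (nat_lit 0) (nat_lit 69204400004) (nat_lit 152) (nat_lit 6051595799) (nat_lit 0) (nat_lit 14701672248) (nat_lit 14) (nat_lit 5) (nat_lit 16) (nat_lit 4) (nat_lit 14) (nat_lit 4) (nat_lit 355) (nat_lit 310) (nat_lit 235)))))) (XT.nd (nat_lit 468) (nat_lit 228) (nat_lit 0) (XT.nd (nat_lit 234) (nat_lit 76) (nat_lit 0) (XT.nd (nat_lit 78) (nat_lit 152) (nat_lit 0) (XT.lf (nat_lit 0) (nat_lit 38060852133) (nat_lit 76) (nat_lit 56202778759) (nat_lit 76) (nat_lit 1687442690) (nat_lit 13) (nat_lit 4) (nat_lit 14) (nat_lit 5) (nat_lit 14) (nat_lit 4) (nat_lit 356) (nat_lit 310) (nat_lit 234)) (XT.nd (nat_lit 78) (nat_lit 76) (nat_lit 0) (XT.lf (nat_lit 0) (nat_lit 18394982720) (nat_lit 152) (nat_lit 16817295857) (nat_lit 76)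 (nat_lit 67192101112) (nat_lit 12) (nat_lit 5) (nat_lit 14) (nat_lit 5) (nat_lit 13) (nat_lit 4) (nat_lit 357) (nat_lit 310) (nat_lit 233)) (XT.lf (nat_lit 0) (nat_lit 28403445814) (nat_lit 76) (nat_lit 12055708255) (nat_lit 152) (nat_lit 68891702739) (nat_lit 11) (nat_lit 5) (nat_lit 12) (nat_lit 5) (nat_lit 13) (nat_lit 4) (nat_lit 358) (nat_lit 310) (nat_lit 232)))) (XT.nd (nat_lit 78) (nat_lit 76) (nat_lit 0) (XT.lf (nat_lit 0) (nat_lit 64778800994) (nat_lit 152) (nat_lit 39221249289) (nat_lit 0) (nat_lit 12828487740) (nat_lit 11) (nat_lit 5) (nat_lit 13) (nat_lit 4) (nat_lit 11) (nat_lit 4) (nat_lit 359) (nat_lit 310) (nat_lit 231)) (XT.nd (nat_lit 78) (nat_lit 0) (nat_lit 0) (XT.lf (nat_lit 0) (nat_lit 5808798914) (nat_lit 76) (nat_lit 85520262481) (nat_lit 76) (nat_lit 33561123049) (nat_lit 10) (nat_lit 4) (nat_lit 11) (nat_lit 5) (nat_lit 11) (nat_lit 4) (nat_lit 360) (nat_lit 310)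 (nat_lit 230)) (XT.lf (nat_lit 0) (nat_lit 55825718094) (nat_lit 76) (nat_lit 64852312251) (nat_lit 76) (nat_lit 12885000433) (nat_lit 10) (nat_lit 4) (nat_lit 11) (nat_lit 5) (nat_lit 11) (nat_lit 4) (nat_lit 361) (nat_lit 310) (nat_lit 229))))) (XT.nd (nat_lit 234) (nat_lit 76) (nat_lit 0) (XT.nd (nat_lit 78) (nat_lit 76) (nat_lit 0) (XT.lf (nat_lit 0) (nat_lit 9134884614) (nat_lit 152) (nat_lit 33248365383) (nat_lit 76) (nat_lit 100539484875) (nat_lit 9) (nat_lit 5) (nat_lit 11) (nat_lit 5) (nat_lit 10) (nat_lit 4) (nat_lit 362) (nat_lit 310) (nat_lit 228)) (XT.nd (nat_lit 78) (nat_lit 0) (nat_lit 0) (XT.lf (nat_lit 0) (nat_lit 15050068938) (nat_lit 76) (nat_lit 17648445347) (nat_lit 152) (nat_lit 120310462571) (nat_lit 8) (nat_lit 5) (nat_lit 9) (nat_lit 5) (nat_lit 10) (nat_lit 4) (nat_lit 363) (nat_lit 310) (nat_lit 227)) (XT.lf (nat_lit 0) (nat_lit 58870239666) (nat_lit 152) (nat_lit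 95638226605) (nat_lit 0) (nat_lit 9357503617) (nat_lit 8) (nat_lit 5) (nat_lit 10) (nat_lit 4) (nat_lit 8) (nat_lit 4) (nat_lit 364) (nat_lit 310) (nat_lit 226)))) (XT.nd (nat_lit 78) (nat_lit 76) (nat_lit 0) (XT.lf (nat_lit 0) (nat_lit 87426633896) (nat_lit 152) (nat_lit 50242166793) (nat_lit 0) (nat_lit 37908176943) (nat_lit 8) (nat_lit 5) (nat_lit 10) (nat_lit 4) (nat_lit 8) (nat_lit 4) (nat_lit 365) (nat_lit 310) (nat_lit 225)) (XT.nd (nat_lit 78) (nat_lit 76) (nat_lit 0) (XT.lf (nat_lit 0) (nat_lit 118261378359) (nat_lit 152) (nat_lit 1226173106) (nat_lit 0) (nat_lit 68737624274) (nat_lit 8) (nat_lit 5) (nat_lit 10) (nat_lit 4) (nat_lit 8) (nat_lit 4) (nat_lit 366) (nat_lit 310) (nat_lit 224)) (XT.lf (nat_lit 0) (nat_lit 53409662350) (nat_lit 76) (nat_lit 98981409628) (nat_lit 76) (nat_lit 49452750790) (nat_lit 7) (nat_lit 4) (nat_lit 8) (nat_lit 5) (nat_lit 8) (nat_lit 4) (nat_lit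 367) (nat_lit 310) (nat_lit 223))))))) (XT.nd (nat_lit 858) (nat_lit 152) (nat_lit 0) (XT.nd (nat_lit 390) (nat_lit 76) (nat_lit 0) (XT.nd (nat_lit 156) (nat_lit 152) (nat_lit 0) (XT.nd (nat_lit 78) (nat_lit 0) (nat_lit 0) (XT.lf (nat_lit 0) (nat_lit 112449743271) (nat_lit 76) (nat_lit 76817312142) (nat_lit 76) (nat_lit 27284111867) (nat_lit 7) (nat_lit 4) (nat_lit 8) (nat_lit 5) (nat_lit 8) (nat_lit 4) (nat_lit 368) (nat_lit 310) (nat_lit 222)) (XT.lf (nat_lit 0) (nat_lit 176203393981) (nat_lit 76) (nat_lit 52884682044) (nat_lit 76) (nat_lit 3347276735) (nat_lit 7) (nat_lit 4) (nat_lit 8) (nat_lit 5) (nat_lit 8) (nat_lit 4) (nat_lit 369) (nat_lit 310) (nat_lit 221))) (XT.nd (nat_lit 78) (nat_lit 76) (nat_lit 0) (XT.lf (nat_lit 0) (nat_lit 21779474725) (nat_lit 152) (nat_lit 4893375672) (nat_lit 76) (nat_lit 222900093224) (nat_lit 6) (nat_lit 5) (nat_lit 8) (nat_lit 5) (nat_lit 7) (nat_lit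 4) (nat_lit 370) (nat_lit 310) (nat_lit 220)) (XT.nd (nat_lit 78) (nat_lit 0) (nat_lit 0) (XT.lf (nat_lit 0) (nat_lit 49650334648) (nat_lit 152) (nat_lit 215921190698) (nat_lit 0) (nat_lit 2464711791) (nat_lit 5) (nat_lit 5) (nat_lit 7) (nat_lit 4) (nat_lit 5) (nat_lit 4) (nat_lit 371) (nat_lit 310) (nat_lit 219)) (XT.lf (nat_lit 0) (nat_lit 80282998767) (nat_lit 152) (nat_lit 174572792830) (nat_lit 0) (nat_lit 33094196775) (nat_lit 5) (nat_lit 5) (nat_lit 7) (nat_lit 4) (nat_lit 5) (nat_lit 4) (nat_lit 372) (nat_lit 310) (nat_lit 218))))) (XT.nd (nat_lit 234) (nat_lit 76) (nat_lit 0) (XT.nd (nat_lit 78) (nat_lit 0) (nat_lit 0) (XT.lf (nat_lit 0) (nat_lit 113362336762) (nat_lit 152) (nat_lit 129924109711) (nat_lit 0) (nat_lit 66170591126) (nat_lit 5) (nat_lit 5) (nat_lit 7) (nat_lit 4) (nat_lit 5) (nat_lit 4) (nat_lit 373) (nat_lit 310) (nat_lit 217)) (XT.nd (nat_lit 78) (nat_lit 0) (nat_lit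 0) (XT.lf (nat_lit 0) (nat_lit 149084374341) (nat_lit 152) (nat_lit 81710556552) (nat_lit 0) (nat_lit 101889903109) (nat_lit 5) (nat_lit 5) (nat_lit 7) (nat_lit 4) (nat_lit 5) (nat_lit 4) (nat_lit 374) (nat_lit 310) (nat_lit 216)) (XT.lf (nat_lit 0) (nat_lit 187660797651) (nat_lit 152) (nat_lit 29646423409) (nat_lit 0) (nat_lit 140463802719) (nat_lit 5) (nat_lit 5) (nat_lit 7) (nat_lit 4) (nat_lit 5) (nat_lit 4) (nat_lit 375) (nat_lit 310) (nat_lit 215)))) (XT.nd (nat_lit 78) (nat_lit 0) (nat_lit 0) (XT.lf (nat_lit 0) (nat_lit 27455567539) (nat_lit 76) (nat_lit 202293298533) (nat_lit 76) (nat_lit 155093966842) (nat_lit 4) (nat_lit 4) (nat_lit 5) (nat_lit 5) (nat_lit 5) (nat_lit 4) (nat_lit 376) (nat_lit 310) (nat_lit 214)) (XT.nd (nat_lit 78) (nat_lit 0) (nat_lit 0) (XT.lf (nat_lit 0) (nat_lit 90178621239) (nat_lit 76) (nat_lit 185538794889) (nat_lit 76) (nat_lit 138337299531) (nat_lit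 4) (nat_lit 4) (nat_lit 5) (nat_lit 5) (nat_lit 5) (nat_lit 4) (nat_lit 377) (nat_lit 310) (nat_lit 213)) (XT.lf (nat_lit 0) (nat_lit 157914185215) (nat_lit 76) (nat_lit 167446500704) (nat_lit 76) (nat_lit 120243001952) (nat_lit 4) (nat_lit 4) (nat_lit 5) (nat_lit 5) (nat_lit 5) (nat_lit 4) (nat_lit 378) (nat_lit 310) (nat_lit 212)))))) (XT.nd (nat_lit 468) (nat_lit 76) (nat_lit 0) (XT.nd (nat_lit 234) (nat_lit 76) (nat_lit 0) (XT.nd (nat_lit 78) (nat_lit 0) (nat_lit 0) (XT.lf (nat_lit 0) (nat_lit 231063655401) (nat_lit 76) (nat_lit 147909202384) (nat_lit 76) (nat_lit 100703848637) (nat_lit 4) (nat_lit 4) (nat_lit 5) (nat_lit 5) (nat_lit 5) (nat_lit 4) (nat_lit 379) (nat_lit 310) (nat_lit 211)) (XT.nd (nat_lit 78) (nat_lit 0) (nat_lit 0) (XT.lf (nat_lit 0) (nat_lit 310060510140) (nat_lit 76) (nat_lit 126811123346) (nat_lit 76) (nat_lit 79604052010) (nat_lit 4) (nat_lit 4) (nat_lit 5) (nat_lit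 5) (nat_lit 5) (nat_lit 4) (nat_lit 380) (nat_lit 310) (nat_lit 210)) (XT.lf (nat_lit 0) (nat_lit 395372878942) (nat_lit 76) (nat_lit 104027237936) (nat_lit 76) (nat_lit 56818576242) (nat_lit 4) (nat_lit 4) (nat_lit 5) (nat_lit 5) (nat_lit 5) (nat_lit 4) (nat_lit 381) (nat_lit 310) (nat_lit 209)))) (XT.nd (nat_lit 78) (nat_lit 76) (nat_lit 0) (XT.lf (nat_lit 0) (nat_lit 487506316583) (nat_lit 76) (nat_lit 79422530537) (nat_lit 76) (nat_lit 32212396288) (nat_lit 4) (nat_lit 4) (nat_lit 5) (nat_lit 5) (nat_lit 5) (nat_lit 4) (nat_lit 382) (nat_lit 310) (nat_lit 208)) (XT.nd (nat_lit 78) (nat_lit 76) (nat_lit 0) (XT.lf (nat_lit 0) (nat_lit 587006798992) (nat_lit 76) (nat_lit 52851195476) (nat_lit 76) (nat_lit 5639697751) (nat_lit 4) (nat_lit 4) (nat_lit 5) (nat_lit 5) (nat_lit 5) (nat_lit 4) (nat_lit 383) (nat_lit 310) (nat_lit 207)) (XT.lf (nat_lit 0) (nat_lit 22319019629) (nat_lit 152) (nat_lit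 1458769964) (nat_lit 76) (nat_lit 671766955630) (nat_lit 3) (nat_lit 5) (nat_lit 5) (nat_lit 5) (nat_lit 4) (nat_lit 4) (nat_lit 384) (nat_lit 310) (nat_lit 206))))) (XT.nd (nat_lit 234) (nat_lit 0) (nat_lit 0) (XT.nd (nat_lit 78) (nat_lit 0) (nat_lit 0) (XT.lf (nat_lit 0) (nat_lit 53422600527) (nat_lit 152) (nat_lit 687656098203) (nat_lit 0) (nat_lit 8456953703) (nat_lit 2) (nat_lit 5) (nat_lit 4) (nat_lit 4) (nat_lit 2) (nat_lit 4) (nat_lit 385) (nat_lit 310) (nat_lit 205)) (XT.nd (nat_lit 78) (nat_lit 0) (nat_lit 0) (XT.lf (nat_lit 0) (nat_lit 87439643856) (nat_lit 152) (nat_lit 677911963690) (nat_lit 0) (nat_lit 42472966202) (nat_lit 2) (nat_lit 5) (nat_lit 4) (nat_lit 4) (nat_lit 2) (nat_lit 4) (nat_lit 386) (nat_lit 310) (nat_lit 204)) (XT.lf (nat_lit 0) (nat_lit 124176579901) (nat_lit 152) (nat_lit 667391154934) (nat_lit 0) (nat_lit 79208947774) (nat_lit 2) (nat_lit 5) (nat_lit 4)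 (nat_lit 4) (nat_lit 2) (nat_lit 4) (nat_lit 387) (nat_lit 310) (nat_lit 203)))) (XT.nd (nat_lit 78) (nat_lit 0) (nat_lit 0) (XT.lf (nat_lit 0) (nat_lit 163851109022) (nat_lit 152) (nat_lit 656031326401) (nat_lit 0) (nat_lit 118882593124) (nat_lit 2) (nat_lit 5) (nat_lit 4) (nat_lit 4) (nat_lit 2) (nat_lit 4) (nat_lit 388) (nat_lit 310) (nat_lit 202)) (XT.nd (nat_lit 78) (nat_lit 0) (nat_lit 0) (XT.lf (nat_lit 0) (nat_lit 206698339540) (nat_lit 152) (nat_lit 643765160590) (nat_lit 0) (nat_lit 161729005336) (nat_lit 2) (nat_lit 5) (nat_lit 4) (nat_lit 4) (nat_lit 2) (nat_lit 4) (nat_lit 389) (nat_lit 310) (nat_lit 201)) (XT.lf (nat_lit 0) (nat_lit 252972180971) (nat_lit 152) (nat_lit 630519969110) (nat_lit 0) (nat_lit 208002089076) (nat_lit 2) (nat_lit 5) (nat_lit 4) (nat_lit 4) (nat_lit 2) (nat_lit 4) (nat_lit 390) (nat_lit 310) (nat_lit 200))))))))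
noncomputable def xc68 : XT := (XT.nd (nat_lit 1716) (nat_lit 2432) (nat_lit 0) (XT.nd (nat_lit 858) (nat_lit 2584) (nat_lit 0) (XT.nd (nat_lit 390) (nat_lit 1520) (nat_lit 0) (XT.nd (nat_lit 156) (nat_lit 0) (nat_lit 76) (XT.nd (nat_lit 78) (nat_lit 684) (nat_lit 0) (XT.lf (nat_lit 0) (nat_lit 4983781367) (nat_lit 684) (nat_lit 8134471) (nat_lit 684) (nat_lit 8134471) (nat_lit 109) (nat_lit 3) (nat_lit 118) (nat_lit 3) (nat_lit 118) (nat_lit 5) (nat_lit 311) (nat_lit 311) (nat_lit 278)) (XT.lf (nat_lit 0) (nat_lit 1142612543) (nat_lit 684) (nat_lit 2676872287) (nat_lit 760) (nat_lit 6520230864) (nat_lit 100) (nat_lit 5) (nat_lit 109) (nat_lit 3) (nat_lit 110) (nat_lit 5) (nat_lit 312) (nat_lit 311) (nat_lit 277))) (XT.nd (nat_lit 78) (nat_lit 0) (nat_lit 0) (XT.lf (nat_lit 0) (nat_lit 2434776359) (nat_lit 684) (nat_lit 5392662964) (nat_lit 760) (nat_lit 2877991686) (nat_lit 101) (nat_lit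 5) (nat_lit 110) (nat_lit 5) (nat_lit 111) (nat_lit 5) (nat_lit 313) (nat_lit 311) (nat_lit 276)) (XT.nd (nat_lit 78) (nat_lit 0) (nat_lit 76) (XT.lf (nat_lit 76) (nat_lit 2903779088) (nat_lit 0) (nat_lit 985012344) (nat_lit 760) (nat_lit 7208840775) (nat_lit 102) (nat_lit 5) (nat_lit 101) (nat_lit 5) (nat_lit 111) (nat_lit 5) (nat_lit 314) (nat_lit 311) (nat_lit 275)) (XT.lf (nat_lit 76) (nat_lit 385182909) (nat_lit 0) (nat_lit 5183641279) (nat_lit 760) (nat_lit 5947041754) (nat_lit 103) (nat_lit 5) (nat_lit 102) (nat_lit 5) (nat_lit 112) (nat_lit 5) (nat_lit 315) (nat_lit 311) (nat_lit 274))))) (XT.nd (nat_lit 234) (nat_lit 1140) (nat_lit 0) (XT.nd (nat_lit 78) (nat_lit 608) (nat_lit 0) (XT.lf (nat_lit 0) (nat_lit 7493939047) (nat_lit 684) (nat_lit 2138380187) (nat_lit 760) (nat_lit 2329835970) (nat_lit 103) (nat_lit 5) (nat_lit 112) (nat_lit 5) (nat_lit 113) (nat_lit 5) (nat_lit 316)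 (nat_lit 311) (nat_lit 273)) (XT.nd (nat_lit 78) (nat_lit 608) (nat_lit 0) (XT.lf (nat_lit 76) (nat_lit 7668810906) (nat_lit 0) (nat_lit 2032122029) (nat_lit 760) (nat_lit 2736942292) (nat_lit 104) (nat_lit 5) (nat_lit 103) (nat_lit 5) (nat_lit 113) (nat_lit 5) (nat_lit 317) (nat_lit 311) (nat_lit 272)) (XT.lf (nat_lit 0) (nat_lit 5399036543) (nat_lit 684) (nat_lit 6829926541) (nat_lit 760) (nat_lit 715578070) (nat_lit 95) (nat_lit 5) (nat_lit 104) (nat_lit 5) (nat_lit 105) (nat_lit 5) (nat_lit 318) (nat_lit 311) (nat_lit 271)))) (XT.nd (nat_lit 78) (nat_lit 380) (nat_lit 0) (XT.lf (nat_lit 0) (nat_lit 1539629667) (nat_lit 760) (nat_lit 10471229136) (nat_lit 76) (nat_lit 1473879687) (nat_lit 85) (nat_lit 5) (nat_lit 95) (nat_lit 5) (nat_lit 86) (nat_lit 5) (nat_lit 319) (nat_lit 311) (nat_lit 270)) (XT.nd (nat_lit 78) (nat_lit 0) (nat_lit 0) (XT.lf (nat_lit 0) (nat_lit 445705110) (nat_lit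 380) (nat_lit 3694106589) (nat_lit 456) (nat_lit 9918363536) (nat_lit 80) (nat_lit 5) (nat_lit 85) (nat_lit 5) (nat_lit 86) (nat_lit 5) (nat_lit 320) (nat_lit 311) (nat_lit 269)) (XT.lf (nat_lit 0) (nat_lit 7153512747) (nat_lit 456) (nat_lit 2208715029) (nat_lit 76) (nat_lit 5305068704) (nat_lit 80) (nat_lit 5) (nat_lit 86) (nat_lit 5) (nat_lit 81) (nat_lit 5) (nat_lit 321) (nat_lit 311) (nat_lit 268)))))) (XT.nd (nat_lit 390) (nat_lit 1292) (nat_lit 0) (XT.nd (nat_lit 156) (nat_lit 684) (nat_lit 0) (XT.nd (nat_lit 78) (nat_lit 304) (nat_lit 0) (XT.lf (nat_lit 0) (nat_lit 10315282278) (nat_lit 304) (nat_lit 258545154) (nat_lit 380) (nat_lit 4743122616) (nat_lit 76) (nat_lit 5) (nat_lit 80) (nat_lit 5) (nat_lit 81) (nat_lit 5) (nat_lit 322) (nat_lit 311) (nat_lit 267)) (XT.lf (nat_lit 0) (nat_lit 7947627078) (nat_lit 304) (nat_lit 6578319081) (nat_lit 380) (nat_lit 1479793486) (nat_lit 72)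 (nat_lit 5) (nat_lit 76) (nat_lit 5) (nat_lit 77) (nat_lit 5) (nat_lit 323) (nat_lit 311) (nat_lit 266))) (XT.nd (nat_lit 78) (nat_lit 304) (nat_lit 0) (XT.lf (nat_lit 0) (nat_lit 2156941513) (nat_lit 380) (nat_lit 11350479646) (nat_lit 76) (nat_lit 3231790272) (nat_lit 67) (nat_lit 5) (nat_lit 72) (nat_lit 5) (nat_lit 68) (nat_lit 5) (nat_lit 324) (nat_lit 311) (nat_lit 265)) (XT.nd (nat_lit 78) (nat_lit 0) (nat_lit 0) (XT.lf (nat_lit 0) (nat_lit 2559394164) (nat_lit 304) (nat_lit 3718241685) (nat_lit 380) (nat_lit 11240328250) (nat_lit 63) (nat_lit 5) (nat_lit 67) (nat_lit 5) (nat_lit 68) (nat_lit 5) (nat_lit 325) (nat_lit 311) (nat_lit 264)) (XT.lf (nat_lit 0) (nat_lit 10989199047) (nat_lit 380) (nat_lit 530747088) (nat_lit 76) (nat_lit 6826065133) (nat_lit 63) (nat_lit 5) (nat_lit 68) (nat_lit 5) (nat_lit 64) (nat_lit 5) (nat_lit 326) (nat_lit 311) (nat_lit 263))))) (XT.nd (nat_lit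 234) (nat_lit 456) (nat_lit 0) (XT.nd (nat_lit 78) (nat_lit 608) (nat_lit 0) (XT.lf (nat_lit 0) (nat_lit 15428005829) (nat_lit 228) (nat_lit 909958456) (nat_lit 304) (nat_lit 2889374959) (nat_lit 60) (nat_lit 5) (nat_lit 63) (nat_lit 5) (nat_lit 64) (nat_lit 5) (nat_lit 327) (nat_lit 311) (nat_lit 262)) (XT.nd (nat_lit 78) (nat_lit 228) (nat_lit 0) (XT.lf (nat_lit 0) (nat_lit 2210058244) (nat_lit 380) (nat_lit 7507208186) (nat_lit 76) (nat_lit 10443613619) (nat_lit 55) (nat_lit 5) (nat_lit 60) (nat_lit 5) (nat_lit 56) (nat_lit 5) (nat_lit 328) (nat_lit 311) (nat_lit 261)) (XT.lf (nat_lit 0) (nat_lit 7837909045) (nat_lit 304) (nat_lit 11603367045) (nat_lit 76) (nat_lit 1714416606) (nat_lit 52) (nat_lit 5) (nat_lit 56) (nat_lit 5) (nat_lit 53) (nat_lit 5) (nat_lit 329) (nat_lit 311) (nat_lit 260)))) (XT.nd (nat_lit 78) (nat_lit 228) (nat_lit 0) (XT.lf (nat_lit 0) (nat_lit 5994673536) (nat_lit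 228) (nat_lit 8274087490) (nat_lit 304) (nat_lit 7943729144) (nat_lit 49) (nat_lit 5) (nat_lit 52) (nat_lit 5) (nat_lit 53) (nat_lit 5) (nat_lit 330) (nat_lit 311) (nat_lit 259)) (XT.nd (nat_lit 78) (nat_lit 76) (nat_lit 0) (XT.lf (nat_lit 0) (nat_lit 2021801141) (nat_lit 152) (nat_lit 19452590371) (nat_lit 228) (nat_lit 1866460030) (nat_lit 47) (nat_lit 5) (nat_lit 49) (nat_lit 5) (nat_lit 50) (nat_lit 5) (nat_lit 331) (nat_lit 311) (nat_lit 258)) (XT.lf (nat_lit 0) (nat_lit 4938792019) (nat_lit 228) (nat_lit 2513706113) (nat_lit 76) (nat_lit 17083741722) (nat_lit 46) (nat_lit 5) (nat_lit 49) (nat_lit 5) (nat_lit 47) (nat_lit 5) (nat_lit 332) (nat_lit 311) (nat_lit 257))))))) (XT.nd (nat_lit 858) (nat_lit 836) (nat_lit 0) (XT.nd (nat_lit 390) (nat_lit 836) (nat_lit 0) (XT.nd (nat_lit 156) (nat_lit 380) (nat_lit 0) (XT.nd (nat_lit 78) (nat_lit 152) (nat_lit 0) (XT.lf (nat_lit 0) (nat_lit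 12568714291) (nat_lit 304) (nat_lit 7600401754) (nat_lit 76) (nat_lit 5639360298) (nat_lit 43) (nat_lit 5) (nat_lit 47) (nat_lit 5) (nat_lit 44) (nat_lit 5) (nat_lit 333) (nat_lit 311) (nat_lit 256)) (XT.lf (nat_lit 0) (nat_lit 13765126478) (nat_lit 152) (nat_lit 7398464897) (nat_lit 228) (nat_lit 6001199252) (nat_lit 41) (nat_lit 5) (nat_lit 43) (nat_lit 5) (nat_lit 44) (nat_lit 5) (nat_lit 334) (nat_lit 311) (nat_lit 255))) (XT.nd (nat_lit 78) (nat_lit 152) (nat_lit 0) (XT.lf (nat_lit 0) (nat_lit 2103594278) (nat_lit 228) (nat_lit 20029821654) (nat_lit 76) (nat_lit 6477535707) (nat_lit 38) (nat_lit 5) (nat_lit 41) (nat_lit 5) (nat_lit 39) (nat_lit 5) (nat_lit 335) (nat_lit 311) (nat_lit 254)) (XT.nd (nat_lit 78) (nat_lit 0) (nat_lit 0) (XT.lf (nat_lit 0) (nat_lit 2441798394) (nat_lit 152) (nat_lit 8579470035) (nat_lit 228) (nat_lit 19127902580) (nat_lit 36) (nat_lit 5) (nat_lit 38) (nat_lit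 5) (nat_lit 39) (nat_lit 5) (nat_lit 336) (nat_lit 311) (nat_lit 253)) (XT.lf (nat_lit 0) (nat_lit 21074582249) (nat_lit 228) (nat_lit 4510432861) (nat_lit 76) (nat_lit 6204341890) (nat_lit 36) (nat_lit 5) (nat_lit 39) (nat_lit 5) (nat_lit 37) (nat_lit 5) (nat_lit 337) (nat_lit 311) (nat_lit 252))))) (XT.nd (nat_lit 234) (nat_lit 304) (nat_lit 0) (XT.nd (nat_lit 78) (nat_lit 380) (nat_lit 0) (XT.lf (nat_lit 0) (nat_lit 21030402338) (nat_lit 152) (nat_lit 11349772214) (nat_lit 228) (nat_lit 1158201502) (nat_lit 34) (nat_lit 5) (nat_lit 36) (nat_lit 5) (nat_lit 37) (nat_lit 5) (nat_lit 338) (nat_lit 311) (nat_lit 251)) (XT.nd (nat_lit 78) (nat_lit 152) (nat_lit 0) (XT.lf (nat_lit 0) (nat_lit 9207456295) (nat_lit 228) (nat_lit 21872621913) (nat_lit 76) (nat_lit 4323210690) (nat_lit 31) (nat_lit 5) (nat_lit 34) (nat_lit 5) (nat_lit 32) (nat_lit 5) (nat_lit 339) (nat_lit 311) (nat_lit 250))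 (XT.lf (nat_lit 0) (nat_lit 4586279324) (nat_lit 152) (nat_lit 16237306885) (nat_lit 228) (nat_lit 16569784747) (nat_lit 29) (nat_lit 5) (nat_lit 31) (nat_lit 5) (nat_lit 32) (nat_lit 5) (nat_lit 340) (nat_lit 311) (nat_lit 249)))) (XT.nd (nat_lit 78) (nat_lit 304) (nat_lit 0) (XT.lf (nat_lit 0) (nat_lit 33730754091) (nat_lit 228) (nat_lit 5621456993) (nat_lit 76) (nat_lit 172375366) (nat_lit 29) (nat_lit 5) (nat_lit 32) (nat_lit 5) (nat_lit 30) (nat_lit 4) (nat_lit 341) (nat_lit 311) (nat_lit 248)) (XT.nd (nat_lit 78) (nat_lit 152) (nat_lit 0) (XT.lf (nat_lit 0) (nat_lit 6298553987) (nat_lit 152) (nat_lit 17691393580) (nat_lit 76) (nat_lit 17799731545) (nat_lit 27) (nat_lit 5) (nat_lit 29) (nat_lit 5) (nat_lit 28) (nat_lit 5) (nat_lit 342) (nat_lit 311) (nat_lit 247)) (XT.lf (nat_lit 0) (nat_lit 12429647854) (nat_lit 152) (nat_lit 7002048066) (nat_lit 228) (nat_lit 24785728243) (nat_lit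 25) (nat_lit 5) (nat_lit 27) (nat_lit 5) (nat_lit 28) (nat_lit 5) (nat_lit 343) (nat_lit 311) (nat_lit 246)))))) (XT.nd (nat_lit 468) (nat_lit 304) (nat_lit 0) (XT.nd (nat_lit 234) (nat_lit 228) (nat_lit 0) (XT.nd (nat_lit 78) (nat_lit 304) (nat_lit 0) (XT.lf (nat_lit 0) (nat_lit 34086643204) (nat_lit 228) (nat_lit 1447437015) (nat_lit 76) (nat_lit 11281761675) (nat_lit 25) (nat_lit 5) (nat_lit 28) (nat_lit 5) (nat_lit 26) (nat_lit 4) (nat_lit 344) (nat_lit 311) (nat_lit 245)) (XT.nd (nat_lit 78) (nat_lit 152) (nat_lit 0) (XT.lf (nat_lit 0) (nat_lit 895441885) (nat_lit 152) (nat_lit 17404643954) (nat_lit 76) (nat_lit 31291182385) (nat_lit 23) (nat_lit 5) (nat_lit 25) (nat_lit 5) (nat_lit 24) (nat_lit 5) (nat_lit 345) (nat_lit 311) (nat_lit 244)) (XT.lf (nat_lit 0) (nat_lit 15444960760) (nat_lit 228) (nat_lit 36327142695) (nat_lit 76) (nat_lit 792156425) (nat_lit 21) (nat_lit 5) (nat_lit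 24) (nat_lit 5) (nat_lit 22) (nat_lit 4) (nat_lit 346) (nat_lit 311) (nat_lit 243)))) (XT.nd (nat_lit 78) (nat_lit 228) (nat_lit 0) (XT.lf (nat_lit 0) (nat_lit 31758585291) (nat_lit 228) (nat_lit 2911228028) (nat_lit 76) (nat_lit 21075278489) (nat_lit 21) (nat_lit 5) (nat_lit 24) (nat_lit 5) (nat_lit 22) (nat_lit 4) (nat_lit 347) (nat_lit 311) (nat_lit 242)) (XT.nd (nat_lit 78) (nat_lit 152) (nat_lit 0) (XT.lf (nat_lit 0) (nat_lit 34246767966) (nat_lit 76) (nat_lit 15649871206) (nat_lit 152) (nat_lit 9257791691) (nat_lit 20) (nat_lit 5) (nat_lit 21) (nat_lit 5) (nat_lit 22) (nat_lit 4) (nat_lit 348) (nat_lit 311) (nat_lit 241)) (XT.lf (nat_lit 0) (nat_lit 6740605855) (nat_lit 152) (nat_lit 51005095022) (nat_lit 76) (nat_lit 5070422063) (nat_lit 18) (nat_lit 5) (nat_lit 20) (nat_lit 5) (nat_lit 19) (nat_lit 4) (nat_lit 349) (nat_lit 311) (nat_lit 240))))) (XT.nd (nat_lit 234) (nat_lit 228)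 (nat_lit 0) (XT.nd (nat_lit 78) (nat_lit 76) (nat_lit 0) (XT.lf (nat_lit 0) (nat_lit 24389398531) (nat_lit 152) (nat_lit 14845494674) (nat_lit 76) (nat_lit 27493531421) (nat_lit 18) (nat_lit 5) (nat_lit 20) (nat_lit 5) (nat_lit 19) (nat_lit 4) (nat_lit 350) (nat_lit 311) (nat_lit 239)) (XT.nd (nat_lit 78) (nat_lit 0) (nat_lit 0) (XT.lf (nat_lit 0) (nat_lit 24982396728) (nat_lit 76) (nat_lit 18844466732) (nat_lit 152) (nat_lit 27108014248) (nat_lit 17) (nat_lit 5) (nat_lit 18) (nat_lit 5) (nat_lit 19) (nat_lit 4) (nat_lit 351) (nat_lit 311) (nat_lit 238)) (XT.lf (nat_lit 0) (nat_lit 65118954412) (nat_lit 152) (nat_lit 7015613673) (nat_lit 0) (nat_lit 3328302791) (nat_lit 17) (nat_lit 5) (nat_lit 19) (nat_lit 4) (nat_lit 17) (nat_lit 4) (nat_lit 352) (nat_lit 311) (nat_lit 237)))) (XT.nd (nat_lit 78) (nat_lit 76) (nat_lit 0) (XT.lf (nat_lit 0) (nat_lit 8392593820) (nat_lit 152) (nat_lit 44601275943)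 (nat_lit 76) (nat_lit 27309194849) (nat_lit 15) (nat_lit 5) (nat_lit 17) (nat_lit 5) (nat_lit 16) (nat_lit 4) (nat_lit 353) (nat_lit 311) (nat_lit 236)) (XT.nd (nat_lit 78) (nat_lit 76) (nat_lit 0) (XT.lf (nat_lit 0) (nat_lit 28383179277) (nat_lit 152) (nat_lit 3634873583) (nat_lit 76) (nat_lit 53498068937) (nat_lit 15) (nat_lit 5) (nat_lit 17) (nat_lit 5) (nat_lit 16) (nat_lit 4) (nat_lit 354) (nat_lit 311) (nat_lit 235)) (XT.lf (nat_lit 0) (nat_lit 41931275995) (nat_lit 76) (nat_lit 8685751237) (nat_lit 152) (nat_lit 40496999535) (nat_lit 14) (nat_lit 5) (nat_lit 15) (nat_lit 5) (nat_lit 16) (nat_lit 4) (nat_lit 355) (nat_lit 311) (nat_lit 234))))))))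
noncomputable def xc69 : XT := (XT.nd (nat_lit 1716) (nat_lit 152) (nat_lit 0) (XT.nd (nat_lit 858) (nat_lit 304) (nat_lit 0) (XT.nd (nat_lit 390) (nat_lit 228) (nat_lit 0) (XT.nd (nat_lit 156) (nat_lit 152) (nat_lit 0) (XT.nd (nat_lit 78) (nat_lit 76) (nat_lit 0) (XT.lf (nat_lit 0) (nat_lit 74941466492) (nat_lit 152) (nat_lit 6162086305) (nat_lit 0) (nat_lit 16040620860) (nat_lit 14) (nat_lit 5) (nat_lit 16) (nat_lit 4) (nat_lit 14) (nat_lit 4) (nat_lit 356) (nat_lit 311) (nat_lit 233)) (XT.lf (nat_lit 0) (nat_lit 41463119647) (nat_lit 76) (nat_lit 60533028471) (nat_lit 76) (nat_lit 1621373242) (nat_lit 13) (nat_lit 4) (nat_lit 14) (nat_lit 5) (nat_lit 14) (nat_lit 4) (nat_lit 357) (nat_lit 311) (nat_lit 232))) (XT.nd (nat_lit 78) (nat_lit 76) (nat_lit 0) (XT.lf (nat_lit 0) (nat_lit 20046793867) (nat_lit 152) (nat_lit 17825736686) (nat_lit 76) (nat_lit 72715130003) (nat_lit 12) (nat_lit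 5) (nat_lit 14) (nat_lit 5) (nat_lit 13) (nat_lit 4) (nat_lit 358) (nat_lit 311) (nat_lit 231)) (XT.nd (nat_lit 78) (nat_lit 0) (nat_lit 0) (XT.lf (nat_lit 0) (nat_lit 30998021193) (nat_lit 76) (nat_lit 12869760657) (nat_lit 152) (nat_lit 74222494210) (nat_lit 11) (nat_lit 5) (nat_lit 12) (nat_lit 5) (nat_lit 13) (nat_lit 4) (nat_lit 359) (nat_lit 311) (nat_lit 230)) (XT.lf (nat_lit 0) (nat_lit 70122441821) (nat_lit 152) (nat_lit 42054689256) (nat_lit 0) (nat_lit 13989572670) (nat_lit 11) (nat_lit 5) (nat_lit 13) (nat_lit 4) (nat_lit 11) (nat_lit 4) (nat_lit 360) (nat_lit 311) (nat_lit 229))))) (XT.nd (nat_lit 234) (nat_lit 76) (nat_lit 0) (XT.nd (nat_lit 78) (nat_lit 76) (nat_lit 0) (XT.lf (nat_lit 0) (nat_lit 6564540036) (nat_lit 76) (nat_lit 92224776054) (nat_lit 76) (nat_lit 36084339878) (nat_lit 10) (nat_lit 4) (nat_lit 11) (nat_lit 5) (nat_lit 11) (nat_lit 4) (nat_lit 361) (nat_lit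 311) (nat_lit 228)) (XT.nd (nat_lit 78) (nat_lit 76) (nat_lit 0) (XT.lf (nat_lit 0) (nat_lit 60561254439) (nat_lit 76) (nat_lit 69913545912) (nat_lit 76) (nat_lit 13766103232) (nat_lit 10) (nat_lit 4) (nat_lit 11) (nat_lit 5) (nat_lit 11) (nat_lit 4) (nat_lit 362) (nat_lit 311) (nat_lit 227)) (XT.lf (nat_lit 0) (nat_lit 9999847596) (nat_lit 152) (nat_lit 35654242611) (nat_lit 76) (nat_lit 108695716678) (nat_lit 9) (nat_lit 5) (nat_lit 11) (nat_lit 5) (nat_lit 10) (nat_lit 4) (nat_lit 363) (nat_lit 311) (nat_lit 226)))) (XT.nd (nat_lit 78) (nat_lit 0) (nat_lit 0) (XT.lf (nat_lit 0) (nat_lit 16497028272) (nat_lit 76) (nat_lit 18945393876) (nat_lit 152) (nat_lit 129800836182) (nat_lit 8) (nat_lit 5) (nat_lit 9) (nat_lit 5) (nat_lit 10) (nat_lit 4) (nat_lit 364) (nat_lit 311) (nat_lit 225)) (XT.nd (nat_lit 78) (nat_lit 0) (nat_lit 0) (XT.lf (nat_lit 0) (nat_lit 63700063520) (nat_lit 152) (nat_lit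 103060029029) (nat_lit 0) (nat_lit 10209111975) (nat_lit 8) (nat_lit 5) (nat_lit 10) (nat_lit 4) (nat_lit 8) (nat_lit 4) (nat_lit 365) (nat_lit 311) (nat_lit 224)) (XT.lf (nat_lit 0) (nat_lit 94532065237) (nat_lit 152) (nat_lit 54049266337) (nat_lit 0) (nat_lit 41036208940) (nat_lit 8) (nat_lit 5) (nat_lit 10) (nat_lit 4) (nat_lit 8) (nat_lit 4) (nat_lit 366) (nat_lit 311) (nat_lit 223)))))) (XT.nd (nat_lit 390) (nat_lit 152) (nat_lit 0) (XT.nd (nat_lit 156) (nat_lit 76) (nat_lit 0) (XT.nd (nat_lit 78) (nat_lit 76) (nat_lit 0) (XT.lf (nat_lit 0) (nat_lit 127825344767) (nat_lit 152) (nat_lit 1127717140) (nat_lit 0) (nat_lit 74324947032) (nat_lit 8) (nat_lit 5) (nat_lit 10) (nat_lit 4) (nat_lit 8) (nat_lit 4) (nat_lit 367) (nat_lit 311) (nat_lit 222)) (XT.lf (nat_lit 0) (nat_lit 57870443337) (nat_lit 76) (nat_lit 106810272081) (nat_lit 76) (nat_lit 53305669312) (nat_lit 7) (nat_lit 4) (nat_lit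 8) (nat_lit 5) (nat_lit 8) (nat_lit 4) (nat_lit 368) (nat_lit 311) (nat_lit 221))) (XT.nd (nat_lit 78) (nat_lit 76) (nat_lit 0) (XT.lf (nat_lit 0) (nat_lit 121619804213) (nat_lit 76) (nat_lit 82879687561) (nat_lit 76) (nat_lit 29371191241) (nat_lit 7) (nat_lit 4) (nat_lit 8) (nat_lit 5) (nat_lit 8) (nat_lit 4) (nat_lit 369) (nat_lit 311) (nat_lit 220)) (XT.nd (nat_lit 78) (nat_lit 76) (nat_lit 0) (XT.lf (nat_lit 0) (nat_lit 190460852056) (nat_lit 76) (nat_lit 57038595911) (nat_lit 76) (nat_lit 3526494452) (nat_lit 7) (nat_lit 4) (nat_lit 8) (nat_lit 5) (nat_lit 8) (nat_lit 4) (nat_lit 370) (nat_lit 311) (nat_lit 219)) (XT.lf (nat_lit 0) (nat_lit 23601212154) (nat_lit 152) (nat_lit 5132954633) (nat_lit 76) (nat_lit 240800623712) (nat_lit 6) (nat_lit 5) (nat_lit 8) (nat_lit 5) (nat_lit 7) (nat_lit 4) (nat_lit 371) (nat_lit 311) (nat_lit 218))))) (XT.nd (nat_lit 234) (nat_lit 76) (nat_lit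 0) (XT.nd (nat_lit 78) (nat_lit 0) (nat_lit 0) (XT.lf (nat_lit 0) (nat_lit 53699214733) (nat_lit 152) (nat_lit 233046874724) (nat_lit 0) (nat_lit 2729185803) (nat_lit 5) (nat_lit 5) (nat_lit 7) (nat_lit 4) (nat_lit 5) (nat_lit 4) (nat_lit 372) (nat_lit 311) (nat_lit 217)) (XT.nd (nat_lit 78) (nat_lit 0) (nat_lit 0) (XT.lf (nat_lit 0) (nat_lit 86776799144) (nat_lit 152) (nat_lit 188401568821) (nat_lit 0) (nat_lit 35804044617) (nat_lit 5) (nat_lit 5) (nat_lit 7) (nat_lit 4) (nat_lit 5) (nat_lit 4) (nat_lit 373) (nat_lit 311) (nat_lit 216)) (XT.lf (nat_lit 0) (nat_lit 122497213033) (nat_lit 152) (nat_lit 140191142714) (nat_lit 0) (nat_lit 71521934806) (nat_lit 5) (nat_lit 5) (nat_lit 7) (nat_lit 4) (nat_lit 5) (nat_lit 4) (nat_lit 374) (nat_lit 311) (nat_lit 215)))) (XT.nd (nat_lit 78) (nat_lit 76) (nat_lit 0) (XT.lf (nat_lit 0) (nat_lit 161072132926) (nat_lit 152) (nat_lit 88129904989) (nat_lit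 0) (nat_lit 110094517940) (nat_lit 5) (nat_lit 5) (nat_lit 7) (nat_lit 4) (nat_lit 5) (nat_lit 4) (nat_lit 375) (nat_lit 311) (nat_lit 214)) (XT.nd (nat_lit 78) (nat_lit 76) (nat_lit 0) (XT.lf (nat_lit 0) (nat_lit 202730150943) (nat_lit 152) (nat_lit 31909344608) (nat_lit 0) (nat_lit 151750372290) (nat_lit 5) (nat_lit 5) (nat_lit 7) (nat_lit 4) (nat_lit 5) (nat_lit 4) (nat_lit 376) (nat_lit 311) (nat_lit 213)) (XT.lf (nat_lit 0) (nat_lit 29756077618) (nat_lit 76) (nat_lit 218426627555) (nat_lit 76) (nat_lit 167444845508) (nat_lit 4) (nat_lit 4) (nat_lit 5) (nat_lit 5) (nat_lit 5) (nat_lit 4) (nat_lit 377) (nat_lit 311) (nat_lit 212))))))) (XT.nd (nat_lit 858) (nat_lit 0) (nat_lit 0) (XT.nd (nat_lit 390) (nat_lit 152) (nat_lit 0) (XT.nd (nat_lit 156) (nat_lit 0) (nat_lit 0) (XT.nd (nat_lit 78) (nat_lit 0) (nat_lit 0) (XT.lf (nat_lit 0) (nat_lit 97489267120) (nat_lit 76) (nat_lit 200335477312)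 (nat_lit 76) (nat_lit 149351840270) (nat_lit 4) (nat_lit 4) (nat_lit 5) (nat_lit 5) (nat_lit 5) (nat_lit 4) (nat_lit 378) (nat_lit 311) (nat_lit 211)) (XT.lf (nat_lit 0) (nat_lit 170636538718) (nat_lit 76) (nat_lit 180799238198) (nat_lit 76) (nat_lit 129813883568) (nat_lit 4) (nat_lit 4) (nat_lit 5) (nat_lit 5) (nat_lit 5) (nat_lit 4) (nat_lit 379) (nat_lit 311) (nat_lit 210))) (XT.nd (nat_lit 78) (nat_lit 0) (nat_lit 0) (XT.lf (nat_lit 0) (nat_lit 249631357728) (nat_lit 76) (nat_lit 159702139905) (nat_lit 76) (nat_lit 108715194916) (nat_lit 4) (nat_lit 4) (nat_lit 5) (nat_lit 5) (nat_lit 5) (nat_lit 4) (nat_lit 380) (nat_lit 311) (nat_lit 209)) (XT.nd (nat_lit 78) (nat_lit 0) (nat_lit 0) (XT.lf (nat_lit 0) (nat_lit 334941841595) (nat_lit 76) (nat_lit 136919162594) (nat_lit 76) (nat_lit 85930745050) (nat_lit 4) (nat_lit 4) (nat_lit 5) (nat_lit 5) (nat_lit 5) (nat_lit 4) (nat_lit 381) (nat_lit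 311) (nat_lit 208)) (XT.lf (nat_lit 0) (nat_lit 427073533927) (nat_lit 76) (nat_lit 112315296027) (nat_lit 76) (nat_lit 61325515006) (nat_lit 4) (nat_lit 4) (nat_lit 5) (nat_lit 5) (nat_lit 5) (nat_lit 4) (nat_lit 382) (nat_lit 311) (nat_lit 207))))) (XT.nd (nat_lit 234) (nat_lit 76) (nat_lit 0) (XT.nd (nat_lit 78) (nat_lit 76) (nat_lit 0) (XT.lf (nat_lit 0) (nat_lit 526572400308) (nat_lit 76) (nat_lit 85744739514) (nat_lit 76) (nat_lit 34753696015) (nat_lit 4) (nat_lit 4) (nat_lit 5) (nat_lit 5) (nat_lit 5) (nat_lit 4) (nat_lit 383) (nat_lit 311) (nat_lit 206)) (XT.nd (nat_lit 78) (nat_lit 76) (nat_lit 0) (XT.lf (nat_lit 0) (nat_lit 634028063650) (nat_lit 76) (nat_lit 57050037905) (nat_lit 76) (nat_lit 6057825445) (nat_lit 4) (nat_lit 4) (nat_lit 5) (nat_lit 5) (nat_lit 5) (nat_lit 4) (nat_lit 384) (nat_lit 311) (nat_lit 205)) (XT.lf (nat_lit 0) (nat_lit 24134161921) (nat_lit 152) (nat_lit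 1518262892) (nat_lit 76) (nat_lit 725534412624) (nat_lit 3) (nat_lit 5) (nat_lit 5) (nat_lit 5) (nat_lit 4) (nat_lit 4) (nat_lit 385) (nat_lit 311) (nat_lit 204)))) (XT.nd (nat_lit 78) (nat_lit 0) (nat_lit 0) (XT.lf (nat_lit 0) (nat_lit 57725102360) (nat_lit 152) (nat_lit 742612856491) (nat_lit 0) (nat_lit 9159105191) (nat_lit 2) (nat_lit 5) (nat_lit 4) (nat_lit 4) (nat_lit 2) (nat_lit 4) (nat_lit 386) (nat_lit 311) (nat_lit 203)) (XT.nd (nat_lit 78) (nat_lit 0) (nat_lit 0) (XT.lf (nat_lit 0) (nat_lit 94461383690) (nat_lit 152) (nat_lit 732093319333) (nat_lit 0) (nat_lit 45894502750) (nat_lit 2) (nat_lit 5) (nat_lit 4) (nat_lit 4) (nat_lit 2) (nat_lit 4) (nat_lit 387) (nat_lit 311) (nat_lit 202)) (XT.lf (nat_lit 0) (nat_lit 134135306594) (nat_lit 152) (nat_lit 720734668206) (nat_lit 0) (nat_lit 85567607347) (nat_lit 2) (nat_lit 5) (nat_lit 4) (nat_lit 4) (nat_lit 2) (nat_lit 4) (nat_lit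 388) (nat_lit 311) (nat_lit 201)))))) (XT.nd (nat_lit 41184) (nat_lit 0) (nat_lit 5928) (XT.nd (nat_lit 40950) (nat_lit 0) (nat_lit 7448) (XT.nd (nat_lit 78) (nat_lit 0) (nat_lit 0) (XT.lf (nat_lit 0) (nat_lit 176981975800) (nat_lit 152) (nat_lit 708469592585) (nat_lit 0) (nat_lit 128413518863) (nat_lit 2) (nat_lit 5) (nat_lit 4) (nat_lit 4) (nat_lit 2) (nat_lit 4) (nat_lit 389) (nat_lit 311) (nat_lit 200)) (XT.nd (nat_lit 40794) (nat_lit 0) (nat_lit 7448) (XT.lf (nat_lit 0) (nat_lit 223255297497) (nat_lit 152) (nat_lit 695225410541) (nat_lit 0) (nat_lit 174686138994) (nat_lit 2) (nat_lit 5) (nat_lit 4) (nat_lit 4) (nat_lit 2) (nat_lit 4) (nat_lit 390) (nat_lit 311) (nat_lit 199)) (XT.lf (nat_lit 0) (nat_lit 513851360) (nat_lit 0) (nat_lit 513851360) (nat_lit 684) (nat_lit 4318522474) (nat_lit 100) (nat_lit 5) (nat_lit 100) (nat_lit 3) (nat_lit 109) (nat_lit 3) (nat_lit 312) (nat_lit 312)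 (nat_lit 276)))) (XT.nd (nat_lit 78) (nat_lit 0) (nat_lit 76) (XT.lf (nat_lit 0) (nat_lit 3154081131) (nat_lit 684) (nat_lit 1808597427) (nat_lit 760) (nat_lit 6105234902) (nat_lit 100) (nat_lit 5) (nat_lit 109) (nat_lit 3) (nat_lit 110) (nat_lit 5) (nat_lit 313) (nat_lit 312) (nat_lit 275)) (XT.nd (nat_lit 78) (nat_lit 0) (nat_lit 0) (XT.lf (nat_lit 0) (nat_lit 4411712562) (nat_lit 684) (nat_lit 4684392180) (nat_lit 760) (nat_lit 2373897015) (nat_lit 101) (nat_lit 5) (nat_lit 110) (nat_lit 5) (nat_lit 111) (nat_lit 5) (nat_lit 314) (nat_lit 312) (nat_lit 274)) (XT.lf (nat_lit 76) (nat_lit 4226235966) (nat_lit 0) (nat_lit 1640821828) (nat_lit 760) (nat_lit 6032474959) (nat_lit 102) (nat_lit 5) (nat_lit 101) (nat_lit 5) (nat_lit 111) (nat_lit 5) (nat_lit 315) (nat_lit 312) (nat_lit 273))))) (XT.nd (nat_lit 234) (nat_lit 1672) (nat_lit 0) (XT.nd (nat_lit 78) (nat_lit 0) (nat_lit 76) (XT.lf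 (nat_lit 76) (nat_lit 1549569001) (nat_lit 0) (nat_lit 6017787432) (nat_lit 760) (nat_lit 4789764620) (nat_lit 103) (nat_lit 5) (nat_lit 102) (nat_lit 5) (nat_lit 112) (nat_lit 5) (nat_lit 316) (nat_lit 312) (nat_lit 272)) (XT.nd (nat_lit 78) (nat_lit 0) (nat_lit 0) (XT.lf (nat_lit 0) (nat_lit 9525377729) (nat_lit 684) (nat_lit 1179696445) (nat_lit 760) (nat_lit 2140269445) (nat_lit 103) (nat_lit 5) (nat_lit 112) (nat_lit 5) (nat_lit 113) (nat_lit 5) (nat_lit 317) (nat_lit 312) (nat_lit 271)) (XT.lf (nat_lit 76) (nat_lit 9362972197) (nat_lit 0) (nat_lit 2456762595) (nat_lit 760) (nat_lit 1544008329) (nat_lit 104) (nat_lit 5) (nat_lit 103) (nat_lit 5) (nat_lit 113) (nat_lit 5) (nat_lit 318) (nat_lit 312) (nat_lit 270)))) (XT.nd (nat_lit 78) (nat_lit 1064) (nat_lit 0) (XT.lf (nat_lit 0) (nat_lit 531038567) (nat_lit 760) (nat_lit 6989236231) (nat_lit 76) (nat_lit 6394690174) (nat_lit 94) (nat_lit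 5) (nat_lit 104) (nat_lit 5) (nat_lit 95) (nat_lit 5) (nat_lit 319) (nat_lit 312) (nat_lit 269)) (XT.nd (nat_lit 78) (nat_lit 380) (nat_lit 0) (XT.lf (nat_lit 0) (nat_lit 2862702864) (nat_lit 760) (nat_lit 10147621600) (nat_lit 76) (nat_lit 1491543903) (nat_lit 85) (nat_lit 5) (nat_lit 95) (nat_lit 5) (nat_lit 86) (nat_lit 5) (nat_lit 320) (nat_lit 312) (nat_lit 268)) (XT.lf (nat_lit 0) (nat_lit 1592198448) (nat_lit 380) (nat_lit 4007162598) (nat_lit 456) (nat_lit 9525518449) (nat_lit 80) (nat_lit 5) (nat_lit 85) (nat_lit 5) (nat_lit 86) (nat_lit 5) (nat_lit 321) (nat_lit 312) (nat_lit 267))))))))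
noncomputable def xc70 : XT := (XT.nd (nat_lit 1716) (nat_lit 1444) (nat_lit 0) (XT.nd (nat_lit 858) (nat_lit 1520) (nat_lit 0) (XT.nd (nat_lit 390) (nat_lit 1216) (nat_lit 0) (XT.nd (nat_lit 156) (nat_lit 988) (nat_lit 0) (XT.nd (nat_lit 78) (nat_lit 304) (nat_lit 0) (XT.lf (nat_lit 0) (nat_lit 8770322246) (nat_lit 456) (nat_lit 1302948952) (nat_lit 76) (nat_lit 5713764485) (nat_lit 80) (nat_lit 5) (nat_lit 86) (nat_lit 5) (nat_lit 81) (nat_lit 5) (nat_lit 322) (nat_lit 312) (nat_lit 266)) (XT.lf (nat_lit 0) (nat_lit 12175925604) (nat_lit 304) (nat_lit 227129841) (nat_lit 380) (nat_lit 4088771468) (nat_lit 76) (nat_lit 5) (nat_lit 80) (nat_lit 5) (nat_lit 81) (nat_lit 5) (nat_lit 323) (nat_lit 312) (nat_lit 265))) (XT.nd (nat_lit 78) (nat_lit 684) (nat_lit 0) (XT.lf (nat_lit 0) (nat_lit 9621367181) (nat_lit 304) (nat_lit 6994095989) (nat_lit 380) (nat_lit 623147796) (nat_lit 72) (nat_lit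 5) (nat_lit 76) (nat_lit 5) (nat_lit 77) (nat_lit 5) (nat_lit 324) (nat_lit 312) (nat_lit 264)) (XT.nd (nat_lit 78) (nat_lit 304) (nat_lit 0) (XT.lf (nat_lit 0) (nat_lit 3221480683) (nat_lit 380) (nat_lit 11191260444) (nat_lit 76) (nat_lit 3619935905) (nat_lit 67) (nat_lit 5) (nat_lit 72) (nat_lit 5) (nat_lit 68) (nat_lit 5) (nat_lit 325) (nat_lit 312) (nat_lit 263)) (XT.lf (nat_lit 0) (nat_lit 3785021557) (nat_lit 304) (nat_lit 3836674864) (nat_lit 380) (nat_lit 11254619616) (nat_lit 63) (nat_lit 5) (nat_lit 67) (nat_lit 5) (nat_lit 68) (nat_lit 5) (nat_lit 326) (nat_lit 312) (nat_lit 262))))) (XT.nd (nat_lit 234) (nat_lit 608) (nat_lit 0) (XT.nd (nat_lit 78) (nat_lit 380) (nat_lit 0) (XT.lf (nat_lit 0) (nat_lit 422889307) (nat_lit 228) (nat_lit 12234126674) (nat_lit 304) (nat_lit 7116322968) (nat_lit 60) (nat_lit 5) (nat_lit 63) (nat_lit 5) (nat_lit 64) (nat_lit 5) (nat_lit 327) (nat_lit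 312) (nat_lit 261)) (XT.nd (nat_lit 78) (nat_lit 380) (nat_lit 0) (XT.lf (nat_lit 0) (nat_lit 17602106453) (nat_lit 228) (nat_lit 781715606) (nat_lit 304) (nat_lit 2343912209) (nat_lit 60) (nat_lit 5) (nat_lit 63) (nat_lit 5) (nat_lit 64) (nat_lit 5) (nat_lit 328) (nat_lit 312) (nat_lit 260)) (XT.lf (nat_lit 0) (nat_lit 3100679724) (nat_lit 380) (nat_lit 7151270004) (nat_lit 76) (nat_lit 11485359370) (nat_lit 55) (nat_lit 5) (nat_lit 60) (nat_lit 5) (nat_lit 56) (nat_lit 5) (nat_lit 329) (nat_lit 312) (nat_lit 259)))) (XT.nd (nat_lit 78) (nat_lit 380) (nat_lit 0) (XT.lf (nat_lit 0) (nat_lit 9143910832) (nat_lit 304) (nat_lit 11585976994) (nat_lit 76) (nat_lit 2083616913) (nat_lit 52) (nat_lit 5) (nat_lit 56) (nat_lit 5) (nat_lit 53) (nat_lit 5) (nat_lit 330) (nat_lit 312) (nat_lit 258)) (XT.nd (nat_lit 78) (nat_lit 152) (nat_lit 0) (XT.lf (nat_lit 0) (nat_lit 7378809628) (nat_lit 228) (nat_lit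 8674250089) (nat_lit 304) (nat_lit 7903646331) (nat_lit 49) (nat_lit 5) (nat_lit 52) (nat_lit 5) (nat_lit 53) (nat_lit 5) (nat_lit 331) (nat_lit 312) (nat_lit 257)) (XT.lf (nat_lit 0) (nat_lit 3076245617) (nat_lit 152) (nat_lit 20729002072) (nat_lit 228) (nat_lit 1371630951) (nat_lit 47) (nat_lit 5) (nat_lit 49) (nat_lit 5) (nat_lit 50) (nat_lit 5) (nat_lit 332) (nat_lit 312) (nat_lit 256)))))) (XT.nd (nat_lit 390) (nat_lit 684) (nat_lit 0) (XT.nd (nat_lit 156) (nat_lit 532) (nat_lit 0) (XT.nd (nat_lit 78) (nat_lit 228) (nat_lit 0) (XT.lf (nat_lit 0) (nat_lit 5911237223) (nat_lit 228) (nat_lit 1868613261) (nat_lit 76) (nat_lit 18689896084) (nat_lit 46) (nat_lit 5) (nat_lit 49) (nat_lit 5) (nat_lit 47) (nat_lit 5) (nat_lit 333) (nat_lit 312) (nat_lit 255)) (XT.lf (nat_lit 0) (nat_lit 14125518158) (nat_lit 304) (nat_lit 7375265502) (nat_lit 76) (nat_lit 6344318988) (nat_lit 43) (nat_lit 5)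 (nat_lit 47) (nat_lit 5) (nat_lit 44) (nat_lit 5) (nat_lit 334) (nat_lit 312) (nat_lit 254))) (XT.nd (nat_lit 78) (nat_lit 380) (nat_lit 0) (XT.lf (nat_lit 0) (nat_lit 15663296505) (nat_lit 152) (nat_lit 7716294147) (nat_lit 228) (nat_lit 5931787197) (nat_lit 41) (nat_lit 5) (nat_lit 43) (nat_lit 5) (nat_lit 44) (nat_lit 5) (nat_lit 335) (nat_lit 312) (nat_lit 253)) (XT.nd (nat_lit 78) (nat_lit 152) (nat_lit 0) (XT.lf (nat_lit 0) (nat_lit 2780863192) (nat_lit 228) (nat_lit 20831308470) (nat_lit 76) (nat_lit 7261809835) (nat_lit 38) (nat_lit 5) (nat_lit 41) (nat_lit 5) (nat_lit 39) (nat_lit 5) (nat_lit 336) (nat_lit 312) (nat_lit 252)) (XT.lf (nat_lit 0) (nat_lit 3403235091) (nat_lit 152) (nat_lit 8982974717) (nat_lit 228) (nat_lit 20150365105) (nat_lit 36) (nat_lit 5) (nat_lit 38) (nat_lit 5) (nat_lit 39) (nat_lit 5) (nat_lit 337) (nat_lit 312) (nat_lit 251))))) (XT.nd (nat_lit 234) (nat_lit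 304) (nat_lit 0) (XT.nd (nat_lit 78) (nat_lit 380) (nat_lit 0) (XT.lf (nat_lit 0) (nat_lit 23212082191) (nat_lit 228) (nat_lit 4143298531) (nat_lit 76) (nat_lit 6954207632) (nat_lit 36) (nat_lit 5) (nat_lit 39) (nat_lit 5) (nat_lit 37) (nat_lit 5) (nat_lit 338) (nat_lit 312) (nat_lit 250)) (XT.nd (nat_lit 78) (nat_lit 228) (nat_lit 0) (XT.lf (nat_lit 0) (nat_lit 23409166840) (nat_lit 152) (nat_lit 11990379821) (nat_lit 228) (nat_lit 800136256) (nat_lit 34) (nat_lit 5) (nat_lit 36) (nat_lit 5) (nat_lit 37) (nat_lit 5) (nat_lit 339) (nat_lit 312) (nat_lit 249)) (XT.lf (nat_lit 0) (nat_lit 10362795378) (nat_lit 228) (nat_lit 22925413155) (nat_lit 76) (nat_lit 4926128294) (nat_lit 31) (nat_lit 5) (nat_lit 34) (nat_lit 5) (nat_lit 32) (nat_lit 5) (nat_lit 340) (nat_lit 312) (nat_lit 248)))) (XT.nd (nat_lit 78) (nat_lit 152) (nat_lit 0) (XT.lf (nat_lit 0) (nat_lit 5619908607) (nat_lit 152) (nat_lit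 17267698585) (nat_lit 228) (nat_lit 17477069278) (nat_lit 29) (nat_lit 5) (nat_lit 31) (nat_lit 5) (nat_lit 32) (nat_lit 5) (nat_lit 341) (nat_lit 312) (nat_lit 247)) (XT.nd (nat_lit 78) (nat_lit 152) (nat_lit 0) (XT.lf (nat_lit 0) (nat_lit 36801739950) (nat_lit 228) (nat_lit 5439046134) (nat_lit 76) (nat_lit 426902619) (nat_lit 29) (nat_lit 5) (nat_lit 32) (nat_lit 5) (nat_lit 30) (nat_lit 4) (nat_lit 342) (nat_lit 312) (nat_lit 246)) (XT.lf (nat_lit 0) (nat_lit 7162832759) (nat_lit 152) (nat_lit 18489922649) (nat_lit 76) (nat_lit 19461868093) (nat_lit 27) (nat_lit 5) (nat_lit 29) (nat_lit 5) (nat_lit 28) (nat_lit 5) (nat_lit 343) (nat_lit 312) (nat_lit 245))))))) (XT.nd (nat_lit 858) (nat_lit 532) (nat_lit 0) (XT.nd (nat_lit 390) (nat_lit 456) (nat_lit 0) (XT.nd (nat_lit 156) (nat_lit 304) (nat_lit 0) (XT.nd (nat_lit 78) (nat_lit 0) (nat_lit 0) (XT.lf (nat_lit 0) (nat_lit 14013997488)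 (nat_lit 152) (nat_lit 7315143881) (nat_lit 228) (nat_lit 26408336594) (nat_lit 25) (nat_lit 5) (nat_lit 27) (nat_lit 5) (nat_lit 28) (nat_lit 5) (nat_lit 344) (nat_lit 312) (nat_lit 244)) (XT.lf (nat_lit 0) (nat_lit 37134655400) (nat_lit 228) (nat_lit 1004472240) (nat_lit 76) (nat_lit 12405747342) (nat_lit 25) (nat_lit 5) (nat_lit 28) (nat_lit 5) (nat_lit 26) (nat_lit 4) (nat_lit 345) (nat_lit 312) (nat_lit 243))) (XT.nd (nat_lit 78) (nat_lit 152) (nat_lit 0) (XT.lf (nat_lit 0) (nat_lit 1277890952) (nat_lit 152) (nat_lit 18252102914) (nat_lit 76) (nat_lit 34012876199) (nat_lit 23) (nat_lit 5) (nat_lit 25) (nat_lit 5) (nat_lit 24) (nat_lit 5) (nat_lit 346) (nat_lit 312) (nat_lit 242)) (XT.nd (nat_lit 78) (nat_lit 0) (nat_lit 0) (XT.lf (nat_lit 0) (nat_lit 16980003591) (nat_lit 228) (nat_lit 38700656825) (nat_lit 76) (nat_lit 1073620798) (nat_lit 21) (nat_lit 5) (nat_lit 24) (nat_lit 5)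 (nat_lit 22) (nat_lit 4) (nat_lit 347) (nat_lit 312) (nat_lit 241)) (XT.lf (nat_lit 0) (nat_lit 34576536901) (nat_lit 228) (nat_lit 2650925080) (nat_lit 76) (nat_lit 22963237675) (nat_lit 21) (nat_lit 5) (nat_lit 24) (nat_lit 5) (nat_lit 22) (nat_lit 4) (nat_lit 348) (nat_lit 312) (nat_lit 240))))) (XT.nd (nat_lit 234) (nat_lit 228) (nat_lit 0) (XT.nd (nat_lit 78) (nat_lit 152) (nat_lit 0) (XT.lf (nat_lit 0) (nat_lit 37458276671) (nat_lit 76) (nat_lit 16694185899) (nat_lit 152) (nat_lit 9720991985) (nat_lit 20) (nat_lit 5) (nat_lit 21) (nat_lit 5) (nat_lit 22) (nat_lit 4) (nat_lit 349) (nat_lit 312) (nat_lit 239)) (XT.nd (nat_lit 78) (nat_lit 0) (nat_lit 0) (XT.lf (nat_lit 0) (nat_lit 7538871534) (nat_lit 152) (nat_lit 54615912292) (nat_lit 76) (nat_lit 5673566833) (nat_lit 18) (nat_lit 5) (nat_lit 20) (nat_lit 5) (nat_lit 19) (nat_lit 4) (nat_lit 350) (nat_lit 312) (nat_lit 238)) (XT.lf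 (nat_lit 0) (nat_lit 26580381165) (nat_lit 152) (nat_lit 15598328385) (nat_lit 76) (nat_lit 29875894495) (nat_lit 18) (nat_lit 5) (nat_lit 20) (nat_lit 5) (nat_lit 19) (nat_lit 4) (nat_lit 351) (nat_lit 312) (nat_lit 237)))) (XT.nd (nat_lit 78) (nat_lit 152) (nat_lit 0) (XT.lf (nat_lit 0) (nat_lit 27396898197) (nat_lit 76) (nat_lit 20164673367) (nat_lit 152) (nat_lit 29036573026) (nat_lit 17) (nat_lit 5) (nat_lit 18) (nat_lit 5) (nat_lit 19) (nat_lit 4) (nat_lit 352) (nat_lit 312) (nat_lit 236)) (XT.nd (nat_lit 78) (nat_lit 152) (nat_lit 0) (XT.lf (nat_lit 0) (nat_lit 70542807891) (nat_lit 152) (nat_lit 7183799807) (nat_lit 0) (nat_lit 3762487673) (nat_lit 17) (nat_lit 5) (nat_lit 19) (nat_lit 4) (nat_lit 17) (nat_lit 4) (nat_lit 353) (nat_lit 312) (nat_lit 235)) (XT.lf (nat_lit 0) (nat_lit 9271760581) (nat_lit 152) (nat_lit 47786449754) (nat_lit 76) (nat_lit 29658633599) (nat_lit 15) (nat_lit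 5) (nat_lit 17) (nat_lit 5) (nat_lit 16) (nat_lit 4) (nat_lit 354) (nat_lit 312) (nat_lit 234)))))) (XT.nd (nat_lit 468) (nat_lit 228) (nat_lit 0) (XT.nd (nat_lit 234) (nat_lit 228) (nat_lit 0) (XT.nd (nat_lit 78) (nat_lit 76) (nat_lit 0) (XT.lf (nat_lit 0) (nat_lit 30846203301) (nat_lit 152) (nat_lit 3571100262) (nat_lit 76) (nat_lit 57930417381) (nat_lit 15) (nat_lit 5) (nat_lit 17) (nat_lit 5) (nat_lit 16) (nat_lit 4) (nat_lit 355) (nat_lit 312) (nat_lit 233)) (XT.nd (nat_lit 78) (nat_lit 0) (nat_lit 0) (XT.lf (nat_lit 0) (nat_lit 45624932397) (nat_lit 76) (nat_lit 9224872238) (nat_lit 152) (nat_lit 43544106740) (nat_lit 14) (nat_lit 5) (nat_lit 15) (nat_lit 5) (nat_lit 16) (nat_lit 4) (nat_lit 356) (nat_lit 312) (nat_lit 232)) (XT.lf (nat_lit 0) (nat_lit 81108864135) (nat_lit 152) (nat_lit 6334719568) (nat_lit 0) (nat_lit 17463458005) (nat_lit 14) (nat_lit 5) (nat_lit 16) (nat_lit 4)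 (nat_lit 14) (nat_lit 4) (nat_lit 357) (nat_lit 312) (nat_lit 231)))) (XT.nd (nat_lit 78) (nat_lit 152) (nat_lit 0) (XT.lf (nat_lit 0) (nat_lit 45086581550) (nat_lit 76) (nat_lit 65233376005) (nat_lit 76) (nat_lit 1578702389) (nat_lit 13) (nat_lit 4) (nat_lit 14) (nat_lit 5) (nat_lit 14) (nat_lit 4) (nat_lit 358) (nat_lit 312) (nat_lit 230)) (XT.nd (nat_lit 78) (nat_lit 76) (nat_lit 0) (XT.lf (nat_lit 0) (nat_lit 21805040574) (nat_lit 152) (nat_lit 18962921444) (nat_lit 76) (nat_lit 78658935740) (nat_lit 12) (nat_lit 5) (nat_lit 14) (nat_lit 5) (nat_lit 13) (nat_lit 4) (nat_lit 359) (nat_lit 312) (nat_lit 229)) (XT.lf (nat_lit 0) (nat_lit 33754182946) (nat_lit 76) (nat_lit 13770394100) (nat_lit 152) (nat_lit 80005505726) (nat_lit 11) (nat_lit 5) (nat_lit 12) (nat_lit 5) (nat_lit 13) (nat_lit 4) (nat_lit 360) (nat_lit 312) (nat_lit 228))))) (XT.nd (nat_lit 234) (nat_lit 152) (nat_lit 0)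 (XT.nd (nat_lit 78) (nat_lit 76) (nat_lit 0) (XT.lf (nat_lit 0) (nat_lit 75870557423) (nat_lit 152) (nat_lit 45158210507) (nat_lit 0) (nat_lit 15224312824) (nat_lit 11) (nat_lit 5) (nat_lit 13) (nat_lit 4) (nat_lit 11) (nat_lit 4) (nat_lit 361) (nat_lit 312) (nat_lit 227)) (XT.nd (nat_lit 78) (nat_lit 0) (nat_lit 0) (XT.lf (nat_lit 0) (nat_lit 7339220736) (nat_lit 76) (nat_lit 99485210620) (nat_lit 76) (nat_lit 38832478517) (nat_lit 10) (nat_lit 4) (nat_lit 11) (nat_lit 5) (nat_lit 11) (nat_lit 4) (nat_lit 362) (nat_lit 312) (nat_lit 226)) (XT.lf (nat_lit 0) (nat_lit 65637189514) (nat_lit 76) (nat_lit 75397789290) (nat_lit 76) (nat_lit 14739050238) (nat_lit 10) (nat_lit 4) (nat_lit 11) (nat_lit 5) (nat_lit 11) (nat_lit 4) (nat_lit 363) (nat_lit 312) (nat_lit 225)))) (XT.nd (nat_lit 78) (nat_lit 76) (nat_lit 0) (XT.lf (nat_lit 0) (nat_lit 10914866450) (nat_lit 152) (nat_lit 38288824816)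 (nat_lit 76) (nat_lit 117488315897) (nat_lit 9) (nat_lit 5) (nat_lit 11) (nat_lit 5) (nat_lit 10) (nat_lit 4) (nat_lit 364) (nat_lit 312) (nat_lit 224)) (XT.nd (nat_lit 78) (nat_lit 0) (nat_lit 0) (XT.lf (nat_lit 0) (nat_lit 18025084275) (nat_lit 76) (nat_lit 20362493922) (nat_lit 152) (nat_lit 140069622388) (nat_lit 8) (nat_lit 5) (nat_lit 9) (nat_lit 5) (nat_lit 10) (nat_lit 4) (nat_lit 365) (nat_lit 312) (nat_lit 223)) (XT.lf (nat_lit 0) (nat_lit 68899124740) (nat_lit 152) (nat_lit 111108281537) (nat_lit 0) (nat_lit 11114153749) (nat_lit 8) (nat_lit 5) (nat_lit 10) (nat_lit 4) (nat_lit 8) (nat_lit 4) (nat_lit 366) (nat_lit 312) (nat_lit 222))))))))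
noncomputable def xc71 : XT := (XT.nd (nat_lit 1794) (nat_lit 0) (nat_lit 0) (XT.nd (nat_lit 858) (nat_lit 228) (nat_lit 0) (XT.nd (nat_lit 390) (nat_lit 152) (nat_lit 0) (XT.nd (nat_lit 156) (nat_lit 76) (nat_lit 0) (XT.nd (nat_lit 78) (nat_lit 0) (nat_lit 0) (XT.lf (nat_lit 0) (nat_lit 102190052807) (nat_lit 152) (nat_lit 58191217076) (nat_lit 0) (nat_lit 44400876781) (nat_lit 8) (nat_lit 5) (nat_lit 10) (nat_lit 4) (nat_lit 8) (nat_lit 4) (nat_lit 367) (nat_lit 312) (nat_lit 221)) (XT.lf (nat_lit 0) (nat_lit 138139726376) (nat_lit 152) (nat_lit 1049424725) (nat_lit 0) (nat_lit 80346656800) (nat_lit 8) (nat_lit 5) (nat_lit 10) (nat_lit 4) (nat_lit 8) (nat_lit 4) (nat_lit 368) (nat_lit 312) (nat_lit 220))) (XT.nd (nat_lit 78) (nat_lit 0) (nat_lit 0) (XT.lf (nat_lit 0) (nat_lit 62661265360) (nat_lit 76) (nat_lit 115278233151) (nat_lit 76) (nat_lit 57481558436) (nat_lit 7) (nat_lit 4) (nat_lit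 8) (nat_lit 5) (nat_lit 8) (nat_lit 4) (nat_lit 369) (nat_lit 312) (nat_lit 219)) (XT.nd (nat_lit 78) (nat_lit 0) (nat_lit 0) (XT.lf (nat_lit 0) (nat_lit 131498635361) (nat_lit 76) (nat_lit 89438895254) (nat_lit 76) (nat_lit 31638882447) (nat_lit 7) (nat_lit 4) (nat_lit 8) (nat_lit 5) (nat_lit 8) (nat_lit 4) (nat_lit 370) (nat_lit 312) (nat_lit 218)) (XT.lf (nat_lit 0) (nat_lit 205835911712) (nat_lit 76) (nat_lit 61535787925) (nat_lit 76) (nat_lit 3732684291) (nat_lit 7) (nat_lit 4) (nat_lit 8) (nat_lit 5) (nat_lit 8) (nat_lit 4) (nat_lit 371) (nat_lit 312) (nat_lit 217))))) (XT.nd (nat_lit 234) (nat_lit 0) (nat_lit 0) (XT.nd (nat_lit 78) (nat_lit 76) (nat_lit 0) (XT.lf (nat_lit 0) (nat_lit 25557364211) (nat_lit 152) (nat_lit 5413368874) (nat_lit 76) (nat_lit 260123421064) (nat_lit 6) (nat_lit 5) (nat_lit 8) (nat_lit 5) (nat_lit 7) (nat_lit 4) (nat_lit 372) (nat_lit 312) (nat_lit 216))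 (XT.nd (nat_lit 78) (nat_lit 0) (nat_lit 0) (XT.lf (nat_lit 0) (nat_lit 58061041241) (nat_lit 152) (nat_lit 251563728928) (nat_lit 0) (nat_lit 3005217056) (nat_lit 5) (nat_lit 5) (nat_lit 7) (nat_lit 4) (nat_lit 5) (nat_lit 4) (nat_lit 373) (nat_lit 312) (nat_lit 215)) (XT.lf (nat_lit 0) (nat_lit 93779951714) (nat_lit 152) (nat_lit 203356198239) (nat_lit 0) (nat_lit 38721790769) (nat_lit 5) (nat_lit 5) (nat_lit 7) (nat_lit 4) (nat_lit 5) (nat_lit 4) (nat_lit 374) (nat_lit 312) (nat_lit 214)))) (XT.nd (nat_lit 78) (nat_lit 0) (nat_lit 0) (XT.lf (nat_lit 0) (nat_lit 132353479555) (nat_lit 152) (nat_lit 151297641458) (nat_lit 0) (nat_lit 77293154944) (nat_lit 5) (nat_lit 5) (nat_lit 7) (nat_lit 4) (nat_lit 5) (nat_lit 4) (nat_lit 375) (nat_lit 312) (nat_lit 213)) (XT.nd (nat_lit 78) (nat_lit 0) (nat_lit 0) (XT.lf (nat_lit 0) (nat_lit 174010208634) (nat_lit 152) (nat_lit 95079563432) (nat_lit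 0) (nat_lit 118947880629) (nat_lit 5) (nat_lit 5) (nat_lit 7) (nat_lit 4) (nat_lit 5) (nat_lit 4) (nat_lit 376) (nat_lit 312) (nat_lit 212)) (XT.lf (nat_lit 0) (nat_lit 218996993642) (nat_lit 152) (nat_lit 34368819995) (nat_lit 0) (nat_lit 163932810642) (nat_lit 5) (nat_lit 5) (nat_lit 7) (nat_lit 4) (nat_lit 5) (nat_lit 4) (nat_lit 377) (nat_lit 312) (nat_lit 211)))))) (XT.nd (nat_lit 468) (nat_lit 152) (nat_lit 0) (XT.nd (nat_lit 234) (nat_lit 0) (nat_lit 0) (XT.nd (nat_lit 78) (nat_lit 0) (nat_lit 0) (XT.lf (nat_lit 0) (nat_lit 32225782515) (nat_lit 76) (nat_lit 235857775197) (nat_lit 76) (nat_lit 180791874609) (nat_lit 4) (nat_lit 4) (nat_lit 5) (nat_lit 5) (nat_lit 5) (nat_lit 4) (nat_lit 378) (nat_lit 312) (nat_lit 210)) (XT.nd (nat_lit 78) (nat_lit 0) (nat_lit 0) (XT.lf (nat_lit 0) (nat_lit 105371018384) (nat_lit 76) (nat_lit 216322516828) (nat_lit 76) (nat_lit 161255025881) (nat_lit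 4) (nat_lit 4) (nat_lit 5) (nat_lit 5) (nat_lit 5) (nat_lit 4) (nat_lit 379) (nat_lit 312) (nat_lit 209)) (XT.lf (nat_lit 0) (nat_lit 184363952460) (nat_lit 76) (nat_lit 195226326634) (nat_lit 76) (nat_lit 140157363132) (nat_lit 4) (nat_lit 4) (nat_lit 5) (nat_lit 5) (nat_lit 5) (nat_lit 4) (nat_lit 380) (nat_lit 312) (nat_lit 208)))) (XT.nd (nat_lit 78) (nat_lit 0) (nat_lit 0) (XT.lf (nat_lit 0) (nat_lit 269672691017) (nat_lit 76) (nat_lit 172444190154) (nat_lit 76) (nat_lit 117373863175) (nat_lit 4) (nat_lit 4) (nat_lit 5) (nat_lit 5) (nat_lit 5) (nat_lit 4) (nat_lit 381) (nat_lit 312) (nat_lit 207)) (XT.nd (nat_lit 78) (nat_lit 0) (nat_lit 0) (XT.lf (nat_lit 0) (nat_lit 361802767321) (nat_lit 76) (nat_lit 147841102135) (nat_lit 76) (nat_lit 92769512678) (nat_lit 4) (nat_lit 4) (nat_lit 5) (nat_lit 5) (nat_lit 5) (nat_lit 4) (nat_lit 382) (nat_lit 312) (nat_lit 206)) (XT.lf (nat_lit 0)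 (nat_lit 461300137380) (nat_lit 76) (nat_lit 121271266499) (nat_lit 76) (nat_lit 66198508081) (nat_lit 4) (nat_lit 4) (nat_lit 5) (nat_lit 5) (nat_lit 5) (nat_lit 4) (nat_lit 383) (nat_lit 312) (nat_lit 205))))) (XT.nd (nat_lit 234) (nat_lit 76) (nat_lit 0) (XT.nd (nat_lit 78) (nat_lit 76) (nat_lit 0) (XT.lf (nat_lit 0) (nat_lit 568754415239) (nat_lit 76) (nat_lit 92577232369) (nat_lit 76) (nat_lit 37503391579) (nat_lit 4) (nat_lit 4) (nat_lit 5) (nat_lit 5) (nat_lit 5) (nat_lit 4) (nat_lit 384) (nat_lit 312) (nat_lit 204)) (XT.nd (nat_lit 78) (nat_lit 76) (nat_lit 0) (XT.lf (nat_lit 0) (nat_lit 684802366989) (nat_lit 76) (nat_lit 61588961025) (nat_lit 76) (nat_lit 6514118038) (nat_lit 4) (nat_lit 4) (nat_lit 5) (nat_lit 5) (nat_lit 5) (nat_lit 4) (nat_lit 385) (nat_lit 312) (nat_lit 203)) (XT.lf (nat_lit 0) (nat_lit 26090289870) (nat_lit 152) (nat_lit 1590676711) (nat_lit 76) (nat_lit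 783599542642) (nat_lit 3) (nat_lit 5) (nat_lit 5) (nat_lit 5) (nat_lit 4) (nat_lit 4) (nat_lit 386) (nat_lit 312) (nat_lit 202)))) (XT.nd (nat_lit 78) (nat_lit 0) (nat_lit 0) (XT.lf (nat_lit 0) (nat_lit 62367710850) (nat_lit 152) (nat_lit 801974105888) (nat_lit 0) (nat_lit 9913777358) (nat_lit 2) (nat_lit 5) (nat_lit 4) (nat_lit 4) (nat_lit 2) (nat_lit 4) (nat_lit 387) (nat_lit 312) (nat_lit 201)) (XT.nd (nat_lit 78) (nat_lit 0) (nat_lit 0) (XT.lf (nat_lit 0) (nat_lit 102041072442) (nat_lit 152) (nat_lit 790616544951) (nat_lit 0) (nat_lit 49586381258) (nat_lit 2) (nat_lit 5) (nat_lit 4) (nat_lit 4) (nat_lit 2) (nat_lit 4) (nat_lit 388) (nat_lit 312) (nat_lit 200)) (XT.lf (nat_lit 0) (nat_lit 144887221914) (nat_lit 152) (nat_lit 778352478766) (nat_lit 0) (nat_lit 92431829165) (nat_lit 2) (nat_lit 5) (nat_lit 4) (nat_lit 4) (nat_lit 2) (nat_lit 4) (nat_lit 389) (nat_lit 312) (nat_lit 199)))))))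 (XT.nd (nat_lit 41652) (nat_lit 0) (nat_lit 3344) (XT.nd (nat_lit 41184) (nat_lit 0) (nat_lit 5928) (XT.nd (nat_lit 40950) (nat_lit 0) (nat_lit 7448) (XT.nd (nat_lit 40872) (nat_lit 0) (nat_lit 7448) (XT.lf (nat_lit 0) (nat_lit 191160062376) (nat_lit 152) (nat_lit 765109231384) (nat_lit 0) (nat_lit 138704020029) (nat_lit 2) (nat_lit 5) (nat_lit 4) (nat_lit 4) (nat_lit 2) (nat_lit 4) (nat_lit 390) (nat_lit 312) (nat_lit 198)) (XT.lf (nat_lit 0) (nat_lit 1002914624) (nat_lit 0) (nat_lit 1002914624) (nat_lit 684) (nat_lit 3721920433) (nat_lit 100) (nat_lit 5) (nat_lit 100) (nat_lit 3) (nat_lit 109) (nat_lit 3) (nat_lit 313) (nat_lit 313) (nat_lit 274))) (XT.nd (nat_lit 78) (nat_lit 0) (nat_lit 76) (XT.lf (nat_lit 0) (nat_lit 5052549241) (nat_lit 684) (nat_lit 1025280556) (nat_lit 760) (nat_lit 5790657782) (nat_lit 100) (nat_lit 5) (nat_lit 109) (nat_lit 3) (nat_lit 110) (nat_lit 5) (nat_lit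 314) (nat_lit 313) (nat_lit 273)) (XT.nd (nat_lit 78) (nat_lit 0) (nat_lit 0) (XT.lf (nat_lit 0) (nat_lit 6292559456) (nat_lit 684) (nat_lit 4082048372) (nat_lit 760) (nat_lit 1934235726) (nat_lit 101) (nat_lit 5) (nat_lit 110) (nat_lit 5) (nat_lit 111) (nat_lit 5) (nat_lit 315) (nat_lit 313) (nat_lit 272)) (XT.lf (nat_lit 76) (nat_lit 5498966660) (nat_lit 0) (nat_lit 2266779359) (nat_lit 760) (nat_lit 5012095352) (nat_lit 102) (nat_lit 5) (nat_lit 101) (nat_lit 5) (nat_lit 111) (nat_lit 5) (nat_lit 316) (nat_lit 313) (nat_lit 271))))) (XT.nd (nat_lit 234) (nat_lit 1672) (nat_lit 0) (XT.nd (nat_lit 78) (nat_lit 0) (nat_lit 76) (XT.lf (nat_lit 76) (nat_lit 2645389339) (nat_lit 0) (nat_lit 6858825352) (nat_lit 760) (nat_lit 3772876797) (nat_lit 103) (nat_lit 5) (nat_lit 102) (nat_lit 5) (nat_lit 112) (nat_lit 5) (nat_lit 317) (nat_lit 313) (nat_lit 270)) (XT.nd (nat_lit 78) (nat_lit 0) (nat_lit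 0) (XT.lf (nat_lit 0) (nat_lit 11515051602) (nat_lit 684) (nat_lit 305490064) (nat_lit 760) (nat_lit 1989171554) (nat_lit 103) (nat_lit 5) (nat_lit 112) (nat_lit 5) (nat_lit 113) (nat_lit 5) (nat_lit 318) (nat_lit 313) (nat_lit 269)) (XT.lf (nat_lit 76) (nat_lit 11038498672) (nat_lit 0) (nat_lit 2877987076) (nat_lit 760) (nat_lit 457061450) (nat_lit 104) (nat_lit 5) (nat_lit 103) (nat_lit 5) (nat_lit 113) (nat_lit 5) (nat_lit 319) (nat_lit 313) (nat_lit 268)))) (XT.nd (nat_lit 78) (nat_lit 1064) (nat_lit 0) (XT.lf (nat_lit 0) (nat_lit 1670167469) (nat_lit 760) (nat_lit 6564284942) (nat_lit 76) (nat_lit 6737345931) (nat_lit 94) (nat_lit 5) (nat_lit 104) (nat_lit 5) (nat_lit 95) (nat_lit 5) (nat_lit 320) (nat_lit 313) (nat_lit 267)) (XT.nd (nat_lit 78) (nat_lit 380) (nat_lit 0) (XT.lf (nat_lit 0) (nat_lit 4120442364) (nat_lit 760) (nat_lit 9963798726) (nat_lit 76) (nat_lit 1524922490) (nat_lit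 85) (nat_lit 5) (nat_lit 95) (nat_lit 5) (nat_lit 86) (nat_lit 5) (nat_lit 321) (nat_lit 313) (nat_lit 266)) (XT.lf (nat_lit 0) (nat_lit 2671937946) (nat_lit 380) (nat_lit 4342762596) (nat_lit 456) (nat_lit 9270486734) (nat_lit 80) (nat_lit 5) (nat_lit 85) (nat_lit 5) (nat_lit 86) (nat_lit 5) (nat_lit 322) (nat_lit 313) (nat_lit 265)))))) (XT.nd (nat_lit 468) (nat_lit 1064) (nat_lit 0) (XT.nd (nat_lit 234) (nat_lit 836) (nat_lit 0) (XT.nd (nat_lit 78) (nat_lit 684) (nat_lit 0) (XT.lf (nat_lit 0) (nat_lit 10367462840) (nat_lit 456) (nat_lit 479147078) (nat_lit 76) (nat_lit 6157397095) (nat_lit 80) (nat_lit 5) (nat_lit 86) (nat_lit 5) (nat_lit 81) (nat_lit 5) (nat_lit 323) (nat_lit 313) (nat_lit 264)) (XT.nd (nat_lit 78) (nat_lit 380) (nat_lit 0) (XT.lf (nat_lit 0) (nat_lit 14037706052) (nat_lit 304) (nat_lit 200633797) (nat_lit 380) (nat_lit 3529555492) (nat_lit 76) (nat_lit 5) (nat_lit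 80) (nat_lit 5) (nat_lit 81) (nat_lit 5) (nat_lit 324) (nat_lit 313) (nat_lit 263)) (XT.lf (nat_lit 0) (nat_lit 157715936) (nat_lit 380) (nat_lit 7298510554) (nat_lit 76) (nat_lit 11120547252) (nat_lit 71) (nat_lit 5) (nat_lit 76) (nat_lit 5) (nat_lit 72) (nat_lit 5) (nat_lit 325) (nat_lit 313) (nat_lit 262)))) (XT.nd (nat_lit 78) (nat_lit 532) (nat_lit 0) (XT.lf (nat_lit 0) (nat_lit 4243931519) (nat_lit 380) (nat_lit 11171559931) (nat_lit 76) (nat_lit 4020643956) (nat_lit 67) (nat_lit 5) (nat_lit 72) (nat_lit 5) (nat_lit 68) (nat_lit 5) (nat_lit 326) (nat_lit 313) (nat_lit 261)) (XT.nd (nat_lit 78) (nat_lit 228) (nat_lit 0) (XT.lf (nat_lit 0) (nat_lit 4963059788) (nat_lit 304) (nat_lit 3990122780) (nat_lit 380) (nat_lit 11396300147) (nat_lit 63) (nat_lit 5) (nat_lit 67) (nat_lit 5) (nat_lit 68) (nat_lit 5) (nat_lit 327) (nat_lit 313) (nat_lit 260)) (XT.lf (nat_lit 0) (nat_lit 1326961339)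 (nat_lit 228) (nat_lit 13026709098) (nat_lit 304) (nat_lit 6966542929) (nat_lit 60) (nat_lit 5) (nat_lit 63) (nat_lit 5) (nat_lit 64) (nat_lit 5) (nat_lit 328) (nat_lit 313) (nat_lit 259))))) (XT.nd (nat_lit 234) (nat_lit 456) (nat_lit 0) (XT.nd (nat_lit 78) (nat_lit 608) (nat_lit 0) (XT.lf (nat_lit 0) (nat_lit 19816053569) (nat_lit 228) (nat_lit 671893864) (nat_lit 304) (nat_lit 1865604930) (nat_lit 60) (nat_lit 5) (nat_lit 63) (nat_lit 5) (nat_lit 64) (nat_lit 5) (nat_lit 329) (nat_lit 313) (nat_lit 258)) (XT.nd (nat_lit 78) (nat_lit 228) (nat_lit 0) (XT.lf (nat_lit 0) (nat_lit 3960716972) (nat_lit 380) (nat_lit 6903314301) (nat_lit 76) (nat_lit 12581019963) (nat_lit 55) (nat_lit 5) (nat_lit 60) (nat_lit 5) (nat_lit 56) (nat_lit 5) (nat_lit 330) (nat_lit 313) (nat_lit 257)) (XT.lf (nat_lit 0) (nat_lit 10457530233) (nat_lit 304) (nat_lit 11702104626) (nat_lit 76) (nat_lit 2449249148) (nat_lit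 52) (nat_lit 5) (nat_lit 56) (nat_lit 5) (nat_lit 53) (nat_lit 5) (nat_lit 331) (nat_lit 313) (nat_lit 256)))) (XT.nd (nat_lit 78) (nat_lit 228) (nat_lit 0) (XT.lf (nat_lit 0) (nat_lit 8744630695) (nat_lit 228) (nat_lit 9143769314) (nat_lit 304) (nat_lit 7956736095) (nat_lit 49) (nat_lit 5) (nat_lit 52) (nat_lit 5) (nat_lit 53) (nat_lit 5) (nat_lit 332) (nat_lit 313) (nat_lit 255)) (XT.nd (nat_lit 78) (nat_lit 76) (nat_lit 0) (XT.lf (nat_lit 0) (nat_lit 4087691961) (nat_lit 152) (nat_lit 22147442669) (nat_lit 228) (nat_lit 929110157) (nat_lit 47) (nat_lit 5) (nat_lit 49) (nat_lit 5) (nat_lit 50) (nat_lit 5) (nat_lit 333) (nat_lit 313) (nat_lit 254)) (XT.lf (nat_lit 0) (nat_lit 6879113776) (nat_lit 228) (nat_lit 1292631350) (nat_lit 76) (nat_lit 20390381858) (nat_lit 46) (nat_lit 5) (nat_lit 49) (nat_lit 5) (nat_lit 47) (nat_lit 5) (nat_lit 334) (nat_lit 313) (nat_lit 253))))))))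
noncomputable def xc72 : XT := (XT.nd (nat_lit 1716) (nat_lit 836) (nat_lit 0) (XT.nd (nat_lit 858) (nat_lit 760) (nat_lit 0) (XT.nd (nat_lit 390) (nat_lit 836) (nat_lit 0) (XT.nd (nat_lit 156) (nat_lit 380) (nat_lit 0) (XT.nd (nat_lit 78) (nat_lit 152) (nat_lit 0) (XT.lf (nat_lit 0) (nat_lit 15728216268) (nat_lit 304) (nat_lit 7250979137) (nat_lit 76) (nat_lit 7069465558) (nat_lit 43) (nat_lit 5) (nat_lit 47) (nat_lit 5) (nat_lit 44) (nat_lit 5) (nat_lit 335) (nat_lit 313) (nat_lit 252)) (XT.lf (nat_lit 0) (nat_lit 17599624893) (nat_lit 152) (nat_lit 8098645740) (nat_lit 228) (nat_lit 5935215636) (nat_lit 41) (nat_lit 5) (nat_lit 43) (nat_lit 5) (nat_lit 44) (nat_lit 5) (nat_lit 336) (nat_lit 313) (nat_lit 251))) (XT.nd (nat_lit 78) (nat_lit 152) (nat_lit 0) (XT.lf (nat_lit 0) (nat_lit 3439701736) (nat_lit 228) (nat_lit 21811171416) (nat_lit 76) (nat_lit 8070867851) (nat_lit 38) (nat_lit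 5) (nat_lit 41) (nat_lit 5) (nat_lit 39) (nat_lit 5) (nat_lit 337) (nat_lit 313) (nat_lit 250)) (XT.nd (nat_lit 78) (nat_lit 0) (nat_lit 0) (XT.lf (nat_lit 0) (nat_lit 4332295017) (nat_lit 152) (nat_lit 9459111904) (nat_lit 228) (nat_lit 21327063654) (nat_lit 36) (nat_lit 5) (nat_lit 38) (nat_lit 5) (nat_lit 39) (nat_lit 5) (nat_lit 338) (nat_lit 313) (nat_lit 249)) (XT.lf (nat_lit 0) (nat_lit 25456165846) (nat_lit 228) (nat_lit 3850646365) (nat_lit 76) (nat_lit 7727895400) (nat_lit 36) (nat_lit 5) (nat_lit 39) (nat_lit 5) (nat_lit 37) (nat_lit 5) (nat_lit 339) (nat_lit 313) (nat_lit 248))))) (XT.nd (nat_lit 234) (nat_lit 304) (nat_lit 0) (XT.nd (nat_lit 78) (nat_lit 380) (nat_lit 0) (XT.lf (nat_lit 0) (nat_lit 25878892914) (nat_lit 152) (nat_lit 12720379951) (nat_lit 228) (nat_lit 477726232) (nat_lit 34) (nat_lit 5) (nat_lit 36) (nat_lit 5) (nat_lit 37) (nat_lit 5) (nat_lit 340) (nat_lit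 313) (nat_lit 247)) (XT.nd (nat_lit 78) (nat_lit 152) (nat_lit 0) (XT.lf (nat_lit 0) (nat_lit 11550823277) (nat_lit 228) (nat_lit 24161865178) (nat_lit 76) (nat_lit 5540606717) (nat_lit 31) (nat_lit 5) (nat_lit 34) (nat_lit 5) (nat_lit 32) (nat_lit 5) (nat_lit 341) (nat_lit 313) (nat_lit 246)) (XT.lf (nat_lit 0) (nat_lit 6641112181) (nat_lit 152) (nat_lit 18418839395) (nat_lit 228) (nat_lit 18516611493) (nat_lit 29) (nat_lit 5) (nat_lit 31) (nat_lit 5) (nat_lit 32) (nat_lit 5) (nat_lit 342) (nat_lit 313) (nat_lit 245)))) (XT.nd (nat_lit 78) (nat_lit 304) (nat_lit 0) (XT.lf (nat_lit 0) (nat_lit 40065259745) (nat_lit 228) (nat_lit 5332222450) (nat_lit 76) (nat_lit 667448196) (nat_lit 29) (nat_lit 5) (nat_lit 32) (nat_lit 5) (nat_lit 30) (nat_lit 4) (nat_lit 343) (nat_lit 313) (nat_lit 244)) (XT.nd (nat_lit 78) (nat_lit 152) (nat_lit 0) (XT.lf (nat_lit 0) (nat_lit 8044839535) (nat_lit 152)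 (nat_lit 19440324951) (nat_lit 76) (nat_lit 21222999660) (nat_lit 27) (nat_lit 5) (nat_lit 29) (nat_lit 5) (nat_lit 28) (nat_lit 5) (nat_lit 344) (nat_lit 313) (nat_lit 243)) (XT.lf (nat_lit 0) (nat_lit 15640928162) (nat_lit 152) (nat_lit 7688534377) (nat_lit 228) (nat_lit 28212147289) (nat_lit 25) (nat_lit 5) (nat_lit 27) (nat_lit 5) (nat_lit 28) (nat_lit 5) (nat_lit 345) (nat_lit 313) (nat_lit 242)))))) (XT.nd (nat_lit 390) (nat_lit 380) (nat_lit 0) (XT.nd (nat_lit 156) (nat_lit 228) (nat_lit 0) (XT.nd (nat_lit 78) (nat_lit 152) (nat_lit 0) (XT.lf (nat_lit 0) (nat_lit 40380702814) (nat_lit 228) (nat_lit 605783606) (nat_lit 76) (nat_lit 13588060295) (nat_lit 25) (nat_lit 5) (nat_lit 28) (nat_lit 5) (nat_lit 26) (nat_lit 4) (nat_lit 346) (nat_lit 313) (nat_lit 241)) (XT.lf (nat_lit 0) (nat_lit 1646594892) (nat_lit 152) (nat_lit 19245096460) (nat_lit 76) (nat_lit 36921148427) (nat_lit 23)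 (nat_lit 5) (nat_lit 25) (nat_lit 5) (nat_lit 24) (nat_lit 5) (nat_lit 347) (nat_lit 313) (nat_lit 240))) (XT.nd (nat_lit 78) (nat_lit 76) (nat_lit 0) (XT.lf (nat_lit 0) (nat_lit 18595130533) (nat_lit 228) (nat_lit 41340041602) (nat_lit 76) (nat_lit 1346489079) (nat_lit 21) (nat_lit 5) (nat_lit 24) (nat_lit 5) (nat_lit 22) (nat_lit 4) (nat_lit 348) (nat_lit 313) (nat_lit 239)) (XT.nd (nat_lit 78) (nat_lit 76) (nat_lit 0) (XT.lf (nat_lit 0) (nat_lit 37580369718) (nat_lit 228) (nat_lit 2440158559) (nat_lit 76) (nat_lit 24973425038) (nat_lit 21) (nat_lit 5) (nat_lit 24) (nat_lit 5) (nat_lit 22) (nat_lit 4) (nat_lit 349) (nat_lit 313) (nat_lit 238)) (XT.lf (nat_lit 0) (nat_lit 40859403198) (nat_lit 76) (nat_lit 17851672928) (nat_lit 152) (nat_lit 10260825800) (nat_lit 20) (nat_lit 5) (nat_lit 21) (nat_lit 5) (nat_lit 22) (nat_lit 4) (nat_lit 350) (nat_lit 313) (nat_lit 237))))) (XT.nd (nat_lit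 234) (nat_lit 152) (nat_lit 0) (XT.nd (nat_lit 78) (nat_lit 76) (nat_lit 0) (XT.lf (nat_lit 0) (nat_lit 8364046767) (nat_lit 152) (nat_lit 58582587253) (nat_lit 76) (nat_lit 6296786031) (nat_lit 18) (nat_lit 5) (nat_lit 20) (nat_lit 5) (nat_lit 19) (nat_lit 4) (nat_lit 351) (nat_lit 313) (nat_lit 236)) (XT.nd (nat_lit 78) (nat_lit 76) (nat_lit 0) (XT.lf (nat_lit 0) (nat_lit 28912427871) (nat_lit 152) (nat_lit 16473418709) (nat_lit 76) (nat_lit 32422756658) (nat_lit 18) (nat_lit 5) (nat_lit 20) (nat_lit 5) (nat_lit 19) (nat_lit 4) (nat_lit 352) (nat_lit 313) (nat_lit 235)) (XT.lf (nat_lit 0) (nat_lit 29945225610) (nat_lit 76) (nat_lit 21617224205) (nat_lit 152) (nat_lit 31153666939) (nat_lit 17) (nat_lit 5) (nat_lit 18) (nat_lit 5) (nat_lit 19) (nat_lit 4) (nat_lit 353) (nat_lit 313) (nat_lit 234)))) (XT.nd (nat_lit 78) (nat_lit 152) (nat_lit 0) (XT.lf (nat_lit 0) (nat_lit 76369992061) (nat_lit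 152) (nat_lit 7421515658) (nat_lit 0) (nat_lit 4207451586) (nat_lit 17) (nat_lit 5) (nat_lit 19) (nat_lit 4) (nat_lit 17) (nat_lit 4) (nat_lit 354) (nat_lit 313) (nat_lit 233)) (XT.nd (nat_lit 78) (nat_lit 0) (nat_lit 0) (XT.lf (nat_lit 0) (nat_lit 10191621503) (nat_lit 152) (nat_lit 51281066468) (nat_lit 76) (nat_lit 32172530703) (nat_lit 15) (nat_lit 5) (nat_lit 17) (nat_lit 5) (nat_lit 16) (nat_lit 4) (nat_lit 355) (nat_lit 313) (nat_lit 232)) (XT.lf (nat_lit 0) (nat_lit 33478825561) (nat_lit 152) (nat_lit 3552807480) (nat_lit 76) (nat_lit 62695597453) (nat_lit 15) (nat_lit 5) (nat_lit 17) (nat_lit 5) (nat_lit 16) (nat_lit 4) (nat_lit 356) (nat_lit 313) (nat_lit 231))))))) (XT.nd (nat_lit 858) (nat_lit 304) (nat_lit 0) (XT.nd (nat_lit 390) (nat_lit 228) (nat_lit 0) (XT.nd (nat_lit 156) (nat_lit 228) (nat_lit 0) (XT.nd (nat_lit 78) (nat_lit 0) (nat_lit 0) (XT.lf (nat_lit 0) (nat_lit 49565697156)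 (nat_lit 76) (nat_lit 9829340842) (nat_lit 152) (nat_lit 46862466591) (nat_lit 14) (nat_lit 5) (nat_lit 15) (nat_lit 5) (nat_lit 16) (nat_lit 4) (nat_lit 357) (nat_lit 313) (nat_lit 230)) (XT.lf (nat_lit 0) (nat_lit 87745104406) (nat_lit 152) (nat_lit 6566862668) (nat_lit 0) (nat_lit 18980208407) (nat_lit 14) (nat_lit 5) (nat_lit 16) (nat_lit 4) (nat_lit 14) (nat_lit 4) (nat_lit 358) (nat_lit 313) (nat_lit 229))) (XT.nd (nat_lit 78) (nat_lit 152) (nat_lit 0) (XT.lf (nat_lit 0) (nat_lit 48956207260) (nat_lit 76) (nat_lit 70330051278) (nat_lit 76) (nat_lit 1557209903) (nat_lit 13) (nat_lit 4) (nat_lit 14) (nat_lit 5) (nat_lit 14) (nat_lit 4) (nat_lit 359) (nat_lit 313) (nat_lit 228)) (XT.nd (nat_lit 78) (nat_lit 76) (nat_lit 0) (XT.lf (nat_lit 0) (nat_lit 23681905409) (nat_lit 152) (nat_lit 20232292114) (nat_lit 76) (nat_lit 85060185697) (nat_lit 12) (nat_lit 5) (nat_lit 14) (nat_lit 5) (nat_lit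 13) (nat_lit 4) (nat_lit 360) (nat_lit 313) (nat_lit 227)) (XT.lf (nat_lit 0) (nat_lit 36691417493) (nat_lit 76) (nat_lit 14761474008) (nat_lit 152) (nat_lit 86273240404) (nat_lit 11) (nat_lit 5) (nat_lit 12) (nat_lit 5) (nat_lit 13) (nat_lit 4) (nat_lit 361) (nat_lit 313) (nat_lit 226))))) (XT.nd (nat_lit 234) (nat_lit 152) (nat_lit 0) (XT.nd (nat_lit 78) (nat_lit 76) (nat_lit 0) (XT.lf (nat_lit 0) (nat_lit 82058789343) (nat_lit 152) (nat_lit 48547227181) (nat_lit 0) (nat_lit 16541344218) (nat_lit 11) (nat_lit 5) (nat_lit 13) (nat_lit 4) (nat_lit 11) (nat_lit 4) (nat_lit 362) (nat_lit 313) (nat_lit 225)) (XT.nd (nat_lit 78) (nat_lit 0) (nat_lit 0) (XT.lf (nat_lit 0) (nat_lit 8140279432) (nat_lit 76) (nat_lit 107343249419) (nat_lit 76) (nat_lit 41820242306) (nat_lit 10) (nat_lit 4) (nat_lit 11) (nat_lit 5) (nat_lit 11) (nat_lit 4) (nat_lit 363) (nat_lit 313) (nat_lit 224)) (XT.lf (nat_lit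 0) (nat_lit 71086239710) (nat_lit 76) (nat_lit 81336299423) (nat_lit 76) (nat_lit 15808142320) (nat_lit 10) (nat_lit 4) (nat_lit 11) (nat_lit 5) (nat_lit 11) (nat_lit 4) (nat_lit 364) (nat_lit 313) (nat_lit 223)))) (XT.nd (nat_lit 78) (nat_lit 76) (nat_lit 0) (XT.lf (nat_lit 0) (nat_lit 11886676348) (nat_lit 152) (nat_lit 41165239098) (nat_lit 76) (nat_lit 126970493209) (nat_lit 9) (nat_lit 5) (nat_lit 11) (nat_lit 5) (nat_lit 10) (nat_lit 4) (nat_lit 365) (nat_lit 313) (nat_lit 222)) (XT.nd (nat_lit 78) (nat_lit 0) (nat_lit 0) (XT.lf (nat_lit 0) (nat_lit 19645669327) (nat_lit 76) (nat_lit 21907018587) (nat_lit 152) (nat_lit 151176357570) (nat_lit 8) (nat_lit 5) (nat_lit 9) (nat_lit 5) (nat_lit 10) (nat_lit 4) (nat_lit 366) (nat_lit 313) (nat_lit 221)) (XT.lf (nat_lit 0) (nat_lit 74499408747) (nat_lit 152) (nat_lit 119828434274) (nat_lit 0) (nat_lit 12079000055) (nat_lit 8) (nat_lit 5)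 (nat_lit 10) (nat_lit 4) (nat_lit 8) (nat_lit 4) (nat_lit 367) (nat_lit 313) (nat_lit 220)))))) (XT.nd (nat_lit 468) (nat_lit 152) (nat_lit 0) (XT.nd (nat_lit 234) (nat_lit 76) (nat_lit 0) (XT.nd (nat_lit 78) (nat_lit 76) (nat_lit 0) (XT.lf (nat_lit 0) (nat_lit 110447066317) (nat_lit 152) (nat_lit 62690486862) (nat_lit 0) (nat_lit 48023052485) (nat_lit 8) (nat_lit 5) (nat_lit 10) (nat_lit 4) (nat_lit 8) (nat_lit 4) (nat_lit 368) (nat_lit 313) (nat_lit 219)) (XT.nd (nat_lit 78) (nat_lit 76) (nat_lit 0) (XT.lf (nat_lit 0) (nat_lit 149266653825) (nat_lit 152) (nat_lit 988908722) (nat_lit 0) (nat_lit 86839301901) (nat_lit 8) (nat_lit 5) (nat_lit 10) (nat_lit 4) (nat_lit 8) (nat_lit 4) (nat_lit 369) (nat_lit 313) (nat_lit 218)) (XT.lf (nat_lit 0) (nat_lit 67812358081) (nat_lit 76) (nat_lit 124434596144) (nat_lit 76) (nat_lit 62004153394) (nat_lit 7) (nat_lit 4) (nat_lit 8) (nat_lit 5) (nat_lit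 8) (nat_lit 4) (nat_lit 370) (nat_lit 313) (nat_lit 217)))) (XT.nd (nat_lit 78) (nat_lit 76) (nat_lit 0) (XT.lf (nat_lit 0) (nat_lit 142146481275) (nat_lit 76) (nat_lit 96532992376) (nat_lit 76) (nat_lit 34099687749) (nat_lit 7) (nat_lit 4) (nat_lit 8) (nat_lit 5) (nat_lit 8) (nat_lit 4) (nat_lit 371) (nat_lit 313) (nat_lit 216)) (XT.nd (nat_lit 78) (nat_lit 76) (nat_lit 0) (XT.lf (nat_lit 0) (nat_lit 222421261579) (nat_lit 76) (nat_lit 66402156052) (nat_lit 76) (nat_lit 3966201541) (nat_lit 7) (nat_lit 4) (nat_lit 8) (nat_lit 5) (nat_lit 8) (nat_lit 4) (nat_lit 372) (nat_lit 313) (nat_lit 215)) (XT.lf (nat_lit 0) (nat_lit 27660299615) (nat_lit 152) (nat_lit 5734793897) (nat_lit 76) (nat_lit 280983661223) (nat_lit 6) (nat_lit 5) (nat_lit 8) (nat_lit 5) (nat_lit 7) (nat_lit 4) (nat_lit 373) (nat_lit 313) (nat_lit 214))))) (XT.nd (nat_lit 234) (nat_lit 76) (nat_lit 0) (XT.nd (nat_lit 78)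 (nat_lit 0) (nat_lit 0) (XT.lf (nat_lit 0) (nat_lit 62762414020) (nat_lit 152) (nat_lit 271580034569) (nat_lit 0) (nat_lit 3295099775) (nat_lit 5) (nat_lit 5) (nat_lit 7) (nat_lit 4) (nat_lit 5) (nat_lit 4) (nat_lit 374) (nat_lit 313) (nat_lit 213)) (XT.nd (nat_lit 78) (nat_lit 0) (nat_lit 0) (XT.lf (nat_lit 0) (nat_lit 101334652925) (nat_lit 152) (nat_lit 219523960142) (nat_lit 0) (nat_lit 41865335284) (nat_lit 5) (nat_lit 5) (nat_lit 7) (nat_lit 4) (nat_lit 5) (nat_lit 4) (nat_lit 375) (nat_lit 313) (nat_lit 212)) (XT.lf (nat_lit 0) (nat_lit 142990188543) (nat_lit 152) (nat_lit 163308180592) (nat_lit 0) (nat_lit 83519015908) (nat_lit 5) (nat_lit 5) (nat_lit 7) (nat_lit 4) (nat_lit 5) (nat_lit 4) (nat_lit 376) (nat_lit 313) (nat_lit 211)))) (XT.nd (nat_lit 78) (nat_lit 76) (nat_lit 0) (XT.lf (nat_lit 0) (nat_lit 187975868495) (nat_lit 152) (nat_lit 102599565375) (nat_lit 0) (nat_lit 128502978272)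 (nat_lit 5) (nat_lit 5) (nat_lit 7) (nat_lit 4) (nat_lit 5) (nat_lit 4) (nat_lit 377) (nat_lit 313) (nat_lit 210)) (XT.nd (nat_lit 78) (nat_lit 76) (nat_lit 0) (XT.lf (nat_lit 0) (nat_lit 236558274587) (nat_lit 152) (nat_lit 37038359732) (nat_lit 0) (nat_lit 177083794005) (nat_lit 5) (nat_lit 5) (nat_lit 7) (nat_lit 4) (nat_lit 5) (nat_lit 4) (nat_lit 378) (nat_lit 313) (nat_lit 209)) (XT.lf (nat_lit 0) (nat_lit 34880335759) (nat_lit 76) (nat_lit 254689546593) (nat_lit 76) (nat_lit 195213593456) (nat_lit 4) (nat_lit 4) (nat_lit 5) (nat_lit 5) (nat_lit 5) (nat_lit 4) (nat_lit 379) (nat_lit 313) (nat_lit 208))))))))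
noncomputable def xc73 : XT := (XT.nd (nat_lit 42588) (nat_lit 0) (nat_lit 1748) (XT.nd (nat_lit 41730) (nat_lit 0) (nat_lit 5624) (XT.nd (nat_lit 390) (nat_lit 152) (nat_lit 0) (XT.nd (nat_lit 156) (nat_lit 0) (nat_lit 0) (XT.nd (nat_lit 78) (nat_lit 0) (nat_lit 0) (XT.lf (nat_lit 0) (nat_lit 113871524525) (nat_lit 76) (nat_lit 233594197230) (nat_lit 76) (nat_lit 174116880617) (nat_lit 4) (nat_lit 4) (nat_lit 5) (nat_lit 5) (nat_lit 5) (nat_lit 4) (nat_lit 380) (nat_lit 313) (nat_lit 207)) (XT.lf (nat_lit 0) (nat_lit 199178647055) (nat_lit 76) (nat_lit 210812839298) (nat_lit 76) (nat_lit 151334260206) (nat_lit 4) (nat_lit 4) (nat_lit 5) (nat_lit 5) (nat_lit 5) (nat_lit 4) (nat_lit 381) (nat_lit 313) (nat_lit 206))) (XT.nd (nat_lit 78) (nat_lit 0) (nat_lit 0) (XT.lf (nat_lit 0) (nat_lit 291307227037) (nat_lit 76) (nat_lit 186210472156) (nat_lit 76) (nat_lit 126730724103) (nat_lit 4) (nat_lit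 4) (nat_lit 5) (nat_lit 5) (nat_lit 5) (nat_lit 4) (nat_lit 382) (nat_lit 313) (nat_lit 205)) (XT.nd (nat_lit 78) (nat_lit 0) (nat_lit 0) (XT.lf (nat_lit 0) (nat_lit 390803211613) (nat_lit 76) (nat_lit 159641304000) (nat_lit 76) (nat_lit 100160473575) (nat_lit 4) (nat_lit 4) (nat_lit 5) (nat_lit 5) (nat_lit 5) (nat_lit 4) (nat_lit 383) (nat_lit 313) (nat_lit 204)) (XT.lf (nat_lit 0) (nat_lit 498256206618) (nat_lit 76) (nat_lit 130947887906) (nat_lit 76) (nat_lit 71466055285) (nat_lit 4) (nat_lit 4) (nat_lit 5) (nat_lit 5) (nat_lit 5) (nat_lit 4) (nat_lit 384) (nat_lit 313) (nat_lit 203))))) (XT.nd (nat_lit 234) (nat_lit 76) (nat_lit 0) (XT.nd (nat_lit 78) (nat_lit 76) (nat_lit 0) (XT.lf (nat_lit 0) (nat_lit 614302970539) (nat_lit 76) (nat_lit 99960188818) (nat_lit 76) (nat_lit 40477428237) (nat_lit 4) (nat_lit 4) (nat_lit 5) (nat_lit 5) (nat_lit 5) (nat_lit 4) (nat_lit 385) (nat_lit 313)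 (nat_lit 202)) (XT.nd (nat_lit 78) (nat_lit 76) (nat_lit 0) (XT.lf (nat_lit 0) (nat_lit 739631187904) (nat_lit 76) (nat_lit 66494575924) (nat_lit 76) (nat_lit 7010956122) (nat_lit 4) (nat_lit 4) (nat_lit 5) (nat_lit 5) (nat_lit 5) (nat_lit 4) (nat_lit 386) (nat_lit 313) (nat_lit 201)) (XT.lf (nat_lit 0) (nat_lit 28199285174) (nat_lit 152) (nat_lit 1675880769) (nat_lit 76) (nat_lit 846306690732) (nat_lit 3) (nat_lit 5) (nat_lit 5) (nat_lit 5) (nat_lit 4) (nat_lit 4) (nat_lit 387) (nat_lit 313) (nat_lit 200)))) (XT.nd (nat_lit 78) (nat_lit 0) (nat_lit 0) (XT.lf (nat_lit 0) (nat_lit 67378218511) (nat_lit 152) (nat_lit 866091071462) (nat_lit 0) (nat_lit 10725692777) (nat_lit 2) (nat_lit 5) (nat_lit 4) (nat_lit 4) (nat_lit 2) (nat_lit 4) (nat_lit 388) (nat_lit 313) (nat_lit 199)) (XT.nd (nat_lit 78) (nat_lit 0) (nat_lit 0) (XT.lf (nat_lit 0) (nat_lit 110223886749) (nat_lit 152) (nat_lit 853827939940)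 (nat_lit 0) (nat_lit 53570711416) (nat_lit 2) (nat_lit 5) (nat_lit 4) (nat_lit 4) (nat_lit 2) (nat_lit 4) (nat_lit 389) (nat_lit 313) (nat_lit 198)) (XT.lf (nat_lit 0) (nat_lit 156496281623) (nat_lit 152) (nat_lit 840585557986) (nat_lit 0) (nat_lit 99842504811) (nat_lit 2) (nat_lit 5) (nat_lit 4) (nat_lit 4) (nat_lit 2) (nat_lit 4) (nat_lit 390) (nat_lit 313) (nat_lit 197)))))) (XT.nd (nat_lit 390) (nat_lit 1824) (nat_lit 0) (XT.nd (nat_lit 156) (nat_lit 0) (nat_lit 76) (XT.nd (nat_lit 78) (nat_lit 0) (nat_lit 0) (XT.lf (nat_lit 0) (nat_lit 1467197138) (nat_lit 0) (nat_lit 1467197138) (nat_lit 684) (nat_lit 3211989021) (nat_lit 100) (nat_lit 5) (nat_lit 100) (nat_lit 3) (nat_lit 109) (nat_lit 3) (nat_lit 314) (nat_lit 314) (nat_lit 272)) (XT.lf (nat_lit 0) (nat_lit 6868054294) (nat_lit 684) (nat_lit 311688574) (nat_lit 760) (nat_lit 5565470837) (nat_lit 100) (nat_lit 5) (nat_lit 109) (nat_lit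 3) (nat_lit 110) (nat_lit 5) (nat_lit 315) (nat_lit 314) (nat_lit 271))) (XT.nd (nat_lit 78) (nat_lit 0) (nat_lit 0) (XT.lf (nat_lit 0) (nat_lit 8105900674) (nat_lit 684) (nat_lit 3570910610) (nat_lit 760) (nat_lit 1549217167) (nat_lit 101) (nat_lit 5) (nat_lit 110) (nat_lit 5) (nat_lit 111) (nat_lit 5) (nat_lit 316) (nat_lit 314) (nat_lit 270)) (XT.nd (nat_lit 78) (nat_lit 0) (nat_lit 76) (XT.lf (nat_lit 76) (nat_lit 6740180132) (nat_lit 0) (nat_lit 2872240178) (nat_lit 760) (nat_lit 4124501934) (nat_lit 102) (nat_lit 5) (nat_lit 101) (nat_lit 5) (nat_lit 111) (nat_lit 5) (nat_lit 317) (nat_lit 314) (nat_lit 269)) (XT.lf (nat_lit 76) (nat_lit 3690229349) (nat_lit 0) (nat_lit 7715843217) (nat_lit 760) (nat_lit 2874373441) (nat_lit 103) (nat_lit 5) (nat_lit 102) (nat_lit 5) (nat_lit 112) (nat_lit 5) (nat_lit 318) (nat_lit 314) (nat_lit 268))))) (XT.nd (nat_lit 234) (nat_lit 1292) (nat_lit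 0) (XT.nd (nat_lit 78) (nat_lit 760) (nat_lit 0) (XT.lf (nat_lit 76) (nat_lit 517021685) (nat_lit 0) (nat_lit 12979812765) (nat_lit 760) (nat_lit 1363018776) (nat_lit 104) (nat_lit 5) (nat_lit 103) (nat_lit 5) (nat_lit 113) (nat_lit 5) (nat_lit 319) (nat_lit 314) (nat_lit 267)) (XT.nd (nat_lit 78) (nat_lit 0) (nat_lit 76) (XT.lf (nat_lit 0) (nat_lit 526738111) (nat_lit 760) (nat_lit 2765197230) (nat_lit 836) (nat_lit 12180234618) (nat_lit 93) (nat_lit 5) (nat_lit 103) (nat_lit 5) (nat_lit 104) (nat_lit 5) (nat_lit 320) (nat_lit 314) (nat_lit 266)) (XT.lf (nat_lit 0) (nat_lit 2743977896) (nat_lit 760) (nat_lit 6245729016) (nat_lit 76) (nat_lit 7131512398) (nat_lit 94) (nat_lit 5) (nat_lit 104) (nat_lit 5) (nat_lit 95) (nat_lit 5) (nat_lit 321) (nat_lit 314) (nat_lit 265)))) (XT.nd (nat_lit 78) (nat_lit 684) (nat_lit 0) (XT.lf (nat_lit 0) (nat_lit 5332042149) (nat_lit 760) (nat_lit 9907308144)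 (nat_lit 76) (nat_lit 1573232369) (nat_lit 85) (nat_lit 5) (nat_lit 95) (nat_lit 5) (nat_lit 86) (nat_lit 5) (nat_lit 322) (nat_lit 314) (nat_lit 264)) (XT.nd (nat_lit 78) (nat_lit 304) (nat_lit 0) (XT.lf (nat_lit 0) (nat_lit 3702191286) (nat_lit 380) (nat_lit 4703066826) (nat_lit 456) (nat_lit 9140149343) (nat_lit 80) (nat_lit 5) (nat_lit 85) (nat_lit 5) (nat_lit 86) (nat_lit 5) (nat_lit 323) (nat_lit 314) (nat_lit 263)) (XT.lf (nat_lit 0) (nat_lit 287361337) (nat_lit 304) (nat_lit 11681744660) (nat_lit 380) (nat_lit 6355566930) (nat_lit 76) (nat_lit 5) (nat_lit 80) (nat_lit 5) (nat_lit 81) (nat_lit 5) (nat_lit 324) (nat_lit 314) (nat_lit 262))))))) (XT.nd (nat_lit 858) (nat_lit 1596) (nat_lit 0) (XT.nd (nat_lit 390) (nat_lit 1064) (nat_lit 0) (XT.nd (nat_lit 156) (nat_lit 836) (nat_lit 0) (XT.nd (nat_lit 78) (nat_lit 380) (nat_lit 0) (XT.lf (nat_lit 0) (nat_lit 15921787694) (nat_lit 304)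 (nat_lit 178390236) (nat_lit 380) (nat_lit 3052045366) (nat_lit 76) (nat_lit 5) (nat_lit 80) (nat_lit 5) (nat_lit 81) (nat_lit 5) (nat_lit 325) (nat_lit 314) (nat_lit 261)) (XT.lf (nat_lit 0) (nat_lit 864070664) (nat_lit 380) (nat_lit 7095692732) (nat_lit 76) (nat_lit 12067614288) (nat_lit 71) (nat_lit 5) (nat_lit 76) (nat_lit 5) (nat_lit 72) (nat_lit 5) (nat_lit 326) (nat_lit 314) (nat_lit 260))) (XT.nd (nat_lit 78) (nat_lit 532) (nat_lit 0) (XT.lf (nat_lit 0) (nat_lit 5239080798) (nat_lit 380) (nat_lit 11280818548) (nat_lit 76) (nat_lit 4437557114) (nat_lit 67) (nat_lit 5) (nat_lit 72) (nat_lit 5) (nat_lit 68) (nat_lit 5) (nat_lit 327) (nat_lit 314) (nat_lit 259)) (XT.nd (nat_lit 78) (nat_lit 228) (nat_lit 0) (XT.lf (nat_lit 0) (nat_lit 6110478804) (nat_lit 304) (nat_lit 4177743034) (nat_lit 380) (nat_lit 11657550594) (nat_lit 63) (nat_lit 5) (nat_lit 67) (nat_lit 5) (nat_lit 68) (nat_lit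 5) (nat_lit 328) (nat_lit 314) (nat_lit 258)) (XT.lf (nat_lit 0) (nat_lit 2179209542) (nat_lit 228) (nat_lit 13909254167) (nat_lit 304) (nat_lit 6907366125) (nat_lit 60) (nat_lit 5) (nat_lit 63) (nat_lit 5) (nat_lit 64) (nat_lit 5) (nat_lit 329) (nat_lit 314) (nat_lit 257))))) (XT.nd (nat_lit 234) (nat_lit 456) (nat_lit 0) (XT.nd (nat_lit 78) (nat_lit 608) (nat_lit 0) (XT.lf (nat_lit 0) (nat_lit 22092163128) (nat_lit 228) (nat_lit 577875320) (nat_lit 304) (nat_lit 1444019771) (nat_lit 60) (nat_lit 5) (nat_lit 63) (nat_lit 5) (nat_lit 64) (nat_lit 5) (nat_lit 330) (nat_lit 314) (nat_lit 256)) (XT.nd (nat_lit 78) (nat_lit 228) (nat_lit 0) (XT.lf (nat_lit 0) (nat_lit 4802251003) (nat_lit 380) (nat_lit 6752512485) (nat_lit 76) (nat_lit 13739106363) (nat_lit 55) (nat_lit 5) (nat_lit 60) (nat_lit 5) (nat_lit 56) (nat_lit 5) (nat_lit 331) (nat_lit 314) (nat_lit 255)) (XT.lf (nat_lit 0) (nat_lit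 11793195182) (nat_lit 304) (nat_lit 11943185096) (nat_lit 76) (nat_lit 2815750536) (nat_lit 52) (nat_lit 5) (nat_lit 56) (nat_lit 5) (nat_lit 53) (nat_lit 5) (nat_lit 332) (nat_lit 314) (nat_lit 254)))) (XT.nd (nat_lit 78) (nat_lit 228) (nat_lit 0) (XT.lf (nat_lit 0) (nat_lit 10109081379) (nat_lit 228) (nat_lit 9682866211) (nat_lit 304) (nat_lit 8096702673) (nat_lit 49) (nat_lit 5) (nat_lit 52) (nat_lit 5) (nat_lit 53) (nat_lit 5) (nat_lit 333) (nat_lit 314) (nat_lit 253)) (XT.nd (nat_lit 78) (nat_lit 76) (nat_lit 0) (XT.lf (nat_lit 0) (nat_lit 5070868751) (nat_lit 152) (nat_lit 23713580015) (nat_lit 228) (nat_lit 529972517) (nat_lit 47) (nat_lit 5) (nat_lit 49) (nat_lit 5) (nat_lit 50) (nat_lit 5) (nat_lit 334) (nat_lit 314) (nat_lit 252)) (XT.lf (nat_lit 0) (nat_lit 7853806368) (nat_lit 228) (nat_lit 774067431) (nat_lit 76) (nat_lit 22197618998) (nat_lit 46) (nat_lit 5) (nat_lit 49) (nat_lit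 5) (nat_lit 47) (nat_lit 5) (nat_lit 335) (nat_lit 314) (nat_lit 251)))))) (XT.nd (nat_lit 468) (nat_lit 684) (nat_lit 0) (XT.nd (nat_lit 234) (nat_lit 304) (nat_lit 0) (XT.nd (nat_lit 78) (nat_lit 380) (nat_lit 0) (XT.lf (nat_lit 0) (nat_lit 17391700470) (nat_lit 304) (nat_lit 7218653827) (nat_lit 76) (nat_lit 7821580631) (nat_lit 43) (nat_lit 5) (nat_lit 47) (nat_lit 5) (nat_lit 44) (nat_lit 5) (nat_lit 336) (nat_lit 314) (nat_lit 250)) (XT.nd (nat_lit 78) (nat_lit 228) (nat_lit 0) (XT.lf (nat_lit 0) (nat_lit 19593384209) (nat_lit 152) (nat_lit 8545103981) (nat_lit 228) (nat_lit 6006128105) (nat_lit 41) (nat_lit 5) (nat_lit 43) (nat_lit 5) (nat_lit 44) (nat_lit 5) (nat_lit 337) (nat_lit 314) (nat_lit 249)) (XT.lf (nat_lit 0) (nat_lit 4088994378) (nat_lit 228) (nat_lit 22967380517) (nat_lit 76) (nat_lit 8912107607) (nat_lit 38) (nat_lit 5) (nat_lit 41) (nat_lit 5) (nat_lit 39) (nat_lit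 5) (nat_lit 338) (nat_lit 314) (nat_lit 248)))) (XT.nd (nat_lit 78) (nat_lit 152) (nat_lit 0) (XT.lf (nat_lit 0) (nat_lit 5241979715) (nat_lit 152) (nat_lit 10007935515) (nat_lit 228) (nat_lit 22660002872) (nat_lit 36) (nat_lit 5) (nat_lit 38) (nat_lit 5) (nat_lit 39) (nat_lit 5) (nat_lit 339) (nat_lit 314) (nat_lit 247)) (XT.nd (nat_lit 78) (nat_lit 152) (nat_lit 0) (XT.lf (nat_lit 0) (nat_lit 27824549614) (nat_lit 228) (nat_lit 3623619157) (nat_lit 76) (nat_lit 8532470618) (nat_lit 36) (nat_lit 5) (nat_lit 39) (nat_lit 5) (nat_lit 37) (nat_lit 5) (nat_lit 340) (nat_lit 314) (nat_lit 246)) (XT.lf (nat_lit 0) (nat_lit 28461029386) (nat_lit 152) (nat_lit 13541482350) (nat_lit 228) (nat_lit 184650672) (nat_lit 34) (nat_lit 5) (nat_lit 36) (nat_lit 5) (nat_lit 37) (nat_lit 5) (nat_lit 341) (nat_lit 314) (nat_lit 245))))) (XT.nd (nat_lit 234) (nat_lit 304) (nat_lit 0) (XT.nd (nat_lit 78) (nat_lit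 152) (nat_lit 0) (XT.lf (nat_lit 0) (nat_lit 12782677436) (nat_lit 228) (nat_lit 25582484978) (nat_lit 76) (nat_lit 6172802579) (nat_lit 31) (nat_lit 5) (nat_lit 34) (nat_lit 5) (nat_lit 32) (nat_lit 5) (nat_lit 342) (nat_lit 314) (nat_lit 244)) (XT.nd (nat_lit 78) (nat_lit 0) (nat_lit 0) (XT.lf (nat_lit 0) (nat_lit 7662465357) (nat_lit 152) (nat_lit 19694922783) (nat_lit 228) (nat_lit 19690478712) (nat_lit 29) (nat_lit 5) (nat_lit 31) (nat_lit 5) (nat_lit 32) (nat_lit 5) (nat_lit 343) (nat_lit 314) (nat_lit 243)) (XT.lf (nat_lit 0) (nat_lit 43544297911) (nat_lit 228) (nat_lit 5294167722) (nat_lit 76) (nat_lit 897793098) (nat_lit 29) (nat_lit 5) (nat_lit 32) (nat_lit 5) (nat_lit 30) (nat_lit 4) (nat_lit 344) (nat_lit 314) (nat_lit 242)))) (XT.nd (nat_lit 78) (nat_lit 152) (nat_lit 0) (XT.lf (nat_lit 0) (nat_lit 8953327379) (nat_lit 152) (nat_lit 20542197458) (nat_lit 76) (nat_lit 23095892890)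 (nat_lit 27) (nat_lit 5) (nat_lit 29) (nat_lit 5) (nat_lit 28) (nat_lit 5) (nat_lit 345) (nat_lit 314) (nat_lit 241)) (XT.nd (nat_lit 78) (nat_lit 0) (nat_lit 0) (XT.lf (nat_lit 0) (nat_lit 17325853714) (nat_lit 152) (nat_lit 8122014749) (nat_lit 228) (nat_lit 30204324635) (nat_lit 25) (nat_lit 5) (nat_lit 27) (nat_lit 5) (nat_lit 28) (nat_lit 5) (nat_lit 346) (nat_lit 314) (nat_lit 240)) (XT.lf (nat_lit 0) (nat_lit 43847162968) (nat_lit 228) (nat_lit 243541207) (nat_lit 76) (nat_lit 14837873607) (nat_lit 25) (nat_lit 5) (nat_lit 28) (nat_lit 5) (nat_lit 26) (nat_lit 4) (nat_lit 347) (nat_lit 314) (nat_lit 239))))))))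
noncomputable def xc74 : XT := (XT.nd (nat_lit 1716) (nat_lit 456) (nat_lit 0) (XT.nd (nat_lit 858) (nat_lit 456) (nat_lit 0) (XT.nd (nat_lit 390) (nat_lit 304) (nat_lit 0) (XT.nd (nat_lit 156) (nat_lit 228) (nat_lit 0) (XT.nd (nat_lit 78) (nat_lit 152) (nat_lit 0) (XT.lf (nat_lit 0) (nat_lit 2006779844) (nat_lit 152) (nat_lit 20384177181) (nat_lit 76) (nat_lit 40035370250) (nat_lit 23) (nat_lit 5) (nat_lit 25) (nat_lit 5) (nat_lit 24) (nat_lit 5) (nat_lit 348) (nat_lit 314) (nat_lit 238)) (XT.lf (nat_lit 0) (nat_lit 20302842703) (nat_lit 228) (nat_lit 44255725923) (nat_lit 76) (nat_lit 1614512232) (nat_lit 21) (nat_lit 5) (nat_lit 24) (nat_lit 5) (nat_lit 22) (nat_lit 4) (nat_lit 349) (nat_lit 314) (nat_lit 237))) (XT.nd (nat_lit 78) (nat_lit 228) (nat_lit 0) (XT.lf (nat_lit 0) (nat_lit 40790597192) (nat_lit 228) (nat_lit 2272853645) (nat_lit 76) (nat_lit 27119728695) (nat_lit 21) (nat_lit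 5) (nat_lit 24) (nat_lit 5) (nat_lit 22) (nat_lit 4) (nat_lit 350) (nat_lit 314) (nat_lit 236)) (XT.nd (nat_lit 78) (nat_lit 152) (nat_lit 0) (XT.lf (nat_lit 0) (nat_lit 44474918479) (nat_lit 76) (nat_lit 19127159434) (nat_lit 152) (nat_lit 10877777647) (nat_lit 20) (nat_lit 5) (nat_lit 21) (nat_lit 5) (nat_lit 22) (nat_lit 4) (nat_lit 351) (nat_lit 314) (nat_lit 235)) (XT.lf (nat_lit 0) (nat_lit 9223555891) (nat_lit 152) (nat_lit 62924031321) (nat_lit 76) (nat_lit 6945705399) (nat_lit 18) (nat_lit 5) (nat_lit 20) (nat_lit 5) (nat_lit 19) (nat_lit 4) (nat_lit 352) (nat_lit 314) (nat_lit 234))))) (XT.nd (nat_lit 234) (nat_lit 228) (nat_lit 0) (XT.nd (nat_lit 78) (nat_lit 76) (nat_lit 0) (XT.lf (nat_lit 0) (nat_lit 31401704862) (nat_lit 152) (nat_lit 17471696916) (nat_lit 76) (nat_lit 35150999862) (nat_lit 18) (nat_lit 5) (nat_lit 20) (nat_lit 5) (nat_lit 19) (nat_lit 4) (nat_lit 353) (nat_lit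 314) (nat_lit 233)) (XT.nd (nat_lit 78) (nat_lit 0) (nat_lit 0) (XT.lf (nat_lit 0) (nat_lit 32646549727) (nat_lit 76) (nat_lit 23208893781) (nat_lit 152) (nat_lit 33469492591) (nat_lit 17) (nat_lit 5) (nat_lit 18) (nat_lit 5) (nat_lit 19) (nat_lit 4) (nat_lit 354) (nat_lit 314) (nat_lit 232)) (XT.lf (nat_lit 0) (nat_lit 82637135612) (nat_lit 152) (nat_lit 7726323901) (nat_lit 0) (nat_lit 4667474410) (nat_lit 17) (nat_lit 5) (nat_lit 19) (nat_lit 4) (nat_lit 17) (nat_lit 4) (nat_lit 355) (nat_lit 314) (nat_lit 231)))) (XT.nd (nat_lit 78) (nat_lit 76) (nat_lit 0) (XT.lf (nat_lit 0) (nat_lit 11159660479) (nat_lit 152) (nat_lit 55102088080) (nat_lit 76) (nat_lit 34867394901) (nat_lit 15) (nat_lit 5) (nat_lit 17) (nat_lit 5) (nat_lit 16) (nat_lit 4) (nat_lit 356) (nat_lit 314) (nat_lit 230)) (XT.nd (nat_lit 78) (nat_lit 76) (nat_lit 0) (XT.lf (nat_lit 0) (nat_lit 36298529064) (nat_lit 152) (nat_lit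 3576417536) (nat_lit 76) (nat_lit 67823339454) (nat_lit 15) (nat_lit 5) (nat_lit 17) (nat_lit 5) (nat_lit 16) (nat_lit 4) (nat_lit 357) (nat_lit 314) (nat_lit 229)) (XT.lf (nat_lit 0) (nat_lit 53780241481) (nat_lit 76) (nat_lit 10501215224) (nat_lit 152) (nat_lit 50469858390) (nat_lit 14) (nat_lit 5) (nat_lit 15) (nat_lit 5) (nat_lit 16) (nat_lit 4) (nat_lit 358) (nat_lit 314) (nat_lit 228)))))) (XT.nd (nat_lit 390) (nat_lit 228) (nat_lit 0) (XT.nd (nat_lit 156) (nat_lit 152) (nat_lit 0) (XT.nd (nat_lit 78) (nat_lit 76) (nat_lit 0) (XT.lf (nat_lit 0) (nat_lit 94891196933) (nat_lit 152) (nat_lit 6856756893) (nat_lit 0) (nat_lit 20601226042) (nat_lit 14) (nat_lit 5) (nat_lit 16) (nat_lit 4) (nat_lit 14) (nat_lit 4) (nat_lit 359) (nat_lit 314) (nat_lit 227)) (XT.lf (nat_lit 0) (nat_lit 53097926052) (nat_lit 76) (nat_lit 75851864496) (nat_lit 76) (nat_lit 1555081725) (nat_lit 13) (nat_lit 4)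 (nat_lit 14) (nat_lit 5) (nat_lit 14) (nat_lit 4) (nat_lit 360) (nat_lit 314) (nat_lit 226))) (XT.nd (nat_lit 78) (nat_lit 76) (nat_lit 0) (XT.lf (nat_lit 0) (nat_lit 25690022305) (nat_lit 152) (nat_lit 21638544340) (nat_lit 76) (nat_lit 91958051905) (nat_lit 12) (nat_lit 5) (nat_lit 14) (nat_lit 5) (nat_lit 13) (nat_lit 4) (nat_lit 361) (nat_lit 314) (nat_lit 225)) (XT.nd (nat_lit 78) (nat_lit 0) (nat_lit 0) (XT.lf (nat_lit 0) (nat_lit 39829834383) (nat_lit 76) (nat_lit 15847611732) (nat_lit 152) (nat_lit 93061325820) (nat_lit 11) (nat_lit 5) (nat_lit 12) (nat_lit 5) (nat_lit 13) (nat_lit 4) (nat_lit 362) (nat_lit 314) (nat_lit 224)) (XT.lf (nat_lit 0) (nat_lit 88725162008) (nat_lit 152) (nat_lit 52239269960) (nat_lit 0) (nat_lit 17949602346) (nat_lit 11) (nat_lit 5) (nat_lit 13) (nat_lit 4) (nat_lit 11) (nat_lit 4) (nat_lit 363) (nat_lit 314) (nat_lit 223))))) (XT.nd (nat_lit 234) (nat_lit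 76) (nat_lit 0) (XT.nd (nat_lit 78) (nat_lit 76) (nat_lit 0) (XT.lf (nat_lit 0) (nat_lit 8974904596) (nat_lit 76) (nat_lit 115844308437) (nat_lit 76) (nat_lit 45063980266) (nat_lit 10) (nat_lit 4) (nat_lit 11) (nat_lit 5) (nat_lit 11) (nat_lit 4) (nat_lit 364) (nat_lit 314) (nat_lit 222)) (XT.nd (nat_lit 78) (nat_lit 76) (nat_lit 0) (XT.lf (nat_lit 0) (nat_lit 76942956303) (nat_lit 76) (nat_lit 87763202512) (nat_lit 76) (nat_lit 16978459054) (nat_lit 10) (nat_lit 4) (nat_lit 11) (nat_lit 5) (nat_lit 11) (nat_lit 4) (nat_lit 365) (nat_lit 314) (nat_lit 221)) (XT.lf (nat_lit 0) (nat_lit 12922161709) (nat_lit 152) (nat_lit 44298400180) (nat_lit 76) (nat_lit 137199387844) (nat_lit 9) (nat_lit 5) (nat_lit 11) (nat_lit 5) (nat_lit 10) (nat_lit 4) (nat_lit 366) (nat_lit 314) (nat_lit 220)))) (XT.nd (nat_lit 78) (nat_lit 0) (nat_lit 0) (XT.lf (nat_lit 0) (nat_lit 21370424991) (nat_lit 76) (nat_lit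 23587156507) (nat_lit 152) (nat_lit 163185731428) (nat_lit 8) (nat_lit 5) (nat_lit 9) (nat_lit 5) (nat_lit 10) (nat_lit 4) (nat_lit 367) (nat_lit 314) (nat_lit 219)) (XT.nd (nat_lit 78) (nat_lit 0) (nat_lit 0) (XT.lf (nat_lit 0) (nat_lit 80535110785) (nat_lit 152) (nat_lit 129270239035) (nat_lit 0) (nat_lit 13110232615) (nat_lit 8) (nat_lit 5) (nat_lit 10) (nat_lit 4) (nat_lit 8) (nat_lit 4) (nat_lit 368) (nat_lit 314) (nat_lit 218)) (XT.lf (nat_lit 0) (nat_lit 119352969898) (nat_lit 152) (nat_lit 67571957310) (nat_lit 0) (nat_lit 51925000902) (nat_lit 8) (nat_lit 5) (nat_lit 10) (nat_lit 4) (nat_lit 8) (nat_lit 4) (nat_lit 369) (nat_lit 314) (nat_lit 217))))))) (XT.nd (nat_lit 858) (nat_lit 152) (nat_lit 0) (XT.nd (nat_lit 390) (nat_lit 152) (nat_lit 0) (XT.nd (nat_lit 156) (nat_lit 76) (nat_lit 0) (XT.nd (nat_lit 78) (nat_lit 76) (nat_lit 0) (XT.lf (nat_lit 0) (nat_lit 161272928979) (nat_lit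 152) (nat_lit 944161697) (nat_lit 0) (nat_lit 93842098107) (nat_lit 8) (nat_lit 5) (nat_lit 10) (nat_lit 4) (nat_lit 8) (nat_lit 4) (nat_lit 370) (nat_lit 314) (nat_lit 216)) (XT.lf (nat_lit 0) (nat_lit 73355823658) (nat_lit 76) (nat_lit 134332868929) (nat_lit 76) (nat_lit 66899388172) (nat_lit 7) (nat_lit 4) (nat_lit 8) (nat_lit 5) (nat_lit 8) (nat_lit 4) (nat_lit 371) (nat_lit 314) (nat_lit 215))) (XT.nd (nat_lit 78) (nat_lit 76) (nat_lit 0) (XT.lf (nat_lit 0) (nat_lit 153627900639) (nat_lit 76) (nat_lit 104203321667) (nat_lit 76) (nat_lit 36767387312) (nat_lit 7) (nat_lit 4) (nat_lit 8) (nat_lit 5) (nat_lit 8) (nat_lit 4) (nat_lit 372) (nat_lit 314) (nat_lit 214)) (XT.nd (nat_lit 78) (nat_lit 76) (nat_lit 0) (XT.lf (nat_lit 0) (nat_lit 240316537378) (nat_lit 76) (nat_lit 71665893260) (nat_lit 76) (nat_lit 4227687056) (nat_lit 7) (nat_lit 4) (nat_lit 8) (nat_lit 5) (nat_lit 8) (nat_lit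 4) (nat_lit 373) (nat_lit 314) (nat_lit 213)) (XT.lf (nat_lit 0) (nat_lit 29923146103) (nat_lit 152) (nat_lit 6097860256) (nat_lit 76) (nat_lit 303505535253) (nat_lit 6) (nat_lit 5) (nat_lit 8) (nat_lit 5) (nat_lit 7) (nat_lit 4) (nat_lit 374) (nat_lit 314) (nat_lit 212))))) (XT.nd (nat_lit 234) (nat_lit 76) (nat_lit 0) (XT.nd (nat_lit 78) (nat_lit 0) (nat_lit 0) (XT.lf (nat_lit 0) (nat_lit 67831837766) (nat_lit 152) (nat_lit 293213165152) (nat_lit 0) (nat_lit 3601116325) (nat_lit 5) (nat_lit 5) (nat_lit 7) (nat_lit 4) (nat_lit 5) (nat_lit 4) (nat_lit 375) (nat_lit 314) (nat_lit 211)) (XT.nd (nat_lit 78) (nat_lit 0) (nat_lit 0) (XT.lf (nat_lit 0) (nat_lit 109486268329) (nat_lit 152) (nat_lit 236999513822) (nat_lit 0) (nat_lit 45253829300) (nat_lit 5) (nat_lit 5) (nat_lit 7) (nat_lit 4) (nat_lit 5) (nat_lit 4) (nat_lit 376) (nat_lit 314) (nat_lit 210)) (XT.lf (nat_lit 0) (nat_lit 154470925081)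 (nat_lit 152) (nat_lit 176292869177) (nat_lit 0) (nat_lit 90236895693) (nat_lit 5) (nat_lit 5) (nat_lit 7) (nat_lit 4) (nat_lit 5) (nat_lit 4) (nat_lit 377) (nat_lit 314) (nat_lit 209)))) (XT.nd (nat_lit 78) (nat_lit 76) (nat_lit 0) (XT.lf (nat_lit 0) (nat_lit 203052383766) (nat_lit 152) (nat_lit 110733488139) (nat_lit 0) (nat_lit 138816881823) (nat_lit 5) (nat_lit 5) (nat_lit 7) (nat_lit 4) (nat_lit 5) (nat_lit 4) (nat_lit 378) (nat_lit 314) (nat_lit 208)) (XT.nd (nat_lit 78) (nat_lit 76) (nat_lit 0) (XT.lf (nat_lit 0) (nat_lit 255518534509) (nat_lit 152) (nat_lit 39932870672) (nat_lit 0) (nat_lit 191281669090) (nat_lit 5) (nat_lit 5) (nat_lit 7) (nat_lit 4) (nat_lit 5) (nat_lit 4) (nat_lit 379) (nat_lit 314) (nat_lit 207)) (XT.lf (nat_lit 0) (nat_lit 37736341018) (nat_lit 76) (nat_lit 275033116854) (nat_lit 76) (nat_lit 210794988956) (nat_lit 4) (nat_lit 4) (nat_lit 5) (nat_lit 5) (nat_lit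 5) (nat_lit 4) (nat_lit 380) (nat_lit 314) (nat_lit 206)))))) (XT.nd (nat_lit 468) (nat_lit 152) (nat_lit 0) (XT.nd (nat_lit 234) (nat_lit 0) (nat_lit 0) (XT.nd (nat_lit 78) (nat_lit 0) (nat_lit 0) (XT.lf (nat_lit 0) (nat_lit 123041967226) (nat_lit 76) (nat_lit 252252479799) (nat_lit 76) (nat_lit 188013182940) (nat_lit 4) (nat_lit 4) (nat_lit 5) (nat_lit 5) (nat_lit 5) (nat_lit 4) (nat_lit 381) (nat_lit 314) (nat_lit 205)) (XT.nd (nat_lit 78) (nat_lit 0) (nat_lit 0) (XT.lf (nat_lit 0) (nat_lit 215169161725) (nat_lit 76) (nat_lit 227650780136) (nat_lit 76) (nat_lit 163410400906) (nat_lit 4) (nat_lit 4) (nat_lit 5) (nat_lit 5) (nat_lit 5) (nat_lit 4) (nat_lit 382) (nat_lit 314) (nat_lit 204)) (XT.lf (nat_lit 0) (nat_lit 314663863447) (nat_lit 76) (nat_lit 201082230016) (nat_lit 76) (nat_lit 136840848590) (nat_lit 4) (nat_lit 4) (nat_lit 5) (nat_lit 5) (nat_lit 5) (nat_lit 4) (nat_lit 383)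 (nat_lit 314) (nat_lit 203)))) (XT.nd (nat_lit 78) (nat_lit 0) (nat_lit 0) (XT.lf (nat_lit 0) (nat_lit 422115670623) (nat_lit 76) (nat_lit 172389386179) (nat_lit 76) (nat_lit 108147076793) (nat_lit 4) (nat_lit 4) (nat_lit 5) (nat_lit 5) (nat_lit 5) (nat_lit 4) (nat_lit 384) (nat_lit 314) (nat_lit 202)) (XT.nd (nat_lit 78) (nat_lit 0) (nat_lit 0) (XT.lf (nat_lit 0) (nat_lit 538161334703) (nat_lit 76) (nat_lit 141402216956) (nat_lit 76) (nat_lit 77159048349) (nat_lit 4) (nat_lit 4) (nat_lit 5) (nat_lit 5) (nat_lit 5) (nat_lit 4) (nat_lit 385) (nat_lit 314) (nat_lit 201)) (XT.lf (nat_lit 0) (nat_lit 663488533697) (nat_lit 76) (nat_lit 107937094680) (nat_lit 76) (nat_lit 43693130497) (nat_lit 4) (nat_lit 4) (nat_lit 5) (nat_lit 5) (nat_lit 5) (nat_lit 4) (nat_lit 386) (nat_lit 314) (nat_lit 200))))) (XT.nd (nat_lit 234) (nat_lit 0) (nat_lit 0) (XT.nd (nat_lit 78) (nat_lit 152) (nat_lit 0) (XT.lf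 (nat_lit 0) (nat_lit 798839947302) (nat_lit 76) (nat_lit 71795707514) (nat_lit 76) (nat_lit 7551006686) (nat_lit 4) (nat_lit 4) (nat_lit 5) (nat_lit 5) (nat_lit 5) (nat_lit 4) (nat_lit 387) (nat_lit 314) (nat_lit 199)) (XT.nd (nat_lit 78) (nat_lit 76) (nat_lit 0) (XT.lf (nat_lit 0) (nat_lit 30473894068) (nat_lit 152) (nat_lit 1773900065) (nat_lit 76) (nat_lit 914027673760) (nat_lit 3) (nat_lit 5) (nat_lit 5) (nat_lit 5) (nat_lit 4) (nat_lit 4) (nat_lit 388) (nat_lit 314) (nat_lit 198)) (XT.lf (nat_lit 0) (nat_lit 72786557948) (nat_lit 152) (nat_lit 935343238098) (nat_lit 0) (nat_lit 11599877511) (nat_lit 2) (nat_lit 5) (nat_lit 4) (nat_lit 4) (nat_lit 2) (nat_lit 4) (nat_lit 389) (nat_lit 314) (nat_lit 197)))) (XT.nd (nat_lit 41028) (nat_lit 0) (nat_lit 7448) (XT.lf (nat_lit 0) (nat_lit 119058540240) (nat_lit 152) (nat_lit 922101657467) (nat_lit 0) (nat_lit 57871302878) (nat_lit 2) (nat_lit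 5) (nat_lit 4) (nat_lit 4) (nat_lit 2) (nat_lit 4) (nat_lit 390) (nat_lit 314) (nat_lit 196)) (XT.nd (nat_lit 78) (nat_lit 0) (nat_lit 0) (XT.lf (nat_lit 0) (nat_lit 1913833320) (nat_lit 0) (nat_lit 1913833320) (nat_lit 684) (nat_lit 2776488397) (nat_lit 100) (nat_lit 5) (nat_lit 100) (nat_lit 3) (nat_lit 109) (nat_lit 3) (nat_lit 315) (nat_lit 315) (nat_lit 270)) (XT.lf (nat_lit 76) (nat_lit 356910848) (nat_lit 0) (nat_lit 8276123400) (nat_lit 760) (nat_lit 5069144067) (nat_lit 101) (nat_lit 5) (nat_lit 100) (nat_lit 5) (nat_lit 110) (nat_lit 5) (nat_lit 316) (nat_lit 315) (nat_lit 269))))))))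
noncomputable def xc75 : XT := (XT.nd (nat_lit 1794) (nat_lit 1976) (nat_lit 0) (XT.nd (nat_lit 858) (nat_lit 2508) (nat_lit 0) (XT.nd (nat_lit 390) (nat_lit 1672) (nat_lit 0) (XT.nd (nat_lit 156) (nat_lit 608) (nat_lit 0) (XT.nd (nat_lit 78) (nat_lit 0) (nat_lit 0) (XT.lf (nat_lit 0) (nat_lit 9877432109) (nat_lit 684) (nat_lit 3138389331) (nat_lit 760) (nat_lit 1210399554) (nat_lit 101) (nat_lit 5) (nat_lit 110) (nat_lit 5) (nat_lit 111) (nat_lit 5) (nat_lit 317) (nat_lit 315) (nat_lit 268)) (XT.lf (nat_lit 76) (nat_lit 7966376829) (nat_lit 0) (nat_lit 3465632621) (nat_lit 760) (nat_lit 3349728681) (nat_lit 102) (nat_lit 5) (nat_lit 101) (nat_lit 5) (nat_lit 111) (nat_lit 5) (nat_lit 318) (nat_lit 315) (nat_lit 267))) (XT.nd (nat_lit 78) (nat_lit 684) (nat_lit 0) (XT.lf (nat_lit 76) (nat_lit 4699790000) (nat_lit 0) (nat_lit 8597438380) (nat_lit 760) (nat_lit 2075230810) (nat_lit 103) (nat_lit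 5) (nat_lit 102) (nat_lit 5) (nat_lit 112) (nat_lit 5) (nat_lit 319) (nat_lit 315) (nat_lit 266)) (XT.nd (nat_lit 78) (nat_lit 760) (nat_lit 0) (XT.lf (nat_lit 76) (nat_lit 1293860020) (nat_lit 0) (nat_lit 14196558771) (nat_lit 760) (nat_lit 511152113) (nat_lit 104) (nat_lit 5) (nat_lit 103) (nat_lit 5) (nat_lit 113) (nat_lit 5) (nat_lit 320) (nat_lit 315) (nat_lit 265)) (XT.lf (nat_lit 0) (nat_lit 1430130032) (nat_lit 760) (nat_lit 2275723462) (nat_lit 836) (nat_lit 12959811632) (nat_lit 93) (nat_lit 5) (nat_lit 103) (nat_lit 5) (nat_lit 104) (nat_lit 5) (nat_lit 321) (nat_lit 315) (nat_lit 264))))) (XT.nd (nat_lit 234) (nat_lit 684) (nat_lit 0) (XT.nd (nat_lit 78) (nat_lit 1064) (nat_lit 0) (XT.lf (nat_lit 0) (nat_lit 3769563541) (nat_lit 760) (nat_lit 6022051671) (nat_lit 76) (nat_lit 7577872546) (nat_lit 94) (nat_lit 5) (nat_lit 104) (nat_lit 5) (nat_lit 95) (nat_lit 5) (nat_lit 322)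 (nat_lit 315) (nat_lit 263)) (XT.nd (nat_lit 78) (nat_lit 380) (nat_lit 0) (XT.lf (nat_lit 0) (nat_lit 6514747836) (nat_lit 760) (nat_lit 9968073110) (nat_lit 76) (nat_lit 1635918874) (nat_lit 85) (nat_lit 5) (nat_lit 95) (nat_lit 5) (nat_lit 86) (nat_lit 5) (nat_lit 323) (nat_lit 315) (nat_lit 262)) (XT.lf (nat_lit 0) (nat_lit 4698382282) (nat_lit 380) (nat_lit 5090357459) (nat_lit 456) (nat_lit 9123782133) (nat_lit 80) (nat_lit 5) (nat_lit 85) (nat_lit 5) (nat_lit 86) (nat_lit 5) (nat_lit 324) (nat_lit 315) (nat_lit 261)))) (XT.nd (nat_lit 78) (nat_lit 380) (nat_lit 0) (XT.lf (nat_lit 0) (nat_lit 1015040205) (nat_lit 304) (nat_lit 12580826579) (nat_lit 380) (nat_lit 6160424724) (nat_lit 76) (nat_lit 5) (nat_lit 80) (nat_lit 5) (nat_lit 81) (nat_lit 5) (nat_lit 325) (nat_lit 315) (nat_lit 260)) (XT.nd (nat_lit 78) (nat_lit 380) (nat_lit 0) (XT.lf (nat_lit 0) (nat_lit 17848021413) (nat_lit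 304) (nat_lit 159830294) (nat_lit 380) (nat_lit 2644739032) (nat_lit 76) (nat_lit 5) (nat_lit 80) (nat_lit 5) (nat_lit 81) (nat_lit 5) (nat_lit 326) (nat_lit 315) (nat_lit 259)) (XT.lf (nat_lit 0) (nat_lit 1527964367) (nat_lit 380) (nat_lit 6988880845) (nat_lit 76) (nat_lit 13082254617) (nat_lit 71) (nat_lit 5) (nat_lit 76) (nat_lit 5) (nat_lit 72) (nat_lit 5) (nat_lit 327) (nat_lit 315) (nat_lit 258)))))) (XT.nd (nat_lit 468) (nat_lit 1064) (nat_lit 0) (XT.nd (nat_lit 234) (nat_lit 608) (nat_lit 0) (XT.nd (nat_lit 78) (nat_lit 532) (nat_lit 0) (XT.lf (nat_lit 0) (nat_lit 6220308391) (nat_lit 380) (nat_lit 11510730725) (nat_lit 76) (nat_lit 4874233186) (nat_lit 67) (nat_lit 5) (nat_lit 72) (nat_lit 5) (nat_lit 68) (nat_lit 5) (nat_lit 328) (nat_lit 315) (nat_lit 257)) (XT.nd (nat_lit 78) (nat_lit 228) (nat_lit 0) (XT.lf (nat_lit 0) (nat_lit 7242642068) (nat_lit 304) (nat_lit 4399145631)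 (nat_lit 380) (nat_lit 12032495549) (nat_lit 63) (nat_lit 5) (nat_lit 67) (nat_lit 5) (nat_lit 68) (nat_lit 5) (nat_lit 329) (nat_lit 315) (nat_lit 256)) (XT.lf (nat_lit 0) (nat_lit 2993199336) (nat_lit 228) (nat_lit 14885170377) (nat_lit 304) (nat_lit 6931405829) (nat_lit 60) (nat_lit 5) (nat_lit 63) (nat_lit 5) (nat_lit 64) (nat_lit 5) (nat_lit 330) (nat_lit 315) (nat_lit 255)))) (XT.nd (nat_lit 78) (nat_lit 608) (nat_lit 0) (XT.lf (nat_lit 0) (nat_lit 24451807504) (nat_lit 228) (nat_lit 497416342) (nat_lit 304) (nat_lit 1070143587) (nat_lit 60) (nat_lit 5) (nat_lit 63) (nat_lit 5) (nat_lit 64) (nat_lit 5) (nat_lit 331) (nat_lit 315) (nat_lit 254)) (XT.nd (nat_lit 78) (nat_lit 228) (nat_lit 0) (XT.lf (nat_lit 0) (nat_lit 5636256762) (nat_lit 380) (nat_lit 6689946886) (nat_lit 76) (nat_lit 14968211555) (nat_lit 55) (nat_lit 5) (nat_lit 60) (nat_lit 5) (nat_lit 56) (nat_lit 5) (nat_lit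 332) (nat_lit 315) (nat_lit 253)) (XT.lf (nat_lit 0) (nat_lit 13164516478) (nat_lit 304) (nat_lit 12302714063) (nat_lit 76) (nat_lit 3187239537) (nat_lit 52) (nat_lit 5) (nat_lit 56) (nat_lit 5) (nat_lit 53) (nat_lit 5) (nat_lit 333) (nat_lit 315) (nat_lit 252))))) (XT.nd (nat_lit 234) (nat_lit 608) (nat_lit 0) (XT.nd (nat_lit 78) (nat_lit 228) (nat_lit 0) (XT.lf (nat_lit 0) (nat_lit 11487835519) (nat_lit 228) (nat_lit 10292539533) (nat_lit 304) (nat_lit 8318708169) (nat_lit 49) (nat_lit 5) (nat_lit 52) (nat_lit 5) (nat_lit 53) (nat_lit 5) (nat_lit 334) (nat_lit 315) (nat_lit 251)) (XT.nd (nat_lit 78) (nat_lit 76) (nat_lit 0) (XT.lf (nat_lit 0) (nat_lit 6039090920) (nat_lit 152) (nat_lit 25434347772) (nat_lit 228) (nat_lit 166449149) (nat_lit 47) (nat_lit 5) (nat_lit 49) (nat_lit 5) (nat_lit 50) (nat_lit 5) (nat_lit 335) (nat_lit 315) (nat_lit 250)) (XT.lf (nat_lit 0) (nat_lit 8845934171)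 (nat_lit 228) (nat_lit 302750004) (nat_lit 76) (nat_lit 24124325801) (nat_lit 46) (nat_lit 5) (nat_lit 49) (nat_lit 5) (nat_lit 47) (nat_lit 5) (nat_lit 336) (nat_lit 315) (nat_lit 249)))) (XT.nd (nat_lit 78) (nat_lit 380) (nat_lit 0) (XT.lf (nat_lit 0) (nat_lit 19130453260) (nat_lit 304) (nat_lit 7271108719) (nat_lit 76) (nat_lit 8607250351) (nat_lit 43) (nat_lit 5) (nat_lit 47) (nat_lit 5) (nat_lit 44) (nat_lit 5) (nat_lit 337) (nat_lit 315) (nat_lit 248)) (XT.nd (nat_lit 78) (nat_lit 228) (nat_lit 0) (XT.lf (nat_lit 0) (nat_lit 21663074874) (nat_lit 152) (nat_lit 9056015611) (nat_lit 228) (nat_lit 6140335105) (nat_lit 41) (nat_lit 5) (nat_lit 43) (nat_lit 5) (nat_lit 44) (nat_lit 5) (nat_lit 338) (nat_lit 315) (nat_lit 247)) (XT.lf (nat_lit 0) (nat_lit 4736858529) (nat_lit 228) (nat_lit 24300068787) (nat_lit 76) (nat_lit 9792746249) (nat_lit 38) (nat_lit 5) (nat_lit 41) (nat_lit 5) (nat_lit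 39) (nat_lit 5) (nat_lit 339) (nat_lit 315) (nat_lit 246))))))) (XT.nd (nat_lit 858) (nat_lit 684) (nat_lit 0) (XT.nd (nat_lit 390) (nat_lit 608) (nat_lit 0) (XT.nd (nat_lit 156) (nat_lit 532) (nat_lit 0) (XT.nd (nat_lit 78) (nat_lit 0) (nat_lit 0) (XT.lf (nat_lit 0) (nat_lit 6144106522) (nat_lit 152) (nat_lit 10630325037) (nat_lit 228) (nat_lit 24152822072) (nat_lit 36) (nat_lit 5) (nat_lit 38) (nat_lit 5) (nat_lit 39) (nat_lit 5) (nat_lit 340) (nat_lit 315) (nat_lit 245)) (XT.lf (nat_lit 0) (nat_lit 30335056193) (nat_lit 228) (nat_lit 3454764763) (nat_lit 76) (nat_lit 9374827856) (nat_lit 36) (nat_lit 5) (nat_lit 39) (nat_lit 5) (nat_lit 37) (nat_lit 5) (nat_lit 341) (nat_lit 315) (nat_lit 244))) (XT.nd (nat_lit 78) (nat_lit 304) (nat_lit 0) (XT.lf (nat_lit 0) (nat_lit 81900198) (nat_lit 228) (nat_lit 14373022638) (nat_lit 76) (nat_lit 31093431994) (nat_lit 33) (nat_lit 5) (nat_lit 36)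 (nat_lit 5) (nat_lit 34) (nat_lit 5) (nat_lit 342) (nat_lit 315) (nat_lit 243)) (XT.nd (nat_lit 78) (nat_lit 152) (nat_lit 0) (XT.lf (nat_lit 0) (nat_lit 14069170486) (nat_lit 228) (nat_lit 27189843881) (nat_lit 76) (nat_lit 6828618662) (nat_lit 31) (nat_lit 5) (nat_lit 34) (nat_lit 5) (nat_lit 32) (nat_lit 5) (nat_lit 343) (nat_lit 315) (nat_lit 242)) (XT.lf (nat_lit 0) (nat_lit 8695613651) (nat_lit 152) (nat_lit 21101257550) (nat_lit 228) (nat_lit 21002118158) (nat_lit 29) (nat_lit 5) (nat_lit 31) (nat_lit 5) (nat_lit 32) (nat_lit 5) (nat_lit 344) (nat_lit 315) (nat_lit 241))))) (XT.nd (nat_lit 234) (nat_lit 304) (nat_lit 0) (XT.nd (nat_lit 78) (nat_lit 304) (nat_lit 0) (XT.lf (nat_lit 0) (nat_lit 47262596019) (nat_lit 228) (nat_lit 5319353641) (nat_lit 76) (nat_lit 1121321833) (nat_lit 29) (nat_lit 5) (nat_lit 32) (nat_lit 5) (nat_lit 30) (nat_lit 4) (nat_lit 345) (nat_lit 315) (nat_lit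 240)) (XT.nd (nat_lit 78) (nat_lit 152) (nat_lit 0) (XT.lf (nat_lit 0) (nat_lit 9896703207) (nat_lit 152) (nat_lit 21796895708) (nat_lit 76) (nat_lit 25093644275) (nat_lit 27) (nat_lit 5) (nat_lit 29) (nat_lit 5) (nat_lit 28) (nat_lit 5) (nat_lit 346) (nat_lit 315) (nat_lit 239)) (XT.lf (nat_lit 0) (nat_lit 19083708105) (nat_lit 152) (nat_lit 8616081160) (nat_lit 228) (nat_lit 32393652055) (nat_lit 25) (nat_lit 5) (nat_lit 27) (nat_lit 5) (nat_lit 28) (nat_lit 5) (nat_lit 347) (nat_lit 315) (nat_lit 238)))) (XT.nd (nat_lit 78) (nat_lit 228) (nat_lit 0) (XT.lf (nat_lit 0) (nat_lit 92034592) (nat_lit 76) (nat_lit 47466673661) (nat_lit 152) (nat_lit 16073853566) (nat_lit 24) (nat_lit 5) (nat_lit 25) (nat_lit 5) (nat_lit 26) (nat_lit 4) (nat_lit 348) (nat_lit 315) (nat_lit 237)) (XT.nd (nat_lit 78) (nat_lit 152) (nat_lit 0) (XT.lf (nat_lit 0) (nat_lit 2363187594) (nat_lit 152) (nat_lit 21671524014)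 (nat_lit 76) (nat_lit 43375828426) (nat_lit 23) (nat_lit 5) (nat_lit 25) (nat_lit 5) (nat_lit 24) (nat_lit 5) (nat_lit 349) (nat_lit 315) (nat_lit 236)) (XT.lf (nat_lit 0) (nat_lit 22115771875) (nat_lit 228) (nat_lit 47460519554) (nat_lit 76) (nat_lit 1881108076) (nat_lit 21) (nat_lit 5) (nat_lit 24) (nat_lit 5) (nat_lit 22) (nat_lit 4) (nat_lit 350) (nat_lit 315) (nat_lit 235)))))) (XT.nd (nat_lit 468) (nat_lit 380) (nat_lit 0) (XT.nd (nat_lit 234) (nat_lit 76) (nat_lit 0) (XT.nd (nat_lit 78) (nat_lit 228) (nat_lit 0) (XT.lf (nat_lit 0) (nat_lit 44228568814) (nat_lit 228) (nat_lit 2143881527) (nat_lit 76) (nat_lit 29416561496) (nat_lit 21) (nat_lit 5) (nat_lit 24) (nat_lit 5) (nat_lit 22) (nat_lit 4) (nat_lit 351) (nat_lit 315) (nat_lit 234)) (XT.nd (nat_lit 78) (nat_lit 152) (nat_lit 0) (XT.lf (nat_lit 0) (nat_lit 48330205360) (nat_lit 76) (nat_lit 20526461709) (nat_lit 152) (nat_lit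 11573176284) (nat_lit 20) (nat_lit 5) (nat_lit 21) (nat_lit 5) (nat_lit 22) (nat_lit 4) (nat_lit 352) (nat_lit 315) (nat_lit 233)) (XT.lf (nat_lit 0) (nat_lit 10124665141) (nat_lit 152) (nat_lit 67662032262) (nat_lit 76) (nat_lit 7625827267) (nat_lit 18) (nat_lit 5) (nat_lit 20) (nat_lit 5) (nat_lit 19) (nat_lit 4) (nat_lit 353) (nat_lit 315) (nat_lit 232)))) (XT.nd (nat_lit 78) (nat_lit 76) (nat_lit 0) (XT.lf (nat_lit 0) (nat_lit 34064975306) (nat_lit 152) (nat_lit 18595431221) (nat_lit 76) (nat_lit 38078325625) (nat_lit 18) (nat_lit 5) (nat_lit 20) (nat_lit 5) (nat_lit 19) (nat_lit 4) (nat_lit 354) (nat_lit 315) (nat_lit 231)) (XT.nd (nat_lit 78) (nat_lit 0) (nat_lit 0) (XT.lf (nat_lit 0) (nat_lit 35520367384) (nat_lit 76) (nat_lit 24947542560) (nat_lit 152) (nat_lit 35995759386) (nat_lit 17) (nat_lit 5) (nat_lit 18) (nat_lit 5) (nat_lit 19) (nat_lit 4) (nat_lit 355) (nat_lit 315) (nat_lit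 230)) (XT.lf (nat_lit 0) (nat_lit 89383175207) (nat_lit 152) (nat_lit 8096733474) (nat_lit 0) (nat_lit 5146690862) (nat_lit 17) (nat_lit 5) (nat_lit 19) (nat_lit 4) (nat_lit 17) (nat_lit 4) (nat_lit 356) (nat_lit 315) (nat_lit 229))))) (XT.nd (nat_lit 234) (nat_lit 152) (nat_lit 0) (XT.nd (nat_lit 78) (nat_lit 76) (nat_lit 0) (XT.lf (nat_lit 0) (nat_lit 12183356890) (nat_lit 152) (nat_lit 59268945365) (nat_lit 76) (nat_lit 37760577424) (nat_lit 15) (nat_lit 5) (nat_lit 17) (nat_lit 5) (nat_lit 16) (nat_lit 4) (nat_lit 357) (nat_lit 315) (nat_lit 228)) (XT.nd (nat_lit 78) (nat_lit 76) (nat_lit 0) (XT.lf (nat_lit 0) (nat_lit 39323636920) (nat_lit 152) (nat_lit 3639095975) (nat_lit 76) (nat_lit 73345309324) (nat_lit 15) (nat_lit 5) (nat_lit 17) (nat_lit 5) (nat_lit 16) (nat_lit 4) (nat_lit 358) (nat_lit 315) (nat_lit 227)) (XT.lf (nat_lit 0) (nat_lit 58296385552) (nat_lit 76) (nat_lit 11243170392)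 (nat_lit 152) (nat_lit 54386043145) (nat_lit 14) (nat_lit 5) (nat_lit 15) (nat_lit 5) (nat_lit 16) (nat_lit 4) (nat_lit 359) (nat_lit 315) (nat_lit 226)))) (XT.nd (nat_lit 78) (nat_lit 152) (nat_lit 0) (XT.lf (nat_lit 0) (nat_lit 102590932481) (nat_lit 152) (nat_lit 7203432913) (nat_lit 0) (nat_lit 22337287913) (nat_lit 14) (nat_lit 5) (nat_lit 16) (nat_lit 4) (nat_lit 14) (nat_lit 4) (nat_lit 360) (nat_lit 315) (nat_lit 225)) (XT.nd (nat_lit 78) (nat_lit 76) (nat_lit 0) (XT.lf (nat_lit 0) (nat_lit 57538851880) (nat_lit 76) (nat_lit 81830343830) (nat_lit 76) (nat_lit 1570859173) (nat_lit 13) (nat_lit 4) (nat_lit 14) (nat_lit 5) (nat_lit 14) (nat_lit 4) (nat_lit 361) (nat_lit 315) (nat_lit 224)) (XT.lf (nat_lit 0) (nat_lit 27842587312) (nat_lit 152) (nat_lit 23187588155) (nat_lit 76) (nat_lit 99394472593) (nat_lit 12) (nat_lit 5) (nat_lit 14) (nat_lit 5) (nat_lit 13) (nat_lit 4) (nat_lit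 362) (nat_lit 315) (nat_lit 223))))))))
noncomputable def xc76 : XT := (XT.nd (nat_lit 1716) (nat_lit 76) (nat_lit 0) (XT.nd (nat_lit 858) (nat_lit 228) (nat_lit 0) (XT.nd (nat_lit 390) (nat_lit 152) (nat_lit 0) (XT.nd (nat_lit 156) (nat_lit 152) (nat_lit 0) (XT.nd (nat_lit 78) (nat_lit 0) (nat_lit 0) (XT.lf (nat_lit 0) (nat_lit 43190349641) (nat_lit 76) (nat_lit 17034161930) (nat_lit 152) (nat_lit 100408689176) (nat_lit 11) (nat_lit 5) (nat_lit 12) (nat_lit 5) (nat_lit 13) (nat_lit 4) (nat_lit 363) (nat_lit 315) (nat_lit 222)) (XT.lf (nat_lit 0) (nat_lit 95910340193) (nat_lit 152) (nat_lit 56254029358) (nat_lit 0) (nat_lit 19458401973) (nat_lit 11) (nat_lit 5) (nat_lit 13) (nat_lit 4) (nat_lit 11) (nat_lit 4) (nat_lit 364) (nat_lit 315) (nat_lit 221))) (XT.nd (nat_lit 78) (nat_lit 76) (nat_lit 0) (XT.lf (nat_lit 0) (nat_lit 9850135312) (nat_lit 76) (nat_lit 125037778237) (nat_lit 76) (nat_lit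 48581751788) (nat_lit 10) (nat_lit 4) (nat_lit 11) (nat_lit 5) (nat_lit 11) (nat_lit 4) (nat_lit 365) (nat_lit 315) (nat_lit 220)) (XT.nd (nat_lit 78) (nat_lit 76) (nat_lit 0) (XT.lf (nat_lit 0) (nat_lit 83243983870) (nat_lit 76) (nat_lit 94715670865) (nat_lit 76) (nat_lit 18255859020) (nat_lit 10) (nat_lit 4) (nat_lit 11) (nat_lit 5) (nat_lit 11) (nat_lit 4) (nat_lit 366) (nat_lit 315) (nat_lit 219)) (XT.lf (nat_lit 0) (nat_lit 14028423718) (nat_lit 152) (nat_lit 47705048219) (nat_lit 76) (nat_lit 148236428702) (nat_lit 9) (nat_lit 5) (nat_lit 11) (nat_lit 5) (nat_lit 10) (nat_lit 4) (nat_lit 367) (nat_lit 315) (nat_lit 218))))) (XT.nd (nat_lit 234) (nat_lit 76) (nat_lit 0) (XT.nd (nat_lit 78) (nat_lit 0) (nat_lit 0) (XT.lf (nat_lit 0) (nat_lit 23211319379) (nat_lit 76) (nat_lit 25412037492) (nat_lit 152) (nat_lit 176167943554) (nat_lit 8) (nat_lit 5) (nat_lit 9) (nat_lit 5) (nat_lit 10)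 (nat_lit 4) (nat_lit 368) (nat_lit 315) (nat_lit 217)) (XT.nd (nat_lit 78) (nat_lit 0) (nat_lit 0) (XT.lf (nat_lit 0) (nat_lit 87042862497) (nat_lit 152) (nat_lit 139487998435) (nat_lit 0) (nat_lit 14214703279) (nat_lit 8) (nat_lit 5) (nat_lit 10) (nat_lit 4) (nat_lit 8) (nat_lit 4) (nat_lit 369) (nat_lit 315) (nat_lit 216)) (XT.lf (nat_lit 0) (nat_lit 128961339757) (nat_lit 152) (nat_lit 72863028966) (nat_lit 0) (nat_lit 56130530654) (nat_lit 8) (nat_lit 5) (nat_lit 10) (nat_lit 4) (nat_lit 8) (nat_lit 4) (nat_lit 370) (nat_lit 315) (nat_lit 215)))) (XT.nd (nat_lit 78) (nat_lit 76) (nat_lit 0) (XT.lf (nat_lit 0) (nat_lit 174230441323) (nat_lit 152) (nat_lit 913504884) (nat_lit 0) (nat_lit 101397178622) (nat_lit 8) (nat_lit 5) (nat_lit 10) (nat_lit 4) (nat_lit 8) (nat_lit 4) (nat_lit 371) (nat_lit 315) (nat_lit 214)) (XT.nd (nat_lit 78) (nat_lit 0) (nat_lit 0) (XT.lf (nat_lit 0) (nat_lit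 79325864422) (nat_lit 76) (nat_lit 145031063167) (nat_lit 76) (nat_lit 72195528617) (nat_lit 7) (nat_lit 4) (nat_lit 8) (nat_lit 5) (nat_lit 8) (nat_lit 4) (nat_lit 372) (nat_lit 315) (nat_lit 213)) (XT.lf (nat_lit 0) (nat_lit 166012183497) (nat_lit 76) (nat_lit 112494739922) (nat_lit 76) (nat_lit 39657101808) (nat_lit 7) (nat_lit 4) (nat_lit 8) (nat_lit 5) (nat_lit 8) (nat_lit 4) (nat_lit 373) (nat_lit 315) (nat_lit 212)))))) (XT.nd (nat_lit 390) (nat_lit 76) (nat_lit 0) (XT.nd (nat_lit 156) (nat_lit 76) (nat_lit 0) (XT.nd (nat_lit 78) (nat_lit 76) (nat_lit 0) (XT.lf (nat_lit 0) (nat_lit 259628944449) (nat_lit 76) (nat_lit 77357639278) (nat_lit 76) (nat_lit 4518053419) (nat_lit 7) (nat_lit 4) (nat_lit 8) (nat_lit 5) (nat_lit 8) (nat_lit 4) (nat_lit 374) (nat_lit 315) (nat_lit 211)) (XT.lf (nat_lit 0) (nat_lit 32359884038) (nat_lit 152) (nat_lit 6503627046) (nat_lit 76) (nat_lit 327822998935)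 (nat_lit 6) (nat_lit 5) (nat_lit 8) (nat_lit 5) (nat_lit 7) (nat_lit 4) (nat_lit 375) (nat_lit 315) (nat_lit 210))) (XT.nd (nat_lit 78) (nat_lit 0) (nat_lit 0) (XT.lf (nat_lit 0) (nat_lit 73299906241) (nat_lit 152) (nat_lit 316590252502) (nat_lit 0) (nat_lit 3925564143) (nat_lit 5) (nat_lit 5) (nat_lit 7) (nat_lit 4) (nat_lit 5) (nat_lit 4) (nat_lit 376) (nat_lit 315) (nat_lit 209)) (XT.nd (nat_lit 78) (nat_lit 0) (nat_lit 0) (XT.lf (nat_lit 0) (nat_lit 118283615586) (nat_lit 152) (nat_lit 255885432462) (nat_lit 0) (nat_lit 48907800933) (nat_lit 5) (nat_lit 5) (nat_lit 7) (nat_lit 4) (nat_lit 5) (nat_lit 4) (nat_lit 377) (nat_lit 315) (nat_lit 208)) (XT.lf (nat_lit 0) (nat_lit 166864197042) (nat_lit 152) (nat_lit 190327740873) (nat_lit 0) (nat_lit 97487018912) (nat_lit 5) (nat_lit 5) (nat_lit 7) (nat_lit 4) (nat_lit 5) (nat_lit 4) (nat_lit 378) (nat_lit 315) (nat_lit 207))))) (XT.nd (nat_lit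 234) (nat_lit 0) (nat_lit 0) (XT.nd (nat_lit 78) (nat_lit 76) (nat_lit 0) (XT.lf (nat_lit 0) (nat_lit 219329535536) (nat_lit 152) (nat_lit 119528687711) (nat_lit 0) (nat_lit 149951094928) (nat_lit 5) (nat_lit 5) (nat_lit 7) (nat_lit 4) (nat_lit 5) (nat_lit 4) (nat_lit 379) (nat_lit 315) (nat_lit 206)) (XT.nd (nat_lit 78) (nat_lit 76) (nat_lit 0) (XT.lf (nat_lit 0) (nat_lit 275990536778) (nat_lit 152) (nat_lit 43068723030) (nat_lit 0) (nat_lit 206610927209) (nat_lit 5) (nat_lit 5) (nat_lit 7) (nat_lit 4) (nat_lit 5) (nat_lit 4) (nat_lit 380) (nat_lit 315) (nat_lit 205)) (XT.lf (nat_lit 0) (nat_lit 40811471206) (nat_lit 76) (nat_lit 297008679897) (nat_lit 76) (nat_lit 227627987956) (nat_lit 4) (nat_lit 4) (nat_lit 5) (nat_lit 5) (nat_lit 5) (nat_lit 4) (nat_lit 381) (nat_lit 315) (nat_lit 204)))) (XT.nd (nat_lit 78) (nat_lit 0) (nat_lit 0) (XT.lf (nat_lit 0) (nat_lit 132937382851) (nat_lit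 76) (nat_lit 272407598271) (nat_lit 76) (nat_lit 203025904134) (nat_lit 4) (nat_lit 4) (nat_lit 5) (nat_lit 5) (nat_lit 5) (nat_lit 4) (nat_lit 382) (nat_lit 315) (nat_lit 203)) (XT.nd (nat_lit 78) (nat_lit 0) (nat_lit 0) (XT.lf (nat_lit 0) (nat_lit 232430896744) (nat_lit 76) (nat_lit 245839620406) (nat_lit 76) (nat_lit 176456998310) (nat_lit 4) (nat_lit 4) (nat_lit 5) (nat_lit 5) (nat_lit 5) (nat_lit 4) (nat_lit 383) (nat_lit 315) (nat_lit 202)) (XT.lf (nat_lit 0) (nat_lit 339881604078) (nat_lit 76) (nat_lit 217147306435) (nat_lit 76) (nat_lit 147763825117) (nat_lit 4) (nat_lit 4) (nat_lit 5) (nat_lit 5) (nat_lit 5) (nat_lit 4) (nat_lit 384) (nat_lit 315) (nat_lit 201))))))) (XT.nd (nat_lit 41964) (nat_lit 0) (nat_lit 3952) (XT.nd (nat_lit 41496) (nat_lit 0) (nat_lit 6840) (XT.nd (nat_lit 156) (nat_lit 76) (nat_lit 0) (XT.nd (nat_lit 78) (nat_lit 0) (nat_lit 0) (XT.lf (nat_lit 0) (nat_lit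 455926249787) (nat_lit 76) (nat_lit 186160627830) (nat_lit 76) (nat_lit 116776350937) (nat_lit 4) (nat_lit 4) (nat_lit 5) (nat_lit 5) (nat_lit 5) (nat_lit 4) (nat_lit 385) (nat_lit 315) (nat_lit 200)) (XT.lf (nat_lit 0) (nat_lit 581252505845) (nat_lit 76) (nat_lit 152695959829) (nat_lit 76) (nat_lit 83310946291) (nat_lit 4) (nat_lit 4) (nat_lit 5) (nat_lit 5) (nat_lit 5) (nat_lit 4) (nat_lit 386) (nat_lit 315) (nat_lit 199))) (XT.nd (nat_lit 78) (nat_lit 76) (nat_lit 0) (XT.lf (nat_lit 0) (nat_lit 716603046361) (nat_lit 76) (nat_lit 116554993287) (nat_lit 76) (nat_lit 47169297672) (nat_lit 4) (nat_lit 4) (nat_lit 5) (nat_lit 5) (nat_lit 5) (nat_lit 4) (nat_lit 387) (nat_lit 315) (nat_lit 198)) (XT.nd (nat_lit 78) (nat_lit 76) (nat_lit 0) (XT.lf (nat_lit 0) (nat_lit 862779948612) (nat_lit 76) (nat_lit 77523559516) (nat_lit 76) (nat_lit 8137232347) (nat_lit 4) (nat_lit 4) (nat_lit 5) (nat_lit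 5) (nat_lit 5) (nat_lit 4) (nat_lit 388) (nat_lit 315) (nat_lit 197)) (XT.lf (nat_lit 0) (nat_lit 32927808748) (nat_lit 152) (nat_lit 1884904006) (nat_lit 76) (nat_lit 987163988972) (nat_lit 3) (nat_lit 5) (nat_lit 5) (nat_lit 5) (nat_lit 4) (nat_lit 4) (nat_lit 389) (nat_lit 315) (nat_lit 196))))) (XT.nd (nat_lit 234) (nat_lit 532) (nat_lit 0) (XT.nd (nat_lit 78) (nat_lit 0) (nat_lit 0) (XT.lf (nat_lit 0) (nat_lit 2349227719) (nat_lit 0) (nat_lit 2349227719) (nat_lit 684) (nat_lit 2404934847) (nat_lit 100) (nat_lit 5) (nat_lit 100) (nat_lit 3) (nat_lit 109) (nat_lit 3) (nat_lit 316) (nat_lit 316) (nat_lit 268)) (XT.nd (nat_lit 78) (nat_lit 0) (nat_lit 76) (XT.lf (nat_lit 76) (nat_lit 989600211) (nat_lit 0) (nat_lit 9380857491) (nat_lit 760) (nat_lit 4373947727) (nat_lit 101) (nat_lit 5) (nat_lit 100) (nat_lit 5) (nat_lit 110) (nat_lit 5) (nat_lit 317) (nat_lit 316) (nat_lit 267)) (XT.lf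 (nat_lit 0) (nat_lit 11630469083) (nat_lit 684) (nat_lit 2773724771) (nat_lit 760) (nat_lit 910493704) (nat_lit 101) (nat_lit 5) (nat_lit 110) (nat_lit 5) (nat_lit 111) (nat_lit 5) (nat_lit 318) (nat_lit 316) (nat_lit 266)))) (XT.nd (nat_lit 78) (nat_lit 608) (nat_lit 0) (XT.lf (nat_lit 76) (nat_lit 9192663559) (nat_lit 0) (nat_lit 4054622968) (nat_lit 760) (nat_lit 2670576139) (nat_lit 102) (nat_lit 5) (nat_lit 101) (nat_lit 5) (nat_lit 111) (nat_lit 5) (nat_lit 319) (nat_lit 316) (nat_lit 265)) (XT.nd (nat_lit 78) (nat_lit 684) (nat_lit 0) (XT.lf (nat_lit 76) (nat_lit 5688206588) (nat_lit 0) (nat_lit 9511851854) (nat_lit 760) (nat_lit 1358968320) (nat_lit 103) (nat_lit 5) (nat_lit 102) (nat_lit 5) (nat_lit 112) (nat_lit 5) (nat_lit 320) (nat_lit 316) (nat_lit 264)) (XT.lf (nat_lit 0) (nat_lit 263080945) (nat_lit 760) (nat_lit 15217662921) (nat_lit 836) (nat_lit 1760385114) (nat_lit 93)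 (nat_lit 5) (nat_lit 103) (nat_lit 5) (nat_lit 104) (nat_lit 5) (nat_lit 321) (nat_lit 316) (nat_lit 263)))))) (XT.nd (nat_lit 468) (nat_lit 1596) (nat_lit 0) (XT.nd (nat_lit 234) (nat_lit 684) (nat_lit 0) (XT.nd (nat_lit 78) (nat_lit 608) (nat_lit 0) (XT.lf (nat_lit 0) (nat_lit 2282925957) (nat_lit 760) (nat_lit 1848479602) (nat_lit 836) (nat_lit 13829551163) (nat_lit 93) (nat_lit 5) (nat_lit 103) (nat_lit 5) (nat_lit 104) (nat_lit 5) (nat_lit 322) (nat_lit 316) (nat_lit 262)) (XT.nd (nat_lit 78) (nat_lit 684) (nat_lit 0) (XT.lf (nat_lit 0) (nat_lit 4762201509) (nat_lit 760) (nat_lit 5883672058) (nat_lit 76) (nat_lit 8077654438) (nat_lit 94) (nat_lit 5) (nat_lit 104) (nat_lit 5) (nat_lit 95) (nat_lit 5) (nat_lit 323) (nat_lit 316) (nat_lit 261)) (XT.lf (nat_lit 0) (nat_lit 7684197823) (nat_lit 760) (nat_lit 10138101534) (nat_lit 76) (nat_lit 1712632503) (nat_lit 85) (nat_lit 5) (nat_lit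 95) (nat_lit 5) (nat_lit 86) (nat_lit 5) (nat_lit 324) (nat_lit 316) (nat_lit 260)))) (XT.nd (nat_lit 78) (nat_lit 304) (nat_lit 0) (XT.lf (nat_lit 0) (nat_lit 5674403494) (nat_lit 380) (nat_lit 5507055609) (nat_lit 456) (nat_lit 9212756070) (nat_lit 80) (nat_lit 5) (nat_lit 85) (nat_lit 5) (nat_lit 86) (nat_lit 5) (nat_lit 325) (nat_lit 316) (nat_lit 259)) (XT.nd (nat_lit 78) (nat_lit 0) (nat_lit 0) (XT.lf (nat_lit 0) (nat_lit 1700401481) (nat_lit 304) (nat_lit 13556893483) (nat_lit 380) (nat_lit 6050045773) (nat_lit 76) (nat_lit 5) (nat_lit 80) (nat_lit 5) (nat_lit 81) (nat_lit 5) (nat_lit 326) (nat_lit 316) (nat_lit 258)) (XT.lf (nat_lit 0) (nat_lit 19835268737) (nat_lit 304) (nat_lit 144469289) (nat_lit 380) (nat_lit 2297787664) (nat_lit 76) (nat_lit 5) (nat_lit 80) (nat_lit 5) (nat_lit 81) (nat_lit 5) (nat_lit 327) (nat_lit 316) (nat_lit 257))))) (XT.nd (nat_lit 234) (nat_lit 608)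 (nat_lit 0) (XT.nd (nat_lit 78) (nat_lit 608) (nat_lit 0) (XT.lf (nat_lit 0) (nat_lit 2160119255) (nat_lit 380) (nat_lit 6969744307) (nat_lit 76) (nat_lit 14171042794) (nat_lit 71) (nat_lit 5) (nat_lit 76) (nat_lit 5) (nat_lit 72) (nat_lit 5) (nat_lit 328) (nat_lit 316) (nat_lit 256)) (XT.nd (nat_lit 78) (nat_lit 304) (nat_lit 0) (XT.lf (nat_lit 0) (nat_lit 7199844182) (nat_lit 380) (nat_lit 11854983124) (nat_lit 76) (nat_lit 5334191991) (nat_lit 67) (nat_lit 5) (nat_lit 72) (nat_lit 5) (nat_lit 68) (nat_lit 5) (nat_lit 329) (nat_lit 316) (nat_lit 255)) (XT.lf (nat_lit 0) (nat_lit 8373600896) (nat_lit 304) (nat_lit 4654355020) (nat_lit 380) (nat_lit 12516992405) (nat_lit 63) (nat_lit 5) (nat_lit 67) (nat_lit 5) (nat_lit 68) (nat_lit 5) (nat_lit 330) (nat_lit 316) (nat_lit 254)))) (XT.nd (nat_lit 78) (nat_lit 380) (nat_lit 0) (XT.lf (nat_lit 0) (nat_lit 3781054658) (nat_lit 228) (nat_lit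 15958679374) (nat_lit 304) (nat_lit 7032772217) (nat_lit 60) (nat_lit 5) (nat_lit 63) (nat_lit 5) (nat_lit 64) (nat_lit 5) (nat_lit 331) (nat_lit 316) (nat_lit 253)) (XT.nd (nat_lit 78) (nat_lit 380) (nat_lit 0) (XT.lf (nat_lit 0) (nat_lit 26915729303) (nat_lit 228) (nat_lit 428594248) (nat_lit 304) (nat_lit 736175372) (nat_lit 60) (nat_lit 5) (nat_lit 63) (nat_lit 5) (nat_lit 64) (nat_lit 5) (nat_lit 332) (nat_lit 316) (nat_lit 252)) (XT.lf (nat_lit 0) (nat_lit 6472810321) (nat_lit 380) (nat_lit 6708367432) (nat_lit 76) (nat_lit 16277102536) (nat_lit 55) (nat_lit 5) (nat_lit 60) (nat_lit 5) (nat_lit 56) (nat_lit 5) (nat_lit 333) (nat_lit 316) (nat_lit 251))))))))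
noncomputable def xc77 : XT := (XT.nd (nat_lit 1794) (nat_lit 912) (nat_lit 0) (XT.nd (nat_lit 858) (nat_lit 1064) (nat_lit 0) (XT.nd (nat_lit 390) (nat_lit 912) (nat_lit 0) (XT.nd (nat_lit 156) (nat_lit 456) (nat_lit 0) (XT.nd (nat_lit 78) (nat_lit 228) (nat_lit 0) (XT.lf (nat_lit 0) (nat_lit 14584503654) (nat_lit 304) (nat_lit 12776020831) (nat_lit 76) (nat_lit 3567586462) (nat_lit 52) (nat_lit 5) (nat_lit 56) (nat_lit 5) (nat_lit 53) (nat_lit 5) (nat_lit 334) (nat_lit 316) (nat_lit 250)) (XT.lf (nat_lit 0) (nat_lit 12895569176) (nat_lit 228) (nat_lit 10974519535) (nat_lit 304) (nat_lit 8619209350) (nat_lit 49) (nat_lit 5) (nat_lit 52) (nat_lit 5) (nat_lit 53) (nat_lit 5) (nat_lit 335) (nat_lit 316) (nat_lit 249))) (XT.nd (nat_lit 78) (nat_lit 228) (nat_lit 0) (XT.lf (nat_lit 0) (nat_lit 162861944) (nat_lit 228) (nat_lit 27152310685) (nat_lit 76) (nat_lit 6838896344) (nat_lit 46) (nat_lit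 5) (nat_lit 49) (nat_lit 5) (nat_lit 47) (nat_lit 5) (nat_lit 336) (nat_lit 316) (nat_lit 248)) (XT.nd (nat_lit 78) (nat_lit 0) (nat_lit 0) (XT.lf (nat_lit 0) (nat_lit 134504758) (nat_lit 228) (nat_lit 9733123977) (nat_lit 304) (nat_lit 26051237202) (nat_lit 43) (nat_lit 5) (nat_lit 46) (nat_lit 5) (nat_lit 47) (nat_lit 5) (nat_lit 337) (nat_lit 316) (nat_lit 247)) (XT.lf (nat_lit 0) (nat_lit 20958743390) (nat_lit 304) (nat_lit 7402662459) (nat_lit 76) (nat_lit 9432955952) (nat_lit 43) (nat_lit 5) (nat_lit 47) (nat_lit 5) (nat_lit 44) (nat_lit 5) (nat_lit 338) (nat_lit 316) (nat_lit 246))))) (XT.nd (nat_lit 234) (nat_lit 380) (nat_lit 0) (XT.nd (nat_lit 78) (nat_lit 380) (nat_lit 0) (XT.lf (nat_lit 0) (nat_lit 23826693505) (nat_lit 152) (nat_lit 9632437284) (nat_lit 228) (nat_lit 6334679842) (nat_lit 41) (nat_lit 5) (nat_lit 43) (nat_lit 5) (nat_lit 44) (nat_lit 5) (nat_lit 339) (nat_lit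 316) (nat_lit 245)) (XT.nd (nat_lit 78) (nat_lit 152) (nat_lit 0) (XT.lf (nat_lit 0) (nat_lit 5390794010) (nat_lit 228) (nat_lit 25811373526) (nat_lit 76) (nat_lit 10719915978) (nat_lit 38) (nat_lit 5) (nat_lit 41) (nat_lit 5) (nat_lit 39) (nat_lit 5) (nat_lit 340) (nat_lit 316) (nat_lit 244)) (XT.lf (nat_lit 0) (nat_lit 7049531160) (nat_lit 152) (nat_lit 11327934407) (nat_lit 228) (nat_lit 25810715678) (nat_lit 36) (nat_lit 5) (nat_lit 38) (nat_lit 5) (nat_lit 39) (nat_lit 5) (nat_lit 341) (nat_lit 316) (nat_lit 243)))) (XT.nd (nat_lit 78) (nat_lit 380) (nat_lit 0) (XT.lf (nat_lit 0) (nat_lit 33005810114) (nat_lit 228) (nat_lit 3337846966) (nat_lit 76) (nat_lit 10261782183) (nat_lit 36) (nat_lit 5) (nat_lit 39) (nat_lit 5) (nat_lit 37) (nat_lit 5) (nat_lit 342) (nat_lit 316) (nat_lit 242)) (XT.nd (nat_lit 78) (nat_lit 152) (nat_lit 0) (XT.lf (nat_lit 0) (nat_lit 324169080) (nat_lit 228)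 (nat_lit 15138701660) (nat_lit 76) (nat_lit 33717404392) (nat_lit 33) (nat_lit 5) (nat_lit 36) (nat_lit 5) (nat_lit 34) (nat_lit 5) (nat_lit 343) (nat_lit 316) (nat_lit 241)) (XT.lf (nat_lit 0) (nat_lit 15420937711) (nat_lit 228) (nat_lit 28988453978) (nat_lit 76) (nat_lit 7513790079) (nat_lit 31) (nat_lit 5) (nat_lit 34) (nat_lit 5) (nat_lit 32) (nat_lit 5) (nat_lit 344) (nat_lit 316) (nat_lit 240)))))) (XT.nd (nat_lit 468) (nat_lit 456) (nat_lit 0) (XT.nd (nat_lit 234) (nat_lit 304) (nat_lit 0) (XT.nd (nat_lit 78) (nat_lit 152) (nat_lit 0) (XT.lf (nat_lit 0) (nat_lit 9751474561) (nat_lit 152) (nat_lit 22644245794) (nat_lit 228) (nat_lit 22456294082) (nat_lit 29) (nat_lit 5) (nat_lit 31) (nat_lit 5) (nat_lit 32) (nat_lit 5) (nat_lit 345) (nat_lit 316) (nat_lit 239)) (XT.nd (nat_lit 78) (nat_lit 152) (nat_lit 0) (XT.lf (nat_lit 0) (nat_lit 51244867654) (nat_lit 228) (nat_lit 5403383157)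 (nat_lit 76) (nat_lit 1341090411) (nat_lit 29) (nat_lit 5) (nat_lit 32) (nat_lit 5) (nat_lit 30) (nat_lit 4) (nat_lit 346) (nat_lit 316) (nat_lit 238)) (XT.lf (nat_lit 0) (nat_lit 10883149372) (nat_lit 152) (nat_lit 23207419017) (nat_lit 76) (nat_lit 27229805187) (nat_lit 27) (nat_lit 5) (nat_lit 29) (nat_lit 5) (nat_lit 28) (nat_lit 5) (nat_lit 347) (nat_lit 316) (nat_lit 237)))) (XT.nd (nat_lit 78) (nat_lit 152) (nat_lit 0) (XT.lf (nat_lit 0) (nat_lit 20929151404) (nat_lit 152) (nat_lit 9171884483) (nat_lit 228) (nat_lit 34790512403) (nat_lit 25) (nat_lit 5) (nat_lit 27) (nat_lit 5) (nat_lit 28) (nat_lit 5) (nat_lit 348) (nat_lit 316) (nat_lit 236)) (XT.nd (nat_lit 78) (nat_lit 76) (nat_lit 0) (XT.lf (nat_lit 0) (nat_lit 411259391) (nat_lit 76) (nat_lit 51130484494) (nat_lit 152) (nat_lit 17172408558) (nat_lit 24) (nat_lit 5) (nat_lit 25) (nat_lit 5) (nat_lit 26) (nat_lit 4) (nat_lit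 349) (nat_lit 316) (nat_lit 235)) (XT.lf (nat_lit 0) (nat_lit 2720165582) (nat_lit 152) (nat_lit 23110846637) (nat_lit 76) (nat_lit 46963889005) (nat_lit 23) (nat_lit 5) (nat_lit 25) (nat_lit 5) (nat_lit 24) (nat_lit 5) (nat_lit 350) (nat_lit 316) (nat_lit 234))))) (XT.nd (nat_lit 234) (nat_lit 228) (nat_lit 0) (XT.nd (nat_lit 78) (nat_lit 76) (nat_lit 0) (XT.lf (nat_lit 0) (nat_lit 24046814965) (nat_lit 228) (nat_lit 50969582961) (nat_lit 76) (nat_lit 2149424967) (nat_lit 21) (nat_lit 5) (nat_lit 24) (nat_lit 5) (nat_lit 22) (nat_lit 4) (nat_lit 351) (nat_lit 316) (nat_lit 233)) (XT.nd (nat_lit 78) (nat_lit 76) (nat_lit 0) (XT.lf (nat_lit 0) (nat_lit 47916651857) (nat_lit 228) (nat_lit 2048930792) (nat_lit 76) (nat_lit 31878986643) (nat_lit 21) (nat_lit 5) (nat_lit 24) (nat_lit 5) (nat_lit 22) (nat_lit 4) (nat_lit 352) (nat_lit 316) (nat_lit 232)) (XT.lf (nat_lit 0) (nat_lit 52451502965)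 (nat_lit 76) (nat_lit 22056378303) (nat_lit 152) (nat_lit 12349147349) (nat_lit 20) (nat_lit 5) (nat_lit 21) (nat_lit 5) (nat_lit 22) (nat_lit 4) (nat_lit 353) (nat_lit 316) (nat_lit 231)))) (XT.nd (nat_lit 78) (nat_lit 76) (nat_lit 0) (XT.lf (nat_lit 0) (nat_lit 11074577292) (nat_lit 152) (nat_lit 72821289798) (nat_lit 76) (nat_lit 8342602498) (nat_lit 18) (nat_lit 5) (nat_lit 20) (nat_lit 5) (nat_lit 19) (nat_lit 4) (nat_lit 354) (nat_lit 316) (nat_lit 230)) (XT.nd (nat_lit 78) (nat_lit 76) (nat_lit 0) (XT.lf (nat_lit 0) (nat_lit 36919746422) (nat_lit 152) (nat_lit 19848153640) (nat_lit 76) (nat_lit 41223396351) (nat_lit 18) (nat_lit 5) (nat_lit 20) (nat_lit 5) (nat_lit 19) (nat_lit 4) (nat_lit 355) (nat_lit 316) (nat_lit 229)) (XT.lf (nat_lit 0) (nat_lit 38586699861) (nat_lit 76) (nat_lit 26842126209) (nat_lit 152) (nat_lit 38745711107) (nat_lit 17) (nat_lit 5) (nat_lit 18) (nat_lit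 5) (nat_lit 19) (nat_lit 4) (nat_lit 356) (nat_lit 316) (nat_lit 228))))))) (XT.nd (nat_lit 858) (nat_lit 380) (nat_lit 0) (XT.nd (nat_lit 390) (nat_lit 304) (nat_lit 0) (XT.nd (nat_lit 156) (nat_lit 76) (nat_lit 0) (XT.nd (nat_lit 78) (nat_lit 152) (nat_lit 0) (XT.lf (nat_lit 0) (nat_lit 96649628904) (nat_lit 152) (nat_lit 8532112466) (nat_lit 0) (nat_lit 5649148438) (nat_lit 17) (nat_lit 5) (nat_lit 19) (nat_lit 4) (nat_lit 17) (nat_lit 4) (nat_lit 357) (nat_lit 316) (nat_lit 227)) (XT.lf (nat_lit 0) (nat_lit 13270271303) (nat_lit 152) (nat_lit 63803576768) (nat_lit 76) (nat_lit 40870407612) (nat_lit 15) (nat_lit 5) (nat_lit 17) (nat_lit 5) (nat_lit 16) (nat_lit 4) (nat_lit 358) (nat_lit 316) (nat_lit 226))) (XT.nd (nat_lit 78) (nat_lit 76) (nat_lit 0) (XT.lf (nat_lit 0) (nat_lit 42573459227) (nat_lit 152) (nat_lit 3738664184) (nat_lit 76) (nat_lit 79295326657) (nat_lit 15) (nat_lit 5)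 (nat_lit 17) (nat_lit 5) (nat_lit 16) (nat_lit 4) (nat_lit 359) (nat_lit 316) (nat_lit 225)) (XT.nd (nat_lit 78) (nat_lit 0) (nat_lit 0) (XT.lf (nat_lit 0) (nat_lit 63143330924) (nat_lit 76) (nat_lit 12058483035) (nat_lit 152) (nat_lit 58632842306) (nat_lit 14) (nat_lit 5) (nat_lit 15) (nat_lit 5) (nat_lit 16) (nat_lit 4) (nat_lit 360) (nat_lit 316) (nat_lit 224)) (XT.lf (nat_lit 0) (nat_lit 110891176723) (nat_lit 152) (nat_lit 7606641248) (nat_lit 0) (nat_lit 24199685716) (nat_lit 14) (nat_lit 5) (nat_lit 16) (nat_lit 4) (nat_lit 14) (nat_lit 4) (nat_lit 361) (nat_lit 316) (nat_lit 223))))) (XT.nd (nat_lit 234) (nat_lit 76) (nat_lit 0) (XT.nd (nat_lit 78) (nat_lit 152) (nat_lit 0) (XT.lf (nat_lit 0) (nat_lit 62307505079) (nat_lit 76) (nat_lit 88299893914) (nat_lit 76) (nat_lit 1603395972) (nat_lit 13) (nat_lit 4) (nat_lit 14) (nat_lit 5) (nat_lit 14) (nat_lit 4) (nat_lit 362) (nat_lit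 316) (nat_lit 222)) (XT.nd (nat_lit 78) (nat_lit 76) (nat_lit 0) (XT.lf (nat_lit 0) (nat_lit 30153467567) (nat_lit 152) (nat_lit 24886525479) (nat_lit 76) (nat_lit 107414425923) (nat_lit 12) (nat_lit 5) (nat_lit 14) (nat_lit 5) (nat_lit 13) (nat_lit 4) (nat_lit 363) (nat_lit 316) (nat_lit 221)) (XT.lf (nat_lit 0) (nat_lit 46794864741) (nat_lit 76) (nat_lit 18327228611) (nat_lit 152) (nat_lit 108357757158) (nat_lit 11) (nat_lit 5) (nat_lit 12) (nat_lit 5) (nat_lit 13) (nat_lit 4) (nat_lit 364) (nat_lit 316) (nat_lit 220)))) (XT.nd (nat_lit 78) (nat_lit 76) (nat_lit 0) (XT.lf (nat_lit 0) (nat_lit 103657897540) (nat_lit 152) (nat_lit 60613420467) (nat_lit 0) (nat_lit 21077515351) (nat_lit 11) (nat_lit 5) (nat_lit 13) (nat_lit 4) (nat_lit 11) (nat_lit 4) (nat_lit 365) (nat_lit 316) (nat_lit 219)) (XT.nd (nat_lit 78) (nat_lit 0) (nat_lit 0) (XT.lf (nat_lit 0) (nat_lit 10772952677) (nat_lit 76)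 (nat_lit 134977293229) (nat_lit 76) (nat_lit 52393406044) (nat_lit 10) (nat_lit 4) (nat_lit 11) (nat_lit 5) (nat_lit 11) (nat_lit 4) (nat_lit 366) (nat_lit 316) (nat_lit 218)) (XT.lf (nat_lit 0) (nat_lit 90028323450) (nat_lit 76) (nat_lit 102234121509) (nat_lit 76) (nat_lit 19646988956) (nat_lit 10) (nat_lit 4) (nat_lit 11) (nat_lit 5) (nat_lit 11) (nat_lit 4) (nat_lit 367) (nat_lit 316) (nat_lit 217)))))) (XT.nd (nat_lit 468) (nat_lit 152) (nat_lit 0) (XT.nd (nat_lit 234) (nat_lit 76) (nat_lit 0) (XT.nd (nat_lit 78) (nat_lit 76) (nat_lit 0) (XT.lf (nat_lit 0) (nat_lit 15212845310) (nat_lit 152) (nat_lit 51403804635) (nat_lit 76) (nat_lit 160147717682) (nat_lit 9) (nat_lit 5) (nat_lit 11) (nat_lit 5) (nat_lit 10) (nat_lit 4) (nat_lit 368) (nat_lit 316) (nat_lit 216)) (XT.nd (nat_lit 78) (nat_lit 0) (nat_lit 0) (XT.lf (nat_lit 0) (nat_lit 25180759556) (nat_lit 76) (nat_lit 27391767008) (nat_lit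 152) (nat_lit 190199096470) (nat_lit 8) (nat_lit 5) (nat_lit 9) (nat_lit 5) (nat_lit 10) (nat_lit 4) (nat_lit 369) (nat_lit 316) (nat_lit 215)) (XT.lf (nat_lit 0) (nat_lit 94061969521) (nat_lit 152) (nat_lit 150540848561) (nat_lit 0) (nat_lit 15399592208) (nat_lit 8) (nat_lit 5) (nat_lit 10) (nat_lit 4) (nat_lit 8) (nat_lit 4) (nat_lit 370) (nat_lit 316) (nat_lit 214)))) (XT.nd (nat_lit 78) (nat_lit 76) (nat_lit 0) (XT.lf (nat_lit 0) (nat_lit 139329800665) (nat_lit 152) (nat_lit 78593747441) (nat_lit 0) (nat_lit 60665151502) (nat_lit 8) (nat_lit 5) (nat_lit 10) (nat_lit 4) (nat_lit 8) (nat_lit 4) (nat_lit 371) (nat_lit 316) (nat_lit 213)) (XT.nd (nat_lit 78) (nat_lit 76) (nat_lit 0) (XT.lf (nat_lit 0) (nat_lit 188216611561) (nat_lit 152) (nat_lit 895544680) (nat_lit 0) (nat_lit 109549858834) (nat_lit 8) (nat_lit 5) (nat_lit 10) (nat_lit 4) (nat_lit 8) (nat_lit 4) (nat_lit 372) (nat_lit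 316) (nat_lit 212)) (XT.lf (nat_lit 0) (nat_lit 85759017657) (nat_lit 76) (nat_lit 156592022777) (nat_lit 76) (nat_lit 77923322305) (nat_lit 7) (nat_lit 4) (nat_lit 8) (nat_lit 5) (nat_lit 8) (nat_lit 4) (nat_lit 373) (nat_lit 316) (nat_lit 211))))) (XT.nd (nat_lit 234) (nat_lit 76) (nat_lit 0) (XT.nd (nat_lit 78) (nat_lit 76) (nat_lit 0) (XT.lf (nat_lit 0) (nat_lit 179373791585) (nat_lit 76) (nat_lit 121455869632) (nat_lit 76) (nat_lit 42785365692) (nat_lit 7) (nat_lit 4) (nat_lit 8) (nat_lit 5) (nat_lit 8) (nat_lit 4) (nat_lit 374) (nat_lit 316) (nat_lit 210)) (XT.nd (nat_lit 78) (nat_lit 76) (nat_lit 0) (XT.lf (nat_lit 0) (nat_lit 280473920568) (nat_lit 76) (nat_lit 83510649046) (nat_lit 76) (nat_lit 4838475230) (nat_lit 7) (nat_lit 4) (nat_lit 8) (nat_lit 5) (nat_lit 8) (nat_lit 4) (nat_lit 375) (nat_lit 316) (nat_lit 209)) (XT.lf (nat_lit 0) (nat_lit 34985442806) (nat_lit 152) (nat_lit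 6953562245) (nat_lit 76) (nat_lit 354080578272) (nat_lit 6) (nat_lit 5) (nat_lit 8) (nat_lit 5) (nat_lit 7) (nat_lit 4) (nat_lit 376) (nat_lit 316) (nat_lit 208)))) (XT.nd (nat_lit 78) (nat_lit 0) (nat_lit 0) (XT.lf (nat_lit 0) (nat_lit 79199496695) (nat_lit 152) (nat_lit 341848914864) (nat_lit 0) (nat_lit 4270780839) (nat_lit 5) (nat_lit 5) (nat_lit 7) (nat_lit 4) (nat_lit 5) (nat_lit 4) (nat_lit 377) (nat_lit 316) (nat_lit 207)) (XT.nd (nat_lit 78) (nat_lit 0) (nat_lit 0) (XT.lf (nat_lit 0) (nat_lit 127779265902) (nat_lit 152) (nat_lit 276292787579) (nat_lit 0) (nat_lit 52849287567) (nat_lit 5) (nat_lit 5) (nat_lit 7) (nat_lit 4) (nat_lit 5) (nat_lit 4) (nat_lit 378) (nat_lit 316) (nat_lit 206)) (XT.lf (nat_lit 0) (nat_lit 180243852313) (nat_lit 152) (nat_lit 205495182847) (nat_lit 0) (nat_lit 105312705017) (nat_lit 5) (nat_lit 5) (nat_lit 7) (nat_lit 4) (nat_lit 5) (nat_lit 4) (nat_lit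 379) (nat_lit 316) (nat_lit 205))))))))
noncomputable def xc78 : XT := (XT.nd (nat_lit 42900) (nat_lit 0) (nat_lit 1444) (XT.nd (nat_lit 42042) (nat_lit 0) (nat_lit 5472) (XT.nd (nat_lit 390) (nat_lit 0) (nat_lit 0) (XT.nd (nat_lit 156) (nat_lit 76) (nat_lit 0) (XT.nd (nat_lit 78) (nat_lit 0) (nat_lit 0) (XT.lf (nat_lit 0) (nat_lit 236904157183) (nat_lit 152) (nat_lit 129036559305) (nat_lit 0) (nat_lit 161971927515) (nat_lit 5) (nat_lit 5) (nat_lit 7) (nat_lit 4) (nat_lit 5) (nat_lit 4) (nat_lit 380) (nat_lit 316) (nat_lit 204)) (XT.lf (nat_lit 0) (nat_lit 298095945279) (nat_lit 152) (nat_lit 46463828815) (nat_lit 0) (nat_lit 223162713415) (nat_lit 5) (nat_lit 5) (nat_lit 7) (nat_lit 4) (nat_lit 5) (nat_lit 4) (nat_lit 381) (nat_lit 316) (nat_lit 203))) (XT.nd (nat_lit 78) (nat_lit 0) (nat_lit 0) (XT.lf (nat_lit 0) (nat_lit 44124590983) (nat_lit 76) (nat_lit 320746152147) (nat_lit 76) (nat_lit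 245811992324) (nat_lit 4) (nat_lit 4) (nat_lit 5) (nat_lit 5) (nat_lit 5) (nat_lit 4) (nat_lit 382) (nat_lit 316) (nat_lit 202)) (XT.nd (nat_lit 78) (nat_lit 0) (nat_lit 0) (XT.lf (nat_lit 0) (nat_lit 143617005035) (nat_lit 76) (nat_lit 294178704150) (nat_lit 76) (nat_lit 219243685105) (nat_lit 4) (nat_lit 4) (nat_lit 5) (nat_lit 5) (nat_lit 5) (nat_lit 4) (nat_lit 383) (nat_lit 316) (nat_lit 201)) (XT.lf (nat_lit 0) (nat_lit 251066693998) (nat_lit 76) (nat_lit 265486880796) (nat_lit 76) (nat_lit 190551066175) (nat_lit 4) (nat_lit 4) (nat_lit 5) (nat_lit 5) (nat_lit 5) (nat_lit 4) (nat_lit 384) (nat_lit 316) (nat_lit 200))))) (XT.nd (nat_lit 234) (nat_lit 0) (nat_lit 0) (XT.nd (nat_lit 78) (nat_lit 0) (nat_lit 0) (XT.lf (nat_lit 0) (nat_lit 367110396770) (nat_lit 76) (nat_lit 234500656466) (nat_lit 76) (nat_lit 159564105201) (nat_lit 4) (nat_lit 4) (nat_lit 5) (nat_lit 5) (nat_lit 5) (nat_lit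 4) (nat_lit 385) (nat_lit 316) (nat_lit 199)) (XT.nd (nat_lit 78) (nat_lit 0) (nat_lit 0) (XT.lf (nat_lit 0) (nat_lit 492435779738) (nat_lit 76) (nat_lit 201036409089) (nat_lit 76) (nat_lit 126099175747) (nat_lit 4) (nat_lit 4) (nat_lit 5) (nat_lit 5) (nat_lit 5) (nat_lit 4) (nat_lit 386) (nat_lit 316) (nat_lit 198)) (XT.lf (nat_lit 0) (nat_lit 627785511838) (nat_lit 76) (nat_lit 164895832016) (nat_lit 76) (nat_lit 89957967120) (nat_lit 4) (nat_lit 4) (nat_lit 5) (nat_lit 5) (nat_lit 5) (nat_lit 4) (nat_lit 387) (nat_lit 316) (nat_lit 197)))) (XT.nd (nat_lit 78) (nat_lit 0) (nat_lit 0) (XT.lf (nat_lit 0) (nat_lit 773961665556) (nat_lit 76) (nat_lit 125864758862) (nat_lit 76) (nat_lit 50926309195) (nat_lit 4) (nat_lit 4) (nat_lit 5) (nat_lit 5) (nat_lit 5) (nat_lit 4) (nat_lit 388) (nat_lit 316) (nat_lit 196)) (XT.nd (nat_lit 41262) (nat_lit 0) (nat_lit 7296) (XT.lf (nat_lit 0) (nat_lit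 931830469952) (nat_lit 76) (nat_lit 83711894381) (nat_lit 76) (nat_lit 8772903258) (nat_lit 4) (nat_lit 4) (nat_lit 5) (nat_lit 5) (nat_lit 5) (nat_lit 4) (nat_lit 389) (nat_lit 316) (nat_lit 195)) (XT.lf (nat_lit 0) (nat_lit 2779182168) (nat_lit 0) (nat_lit 2779182168) (nat_lit 684) (nat_lit 2088351050) (nat_lit 100) (nat_lit 5) (nat_lit 100) (nat_lit 3) (nat_lit 109) (nat_lit 3) (nat_lit 317) (nat_lit 317) (nat_lit 266)))))) (XT.nd (nat_lit 390) (nat_lit 1292) (nat_lit 0) (XT.nd (nat_lit 156) (nat_lit 532) (nat_lit 0) (XT.nd (nat_lit 78) (nat_lit 0) (nat_lit 76) (XT.lf (nat_lit 76) (nat_lit 1586717897) (nat_lit 0) (nat_lit 10510822163) (nat_lit 760) (nat_lit 3780166816) (nat_lit 101) (nat_lit 5) (nat_lit 100) (nat_lit 5) (nat_lit 110) (nat_lit 5) (nat_lit 318) (nat_lit 317) (nat_lit 265)) (XT.lf (nat_lit 0) (nat_lit 13386388781) (nat_lit 684) (nat_lit 2467728628) (nat_lit 760) (nat_lit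 643194471) (nat_lit 101) (nat_lit 5) (nat_lit 110) (nat_lit 5) (nat_lit 111) (nat_lit 5) (nat_lit 319) (nat_lit 317) (nat_lit 264))) (XT.nd (nat_lit 78) (nat_lit 608) (nat_lit 0) (XT.lf (nat_lit 76) (nat_lit 10433029132) (nat_lit 0) (nat_lit 4646259384) (nat_lit 760) (nat_lit 2072210197) (nat_lit 102) (nat_lit 5) (nat_lit 101) (nat_lit 5) (nat_lit 111) (nat_lit 5) (nat_lit 320) (nat_lit 317) (nat_lit 263)) (XT.nd (nat_lit 78) (nat_lit 684) (nat_lit 0) (XT.lf (nat_lit 76) (nat_lit 6668326034) (nat_lit 0) (nat_lit 10467088758) (nat_lit 760) (nat_lit 711272072) (nat_lit 103) (nat_lit 5) (nat_lit 102) (nat_lit 5) (nat_lit 112) (nat_lit 5) (nat_lit 321) (nat_lit 317) (nat_lit 262)) (XT.lf (nat_lit 0) (nat_lit 967817719) (nat_lit 760) (nat_lit 15870907679) (nat_lit 836) (nat_lit 1746544256) (nat_lit 93) (nat_lit 5) (nat_lit 103) (nat_lit 5) (nat_lit 104) (nat_lit 5) (nat_lit 322) (nat_lit 317)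 (nat_lit 261))))) (XT.nd (nat_lit 234) (nat_lit 684) (nat_lit 0) (XT.nd (nat_lit 78) (nat_lit 608) (nat_lit 0) (XT.lf (nat_lit 0) (nat_lit 3098606606) (nat_lit 760) (nat_lit 1473979937) (nat_lit 836) (nat_lit 14792700750) (nat_lit 93) (nat_lit 5) (nat_lit 103) (nat_lit 5) (nat_lit 104) (nat_lit 5) (nat_lit 323) (nat_lit 317) (nat_lit 260)) (XT.nd (nat_lit 78) (nat_lit 684) (nat_lit 0) (XT.lf (nat_lit 0) (nat_lit 5735661241) (nat_lit 760) (nat_lit 5822692514) (nat_lit 76) (nat_lit 8632604867) (nat_lit 94) (nat_lit 5) (nat_lit 104) (nat_lit 5) (nat_lit 95) (nat_lit 5) (nat_lit 324) (nat_lit 317) (nat_lit 259)) (XT.lf (nat_lit 0) (nat_lit 8854720823) (nat_lit 760) (nat_lit 10411240341) (nat_lit 76) (nat_lit 1803209734) (nat_lit 85) (nat_lit 5) (nat_lit 95) (nat_lit 5) (nat_lit 86) (nat_lit 5) (nat_lit 325) (nat_lit 317) (nat_lit 258)))) (XT.nd (nat_lit 78) (nat_lit 304) (nat_lit 0) (XT.lf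 (nat_lit 0) (nat_lit 6642888205) (nat_lit 380) (nat_lit 5955738673) (nat_lit 456) (nat_lit 9400283557) (nat_lit 80) (nat_lit 5) (nat_lit 85) (nat_lit 5) (nat_lit 86) (nat_lit 5) (nat_lit 326) (nat_lit 317) (nat_lit 257)) (XT.nd (nat_lit 78) (nat_lit 0) (nat_lit 0) (XT.lf (nat_lit 0) (nat_lit 2354401757) (nat_lit 304) (nat_lit 14615382528) (nat_lit 380) (nat_lit 6016891573) (nat_lit 76) (nat_lit 5) (nat_lit 80) (nat_lit 5) (nat_lit 81) (nat_lit 5) (nat_lit 327) (nat_lit 317) (nat_lit 256)) (XT.lf (nat_lit 0) (nat_lit 21901690382) (nat_lit 304) (nat_lit 131894949) (nat_lit 380) (nat_lit 2002760806) (nat_lit 76) (nat_lit 5) (nat_lit 80) (nat_lit 5) (nat_lit 81) (nat_lit 5) (nat_lit 328) (nat_lit 317) (nat_lit 255))))))) (XT.nd (nat_lit 858) (nat_lit 1520) (nat_lit 0) (XT.nd (nat_lit 390) (nat_lit 1292) (nat_lit 0) (XT.nd (nat_lit 156) (nat_lit 532) (nat_lit 0) (XT.nd (nat_lit 78) (nat_lit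 304) (nat_lit 0) (XT.lf (nat_lit 0) (nat_lit 2770101068) (nat_lit 380) (nat_lit 7031570247) (nat_lit 76) (nat_lit 15340912609) (nat_lit 71) (nat_lit 5) (nat_lit 76) (nat_lit 5) (nat_lit 72) (nat_lit 5) (nat_lit 329) (nat_lit 317) (nat_lit 254)) (XT.lf (nat_lit 0) (nat_lit 8188992827) (nat_lit 380) (nat_lit 12309035015) (nat_lit 76) (nat_lit 5820958343) (nat_lit 67) (nat_lit 5) (nat_lit 72) (nat_lit 5) (nat_lit 68) (nat_lit 5) (nat_lit 330) (nat_lit 317) (nat_lit 253))) (XT.nd (nat_lit 78) (nat_lit 228) (nat_lit 0) (XT.lf (nat_lit 0) (nat_lit 9516352018) (nat_lit 304) (nat_lit 4943779672) (nat_lit 380) (nat_lit 13108455717) (nat_lit 63) (nat_lit 5) (nat_lit 67) (nat_lit 5) (nat_lit 68) (nat_lit 5) (nat_lit 331) (nat_lit 317) (nat_lit 252)) (XT.nd (nat_lit 78) (nat_lit 0) (nat_lit 0) (XT.lf (nat_lit 0) (nat_lit 4553703104) (nat_lit 228) (nat_lit 17134803909) (nat_lit 304) (nat_lit 7206894270)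 (nat_lit 60) (nat_lit 5) (nat_lit 63) (nat_lit 5) (nat_lit 64) (nat_lit 5) (nat_lit 332) (nat_lit 317) (nat_lit 251)) (XT.lf (nat_lit 0) (nat_lit 29504324752) (nat_lit 228) (nat_lit 369761588) (nat_lit 304) (nat_lit 435347435) (nat_lit 60) (nat_lit 5) (nat_lit 63) (nat_lit 5) (nat_lit 64) (nat_lit 5) (nat_lit 333) (nat_lit 317) (nat_lit 250))))) (XT.nd (nat_lit 234) (nat_lit 456) (nat_lit 0) (XT.nd (nat_lit 78) (nat_lit 456) (nat_lit 0) (XT.lf (nat_lit 0) (nat_lit 7321270449) (nat_lit 380) (nat_lit 6801985383) (nat_lit 76) (nat_lit 17674807482) (nat_lit 55) (nat_lit 5) (nat_lit 60) (nat_lit 5) (nat_lit 56) (nat_lit 5) (nat_lit 334) (nat_lit 317) (nat_lit 249)) (XT.nd (nat_lit 78) (nat_lit 228) (nat_lit 0) (XT.lf (nat_lit 0) (nat_lit 16065757995) (nat_lit 304) (nat_lit 13360079214) (nat_lit 76) (nat_lit 3960476028) (nat_lit 52) (nat_lit 5) (nat_lit 56) (nat_lit 5) (nat_lit 53) (nat_lit 5)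 (nat_lit 335) (nat_lit 317) (nat_lit 248)) (XT.lf (nat_lit 0) (nat_lit 14346202035) (nat_lit 228) (nat_lit 11731233533) (nat_lit 304) (nat_lit 8995821311) (nat_lit 49) (nat_lit 5) (nat_lit 52) (nat_lit 5) (nat_lit 53) (nat_lit 5) (nat_lit 336) (nat_lit 317) (nat_lit 247)))) (XT.nd (nat_lit 78) (nat_lit 228) (nat_lit 0) (XT.lf (nat_lit 0) (nat_lit 464705560) (nat_lit 228) (nat_lit 28901190196) (nat_lit 76) (nat_lit 7505795180) (nat_lit 46) (nat_lit 5) (nat_lit 49) (nat_lit 5) (nat_lit 47) (nat_lit 5) (nat_lit 337) (nat_lit 317) (nat_lit 246)) (XT.nd (nat_lit 78) (nat_lit 0) (nat_lit 0) (XT.lf (nat_lit 0) (nat_lit 550174148) (nat_lit 228) (nat_lit 10380607632) (nat_lit 304) (nat_lit 27847662941) (nat_lit 43) (nat_lit 5) (nat_lit 46) (nat_lit 5) (nat_lit 47) (nat_lit 5) (nat_lit 338) (nat_lit 317) (nat_lit 245)) (XT.lf (nat_lit 0) (nat_lit 22890804546) (nat_lit 304) (nat_lit 7608957283) (nat_lit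 76) (nat_lit 10305155506) (nat_lit 43) (nat_lit 5) (nat_lit 47) (nat_lit 5) (nat_lit 44) (nat_lit 5) (nat_lit 339) (nat_lit 317) (nat_lit 244)))))) (XT.nd (nat_lit 468) (nat_lit 608) (nat_lit 0) (XT.nd (nat_lit 234) (nat_lit 380) (nat_lit 0) (XT.nd (nat_lit 78) (nat_lit 380) (nat_lit 0) (XT.lf (nat_lit 0) (nat_lit 26101975625) (nat_lit 152) (nat_lit 10276095045) (nat_lit 228) (nat_lit 6586925704) (nat_lit 41) (nat_lit 5) (nat_lit 43) (nat_lit 5) (nat_lit 44) (nat_lit 5) (nat_lit 340) (nat_lit 317) (nat_lit 243)) (XT.nd (nat_lit 78) (nat_lit 152) (nat_lit 0) (XT.lf (nat_lit 0) (nat_lit 6057814387) (nat_lit 228) (nat_lit 27505312246) (nat_lit 76) (nat_lit 11700751736) (nat_lit 38) (nat_lit 5) (nat_lit 41) (nat_lit 5) (nat_lit 39) (nat_lit 5) (nat_lit 341) (nat_lit 317) (nat_lit 242)) (XT.lf (nat_lit 0) (nat_lit 7968342861) (nat_lit 152) (nat_lit 12103153528) (nat_lit 228) (nat_lit 27640377323)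 (nat_lit 36) (nat_lit 5) (nat_lit 38) (nat_lit 5) (nat_lit 39) (nat_lit 5) (nat_lit 342) (nat_lit 317) (nat_lit 241)))) (XT.nd (nat_lit 78) (nat_lit 380) (nat_lit 0) (XT.lf (nat_lit 0) (nat_lit 35855422236) (nat_lit 228) (nat_lit 3267684242) (nat_lit 76) (nat_lit 11200152825) (nat_lit 36) (nat_lit 5) (nat_lit 39) (nat_lit 5) (nat_lit 37) (nat_lit 5) (nat_lit 343) (nat_lit 317) (nat_lit 240)) (XT.nd (nat_lit 78) (nat_lit 152) (nat_lit 0) (XT.lf (nat_lit 0) (nat_lit 552191826) (nat_lit 228) (nat_lit 16020440120) (nat_lit 76) (nat_lit 36531821639) (nat_lit 33) (nat_lit 5) (nat_lit 36) (nat_lit 5) (nat_lit 34) (nat_lit 5) (nat_lit 344) (nat_lit 317) (nat_lit 239)) (XT.lf (nat_lit 0) (nat_lit 16848571563) (nat_lit 228) (nat_lit 30984675860) (nat_lit 76) (nat_lit 8233962150) (nat_lit 31) (nat_lit 5) (nat_lit 34) (nat_lit 5) (nat_lit 32) (nat_lit 5) (nat_lit 345) (nat_lit 317) (nat_lit 238)))))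 (XT.nd (nat_lit 234) (nat_lit 304) (nat_lit 0) (XT.nd (nat_lit 78) (nat_lit 152) (nat_lit 0) (XT.lf (nat_lit 0) (nat_lit 10840416102) (nat_lit 152) (nat_lit 24331374999) (nat_lit 228) (nat_lit 24059044584) (nat_lit 29) (nat_lit 5) (nat_lit 31) (nat_lit 5) (nat_lit 32) (nat_lit 5) (nat_lit 346) (nat_lit 317) (nat_lit 237)) (XT.nd (nat_lit 78) (nat_lit 152) (nat_lit 0) (XT.lf (nat_lit 0) (nat_lit 55517008466) (nat_lit 228) (nat_lit 5542856505) (nat_lit 76) (nat_lit 1559885558) (nat_lit 29) (nat_lit 5) (nat_lit 32) (nat_lit 5) (nat_lit 30) (nat_lit 4) (nat_lit 347) (nat_lit 317) (nat_lit 236)) (XT.lf (nat_lit 0) (nat_lit 11920733686) (nat_lit 152) (nat_lit 24778322939) (nat_lit 76) (nat_lit 29518502848) (nat_lit 27) (nat_lit 5) (nat_lit 29) (nat_lit 5) (nat_lit 28) (nat_lit 5) (nat_lit 348) (nat_lit 317) (nat_lit 235)))) (XT.nd (nat_lit 78) (nat_lit 152) (nat_lit 0) (XT.lf (nat_lit 0) (nat_lit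 22876757394) (nat_lit 152) (nat_lit 9791194939) (nat_lit 228) (nat_lit 37406887983) (nat_lit 25) (nat_lit 5) (nat_lit 27) (nat_lit 5) (nat_lit 28) (nat_lit 5) (nat_lit 349) (nat_lit 317) (nat_lit 234)) (XT.nd (nat_lit 78) (nat_lit 76) (nat_lit 0) (XT.lf (nat_lit 0) (nat_lit 711531569) (nat_lit 76) (nat_lit 55106448752) (nat_lit 152) (nat_lit 18385575991) (nat_lit 24) (nat_lit 5) (nat_lit 25) (nat_lit 5) (nat_lit 26) (nat_lit 4) (nat_lit 350) (nat_lit 317) (nat_lit 233)) (XT.lf (nat_lit 0) (nat_lit 3081745718) (nat_lit 152) (nat_lit 24707314420) (nat_lit 76) (nat_lit 50822161223) (nat_lit 23) (nat_lit 5) (nat_lit 25) (nat_lit 5) (nat_lit 24) (nat_lit 5) (nat_lit 351) (nat_lit 317) (nat_lit 232))))))))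
noncomputable def xc79 : XT := (XT.nd (nat_lit 1794) (nat_lit 228) (nat_lit 0) (XT.nd (nat_lit 858) (nat_lit 532) (nat_lit 0) (XT.nd (nat_lit 390) (nat_lit 304) (nat_lit 0) (XT.nd (nat_lit 156) (nat_lit 228) (nat_lit 0) (XT.nd (nat_lit 78) (nat_lit 0) (nat_lit 0) (XT.lf (nat_lit 0) (nat_lit 26109261585) (nat_lit 228) (nat_lit 54800426212) (nat_lit 76) (nat_lit 2422397693) (nat_lit 21) (nat_lit 5) (nat_lit 24) (nat_lit 5) (nat_lit 22) (nat_lit 4) (nat_lit 352) (nat_lit 317) (nat_lit 231)) (XT.lf (nat_lit 0) (nat_lit 51878411249) (nat_lit 228) (nat_lit 1984397675) (nat_lit 76) (nat_lit 34522841434) (nat_lit 21) (nat_lit 5) (nat_lit 24) (nat_lit 5) (nat_lit 22) (nat_lit 4) (nat_lit 353) (nat_lit 317) (nat_lit 230))) (XT.nd (nat_lit 78) (nat_lit 152) (nat_lit 0) (XT.lf (nat_lit 0) (nat_lit 56866142729) (nat_lit 76) (nat_lit 23724694858) (nat_lit 152) (nat_lit 13208578591) (nat_lit 20) (nat_lit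 5) (nat_lit 21) (nat_lit 5) (nat_lit 22) (nat_lit 4) (nat_lit 354) (nat_lit 317) (nat_lit 229)) (XT.nd (nat_lit 78) (nat_lit 0) (nat_lit 0) (XT.lf (nat_lit 0) (nat_lit 12080518561) (nat_lit 152) (nat_lit 78429481798) (nat_lit 76) (nat_lit 9101496509) (nat_lit 18) (nat_lit 5) (nat_lit 20) (nat_lit 5) (nat_lit 19) (nat_lit 4) (nat_lit 355) (nat_lit 317) (nat_lit 228)) (XT.lf (nat_lit 0) (nat_lit 39984414178) (nat_lit 152) (nat_lit 21234606687) (nat_lit 76) (nat_lit 44605977144) (nat_lit 18) (nat_lit 5) (nat_lit 20) (nat_lit 5) (nat_lit 19) (nat_lit 4) (nat_lit 356) (nat_lit 317) (nat_lit 227))))) (XT.nd (nat_lit 234) (nat_lit 76) (nat_lit 0) (XT.nd (nat_lit 78) (nat_lit 152) (nat_lit 0) (XT.lf (nat_lit 0) (nat_lit 41866282529) (nat_lit 76) (nat_lit 28902716680) (nat_lit 152) (nat_lit 41734163409) (nat_lit 17) (nat_lit 5) (nat_lit 18) (nat_lit 5) (nat_lit 19) (nat_lit 4) (nat_lit 357) (nat_lit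 317) (nat_lit 226)) (XT.nd (nat_lit 78) (nat_lit 152) (nat_lit 0) (XT.lf (nat_lit 0) (nat_lit 104480878777) (nat_lit 152) (nat_lit 9032617259) (nat_lit 0) (nat_lit 6178860068) (nat_lit 17) (nat_lit 5) (nat_lit 19) (nat_lit 4) (nat_lit 17) (nat_lit 4) (nat_lit 358) (nat_lit 317) (nat_lit 225)) (XT.lf (nat_lit 0) (nat_lit 14428125741) (nat_lit 152) (nat_lit 68730493031) (nat_lit 76) (nat_lit 44216329654) (nat_lit 15) (nat_lit 5) (nat_lit 17) (nat_lit 5) (nat_lit 16) (nat_lit 4) (nat_lit 359) (nat_lit 317) (nat_lit 224)))) (XT.nd (nat_lit 78) (nat_lit 76) (nat_lit 0) (XT.lf (nat_lit 0) (nat_lit 46068440349) (nat_lit 152) (nat_lit 3873525950) (nat_lit 76) (nat_lit 85709591154) (nat_lit 15) (nat_lit 5) (nat_lit 17) (nat_lit 5) (nat_lit 16) (nat_lit 4) (nat_lit 360) (nat_lit 317) (nat_lit 223)) (XT.nd (nat_lit 78) (nat_lit 0) (nat_lit 0) (XT.lf (nat_lit 0) (nat_lit 68351891472) (nat_lit 76) (nat_lit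 12951024342) (nat_lit 152) (nat_lit 63234234188) (nat_lit 14) (nat_lit 5) (nat_lit 15) (nat_lit 5) (nat_lit 16) (nat_lit 4) (nat_lit 361) (nat_lit 317) (nat_lit 222)) (XT.lf (nat_lit 0) (nat_lit 119842177346) (nat_lit 152) (nat_lit 8066796091) (nat_lit 0) (nat_lit 26200316584) (nat_lit 14) (nat_lit 5) (nat_lit 16) (nat_lit 4) (nat_lit 14) (nat_lit 4) (nat_lit 362) (nat_lit 317) (nat_lit 221)))))) (XT.nd (nat_lit 468) (nat_lit 228) (nat_lit 0) (XT.nd (nat_lit 234) (nat_lit 76) (nat_lit 0) (XT.nd (nat_lit 78) (nat_lit 152) (nat_lit 0) (XT.lf (nat_lit 0) (nat_lit 67434033682) (nat_lit 76) (nat_lit 95297975428) (nat_lit 76) (nat_lit 1651822026) (nat_lit 13) (nat_lit 4) (nat_lit 14) (nat_lit 5) (nat_lit 14) (nat_lit 4) (nat_lit 363) (nat_lit 317) (nat_lit 220)) (XT.nd (nat_lit 78) (nat_lit 76) (nat_lit 0) (XT.lf (nat_lit 0) (nat_lit 32637309847) (nat_lit 152) (nat_lit 26743642880) (nat_lit 76)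 (nat_lit 116066218132) (nat_lit 12) (nat_lit 5) (nat_lit 14) (nat_lit 5) (nat_lit 13) (nat_lit 4) (nat_lit 364) (nat_lit 317) (nat_lit 219)) (XT.lf (nat_lit 0) (nat_lit 50666443571) (nat_lit 76) (nat_lit 19733679299) (nat_lit 152) (nat_lit 116954680928) (nat_lit 11) (nat_lit 5) (nat_lit 12) (nat_lit 5) (nat_lit 13) (nat_lit 4) (nat_lit 365) (nat_lit 317) (nat_lit 218)))) (XT.nd (nat_lit 78) (nat_lit 76) (nat_lit 0) (XT.lf (nat_lit 0) (nat_lit 112014598385) (nat_lit 152) (nat_lit 65341668282) (nat_lit 0) (nat_lit 22817249861) (nat_lit 11) (nat_lit 5) (nat_lit 13) (nat_lit 4) (nat_lit 11) (nat_lit 4) (nat_lit 366) (nat_lit 317) (nat_lit 217)) (XT.nd (nat_lit 78) (nat_lit 0) (nat_lit 0) (XT.lf (nat_lit 0) (nat_lit 11750363771) (nat_lit 76) (nat_lit 145721029443) (nat_lit 76) (nat_lit 56520675948) (nat_lit 10) (nat_lit 4) (nat_lit 11) (nat_lit 5) (nat_lit 11) (nat_lit 4) (nat_lit 367) (nat_lit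 317) (nat_lit 216)) (XT.lf (nat_lit 0) (nat_lit 97337603104) (nat_lit 76) (nat_lit 110362437114) (nat_lit 76) (nat_lit 21159301241) (nat_lit 10) (nat_lit 4) (nat_lit 11) (nat_lit 5) (nat_lit 11) (nat_lit 4) (nat_lit 368) (nat_lit 317) (nat_lit 215))))) (XT.nd (nat_lit 234) (nat_lit 76) (nat_lit 0) (XT.nd (nat_lit 78) (nat_lit 76) (nat_lit 0) (XT.lf (nat_lit 0) (nat_lit 16483154567) (nat_lit 152) (nat_lit 55415245287) (nat_lit 76) (nat_lit 173004437946) (nat_lit 9) (nat_lit 5) (nat_lit 11) (nat_lit 5) (nat_lit 10) (nat_lit 4) (nat_lit 369) (nat_lit 317) (nat_lit 214)) (XT.nd (nat_lit 78) (nat_lit 0) (nat_lit 0) (XT.lf (nat_lit 0) (nat_lit 27291700625) (nat_lit 76) (nat_lit 29537469236) (nat_lit 152) (nat_lit 205361626923) (nat_lit 8) (nat_lit 5) (nat_lit 9) (nat_lit 5) (nat_lit 10) (nat_lit 4) (nat_lit 370) (nat_lit 317) (nat_lit 213)) (XT.lf (nat_lit 0) (nat_lit 101634662015) (nat_lit 152)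 (nat_lit 162493075851) (nat_lit 0) (nat_lit 16672465506) (nat_lit 8) (nat_lit 5) (nat_lit 10) (nat_lit 4) (nat_lit 8) (nat_lit 4) (nat_lit 371) (nat_lit 317) (nat_lit 212)))) (XT.nd (nat_lit 78) (nat_lit 76) (nat_lit 0) (XT.lf (nat_lit 0) (nat_lit 150520383729) (nat_lit 152) (nat_lit 84796950390) (nat_lit 0) (nat_lit 65556239475) (nat_lit 8) (nat_lit 5) (nat_lit 10) (nat_lit 4) (nat_lit 8) (nat_lit 4) (nat_lit 372) (nat_lit 317) (nat_lit 211)) (XT.nd (nat_lit 78) (nat_lit 76) (nat_lit 0) (XT.lf (nat_lit 0) (nat_lit 203314865496) (nat_lit 152) (nat_lit 889135619) (nat_lit 0) (nat_lit 118348917775) (nat_lit 8) (nat_lit 5) (nat_lit 10) (nat_lit 4) (nat_lit 8) (nat_lit 4) (nat_lit 373) (nat_lit 317) (nat_lit 210)) (XT.lf (nat_lit 0) (nat_lit 92694399633) (nat_lit 76) (nat_lit 169083783225) (nat_lit 76) (nat_lit 84116165627) (nat_lit 7) (nat_lit 4) (nat_lit 8) (nat_lit 5) (nat_lit 8) (nat_lit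 4) (nat_lit 374) (nat_lit 317) (nat_lit 209))))))) (XT.nd (nat_lit 858) (nat_lit 0) (nat_lit 0) (XT.nd (nat_lit 390) (nat_lit 76) (nat_lit 0) (XT.nd (nat_lit 156) (nat_lit 152) (nat_lit 0) (XT.nd (nat_lit 78) (nat_lit 0) (nat_lit 0) (XT.lf (nat_lit 0) (nat_lit 193792825063) (nat_lit 76) (nat_lit 131139374967) (nat_lit 76) (nat_lit 46170211185) (nat_lit 7) (nat_lit 4) (nat_lit 8) (nat_lit 5) (nat_lit 8) (nat_lit 4) (nat_lit 375) (nat_lit 317) (nat_lit 208)) (XT.lf (nat_lit 0) (nat_lit 302975843612) (nat_lit 76) (nat_lit 90160978529) (nat_lit 76) (nat_lit 5190383098) (nat_lit 7) (nat_lit 4) (nat_lit 8) (nat_lit 5) (nat_lit 8) (nat_lit 4) (nat_lit 376) (nat_lit 317) (nat_lit 207))) (XT.nd (nat_lit 78) (nat_lit 76) (nat_lit 0) (XT.lf (nat_lit 0) (nat_lit 37815800903) (nat_lit 152) (nat_lit 7449529182) (nat_lit 76) (nat_lit 382434235972) (nat_lit 6) (nat_lit 5) (nat_lit 8) (nat_lit 5) (nat_lit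 7) (nat_lit 4) (nat_lit 377) (nat_lit 317) (nat_lit 206)) (XT.nd (nat_lit 78) (nat_lit 0) (nat_lit 0) (XT.lf (nat_lit 0) (nat_lit 85565975939) (nat_lit 152) (nat_lit 369138050757) (nat_lit 0) (nat_lit 4639167898) (nat_lit 5) (nat_lit 5) (nat_lit 7) (nat_lit 4) (nat_lit 5) (nat_lit 4) (nat_lit 378) (nat_lit 317) (nat_lit 205)) (XT.lf (nat_lit 0) (nat_lit 138029865978) (nat_lit 152) (nat_lit 298341787163) (nat_lit 0) (nat_lit 57101975565) (nat_lit 5) (nat_lit 5) (nat_lit 7) (nat_lit 4) (nat_lit 5) (nat_lit 4) (nat_lit 379) (nat_lit 317) (nat_lit 204))))) (XT.nd (nat_lit 234) (nat_lit 76) (nat_lit 0) (XT.nd (nat_lit 78) (nat_lit 0) (nat_lit 0) (XT.lf (nat_lit 0) (nat_lit 194689526058) (nat_lit 152) (nat_lit 221884405417) (nat_lit 0) (nat_lit 113760633449) (nat_lit 5) (nat_lit 5) (nat_lit 7) (nat_lit 4) (nat_lit 5) (nat_lit 4) (nat_lit 380) (nat_lit 317) (nat_lit 203)) (XT.nd (nat_lit 78) (nat_lit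 0) (nat_lit 0) (XT.lf (nat_lit 0) (nat_lit 255880717127) (nat_lit 152) (nat_lit 139312824737) (nat_lit 0) (nat_lit 174950896559) (nat_lit 5) (nat_lit 5) (nat_lit 7) (nat_lit 4) (nat_lit 5) (nat_lit 4) (nat_lit 381) (nat_lit 317) (nat_lit 202)) (XT.lf (nat_lit 0) (nat_lit 321966053651) (nat_lit 152) (nat_lit 50137732052) (nat_lit 0) (nat_lit 241035373861) (nat_lit 5) (nat_lit 5) (nat_lit 7) (nat_lit 4) (nat_lit 5) (nat_lit 4) (nat_lit 382) (nat_lit 317) (nat_lit 201)))) (XT.nd (nat_lit 78) (nat_lit 0) (nat_lit 0) (XT.lf (nat_lit 0) (nat_lit 47695883777) (nat_lit 76) (nat_lit 346385935076) (nat_lit 76) (nat_lit 265454459711) (nat_lit 4) (nat_lit 4) (nat_lit 5) (nat_lit 5) (nat_lit 5) (nat_lit 4) (nat_lit 383) (nat_lit 317) (nat_lit 200)) (XT.nd (nat_lit 78) (nat_lit 0) (nat_lit 0) (XT.lf (nat_lit 0) (nat_lit 155144629803) (nat_lit 76) (nat_lit 317694565997) (nat_lit 76) (nat_lit 236762353988)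 (nat_lit 4) (nat_lit 4) (nat_lit 5) (nat_lit 5) (nat_lit 5) (nat_lit 4) (nat_lit 384) (nat_lit 317) (nat_lit 199)) (XT.lf (nat_lit 0) (nat_lit 271187459486) (nat_lit 76) (nat_lit 286708762292) (nat_lit 76) (nat_lit 205775868205) (nat_lit 4) (nat_lit 4) (nat_lit 5) (nat_lit 5) (nat_lit 5) (nat_lit 4) (nat_lit 385) (nat_lit 317) (nat_lit 198)))))) (XT.nd (nat_lit 41730) (nat_lit 0) (nat_lit 6764) (XT.nd (nat_lit 234) (nat_lit 0) (nat_lit 0) (XT.nd (nat_lit 78) (nat_lit 0) (nat_lit 0) (XT.lf (nat_lit 0) (nat_lit 396512034038) (nat_lit 76) (nat_lit 253244904384) (nat_lit 76) (nat_lit 172311378743) (nat_lit 4) (nat_lit 4) (nat_lit 5) (nat_lit 5) (nat_lit 5) (nat_lit 4) (nat_lit 386) (nat_lit 317) (nat_lit 197)) (XT.nd (nat_lit 78) (nat_lit 0) (nat_lit 0) (XT.lf (nat_lit 0) (nat_lit 531861017604) (nat_lit 76) (nat_lit 217104687929) (nat_lit 76) (nat_lit 136170577516) (nat_lit 4) (nat_lit 4) (nat_lit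 5) (nat_lit 5) (nat_lit 5) (nat_lit 4) (nat_lit 387) (nat_lit 317) (nat_lit 196)) (XT.lf (nat_lit 0) (nat_lit 678036478236) (nat_lit 76) (nat_lit 178073948681) (nat_lit 76) (nat_lit 97139296813) (nat_lit 4) (nat_lit 4) (nat_lit 5) (nat_lit 5) (nat_lit 5) (nat_lit 4) (nat_lit 388) (nat_lit 317) (nat_lit 195)))) (XT.nd (nat_lit 41340) (nat_lit 0) (nat_lit 7296) (XT.lf (nat_lit 0) (nat_lit 835904640885) (nat_lit 76) (nat_lit 135921393371) (nat_lit 76) (nat_lit 54986240156) (nat_lit 4) (nat_lit 4) (nat_lit 5) (nat_lit 5) (nat_lit 5) (nat_lit 4) (nat_lit 389) (nat_lit 317) (nat_lit 194)) (XT.nd (nat_lit 78) (nat_lit 0) (nat_lit 0) (XT.lf (nat_lit 0) (nat_lit 3209006652) (nat_lit 0) (nat_lit 3209006652) (nat_lit 684) (nat_lit 1819052034) (nat_lit 100) (nat_lit 5) (nat_lit 100) (nat_lit 3) (nat_lit 109) (nat_lit 3) (nat_lit 318) (nat_lit 318) (nat_lit 264)) (XT.lf (nat_lit 76) (nat_lit 2157713688)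 (nat_lit 0) (nat_lit 11677044651) (nat_lit 760) (nat_lit 3273512320) (nat_lit 101) (nat_lit 5) (nat_lit 100) (nat_lit 5) (nat_lit 110) (nat_lit 5) (nat_lit 319) (nat_lit 318) (nat_lit 263))))) (XT.nd (nat_lit 234) (nat_lit 608) (nat_lit 0) (XT.nd (nat_lit 78) (nat_lit 0) (nat_lit 0) (XT.lf (nat_lit 0) (nat_lit 15165017794) (nat_lit 684) (nat_lit 2212562793) (nat_lit 760) (nat_lit 403035891) (nat_lit 101) (nat_lit 5) (nat_lit 110) (nat_lit 5) (nat_lit 111) (nat_lit 5) (nat_lit 320) (nat_lit 318) (nat_lit 262)) (XT.nd (nat_lit 78) (nat_lit 0) (nat_lit 76) (XT.lf (nat_lit 76) (nat_lit 11700586834) (nat_lit 0) (nat_lit 5247098148) (nat_lit 760) (nat_lit 1541817573) (nat_lit 102) (nat_lit 5) (nat_lit 101) (nat_lit 5) (nat_lit 111) (nat_lit 5) (nat_lit 321) (nat_lit 318) (nat_lit 261)) (XT.lf (nat_lit 76) (nat_lit 7651948939) (nat_lit 0) (nat_lit 11471027150) (nat_lit 760) (nat_lit 119670997)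 (nat_lit 103) (nat_lit 5) (nat_lit 102) (nat_lit 5) (nat_lit 112) (nat_lit 5) (nat_lit 322) (nat_lit 318) (nat_lit 260)))) (XT.nd (nat_lit 78) (nat_lit 0) (nat_lit 0) (XT.lf (nat_lit 0) (nat_lit 1631397370) (nat_lit 760) (nat_lit 16656896930) (nat_lit 836) (nat_lit 1753661772) (nat_lit 93) (nat_lit 5) (nat_lit 103) (nat_lit 5) (nat_lit 104) (nat_lit 5) (nat_lit 323) (nat_lit 318) (nat_lit 259)) (XT.nd (nat_lit 78) (nat_lit 0) (nat_lit 76) (XT.lf (nat_lit 0) (nat_lit 3889230536) (nat_lit 760) (nat_lit 1144043366) (nat_lit 836) (nat_lit 15853333454) (nat_lit 93) (nat_lit 5) (nat_lit 103) (nat_lit 5) (nat_lit 104) (nat_lit 5) (nat_lit 324) (nat_lit 318) (nat_lit 258)) (XT.lf (nat_lit 0) (nat_lit 6702473341) (nat_lit 760) (nat_lit 5832683749) (nat_lit 76) (nat_lit 9244970863) (nat_lit 94) (nat_lit 5) (nat_lit 104) (nat_lit 5) (nat_lit 95) (nat_lit 5) (nat_lit 325) (nat_lit 318) (nat_lit 257))))))))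
noncomputable def xc80 : XT := (XT.nd (nat_lit 1716) (nat_lit 1520) (nat_lit 0) (XT.nd (nat_lit 858) (nat_lit 1748) (nat_lit 0) (XT.nd (nat_lit 390) (nat_lit 1444) (nat_lit 0) (XT.nd (nat_lit 156) (nat_lit 684) (nat_lit 0) (XT.nd (nat_lit 78) (nat_lit 380) (nat_lit 0) (XT.lf (nat_lit 0) (nat_lit 10039596410) (nat_lit 760) (nat_lit 10782969031) (nat_lit 76) (nat_lit 1907657384) (nat_lit 85) (nat_lit 5) (nat_lit 95) (nat_lit 5) (nat_lit 86) (nat_lit 5) (nat_lit 326) (nat_lit 318) (nat_lit 256)) (XT.lf (nat_lit 0) (nat_lit 7615447890) (nat_lit 380) (nat_lit 6439158170) (nat_lit 456) (nat_lit 9681204563) (nat_lit 80) (nat_lit 5) (nat_lit 85) (nat_lit 5) (nat_lit 86) (nat_lit 5) (nat_lit 327) (nat_lit 318) (nat_lit 255))) (XT.nd (nat_lit 78) (nat_lit 380) (nat_lit 0) (XT.lf (nat_lit 0) (nat_lit 2986828107) (nat_lit 304) (nat_lit 15762268794) (nat_lit 380) (nat_lit 6054863388) (nat_lit 76) (nat_lit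 5) (nat_lit 80) (nat_lit 5) (nat_lit 81) (nat_lit 5) (nat_lit 328) (nat_lit 318) (nat_lit 254)) (XT.nd (nat_lit 78) (nat_lit 380) (nat_lit 0) (XT.lf (nat_lit 0) (nat_lit 24065005436) (nat_lit 304) (nat_lit 121757345) (nat_lit 380) (nat_lit 1752445086) (nat_lit 76) (nat_lit 5) (nat_lit 80) (nat_lit 5) (nat_lit 81) (nat_lit 5) (nat_lit 329) (nat_lit 318) (nat_lit 253)) (XT.lf (nat_lit 0) (nat_lit 3366513914) (nat_lit 380) (nat_lit 7169067056) (nat_lit 76) (nat_lit 16599209616) (nat_lit 71) (nat_lit 5) (nat_lit 76) (nat_lit 5) (nat_lit 72) (nat_lit 5) (nat_lit 330) (nat_lit 318) (nat_lit 252))))) (XT.nd (nat_lit 234) (nat_lit 608) (nat_lit 0) (XT.nd (nat_lit 78) (nat_lit 532) (nat_lit 0) (XT.lf (nat_lit 0) (nat_lit 9198331312) (nat_lit 380) (nat_lit 12869935150) (nat_lit 76) (nat_lit 6338101911) (nat_lit 67) (nat_lit 5) (nat_lit 72) (nat_lit 5) (nat_lit 68) (nat_lit 5) (nat_lit 331) (nat_lit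 318) (nat_lit 251)) (XT.nd (nat_lit 78) (nat_lit 228) (nat_lit 0) (XT.lf (nat_lit 0) (nat_lit 10683064030) (nat_lit 304) (nat_lit 5268188297) (nat_lit 380) (nat_lit 13805712352) (nat_lit 63) (nat_lit 5) (nat_lit 67) (nat_lit 5) (nat_lit 68) (nat_lit 5) (nat_lit 332) (nat_lit 318) (nat_lit 250)) (XT.lf (nat_lit 0) (nat_lit 5321089265) (nat_lit 228) (nat_lit 18419365814) (nat_lit 304) (nat_lit 7450369916) (nat_lit 60) (nat_lit 5) (nat_lit 63) (nat_lit 5) (nat_lit 64) (nat_lit 5) (nat_lit 333) (nat_lit 318) (nat_lit 249)))) (XT.nd (nat_lit 78) (nat_lit 608) (nat_lit 0) (XT.lf (nat_lit 0) (nat_lit 32237902133) (nat_lit 228) (nat_lit 319506954) (nat_lit 304) (nat_lit 161771622) (nat_lit 60) (nat_lit 5) (nat_lit 63) (nat_lit 5) (nat_lit 64) (nat_lit 5) (nat_lit 334) (nat_lit 318) (nat_lit 248)) (XT.nd (nat_lit 78) (nat_lit 228) (nat_lit 0) (XT.lf (nat_lit 0) (nat_lit 8190438566) (nat_lit 380)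 (nat_lit 6966299011) (nat_lit 76) (nat_lit 19170699438) (nat_lit 55) (nat_lit 5) (nat_lit 60) (nat_lit 5) (nat_lit 56) (nat_lit 5) (nat_lit 335) (nat_lit 318) (nat_lit 247)) (XT.lf (nat_lit 0) (nat_lit 17620646591) (nat_lit 304) (nat_lit 14053351186) (nat_lit 76) (nat_lit 4369463158) (nat_lit 52) (nat_lit 5) (nat_lit 56) (nat_lit 5) (nat_lit 53) (nat_lit 5) (nat_lit 336) (nat_lit 318) (nat_lit 246)))))) (XT.nd (nat_lit 390) (nat_lit 912) (nat_lit 0) (XT.nd (nat_lit 156) (nat_lit 380) (nat_lit 0) (XT.nd (nat_lit 78) (nat_lit 228) (nat_lit 0) (XT.lf (nat_lit 0) (nat_lit 15853112297) (nat_lit 228) (nat_lit 12565781970) (nat_lit 304) (nat_lit 9447204448) (nat_lit 49) (nat_lit 5) (nat_lit 52) (nat_lit 5) (nat_lit 53) (nat_lit 5) (nat_lit 337) (nat_lit 318) (nat_lit 245)) (XT.lf (nat_lit 0) (nat_lit 749494026) (nat_lit 228) (nat_lit 30850369308) (nat_lit 76) (nat_lit 8208956950) (nat_lit 46)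 (nat_lit 5) (nat_lit 49) (nat_lit 5) (nat_lit 47) (nat_lit 5) (nat_lit 338) (nat_lit 318) (nat_lit 244))) (XT.nd (nat_lit 78) (nat_lit 152) (nat_lit 0) (XT.lf (nat_lit 0) (nat_lit 941332292) (nat_lit 228) (nat_lit 11098602313) (nat_lit 304) (nat_lit 29828842542) (nat_lit 43) (nat_lit 5) (nat_lit 46) (nat_lit 5) (nat_lit 47) (nat_lit 5) (nat_lit 339) (nat_lit 318) (nat_lit 243)) (XT.nd (nat_lit 78) (nat_lit 152) (nat_lit 0) (XT.lf (nat_lit 0) (nat_lit 24941000395) (nat_lit 304) (nat_lit 7886811234) (nat_lit 76) (nat_lit 11230359336) (nat_lit 43) (nat_lit 5) (nat_lit 47) (nat_lit 5) (nat_lit 44) (nat_lit 5) (nat_lit 340) (nat_lit 318) (nat_lit 242)) (XT.lf (nat_lit 0) (nat_lit 28506617420) (nat_lit 152) (nat_lit 10989354440) (nat_lit 228) (nat_lit 6895662575) (nat_lit 41) (nat_lit 5) (nat_lit 43) (nat_lit 5) (nat_lit 44) (nat_lit 5) (nat_lit 341) (nat_lit 318) (nat_lit 241))))) (XT.nd (nat_lit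 234) (nat_lit 532) (nat_lit 0) (XT.nd (nat_lit 78) (nat_lit 152) (nat_lit 0) (XT.lf (nat_lit 0) (nat_lit 6744563044) (nat_lit 228) (nat_lit 29387689247) (nat_lit 76) (nat_lit 12742472438) (nat_lit 38) (nat_lit 5) (nat_lit 41) (nat_lit 5) (nat_lit 39) (nat_lit 5) (nat_lit 342) (nat_lit 318) (nat_lit 240)) (XT.nd (nat_lit 78) (nat_lit 0) (nat_lit 0) (XT.lf (nat_lit 0) (nat_lit 8910036291) (nat_lit 152) (nat_lit 12959081024) (nat_lit 228) (nat_lit 29649965182) (nat_lit 36) (nat_lit 5) (nat_lit 38) (nat_lit 5) (nat_lit 39) (nat_lit 5) (nat_lit 343) (nat_lit 318) (nat_lit 239)) (XT.lf (nat_lit 0) (nat_lit 38903166125) (nat_lit 228) (nat_lit 3240012492) (nat_lit 76) (nat_lit 12196840692) (nat_lit 36) (nat_lit 5) (nat_lit 39) (nat_lit 5) (nat_lit 37) (nat_lit 5) (nat_lit 344) (nat_lit 318) (nat_lit 238)))) (XT.nd (nat_lit 78) (nat_lit 304) (nat_lit 0) (XT.lf (nat_lit 0) (nat_lit 769626105) (nat_lit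 228) (nat_lit 17019704211) (nat_lit 76) (nat_lit 39554697356) (nat_lit 33) (nat_lit 5) (nat_lit 36) (nat_lit 5) (nat_lit 34) (nat_lit 5) (nat_lit 345) (nat_lit 318) (nat_lit 237)) (XT.nd (nat_lit 78) (nat_lit 152) (nat_lit 0) (XT.lf (nat_lit 0) (nat_lit 18362745728) (nat_lit 228) (nat_lit 33186654288) (nat_lit 76) (nat_lit 8994761482) (nat_lit 31) (nat_lit 5) (nat_lit 34) (nat_lit 5) (nat_lit 32) (nat_lit 5) (nat_lit 346) (nat_lit 318) (nat_lit 236)) (XT.lf (nat_lit 0) (nat_lit 11972415830) (nat_lit 152) (nat_lit 26171223082) (nat_lit 228) (nat_lit 25817656161) (nat_lit 29) (nat_lit 5) (nat_lit 31) (nat_lit 5) (nat_lit 32) (nat_lit 5) (nat_lit 347) (nat_lit 318) (nat_lit 235))))))) (XT.nd (nat_lit 858) (nat_lit 608) (nat_lit 0) (XT.nd (nat_lit 390) (nat_lit 456) (nat_lit 0) (XT.nd (nat_lit 156) (nat_lit 304) (nat_lit 0) (XT.nd (nat_lit 78) (nat_lit 152) (nat_lit 0) (XT.lf (nat_lit 0) (nat_lit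 60106304158) (nat_lit 228) (nat_lit 5735258531) (nat_lit 76) (nat_lit 1780276466) (nat_lit 29) (nat_lit 5) (nat_lit 32) (nat_lit 5) (nat_lit 30) (nat_lit 4) (nat_lit 348) (nat_lit 318) (nat_lit 234)) (XT.lf (nat_lit 0) (nat_lit 13017509976) (nat_lit 152) (nat_lit 26515655990) (nat_lit 76) (nat_lit 31974558904) (nat_lit 27) (nat_lit 5) (nat_lit 29) (nat_lit 5) (nat_lit 28) (nat_lit 5) (nat_lit 349) (nat_lit 318) (nat_lit 233))) (XT.nd (nat_lit 78) (nat_lit 152) (nat_lit 0) (XT.lf (nat_lit 0) (nat_lit 24941186289) (nat_lit 152) (nat_lit 10476376420) (nat_lit 228) (nat_lit 40256378826) (nat_lit 25) (nat_lit 5) (nat_lit 27) (nat_lit 5) (nat_lit 28) (nat_lit 5) (nat_lit 350) (nat_lit 318) (nat_lit 232)) (XT.nd (nat_lit 78) (nat_lit 76) (nat_lit 0) (XT.lf (nat_lit 0) (nat_lit 997681999) (nat_lit 76) (nat_lit 59416821218) (nat_lit 152) (nat_lit 19718711807) (nat_lit 24) (nat_lit 5) (nat_lit 25)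 (nat_lit 5) (nat_lit 26) (nat_lit 4) (nat_lit 351) (nat_lit 318) (nat_lit 231)) (XT.lf (nat_lit 0) (nat_lit 3451713778) (nat_lit 152) (nat_lit 26467507301) (nat_lit 76) (nat_lit 54974663457) (nat_lit 23) (nat_lit 5) (nat_lit 25) (nat_lit 5) (nat_lit 24) (nat_lit 5) (nat_lit 352) (nat_lit 318) (nat_lit 230))))) (XT.nd (nat_lit 234) (nat_lit 228) (nat_lit 0) (XT.nd (nat_lit 78) (nat_lit 76) (nat_lit 0) (XT.lf (nat_lit 0) (nat_lit 28316916627) (nat_lit 228) (nat_lit 58972934772) (nat_lit 76) (nat_lit 2702796787) (nat_lit 21) (nat_lit 5) (nat_lit 24) (nat_lit 5) (nat_lit 22) (nat_lit 4) (nat_lit 353) (nat_lit 318) (nat_lit 229)) (XT.nd (nat_lit 78) (nat_lit 76) (nat_lit 0) (XT.lf (nat_lit 0) (nat_lit 56138789811) (nat_lit 228) (nat_lit 1947292511) (nat_lit 76) (nat_lit 37364860673) (nat_lit 21) (nat_lit 5) (nat_lit 24) (nat_lit 5) (nat_lit 22) (nat_lit 4) (nat_lit 354) (nat_lit 318) (nat_lit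 228)) (XT.lf (nat_lit 0) (nat_lit 61602779420) (nat_lit 76) (nat_lit 25540199845) (nat_lit 152) (nat_lit 14155096371) (nat_lit 20) (nat_lit 5) (nat_lit 21) (nat_lit 5) (nat_lit 22) (nat_lit 4) (nat_lit 355) (nat_lit 318) (nat_lit 227)))) (XT.nd (nat_lit 78) (nat_lit 76) (nat_lit 0) (XT.lf (nat_lit 0) (nat_lit 13149819344) (nat_lit 152) (nat_lit 84517359560) (nat_lit 76) (nat_lit 9908050568) (nat_lit 18) (nat_lit 5) (nat_lit 20) (nat_lit 5) (nat_lit 19) (nat_lit 4) (nat_lit 356) (nat_lit 318) (nat_lit 226)) (XT.nd (nat_lit 78) (nat_lit 76) (nat_lit 0) (XT.lf (nat_lit 0) (nat_lit 43278407403) (nat_lit 152) (nat_lit 22760707831) (nat_lit 76) (nat_lit 48247079702) (nat_lit 18) (nat_lit 5) (nat_lit 20) (nat_lit 5) (nat_lit 19) (nat_lit 4) (nat_lit 357) (nat_lit 318) (nat_lit 225)) (XT.lf (nat_lit 0) (nat_lit 45380748608) (nat_lit 76) (nat_lit 31140534472) (nat_lit 152) (nat_lit 44977556472)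 (nat_lit 17) (nat_lit 5) (nat_lit 18) (nat_lit 5) (nat_lit 19) (nat_lit 4) (nat_lit 358) (nat_lit 318) (nat_lit 224)))))) (XT.nd (nat_lit 468) (nat_lit 304) (nat_lit 0) (XT.nd (nat_lit 234) (nat_lit 152) (nat_lit 0) (XT.nd (nat_lit 78) (nat_lit 152) (nat_lit 0) (XT.lf (nat_lit 0) (nat_lit 112924465301) (nat_lit 152) (nat_lit 9599135931) (nat_lit 0) (nat_lit 6739852478) (nat_lit 17) (nat_lit 5) (nat_lit 19) (nat_lit 4) (nat_lit 17) (nat_lit 4) (nat_lit 359) (nat_lit 318) (nat_lit 223)) (XT.nd (nat_lit 78) (nat_lit 0) (nat_lit 0) (XT.lf (nat_lit 0) (nat_lit 15664879860) (nat_lit 152) (nat_lit 74076866391) (nat_lit 76) (nat_lit 47819041918) (nat_lit 15) (nat_lit 5) (nat_lit 17) (nat_lit 5) (nat_lit 16) (nat_lit 4) (nat_lit 360) (nat_lit 318) (nat_lit 222)) (XT.lf (nat_lit 0) (nat_lit 49830308224) (nat_lit 152) (nat_lit 4042606098) (nat_lit 76) (nat_lit 92626919457) (nat_lit 15) (nat_lit 5)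 (nat_lit 17) (nat_lit 5) (nat_lit 16) (nat_lit 4) (nat_lit 361) (nat_lit 318) (nat_lit 221)))) (XT.nd (nat_lit 78) (nat_lit 76) (nat_lit 0) (XT.lf (nat_lit 0) (nat_lit 73954725638) (nat_lit 76) (nat_lit 13925260151) (nat_lit 152) (nat_lit 68216467862) (nat_lit 14) (nat_lit 5) (nat_lit 15) (nat_lit 5) (nat_lit 16) (nat_lit 4) (nat_lit 362) (nat_lit 318) (nat_lit 220)) (XT.nd (nat_lit 78) (nat_lit 76) (nat_lit 0) (XT.lf (nat_lit 0) (nat_lit 129497886998) (nat_lit 152) (nat_lit 8584930882) (nat_lit 0) (nat_lit 28351774018) (nat_lit 14) (nat_lit 5) (nat_lit 16) (nat_lit 4) (nat_lit 14) (nat_lit 4) (nat_lit 363) (nat_lit 318) (nat_lit 219)) (XT.lf (nat_lit 0) (nat_lit 72950436929) (nat_lit 76) (nat_lit 102865306262) (nat_lit 76) (nat_lit 1715513035) (nat_lit 13) (nat_lit 4) (nat_lit 14) (nat_lit 5) (nat_lit 14) (nat_lit 4) (nat_lit 364) (nat_lit 318) (nat_lit 218))))) (XT.nd (nat_lit 234) (nat_lit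 152) (nat_lit 0) (XT.nd (nat_lit 78) (nat_lit 76) (nat_lit 0) (XT.lf (nat_lit 0) (nat_lit 35309649981) (nat_lit 152) (nat_lit 28768418400) (nat_lit 76) (nat_lit 125401788333) (nat_lit 12) (nat_lit 5) (nat_lit 14) (nat_lit 5) (nat_lit 13) (nat_lit 4) (nat_lit 365) (nat_lit 318) (nat_lit 217)) (XT.nd (nat_lit 78) (nat_lit 0) (nat_lit 0) (XT.lf (nat_lit 0) (nat_lit 54829489553) (nat_lit 76) (nat_lit 21261166853) (nat_lit 152) (nat_lit 126249586949) (nat_lit 11) (nat_lit 5) (nat_lit 12) (nat_lit 5) (nat_lit 13) (nat_lit 4) (nat_lit 366) (nat_lit 318) (nat_lit 216)) (XT.lf (nat_lit 0) (nat_lit 121030695133) (nat_lit 152) (nat_lit 70465413076) (nat_lit 0) (nat_lit 24688526010) (nat_lit 11) (nat_lit 5) (nat_lit 13) (nat_lit 4) (nat_lit 11) (nat_lit 4) (nat_lit 367) (nat_lit 318) (nat_lit 215)))) (XT.nd (nat_lit 78) (nat_lit 76) (nat_lit 0) (XT.lf (nat_lit 0) (nat_lit 12789479704) (nat_lit 76)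 (nat_lit 157332032061) (nat_lit 76) (nat_lit 60987286661) (nat_lit 10) (nat_lit 4) (nat_lit 11) (nat_lit 5) (nat_lit 11) (nat_lit 4) (nat_lit 368) (nat_lit 318) (nat_lit 214)) (XT.nd (nat_lit 78) (nat_lit 76) (nat_lit 0) (XT.lf (nat_lit 0) (nat_lit 105216358418) (nat_lit 76) (nat_lit 119148210105) (nat_lit 76) (nat_lit 22801079263) (nat_lit 10) (nat_lit 4) (nat_lit 11) (nat_lit 5) (nat_lit 11) (nat_lit 4) (nat_lit 369) (nat_lit 318) (nat_lit 213)) (XT.lf (nat_lit 0) (nat_lit 17847487344) (nat_lit 152) (nat_lit 59761990529) (nat_lit 76) (nat_lit 186883289938) (nat_lit 9) (nat_lit 5) (nat_lit 11) (nat_lit 5) (nat_lit 10) (nat_lit 4) (nat_lit 370) (nat_lit 318) (nat_lit 212))))))))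
noncomputable def xc81 : XT := (XT.nd (nat_lit 43056) (nat_lit 0) (nat_lit 2432) (XT.nd (nat_lit 858) (nat_lit 76) (nat_lit 0) (XT.nd (nat_lit 390) (nat_lit 152) (nat_lit 0) (XT.nd (nat_lit 156) (nat_lit 76) (nat_lit 0) (XT.nd (nat_lit 78) (nat_lit 0) (nat_lit 0) (XT.lf (nat_lit 0) (nat_lit 29557752986) (nat_lit 76) (nat_lit 31861338575) (nat_lit 152) (nat_lit 221744777530) (nat_lit 8) (nat_lit 5) (nat_lit 9) (nat_lit 5) (nat_lit 10) (nat_lit 4) (nat_lit 371) (nat_lit 318) (nat_lit 211)) (XT.lf (nat_lit 0) (nat_lit 109806359987) (nat_lit 152) (nat_lit 175414469284) (nat_lit 0) (nat_lit 18041332981) (nat_lit 8) (nat_lit 5) (nat_lit 10) (nat_lit 4) (nat_lit 8) (nat_lit 4) (nat_lit 372) (nat_lit 318) (nat_lit 210))) (XT.nd (nat_lit 78) (nat_lit 76) (nat_lit 0) (XT.lf (nat_lit 0) (nat_lit 162599907956) (nat_lit 152) (nat_lit 91508435463) (nat_lit 0) (nat_lit 70833211072) (nat_lit 8) (nat_lit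 5) (nat_lit 10) (nat_lit 4) (nat_lit 8) (nat_lit 4) (nat_lit 373) (nat_lit 318) (nat_lit 209)) (XT.nd (nat_lit 78) (nat_lit 76) (nat_lit 0) (XT.lf (nat_lit 0) (nat_lit 219615141336) (nat_lit 152) (nat_lit 893348914) (nat_lit 0) (nat_lit 127846898270) (nat_lit 8) (nat_lit 5) (nat_lit 10) (nat_lit 4) (nat_lit 8) (nat_lit 4) (nat_lit 374) (nat_lit 318) (nat_lit 208)) (XT.lf (nat_lit 0) (nat_lit 100173961003) (nat_lit 76) (nat_lit 182579963443) (nat_lit 76) (nat_lit 90810288726) (nat_lit 7) (nat_lit 4) (nat_lit 8) (nat_lit 5) (nat_lit 8) (nat_lit 4) (nat_lit 375) (nat_lit 318) (nat_lit 207))))) (XT.nd (nat_lit 234) (nat_lit 76) (nat_lit 0) (XT.nd (nat_lit 78) (nat_lit 76) (nat_lit 0) (XT.lf (nat_lit 0) (nat_lit 209355519030) (nat_lit 76) (nat_lit 141602263445) (nat_lit 76) (nat_lit 49831263126) (nat_lit 7) (nat_lit 4) (nat_lit 8) (nat_lit 5) (nat_lit 8) (nat_lit 4) (nat_lit 376) (nat_lit 318)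 (nat_lit 206)) (XT.nd (nat_lit 78) (nat_lit 76) (nat_lit 0) (XT.lf (nat_lit 0) (nat_lit 327268788844) (nat_lit 76) (nat_lit 97347688739) (nat_lit 76) (nat_lit 5575461010) (nat_lit 7) (nat_lit 4) (nat_lit 8) (nat_lit 5) (nat_lit 8) (nat_lit 4) (nat_lit 377) (nat_lit 318) (nat_lit 205)) (XT.lf (nat_lit 0) (nat_lit 40868090585) (nat_lit 152) (nat_lit 7993778517) (nat_lit 76) (nat_lit 413052304272) (nat_lit 6) (nat_lit 5) (nat_lit 8) (nat_lit 5) (nat_lit 7) (nat_lit 4) (nat_lit 378) (nat_lit 318) (nat_lit 204)))) (XT.nd (nat_lit 78) (nat_lit 0) (nat_lit 0) (XT.lf (nat_lit 0) (nat_lit 92437419573) (nat_lit 152) (nat_lit 398618702760) (nat_lit 0) (nat_lit 5033213359) (nat_lit 5) (nat_lit 5) (nat_lit 7) (nat_lit 4) (nat_lit 5) (nat_lit 4) (nat_lit 379) (nat_lit 318) (nat_lit 203)) (XT.nd (nat_lit 78) (nat_lit 0) (nat_lit 0) (XT.lf (nat_lit 0) (nat_lit 149096482626) (nat_lit 152) (nat_lit 322162470824)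 (nat_lit 0) (nat_lit 61691348453) (nat_lit 5) (nat_lit 5) (nat_lit 7) (nat_lit 4) (nat_lit 5) (nat_lit 4) (nat_lit 380) (nat_lit 318) (nat_lit 202)) (XT.lf (nat_lit 0) (nat_lit 210287120892) (nat_lit 152) (nat_lit 239591954783) (nat_lit 0) (nat_lit 122881127497) (nat_lit 5) (nat_lit 5) (nat_lit 7) (nat_lit 4) (nat_lit 5) (nat_lit 4) (nat_lit 381) (nat_lit 318) (nat_lit 201)))))) (XT.nd (nat_lit 390) (nat_lit 0) (nat_lit 0) (XT.nd (nat_lit 156) (nat_lit 76) (nat_lit 0) (XT.nd (nat_lit 78) (nat_lit 0) (nat_lit 0) (XT.lf (nat_lit 0) (nat_lit 276371945562) (nat_lit 152) (nat_lit 150417847876) (nat_lit 0) (nat_lit 188965156591) (nat_lit 5) (nat_lit 5) (nat_lit 7) (nat_lit 4) (nat_lit 5) (nat_lit 4) (nat_lit 382) (nat_lit 318) (nat_lit 200)) (XT.lf (nat_lit 0) (nat_lit 347742570411) (nat_lit 152) (nat_lit 54111710950) (nat_lit 0) (nat_lit 260335044796) (nat_lit 5) (nat_lit 5) (nat_lit 7) (nat_lit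 4) (nat_lit 5) (nat_lit 4) (nat_lit 383) (nat_lit 318) (nat_lit 199))) (XT.nd (nat_lit 78) (nat_lit 0) (nat_lit 0) (XT.lf (nat_lit 0) (nat_lit 51546984447) (nat_lit 76) (nat_lit 374079740915) (nat_lit 76) (nat_lit 286671533223) (nat_lit 4) (nat_lit 4) (nat_lit 5) (nat_lit 5) (nat_lit 5) (nat_lit 4) (nat_lit 384) (nat_lit 318) (nat_lit 198)) (XT.nd (nat_lit 78) (nat_lit 0) (nat_lit 0) (XT.lf (nat_lit 0) (nat_lit 167589005713) (nat_lit 76) (nat_lit 343094326678) (nat_lit 76) (nat_lit 255685487432) (nat_lit 4) (nat_lit 4) (nat_lit 5) (nat_lit 5) (nat_lit 5) (nat_lit 4) (nat_lit 385) (nat_lit 318) (nat_lit 197)) (XT.lf (nat_lit 0) (nat_lit 292912831732) (nat_lit 76) (nat_lit 309630829388) (nat_lit 76) (nat_lit 222221405370) (nat_lit 4) (nat_lit 4) (nat_lit 5) (nat_lit 5) (nat_lit 5) (nat_lit 4) (nat_lit 386) (nat_lit 318) (nat_lit 196))))) (XT.nd (nat_lit 41574) (nat_lit 0) (nat_lit 7296) (XT.nd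 (nat_lit 78) (nat_lit 0) (nat_lit 0) (XT.lf (nat_lit 0) (nat_lit 428261122212) (nat_lit 76) (nat_lit 273490946838) (nat_lit 76) (nat_lit 186080981366) (nat_lit 4) (nat_lit 4) (nat_lit 5) (nat_lit 5) (nat_lit 5) (nat_lit 4) (nat_lit 387) (nat_lit 318) (nat_lit 195)) (XT.nd (nat_lit 78) (nat_lit 0) (nat_lit 0) (XT.lf (nat_lit 0) (nat_lit 574435941097) (nat_lit 76) (nat_lit 234460516763) (nat_lit 76) (nat_lit 147050049942) (nat_lit 4) (nat_lit 4) (nat_lit 5) (nat_lit 5) (nat_lit 5) (nat_lit 4) (nat_lit 388) (nat_lit 318) (nat_lit 194)) (XT.lf (nat_lit 0) (nat_lit 732303509536) (nat_lit 76) (nat_lit 192308247723) (nat_lit 76) (nat_lit 104897316692) (nat_lit 4) (nat_lit 4) (nat_lit 5) (nat_lit 5) (nat_lit 5) (nat_lit 4) (nat_lit 389) (nat_lit 318) (nat_lit 193)))) (XT.nd (nat_lit 78) (nat_lit 0) (nat_lit 0) (XT.lf (nat_lit 0) (nat_lit 3643616340) (nat_lit 0) (nat_lit 3643616340) (nat_lit 684)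 (nat_lit 1590461743) (nat_lit 100) (nat_lit 5) (nat_lit 100) (nat_lit 3) (nat_lit 109) (nat_lit 3) (nat_lit 319) (nat_lit 319) (nat_lit 262)) (XT.nd (nat_lit 78) (nat_lit 0) (nat_lit 76) (XT.lf (nat_lit 76) (nat_lit 2711039253) (nat_lit 0) (nat_lit 12890149166) (nat_lit 760) (nat_lit 2841748038) (nat_lit 101) (nat_lit 5) (nat_lit 100) (nat_lit 5) (nat_lit 110) (nat_lit 5) (nat_lit 320) (nat_lit 319) (nat_lit 261)) (XT.lf (nat_lit 0) (nat_lit 16984973256) (nat_lit 684) (nat_lit 2001549876) (nat_lit 760) (nat_lit 185266642) (nat_lit 101) (nat_lit 5) (nat_lit 110) (nat_lit 5) (nat_lit 111) (nat_lit 5) (nat_lit 321) (nat_lit 319) (nat_lit 260))))))) (XT.nd (nat_lit 858) (nat_lit 2356) (nat_lit 0) (XT.nd (nat_lit 390) (nat_lit 1900) (nat_lit 0) (XT.nd (nat_lit 156) (nat_lit 0) (nat_lit 76) (XT.nd (nat_lit 78) (nat_lit 684) (nat_lit 0) (XT.lf (nat_lit 76) (nat_lit 13007788935) (nat_lit 0) (nat_lit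 5863314913) (nat_lit 760) (nat_lit 1068309893) (nat_lit 102) (nat_lit 5) (nat_lit 101) (nat_lit 5) (nat_lit 111) (nat_lit 5) (nat_lit 322) (nat_lit 319) (nat_lit 259)) (XT.lf (nat_lit 0) (nat_lit 413083574) (nat_lit 760) (nat_lit 12111438013) (nat_lit 836) (nat_lit 8229962429) (nat_lit 92) (nat_lit 5) (nat_lit 102) (nat_lit 5) (nat_lit 103) (nat_lit 5) (nat_lit 323) (nat_lit 319) (nat_lit 258))) (XT.nd (nat_lit 78) (nat_lit 0) (nat_lit 0) (XT.lf (nat_lit 0) (nat_lit 2264441939) (nat_lit 760) (nat_lit 17574768160) (nat_lit 836) (nat_lit 1780266422) (nat_lit 93) (nat_lit 5) (nat_lit 103) (nat_lit 5) (nat_lit 104) (nat_lit 5) (nat_lit 324) (nat_lit 319) (nat_lit 257)) (XT.nd (nat_lit 78) (nat_lit 0) (nat_lit 76) (XT.lf (nat_lit 0) (nat_lit 4665677108) (nat_lit 760) (nat_lit 851603386) (nat_lit 836) (nat_lit 17016333192) (nat_lit 93) (nat_lit 5) (nat_lit 103) (nat_lit 5) (nat_lit 104) (nat_lit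 5) (nat_lit 325) (nat_lit 319) (nat_lit 256)) (XT.lf (nat_lit 0) (nat_lit 7674164350) (nat_lit 760) (nat_lit 5908502695) (nat_lit 76) (nat_lit 9917488292) (nat_lit 94) (nat_lit 5) (nat_lit 104) (nat_lit 5) (nat_lit 95) (nat_lit 5) (nat_lit 326) (nat_lit 319) (nat_lit 255))))) (XT.nd (nat_lit 234) (nat_lit 684) (nat_lit 0) (XT.nd (nat_lit 78) (nat_lit 684) (nat_lit 0) (XT.lf (nat_lit 0) (nat_lit 11251284287) (nat_lit 760) (nat_lit 11250227149) (nat_lit 76) (nat_lit 2026140063) (nat_lit 85) (nat_lit 5) (nat_lit 95) (nat_lit 5) (nat_lit 86) (nat_lit 5) (nat_lit 327) (nat_lit 319) (nat_lit 254)) (XT.nd (nat_lit 78) (nat_lit 304) (nat_lit 0) (XT.lf (nat_lit 0) (nat_lit 8602880419) (nat_lit 380) (nat_lit 6960258249) (nat_lit 456) (nat_lit 10051807170) (nat_lit 80) (nat_lit 5) (nat_lit 85) (nat_lit 5) (nat_lit 86) (nat_lit 5) (nat_lit 328) (nat_lit 319) (nat_lit 253)) (XT.lf (nat_lit 0) (nat_lit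 3606496415) (nat_lit 304) (nat_lit 17004093631) (nat_lit 380) (nat_lit 6159125993) (nat_lit 76) (nat_lit 5) (nat_lit 80) (nat_lit 5) (nat_lit 81) (nat_lit 5) (nat_lit 329) (nat_lit 319) (nat_lit 252)))) (XT.nd (nat_lit 78) (nat_lit 684) (nat_lit 0) (XT.lf (nat_lit 0) (nat_lit 26342726296) (nat_lit 304) (nat_lit 113760279) (nat_lit 380) (nat_lit 1540671743) (nat_lit 76) (nat_lit 5) (nat_lit 80) (nat_lit 5) (nat_lit 81) (nat_lit 5) (nat_lit 330) (nat_lit 319) (nat_lit 251)) (XT.nd (nat_lit 78) (nat_lit 304) (nat_lit 0) (XT.lf (nat_lit 0) (nat_lit 3957169698) (nat_lit 380) (nat_lit 7378198722) (nat_lit 76) (nat_lit 17953744464) (nat_lit 71) (nat_lit 5) (nat_lit 76) (nat_lit 5) (nat_lit 72) (nat_lit 5) (nat_lit 331) (nat_lit 319) (nat_lit 250)) (XT.lf (nat_lit 0) (nat_lit 10237883567) (nat_lit 380) (nat_lit 13536170337) (nat_lit 76) (nat_lit 6889274636) (nat_lit 67) (nat_lit 5) (nat_lit 72)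 (nat_lit 5) (nat_lit 68) (nat_lit 5) (nat_lit 332) (nat_lit 319) (nat_lit 249)))))) (XT.nd (nat_lit 468) (nat_lit 988) (nat_lit 0) (XT.nd (nat_lit 234) (nat_lit 760) (nat_lit 0) (XT.nd (nat_lit 78) (nat_lit 304) (nat_lit 0) (XT.lf (nat_lit 0) (nat_lit 11885277610) (nat_lit 304) (nat_lit 5628691929) (nat_lit 380) (nat_lit 14608883485) (nat_lit 63) (nat_lit 5) (nat_lit 67) (nat_lit 5) (nat_lit 68) (nat_lit 5) (nat_lit 333) (nat_lit 319) (nat_lit 248)) (XT.nd (nat_lit 78) (nat_lit 76) (nat_lit 0) (XT.lf (nat_lit 0) (nat_lit 6092361035) (nat_lit 228) (nat_lit 19818993263) (nat_lit 304) (nat_lit 7760840614) (nat_lit 60) (nat_lit 5) (nat_lit 63) (nat_lit 5) (nat_lit 64) (nat_lit 5) (nat_lit 334) (nat_lit 319) (nat_lit 247)) (XT.lf (nat_lit 0) (nat_lit 86822294) (nat_lit 304) (nat_lit 188328711) (nat_lit 76) (nat_lit 35048627399) (nat_lit 59) (nat_lit 5) (nat_lit 63) (nat_lit 5) (nat_lit 60) (nat_lit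 5) (nat_lit 335) (nat_lit 319) (nat_lit 246)))) (XT.nd (nat_lit 78) (nat_lit 456) (nat_lit 0) (XT.lf (nat_lit 0) (nat_lit 9088700469) (nat_lit 380) (nat_lit 7197946894) (nat_lit 76) (nat_lit 20774577751) (nat_lit 55) (nat_lit 5) (nat_lit 60) (nat_lit 5) (nat_lit 56) (nat_lit 5) (nat_lit 336) (nat_lit 319) (nat_lit 245)) (XT.nd (nat_lit 78) (nat_lit 228) (nat_lit 0) (XT.lf (nat_lit 0) (nat_lit 19261460832) (nat_lit 304) (nat_lit 14855659092) (nat_lit 76) (nat_lit 4798023166) (nat_lit 52) (nat_lit 5) (nat_lit 56) (nat_lit 5) (nat_lit 53) (nat_lit 5) (nat_lit 337) (nat_lit 319) (nat_lit 244)) (XT.lf (nat_lit 0) (nat_lit 17429329473) (nat_lit 228) (nat_lit 13481923948) (nat_lit 304) (nat_lit 9972971744) (nat_lit 49) (nat_lit 5) (nat_lit 52) (nat_lit 5) (nat_lit 53) (nat_lit 5) (nat_lit 338) (nat_lit 319) (nat_lit 243))))) (XT.nd (nat_lit 234) (nat_lit 532) (nat_lit 0) (XT.nd (nat_lit 78) (nat_lit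 228) (nat_lit 0) (XT.lf (nat_lit 0) (nat_lit 1021740945) (nat_lit 228) (nat_lit 33007256788) (nat_lit 76) (nat_lit 8953720622) (nat_lit 46) (nat_lit 5) (nat_lit 49) (nat_lit 5) (nat_lit 47) (nat_lit 5) (nat_lit 339) (nat_lit 319) (nat_lit 242)) (XT.nd (nat_lit 78) (nat_lit 0) (nat_lit 0) (XT.lf (nat_lit 0) (nat_lit 1314259086) (nat_lit 228) (nat_lit 11890079379) (nat_lit 304) (nat_lit 32003701528) (nat_lit 43) (nat_lit 5) (nat_lit 46) (nat_lit 5) (nat_lit 47) (nat_lit 5) (nat_lit 340) (nat_lit 319) (nat_lit 241)) (XT.lf (nat_lit 0) (nat_lit 27123978889) (nat_lit 304) (nat_lit 8234094754) (nat_lit 76) (nat_lit 12215200454) (nat_lit 43) (nat_lit 5) (nat_lit 47) (nat_lit 5) (nat_lit 44) (nat_lit 5) (nat_lit 341) (nat_lit 319) (nat_lit 240)))) (XT.nd (nat_lit 78) (nat_lit 380) (nat_lit 0) (XT.lf (nat_lit 0) (nat_lit 31058480614) (nat_lit 152) (nat_lit 11775200148) (nat_lit 228) (nat_lit 7260229517)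 (nat_lit 41) (nat_lit 5) (nat_lit 43) (nat_lit 5) (nat_lit 44) (nat_lit 5) (nat_lit 342) (nat_lit 319) (nat_lit 239)) (XT.nd (nat_lit 78) (nat_lit 152) (nat_lit 0) (XT.lf (nat_lit 0) (nat_lit 7457416415) (nat_lit 228) (nat_lit 31466029508) (nat_lit 76) (nat_lit 13852457135) (nat_lit 38) (nat_lit 5) (nat_lit 41) (nat_lit 5) (nat_lit 39) (nat_lit 5) (nat_lit 343) (nat_lit 319) (nat_lit 238)) (XT.lf (nat_lit 0) (nat_lit 9883663955) (nat_lit 152) (nat_lit 13899507106) (nat_lit 228) (nat_lit 31849086602) (nat_lit 36) (nat_lit 5) (nat_lit 38) (nat_lit 5) (nat_lit 39) (nat_lit 5) (nat_lit 344) (nat_lit 319) (nat_lit 237))))))))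
noncomputable def xc82 : XT := (XT.nd (nat_lit 1716) (nat_lit 608) (nat_lit 0) (XT.nd (nat_lit 858) (nat_lit 684) (nat_lit 0) (XT.nd (nat_lit 390) (nat_lit 608) (nat_lit 0) (XT.nd (nat_lit 156) (nat_lit 304) (nat_lit 0) (XT.nd (nat_lit 78) (nat_lit 228) (nat_lit 0) (XT.lf (nat_lit 0) (nat_lit 42169148934) (nat_lit 228) (nat_lit 3251368421) (nat_lit 76) (nat_lit 13258901083) (nat_lit 36) (nat_lit 5) (nat_lit 39) (nat_lit 5) (nat_lit 37) (nat_lit 5) (nat_lit 345) (nat_lit 319) (nat_lit 236)) (XT.lf (nat_lit 0) (nat_lit 979737802) (nat_lit 228) (nat_lit 18139192826) (nat_lit 76) (nat_lit 42805089937) (nat_lit 33) (nat_lit 5) (nat_lit 36) (nat_lit 5) (nat_lit 34) (nat_lit 5) (nat_lit 346) (nat_lit 319) (nat_lit 235))) (XT.nd (nat_lit 78) (nat_lit 152) (nat_lit 0) (XT.lf (nat_lit 0) (nat_lit 19974330921) (nat_lit 228) (nat_lit 35604278983) (nat_lit 76) (nat_lit 9801861571) (nat_lit 31) (nat_lit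 5) (nat_lit 34) (nat_lit 5) (nat_lit 32) (nat_lit 5) (nat_lit 347) (nat_lit 319) (nat_lit 234)) (XT.nd (nat_lit 78) (nat_lit 0) (nat_lit 0) (XT.lf (nat_lit 0) (nat_lit 13157203643) (nat_lit 152) (nat_lit 28173475527) (nat_lit 228) (nat_lit 27740654396) (nat_lit 29) (nat_lit 5) (nat_lit 31) (nat_lit 5) (nat_lit 32) (nat_lit 5) (nat_lit 348) (nat_lit 319) (nat_lit 233)) (XT.lf (nat_lit 0) (nat_lit 65041638920) (nat_lit 228) (nat_lit 5978864454) (nat_lit 76) (nat_lit 2004660230) (nat_lit 29) (nat_lit 5) (nat_lit 32) (nat_lit 5) (nat_lit 30) (nat_lit 4) (nat_lit 349) (nat_lit 319) (nat_lit 232))))) (XT.nd (nat_lit 234) (nat_lit 228) (nat_lit 0) (XT.nd (nat_lit 78) (nat_lit 228) (nat_lit 0) (XT.lf (nat_lit 0) (nat_lit 14181611045) (nat_lit 152) (nat_lit 28426918085) (nat_lit 76) (nat_lit 34613607145) (nat_lit 27) (nat_lit 5) (nat_lit 29) (nat_lit 5) (nat_lit 28) (nat_lit 5) (nat_lit 350) (nat_lit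 319) (nat_lit 231)) (XT.nd (nat_lit 78) (nat_lit 76) (nat_lit 0) (XT.lf (nat_lit 0) (nat_lit 27137345650) (nat_lit 152) (nat_lit 11230369494) (nat_lit 228) (nat_lit 43354238073) (nat_lit 25) (nat_lit 5) (nat_lit 27) (nat_lit 5) (nat_lit 28) (nat_lit 5) (nat_lit 351) (nat_lit 319) (nat_lit 230)) (XT.lf (nat_lit 0) (nat_lit 1274022539) (nat_lit 76) (nat_lit 64086024739) (nat_lit 152) (nat_lit 21178144397) (nat_lit 24) (nat_lit 5) (nat_lit 25) (nat_lit 5) (nat_lit 26) (nat_lit 4) (nat_lit 352) (nat_lit 319) (nat_lit 229)))) (XT.nd (nat_lit 78) (nat_lit 152) (nat_lit 0) (XT.lf (nat_lit 0) (nat_lit 3833670842) (nat_lit 152) (nat_lit 28399386389) (nat_lit 76) (nat_lit 59446992961) (nat_lit 23) (nat_lit 5) (nat_lit 25) (nat_lit 5) (nat_lit 24) (nat_lit 5) (nat_lit 353) (nat_lit 319) (nat_lit 228)) (XT.nd (nat_lit 78) (nat_lit 0) (nat_lit 0) (XT.lf (nat_lit 0) (nat_lit 30684219644) (nat_lit 228)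 (nat_lit 63509420499) (nat_lit 76) (nat_lit 2993272311) (nat_lit 21) (nat_lit 5) (nat_lit 24) (nat_lit 5) (nat_lit 22) (nat_lit 4) (nat_lit 354) (nat_lit 319) (nat_lit 227)) (XT.lf (nat_lit 0) (nat_lit 60724290854) (nat_lit 228) (nat_lit 1935160121) (nat_lit 76) (nat_lit 40422801176) (nat_lit 21) (nat_lit 5) (nat_lit 24) (nat_lit 5) (nat_lit 22) (nat_lit 4) (nat_lit 355) (nat_lit 319) (nat_lit 226)))))) (XT.nd (nat_lit 390) (nat_lit 380) (nat_lit 0) (XT.nd (nat_lit 156) (nat_lit 76) (nat_lit 0) (XT.nd (nat_lit 78) (nat_lit 152) (nat_lit 0) (XT.lf (nat_lit 0) (nat_lit 66691620149) (nat_lit 76) (nat_lit 27512710585) (nat_lit 152) (nat_lit 15193052343) (nat_lit 20) (nat_lit 5) (nat_lit 21) (nat_lit 5) (nat_lit 22) (nat_lit 4) (nat_lit 356) (nat_lit 319) (nat_lit 225)) (XT.lf (nat_lit 0) (nat_lit 14289990161) (nat_lit 152) (nat_lit 91118871111) (nat_lit 76) (nat_lit 10767939415) (nat_lit 18)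 (nat_lit 5) (nat_lit 20) (nat_lit 5) (nat_lit 19) (nat_lit 4) (nat_lit 357) (nat_lit 319) (nat_lit 224))) (XT.nd (nat_lit 78) (nat_lit 76) (nat_lit 0) (XT.lf (nat_lit 0) (nat_lit 46822333023) (nat_lit 152) (nat_lit 24433530001) (nat_lit 76) (nat_lit 52169109784) (nat_lit 18) (nat_lit 5) (nat_lit 20) (nat_lit 5) (nat_lit 19) (nat_lit 4) (nat_lit 358) (nat_lit 319) (nat_lit 223)) (XT.nd (nat_lit 78) (nat_lit 0) (nat_lit 0) (XT.lf (nat_lit 0) (nat_lit 49152809556) (nat_lit 76) (nat_lit 33567991614) (nat_lit 152) (nat_lit 48494022299) (nat_lit 17) (nat_lit 5) (nat_lit 18) (nat_lit 5) (nat_lit 19) (nat_lit 4) (nat_lit 359) (nat_lit 319) (nat_lit 222)) (XT.lf (nat_lit 0) (nat_lit 122031395966) (nat_lit 152) (nat_lit 10233244181) (nat_lit 0) (nat_lit 7336211118) (nat_lit 17) (nat_lit 5) (nat_lit 19) (nat_lit 4) (nat_lit 17) (nat_lit 4) (nat_lit 360) (nat_lit 319) (nat_lit 221))))) (XT.nd (nat_lit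 234) (nat_lit 152) (nat_lit 0) (XT.nd (nat_lit 78) (nat_lit 76) (nat_lit 0) (XT.lf (nat_lit 0) (nat_lit 16988804181) (nat_lit 152) (nat_lit 79872643547) (nat_lit 76) (nat_lit 51700640282) (nat_lit 15) (nat_lit 5) (nat_lit 17) (nat_lit 5) (nat_lit 16) (nat_lit 4) (nat_lit 361) (nat_lit 319) (nat_lit 220)) (XT.nd (nat_lit 78) (nat_lit 76) (nat_lit 0) (XT.lf (nat_lit 0) (nat_lit 53882227264) (nat_lit 152) (nat_lit 4245299627) (nat_lit 76) (nat_lit 100088994320) (nat_lit 15) (nat_lit 5) (nat_lit 17) (nat_lit 5) (nat_lit 16) (nat_lit 4) (nat_lit 362) (nat_lit 319) (nat_lit 219)) (XT.lf (nat_lit 0) (nat_lit 79986572523) (nat_lit 76) (nat_lit 14986257867) (nat_lit 152) (nat_lit 73608194533) (nat_lit 14) (nat_lit 5) (nat_lit 15) (nat_lit 5) (nat_lit 16) (nat_lit 4) (nat_lit 363) (nat_lit 319) (nat_lit 218)))) (XT.nd (nat_lit 78) (nat_lit 152) (nat_lit 0) (XT.lf (nat_lit 0) (nat_lit 139916304604)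 (nat_lit 152) (nat_lit 9162664228) (nat_lit 0) (nat_lit 30667440037) (nat_lit 14) (nat_lit 5) (nat_lit 16) (nat_lit 4) (nat_lit 14) (nat_lit 4) (nat_lit 364) (nat_lit 319) (nat_lit 217)) (XT.nd (nat_lit 78) (nat_lit 76) (nat_lit 0) (XT.lf (nat_lit 0) (nat_lit 78890793345) (nat_lit 76) (nat_lit 111046084947) (nat_lit 76) (nat_lit 1794065161) (nat_lit 13) (nat_lit 4) (nat_lit 14) (nat_lit 5) (nat_lit 14) (nat_lit 4) (nat_lit 365) (nat_lit 319) (nat_lit 216)) (XT.lf (nat_lit 0) (nat_lit 38187024299) (nat_lit 152) (nat_lit 30971541469) (nat_lit 76) (nat_lit 135477032180) (nat_lit 12) (nat_lit 5) (nat_lit 14) (nat_lit 5) (nat_lit 13) (nat_lit 4) (nat_lit 366) (nat_lit 319) (nat_lit 215))))))) (XT.nd (nat_lit 858) (nat_lit 228) (nat_lit 0) (XT.nd (nat_lit 390) (nat_lit 152) (nat_lit 0) (XT.nd (nat_lit 156) (nat_lit 152) (nat_lit 0) (XT.nd (nat_lit 78) (nat_lit 0) (nat_lit 0) (XT.lf (nat_lit 0)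 (nat_lit 59309924932) (nat_lit 76) (nat_lit 22918158632) (nat_lit 152) (nat_lit 136296854614) (nat_lit 11) (nat_lit 5) (nat_lit 12) (nat_lit 5) (nat_lit 13) (nat_lit 4) (nat_lit 367) (nat_lit 319) (nat_lit 214)) (XT.lf (nat_lit 0) (nat_lit 130760243402) (nat_lit 152) (nat_lit 76013835535) (nat_lit 0) (nat_lit 26702956651) (nat_lit 11) (nat_lit 5) (nat_lit 13) (nat_lit 4) (nat_lit 11) (nat_lit 4) (nat_lit 368) (nat_lit 319) (nat_lit 213))) (XT.nd (nat_lit 78) (nat_lit 76) (nat_lit 0) (XT.lf (nat_lit 0) (nat_lit 13897589067) (nat_lit 76) (nat_lit 169878574276) (nat_lit 76) (nat_lit 65819078782) (nat_lit 10) (nat_lit 4) (nat_lit 11) (nat_lit 5) (nat_lit 11) (nat_lit 4) (nat_lit 369) (nat_lit 319) (nat_lit 212)) (XT.nd (nat_lit 78) (nat_lit 76) (nat_lit 0) (XT.lf (nat_lit 0) (nat_lit 113712325413) (nat_lit 76) (nat_lit 128643011033) (nat_lit 76) (nat_lit 24581470408) (nat_lit 10) (nat_lit 4)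 (nat_lit 11) (nat_lit 5) (nat_lit 11) (nat_lit 4) (nat_lit 370) (nat_lit 319) (nat_lit 211)) (XT.lf (nat_lit 0) (nat_lit 19314449921) (nat_lit 152) (nat_lit 64468811927) (nat_lit 76) (nat_lit 201866958067) (nat_lit 9) (nat_lit 5) (nat_lit 11) (nat_lit 5) (nat_lit 10) (nat_lit 4) (nat_lit 371) (nat_lit 319) (nat_lit 210))))) (XT.nd (nat_lit 234) (nat_lit 76) (nat_lit 0) (XT.nd (nat_lit 78) (nat_lit 0) (nat_lit 0) (XT.lf (nat_lit 0) (nat_lit 31993289129) (nat_lit 76) (nat_lit 34376699537) (nat_lit 152) (nat_lit 239445111149) (nat_lit 8) (nat_lit 5) (nat_lit 9) (nat_lit 5) (nat_lit 10) (nat_lit 4) (nat_lit 372) (nat_lit 319) (nat_lit 209)) (XT.nd (nat_lit 78) (nat_lit 0) (nat_lit 0) (XT.lf (nat_lit 0) (nat_lit 118625955386) (nat_lit 152) (nat_lit 189380709272) (nat_lit 0) (nat_lit 19514706692) (nat_lit 8) (nat_lit 5) (nat_lit 10) (nat_lit 4) (nat_lit 8) (nat_lit 4) (nat_lit 373) (nat_lit 319)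 (nat_lit 208)) (XT.lf (nat_lit 0) (nat_lit 175640388185) (nat_lit 152) (nat_lit 98767149601) (nat_lit 0) (nat_lit 76527707841) (nat_lit 8) (nat_lit 5) (nat_lit 10) (nat_lit 4) (nat_lit 8) (nat_lit 4) (nat_lit 374) (nat_lit 319) (nat_lit 207)))) (XT.nd (nat_lit 78) (nat_lit 76) (nat_lit 0) (XT.lf (nat_lit 0) (nat_lit 237214433748) (nat_lit 152) (nat_lit 907445810) (nat_lit 0) (nat_lit 138100427801) (nat_lit 8) (nat_lit 5) (nat_lit 10) (nat_lit 4) (nat_lit 8) (nat_lit 4) (nat_lit 375) (nat_lit 319) (nat_lit 206)) (XT.nd (nat_lit 78) (nat_lit 0) (nat_lit 0) (XT.lf (nat_lit 0) (nat_lit 108242755626) (nat_lit 76) (nat_lit 197160192446) (nat_lit 76) (nat_lit 98044959089) (nat_lit 7) (nat_lit 4) (nat_lit 8) (nat_lit 5) (nat_lit 8) (nat_lit 4) (nat_lit 376) (nat_lit 319) (nat_lit 205)) (XT.lf (nat_lit 0) (nat_lit 226154773278) (nat_lit 76) (nat_lit 152906214824) (nat_lit 76) (nat_lit 53789844977)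 (nat_lit 7) (nat_lit 4) (nat_lit 8) (nat_lit 5) (nat_lit 8) (nat_lit 4) (nat_lit 377) (nat_lit 319) (nat_lit 204)))))) (XT.nd (nat_lit 468) (nat_lit 76) (nat_lit 0) (XT.nd (nat_lit 234) (nat_lit 0) (nat_lit 0) (XT.nd (nat_lit 78) (nat_lit 152) (nat_lit 0) (XT.lf (nat_lit 0) (nat_lit 353497340771) (nat_lit 76) (nat_lit 105113068933) (nat_lit 76) (nat_lit 5995646781) (nat_lit 7) (nat_lit 4) (nat_lit 8) (nat_lit 5) (nat_lit 8) (nat_lit 4) (nat_lit 378) (nat_lit 319) (nat_lit 203)) (XT.nd (nat_lit 78) (nat_lit 76) (nat_lit 0) (XT.lf (nat_lit 0) (nat_lit 44160707937) (nat_lit 152) (nat_lit 8588945237) (nat_lit 76) (nat_lit 446116489833) (nat_lit 6) (nat_lit 5) (nat_lit 8) (nat_lit 5) (nat_lit 7) (nat_lit 4) (nat_lit 379) (nat_lit 319) (nat_lit 202)) (XT.lf (nat_lit 0) (nat_lit 99854845889) (nat_lit 152) (nat_lit 430464995913) (nat_lit 0) (nat_lit 5455513801) (nat_lit 5) (nat_lit 5) (nat_lit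 7) (nat_lit 4) (nat_lit 5) (nat_lit 4) (nat_lit 380) (nat_lit 319) (nat_lit 201)))) (XT.nd (nat_lit 78) (nat_lit 0) (nat_lit 0) (XT.lf (nat_lit 0) (nat_lit 161044972300) (nat_lit 152) (nat_lit 347895465650) (nat_lit 0) (nat_lit 66644844637) (nat_lit 5) (nat_lit 5) (nat_lit 7) (nat_lit 4) (nat_lit 5) (nat_lit 4) (nat_lit 381) (nat_lit 319) (nat_lit 200)) (XT.nd (nat_lit 78) (nat_lit 0) (nat_lit 0) (XT.lf (nat_lit 0) (nat_lit 227129323030) (nat_lit 152) (nat_lit 258722271499) (nat_lit 0) (nat_lit 132728458723) (nat_lit 5) (nat_lit 5) (nat_lit 7) (nat_lit 4) (nat_lit 5) (nat_lit 4) (nat_lit 382) (nat_lit 319) (nat_lit 199)) (XT.lf (nat_lit 0) (nat_lit 298499509047) (nat_lit 152) (nat_lit 162416979718) (nat_lit 0) (nat_lit 204097962661) (nat_lit 5) (nat_lit 5) (nat_lit 7) (nat_lit 4) (nat_lit 5) (nat_lit 4) (nat_lit 383) (nat_lit 319) (nat_lit 198))))) (XT.nd (nat_lit 234) (nat_lit 0) (nat_lit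 0) (XT.nd (nat_lit 78) (nat_lit 76) (nat_lit 0) (XT.lf (nat_lit 0) (nat_lit 375578464784) (nat_lit 152) (nat_lit 58408892282) (nat_lit 0) (nat_lit 281176286845) (nat_lit 5) (nat_lit 5) (nat_lit 7) (nat_lit 4) (nat_lit 5) (nat_lit 4) (nat_lit 384) (nat_lit 319) (nat_lit 197)) (XT.nd (nat_lit 78) (nat_lit 0) (nat_lit 0) (XT.lf (nat_lit 0) (nat_lit 55701118690) (nat_lit 76) (nat_lit 403991486301) (nat_lit 76) (nat_lit 309588723590) (nat_lit 4) (nat_lit 4) (nat_lit 5) (nat_lit 5) (nat_lit 5) (nat_lit 4) (nat_lit 385) (nat_lit 319) (nat_lit 196)) (XT.lf (nat_lit 0) (nat_lit 181024251621) (nat_lit 76) (nat_lit 370528322916) (nat_lit 76) (nat_lit 276125018750) (nat_lit 4) (nat_lit 4) (nat_lit 5) (nat_lit 5) (nat_lit 5) (nat_lit 4) (nat_lit 386) (nat_lit 319) (nat_lit 195)))) (XT.nd (nat_lit 78) (nat_lit 0) (nat_lit 0) (XT.lf (nat_lit 0) (nat_lit 316371900355) (nat_lit 76) (nat_lit 334388749539)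 (nat_lit 76) (nat_lit 239984944025) (nat_lit 4) (nat_lit 4) (nat_lit 5) (nat_lit 5) (nat_lit 5) (nat_lit 4) (nat_lit 387) (nat_lit 319) (nat_lit 194)) (XT.nd (nat_lit 78) (nat_lit 0) (nat_lit 0) (XT.lf (nat_lit 0) (nat_lit 462546125030) (nat_lit 76) (nat_lit 295358605733) (nat_lit 76) (nat_lit 200954336009) (nat_lit 4) (nat_lit 4) (nat_lit 5) (nat_lit 5) (nat_lit 5) (nat_lit 4) (nat_lit 388) (nat_lit 319) (nat_lit 193)) (XT.lf (nat_lit 0) (nat_lit 620413143274) (nat_lit 76) (nat_lit 253206601759) (nat_lit 76) (nat_lit 158801902210) (nat_lit 4) (nat_lit 4) (nat_lit 5) (nat_lit 5) (nat_lit 5) (nat_lit 4) (nat_lit 389) (nat_lit 319) (nat_lit 192))))))))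
noncomputable def xc83 : XT := (XT.nd (nat_lit 1794) (nat_lit 2204) (nat_lit 0) (XT.nd (nat_lit 858) (nat_lit 2508) (nat_lit 0) (XT.nd (nat_lit 390) (nat_lit 1216) (nat_lit 0) (XT.nd (nat_lit 156) (nat_lit 608) (nat_lit 0) (XT.nd (nat_lit 78) (nat_lit 0) (nat_lit 0) (XT.lf (nat_lit 0) (nat_lit 4087616925) (nat_lit 0) (nat_lit 4087616925) (nat_lit 684) (nat_lit 1396955837) (nat_lit 100) (nat_lit 5) (nat_lit 100) (nat_lit 3) (nat_lit 109) (nat_lit 3) (nat_lit 320) (nat_lit 320) (nat_lit 260)) (XT.lf (nat_lit 76) (nat_lit 3254318543) (nat_lit 0) (nat_lit 14160507997) (nat_lit 760) (nat_lit 2474398865) (nat_lit 101) (nat_lit 5) (nat_lit 100) (nat_lit 5) (nat_lit 110) (nat_lit 5) (nat_lit 321) (nat_lit 320) (nat_lit 259))) (XT.nd (nat_lit 78) (nat_lit 608) (nat_lit 0) (XT.lf (nat_lit 76) (nat_lit 18849466335) (nat_lit 0) (nat_lit 14728527) (nat_lit 760) (nat_lit 1814512448) (nat_lit 101) (nat_lit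 5) (nat_lit 100) (nat_lit 5) (nat_lit 110) (nat_lit 5) (nat_lit 322) (nat_lit 320) (nat_lit 258)) (XT.nd (nat_lit 78) (nat_lit 684) (nat_lit 0) (XT.lf (nat_lit 76) (nat_lit 14366617771) (nat_lit 0) (nat_lit 6500803386) (nat_lit 760) (nat_lit 642069365) (nat_lit 102) (nat_lit 5) (nat_lit 101) (nat_lit 5) (nat_lit 111) (nat_lit 5) (nat_lit 323) (nat_lit 320) (nat_lit 257)) (XT.lf (nat_lit 0) (nat_lit 907542824) (nat_lit 760) (nat_lit 12733561117) (nat_lit 836) (nat_lit 8750011318) (nat_lit 92) (nat_lit 5) (nat_lit 102) (nat_lit 5) (nat_lit 103) (nat_lit 5) (nat_lit 324) (nat_lit 320) (nat_lit 256))))) (XT.nd (nat_lit 234) (nat_lit 1292) (nat_lit 0) (XT.nd (nat_lit 78) (nat_lit 0) (nat_lit 0) (XT.lf (nat_lit 0) (nat_lit 2876438154) (nat_lit 760) (nat_lit 18625227901) (nat_lit 836) (nat_lit 1825218349) (nat_lit 93) (nat_lit 5) (nat_lit 103) (nat_lit 5) (nat_lit 104) (nat_lit 5) (nat_lit 325)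 (nat_lit 320) (nat_lit 255)) (XT.nd (nat_lit 78) (nat_lit 0) (nat_lit 76) (XT.lf (nat_lit 0) (nat_lit 5437857999) (nat_lit 760) (nat_lit 590544887) (nat_lit 836) (nat_lit 18287390416) (nat_lit 93) (nat_lit 5) (nat_lit 103) (nat_lit 5) (nat_lit 104) (nat_lit 5) (nat_lit 326) (nat_lit 320) (nat_lit 254)) (XT.lf (nat_lit 0) (nat_lit 8661462675) (nat_lit 760) (nat_lit 6046138540) (nat_lit 76) (nat_lit 10653376861) (nat_lit 94) (nat_lit 5) (nat_lit 104) (nat_lit 5) (nat_lit 95) (nat_lit 5) (nat_lit 327) (nat_lit 320) (nat_lit 253)))) (XT.nd (nat_lit 78) (nat_lit 684) (nat_lit 0) (XT.lf (nat_lit 0) (nat_lit 12501627227) (nat_lit 760) (nat_lit 11811271208) (nat_lit 76) (nat_lit 2158970369) (nat_lit 85) (nat_lit 5) (nat_lit 95) (nat_lit 5) (nat_lit 86) (nat_lit 5) (nat_lit 328) (nat_lit 320) (nat_lit 252)) (XT.nd (nat_lit 78) (nat_lit 304) (nat_lit 0) (XT.lf (nat_lit 0) (nat_lit 9615353563) (nat_lit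 380) (nat_lit 7522195013) (nat_lit 456) (nat_lit 10509677946) (nat_lit 80) (nat_lit 5) (nat_lit 85) (nat_lit 5) (nat_lit 86) (nat_lit 5) (nat_lit 329) (nat_lit 320) (nat_lit 251)) (XT.lf (nat_lit 0) (nat_lit 4221423929) (nat_lit 304) (nat_lit 18347997368) (nat_lit 380) (nat_lit 6325958896) (nat_lit 76) (nat_lit 5) (nat_lit 80) (nat_lit 5) (nat_lit 81) (nat_lit 5) (nat_lit 330) (nat_lit 320) (nat_lit 250)))))) (XT.nd (nat_lit 468) (nat_lit 912) (nat_lit 0) (XT.nd (nat_lit 234) (nat_lit 912) (nat_lit 0) (XT.nd (nat_lit 78) (nat_lit 684) (nat_lit 0) (XT.lf (nat_lit 0) (nat_lit 28752373845) (nat_lit 304) (nat_lit 107653921) (nat_lit 380) (nat_lit 1362168837) (nat_lit 76) (nat_lit 5) (nat_lit 80) (nat_lit 5) (nat_lit 81) (nat_lit 5) (nat_lit 331) (nat_lit 320) (nat_lit 249)) (XT.nd (nat_lit 78) (nat_lit 304) (nat_lit 0) (XT.lf (nat_lit 0) (nat_lit 4549235961) (nat_lit 380) (nat_lit 7656045755)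 (nat_lit 76) (nat_lit 19412847586) (nat_lit 71) (nat_lit 5) (nat_lit 76) (nat_lit 5) (nat_lit 72) (nat_lit 5) (nat_lit 332) (nat_lit 320) (nat_lit 248)) (XT.lf (nat_lit 0) (nat_lit 11317275835) (nat_lit 380) (nat_lit 14307541652) (nat_lit 76) (nat_lit 7478246316) (nat_lit 67) (nat_lit 5) (nat_lit 72) (nat_lit 5) (nat_lit 68) (nat_lit 5) (nat_lit 333) (nat_lit 320) (nat_lit 247)))) (XT.nd (nat_lit 78) (nat_lit 608) (nat_lit 0) (XT.lf (nat_lit 0) (nat_lit 13134083751) (nat_lit 304) (nat_lit 6026731255) (nat_lit 380) (nat_lit 15519290104) (nat_lit 63) (nat_lit 5) (nat_lit 67) (nat_lit 5) (nat_lit 68) (nat_lit 5) (nat_lit 334) (nat_lit 320) (nat_lit 246)) (XT.nd (nat_lit 78) (nat_lit 380) (nat_lit 0) (XT.lf (nat_lit 0) (nat_lit 6876033037) (nat_lit 228) (nat_lit 21341136681) (nat_lit 304) (nat_lit 8136887137) (nat_lit 60) (nat_lit 5) (nat_lit 63) (nat_lit 5) (nat_lit 64) (nat_lit 5) (nat_lit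 335) (nat_lit 320) (nat_lit 245)) (XT.lf (nat_lit 0) (nat_lit 81026524) (nat_lit 304) (nat_lit 233437099) (nat_lit 380) (nat_lit 37823945683) (nat_lit 55) (nat_lit 5) (nat_lit 59) (nat_lit 5) (nat_lit 60) (nat_lit 5) (nat_lit 336) (nat_lit 320) (nat_lit 244))))) (XT.nd (nat_lit 234) (nat_lit 456) (nat_lit 0) (XT.nd (nat_lit 78) (nat_lit 456) (nat_lit 0) (XT.lf (nat_lit 0) (nat_lit 10024152832) (nat_lit 380) (nat_lit 7494585082) (nat_lit 76) (nat_lit 22496748324) (nat_lit 55) (nat_lit 5) (nat_lit 60) (nat_lit 5) (nat_lit 56) (nat_lit 5) (nat_lit 337) (nat_lit 320) (nat_lit 243)) (XT.nd (nat_lit 78) (nat_lit 228) (nat_lit 0) (XT.lf (nat_lit 0) (nat_lit 21000562296) (nat_lit 304) (nat_lit 15768082851) (nat_lit 76) (nat_lit 5249597320) (nat_lit 52) (nat_lit 5) (nat_lit 56) (nat_lit 5) (nat_lit 53) (nat_lit 5) (nat_lit 338) (nat_lit 320) (nat_lit 242)) (XT.lf (nat_lit 0) (nat_lit 19087708917)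 (nat_lit 228) (nat_lit 14484071331) (nat_lit 304) (nat_lit 10573613787) (nat_lit 49) (nat_lit 5) (nat_lit 52) (nat_lit 5) (nat_lit 53) (nat_lit 5) (nat_lit 339) (nat_lit 320) (nat_lit 241)))) (XT.nd (nat_lit 78) (nat_lit 228) (nat_lit 0) (XT.lf (nat_lit 0) (nat_lit 1285482448) (nat_lit 228) (nat_lit 35381083160) (nat_lit 76) (nat_lit 9745504481) (nat_lit 46) (nat_lit 5) (nat_lit 49) (nat_lit 5) (nat_lit 47) (nat_lit 5) (nat_lit 340) (nat_lit 320) (nat_lit 240)) (XT.nd (nat_lit 78) (nat_lit 0) (nat_lit 0) (XT.lf (nat_lit 0) (nat_lit 1674561172) (nat_lit 228) (nat_lit 12758628735) (nat_lit 304) (nat_lit 34382714714) (nat_lit 43) (nat_lit 5) (nat_lit 46) (nat_lit 5) (nat_lit 47) (nat_lit 5) (nat_lit 341) (nat_lit 320) (nat_lit 239)) (XT.lf (nat_lit 0) (nat_lit 29454818377) (nat_lit 304) (nat_lit 8649628423) (nat_lit 76) (nat_lit 13266501171) (nat_lit 43) (nat_lit 5) (nat_lit 47) (nat_lit 5)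 (nat_lit 44) (nat_lit 5) (nat_lit 342) (nat_lit 320) (nat_lit 238))))))) (XT.nd (nat_lit 858) (nat_lit 760) (nat_lit 0) (XT.nd (nat_lit 390) (nat_lit 684) (nat_lit 0) (XT.nd (nat_lit 156) (nat_lit 380) (nat_lit 0) (XT.nd (nat_lit 78) (nat_lit 228) (nat_lit 0) (XT.lf (nat_lit 0) (nat_lit 33775784063) (nat_lit 152) (nat_lit 12637224178) (nat_lit 228) (nat_lit 7680651732) (nat_lit 41) (nat_lit 5) (nat_lit 43) (nat_lit 5) (nat_lit 44) (nat_lit 5) (nat_lit 343) (nat_lit 320) (nat_lit 237)) (XT.lf (nat_lit 0) (nat_lit 8202576539) (nat_lit 228) (nat_lit 33749537109) (nat_lit 76) (nat_lit 15038317373) (nat_lit 38) (nat_lit 5) (nat_lit 41) (nat_lit 5) (nat_lit 39) (nat_lit 5) (nat_lit 344) (nat_lit 320) (nat_lit 236))) (XT.nd (nat_lit 78) (nat_lit 228) (nat_lit 0) (XT.lf (nat_lit 0) (nat_lit 10897972265) (nat_lit 152) (nat_lit 14928905603) (nat_lit 228) (nat_lit 34248800401) (nat_lit 36) (nat_lit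 5) (nat_lit 38) (nat_lit 5) (nat_lit 39) (nat_lit 5) (nat_lit 345) (nat_lit 320) (nat_lit 235)) (XT.nd (nat_lit 78) (nat_lit 228) (nat_lit 0) (XT.lf (nat_lit 0) (nat_lit 45674479132) (nat_lit 228) (nat_lit 3298990695) (nat_lit 76) (nat_lit 14393612771) (nat_lit 36) (nat_lit 5) (nat_lit 39) (nat_lit 5) (nat_lit 37) (nat_lit 5) (nat_lit 346) (nat_lit 320) (nat_lit 234)) (XT.lf (nat_lit 0) (nat_lit 1185467315) (nat_lit 228) (nat_lit 19382777050) (nat_lit 76) (nat_lit 46303242667) (nat_lit 33) (nat_lit 5) (nat_lit 36) (nat_lit 5) (nat_lit 34) (nat_lit 5) (nat_lit 347) (nat_lit 320) (nat_lit 233))))) (XT.nd (nat_lit 234) (nat_lit 380) (nat_lit 0) (XT.nd (nat_lit 78) (nat_lit 152) (nat_lit 0) (XT.lf (nat_lit 0) (nat_lit 21694504362) (nat_lit 228) (nat_lit 38249168242) (nat_lit 76) (nat_lit 10661044079) (nat_lit 31) (nat_lit 5) (nat_lit 34) (nat_lit 5) (nat_lit 32) (nat_lit 5) (nat_lit 348) (nat_lit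 320) (nat_lit 232)) (XT.nd (nat_lit 78) (nat_lit 0) (nat_lit 0) (XT.lf (nat_lit 0) (nat_lit 14404391172) (nat_lit 152) (nat_lit 30348953877) (nat_lit 228) (nat_lit 29837809477) (nat_lit 29) (nat_lit 5) (nat_lit 31) (nat_lit 5) (nat_lit 32) (nat_lit 5) (nat_lit 349) (nat_lit 320) (nat_lit 231)) (XT.lf (nat_lit 0) (nat_lit 70353706686) (nat_lit 228) (nat_lit 6272661643) (nat_lit 76) (nat_lit 2235301949) (nat_lit 29) (nat_lit 5) (nat_lit 32) (nat_lit 5) (nat_lit 30) (nat_lit 4) (nat_lit 350) (nat_lit 320) (nat_lit 230)))) (XT.nd (nat_lit 78) (nat_lit 228) (nat_lit 0) (XT.lf (nat_lit 0) (nat_lit 15421335634) (nat_lit 152) (nat_lit 30521038624) (nat_lit 76) (nat_lit 37452211774) (nat_lit 27) (nat_lit 5) (nat_lit 29) (nat_lit 5) (nat_lit 28) (nat_lit 5) (nat_lit 351) (nat_lit 320) (nat_lit 229)) (XT.nd (nat_lit 78) (nat_lit 76) (nat_lit 0) (XT.lf (nat_lit 0) (nat_lit 29480542199) (nat_lit 152)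 (nat_lit 12056682251) (nat_lit 228) (nat_lit 46717423605) (nat_lit 25) (nat_lit 5) (nat_lit 27) (nat_lit 5) (nat_lit 28) (nat_lit 5) (nat_lit 352) (nat_lit 320) (nat_lit 228)) (XT.lf (nat_lit 0) (nat_lit 1544433694) (nat_lit 76) (nat_lit 69140768364) (nat_lit 152) (nat_lit 22771174794) (nat_lit 24) (nat_lit 5) (nat_lit 25) (nat_lit 5) (nat_lit 26) (nat_lit 4) (nat_lit 353) (nat_lit 320) (nat_lit 227)))))) (XT.nd (nat_lit 468) (nat_lit 304) (nat_lit 0) (XT.nd (nat_lit 234) (nat_lit 228) (nat_lit 0) (XT.nd (nat_lit 78) (nat_lit 152) (nat_lit 0) (XT.lf (nat_lit 0) (nat_lit 4231088070) (nat_lit 152) (nat_lit 30512282519) (nat_lit 76) (nat_lit 64266501049) (nat_lit 23) (nat_lit 5) (nat_lit 25) (nat_lit 5) (nat_lit 24) (nat_lit 5) (nat_lit 354) (nat_lit 320) (nat_lit 226)) (XT.nd (nat_lit 78) (nat_lit 0) (nat_lit 0) (XT.lf (nat_lit 0) (nat_lit 33226362640) (nat_lit 228) (nat_lit 68434696555)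 (nat_lit 76) (nat_lit 3296393031) (nat_lit 21) (nat_lit 5) (nat_lit 24) (nat_lit 5) (nat_lit 22) (nat_lit 4) (nat_lit 355) (nat_lit 320) (nat_lit 225)) (XT.lf (nat_lit 0) (nat_lit 65663165071) (nat_lit 228) (nat_lit 1946012205) (nat_lit 76) (nat_lit 43715568728) (nat_lit 21) (nat_lit 5) (nat_lit 24) (nat_lit 5) (nat_lit 22) (nat_lit 4) (nat_lit 356) (nat_lit 320) (nat_lit 224)))) (XT.nd (nat_lit 78) (nat_lit 152) (nat_lit 0) (XT.lf (nat_lit 0) (nat_lit 72164654129) (nat_lit 76) (nat_lit 29653109077) (nat_lit 152) (nat_lit 16327519389) (nat_lit 20) (nat_lit 5) (nat_lit 21) (nat_lit 5) (nat_lit 22) (nat_lit 4) (nat_lit 357) (nat_lit 320) (nat_lit 223)) (XT.nd (nat_lit 78) (nat_lit 0) (nat_lit 0) (XT.lf (nat_lit 0) (nat_lit 15508794028) (nat_lit 152) (nat_lit 98271311858) (nat_lit 76) (nat_lit 11687026148) (nat_lit 18) (nat_lit 5) (nat_lit 20) (nat_lit 5) (nat_lit 19) (nat_lit 4) (nat_lit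 358) (nat_lit 320) (nat_lit 222)) (XT.lf (nat_lit 0) (nat_lit 50638123975) (nat_lit 152) (nat_lit 26261296714) (nat_lit 76) (nat_lit 56396019659) (nat_lit 18) (nat_lit 5) (nat_lit 20) (nat_lit 5) (nat_lit 19) (nat_lit 4) (nat_lit 359) (nat_lit 320) (nat_lit 221))))) (XT.nd (nat_lit 234) (nat_lit 76) (nat_lit 0) (XT.nd (nat_lit 78) (nat_lit 152) (nat_lit 0) (XT.lf (nat_lit 0) (nat_lit 53206434406) (nat_lit 76) (nat_lit 36198745059) (nat_lit 152) (nat_lit 52303466330) (nat_lit 17) (nat_lit 5) (nat_lit 18) (nat_lit 5) (nat_lit 19) (nat_lit 4) (nat_lit 360) (nat_lit 320) (nat_lit 220)) (XT.nd (nat_lit 78) (nat_lit 152) (nat_lit 0) (XT.lf (nat_lit 0) (nat_lit 131856470608) (nat_lit 152) (nat_lit 10937172384) (nat_lit 0) (nat_lit 7972122447) (nat_lit 17) (nat_lit 5) (nat_lit 19) (nat_lit 4) (nat_lit 17) (nat_lit 4) (nat_lit 361) (nat_lit 320) (nat_lit 219)) (XT.lf (nat_lit 0) (nat_lit 18408551462)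 (nat_lit 152) (nat_lit 86150681920) (nat_lit 76) (nat_lit 55884766788) (nat_lit 15) (nat_lit 5) (nat_lit 17) (nat_lit 5) (nat_lit 16) (nat_lit 4) (nat_lit 362) (nat_lit 320) (nat_lit 218)))) (XT.nd (nat_lit 78) (nat_lit 76) (nat_lit 0) (XT.lf (nat_lit 0) (nat_lit 58248956321) (nat_lit 152) (nat_lit 4481429977) (nat_lit 76) (nat_lit 108140628016) (nat_lit 15) (nat_lit 5) (nat_lit 17) (nat_lit 5) (nat_lit 16) (nat_lit 4) (nat_lit 363) (nat_lit 320) (nat_lit 217)) (XT.nd (nat_lit 78) (nat_lit 0) (nat_lit 0) (XT.lf (nat_lit 0) (nat_lit 86484494238) (nat_lit 76) (nat_lit 16139699739) (nat_lit 152) (nat_lit 79440616592) (nat_lit 14) (nat_lit 5) (nat_lit 15) (nat_lit 5) (nat_lit 16) (nat_lit 4) (nat_lit 364) (nat_lit 320) (nat_lit 216)) (XT.lf (nat_lit 0) (nat_lit 151159837578) (nat_lit 152) (nat_lit 9802175030) (nat_lit 0) (nat_lit 33161579493) (nat_lit 14) (nat_lit 5) (nat_lit 16) (nat_lit 4)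 (nat_lit 14) (nat_lit 4) (nat_lit 365) (nat_lit 320) (nat_lit 215))))))))
noncomputable def xc84 : XT := (XT.nd (nat_lit 1716) (nat_lit 0) (nat_lit 0) (XT.nd (nat_lit 858) (nat_lit 304) (nat_lit 0) (XT.nd (nat_lit 390) (nat_lit 152) (nat_lit 0) (XT.nd (nat_lit 156) (nat_lit 152) (nat_lit 0) (XT.nd (nat_lit 78) (nat_lit 76) (nat_lit 0) (XT.lf (nat_lit 0) (nat_lit 85291495651) (nat_lit 76) (nat_lit 119888237263) (nat_lit 76) (nat_lit 1887274087) (nat_lit 13) (nat_lit 4) (nat_lit 14) (nat_lit 5) (nat_lit 14) (nat_lit 4) (nat_lit 366) (nat_lit 320) (nat_lit 214)) (XT.lf (nat_lit 0) (nat_lit 41287084254) (nat_lit 152) (nat_lit 33364945168) (nat_lit 76) (nat_lit 146352146727) (nat_lit 12) (nat_lit 5) (nat_lit 14) (nat_lit 5) (nat_lit 13) (nat_lit 4) (nat_lit 367) (nat_lit 320) (nat_lit 213))) (XT.nd (nat_lit 78) (nat_lit 76) (nat_lit 0) (XT.lf (nat_lit 0) (nat_lit 64135374117) (nat_lit 76) (nat_lit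 24713972802) (nat_lit 152) (nat_lit 147155421835) (nat_lit 11) (nat_lit 5) (nat_lit 12) (nat_lit 5) (nat_lit 13) (nat_lit 4) (nat_lit 368) (nat_lit 320) (nat_lit 212)) (XT.nd (nat_lit 78) (nat_lit 76) (nat_lit 0) (XT.lf (nat_lit 0) (nat_lit 141261437239) (nat_lit 152) (nat_lit 82018801614) (nat_lit 0) (nat_lit 28872928231) (nat_lit 11) (nat_lit 5) (nat_lit 13) (nat_lit 4) (nat_lit 11) (nat_lit 4) (nat_lit 369) (nat_lit 320) (nat_lit 211)) (XT.lf (nat_lit 0) (nat_lit 15082227972) (nat_lit 76) (nat_lit 183434549218) (nat_lit 76) (nat_lit 71044146570) (nat_lit 10) (nat_lit 4) (nat_lit 11) (nat_lit 5) (nat_lit 11) (nat_lit 4) (nat_lit 370) (nat_lit 320) (nat_lit 210))))) (XT.nd (nat_lit 234) (nat_lit 0) (nat_lit 0) (XT.nd (nat_lit 78) (nat_lit 152) (nat_lit 0) (XT.lf (nat_lit 0) (nat_lit 122876748278) (nat_lit 76) (nat_lit 138902682472) (nat_lit 76) (nat_lit 26510526453) (nat_lit 10) (nat_lit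 4) (nat_lit 11) (nat_lit 5) (nat_lit 11) (nat_lit 4) (nat_lit 371) (nat_lit 320) (nat_lit 209)) (XT.nd (nat_lit 78) (nat_lit 76) (nat_lit 0) (XT.lf (nat_lit 0) (nat_lit 20893182381) (nat_lit 152) (nat_lit 69562755629) (nat_lit 76) (nat_lit 218044611125) (nat_lit 9) (nat_lit 5) (nat_lit 11) (nat_lit 5) (nat_lit 10) (nat_lit 4) (nat_lit 372) (nat_lit 320) (nat_lit 208)) (XT.lf (nat_lit 0) (nat_lit 34613551217) (nat_lit 76) (nat_lit 37098075105) (nat_lit 152) (nat_lit 258567070707) (nat_lit 8) (nat_lit 5) (nat_lit 9) (nat_lit 5) (nat_lit 10) (nat_lit 4) (nat_lit 373) (nat_lit 320) (nat_lit 207)))) (XT.nd (nat_lit 78) (nat_lit 0) (nat_lit 0) (XT.lf (nat_lit 0) (nat_lit 128146112922) (nat_lit 152) (nat_lit 204473794997) (nat_lit 0) (nat_lit 21101660897) (nat_lit 8) (nat_lit 5) (nat_lit 10) (nat_lit 4) (nat_lit 8) (nat_lit 4) (nat_lit 374) (nat_lit 320) (nat_lit 206)) (XT.nd (nat_lit 78) (nat_lit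 0) (nat_lit 0) (XT.lf (nat_lit 0) (nat_lit 189719472115) (nat_lit 152) (nat_lit 106615400257) (nat_lit 0) (nat_lit 82673792680) (nat_lit 8) (nat_lit 5) (nat_lit 10) (nat_lit 4) (nat_lit 8) (nat_lit 4) (nat_lit 375) (nat_lit 320) (nat_lit 205)) (XT.lf (nat_lit 0) (nat_lit 256217378146) (nat_lit 152) (nat_lit 930855075) (nat_lit 0) (nat_lit 149170562221) (nat_lit 8) (nat_lit 5) (nat_lit 10) (nat_lit 4) (nat_lit 8) (nat_lit 4) (nat_lit 376) (nat_lit 320) (nat_lit 204)))))) (XT.nd (nat_lit 390) (nat_lit 76) (nat_lit 0) (XT.nd (nat_lit 156) (nat_lit 152) (nat_lit 0) (XT.nd (nat_lit 78) (nat_lit 0) (nat_lit 0) (XT.lf (nat_lit 0) (nat_lit 116949224895) (nat_lit 76) (nat_lit 212910572937) (nat_lit 76) (nat_lit 105862704706) (nat_lit 7) (nat_lit 4) (nat_lit 8) (nat_lit 5) (nat_lit 8) (nat_lit 4) (nat_lit 377) (nat_lit 320) (nat_lit 203)) (XT.lf (nat_lit 0) (nat_lit 244290718861) (nat_lit 76) (nat_lit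 165117938950) (nat_lit 76) (nat_lit 58069096362) (nat_lit 7) (nat_lit 4) (nat_lit 8) (nat_lit 5) (nat_lit 8) (nat_lit 4) (nat_lit 378) (nat_lit 320) (nat_lit 202))) (XT.nd (nat_lit 78) (nat_lit 152) (nat_lit 0) (XT.lf (nat_lit 0) (nat_lit 381817464812) (nat_lit 76) (nat_lit 113502880133) (nat_lit 76) (nat_lit 6453135363) (nat_lit 7) (nat_lit 4) (nat_lit 8) (nat_lit 5) (nat_lit 8) (nat_lit 4) (nat_lit 379) (nat_lit 320) (nat_lit 201)) (XT.nd (nat_lit 78) (nat_lit 76) (nat_lit 0) (XT.lf (nat_lit 0) (nat_lit 47713429203) (nat_lit 152) (nat_lit 9238050257) (nat_lit 76) (nat_lit 481822956842) (nat_lit 6) (nat_lit 5) (nat_lit 8) (nat_lit 5) (nat_lit 7) (nat_lit 4) (nat_lit 380) (nat_lit 320) (nat_lit 200)) (XT.lf (nat_lit 0) (nat_lit 107862466027) (nat_lit 152) (nat_lit 464865155919) (nat_lit 0) (nat_lit 5908795931) (nat_lit 5) (nat_lit 5) (nat_lit 7) (nat_lit 4) (nat_lit 5) (nat_lit 4) (nat_lit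 381) (nat_lit 320) (nat_lit 199))))) (XT.nd (nat_lit 234) (nat_lit 76) (nat_lit 0) (XT.nd (nat_lit 78) (nat_lit 0) (nat_lit 0) (XT.lf (nat_lit 0) (nat_lit 173946377924) (nat_lit 152) (nat_lit 375692806914) (nat_lit 0) (nat_lit 71992025750) (nat_lit 5) (nat_lit 5) (nat_lit 7) (nat_lit 4) (nat_lit 5) (nat_lit 4) (nat_lit 382) (nat_lit 320) (nat_lit 198)) (XT.nd (nat_lit 78) (nat_lit 0) (nat_lit 0) (XT.lf (nat_lit 0) (nat_lit 245316157614) (nat_lit 152) (nat_lit 279388297675) (nat_lit 0) (nat_lit 143361173886) (nat_lit 5) (nat_lit 5) (nat_lit 7) (nat_lit 4) (nat_lit 5) (nat_lit 4) (nat_lit 383) (nat_lit 320) (nat_lit 197)) (XT.lf (nat_lit 0) (nat_lit 322394737123) (nat_lit 152) (nat_lit 175380934814) (nat_lit 0) (nat_lit 220439168624) (nat_lit 5) (nat_lit 5) (nat_lit 7) (nat_lit 4) (nat_lit 5) (nat_lit 4) (nat_lit 384) (nat_lit 320) (nat_lit 196)))) (XT.nd (nat_lit 78) (nat_lit 76) (nat_lit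 0) (XT.lf (nat_lit 0) (nat_lit 405638878404) (nat_lit 152) (nat_lit 63054378403) (nat_lit 0) (nat_lit 303682768450) (nat_lit 5) (nat_lit 5) (nat_lit 7) (nat_lit 4) (nat_lit 5) (nat_lit 4) (nat_lit 385) (nat_lit 320) (nat_lit 195)) (XT.nd (nat_lit 78) (nat_lit 0) (nat_lit 0) (XT.lf (nat_lit 0) (nat_lit 60183250269) (nat_lit 76) (nat_lit 436298259004) (nat_lit 76) (nat_lit 334341647702) (nat_lit 4) (nat_lit 4) (nat_lit 5) (nat_lit 5) (nat_lit 5) (nat_lit 4) (nat_lit 386) (nat_lit 320) (nat_lit 194)) (XT.lf (nat_lit 0) (nat_lit 195530304792) (nat_lit 76) (nat_lit 400158971897) (nat_lit 76) (nat_lit 298201896385) (nat_lit 4) (nat_lit 4) (nat_lit 5) (nat_lit 5) (nat_lit 5) (nat_lit 4) (nat_lit 387) (nat_lit 320) (nat_lit 193))))))) (XT.nd (nat_lit 42354) (nat_lit 0) (nat_lit 3192) (XT.nd (nat_lit 41886) (nat_lit 0) (nat_lit 6156) (XT.nd (nat_lit 41652) (nat_lit 0) (nat_lit 7296) (XT.nd (nat_lit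 78) (nat_lit 0) (nat_lit 0) (XT.lf (nat_lit 0) (nat_lit 341703979273) (nat_lit 76) (nat_lit 361129093157) (nat_lit 76) (nat_lit 259171587820) (nat_lit 4) (nat_lit 4) (nat_lit 5) (nat_lit 5) (nat_lit 5) (nat_lit 4) (nat_lit 388) (nat_lit 320) (nat_lit 192)) (XT.lf (nat_lit 0) (nat_lit 499570488078) (nat_lit 76) (nat_lit 318977334614) (nat_lit 76) (nat_lit 217019431290) (nat_lit 4) (nat_lit 4) (nat_lit 5) (nat_lit 5) (nat_lit 5) (nat_lit 4) (nat_lit 389) (nat_lit 320) (nat_lit 191))) (XT.nd (nat_lit 78) (nat_lit 0) (nat_lit 0) (XT.lf (nat_lit 0) (nat_lit 4545380119) (nat_lit 0) (nat_lit 4545380119) (nat_lit 684) (nat_lit 1233727012) (nat_lit 100) (nat_lit 5) (nat_lit 100) (nat_lit 3) (nat_lit 109) (nat_lit 3) (nat_lit 321) (nat_lit 321) (nat_lit 258)) (XT.nd (nat_lit 78) (nat_lit 0) (nat_lit 0) (XT.lf (nat_lit 76) (nat_lit 3794496117) (nat_lit 0) (nat_lit 15498378557) (nat_lit 760) (nat_lit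 2162500795) (nat_lit 101) (nat_lit 5) (nat_lit 100) (nat_lit 5) (nat_lit 110) (nat_lit 5) (nat_lit 322) (nat_lit 321) (nat_lit 257)) (XT.lf (nat_lit 76) (nat_lit 20616527429) (nat_lit 0) (nat_lit 205749328) (nat_lit 760) (nat_lit 1487590130) (nat_lit 101) (nat_lit 5) (nat_lit 100) (nat_lit 5) (nat_lit 110) (nat_lit 5) (nat_lit 323) (nat_lit 321) (nat_lit 256))))) (XT.nd (nat_lit 234) (nat_lit 532) (nat_lit 0) (XT.nd (nat_lit 78) (nat_lit 684) (nat_lit 0) (XT.lf (nat_lit 76) (nat_lit 15788757311) (nat_lit 0) (nat_lit 7165263473) (nat_lit 760) (nat_lit 254730078) (nat_lit 102) (nat_lit 5) (nat_lit 101) (nat_lit 5) (nat_lit 111) (nat_lit 5) (nat_lit 324) (nat_lit 321) (nat_lit 255)) (XT.nd (nat_lit 78) (nat_lit 0) (nat_lit 76) (XT.lf (nat_lit 0) (nat_lit 1375733153) (nat_lit 760) (nat_lit 13454927816) (nat_lit 836) (nat_lit 9331401021) (nat_lit 92) (nat_lit 5) (nat_lit 102) (nat_lit 5) (nat_lit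 103) (nat_lit 5) (nat_lit 325) (nat_lit 321) (nat_lit 254)) (XT.lf (nat_lit 0) (nat_lit 3475929801) (nat_lit 760) (nat_lit 19810443569) (nat_lit 836) (nat_lit 1887671528) (nat_lit 93) (nat_lit 5) (nat_lit 103) (nat_lit 5) (nat_lit 104) (nat_lit 5) (nat_lit 326) (nat_lit 321) (nat_lit 253)))) (XT.nd (nat_lit 78) (nat_lit 608) (nat_lit 0) (XT.lf (nat_lit 0) (nat_lit 6214902004) (nat_lit 760) (nat_lit 355563881) (nat_lit 836) (nat_lit 19673007308) (nat_lit 93) (nat_lit 5) (nat_lit 103) (nat_lit 5) (nat_lit 104) (nat_lit 5) (nat_lit 327) (nat_lit 321) (nat_lit 252)) (XT.nd (nat_lit 78) (nat_lit 684) (nat_lit 0) (XT.lf (nat_lit 0) (nat_lit 9674480148) (nat_lit 760) (nat_lit 6242583078) (nat_lit 76) (nat_lit 11456341031) (nat_lit 94) (nat_lit 5) (nat_lit 104) (nat_lit 5) (nat_lit 95) (nat_lit 5) (nat_lit 328) (nat_lit 321) (nat_lit 251)) (XT.lf (nat_lit 0) (nat_lit 13802031921) (nat_lit 760)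 (nat_lit 12465557239) (nat_lit 76) (nat_lit 2306601495) (nat_lit 85) (nat_lit 5) (nat_lit 95) (nat_lit 5) (nat_lit 86) (nat_lit 5) (nat_lit 329) (nat_lit 321) (nat_lit 250)))))) (XT.nd (nat_lit 468) (nat_lit 1292) (nat_lit 0) (XT.nd (nat_lit 234) (nat_lit 988) (nat_lit 0) (XT.nd (nat_lit 78) (nat_lit 304) (nat_lit 0) (XT.lf (nat_lit 0) (nat_lit 10662567711) (nat_lit 380) (nat_lit 8128356850) (nat_lit 456) (nat_lit 11053578213) (nat_lit 80) (nat_lit 5) (nat_lit 85) (nat_lit 5) (nat_lit 86) (nat_lit 5) (nat_lit 330) (nat_lit 321) (nat_lit 249)) (XT.nd (nat_lit 78) (nat_lit 0) (nat_lit 0) (XT.lf (nat_lit 0) (nat_lit 4838979922) (nat_lit 304) (nat_lit 19801756435) (nat_lit 380) (nat_lit 6552631307) (nat_lit 76) (nat_lit 5) (nat_lit 80) (nat_lit 5) (nat_lit 81) (nat_lit 5) (nat_lit 331) (nat_lit 321) (nat_lit 248)) (XT.lf (nat_lit 0) (nat_lit 31311676789) (nat_lit 304) (nat_lit 103228529) (nat_lit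 380) (nat_lit 1212434658) (nat_lit 76) (nat_lit 5) (nat_lit 80) (nat_lit 5) (nat_lit 81) (nat_lit 5) (nat_lit 332) (nat_lit 321) (nat_lit 247)))) (XT.nd (nat_lit 78) (nat_lit 608) (nat_lit 0) (XT.lf (nat_lit 0) (nat_lit 5149365414) (nat_lit 380) (nat_lit 8000689169) (nat_lit 76) (nat_lit 20985425774) (nat_lit 71) (nat_lit 5) (nat_lit 76) (nat_lit 5) (nat_lit 72) (nat_lit 5) (nat_lit 333) (nat_lit 321) (nat_lit 246)) (XT.nd (nat_lit 78) (nat_lit 304) (nat_lit 0) (XT.lf (nat_lit 0) (nat_lit 12445875994) (nat_lit 380) (nat_lit 15185064813) (nat_lit 76) (nat_lit 8108938899) (nat_lit 67) (nat_lit 5) (nat_lit 72) (nat_lit 5) (nat_lit 68) (nat_lit 5) (nat_lit 334) (nat_lit 321) (nat_lit 245)) (XT.lf (nat_lit 0) (nat_lit 14440283644) (nat_lit 304) (nat_lit 6464068634) (nat_lit 380) (nat_lit 16539379214) (nat_lit 63) (nat_lit 5) (nat_lit 67) (nat_lit 5) (nat_lit 68) (nat_lit 5) (nat_lit 335) (nat_lit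 321) (nat_lit 244))))) (XT.nd (nat_lit 234) (nat_lit 684) (nat_lit 0) (XT.nd (nat_lit 78) (nat_lit 380) (nat_lit 0) (XT.lf (nat_lit 0) (nat_lit 7680130700) (nat_lit 228) (nat_lit 22994092873) (nat_lit 304) (nat_lit 8577943795) (nat_lit 60) (nat_lit 5) (nat_lit 63) (nat_lit 5) (nat_lit 64) (nat_lit 5) (nat_lit 336) (nat_lit 321) (nat_lit 243)) (XT.nd (nat_lit 78) (nat_lit 0) (nat_lit 0) (XT.lf (nat_lit 0) (nat_lit 337120005) (nat_lit 304) (nat_lit 194524122) (nat_lit 380) (nat_lit 40648033911) (nat_lit 55) (nat_lit 5) (nat_lit 59) (nat_lit 5) (nat_lit 60) (nat_lit 5) (nat_lit 337) (nat_lit 321) (nat_lit 242)) (XT.lf (nat_lit 0) (nat_lit 11004717025) (nat_lit 380) (nat_lit 7854784980) (nat_lit 76) (nat_lit 24348103720) (nat_lit 55) (nat_lit 5) (nat_lit 60) (nat_lit 5) (nat_lit 56) (nat_lit 5) (nat_lit 338) (nat_lit 321) (nat_lit 241)))) (XT.nd (nat_lit 78) (nat_lit 456) (nat_lit 0) (XT.lf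 (nat_lit 0) (nat_lit 22850518629) (nat_lit 304) (nat_lit 16792879128) (nat_lit 76) (nat_lit 5727634637) (nat_lit 52) (nat_lit 5) (nat_lit 56) (nat_lit 5) (nat_lit 53) (nat_lit 5) (nat_lit 339) (nat_lit 321) (nat_lit 240)) (XT.nd (nat_lit 78) (nat_lit 228) (nat_lit 0) (XT.lf (nat_lit 0) (nat_lit 20841091445) (nat_lit 228) (nat_lit 15577290750) (nat_lit 304) (nat_lit 11250439365) (nat_lit 49) (nat_lit 5) (nat_lit 52) (nat_lit 5) (nat_lit 53) (nat_lit 5) (nat_lit 340) (nat_lit 321) (nat_lit 239)) (XT.lf (nat_lit 0) (nat_lit 1544358618) (nat_lit 228) (nat_lit 37982871107) (nat_lit 76) (nat_lit 10589862098) (nat_lit 46) (nat_lit 5) (nat_lit 49) (nat_lit 5) (nat_lit 47) (nat_lit 5) (nat_lit 341) (nat_lit 321) (nat_lit 238))))))))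
noncomputable def xc85 : XT := (XT.nd (nat_lit 1716) (nat_lit 760) (nat_lit 0) (XT.nd (nat_lit 858) (nat_lit 912) (nat_lit 0) (XT.nd (nat_lit 390) (nat_lit 684) (nat_lit 0) (XT.nd (nat_lit 156) (nat_lit 532) (nat_lit 0) (XT.nd (nat_lit 78) (nat_lit 0) (nat_lit 0) (XT.lf (nat_lit 0) (nat_lit 2027285805) (nat_lit 228) (nat_lit 13708453983) (nat_lit 304) (nat_lit 36977910992) (nat_lit 43) (nat_lit 5) (nat_lit 46) (nat_lit 5) (nat_lit 47) (nat_lit 5) (nat_lit 342) (nat_lit 321) (nat_lit 237)) (XT.lf (nat_lit 0) (nat_lit 31949167820) (nat_lit 304) (nat_lit 9133099116) (nat_lit 76) (nat_lit 14391336937) (nat_lit 43) (nat_lit 5) (nat_lit 47) (nat_lit 5) (nat_lit 44) (nat_lit 5) (nat_lit 343) (nat_lit 321) (nat_lit 236))) (XT.nd (nat_lit 78) (nat_lit 380) (nat_lit 0) (XT.lf (nat_lit 0) (nat_lit 36677285232) (nat_lit 152) (nat_lit 13579621881) (nat_lit 228) (nat_lit 8157590029) (nat_lit 41) (nat_lit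 5) (nat_lit 43) (nat_lit 5) (nat_lit 44) (nat_lit 5) (nat_lit 344) (nat_lit 321) (nat_lit 235)) (XT.nd (nat_lit 78) (nat_lit 152) (nat_lit 0) (XT.lf (nat_lit 0) (nat_lit 8986154756) (nat_lit 228) (nat_lit 36249075902) (nat_lit 76) (nat_lit 16307966841) (nat_lit 38) (nat_lit 5) (nat_lit 41) (nat_lit 5) (nat_lit 39) (nat_lit 5) (nat_lit 345) (nat_lit 321) (nat_lit 234)) (XT.lf (nat_lit 0) (nat_lit 11961524032) (nat_lit 152) (nat_lit 16052434382) (nat_lit 228) (nat_lit 36861635563) (nat_lit 36) (nat_lit 5) (nat_lit 38) (nat_lit 5) (nat_lit 39) (nat_lit 5) (nat_lit 346) (nat_lit 321) (nat_lit 233))))) (XT.nd (nat_lit 234) (nat_lit 304) (nat_lit 0) (XT.nd (nat_lit 78) (nat_lit 380) (nat_lit 0) (XT.lf (nat_lit 0) (nat_lit 49441433248) (nat_lit 228) (nat_lit 3380736426) (nat_lit 76) (nat_lit 15608544523) (nat_lit 36) (nat_lit 5) (nat_lit 39) (nat_lit 5) (nat_lit 37) (nat_lit 5) (nat_lit 347) (nat_lit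 321) (nat_lit 232)) (XT.nd (nat_lit 78) (nat_lit 152) (nat_lit 0) (XT.lf (nat_lit 0) (nat_lit 1389487217) (nat_lit 228) (nat_lit 20755457512) (nat_lit 76) (nat_lit 50070726990) (nat_lit 33) (nat_lit 5) (nat_lit 36) (nat_lit 5) (nat_lit 34) (nat_lit 5) (nat_lit 348) (nat_lit 321) (nat_lit 231)) (XT.lf (nat_lit 0) (nat_lit 23534854635) (nat_lit 228) (nat_lit 41134673496) (nat_lit 76) (nat_lit 11578256809) (nat_lit 31) (nat_lit 5) (nat_lit 34) (nat_lit 5) (nat_lit 32) (nat_lit 5) (nat_lit 349) (nat_lit 321) (nat_lit 230)))) (XT.nd (nat_lit 78) (nat_lit 152) (nat_lit 0) (XT.lf (nat_lit 0) (nat_lit 15723590235) (nat_lit 152) (nat_lit 32709655087) (nat_lit 228) (nat_lit 32120155504) (nat_lit 29) (nat_lit 5) (nat_lit 31) (nat_lit 5) (nat_lit 32) (nat_lit 5) (nat_lit 350) (nat_lit 321) (nat_lit 229)) (XT.nd (nat_lit 78) (nat_lit 152) (nat_lit 0) (XT.lf (nat_lit 0) (nat_lit 76075227373) (nat_lit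 228) (nat_lit 6616285301) (nat_lit 76) (nat_lit 2474370361) (nat_lit 29) (nat_lit 5) (nat_lit 32) (nat_lit 5) (nat_lit 30) (nat_lit 4) (nat_lit 351) (nat_lit 321) (nat_lit 228)) (XT.lf (nat_lit 0) (nat_lit 16745230846) (nat_lit 152) (nat_lit 32808372513) (nat_lit 76) (nat_lit 40507987530) (nat_lit 27) (nat_lit 5) (nat_lit 29) (nat_lit 5) (nat_lit 28) (nat_lit 5) (nat_lit 352) (nat_lit 321) (nat_lit 227)))))) (XT.nd (nat_lit 390) (nat_lit 456) (nat_lit 0) (XT.nd (nat_lit 156) (nat_lit 228) (nat_lit 0) (XT.nd (nat_lit 78) (nat_lit 76) (nat_lit 0) (XT.lf (nat_lit 0) (nat_lit 31986626948) (nat_lit 152) (nat_lit 12959388296) (nat_lit 228) (nat_lit 50364665303) (nat_lit 25) (nat_lit 5) (nat_lit 27) (nat_lit 5) (nat_lit 28) (nat_lit 5) (nat_lit 353) (nat_lit 321) (nat_lit 226)) (XT.lf (nat_lit 0) (nat_lit 1812440853) (nat_lit 76) (nat_lit 74610182822) (nat_lit 152) (nat_lit 24506087952) (nat_lit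 24) (nat_lit 5) (nat_lit 25) (nat_lit 5) (nat_lit 26) (nat_lit 4) (nat_lit 354) (nat_lit 321) (nat_lit 225))) (XT.nd (nat_lit 78) (nat_lit 152) (nat_lit 0) (XT.lf (nat_lit 0) (nat_lit 4647355946) (nat_lit 152) (nat_lit 32816901283) (nat_lit 76) (nat_lit 69462475326) (nat_lit 23) (nat_lit 5) (nat_lit 25) (nat_lit 5) (nat_lit 24) (nat_lit 5) (nat_lit 355) (nat_lit 321) (nat_lit 224)) (XT.nd (nat_lit 78) (nat_lit 0) (nat_lit 0) (XT.lf (nat_lit 0) (nat_lit 35959407714) (nat_lit 228) (nat_lit 73776175311) (nat_lit 76) (nat_lit 3614681749) (nat_lit 21) (nat_lit 5) (nat_lit 24) (nat_lit 5) (nat_lit 22) (nat_lit 4) (nat_lit 356) (nat_lit 321) (nat_lit 223)) (XT.lf (nat_lit 0) (nat_lit 70985603520) (nat_lit 228) (nat_lit 1978270062) (nat_lit 76) (nat_lit 47263348741) (nat_lit 21) (nat_lit 5) (nat_lit 24) (nat_lit 5) (nat_lit 22) (nat_lit 4) (nat_lit 357) (nat_lit 321) (nat_lit 222))))) (XT.nd (nat_lit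 234) (nat_lit 228) (nat_lit 0) (XT.nd (nat_lit 78) (nat_lit 152) (nat_lit 0) (XT.lf (nat_lit 0) (nat_lit 78055885760) (nat_lit 76) (nat_lit 31973387335) (nat_lit 152) (nat_lit 17564296094) (nat_lit 20) (nat_lit 5) (nat_lit 21) (nat_lit 5) (nat_lit 22) (nat_lit 4) (nat_lit 358) (nat_lit 321) (nat_lit 221)) (XT.nd (nat_lit 78) (nat_lit 0) (nat_lit 0) (XT.lf (nat_lit 0) (nat_lit 16814316356) (nat_lit 152) (nat_lit 106015502282) (nat_lit 76) (nat_lit 12671415177) (nat_lit 18) (nat_lit 5) (nat_lit 20) (nat_lit 5) (nat_lit 19) (nat_lit 4) (nat_lit 359) (nat_lit 321) (nat_lit 220)) (XT.lf (nat_lit 0) (nat_lit 54749191305) (nat_lit 152) (nat_lit 28253390706) (nat_lit 76) (nat_lit 60953466914) (nat_lit 18) (nat_lit 5) (nat_lit 20) (nat_lit 5) (nat_lit 19) (nat_lit 4) (nat_lit 360) (nat_lit 321) (nat_lit 219)))) (XT.nd (nat_lit 78) (nat_lit 152) (nat_lit 0) (XT.lf (nat_lit 0) (nat_lit 57567030165)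 (nat_lit 76) (nat_lit 39047760332) (nat_lit 152) (nat_lit 56427663258) (nat_lit 17) (nat_lit 5) (nat_lit 18) (nat_lit 5) (nat_lit 19) (nat_lit 4) (nat_lit 361) (nat_lit 321) (nat_lit 218)) (XT.nd (nat_lit 78) (nat_lit 152) (nat_lit 0) (XT.lf (nat_lit 0) (nat_lit 142458625914) (nat_lit 152) (nat_lit 11713782551) (nat_lit 0) (nat_lit 8651914225) (nat_lit 17) (nat_lit 5) (nat_lit 19) (nat_lit 4) (nat_lit 17) (nat_lit 4) (nat_lit 362) (nat_lit 321) (nat_lit 217)) (XT.lf (nat_lit 0) (nat_lit 19933227131) (nat_lit 152) (nat_lit 92946909047) (nat_lit 76) (nat_lit 60396764937) (nat_lit 15) (nat_lit 5) (nat_lit 17) (nat_lit 5) (nat_lit 16) (nat_lit 4) (nat_lit 363) (nat_lit 321) (nat_lit 216))))))) (XT.nd (nat_lit 858) (nat_lit 228) (nat_lit 0) (XT.nd (nat_lit 390) (nat_lit 304) (nat_lit 0) (XT.nd (nat_lit 156) (nat_lit 152) (nat_lit 0) (XT.nd (nat_lit 78) (nat_lit 76) (nat_lit 0) (XT.lf (nat_lit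 0) (nat_lit 62957013153) (nat_lit 152) (nat_lit 4751215276) (nat_lit 76) (nat_lit 116830041968) (nat_lit 15) (nat_lit 5) (nat_lit 17) (nat_lit 5) (nat_lit 16) (nat_lit 4) (nat_lit 364) (nat_lit 321) (nat_lit 215)) (XT.lf (nat_lit 0) (nat_lit 93488126817) (nat_lit 76) (nat_lit 17391902160) (nat_lit 152) (nat_lit 85747654753) (nat_lit 14) (nat_lit 5) (nat_lit 15) (nat_lit 5) (nat_lit 16) (nat_lit 4) (nat_lit 365) (nat_lit 321) (nat_lit 214))) (XT.nd (nat_lit 78) (nat_lit 152) (nat_lit 0) (XT.lf (nat_lit 0) (nat_lit 163295687518) (nat_lit 152) (nat_lit 10506185850) (nat_lit 0) (nat_lit 35849437483) (nat_lit 14) (nat_lit 5) (nat_lit 16) (nat_lit 4) (nat_lit 14) (nat_lit 4) (nat_lit 366) (nat_lit 321) (nat_lit 213)) (XT.nd (nat_lit 78) (nat_lit 76) (nat_lit 0) (XT.lf (nat_lit 0) (nat_lit 92191494691) (nat_lit 76) (nat_lit 129443687123) (nat_lit 76) (nat_lit 1995117908) (nat_lit 13) (nat_lit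 4) (nat_lit 14) (nat_lit 5) (nat_lit 14) (nat_lit 4) (nat_lit 367) (nat_lit 321) (nat_lit 212)) (XT.lf (nat_lit 0) (nat_lit 44628715269) (nat_lit 152) (nat_lit 35961850300) (nat_lit 76) (nat_lit 158091998825) (nat_lit 12) (nat_lit 5) (nat_lit 14) (nat_lit 5) (nat_lit 13) (nat_lit 4) (nat_lit 368) (nat_lit 321) (nat_lit 211))))) (XT.nd (nat_lit 234) (nat_lit 152) (nat_lit 0) (XT.nd (nat_lit 78) (nat_lit 76) (nat_lit 0) (XT.lf (nat_lit 0) (nat_lit 69335352872) (nat_lit 76) (nat_lit 26658821663) (nat_lit 152) (nat_lit 158889120030) (nat_lit 11) (nat_lit 5) (nat_lit 12) (nat_lit 5) (nat_lit 13) (nat_lit 4) (nat_lit 369) (nat_lit 321) (nat_lit 210)) (XT.nd (nat_lit 78) (nat_lit 76) (nat_lit 0) (XT.lf (nat_lit 0) (nat_lit 152596966728) (nat_lit 152) (nat_lit 88515027310) (nat_lit 0) (nat_lit 31211684856) (nat_lit 11) (nat_lit 5) (nat_lit 13) (nat_lit 4) (nat_lit 11) (nat_lit 4) (nat_lit 370)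 (nat_lit 321) (nat_lit 209)) (XT.lf (nat_lit 0) (nat_lit 16351247721) (nat_lit 76) (nat_lit 198079897003) (nat_lit 76) (nat_lit 76692991640) (nat_lit 10) (nat_lit 4) (nat_lit 11) (nat_lit 5) (nat_lit 11) (nat_lit 4) (nat_lit 371) (nat_lit 321) (nat_lit 208)))) (XT.nd (nat_lit 78) (nat_lit 152) (nat_lit 0) (XT.lf (nat_lit 0) (nat_lit 132764704355) (nat_lit 76) (nat_lit 149987659891) (nat_lit 76) (nat_lit 28599251295) (nat_lit 10) (nat_lit 4) (nat_lit 11) (nat_lit 5) (nat_lit 11) (nat_lit 4) (nat_lit 372) (nat_lit 321) (nat_lit 207)) (XT.nd (nat_lit 78) (nat_lit 76) (nat_lit 0) (XT.lf (nat_lit 0) (nat_lit 22593423379) (nat_lit 152) (nat_lit 75073282550) (nat_lit 76) (nat_lit 235512439627) (nat_lit 9) (nat_lit 5) (nat_lit 11) (nat_lit 5) (nat_lit 10) (nat_lit 4) (nat_lit 373) (nat_lit 321) (nat_lit 206)) (XT.lf (nat_lit 0) (nat_lit 37434760620) (nat_lit 76) (nat_lit 40041263710) (nat_lit 152)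 (nat_lit 279223587483) (nat_lit 8) (nat_lit 5) (nat_lit 9) (nat_lit 5) (nat_lit 10) (nat_lit 4) (nat_lit 374) (nat_lit 321) (nat_lit 205)))))) (XT.nd (nat_lit 468) (nat_lit 152) (nat_lit 0) (XT.nd (nat_lit 234) (nat_lit 76) (nat_lit 0) (XT.nd (nat_lit 78) (nat_lit 0) (nat_lit 0) (XT.lf (nat_lit 0) (nat_lit 138423591654) (nat_lit 152) (nat_lit 220782512197) (nat_lit 0) (nat_lit 22811893965) (nat_lit 8) (nat_lit 5) (nat_lit 10) (nat_lit 4) (nat_lit 8) (nat_lit 4) (nat_lit 375) (nat_lit 321) (nat_lit 204)) (XT.nd (nat_lit 78) (nat_lit 0) (nat_lit 0) (XT.lf (nat_lit 0) (nat_lit 204920909234) (nat_lit 152) (nat_lit 115099089315) (nat_lit 0) (nat_lit 89308159240) (nat_lit 8) (nat_lit 5) (nat_lit 10) (nat_lit 4) (nat_lit 8) (nat_lit 4) (nat_lit 376) (nat_lit 321) (nat_lit 203)) (XT.lf (nat_lit 0) (nat_lit 276736878908) (nat_lit 152) (nat_lit 963154070) (nat_lit 0) (nat_lit 161123154556) (nat_lit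 8) (nat_lit 5) (nat_lit 10) (nat_lit 4) (nat_lit 8) (nat_lit 4) (nat_lit 377) (nat_lit 321) (nat_lit 202)))) (XT.nd (nat_lit 78) (nat_lit 0) (nat_lit 0) (XT.lf (nat_lit 0) (nat_lit 126345499666) (nat_lit 76) (nat_lit 229924184457) (nat_lit 76) (nat_lit 114309557922) (nat_lit 7) (nat_lit 4) (nat_lit 8) (nat_lit 5) (nat_lit 8) (nat_lit 4) (nat_lit 378) (nat_lit 321) (nat_lit 201)) (XT.nd (nat_lit 78) (nat_lit 0) (nat_lit 0) (XT.lf (nat_lit 0) (nat_lit 263871325240) (nat_lit 76) (nat_lit 178309564515) (nat_lit 76) (nat_lit 62694102626) (nat_lit 7) (nat_lit 4) (nat_lit 8) (nat_lit 5) (nat_lit 8) (nat_lit 4) (nat_lit 379) (nat_lit 321) (nat_lit 200)) (XT.lf (nat_lit 0) (nat_lit 412397444284) (nat_lit 76) (nat_lit 122566620219) (nat_lit 76) (nat_lit 6950384854) (nat_lit 7) (nat_lit 4) (nat_lit 8) (nat_lit 5) (nat_lit 8) (nat_lit 4) (nat_lit 380) (nat_lit 321) (nat_lit 199))))) (XT.nd (nat_lit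 234) (nat_lit 0) (nat_lit 0) (XT.nd (nat_lit 78) (nat_lit 76) (nat_lit 0) (XT.lf (nat_lit 0) (nat_lit 51547534258) (nat_lit 152) (nat_lit 9944506316) (nat_lit 76) (nat_lit 520383494883) (nat_lit 6) (nat_lit 5) (nat_lit 8) (nat_lit 5) (nat_lit 7) (nat_lit 4) (nat_lit 381) (nat_lit 321) (nat_lit 198)) (XT.nd (nat_lit 78) (nat_lit 0) (nat_lit 0) (XT.lf (nat_lit 0) (nat_lit 116507952050) (nat_lit 152) (nat_lit 502022612849) (nat_lit 0) (nat_lit 6395938071) (nat_lit 5) (nat_lit 5) (nat_lit 7) (nat_lit 4) (nat_lit 5) (nat_lit 4) (nat_lit 382) (nat_lit 321) (nat_lit 197)) (XT.lf (nat_lit 0) (nat_lit 187877355511) (nat_lit 152) (nat_lit 405718828185) (nat_lit 0) (nat_lit 77764756760) (nat_lit 5) (nat_lit 5) (nat_lit 7) (nat_lit 4) (nat_lit 5) (nat_lit 4) (nat_lit 383) (nat_lit 321) (nat_lit 196)))) (XT.nd (nat_lit 78) (nat_lit 0) (nat_lit 0) (XT.lf (nat_lit 0) (nat_lit 264955586660) (nat_lit 152)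 (nat_lit 301712136228) (nat_lit 0) (nat_lit 154842446454) (nat_lit 5) (nat_lit 5) (nat_lit 7) (nat_lit 4) (nat_lit 5) (nat_lit 4) (nat_lit 384) (nat_lit 321) (nat_lit 195)) (XT.nd (nat_lit 78) (nat_lit 0) (nat_lit 0) (XT.lf (nat_lit 0) (nat_lit 348199405387) (nat_lit 152) (nat_lit 189386201024) (nat_lit 0) (nat_lit 238085763833) (nat_lit 5) (nat_lit 5) (nat_lit 7) (nat_lit 4) (nat_lit 5) (nat_lit 4) (nat_lit 385) (nat_lit 321) (nat_lit 194)) (XT.lf (nat_lit 0) (nat_lit 438102108393) (nat_lit 152) (nat_lit 68075387403) (nat_lit 0) (nat_lit 327988002629) (nat_lit 5) (nat_lit 5) (nat_lit 7) (nat_lit 4) (nat_lit 5) (nat_lit 4) (nat_lit 386) (nat_lit 321) (nat_lit 193))))))))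
noncomputable def xc86 : XT := (XT.nd (nat_lit 43290) (nat_lit 0) (nat_lit 988) (XT.nd (nat_lit 42432) (nat_lit 0) (nat_lit 3648) (XT.nd (nat_lit 41964) (nat_lit 0) (nat_lit 6612) (XT.nd (nat_lit 156) (nat_lit 0) (nat_lit 0) (XT.nd (nat_lit 78) (nat_lit 0) (nat_lit 0) (XT.lf (nat_lit 0) (nat_lit 65020237180) (nat_lit 76) (nat_lit 471191363380) (nat_lit 76) (nat_lit 361076827791) (nat_lit 4) (nat_lit 4) (nat_lit 5) (nat_lit 5) (nat_lit 5) (nat_lit 4) (nat_lit 387) (nat_lit 321) (nat_lit 192)) (XT.lf (nat_lit 0) (nat_lit 211193402222) (nat_lit 76) (nat_lit 432161730071) (nat_lit 76) (nat_lit 322046796496) (nat_lit 4) (nat_lit 4) (nat_lit 5) (nat_lit 5) (nat_lit 5) (nat_lit 4) (nat_lit 388) (nat_lit 321) (nat_lit 191))) (XT.nd (nat_lit 41652) (nat_lit 0) (nat_lit 7296) (XT.lf (nat_lit 0) (nat_lit 369059439324) (nat_lit 76) (nat_lit 390010198778) (nat_lit 76) (nat_lit 279894896698) (nat_lit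 4) (nat_lit 4) (nat_lit 5) (nat_lit 5) (nat_lit 5) (nat_lit 4) (nat_lit 389) (nat_lit 321) (nat_lit 190)) (XT.nd (nat_lit 78) (nat_lit 0) (nat_lit 0) (XT.lf (nat_lit 0) (nat_lit 5021110871) (nat_lit 0) (nat_lit 5021110871) (nat_lit 684) (nat_lit 1096669607) (nat_lit 100) (nat_lit 5) (nat_lit 100) (nat_lit 3) (nat_lit 109) (nat_lit 3) (nat_lit 322) (nat_lit 322) (nat_lit 256)) (XT.lf (nat_lit 76) (nat_lit 4337966721) (nat_lit 0) (nat_lit 16914028951) (nat_lit 760) (nat_lit 1898386679) (nat_lit 101) (nat_lit 5) (nat_lit 100) (nat_lit 5) (nat_lit 110) (nat_lit 5) (nat_lit 323) (nat_lit 322) (nat_lit 255))))) (XT.nd (nat_lit 234) (nat_lit 0) (nat_lit 152) (XT.nd (nat_lit 78) (nat_lit 684) (nat_lit 0) (XT.lf (nat_lit 76) (nat_lit 22487989359) (nat_lit 0) (nat_lit 384968635) (nat_lit 760) (nat_lit 1201861989) (nat_lit 101) (nat_lit 5) (nat_lit 100) (nat_lit 5) (nat_lit 110) (nat_lit 5) (nat_lit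 324) (nat_lit 322) (nat_lit 254)) (XT.nd (nat_lit 78) (nat_lit 0) (nat_lit 76) (XT.lf (nat_lit 0) (nat_lit 97777244) (nat_lit 760) (nat_lit 7762847541) (nat_lit 836) (nat_lit 17186315451) (nat_lit 91) (nat_lit 5) (nat_lit 101) (nat_lit 5) (nat_lit 102) (nat_lit 5) (nat_lit 325) (nat_lit 322) (nat_lit 253)) (XT.lf (nat_lit 0) (nat_lit 1824943815) (nat_lit 760) (nat_lit 14276419614) (nat_lit 836) (nat_lit 9976223115) (nat_lit 92) (nat_lit 5) (nat_lit 102) (nat_lit 5) (nat_lit 103) (nat_lit 5) (nat_lit 326) (nat_lit 322) (nat_lit 252)))) (XT.nd (nat_lit 78) (nat_lit 0) (nat_lit 0) (XT.lf (nat_lit 0) (nat_lit 4070685079) (nat_lit 760) (nat_lit 21133959983) (nat_lit 836) (nat_lit 1967042341) (nat_lit 93) (nat_lit 5) (nat_lit 103) (nat_lit 5) (nat_lit 104) (nat_lit 5) (nat_lit 327) (nat_lit 322) (nat_lit 251)) (XT.nd (nat_lit 78) (nat_lit 0) (nat_lit 76) (XT.lf (nat_lit 0) (nat_lit 7005317214)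 (nat_lit 760) (nat_lit 142046889) (nat_lit 836) (nat_lit 21180511865) (nat_lit 93) (nat_lit 5) (nat_lit 103) (nat_lit 5) (nat_lit 104) (nat_lit 5) (nat_lit 328) (nat_lit 322) (nat_lit 250)) (XT.lf (nat_lit 0) (nat_lit 10722873111) (nat_lit 760) (nat_lit 6495722110) (nat_lit 76) (nat_lit 12330576383) (nat_lit 94) (nat_lit 5) (nat_lit 104) (nat_lit 5) (nat_lit 95) (nat_lit 5) (nat_lit 329) (nat_lit 322) (nat_lit 249)))))) (XT.nd (nat_lit 390) (nat_lit 1444) (nat_lit 0) (XT.nd (nat_lit 156) (nat_lit 684) (nat_lit 0) (XT.nd (nat_lit 78) (nat_lit 380) (nat_lit 0) (XT.lf (nat_lit 0) (nat_lit 15163631475) (nat_lit 760) (nat_lit 13213645726) (nat_lit 76) (nat_lit 2469621980) (nat_lit 85) (nat_lit 5) (nat_lit 95) (nat_lit 5) (nat_lit 86) (nat_lit 5) (nat_lit 330) (nat_lit 322) (nat_lit 248)) (XT.lf (nat_lit 0) (nat_lit 11753901200) (nat_lit 380) (nat_lit 8782385888) (nat_lit 456) (nat_lit 11683342891)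 (nat_lit 80) (nat_lit 5) (nat_lit 85) (nat_lit 5) (nat_lit 86) (nat_lit 5) (nat_lit 331) (nat_lit 322) (nat_lit 247))) (XT.nd (nat_lit 78) (nat_lit 380) (nat_lit 0) (XT.lf (nat_lit 0) (nat_lit 5466017793) (nat_lit 304) (nat_lit 21373825000) (nat_lit 380) (nat_lit 6837297658) (nat_lit 76) (nat_lit 5) (nat_lit 80) (nat_lit 5) (nat_lit 81) (nat_lit 5) (nat_lit 332) (nat_lit 322) (nat_lit 246)) (XT.nd (nat_lit 78) (nat_lit 380) (nat_lit 0) (XT.lf (nat_lit 0) (nat_lit 34038758596) (nat_lit 304) (nat_lit 100309081) (nat_lit 380) (nat_lit 1087629289) (nat_lit 76) (nat_lit 5) (nat_lit 80) (nat_lit 5) (nat_lit 81) (nat_lit 5) (nat_lit 333) (nat_lit 322) (nat_lit 245)) (XT.lf (nat_lit 0) (nat_lit 5763809997) (nat_lit 380) (nat_lit 8411114461) (nat_lit 76) (nat_lit 22681021137) (nat_lit 71) (nat_lit 5) (nat_lit 76) (nat_lit 5) (nat_lit 72) (nat_lit 5) (nat_lit 334) (nat_lit 322) (nat_lit 244)))))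 (XT.nd (nat_lit 234) (nat_lit 608) (nat_lit 0) (XT.nd (nat_lit 78) (nat_lit 532) (nat_lit 0) (XT.lf (nat_lit 0) (nat_lit 13632919610) (nat_lit 380) (nat_lit 16170891798) (nat_lit 76) (nat_lit 8785459976) (nat_lit 67) (nat_lit 5) (nat_lit 72) (nat_lit 5) (nat_lit 68) (nat_lit 5) (nat_lit 335) (nat_lit 322) (nat_lit 243)) (XT.nd (nat_lit 78) (nat_lit 228) (nat_lit 0) (XT.lf (nat_lit 0) (nat_lit 15814533422) (nat_lit 304) (nat_lit 6942784384) (nat_lit 380) (nat_lit 17672668356) (nat_lit 63) (nat_lit 5) (nat_lit 67) (nat_lit 5) (nat_lit 68) (nat_lit 5) (nat_lit 336) (nat_lit 322) (nat_lit 242)) (XT.lf (nat_lit 0) (nat_lit 8512318093) (nat_lit 228) (nat_lit 24787037019) (nat_lit 304) (nat_lit 9084228756) (nat_lit 60) (nat_lit 5) (nat_lit 63) (nat_lit 5) (nat_lit 64) (nat_lit 5) (nat_lit 337) (nat_lit 322) (nat_lit 241)))) (XT.nd (nat_lit 78) (nat_lit 228) (nat_lit 0) (XT.lf (nat_lit 0) (nat_lit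 578091115) (nat_lit 304) (nat_lit 160713670) (nat_lit 380) (nat_lit 43726842137) (nat_lit 55) (nat_lit 5) (nat_lit 59) (nat_lit 5) (nat_lit 60) (nat_lit 5) (nat_lit 338) (nat_lit 322) (nat_lit 240)) (XT.nd (nat_lit 78) (nat_lit 228) (nat_lit 0) (XT.lf (nat_lit 0) (nat_lit 12038242506) (nat_lit 380) (nat_lit 8277949234) (nat_lit 76) (nat_lit 26340204014) (nat_lit 55) (nat_lit 5) (nat_lit 60) (nat_lit 5) (nat_lit 56) (nat_lit 5) (nat_lit 339) (nat_lit 322) (nat_lit 239)) (XT.lf (nat_lit 0) (nat_lit 24824231714) (nat_lit 304) (nat_lit 17933419926) (nat_lit 76) (nat_lit 6235630671) (nat_lit 52) (nat_lit 5) (nat_lit 56) (nat_lit 5) (nat_lit 53) (nat_lit 5) (nat_lit 340) (nat_lit 322) (nat_lit 238))))))) (XT.nd (nat_lit 858) (nat_lit 912) (nat_lit 0) (XT.nd (nat_lit 390) (nat_lit 912) (nat_lit 0) (XT.nd (nat_lit 156) (nat_lit 380) (nat_lit 0) (XT.nd (nat_lit 78) (nat_lit 228) (nat_lit 0) (XT.lf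 (nat_lit 0) (nat_lit 22702450961) (nat_lit 228) (nat_lit 16767312927) (nat_lit 304) (nat_lit 12005529790) (nat_lit 49) (nat_lit 5) (nat_lit 52) (nat_lit 5) (nat_lit 53) (nat_lit 5) (nat_lit 341) (nat_lit 322) (nat_lit 237)) (XT.lf (nat_lit 0) (nat_lit 1801684378) (nat_lit 228) (nat_lit 40825428517) (nat_lit 76) (nat_lit 11492535684) (nat_lit 46) (nat_lit 5) (nat_lit 49) (nat_lit 5) (nat_lit 47) (nat_lit 5) (nat_lit 342) (nat_lit 322) (nat_lit 236))) (XT.nd (nat_lit 78) (nat_lit 152) (nat_lit 0) (XT.lf (nat_lit 0) (nat_lit 2377019885) (nat_lit 228) (nat_lit 14744374943) (nat_lit 304) (nat_lit 39802895501) (nat_lit 43) (nat_lit 5) (nat_lit 46) (nat_lit 5) (nat_lit 47) (nat_lit 5) (nat_lit 343) (nat_lit 322) (nat_lit 235)) (XT.nd (nat_lit 78) (nat_lit 152) (nat_lit 0) (XT.lf (nat_lit 0) (nat_lit 34623383115) (nat_lit 304) (nat_lit 9684992260) (nat_lit 76) (nat_lit 15597098344) (nat_lit 43)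 (nat_lit 5) (nat_lit 47) (nat_lit 5) (nat_lit 44) (nat_lit 5) (nat_lit 344) (nat_lit 322) (nat_lit 234)) (XT.lf (nat_lit 0) (nat_lit 39782454370) (nat_lit 152) (nat_lit 14607195137) (nat_lit 228) (nat_lit 8692301276) (nat_lit 41) (nat_lit 5) (nat_lit 43) (nat_lit 5) (nat_lit 44) (nat_lit 5) (nat_lit 345) (nat_lit 322) (nat_lit 233))))) (XT.nd (nat_lit 234) (nat_lit 532) (nat_lit 0) (XT.nd (nat_lit 78) (nat_lit 152) (nat_lit 0) (XT.lf (nat_lit 0) (nat_lit 9814248178) (nat_lit 228) (nat_lit 38977170547) (nat_lit 76) (nat_lit 17669689302) (nat_lit 38) (nat_lit 5) (nat_lit 41) (nat_lit 5) (nat_lit 39) (nat_lit 5) (nat_lit 346) (nat_lit 322) (nat_lit 232)) (XT.nd (nat_lit 78) (nat_lit 0) (nat_lit 0) (XT.lf (nat_lit 0) (nat_lit 13082809797) (nat_lit 152) (nat_lit 17275943545) (nat_lit 228) (nat_lit 39701625333) (nat_lit 36) (nat_lit 5) (nat_lit 38) (nat_lit 5) (nat_lit 39) (nat_lit 5) (nat_lit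 347) (nat_lit 322) (nat_lit 231)) (XT.lf (nat_lit 0) (nat_lit 53493623582) (nat_lit 228) (nat_lit 3495010905) (nat_lit 76) (nat_lit 16911620002) (nat_lit 36) (nat_lit 5) (nat_lit 39) (nat_lit 5) (nat_lit 37) (nat_lit 5) (nat_lit 348) (nat_lit 322) (nat_lit 230)))) (XT.nd (nat_lit 78) (nat_lit 304) (nat_lit 0) (XT.lf (nat_lit 0) (nat_lit 1594252605) (nat_lit 228) (nat_lit 22263337784) (nat_lit 76) (nat_lit 54130590319) (nat_lit 33) (nat_lit 5) (nat_lit 36) (nat_lit 5) (nat_lit 34) (nat_lit 5) (nat_lit 349) (nat_lit 322) (nat_lit 229)) (XT.nd (nat_lit 78) (nat_lit 152) (nat_lit 0) (XT.lf (nat_lit 0) (nat_lit 25507483476) (nat_lit 228) (nat_lit 44275903303) (nat_lit 76) (nat_lit 12559669276) (nat_lit 31) (nat_lit 5) (nat_lit 34) (nat_lit 5) (nat_lit 32) (nat_lit 5) (nat_lit 350) (nat_lit 322) (nat_lit 228)) (XT.lf (nat_lit 0) (nat_lit 17124522522) (nat_lit 152) (nat_lit 35268801379) (nat_lit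 228) (nat_lit 34600022805) (nat_lit 29) (nat_lit 5) (nat_lit 31) (nat_lit 5) (nat_lit 32) (nat_lit 5) (nat_lit 351) (nat_lit 322) (nat_lit 227)))))) (XT.nd (nat_lit 468) (nat_lit 304) (nat_lit 0) (XT.nd (nat_lit 234) (nat_lit 304) (nat_lit 0) (XT.nd (nat_lit 78) (nat_lit 304) (nat_lit 0) (XT.lf (nat_lit 0) (nat_lit 82241170248) (nat_lit 228) (nat_lit 7009966321) (nat_lit 76) (nat_lit 2723969730) (nat_lit 29) (nat_lit 5) (nat_lit 32) (nat_lit 5) (nat_lit 30) (nat_lit 4) (nat_lit 352) (nat_lit 322) (nat_lit 226)) (XT.nd (nat_lit 78) (nat_lit 152) (nat_lit 0) (XT.lf (nat_lit 0) (nat_lit 18162171298) (nat_lit 152) (nat_lit 35300712752) (nat_lit 76) (nat_lit 43799722909) (nat_lit 27) (nat_lit 5) (nat_lit 29) (nat_lit 5) (nat_lit 28) (nat_lit 5) (nat_lit 353) (nat_lit 322) (nat_lit 225)) (XT.lf (nat_lit 0) (nat_lit 34672135785) (nat_lit 152) (nat_lit 13943131356) (nat_lit 228) (nat_lit 54316547555)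 (nat_lit 25) (nat_lit 5) (nat_lit 27) (nat_lit 5) (nat_lit 28) (nat_lit 5) (nat_lit 354) (nat_lit 322) (nat_lit 224)))) (XT.nd (nat_lit 78) (nat_lit 228) (nat_lit 0) (XT.lf (nat_lit 0) (nat_lit 2081280825) (nat_lit 76) (nat_lit 80525973604) (nat_lit 152) (nat_lit 26392174417) (nat_lit 24) (nat_lit 5) (nat_lit 25) (nat_lit 5) (nat_lit 26) (nat_lit 4) (nat_lit 355) (nat_lit 322) (nat_lit 223)) (XT.nd (nat_lit 78) (nat_lit 152) (nat_lit 0) (XT.lf (nat_lit 0) (nat_lit 5085828947) (nat_lit 152) (nat_lit 35325343373) (nat_lit 76) (nat_lit 75066330514) (nat_lit 23) (nat_lit 5) (nat_lit 25) (nat_lit 5) (nat_lit 24) (nat_lit 5) (nat_lit 356) (nat_lit 322) (nat_lit 222)) (XT.lf (nat_lit 0) (nat_lit 38900405928) (nat_lit 228) (nat_lit 79563988670) (nat_lit 76) (nat_lit 3950647506) (nat_lit 21) (nat_lit 5) (nat_lit 24) (nat_lit 5) (nat_lit 22) (nat_lit 4) (nat_lit 357) (nat_lit 322) (nat_lit 221)))))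 (XT.nd (nat_lit 234) (nat_lit 76) (nat_lit 0) (XT.nd (nat_lit 78) (nat_lit 228) (nat_lit 0) (XT.lf (nat_lit 0) (nat_lit 76723938465) (nat_lit 228) (nat_lit 2030716235) (nat_lit 76) (nat_lit 51087741842) (nat_lit 21) (nat_lit 5) (nat_lit 24) (nat_lit 5) (nat_lit 22) (nat_lit 4) (nat_lit 358) (nat_lit 322) (nat_lit 220)) (XT.nd (nat_lit 78) (nat_lit 152) (nat_lit 0) (XT.lf (nat_lit 0) (nat_lit 84401573443) (nat_lit 76) (nat_lit 34486702023) (nat_lit 152) (nat_lit 18909919165) (nat_lit 20) (nat_lit 5) (nat_lit 21) (nat_lit 5) (nat_lit 22) (nat_lit 4) (nat_lit 359) (nat_lit 322) (nat_lit 219)) (XT.lf (nat_lit 0) (nat_lit 18215033343) (nat_lit 152) (nat_lit 114395992701) (nat_lit 76) (nat_lit 13727504024) (nat_lit 18) (nat_lit 5) (nat_lit 20) (nat_lit 5) (nat_lit 19) (nat_lit 4) (nat_lit 360) (nat_lit 322) (nat_lit 218)))) (XT.nd (nat_lit 78) (nat_lit 76) (nat_lit 0) (XT.lf (nat_lit 0) (nat_lit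 59180581867) (nat_lit 152) (nat_lit 30420375144) (nat_lit 76) (nat_lit 65868980964) (nat_lit 18) (nat_lit 5) (nat_lit 20) (nat_lit 5) (nat_lit 19) (nat_lit 4) (nat_lit 361) (nat_lit 322) (nat_lit 217)) (XT.nd (nat_lit 78) (nat_lit 0) (nat_lit 0) (XT.lf (nat_lit 0) (nat_lit 62261625265) (nat_lit 76) (nat_lit 42131385401) (nat_lit 152) (nat_lit 60890367079) (nat_lit 17) (nat_lit 5) (nat_lit 18) (nat_lit 5) (nat_lit 19) (nat_lit 4) (nat_lit 362) (nat_lit 322) (nat_lit 216)) (XT.lf (nat_lit 0) (nat_lit 153901301633) (nat_lit 152) (nat_lit 12566554202) (nat_lit 0) (nat_lit 9380094439) (nat_lit 17) (nat_lit 5) (nat_lit 19) (nat_lit 4) (nat_lit 17) (nat_lit 4) (nat_lit 363) (nat_lit 322) (nat_lit 215))))))))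
noncomputable def xc87 : XT := (XT.nd (nat_lit 1794) (nat_lit 76) (nat_lit 0) (XT.nd (nat_lit 858) (nat_lit 304) (nat_lit 0) (XT.nd (nat_lit 390) (nat_lit 304) (nat_lit 0) (XT.nd (nat_lit 156) (nat_lit 152) (nat_lit 0) (XT.nd (nat_lit 78) (nat_lit 0) (nat_lit 0) (XT.lf (nat_lit 0) (nat_lit 21572459678) (nat_lit 152) (nat_lit 100300505199) (nat_lit 76) (nat_lit 65263842901) (nat_lit 15) (nat_lit 5) (nat_lit 17) (nat_lit 5) (nat_lit 16) (nat_lit 4) (nat_lit 364) (nat_lit 322) (nat_lit 214)) (XT.lf (nat_lit 0) (nat_lit 68034846775) (nat_lit 152) (nat_lit 5055241598) (nat_lit 76) (nat_lit 126209164555) (nat_lit 15) (nat_lit 5) (nat_lit 17) (nat_lit 5) (nat_lit 16) (nat_lit 4) (nat_lit 365) (nat_lit 322) (nat_lit 213))) (XT.nd (nat_lit 78) (nat_lit 76) (nat_lit 0) (XT.lf (nat_lit 0) (nat_lit 101039941915) (nat_lit 76) (nat_lit 18749840788) (nat_lit 152) (nat_lit 92566133830) (nat_lit 14) (nat_lit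 5) (nat_lit 15) (nat_lit 5) (nat_lit 16) (nat_lit 4) (nat_lit 366) (nat_lit 322) (nat_lit 212)) (XT.nd (nat_lit 78) (nat_lit 76) (nat_lit 0) (XT.lf (nat_lit 0) (nat_lit 176396262044) (nat_lit 152) (nat_lit 11277953710) (nat_lit 0) (nat_lit 38747340725) (nat_lit 14) (nat_lit 5) (nat_lit 16) (nat_lit 4) (nat_lit 14) (nat_lit 4) (nat_lit 367) (nat_lit 322) (nat_lit 211)) (XT.lf (nat_lit 0) (nat_lit 99632554483) (nat_lit 76) (nat_lit 139768653010) (nat_lit 76) (nat_lit 2117743368) (nat_lit 13) (nat_lit 4) (nat_lit 14) (nat_lit 5) (nat_lit 14) (nat_lit 4) (nat_lit 368) (nat_lit 322) (nat_lit 210))))) (XT.nd (nat_lit 234) (nat_lit 152) (nat_lit 0) (XT.nd (nat_lit 78) (nat_lit 76) (nat_lit 0) (XT.lf (nat_lit 0) (nat_lit 48232160875) (nat_lit 152) (nat_lit 38776820887) (nat_lit 76) (nat_lit 170766519534) (nat_lit 12) (nat_lit 5) (nat_lit 14) (nat_lit 5) (nat_lit 13) (nat_lit 4) (nat_lit 369) (nat_lit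 322) (nat_lit 209)) (XT.nd (nat_lit 78) (nat_lit 0) (nat_lit 0) (XT.lf (nat_lit 0) (nat_lit 74941465075) (nat_lit 76) (nat_lit 28763861960) (nat_lit 152) (nat_lit 171567040140) (nat_lit 11) (nat_lit 5) (nat_lit 12) (nat_lit 5) (nat_lit 13) (nat_lit 4) (nat_lit 370) (nat_lit 322) (nat_lit 208)) (XT.lf (nat_lit 0) (nat_lit 164834400429) (nat_lit 152) (nat_lit 95540263761) (nat_lit 0) (nat_lit 33733415913) (nat_lit 11) (nat_lit 5) (nat_lit 13) (nat_lit 4) (nat_lit 11) (nat_lit 4) (nat_lit 371) (nat_lit 322) (nat_lit 207)))) (XT.nd (nat_lit 78) (nat_lit 76) (nat_lit 0) (XT.lf (nat_lit 0) (nat_lit 17712881071) (nat_lit 76) (nat_lit 213901069154) (nat_lit 76) (nat_lit 82798692755) (nat_lit 10) (nat_lit 4) (nat_lit 11) (nat_lit 5) (nat_lit 11) (nat_lit 4) (nat_lit 372) (nat_lit 322) (nat_lit 206)) (XT.nd (nat_lit 78) (nat_lit 76) (nat_lit 0) (XT.lf (nat_lit 0) (nat_lit 143435448789) (nat_lit 76)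 (nat_lit 161963321193) (nat_lit 76) (nat_lit 30859656013) (nat_lit 10) (nat_lit 4) (nat_lit 11) (nat_lit 5) (nat_lit 11) (nat_lit 4) (nat_lit 373) (nat_lit 322) (nat_lit 205)) (XT.lf (nat_lit 0) (nat_lit 24425576954) (nat_lit 152) (nat_lit 81032425737) (nat_lit 76) (nat_lit 254374233505) (nat_lit 9) (nat_lit 5) (nat_lit 11) (nat_lit 5) (nat_lit 10) (nat_lit 4) (nat_lit 374) (nat_lit 322) (nat_lit 204)))))) (XT.nd (nat_lit 468) (nat_lit 152) (nat_lit 0) (XT.nd (nat_lit 234) (nat_lit 76) (nat_lit 0) (XT.nd (nat_lit 78) (nat_lit 0) (nat_lit 0) (XT.lf (nat_lit 0) (nat_lit 40474230519) (nat_lit 76) (nat_lit 43223425058) (nat_lit 152) (nat_lit 301536741217) (nat_lit 8) (nat_lit 5) (nat_lit 9) (nat_lit 5) (nat_lit 10) (nat_lit 4) (nat_lit 375) (nat_lit 322) (nat_lit 203)) (XT.nd (nat_lit 78) (nat_lit 0) (nat_lit 0) (XT.lf (nat_lit 0) (nat_lit 149519589496) (nat_lit 152) (nat_lit 238402943762)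 (nat_lit 0) (nat_lit 24655792839) (nat_lit 8) (nat_lit 5) (nat_lit 10) (nat_lit 4) (nat_lit 8) (nat_lit 4) (nat_lit 376) (nat_lit 322) (nat_lit 202)) (XT.lf (nat_lit 0) (nat_lit 221335054667) (nat_lit 152) (nat_lit 124267970710) (nat_lit 0) (nat_lit 96470355827) (nat_lit 8) (nat_lit 5) (nat_lit 10) (nat_lit 4) (nat_lit 8) (nat_lit 4) (nat_lit 377) (nat_lit 322) (nat_lit 201)))) (XT.nd (nat_lit 78) (nat_lit 76) (nat_lit 0) (XT.lf (nat_lit 0) (nat_lit 298894785419) (nat_lit 152) (nat_lit 1004052923) (nat_lit 0) (nat_lit 174029251224) (nat_lit 8) (nat_lit 5) (nat_lit 10) (nat_lit 4) (nat_lit 8) (nat_lit 4) (nat_lit 378) (nat_lit 322) (nat_lit 200)) (XT.nd (nat_lit 78) (nat_lit 0) (nat_lit 0) (XT.lf (nat_lit 0) (nat_lit 136487721926) (nat_lit 76) (nat_lit 248301628889) (nat_lit 76) (nat_lit 123435321218) (nat_lit 7) (nat_lit 4) (nat_lit 8) (nat_lit 5) (nat_lit 8) (nat_lit 4) (nat_lit 379) (nat_lit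 322) (nat_lit 199)) (XT.lf (nat_lit 0) (nat_lit 285013051895) (nat_lit 76) (nat_lit 192559060857) (nat_lit 76) (nat_lit 67692037005) (nat_lit 7) (nat_lit 4) (nat_lit 8) (nat_lit 5) (nat_lit 8) (nat_lit 4) (nat_lit 380) (nat_lit 322) (nat_lit 198))))) (XT.nd (nat_lit 234) (nat_lit 0) (nat_lit 0) (XT.nd (nat_lit 78) (nat_lit 152) (nat_lit 0) (XT.lf (nat_lit 0) (nat_lit 445418888563) (nat_lit 76) (nat_lit 132357812041) (nat_lit 76) (nat_lit 7490125058) (nat_lit 7) (nat_lit 4) (nat_lit 8) (nat_lit 5) (nat_lit 8) (nat_lit 4) (nat_lit 381) (nat_lit 322) (nat_lit 197)) (XT.nd (nat_lit 78) (nat_lit 76) (nat_lit 0) (XT.lf (nat_lit 0) (nat_lit 55685938095) (nat_lit 152) (nat_lit 10712127897) (nat_lit 76) (nat_lit 562026778634) (nat_lit 6) (nat_lit 5) (nat_lit 8) (nat_lit 5) (nat_lit 7) (nat_lit 4) (nat_lit 382) (nat_lit 322) (nat_lit 196)) (XT.lf (nat_lit 0) (nat_lit 125842724651) (nat_lit 152) (nat_lit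 542157196616) (nat_lit 0) (nat_lit 6919991774) (nat_lit 5) (nat_lit 5) (nat_lit 7) (nat_lit 4) (nat_lit 5) (nat_lit 4) (nat_lit 383) (nat_lit 322) (nat_lit 195)))) (XT.nd (nat_lit 78) (nat_lit 0) (nat_lit 0) (XT.lf (nat_lit 0) (nat_lit 202920633246) (nat_lit 152) (nat_lit 438151125865) (nat_lit 0) (nat_lit 83997399020) (nat_lit 5) (nat_lit 5) (nat_lit 7) (nat_lit 4) (nat_lit 5) (nat_lit 4) (nat_lit 384) (nat_lit 322) (nat_lit 194)) (XT.nd (nat_lit 78) (nat_lit 0) (nat_lit 0) (XT.lf (nat_lit 0) (nat_lit 286164153310) (nat_lit 152) (nat_lit 325825765853) (nat_lit 0) (nat_lit 167240454874) (nat_lit 5) (nat_lit 5) (nat_lit 7) (nat_lit 4) (nat_lit 5) (nat_lit 4) (nat_lit 385) (nat_lit 322) (nat_lit 193)) (XT.lf (nat_lit 0) (nat_lit 376066579777) (nat_lit 152) (nat_lit 204515484816) (nat_lit 0) (nat_lit 257142451517) (nat_lit 5) (nat_lit 5) (nat_lit 7) (nat_lit 4) (nat_lit 5) (nat_lit 4) (nat_lit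 386) (nat_lit 322) (nat_lit 192))))))) (XT.nd (nat_lit 42510) (nat_lit 0) (nat_lit 3420) (XT.nd (nat_lit 42042) (nat_lit 0) (nat_lit 6612) (XT.nd (nat_lit 156) (nat_lit 0) (nat_lit 0) (XT.nd (nat_lit 78) (nat_lit 76) (nat_lit 0) (XT.lf (nat_lit 0) (nat_lit 473160667769) (nat_lit 152) (nat_lit 73501407016) (nat_lit 0) (nat_lit 354236141522) (nat_lit 5) (nat_lit 5) (nat_lit 7) (nat_lit 4) (nat_lit 5) (nat_lit 4) (nat_lit 387) (nat_lit 322) (nat_lit 191)) (XT.lf (nat_lit 0) (nat_lit 70240997864) (nat_lit 76) (nat_lit 508877450619) (nat_lit 76) (nat_lit 389952555867) (nat_lit 4) (nat_lit 4) (nat_lit 5) (nat_lit 5) (nat_lit 5) (nat_lit 4) (nat_lit 388) (nat_lit 322) (nat_lit 190))) (XT.nd (nat_lit 41730) (nat_lit 0) (nat_lit 7296) (XT.lf (nat_lit 0) (nat_lit 228106598204) (nat_lit 76) (nat_lit 466726129743) (nat_lit 76) (nat_lit 347800893783) (nat_lit 4) (nat_lit 4) (nat_lit 5) (nat_lit 5) (nat_lit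 5) (nat_lit 4) (nat_lit 389) (nat_lit 322) (nat_lit 189)) (XT.nd (nat_lit 78) (nat_lit 0) (nat_lit 0) (XT.lf (nat_lit 0) (nat_lit 5518907717) (nat_lit 0) (nat_lit 5518907717) (nat_lit 684) (nat_lit 982280777) (nat_lit 100) (nat_lit 5) (nat_lit 100) (nat_lit 3) (nat_lit 109) (nat_lit 3) (nat_lit 323) (nat_lit 323) (nat_lit 254)) (XT.lf (nat_lit 76) (nat_lit 4890688999) (nat_lit 0) (nat_lit 18417854379) (nat_lit 760) (nat_lit 1675502658) (nat_lit 101) (nat_lit 5) (nat_lit 100) (nat_lit 5) (nat_lit 110) (nat_lit 5) (nat_lit 324) (nat_lit 323) (nat_lit 253))))) (XT.nd (nat_lit 234) (nat_lit 0) (nat_lit 152) (XT.nd (nat_lit 78) (nat_lit 684) (nat_lit 0) (XT.lf (nat_lit 76) (nat_lit 24477477526) (nat_lit 0) (nat_lit 555306044) (nat_lit 760) (nat_lit 951015619) (nat_lit 101) (nat_lit 5) (nat_lit 100) (nat_lit 5) (nat_lit 110) (nat_lit 5) (nat_lit 325) (nat_lit 323) (nat_lit 252)) (XT.nd (nat_lit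 78) (nat_lit 0) (nat_lit 76) (XT.lf (nat_lit 0) (nat_lit 417739803) (nat_lit 760) (nat_lit 8172583951) (nat_lit 836) (nat_lit 18444317640) (nat_lit 91) (nat_lit 5) (nat_lit 101) (nat_lit 5) (nat_lit 102) (nat_lit 5) (nat_lit 326) (nat_lit 323) (nat_lit 251)) (XT.lf (nat_lit 0) (nat_lit 2261707504) (nat_lit 760) (nat_lit 15199995438) (nat_lit 836) (nat_lit 10687138189) (nat_lit 92) (nat_lit 5) (nat_lit 102) (nat_lit 5) (nat_lit 103) (nat_lit 5) (nat_lit 327) (nat_lit 323) (nat_lit 250)))) (XT.nd (nat_lit 78) (nat_lit 0) (nat_lit 0) (XT.lf (nat_lit 0) (nat_lit 4667842709) (nat_lit 760) (nat_lit 22600637797) (nat_lit 836) (nat_lit 2062983481) (nat_lit 93) (nat_lit 5) (nat_lit 103) (nat_lit 5) (nat_lit 104) (nat_lit 5) (nat_lit 328) (nat_lit 323) (nat_lit 249)) (XT.nd (nat_lit 78) (nat_lit 0) (nat_lit 76) (XT.lf (nat_lit 76) (nat_lit 55819434) (nat_lit 0) (nat_lit 7762186159) (nat_lit 836)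 (nat_lit 22763132427) (nat_lit 94) (nat_lit 5) (nat_lit 93) (nat_lit 5) (nat_lit 104) (nat_lit 5) (nat_lit 329) (nat_lit 323) (nat_lit 248)) (XT.lf (nat_lit 0) (nat_lit 11815986354) (nat_lit 760) (nat_lit 6804245093) (nat_lit 76) (nat_lit 13280781127) (nat_lit 94) (nat_lit 5) (nat_lit 104) (nat_lit 5) (nat_lit 95) (nat_lit 5) (nat_lit 330) (nat_lit 323) (nat_lit 247)))))) (XT.nd (nat_lit 468) (nat_lit 1368) (nat_lit 0) (XT.nd (nat_lit 234) (nat_lit 684) (nat_lit 0) (XT.nd (nat_lit 78) (nat_lit 684) (nat_lit 0) (XT.lf (nat_lit 0) (nat_lit 16597432727) (nat_lit 760) (nat_lit 14057126195) (nat_lit 76) (nat_lit 2648752409) (nat_lit 85) (nat_lit 5) (nat_lit 95) (nat_lit 5) (nat_lit 86) (nat_lit 5) (nat_lit 331) (nat_lit 323) (nat_lit 246)) (XT.nd (nat_lit 78) (nat_lit 304) (nat_lit 0) (XT.lf (nat_lit 0) (nat_lit 12898541204) (nat_lit 380) (nat_lit 9488200772) (nat_lit 456) (nat_lit 12399799092)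 (nat_lit 80) (nat_lit 5) (nat_lit 85) (nat_lit 5) (nat_lit 86) (nat_lit 5) (nat_lit 332) (nat_lit 323) (nat_lit 245)) (XT.lf (nat_lit 0) (nat_lit 6108991499) (nat_lit 304) (nat_lit 23073381249) (nat_lit 380) (nat_lit 7178910968) (nat_lit 76) (nat_lit 5) (nat_lit 80) (nat_lit 5) (nat_lit 81) (nat_lit 5) (nat_lit 333) (nat_lit 323) (nat_lit 244)))) (XT.nd (nat_lit 78) (nat_lit 684) (nat_lit 0) (XT.lf (nat_lit 0) (nat_lit 36952315101) (nat_lit 304) (nat_lit 98750705) (nat_lit 380) (nat_lit 984481760) (nat_lit 76) (nat_lit 5) (nat_lit 80) (nat_lit 5) (nat_lit 81) (nat_lit 5) (nat_lit 334) (nat_lit 323) (nat_lit 243)) (XT.nd (nat_lit 78) (nat_lit 304) (nat_lit 0) (XT.lf (nat_lit 0) (nat_lit 6398521921) (nat_lit 380) (nat_lit 8887133040) (nat_lit 76) (nat_lit 24509872942) (nat_lit 71) (nat_lit 5) (nat_lit 76) (nat_lit 5) (nat_lit 72) (nat_lit 5) (nat_lit 335) (nat_lit 323) (nat_lit 242)) (XT.lf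 (nat_lit 0) (nat_lit 14887625140) (nat_lit 380) (nat_lit 17268251243) (nat_lit 76) (nat_lit 9512135907) (nat_lit 67) (nat_lit 5) (nat_lit 72) (nat_lit 5) (nat_lit 68) (nat_lit 5) (nat_lit 336) (nat_lit 323) (nat_lit 241))))) (XT.nd (nat_lit 234) (nat_lit 456) (nat_lit 0) (XT.nd (nat_lit 78) (nat_lit 608) (nat_lit 0) (XT.lf (nat_lit 0) (nat_lit 17267476519) (nat_lit 304) (nat_lit 7465276973) (nat_lit 380) (nat_lit 18923706451) (nat_lit 63) (nat_lit 5) (nat_lit 67) (nat_lit 5) (nat_lit 68) (nat_lit 5) (nat_lit 337) (nat_lit 323) (nat_lit 240)) (XT.nd (nat_lit 78) (nat_lit 380) (nat_lit 0) (XT.lf (nat_lit 0) (nat_lit 9380012162) (nat_lit 228) (nat_lit 26730062323) (nat_lit 304) (nat_lit 9656688470) (nat_lit 60) (nat_lit 5) (nat_lit 63) (nat_lit 5) (nat_lit 64) (nat_lit 5) (nat_lit 338) (nat_lit 323) (nat_lit 239)) (XT.lf (nat_lit 0) (nat_lit 807810205) (nat_lit 304) (nat_lit 131241905) (nat_lit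 380) (nat_lit 47076640325) (nat_lit 55) (nat_lit 5) (nat_lit 59) (nat_lit 5) (nat_lit 60) (nat_lit 5) (nat_lit 339) (nat_lit 323) (nat_lit 238)))) (XT.nd (nat_lit 78) (nat_lit 456) (nat_lit 0) (XT.lf (nat_lit 0) (nat_lit 13132601734) (nat_lit 380) (nat_lit 8764243349) (nat_lit 76) (nat_lit 28485359290) (nat_lit 55) (nat_lit 5) (nat_lit 60) (nat_lit 5) (nat_lit 56) (nat_lit 5) (nat_lit 340) (nat_lit 323) (nat_lit 237)) (XT.nd (nat_lit 78) (nat_lit 228) (nat_lit 0) (XT.lf (nat_lit 0) (nat_lit 26935060165) (nat_lit 304) (nat_lit 19194148448) (nat_lit 76) (nat_lit 6777163964) (nat_lit 52) (nat_lit 5) (nat_lit 56) (nat_lit 5) (nat_lit 53) (nat_lit 5) (nat_lit 341) (nat_lit 323) (nat_lit 236)) (XT.lf (nat_lit 0) (nat_lit 24685032669) (nat_lit 228) (nat_lit 18060548885) (nat_lit 304) (nat_lit 12841705435) (nat_lit 49) (nat_lit 5) (nat_lit 52) (nat_lit 5) (nat_lit 53) (nat_lit 5) (nat_lit 342)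 (nat_lit 323) (nat_lit 235))))))))
noncomputable def xc88 : XT := (XT.nd (nat_lit 1716) (nat_lit 912) (nat_lit 0) (XT.nd (nat_lit 858) (nat_lit 912) (nat_lit 0) (XT.nd (nat_lit 390) (nat_lit 684) (nat_lit 0) (XT.nd (nat_lit 156) (nat_lit 380) (nat_lit 0) (XT.nd (nat_lit 78) (nat_lit 228) (nat_lit 0) (XT.lf (nat_lit 0) (nat_lit 2060511404) (nat_lit 228) (nat_lit 43923362422) (nat_lit 76) (nat_lit 12459507655) (nat_lit 46) (nat_lit 5) (nat_lit 49) (nat_lit 5) (nat_lit 47) (nat_lit 5) (nat_lit 343) (nat_lit 323) (nat_lit 234)) (XT.lf (nat_lit 0) (nat_lit 2727976415) (nat_lit 228) (nat_lit 15871837011) (nat_lit 304) (nat_lit 42872888141) (nat_lit 43) (nat_lit 5) (nat_lit 46) (nat_lit 5) (nat_lit 47) (nat_lit 5) (nat_lit 344) (nat_lit 323) (nat_lit 233))) (XT.nd (nat_lit 78) (nat_lit 380) (nat_lit 0) (XT.lf (nat_lit 0) (nat_lit 37494661403) (nat_lit 304) (nat_lit 10306538225) (nat_lit 76) (nat_lit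 16891552127) (nat_lit 43) (nat_lit 5) (nat_lit 47) (nat_lit 5) (nat_lit 44) (nat_lit 5) (nat_lit 345) (nat_lit 323) (nat_lit 232)) (XT.nd (nat_lit 78) (nat_lit 228) (nat_lit 0) (XT.lf (nat_lit 0) (nat_lit 43111643930) (nat_lit 152) (nat_lit 15725362230) (nat_lit 228) (nat_lit 9286608598) (nat_lit 41) (nat_lit 5) (nat_lit 43) (nat_lit 5) (nat_lit 44) (nat_lit 5) (nat_lit 346) (nat_lit 323) (nat_lit 231)) (XT.lf (nat_lit 0) (nat_lit 10693010323) (nat_lit 228) (nat_lit 41948026438) (nat_lit 76) (nat_lit 19132205731) (nat_lit 38) (nat_lit 5) (nat_lit 41) (nat_lit 5) (nat_lit 39) (nat_lit 5) (nat_lit 347) (nat_lit 323) (nat_lit 230))))) (XT.nd (nat_lit 234) (nat_lit 304) (nat_lit 0) (XT.nd (nat_lit 78) (nat_lit 228) (nat_lit 0) (XT.lf (nat_lit 0) (nat_lit 14270350083) (nat_lit 152) (nat_lit 18605990919) (nat_lit 228) (nat_lit 42784355948) (nat_lit 36) (nat_lit 5) (nat_lit 38) (nat_lit 5) (nat_lit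 39) (nat_lit 5) (nat_lit 348) (nat_lit 323) (nat_lit 229)) (XT.nd (nat_lit 78) (nat_lit 228) (nat_lit 0) (XT.lf (nat_lit 0) (nat_lit 57856168744) (nat_lit 228) (nat_lit 3640708798) (nat_lit 76) (nat_lit 18311181903) (nat_lit 36) (nat_lit 5) (nat_lit 39) (nat_lit 5) (nat_lit 37) (nat_lit 5) (nat_lit 349) (nat_lit 323) (nat_lit 228)) (XT.lf (nat_lit 0) (nat_lit 1802045223) (nat_lit 228) (nat_lit 23913612343) (nat_lit 76) (nat_lit 58507509741) (nat_lit 33) (nat_lit 5) (nat_lit 36) (nat_lit 5) (nat_lit 34) (nat_lit 5) (nat_lit 350) (nat_lit 323) (nat_lit 227)))) (XT.nd (nat_lit 78) (nat_lit 152) (nat_lit 0) (XT.lf (nat_lit 0) (nat_lit 27625105876) (nat_lit 228) (nat_lit 47689765629) (nat_lit 76) (nat_lit 13611726703) (nat_lit 31) (nat_lit 5) (nat_lit 34) (nat_lit 5) (nat_lit 32) (nat_lit 5) (nat_lit 351) (nat_lit 323) (nat_lit 226)) (XT.nd (nat_lit 78) (nat_lit 0) (nat_lit 0) (XT.lf (nat_lit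 0) (nat_lit 18617122415) (nat_lit 152) (nat_lit 38040900385) (nat_lit 228) (nat_lit 37291082638) (nat_lit 29) (nat_lit 5) (nat_lit 31) (nat_lit 5) (nat_lit 32) (nat_lit 5) (nat_lit 352) (nat_lit 323) (nat_lit 225)) (XT.lf (nat_lit 0) (nat_lit 88888986403) (nat_lit 228) (nat_lit 7454489789) (nat_lit 76) (nat_lit 2986168636) (nat_lit 29) (nat_lit 5) (nat_lit 32) (nat_lit 5) (nat_lit 30) (nat_lit 4) (nat_lit 353) (nat_lit 323) (nat_lit 224)))))) (XT.nd (nat_lit 390) (nat_lit 304) (nat_lit 0) (XT.nd (nat_lit 156) (nat_lit 304) (nat_lit 0) (XT.nd (nat_lit 78) (nat_lit 152) (nat_lit 0) (XT.lf (nat_lit 0) (nat_lit 19681436140) (nat_lit 152) (nat_lit 38011318501) (nat_lit 76) (nat_lit 47347507650) (nat_lit 27) (nat_lit 5) (nat_lit 29) (nat_lit 5) (nat_lit 28) (nat_lit 5) (nat_lit 354) (nat_lit 323) (nat_lit 223)) (XT.lf (nat_lit 0) (nat_lit 37554427464) (nat_lit 152) (nat_lit 15013136046) (nat_lit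 228) (nat_lit 58595606809) (nat_lit 25) (nat_lit 5) (nat_lit 27) (nat_lit 5) (nat_lit 28) (nat_lit 5) (nat_lit 355) (nat_lit 323) (nat_lit 222))) (XT.nd (nat_lit 78) (nat_lit 228) (nat_lit 0) (XT.lf (nat_lit 0) (nat_lit 2353960163) (nat_lit 76) (nat_lit 86922592092) (nat_lit 152) (nat_lit 28439761873) (nat_lit 24) (nat_lit 5) (nat_lit 25) (nat_lit 5) (nat_lit 26) (nat_lit 4) (nat_lit 356) (nat_lit 323) (nat_lit 221)) (XT.nd (nat_lit 78) (nat_lit 152) (nat_lit 0) (XT.lf (nat_lit 0) (nat_lit 5549866496) (nat_lit 152) (nat_lit 38051139351) (nat_lit 76) (nat_lit 81111809419) (nat_lit 23) (nat_lit 5) (nat_lit 25) (nat_lit 5) (nat_lit 24) (nat_lit 5) (nat_lit 357) (nat_lit 323) (nat_lit 220)) (XT.lf (nat_lit 0) (nat_lit 42067518645) (nat_lit 228) (nat_lit 85831130512) (nat_lit 76) (nat_lit 4306815234) (nat_lit 21) (nat_lit 5) (nat_lit 24) (nat_lit 5) (nat_lit 22) (nat_lit 4) (nat_lit 358) (nat_lit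 323) (nat_lit 219))))) (XT.nd (nat_lit 234) (nat_lit 76) (nat_lit 0) (XT.nd (nat_lit 78) (nat_lit 228) (nat_lit 0) (XT.lf (nat_lit 0) (nat_lit 82912853767) (nat_lit 228) (nat_lit 2102453857) (nat_lit 76) (nat_lit 55211905566) (nat_lit 21) (nat_lit 5) (nat_lit 24) (nat_lit 5) (nat_lit 22) (nat_lit 4) (nat_lit 359) (nat_lit 323) (nat_lit 218)) (XT.nd (nat_lit 78) (nat_lit 152) (nat_lit 0) (XT.lf (nat_lit 0) (nat_lit 91240476429) (nat_lit 76) (nat_lit 37207438339) (nat_lit 152) (nat_lit 20371683363) (nat_lit 20) (nat_lit 5) (nat_lit 21) (nat_lit 5) (nat_lit 22) (nat_lit 4) (nat_lit 360) (nat_lit 323) (nat_lit 217)) (XT.lf (nat_lit 0) (nat_lit 19719879767) (nat_lit 152) (nat_lit 123461295433) (nat_lit 76) (nat_lit 14862034620) (nat_lit 18) (nat_lit 5) (nat_lit 20) (nat_lit 5) (nat_lit 19) (nat_lit 4) (nat_lit 361) (nat_lit 323) (nat_lit 216)))) (XT.nd (nat_lit 78) (nat_lit 76) (nat_lit 0) (XT.lf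 (nat_lit 0) (nat_lit 63959143006) (nat_lit 152) (nat_lit 32774026745) (nat_lit 76) (nat_lit 71172138584) (nat_lit 18) (nat_lit 5) (nat_lit 20) (nat_lit 5) (nat_lit 19) (nat_lit 4) (nat_lit 362) (nat_lit 323) (nat_lit 215)) (XT.nd (nat_lit 78) (nat_lit 0) (nat_lit 0) (XT.lf (nat_lit 0) (nat_lit 67319057933) (nat_lit 76) (nat_lit 45467434849) (nat_lit 152) (nat_lit 65717435574) (nat_lit 17) (nat_lit 5) (nat_lit 18) (nat_lit 5) (nat_lit 19) (nat_lit 4) (nat_lit 363) (nat_lit 323) (nat_lit 214)) (XT.lf (nat_lit 0) (nat_lit 166252831043) (nat_lit 152) (nat_lit 13499578338) (nat_lit 0) (nat_lit 10161389406) (nat_lit 17) (nat_lit 5) (nat_lit 19) (nat_lit 4) (nat_lit 17) (nat_lit 4) (nat_lit 364) (nat_lit 323) (nat_lit 213))))))) (XT.nd (nat_lit 858) (nat_lit 304) (nat_lit 0) (XT.nd (nat_lit 390) (nat_lit 304) (nat_lit 0) (XT.nd (nat_lit 156) (nat_lit 152) (nat_lit 0) (XT.nd (nat_lit 78) (nat_lit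 0) (nat_lit 0) (XT.lf (nat_lit 0) (nat_lit 23336471795) (nat_lit 152) (nat_lit 108254109595) (nat_lit 76) (nat_lit 70515245916) (nat_lit 15) (nat_lit 5) (nat_lit 17) (nat_lit 5) (nat_lit 16) (nat_lit 4) (nat_lit 365) (nat_lit 323) (nat_lit 212)) (XT.lf (nat_lit 0) (nat_lit 73513019094) (nat_lit 152) (nat_lit 5394442389) (nat_lit 76) (nat_lit 136333949185) (nat_lit 15) (nat_lit 5) (nat_lit 17) (nat_lit 5) (nat_lit 16) (nat_lit 4) (nat_lit 366) (nat_lit 323) (nat_lit 211))) (XT.nd (nat_lit 78) (nat_lit 76) (nat_lit 0) (XT.lf (nat_lit 0) (nat_lit 109185521486) (nat_lit 76) (nat_lit 20221181323) (nat_lit 152) (nat_lit 99935987890) (nat_lit 14) (nat_lit 5) (nat_lit 15) (nat_lit 5) (nat_lit 16) (nat_lit 4) (nat_lit 367) (nat_lit 323) (nat_lit 210)) (XT.nd (nat_lit 78) (nat_lit 76) (nat_lit 0) (XT.lf (nat_lit 0) (nat_lit 190539615550) (nat_lit 152) (nat_lit 12121267674) (nat_lit 0) (nat_lit 41872803774)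 (nat_lit 14) (nat_lit 5) (nat_lit 16) (nat_lit 4) (nat_lit 14) (nat_lit 4) (nat_lit 368) (nat_lit 323) (nat_lit 209)) (XT.lf (nat_lit 0) (nat_lit 107659520481) (nat_lit 76) (nat_lit 150923971484) (nat_lit 76) (nat_lit 2255455042) (nat_lit 13) (nat_lit 4) (nat_lit 14) (nat_lit 5) (nat_lit 14) (nat_lit 4) (nat_lit 369) (nat_lit 323) (nat_lit 208))))) (XT.nd (nat_lit 234) (nat_lit 152) (nat_lit 0) (XT.nd (nat_lit 78) (nat_lit 76) (nat_lit 0) (XT.lf (nat_lit 0) (nat_lit 52119153141) (nat_lit 152) (nat_lit 41825830896) (nat_lit 76) (nat_lit 184451127108) (nat_lit 12) (nat_lit 5) (nat_lit 14) (nat_lit 5) (nat_lit 13) (nat_lit 4) (nat_lit 370) (nat_lit 323) (nat_lit 207)) (XT.nd (nat_lit 78) (nat_lit 0) (nat_lit 0) (XT.lf (nat_lit 0) (nat_lit 80987608732) (nat_lit 76) (nat_lit 31041252265) (nat_lit 152) (nat_lit 185263931564) (nat_lit 11) (nat_lit 5) (nat_lit 12) (nat_lit 5) (nat_lit 13) (nat_lit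 4) (nat_lit 371) (nat_lit 323) (nat_lit 206)) (XT.lf (nat_lit 0) (nat_lit 178046595162) (nat_lit 152) (nat_lit 103135503265) (nat_lit 0) (nat_lit 36453347988) (nat_lit 11) (nat_lit 5) (nat_lit 13) (nat_lit 4) (nat_lit 11) (nat_lit 4) (nat_lit 372) (nat_lit 323) (nat_lit 205)))) (XT.nd (nat_lit 78) (nat_lit 76) (nat_lit 0) (XT.lf (nat_lit 0) (nat_lit 19175807931) (nat_lit 76) (nat_lit 230991532936) (nat_lit 76) (nat_lit 89397092448) (nat_lit 10) (nat_lit 4) (nat_lit 11) (nat_lit 5) (nat_lit 11) (nat_lit 4) (nat_lit 373) (nat_lit 323) (nat_lit 204)) (XT.nd (nat_lit 78) (nat_lit 76) (nat_lit 0) (XT.lf (nat_lit 0) (nat_lit 154952781335) (nat_lit 76) (nat_lit 174900366749) (nat_lit 76) (nat_lit 33304821340) (nat_lit 10) (nat_lit 4) (nat_lit 11) (nat_lit 5) (nat_lit 11) (nat_lit 4) (nat_lit 374) (nat_lit 323) (nat_lit 203)) (XT.lf (nat_lit 0) (nat_lit 26400781979) (nat_lit 152) (nat_lit 87474965425)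 (nat_lit 76) (nat_lit 274742003724) (nat_lit 9) (nat_lit 5) (nat_lit 11) (nat_lit 5) (nat_lit 10) (nat_lit 4) (nat_lit 375) (nat_lit 323) (nat_lit 202)))))) (XT.nd (nat_lit 468) (nat_lit 152) (nat_lit 0) (XT.nd (nat_lit 234) (nat_lit 76) (nat_lit 0) (XT.nd (nat_lit 78) (nat_lit 0) (nat_lit 0) (XT.lf (nat_lit 0) (nat_lit 43750482617) (nat_lit 76) (nat_lit 46663175135) (nat_lit 152) (nat_lit 325638475726) (nat_lit 8) (nat_lit 5) (nat_lit 9) (nat_lit 5) (nat_lit 10) (nat_lit 4) (nat_lit 376) (nat_lit 323) (nat_lit 201)) (XT.nd (nat_lit 78) (nat_lit 0) (nat_lit 0) (XT.lf (nat_lit 0) (nat_lit 161500112855) (nat_lit 152) (nat_lit 257439025790) (nat_lit 0) (nat_lit 26644500570) (nat_lit 8) (nat_lit 5) (nat_lit 10) (nat_lit 4) (nat_lit 8) (nat_lit 4) (nat_lit 377) (nat_lit 323) (nat_lit 200)) (XT.lf (nat_lit 0) (nat_lit 239059411076) (nat_lit 152) (nat_lit 134175932929) (nat_lit 0) (nat_lit 104203025316)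 (nat_lit 8) (nat_lit 5) (nat_lit 10) (nat_lit 4) (nat_lit 8) (nat_lit 4) (nat_lit 378) (nat_lit 323) (nat_lit 199)))) (XT.nd (nat_lit 78) (nat_lit 76) (nat_lit 0) (XT.lf (nat_lit 0) (nat_lit 322822620137) (nat_lit 152) (nat_lit 1053381382) (nat_lit 0) (nat_lit 187965518195) (nat_lit 8) (nat_lit 5) (nat_lit 10) (nat_lit 4) (nat_lit 8) (nat_lit 4) (nat_lit 379) (nat_lit 323) (nat_lit 198)) (XT.nd (nat_lit 78) (nat_lit 0) (nat_lit 0) (XT.lf (nat_lit 0) (nat_lit 147436388416) (nat_lit 76) (nat_lit 268151621404) (nat_lit 76) (nat_lit 133293856331) (nat_lit 7) (nat_lit 4) (nat_lit 8) (nat_lit 5) (nat_lit 8) (nat_lit 4) (nat_lit 380) (nat_lit 323) (nat_lit 197)) (XT.lf (nat_lit 0) (nat_lit 307841548581) (nat_lit 76) (nat_lit 207950695175) (nat_lit 76) (nat_lit 73092316091) (nat_lit 7) (nat_lit 4) (nat_lit 8) (nat_lit 5) (nat_lit 8) (nat_lit 4) (nat_lit 381) (nat_lit 323) (nat_lit 196))))) (XT.nd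 (nat_lit 234) (nat_lit 0) (nat_lit 0) (XT.nd (nat_lit 78) (nat_lit 152) (nat_lit 0) (XT.lf (nat_lit 0) (nat_lit 481077818661) (nat_lit 76) (nat_lit 142934316124) (nat_lit 76) (nat_lit 8075368512) (nat_lit 7) (nat_lit 4) (nat_lit 8) (nat_lit 5) (nat_lit 8) (nat_lit 4) (nat_lit 382) (nat_lit 323) (nat_lit 195)) (XT.nd (nat_lit 78) (nat_lit 76) (nat_lit 0) (XT.lf (nat_lit 0) (nat_lit 60153331230) (nat_lit 152) (nat_lit 11545145005) (nat_lit 76) (nat_lit 606999726962) (nat_lit 6) (nat_lit 5) (nat_lit 8) (nat_lit 5) (nat_lit 7) (nat_lit 4) (nat_lit 383) (nat_lit 323) (nat_lit 194)) (XT.lf (nat_lit 0) (nat_lit 135922262340) (nat_lit 152) (nat_lit 585506431072) (nat_lit 0) (nat_lit 7484203819) (nat_lit 5) (nat_lit 5) (nat_lit 7) (nat_lit 4) (nat_lit 5) (nat_lit 4) (nat_lit 384) (nat_lit 323) (nat_lit 193)))) (XT.nd (nat_lit 78) (nat_lit 0) (nat_lit 0) (XT.lf (nat_lit 0) (nat_lit 219165505865)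 (nat_lit 152) (nat_lit 473181603645) (nat_lit 0) (nat_lit 90727017519) (nat_lit 5) (nat_lit 5) (nat_lit 7) (nat_lit 4) (nat_lit 5) (nat_lit 4) (nat_lit 385) (nat_lit 323) (nat_lit 192)) (XT.nd (nat_lit 78) (nat_lit 0) (nat_lit 0) (XT.lf (nat_lit 0) (nat_lit 309067676278) (nat_lit 152) (nat_lit 351871815742) (nat_lit 0) (nat_lit 180628789946) (nat_lit 5) (nat_lit 5) (nat_lit 7) (nat_lit 4) (nat_lit 5) (nat_lit 4) (nat_lit 386) (nat_lit 323) (nat_lit 191)) (XT.lf (nat_lit 0) (nat_lit 406161527181) (nat_lit 152) (nat_lit 220858194547) (nat_lit 0) (nat_lit 277722272344) (nat_lit 5) (nat_lit 5) (nat_lit 7) (nat_lit 4) (nat_lit 5) (nat_lit 4) (nat_lit 387) (nat_lit 323) (nat_lit 190))))))))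
noncomputable def xc89 : XT := (XT.nd (nat_lit 43524) (nat_lit 0) (nat_lit 760) (XT.nd (nat_lit 42666) (nat_lit 0) (nat_lit 3116) (XT.nd (nat_lit 42198) (nat_lit 0) (nat_lit 5700) (XT.nd (nat_lit 41964) (nat_lit 0) (nat_lit 6536) (XT.nd (nat_lit 41886) (nat_lit 0) (nat_lit 7220) (XT.lf (nat_lit 0) (nat_lit 511022429544) (nat_lit 152) (nat_lit 79364363044) (nat_lit 0) (nat_lit 382582833497) (nat_lit 5) (nat_lit 5) (nat_lit 7) (nat_lit 4) (nat_lit 5) (nat_lit 4) (nat_lit 388) (nat_lit 323) (nat_lit 189)) (XT.lf (nat_lit 0) (nat_lit 6042817432) (nat_lit 0) (nat_lit 6042817432) (nat_lit 684) (nat_lit 887575860) (nat_lit 100) (nat_lit 5) (nat_lit 100) (nat_lit 3) (nat_lit 109) (nat_lit 3) (nat_lit 324) (nat_lit 324) (nat_lit 252))) (XT.nd (nat_lit 78) (nat_lit 684) (nat_lit 0) (XT.lf (nat_lit 76) (nat_lit 5458285802) (nat_lit 0) (nat_lit 20020486357) (nat_lit 760) (nat_lit 1488250899) (nat_lit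 101) (nat_lit 5) (nat_lit 100) (nat_lit 5) (nat_lit 110) (nat_lit 5) (nat_lit 325) (nat_lit 324) (nat_lit 251)) (XT.nd (nat_lit 78) (nat_lit 684) (nat_lit 0) (XT.lf (nat_lit 76) (nat_lit 26598955065) (nat_lit 0) (nat_lit 719363516) (nat_lit 760) (nat_lit 729604303) (nat_lit 101) (nat_lit 5) (nat_lit 100) (nat_lit 5) (nat_lit 110) (nat_lit 5) (nat_lit 326) (nat_lit 324) (nat_lit 250)) (XT.lf (nat_lit 0) (nat_lit 718769053) (nat_lit 760) (nat_lit 8645242353) (nat_lit 836) (nat_lit 19819637530) (nat_lit 91) (nat_lit 5) (nat_lit 101) (nat_lit 5) (nat_lit 102) (nat_lit 5) (nat_lit 327) (nat_lit 324) (nat_lit 249))))) (XT.nd (nat_lit 234) (nat_lit 912) (nat_lit 0) (XT.nd (nat_lit 78) (nat_lit 0) (nat_lit 76) (XT.lf (nat_lit 0) (nat_lit 2691930956) (nat_lit 760) (nat_lit 16228634180) (nat_lit 836) (nat_lit 11467364068) (nat_lit 92) (nat_lit 5) (nat_lit 102) (nat_lit 5) (nat_lit 103) (nat_lit 5)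 (nat_lit 328) (nat_lit 324) (nat_lit 248)) (XT.nd (nat_lit 78) (nat_lit 0) (nat_lit 0) (XT.lf (nat_lit 0) (nat_lit 5274040037) (nat_lit 760) (nat_lit 24216611502) (nat_lit 836) (nat_lit 2175362483) (nat_lit 93) (nat_lit 5) (nat_lit 103) (nat_lit 5) (nat_lit 104) (nat_lit 5) (nat_lit 329) (nat_lit 324) (nat_lit 247)) (XT.lf (nat_lit 76) (nat_lit 244014861) (nat_lit 0) (nat_lit 8417827413) (nat_lit 836) (nat_lit 24354562728) (nat_lit 94) (nat_lit 5) (nat_lit 93) (nat_lit 5) (nat_lit 104) (nat_lit 5) (nat_lit 330) (nat_lit 324) (nat_lit 246)))) (XT.nd (nat_lit 78) (nat_lit 1064) (nat_lit 0) (XT.lf (nat_lit 0) (nat_lit 12962982850) (nat_lit 760) (nat_lit 7167570653) (nat_lit 76) (nat_lit 14312172487) (nat_lit 94) (nat_lit 5) (nat_lit 104) (nat_lit 5) (nat_lit 95) (nat_lit 5) (nat_lit 331) (nat_lit 324) (nat_lit 245)) (XT.nd (nat_lit 78) (nat_lit 380) (nat_lit 0) (XT.lf (nat_lit 0) (nat_lit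 18114451225) (nat_lit 760) (nat_lit 14998559125) (nat_lit 76) (nat_lit 2844843849) (nat_lit 85) (nat_lit 5) (nat_lit 95) (nat_lit 5) (nat_lit 86) (nat_lit 5) (nat_lit 332) (nat_lit 324) (nat_lit 244)) (XT.lf (nat_lit 0) (nat_lit 14105602748) (nat_lit 380) (nat_lit 10250020906) (nat_lit 456) (nat_lit 13204702061) (nat_lit 80) (nat_lit 5) (nat_lit 85) (nat_lit 5) (nat_lit 86) (nat_lit 5) (nat_lit 333) (nat_lit 324) (nat_lit 243)))))) (XT.nd (nat_lit 390) (nat_lit 1292) (nat_lit 0) (XT.nd (nat_lit 156) (nat_lit 988) (nat_lit 0) (XT.nd (nat_lit 78) (nat_lit 0) (nat_lit 0) (XT.lf (nat_lit 0) (nat_lit 6774058797) (nat_lit 304) (nat_lit 24910378506) (nat_lit 380) (nat_lit 7577151742) (nat_lit 76) (nat_lit 5) (nat_lit 80) (nat_lit 5) (nat_lit 81) (nat_lit 5) (nat_lit 334) (nat_lit 324) (nat_lit 242)) (XT.lf (nat_lit 0) (nat_lit 40071785474) (nat_lit 304) (nat_lit 98434795) (nat_lit 380) (nat_lit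 900210575) (nat_lit 76) (nat_lit 5) (nat_lit 80) (nat_lit 5) (nat_lit 81) (nat_lit 5) (nat_lit 335) (nat_lit 324) (nat_lit 241))) (XT.nd (nat_lit 78) (nat_lit 608) (nat_lit 0) (XT.lf (nat_lit 0) (nat_lit 7059243801) (nat_lit 380) (nat_lit 9429318895) (nat_lit 76) (nat_lit 26482982834) (nat_lit 71) (nat_lit 5) (nat_lit 76) (nat_lit 5) (nat_lit 72) (nat_lit 5) (nat_lit 336) (nat_lit 324) (nat_lit 240)) (XT.nd (nat_lit 78) (nat_lit 304) (nat_lit 0) (XT.lf (nat_lit 0) (nat_lit 16219300413) (nat_lit 380) (nat_lit 18481405530) (nat_lit 76) (nat_lit 10293544994) (nat_lit 67) (nat_lit 5) (nat_lit 72) (nat_lit 5) (nat_lit 68) (nat_lit 5) (nat_lit 337) (nat_lit 324) (nat_lit 239)) (XT.lf (nat_lit 0) (nat_lit 18809866087) (nat_lit 304) (nat_lit 8034266825) (nat_lit 380) (nat_lit 20298049321) (nat_lit 63) (nat_lit 5) (nat_lit 67) (nat_lit 5) (nat_lit 68) (nat_lit 5) (nat_lit 338) (nat_lit 324) (nat_lit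 238))))) (XT.nd (nat_lit 234) (nat_lit 684) (nat_lit 0) (XT.nd (nat_lit 78) (nat_lit 380) (nat_lit 0) (XT.lf (nat_lit 0) (nat_lit 10290485686) (nat_lit 228) (nat_lit 28834227205) (nat_lit 304) (nat_lit 10296954527) (nat_lit 60) (nat_lit 5) (nat_lit 63) (nat_lit 5) (nat_lit 64) (nat_lit 5) (nat_lit 339) (nat_lit 324) (nat_lit 237)) (XT.nd (nat_lit 78) (nat_lit 0) (nat_lit 0) (XT.lf (nat_lit 0) (nat_lit 1029732519) (nat_lit 304) (nat_lit 105451083) (nat_lit 380) (nat_lit 50715586037) (nat_lit 55) (nat_lit 5) (nat_lit 59) (nat_lit 5) (nat_lit 60) (nat_lit 5) (nat_lit 340) (nat_lit 324) (nat_lit 236)) (XT.lf (nat_lit 0) (nat_lit 14295778313) (nat_lit 380) (nat_lit 9314541061) (nat_lit 76) (nat_lit 30796714572) (nat_lit 55) (nat_lit 5) (nat_lit 60) (nat_lit 5) (nat_lit 56) (nat_lit 5) (nat_lit 341) (nat_lit 324) (nat_lit 235)))) (XT.nd (nat_lit 78) (nat_lit 456) (nat_lit 0) (XT.lf (nat_lit 0)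 (nat_lit 29196937950) (nat_lit 304) (nat_lit 20580550461) (nat_lit 76) (nat_lit 7355930735) (nat_lit 52) (nat_lit 5) (nat_lit 56) (nat_lit 5) (nat_lit 53) (nat_lit 5) (nat_lit 342) (nat_lit 324) (nat_lit 234)) (XT.nd (nat_lit 78) (nat_lit 228) (nat_lit 0) (XT.lf (nat_lit 0) (nat_lit 26802484144) (nat_lit 228) (nat_lit 19464112723) (nat_lit 304) (nat_lit 13762503171) (nat_lit 49) (nat_lit 5) (nat_lit 52) (nat_lit 5) (nat_lit 53) (nat_lit 5) (nat_lit 343) (nat_lit 324) (nat_lit 233)) (XT.lf (nat_lit 0) (nat_lit 2323682456) (nat_lit 228) (nat_lit 47293112438) (nat_lit 76) (nat_lit 13497051118) (nat_lit 46) (nat_lit 5) (nat_lit 49) (nat_lit 5) (nat_lit 47) (nat_lit 5) (nat_lit 344) (nat_lit 324) (nat_lit 232))))))) (XT.nd (nat_lit 858) (nat_lit 912) (nat_lit 0) (XT.nd (nat_lit 390) (nat_lit 684) (nat_lit 0) (XT.nd (nat_lit 156) (nat_lit 532) (nat_lit 0) (XT.nd (nat_lit 78) (nat_lit 0) (nat_lit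 0) (XT.lf (nat_lit 0) (nat_lit 3084070271) (nat_lit 228) (nat_lit 17096926969) (nat_lit 304) (nat_lit 46204777662) (nat_lit 43) (nat_lit 5) (nat_lit 46) (nat_lit 5) (nat_lit 47) (nat_lit 5) (nat_lit 345) (nat_lit 324) (nat_lit 231)) (XT.lf (nat_lit 0) (nat_lit 40581175020) (nat_lit 304) (nat_lit 10999671180) (nat_lit 76) (nat_lit 18282901945) (nat_lit 43) (nat_lit 5) (nat_lit 47) (nat_lit 5) (nat_lit 44) (nat_lit 5) (nat_lit 346) (nat_lit 324) (nat_lit 230))) (XT.nd (nat_lit 78) (nat_lit 380) (nat_lit 0) (XT.lf (nat_lit 0) (nat_lit 46686255494) (nat_lit 152) (nat_lit 16940174030) (nat_lit 228) (nat_lit 9942880240) (nat_lit 41) (nat_lit 5) (nat_lit 43) (nat_lit 5) (nat_lit 44) (nat_lit 5) (nat_lit 347) (nat_lit 324) (nat_lit 229)) (XT.nd (nat_lit 78) (nat_lit 152) (nat_lit 0) (XT.lf (nat_lit 0) (nat_lit 11628717174) (nat_lit 228) (nat_lit 45177567325) (nat_lit 76) (nat_lit 20704741452) (nat_lit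 38) (nat_lit 5) (nat_lit 41) (nat_lit 5) (nat_lit 39) (nat_lit 5) (nat_lit 348) (nat_lit 324) (nat_lit 228)) (XT.lf (nat_lit 0) (nat_lit 15532790421) (nat_lit 152) (nat_lit 20049864474) (nat_lit 228) (nat_lit 46127029481) (nat_lit 36) (nat_lit 5) (nat_lit 38) (nat_lit 5) (nat_lit 39) (nat_lit 5) (nat_lit 349) (nat_lit 324) (nat_lit 227))))) (XT.nd (nat_lit 234) (nat_lit 304) (nat_lit 0) (XT.nd (nat_lit 78) (nat_lit 380) (nat_lit 0) (XT.lf (nat_lit 0) (nat_lit 62555868755) (nat_lit 228) (nat_lit 3817165279) (nat_lit 76) (nat_lit 19816056137) (nat_lit 36) (nat_lit 5) (nat_lit 39) (nat_lit 5) (nat_lit 37) (nat_lit 5) (nat_lit 350) (nat_lit 324) (nat_lit 226)) (XT.nd (nat_lit 78) (nat_lit 152) (nat_lit 0) (XT.lf (nat_lit 0) (nat_lit 2015012347) (nat_lit 228) (nat_lit 25714567874) (nat_lit 76) (nat_lit 63227952938) (nat_lit 33) (nat_lit 5) (nat_lit 36) (nat_lit 5) (nat_lit 34) (nat_lit 5) (nat_lit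 351) (nat_lit 324) (nat_lit 225)) (XT.lf (nat_lit 0) (nat_lit 29901149773) (nat_lit 228) (nat_lit 51395027522) (nat_lit 76) (nat_lit 14741203149) (nat_lit 31) (nat_lit 5) (nat_lit 34) (nat_lit 5) (nat_lit 32) (nat_lit 5) (nat_lit 352) (nat_lit 324) (nat_lit 224)))) (XT.nd (nat_lit 78) (nat_lit 152) (nat_lit 0) (XT.lf (nat_lit 0) (nat_lit 20211634604) (nat_lit 152) (nat_lit 41041815501) (nat_lit 228) (nat_lit 40208403892) (nat_lit 29) (nat_lit 5) (nat_lit 31) (nat_lit 5) (nat_lit 32) (nat_lit 5) (nat_lit 353) (nat_lit 324) (nat_lit 223)) (XT.nd (nat_lit 78) (nat_lit 152) (nat_lit 0) (XT.lf (nat_lit 0) (nat_lit 96058852344) (nat_lit 228) (nat_lit 7951162897) (nat_lit 76) (nat_lit 3263026227) (nat_lit 29) (nat_lit 5) (nat_lit 32) (nat_lit 5) (nat_lit 30) (nat_lit 4) (nat_lit 354) (nat_lit 324) (nat_lit 222)) (XT.lf (nat_lit 0) (nat_lit 21312784998) (nat_lit 152) (nat_lit 40954957803) (nat_lit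 76) (nat_lit 51172865625) (nat_lit 27) (nat_lit 5) (nat_lit 29) (nat_lit 5) (nat_lit 28) (nat_lit 5) (nat_lit 355) (nat_lit 324) (nat_lit 221)))))) (XT.nd (nat_lit 468) (nat_lit 380) (nat_lit 0) (XT.nd (nat_lit 234) (nat_lit 228) (nat_lit 0) (XT.nd (nat_lit 78) (nat_lit 152) (nat_lit 0) (XT.lf (nat_lit 0) (nat_lit 40651820770) (nat_lit 152) (nat_lit 16175224465) (nat_lit 228) (nat_lit 63226444182) (nat_lit 25) (nat_lit 5) (nat_lit 27) (nat_lit 5) (nat_lit 28) (nat_lit 5) (nat_lit 356) (nat_lit 324) (nat_lit 220)) (XT.nd (nat_lit 78) (nat_lit 76) (nat_lit 0) (XT.lf (nat_lit 0) (nat_lit 2633306530) (nat_lit 76) (nat_lit 93837425351) (nat_lit 152) (nat_lit 30660256183) (nat_lit 24) (nat_lit 5) (nat_lit 25) (nat_lit 5) (nat_lit 26) (nat_lit 4) (nat_lit 357) (nat_lit 324) (nat_lit 219)) (XT.lf (nat_lit 0) (nat_lit 6042870933) (nat_lit 152) (nat_lit 41009298151) (nat_lit 76) (nat_lit 87635195586)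 (nat_lit 23) (nat_lit 5) (nat_lit 25) (nat_lit 5) (nat_lit 24) (nat_lit 5) (nat_lit 358) (nat_lit 324) (nat_lit 218)))) (XT.nd (nat_lit 78) (nat_lit 76) (nat_lit 0) (XT.lf (nat_lit 0) (nat_lit 45480142568) (nat_lit 228) (nat_lit 92613621252) (nat_lit 76) (nat_lit 4685753394) (nat_lit 21) (nat_lit 5) (nat_lit 24) (nat_lit 5) (nat_lit 22) (nat_lit 4) (nat_lit 359) (nat_lit 324) (nat_lit 217)) (XT.nd (nat_lit 78) (nat_lit 76) (nat_lit 0) (XT.lf (nat_lit 0) (nat_lit 89589606542) (nat_lit 228) (nat_lit 2192872665) (nat_lit 76) (nat_lit 59660703328) (nat_lit 21) (nat_lit 5) (nat_lit 24) (nat_lit 5) (nat_lit 22) (nat_lit 4) (nat_lit 360) (nat_lit 324) (nat_lit 216)) (XT.lf (nat_lit 0) (nat_lit 98614111928) (nat_lit 76) (nat_lit 40151283195) (nat_lit 152) (nat_lit 21957668603) (nat_lit 20) (nat_lit 5) (nat_lit 21) (nat_lit 5) (nat_lit 22) (nat_lit 4) (nat_lit 361) (nat_lit 324) (nat_lit 215)))))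 (XT.nd (nat_lit 234) (nat_lit 152) (nat_lit 0) (XT.nd (nat_lit 78) (nat_lit 76) (nat_lit 0) (XT.lf (nat_lit 0) (nat_lit 21338316991) (nat_lit 152) (nat_lit 133264144984) (nat_lit 76) (nat_lit 16082144744) (nat_lit 18) (nat_lit 5) (nat_lit 20) (nat_lit 5) (nat_lit 19) (nat_lit 4) (nat_lit 362) (nat_lit 324) (nat_lit 214)) (XT.nd (nat_lit 78) (nat_lit 76) (nat_lit 0) (XT.lf (nat_lit 0) (nat_lit 69113695598) (nat_lit 152) (nat_lit 35327380288) (nat_lit 76) (nat_lit 76894749814) (nat_lit 18) (nat_lit 5) (nat_lit 20) (nat_lit 5) (nat_lit 19) (nat_lit 4) (nat_lit 363) (nat_lit 324) (nat_lit 213)) (XT.lf (nat_lit 0) (nat_lit 72770171257) (nat_lit 76) (nat_lit 49075284555) (nat_lit 152) (nat_lit 70936969590) (nat_lit 17) (nat_lit 5) (nat_lit 18) (nat_lit 5) (nat_lit 19) (nat_lit 4) (nat_lit 364) (nat_lit 324) (nat_lit 212)))) (XT.nd (nat_lit 78) (nat_lit 152) (nat_lit 0) (XT.lf (nat_lit 0) (nat_lit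 179586858350) (nat_lit 152) (nat_lit 14517558837) (nat_lit 0) (nat_lit 11000781535) (nat_lit 17) (nat_lit 5) (nat_lit 19) (nat_lit 4) (nat_lit 17) (nat_lit 4) (nat_lit 365) (nat_lit 324) (nat_lit 211)) (XT.nd (nat_lit 78) (nat_lit 0) (nat_lit 0) (XT.lf (nat_lit 0) (nat_lit 25236153035) (nat_lit 152) (nat_lit 116854050830) (nat_lit 76) (nat_lit 76182439169) (nat_lit 15) (nat_lit 5) (nat_lit 17) (nat_lit 5) (nat_lit 16) (nat_lit 4) (nat_lit 366) (nat_lit 324) (nat_lit 210)) (XT.lf (nat_lit 0) (nat_lit 79424397193) (nat_lit 152) (nat_lit 5770083398) (nat_lit 76) (nat_lit 147264714731) (nat_lit 15) (nat_lit 5) (nat_lit 17) (nat_lit 5) (nat_lit 16) (nat_lit 4) (nat_lit 367) (nat_lit 324) (nat_lit 209))))))))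
noncomputable def xc90 : XT := (XT.nd (nat_lit 43602) (nat_lit 0) (nat_lit 2736) (XT.nd (nat_lit 858) (nat_lit 228) (nat_lit 0) (XT.nd (nat_lit 390) (nat_lit 228) (nat_lit 0) (XT.nd (nat_lit 156) (nat_lit 228) (nat_lit 0) (XT.nd (nat_lit 78) (nat_lit 0) (nat_lit 0) (XT.lf (nat_lit 0) (nat_lit 117973847617) (nat_lit 76) (nat_lit 21814315876) (nat_lit 152) (nat_lit 107900485709) (nat_lit 14) (nat_lit 5) (nat_lit 15) (nat_lit 5) (nat_lit 16) (nat_lit 4) (nat_lit 368) (nat_lit 324) (nat_lit 208)) (XT.lf (nat_lit 0) (nat_lit 205809921746) (nat_lit 152) (nat_lit 13040452685) (nat_lit 0) (nat_lit 45244640928) (nat_lit 14) (nat_lit 5) (nat_lit 16) (nat_lit 4) (nat_lit 14) (nat_lit 4) (nat_lit 369) (nat_lit 324) (nat_lit 207))) (XT.nd (nat_lit 78) (nat_lit 152) (nat_lit 0) (XT.lf (nat_lit 0) (nat_lit 116320603141) (nat_lit 76) (nat_lit 162975449416) (nat_lit 76) (nat_lit 2408707121) (nat_lit 13)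 (nat_lit 4) (nat_lit 14) (nat_lit 5) (nat_lit 14) (nat_lit 4) (nat_lit 370) (nat_lit 324) (nat_lit 206)) (XT.nd (nat_lit 78) (nat_lit 76) (nat_lit 0) (XT.lf (nat_lit 0) (nat_lit 56313050445) (nat_lit 152) (nat_lit 45126342101) (nat_lit 76) (nat_lit 199227181277) (nat_lit 12) (nat_lit 5) (nat_lit 14) (nat_lit 5) (nat_lit 13) (nat_lit 4) (nat_lit 371) (nat_lit 324) (nat_lit 205)) (XT.lf (nat_lit 0) (nat_lit 87510192920) (nat_lit 76) (nat_lit 33504217525) (nat_lit 152) (nat_lit 200060636121) (nat_lit 11) (nat_lit 5) (nat_lit 12) (nat_lit 5) (nat_lit 13) (nat_lit 4) (nat_lit 372) (nat_lit 324) (nat_lit 204))))) (XT.nd (nat_lit 234) (nat_lit 152) (nat_lit 0) (XT.nd (nat_lit 78) (nat_lit 76) (nat_lit 0) (XT.lf (nat_lit 0) (nat_lit 192312135788) (nat_lit 152) (nat_lit 111345207041) (nat_lit 0) (nat_lit 39387841824) (nat_lit 11) (nat_lit 5) (nat_lit 13) (nat_lit 4) (nat_lit 11) (nat_lit 4) (nat_lit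 373) (nat_lit 324) (nat_lit 203)) (XT.nd (nat_lit 78) (nat_lit 0) (nat_lit 0) (XT.lf (nat_lit 0) (nat_lit 20749221310) (nat_lit 76) (nat_lit 249452318405) (nat_lit 76) (nat_lit 96527001367) (nat_lit 10) (nat_lit 4) (nat_lit 11) (nat_lit 5) (nat_lit 11) (nat_lit 4) (nat_lit 374) (nat_lit 324) (nat_lit 202)) (XT.lf (nat_lit 0) (nat_lit 167385437864) (nat_lit 76) (nat_lit 188875232047) (nat_lit 76) (nat_lit 35948967716) (nat_lit 10) (nat_lit 4) (nat_lit 11) (nat_lit 5) (nat_lit 11) (nat_lit 4) (nat_lit 375) (nat_lit 324) (nat_lit 201)))) (XT.nd (nat_lit 78) (nat_lit 76) (nat_lit 0) (XT.lf (nat_lit 0) (nat_lit 28530984858) (nat_lit 152) (nat_lit 94438622493) (nat_lit 76) (nat_lit 296736651693) (nat_lit 9) (nat_lit 5) (nat_lit 11) (nat_lit 5) (nat_lit 10) (nat_lit 4) (nat_lit 376) (nat_lit 324) (nat_lit 200)) (XT.nd (nat_lit 78) (nat_lit 0) (nat_lit 0) (XT.lf (nat_lit 0) (nat_lit 47283369011)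 (nat_lit 76) (nat_lit 50380690800) (nat_lit 152) (nat_lit 351671374096) (nat_lit 8) (nat_lit 5) (nat_lit 9) (nat_lit 5) (nat_lit 10) (nat_lit 4) (nat_lit 377) (nat_lit 324) (nat_lit 199)) (XT.lf (nat_lit 0) (nat_lit 174436373768) (nat_lit 152) (nat_lit 278003152078) (nat_lit 0) (nat_lit 28789987489) (nat_lit 8) (nat_lit 5) (nat_lit 10) (nat_lit 4) (nat_lit 8) (nat_lit 4) (nat_lit 378) (nat_lit 324) (nat_lit 198)))))) (XT.nd (nat_lit 390) (nat_lit 152) (nat_lit 0) (XT.nd (nat_lit 156) (nat_lit 76) (nat_lit 0) (XT.nd (nat_lit 78) (nat_lit 0) (nat_lit 0) (XT.lf (nat_lit 0) (nat_lit 258199212004) (nat_lit 152) (nat_lit 144881307771) (nat_lit 0) (nat_lit 112552162594) (nat_lit 8) (nat_lit 5) (nat_lit 10) (nat_lit 4) (nat_lit 8) (nat_lit 4) (nat_lit 379) (nat_lit 324) (nat_lit 197)) (XT.lf (nat_lit 0) (nat_lit 348662363120) (nat_lit 152) (nat_lit 1111078011) (nat_lit 0) (nat_lit 203014699699)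 (nat_lit 8) (nat_lit 5) (nat_lit 10) (nat_lit 4) (nat_lit 8) (nat_lit 4) (nat_lit 380) (nat_lit 324) (nat_lit 196))) (XT.nd (nat_lit 78) (nat_lit 0) (nat_lit 0) (XT.lf (nat_lit 0) (nat_lit 159256718503) (nat_lit 76) (nat_lit 289591630236) (nat_lit 76) (nat_lit 143943398287) (nat_lit 7) (nat_lit 4) (nat_lit 8) (nat_lit 5) (nat_lit 8) (nat_lit 4) (nat_lit 381) (nat_lit 324) (nat_lit 195)) (XT.nd (nat_lit 78) (nat_lit 0) (nat_lit 0) (XT.lf (nat_lit 0) (nat_lit 332492408590) (nat_lit 76) (nat_lit 224575527751) (nat_lit 76) (nat_lit 78926769387) (nat_lit 7) (nat_lit 4) (nat_lit 8) (nat_lit 5) (nat_lit 8) (nat_lit 4) (nat_lit 382) (nat_lit 324) (nat_lit 194)) (XT.lf (nat_lit 0) (nat_lit 519585836861) (nat_lit 76) (nat_lit 154358669712) (nat_lit 76) (nat_lit 8709423927) (nat_lit 7) (nat_lit 4) (nat_lit 8) (nat_lit 5) (nat_lit 8) (nat_lit 4) (nat_lit 383) (nat_lit 324) (nat_lit 193))))) (XT.nd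 (nat_lit 234) (nat_lit 0) (nat_lit 0) (XT.nd (nat_lit 78) (nat_lit 76) (nat_lit 0) (XT.lf (nat_lit 0) (nat_lit 64976329970) (nat_lit 152) (nat_lit 12448220661) (nat_lit 76) (nat_lit 655568969553) (nat_lit 6) (nat_lit 5) (nat_lit 8) (nat_lit 5) (nat_lit 7) (nat_lit 4) (nat_lit 384) (nat_lit 324) (nat_lit 192)) (XT.nd (nat_lit 78) (nat_lit 0) (nat_lit 0) (XT.lf (nat_lit 0) (nat_lit 146806434031) (nat_lit 152) (nat_lit 632326934178) (nat_lit 0) (nat_lit 8092038806) (nat_lit 5) (nat_lit 5) (nat_lit 7) (nat_lit 4) (nat_lit 5) (nat_lit 4) (nat_lit 385) (nat_lit 324) (nat_lit 191)) (XT.lf (nat_lit 0) (nat_lit 236708367356) (nat_lit 152) (nat_lit 511017602881) (nat_lit 0) (nat_lit 97993603626) (nat_lit 5) (nat_lit 5) (nat_lit 7) (nat_lit 4) (nat_lit 5) (nat_lit 4) (nat_lit 386) (nat_lit 324) (nat_lit 190)))) (XT.nd (nat_lit 78) (nat_lit 0) (nat_lit 0) (XT.lf (nat_lit 0) (nat_lit 333801998734) (nat_lit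 152) (nat_lit 380004404469) (nat_lit 0) (nat_lit 195086893795) (nat_lit 5) (nat_lit 5) (nat_lit 7) (nat_lit 4) (nat_lit 5) (nat_lit 4) (nat_lit 387) (nat_lit 324) (nat_lit 189)) (XT.nd (nat_lit 41964) (nat_lit 0) (nat_lit 7220) (XT.lf (nat_lit 0) (nat_lit 438662697831) (nat_lit 152) (nat_lit 238510964432) (nat_lit 0) (nat_lit 299947276959) (nat_lit 5) (nat_lit 5) (nat_lit 7) (nat_lit 4) (nat_lit 5) (nat_lit 4) (nat_lit 388) (nat_lit 324) (nat_lit 188)) (XT.lf (nat_lit 0) (nat_lit 6596885058) (nat_lit 0) (nat_lit 6596885058) (nat_lit 684) (nat_lit 810015931) (nat_lit 100) (nat_lit 5) (nat_lit 100) (nat_lit 3) (nat_lit 109) (nat_lit 3) (nat_lit 325) (nat_lit 325) (nat_lit 250))))))) (XT.nd (nat_lit 858) (nat_lit 2660) (nat_lit 0) (XT.nd (nat_lit 390) (nat_lit 1140) (nat_lit 0) (XT.nd (nat_lit 156) (nat_lit 684) (nat_lit 0) (XT.nd (nat_lit 78) (nat_lit 0) (nat_lit 0) (XT.lf (nat_lit 76) (nat_lit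 6046133238) (nat_lit 0) (nat_lit 21732896552) (nat_lit 760) (nat_lit 1331854891) (nat_lit 101) (nat_lit 5) (nat_lit 100) (nat_lit 5) (nat_lit 110) (nat_lit 5) (nat_lit 326) (nat_lit 325) (nat_lit 249)) (XT.lf (nat_lit 76) (nat_lit 28866857185) (nat_lit 0) (nat_lit 879478603) (nat_lit 760) (nat_lit 532920721) (nat_lit 101) (nat_lit 5) (nat_lit 100) (nat_lit 5) (nat_lit 110) (nat_lit 5) (nat_lit 327) (nat_lit 325) (nat_lit 248))) (XT.nd (nat_lit 78) (nat_lit 0) (nat_lit 76) (XT.lf (nat_lit 0) (nat_lit 1005703075) (nat_lit 760) (nat_lit 9181556260) (nat_lit 836) (nat_lit 21319281302) (nat_lit 91) (nat_lit 5) (nat_lit 101) (nat_lit 5) (nat_lit 102) (nat_lit 5) (nat_lit 328) (nat_lit 325) (nat_lit 247)) (XT.nd (nat_lit 78) (nat_lit 0) (nat_lit 76) (XT.lf (nat_lit 0) (nat_lit 3121008727) (nat_lit 760) (nat_lit 17366293147) (nat_lit 836) (nat_lit 12320671251) (nat_lit 92) (nat_lit 5) (nat_lit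 102) (nat_lit 5) (nat_lit 103) (nat_lit 5) (nat_lit 329) (nat_lit 325) (nat_lit 246)) (XT.lf (nat_lit 0) (nat_lit 5895525921) (nat_lit 760) (nat_lit 25989265081) (nat_lit 836) (nat_lit 2304244297) (nat_lit 93) (nat_lit 5) (nat_lit 103) (nat_lit 5) (nat_lit 104) (nat_lit 5) (nat_lit 330) (nat_lit 325) (nat_lit 245))))) (XT.nd (nat_lit 234) (nat_lit 684) (nat_lit 0) (XT.nd (nat_lit 78) (nat_lit 608) (nat_lit 0) (XT.lf (nat_lit 76) (nat_lit 421054802) (nat_lit 0) (nat_lit 9120974423) (nat_lit 836) (nat_lit 26106065354) (nat_lit 94) (nat_lit 5) (nat_lit 93) (nat_lit 5) (nat_lit 104) (nat_lit 5) (nat_lit 331) (nat_lit 325) (nat_lit 244)) (XT.nd (nat_lit 78) (nat_lit 684) (nat_lit 0) (XT.lf (nat_lit 0) (nat_lit 14172961796) (nat_lit 760) (nat_lit 7585785934) (nat_lit 76) (nat_lit 15430507799) (nat_lit 94) (nat_lit 5) (nat_lit 104) (nat_lit 5) (nat_lit 95) (nat_lit 5) (nat_lit 332) (nat_lit 325)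 (nat_lit 243)) (XT.lf (nat_lit 0) (nat_lit 19725836301) (nat_lit 760) (nat_lit 16041433253) (nat_lit 76) (nat_lit 3058877899) (nat_lit 85) (nat_lit 5) (nat_lit 95) (nat_lit 5) (nat_lit 86) (nat_lit 5) (nat_lit 333) (nat_lit 325) (nat_lit 242)))) (XT.nd (nat_lit 78) (nat_lit 304) (nat_lit 0) (XT.lf (nat_lit 0) (nat_lit 15384238080) (nat_lit 380) (nat_lit 11072392325) (nat_lit 456) (nat_lit 14100686458) (nat_lit 80) (nat_lit 5) (nat_lit 85) (nat_lit 5) (nat_lit 86) (nat_lit 5) (nat_lit 334) (nat_lit 325) (nat_lit 241)) (XT.nd (nat_lit 78) (nat_lit 0) (nat_lit 0) (XT.lf (nat_lit 0) (nat_lit 7467173469) (nat_lit 304) (nat_lit 26895601411) (nat_lit 380) (nat_lit 8032370431) (nat_lit 76) (nat_lit 5) (nat_lit 80) (nat_lit 5) (nat_lit 81) (nat_lit 5) (nat_lit 335) (nat_lit 325) (nat_lit 240)) (XT.lf (nat_lit 0) (nat_lit 43417519023) (nat_lit 304) (nat_lit 99265712) (nat_lit 380) (nat_lit 832455708)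 (nat_lit 76) (nat_lit 5) (nat_lit 80) (nat_lit 5) (nat_lit 81) (nat_lit 5) (nat_lit 336) (nat_lit 325) (nat_lit 239)))))) (XT.nd (nat_lit 468) (nat_lit 1064) (nat_lit 0) (XT.nd (nat_lit 234) (nat_lit 608) (nat_lit 0) (XT.nd (nat_lit 78) (nat_lit 608) (nat_lit 0) (XT.lf (nat_lit 0) (nat_lit 7751589724) (nat_lit 380) (nat_lit 10038958655) (nat_lit 76) (nat_lit 28612183924) (nat_lit 71) (nat_lit 5) (nat_lit 76) (nat_lit 5) (nat_lit 72) (nat_lit 5) (nat_lit 337) (nat_lit 325) (nat_lit 238)) (XT.nd (nat_lit 78) (nat_lit 304) (nat_lit 0) (XT.lf (nat_lit 0) (nat_lit 17637442236) (nat_lit 380) (nat_lit 19815622866) (nat_lit 76) (nat_lit 11134551068) (nat_lit 67) (nat_lit 5) (nat_lit 72) (nat_lit 5) (nat_lit 68) (nat_lit 5) (nat_lit 338) (nat_lit 325) (nat_lit 237)) (XT.lf (nat_lit 0) (nat_lit 20452679591) (nat_lit 304) (nat_lit 8652803519) (nat_lit 380) (nat_lit 21802248508) (nat_lit 63) (nat_lit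 5) (nat_lit 67) (nat_lit 5) (nat_lit 68) (nat_lit 5) (nat_lit 339) (nat_lit 325) (nat_lit 236)))) (XT.nd (nat_lit 78) (nat_lit 380) (nat_lit 0) (XT.lf (nat_lit 0) (nat_lit 11250960952) (nat_lit 228) (nat_lit 31111610011) (nat_lit 304) (nat_lit 11007311523) (nat_lit 60) (nat_lit 5) (nat_lit 63) (nat_lit 5) (nat_lit 64) (nat_lit 5) (nat_lit 340) (nat_lit 325) (nat_lit 235)) (XT.nd (nat_lit 78) (nat_lit 0) (nat_lit 0) (XT.lf (nat_lit 0) (nat_lit 1246968371) (nat_lit 304) (nat_lit 82774195) (nat_lit 380) (nat_lit 54663791842) (nat_lit 55) (nat_lit 5) (nat_lit 59) (nat_lit 5) (nat_lit 60) (nat_lit 5) (nat_lit 341) (nat_lit 325) (nat_lit 234)) (XT.lf (nat_lit 0) (nat_lit 15535949871) (nat_lit 380) (nat_lit 9930381852) (nat_lit 76) (nat_lit 33288338002) (nat_lit 55) (nat_lit 5) (nat_lit 60) (nat_lit 5) (nat_lit 56) (nat_lit 5) (nat_lit 342) (nat_lit 325) (nat_lit 233))))) (XT.nd (nat_lit 234)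 (nat_lit 380) (nat_lit 0) (XT.nd (nat_lit 78) (nat_lit 456) (nat_lit 0) (XT.lf (nat_lit 0) (nat_lit 31624490800) (nat_lit 304) (nat_lit 22099139677) (nat_lit 76) (nat_lit 7975778355) (nat_lit 52) (nat_lit 5) (nat_lit 56) (nat_lit 5) (nat_lit 53) (nat_lit 5) (nat_lit 343) (nat_lit 325) (nat_lit 232)) (XT.nd (nat_lit 78) (nat_lit 228) (nat_lit 0) (XT.lf (nat_lit 0) (nat_lit 29068981281) (nat_lit 228) (nat_lit 20985850733) (nat_lit 304) (nat_lit 14772163662) (nat_lit 49) (nat_lit 5) (nat_lit 52) (nat_lit 5) (nat_lit 53) (nat_lit 5) (nat_lit 344) (nat_lit 325) (nat_lit 231)) (XT.lf (nat_lit 0) (nat_lit 2593879299) (nat_lit 228) (nat_lit 50953002638) (nat_lit 76) (nat_lit 14611779929) (nat_lit 46) (nat_lit 5) (nat_lit 49) (nat_lit 5) (nat_lit 47) (nat_lit 5) (nat_lit 345) (nat_lit 325) (nat_lit 230)))) (XT.nd (nat_lit 78) (nat_lit 152) (nat_lit 0) (XT.lf (nat_lit 0) (nat_lit 3448984973) (nat_lit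 228) (nat_lit 18426394945) (nat_lit 304) (nat_lit 49817190799) (nat_lit 43) (nat_lit 5) (nat_lit 46) (nat_lit 5) (nat_lit 47) (nat_lit 5) (nat_lit 346) (nat_lit 325) (nat_lit 229)) (XT.nd (nat_lit 78) (nat_lit 152) (nat_lit 0) (XT.lf (nat_lit 0) (nat_lit 43902206663) (nat_lit 304) (nat_lit 11766999038) (nat_lit 76) (nat_lit 19779849643) (nat_lit 43) (nat_lit 5) (nat_lit 47) (nat_lit 5) (nat_lit 44) (nat_lit 5) (nat_lit 347) (nat_lit 325) (nat_lit 228)) (XT.lf (nat_lit 0) (nat_lit 50528906318) (nat_lit 152) (nat_lit 18258336187) (nat_lit 228) (nat_lit 10664016209) (nat_lit 41) (nat_lit 5) (nat_lit 43) (nat_lit 5) (nat_lit 44) (nat_lit 5) (nat_lit 348) (nat_lit 325) (nat_lit 227))))))))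
noncomputable def xc91 : XT := (XT.nd (nat_lit 1794) (nat_lit 608) (nat_lit 0) (XT.nd (nat_lit 858) (nat_lit 760) (nat_lit 0) (XT.nd (nat_lit 390) (nat_lit 608) (nat_lit 0) (XT.nd (nat_lit 156) (nat_lit 380) (nat_lit 0) (XT.nd (nat_lit 78) (nat_lit 152) (nat_lit 0) (XT.lf (nat_lit 0) (nat_lit 12627829727) (nat_lit 228) (nat_lit 48683489765) (nat_lit 76) (nat_lit 22397094074) (nat_lit 38) (nat_lit 5) (nat_lit 41) (nat_lit 5) (nat_lit 39) (nat_lit 5) (nat_lit 349) (nat_lit 325) (nat_lit 226)) (XT.lf (nat_lit 0) (nat_lit 16878990756) (nat_lit 152) (nat_lit 21615611419) (nat_lit 228) (nat_lit 49748540483) (nat_lit 36) (nat_lit 5) (nat_lit 38) (nat_lit 5) (nat_lit 39) (nat_lit 5) (nat_lit 350) (nat_lit 325) (nat_lit 225))) (XT.nd (nat_lit 78) (nat_lit 380) (nat_lit 0) (XT.lf (nat_lit 0) (nat_lit 67621386362) (nat_lit 228) (nat_lit 4024115814) (nat_lit 76) (nat_lit 21435616762) (nat_lit 36) (nat_lit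 5) (nat_lit 39) (nat_lit 5) (nat_lit 37) (nat_lit 5) (nat_lit 351) (nat_lit 325) (nat_lit 224)) (XT.nd (nat_lit 78) (nat_lit 152) (nat_lit 0) (XT.lf (nat_lit 0) (nat_lit 2235201251) (nat_lit 228) (nat_lit 27675596939) (nat_lit 76) (nat_lit 68320347625) (nat_lit 33) (nat_lit 5) (nat_lit 36) (nat_lit 5) (nat_lit 34) (nat_lit 5) (nat_lit 352) (nat_lit 325) (nat_lit 223)) (XT.lf (nat_lit 0) (nat_lit 32349856491) (nat_lit 228) (nat_lit 55412391592) (nat_lit 76) (nat_lit 15955254467) (nat_lit 31) (nat_lit 5) (nat_lit 34) (nat_lit 5) (nat_lit 32) (nat_lit 5) (nat_lit 353) (nat_lit 325) (nat_lit 222))))) (XT.nd (nat_lit 234) (nat_lit 304) (nat_lit 0) (XT.nd (nat_lit 78) (nat_lit 152) (nat_lit 0) (XT.lf (nat_lit 0) (nat_lit 21918708031) (nat_lit 152) (nat_lit 44288846514) (nat_lit 228) (nat_lit 43368521542) (nat_lit 29) (nat_lit 5) (nat_lit 31) (nat_lit 5) (nat_lit 32) (nat_lit 5) (nat_lit 354)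 (nat_lit 325) (nat_lit 221)) (XT.nd (nat_lit 78) (nat_lit 152) (nat_lit 0) (XT.lf (nat_lit 0) (nat_lit 103793926641) (nat_lit 228) (nat_lit 8501791187) (nat_lit 76) (nat_lit 3556616423) (nat_lit 29) (nat_lit 5) (nat_lit 32) (nat_lit 5) (nat_lit 30) (nat_lit 4) (nat_lit 355) (nat_lit 325) (nat_lit 220)) (XT.lf (nat_lit 0) (nat_lit 23066533763) (nat_lit 152) (nat_lit 44147964357) (nat_lit 76) (nat_lit 55298894260) (nat_lit 27) (nat_lit 5) (nat_lit 29) (nat_lit 5) (nat_lit 28) (nat_lit 5) (nat_lit 356) (nat_lit 325) (nat_lit 219)))) (XT.nd (nat_lit 78) (nat_lit 152) (nat_lit 0) (XT.lf (nat_lit 0) (nat_lit 43983732471) (nat_lit 152) (nat_lit 17435838389) (nat_lit 228) (nat_lit 68235853293) (nat_lit 25) (nat_lit 5) (nat_lit 27) (nat_lit 5) (nat_lit 28) (nat_lit 5) (nat_lit 357) (nat_lit 325) (nat_lit 218)) (XT.nd (nat_lit 78) (nat_lit 76) (nat_lit 0) (XT.lf (nat_lit 0) (nat_lit 2922014224) (nat_lit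 76) (nat_lit 101311005364) (nat_lit 152) (nat_lit 33066191698) (nat_lit 24) (nat_lit 5) (nat_lit 25) (nat_lit 5) (nat_lit 26) (nat_lit 4) (nat_lit 358) (nat_lit 325) (nat_lit 217)) (XT.lf (nat_lit 0) (nat_lit 6568323170) (nat_lit 152) (nat_lit 44216368864) (nat_lit 76) (nat_lit 94675539193) (nat_lit 23) (nat_lit 5) (nat_lit 25) (nat_lit 5) (nat_lit 24) (nat_lit 5) (nat_lit 359) (nat_lit 325) (nat_lit 216)))))) (XT.nd (nat_lit 468) (nat_lit 304) (nat_lit 0) (XT.nd (nat_lit 234) (nat_lit 228) (nat_lit 0) (XT.nd (nat_lit 78) (nat_lit 76) (nat_lit 0) (XT.lf (nat_lit 0) (nat_lit 49159039597) (nat_lit 228) (nat_lit 99950694748) (nat_lit 76) (nat_lit 5090100070) (nat_lit 21) (nat_lit 5) (nat_lit 24) (nat_lit 5) (nat_lit 22) (nat_lit 4) (nat_lit 360) (nat_lit 325) (nat_lit 215)) (XT.nd (nat_lit 78) (nat_lit 76) (nat_lit 0) (XT.lf (nat_lit 0) (nat_lit 96794261754) (nat_lit 228) (nat_lit 2301620807)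 (nat_lit 76) (nat_lit 64460861820) (nat_lit 21) (nat_lit 5) (nat_lit 24) (nat_lit 5) (nat_lit 22) (nat_lit 4) (nat_lit 361) (nat_lit 325) (nat_lit 214)) (XT.lf (nat_lit 0) (nat_lit 106567024649) (nat_lit 76) (nat_lit 43335307824) (nat_lit 152) (nat_lit 23676774006) (nat_lit 20) (nat_lit 5) (nat_lit 21) (nat_lit 5) (nat_lit 22) (nat_lit 4) (nat_lit 362) (nat_lit 325) (nat_lit 213)))) (XT.nd (nat_lit 78) (nat_lit 76) (nat_lit 0) (XT.lf (nat_lit 0) (nat_lit 23080401934) (nat_lit 152) (nat_lit 143861787141) (nat_lit 76) (nat_lit 17395420160) (nat_lit 18) (nat_lit 5) (nat_lit 20) (nat_lit 5) (nat_lit 19) (nat_lit 4) (nat_lit 363) (nat_lit 325) (nat_lit 212)) (XT.nd (nat_lit 78) (nat_lit 76) (nat_lit 0) (XT.lf (nat_lit 0) (nat_lit 74675216786) (nat_lit 152) (nat_lit 38094784191) (nat_lit 76) (nat_lit 83071055573) (nat_lit 18) (nat_lit 5) (nat_lit 20) (nat_lit 5) (nat_lit 19) (nat_lit 4) (nat_lit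 364) (nat_lit 325) (nat_lit 211)) (XT.lf (nat_lit 0) (nat_lit 78648016687) (nat_lit 76) (nat_lit 52975977174) (nat_lit 152) (nat_lit 76579467599) (nat_lit 17) (nat_lit 5) (nat_lit 18) (nat_lit 5) (nat_lit 19) (nat_lit 4) (nat_lit 365) (nat_lit 325) (nat_lit 210))))) (XT.nd (nat_lit 234) (nat_lit 152) (nat_lit 0) (XT.nd (nat_lit 78) (nat_lit 152) (nat_lit 0) (XT.lf (nat_lit 0) (nat_lit 193982785775) (nat_lit 152) (nat_lit 15625820738) (nat_lit 0) (nat_lit 11903547227) (nat_lit 17) (nat_lit 5) (nat_lit 19) (nat_lit 4) (nat_lit 17) (nat_lit 4) (nat_lit 366) (nat_lit 325) (nat_lit 209)) (XT.nd (nat_lit 78) (nat_lit 0) (nat_lit 0) (XT.lf (nat_lit 0) (nat_lit 27283134696) (nat_lit 152) (nat_lit 126150602319) (nat_lit 76) (nat_lit 82299302461) (nat_lit 15) (nat_lit 5) (nat_lit 17) (nat_lit 5) (nat_lit 16) (nat_lit 4) (nat_lit 367) (nat_lit 325) (nat_lit 208)) (XT.lf (nat_lit 0) (nat_lit 85804357689)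 (nat_lit 152) (nat_lit 6183752499) (nat_lit 76) (nat_lit 159066510575) (nat_lit 15) (nat_lit 5) (nat_lit 17) (nat_lit 5) (nat_lit 16) (nat_lit 4) (nat_lit 368) (nat_lit 325) (nat_lit 207)))) (XT.nd (nat_lit 78) (nat_lit 76) (nat_lit 0) (XT.lf (nat_lit 0) (nat_lit 127457609689) (nat_lit 76) (nat_lit 23538404945) (nat_lit 152) (nat_lit 116506477573) (nat_lit 14) (nat_lit 5) (nat_lit 15) (nat_lit 5) (nat_lit 16) (nat_lit 4) (nat_lit 369) (nat_lit 325) (nat_lit 206)) (XT.nd (nat_lit 78) (nat_lit 76) (nat_lit 0) (XT.lf (nat_lit 0) (nat_lit 222297981049) (nat_lit 152) (nat_lit 14040379227) (nat_lit 0) (nat_lit 48883084675) (nat_lit 14) (nat_lit 5) (nat_lit 16) (nat_lit 4) (nat_lit 14) (nat_lit 4) (nat_lit 370) (nat_lit 325) (nat_lit 205)) (XT.lf (nat_lit 0) (nat_lit 125667678880) (nat_lit 76) (nat_lit 175994246869) (nat_lit 76) (nat_lit 2578097514) (nat_lit 13) (nat_lit 4) (nat_lit 14) (nat_lit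 5) (nat_lit 14) (nat_lit 4) (nat_lit 371) (nat_lit 325) (nat_lit 204))))))) (XT.nd (nat_lit 858) (nat_lit 152) (nat_lit 0) (XT.nd (nat_lit 390) (nat_lit 228) (nat_lit 0) (XT.nd (nat_lit 156) (nat_lit 76) (nat_lit 0) (XT.nd (nat_lit 78) (nat_lit 76) (nat_lit 0) (XT.lf (nat_lit 0) (nat_lit 60838983585) (nat_lit 152) (nat_lit 48697393171) (nat_lit 76) (nat_lit 215182471692) (nat_lit 12) (nat_lit 5) (nat_lit 14) (nat_lit 5) (nat_lit 13) (nat_lit 4) (nat_lit 372) (nat_lit 325) (nat_lit 203)) (XT.lf (nat_lit 0) (nat_lit 94548367313) (nat_lit 76) (nat_lit 36167121010) (nat_lit 152) (nat_lit 216044559397) (nat_lit 11) (nat_lit 5) (nat_lit 12) (nat_lit 5) (nat_lit 13) (nat_lit 4) (nat_lit 373) (nat_lit 325) (nat_lit 202))) (XT.nd (nat_lit 78) (nat_lit 76) (nat_lit 0) (XT.lf (nat_lit 0) (nat_lit 207715807793) (nat_lit 152) (nat_lit 120217555698) (nat_lit 0) (nat_lit 42554495025) (nat_lit 11) (nat_lit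 5) (nat_lit 13) (nat_lit 4) (nat_lit 11) (nat_lit 4) (nat_lit 374) (nat_lit 325) (nat_lit 201)) (XT.nd (nat_lit 78) (nat_lit 0) (nat_lit 0) (XT.lf (nat_lit 0) (nat_lit 22442894220) (nat_lit 76) (nat_lit 269392611246) (nat_lit 76) (nat_lit 104230421355) (nat_lit 10) (nat_lit 4) (nat_lit 11) (nat_lit 5) (nat_lit 11) (nat_lit 4) (nat_lit 375) (nat_lit 325) (nat_lit 200)) (XT.lf (nat_lit 0) (nat_lit 180807509195) (nat_lit 76) (nat_lit 203970535211) (nat_lit 76) (nat_lit 38807533170) (nat_lit 10) (nat_lit 4) (nat_lit 11) (nat_lit 5) (nat_lit 11) (nat_lit 4) (nat_lit 376) (nat_lit 325) (nat_lit 199))))) (XT.nd (nat_lit 234) (nat_lit 76) (nat_lit 0) (XT.nd (nat_lit 78) (nat_lit 76) (nat_lit 0) (XT.lf (nat_lit 0) (nat_lit 30829016047) (nat_lit 152) (nat_lit 101964271134) (nat_lit 76) (nat_lit 320488690542) (nat_lit 9) (nat_lit 5) (nat_lit 11) (nat_lit 5) (nat_lit 10) (nat_lit 4) (nat_lit 377) (nat_lit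 325) (nat_lit 198)) (XT.nd (nat_lit 78) (nat_lit 0) (nat_lit 0) (XT.lf (nat_lit 0) (nat_lit 51094200213) (nat_lit 76) (nat_lit 54397824436) (nat_lit 152) (nat_lit 379789497871) (nat_lit 8) (nat_lit 5) (nat_lit 9) (nat_lit 5) (nat_lit 10) (nat_lit 4) (nat_lit 378) (nat_lit 325) (nat_lit 197)) (XT.lf (nat_lit 0) (nat_lit 188405217041) (nat_lit 152) (nat_lit 300216830363) (nat_lit 0) (nat_lit 31105126536) (nat_lit 8) (nat_lit 5) (nat_lit 10) (nat_lit 4) (nat_lit 8) (nat_lit 4) (nat_lit 379) (nat_lit 325) (nat_lit 196)))) (XT.nd (nat_lit 78) (nat_lit 76) (nat_lit 0) (XT.lf (nat_lit 0) (nat_lit 278868050234) (nat_lit 152) (nat_lit 156447206947) (nat_lit 0) (nat_lit 121567391202) (nat_lit 8) (nat_lit 5) (nat_lit 10) (nat_lit 4) (nat_lit 8) (nat_lit 4) (nat_lit 380) (nat_lit 325) (nat_lit 195)) (XT.nd (nat_lit 78) (nat_lit 76) (nat_lit 0) (XT.lf (nat_lit 0) (nat_lit 376567297790) (nat_lit 152)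 (nat_lit 1177181431) (nat_lit 0) (nat_lit 219266112342) (nat_lit 8) (nat_lit 5) (nat_lit 10) (nat_lit 4) (nat_lit 8) (nat_lit 4) (nat_lit 381) (nat_lit 325) (nat_lit 194)) (XT.lf (nat_lit 0) (nat_lit 172019048690) (nat_lit 76) (nat_lit 312748568953) (nat_lit 76) (nat_lit 155446896084) (nat_lit 7) (nat_lit 4) (nat_lit 8) (nat_lit 5) (nat_lit 8) (nat_lit 4) (nat_lit 382) (nat_lit 325) (nat_lit 193)))))) (XT.nd (nat_lit 42432) (nat_lit 0) (nat_lit 6536) (XT.nd (nat_lit 234) (nat_lit 76) (nat_lit 0) (XT.nd (nat_lit 78) (nat_lit 76) (nat_lit 0) (XT.lf (nat_lit 0) (nat_lit 359111979710) (nat_lit 76) (nat_lit 242531948025) (nat_lit 76) (nat_lit 85229823840) (nat_lit 7) (nat_lit 4) (nat_lit 8) (nat_lit 5) (nat_lit 8) (nat_lit 4) (nat_lit 383) (nat_lit 325) (nat_lit 192)) (XT.nd (nat_lit 78) (nat_lit 76) (nat_lit 0) (XT.lf (nat_lit 0) (nat_lit 561171387543) (nat_lit 76) (nat_lit 166698454079) (nat_lit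 76) (nat_lit 9395912010) (nat_lit 7) (nat_lit 4) (nat_lit 8) (nat_lit 5) (nat_lit 8) (nat_lit 4) (nat_lit 384) (nat_lit 325) (nat_lit 191)) (XT.lf (nat_lit 0) (nat_lit 70183637535) (nat_lit 152) (nat_lit 13426472053) (nat_lit 76) (nat_lit 708022429877) (nat_lit 6) (nat_lit 5) (nat_lit 8) (nat_lit 5) (nat_lit 7) (nat_lit 4) (nat_lit 385) (nat_lit 325) (nat_lit 190)))) (XT.nd (nat_lit 78) (nat_lit 0) (nat_lit 0) (XT.lf (nat_lit 0) (nat_lit 158559857107) (nat_lit 152) (nat_lit 682895932380) (nat_lit 0) (nat_lit 8747202565) (nat_lit 5) (nat_lit 5) (nat_lit 7) (nat_lit 4) (nat_lit 5) (nat_lit 4) (nat_lit 386) (nat_lit 325) (nat_lit 189)) (XT.nd (nat_lit 78) (nat_lit 0) (nat_lit 0) (XT.lf (nat_lit 0) (nat_lit 255653285220) (nat_lit 152) (nat_lit 551883125434) (nat_lit 0) (nat_lit 105840314744) (nat_lit 5) (nat_lit 5) (nat_lit 7) (nat_lit 4) (nat_lit 5) (nat_lit 4) (nat_lit 387) (nat_lit 325)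 (nat_lit 188)) (XT.lf (nat_lit 0) (nat_lit 360513796110) (nat_lit 152) (nat_lit 410390047865) (nat_lit 0) (nat_lit 210700533102) (nat_lit 5) (nat_lit 5) (nat_lit 7) (nat_lit 4) (nat_lit 5) (nat_lit 4) (nat_lit 388) (nat_lit 325) (nat_lit 187))))) (XT.nd (nat_lit 234) (nat_lit 684) (nat_lit 0) (XT.nd (nat_lit 78) (nat_lit 0) (nat_lit 0) (XT.lf (nat_lit 0) (nat_lit 7185200190) (nat_lit 0) (nat_lit 7185200190) (nat_lit 684) (nat_lit 747445809) (nat_lit 100) (nat_lit 5) (nat_lit 100) (nat_lit 3) (nat_lit 109) (nat_lit 3) (nat_lit 326) (nat_lit 326) (nat_lit 248)) (XT.nd (nat_lit 78) (nat_lit 0) (nat_lit 0) (XT.lf (nat_lit 76) (nat_lit 6659440299) (nat_lit 0) (nat_lit 23566496800) (nat_lit 760) (nat_lit 1202244092) (nat_lit 101) (nat_lit 5) (nat_lit 100) (nat_lit 5) (nat_lit 110) (nat_lit 5) (nat_lit 327) (nat_lit 326) (nat_lit 247)) (XT.lf (nat_lit 76) (nat_lit 31296220947) (nat_lit 0) (nat_lit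 1037770709) (nat_lit 760) (nat_lit 356888462) (nat_lit 101) (nat_lit 5) (nat_lit 100) (nat_lit 5) (nat_lit 110) (nat_lit 5) (nat_lit 328) (nat_lit 326) (nat_lit 246)))) (XT.nd (nat_lit 78) (nat_lit 0) (nat_lit 76) (XT.lf (nat_lit 0) (nat_lit 1282860708) (nat_lit 760) (nat_lit 9782931343) (nat_lit 836) (nat_lit 22951155057) (nat_lit 91) (nat_lit 5) (nat_lit 101) (nat_lit 5) (nat_lit 102) (nat_lit 5) (nat_lit 329) (nat_lit 326) (nat_lit 245)) (XT.nd (nat_lit 78) (nat_lit 0) (nat_lit 76) (XT.lf (nat_lit 0) (nat_lit 3553922703) (nat_lit 760) (nat_lit 18617880749) (nat_lit 836) (nat_lit 13251385015) (nat_lit 92) (nat_lit 5) (nat_lit 102) (nat_lit 5) (nat_lit 103) (nat_lit 5) (nat_lit 330) (nat_lit 326) (nat_lit 244)) (XT.lf (nat_lit 0) (nat_lit 6538260828) (nat_lit 760) (nat_lit 27927223724) (nat_lit 836) (nat_lit 2449877406) (nat_lit 93) (nat_lit 5) (nat_lit 103) (nat_lit 5) (nat_lit 104) (nat_lit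 5) (nat_lit 331) (nat_lit 326) (nat_lit 243))))))))
noncomputable def xc92 : XT := (XT.nd (nat_lit 1716) (nat_lit 1748) (nat_lit 0) (XT.nd (nat_lit 858) (nat_lit 1672) (nat_lit 0) (XT.nd (nat_lit 390) (nat_lit 1596) (nat_lit 0) (XT.nd (nat_lit 156) (nat_lit 1292) (nat_lit 0) (XT.nd (nat_lit 78) (nat_lit 0) (nat_lit 76) (XT.lf (nat_lit 76) (nat_lit 589786127) (nat_lit 0) (nat_lit 9876133187) (nat_lit 836) (nat_lit 28025772811) (nat_lit 94) (nat_lit 5) (nat_lit 93) (nat_lit 5) (nat_lit 104) (nat_lit 5) (nat_lit 332) (nat_lit 326) (nat_lit 242)) (XT.lf (nat_lit 0) (nat_lit 15455067188) (nat_lit 760) (nat_lit 8059598080) (nat_lit 76) (nat_lit 16642110215) (nat_lit 94) (nat_lit 5) (nat_lit 104) (nat_lit 5) (nat_lit 95) (nat_lit 5) (nat_lit 333) (nat_lit 326) (nat_lit 241))) (XT.nd (nat_lit 78) (nat_lit 684) (nat_lit 0) (XT.lf (nat_lit 0) (nat_lit 21442988406) (nat_lit 760) (nat_lit 17190136629)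 (nat_lit 76) (nat_lit 3291968226) (nat_lit 85) (nat_lit 5) (nat_lit 95) (nat_lit 5) (nat_lit 86) (nat_lit 5) (nat_lit 334) (nat_lit 326) (nat_lit 240)) (XT.nd (nat_lit 78) (nat_lit 304) (nat_lit 0) (XT.lf (nat_lit 0) (nat_lit 16743738368) (nat_lit 380) (nat_lit 11960215387) (nat_lit 456) (nat_lit 15091231285) (nat_lit 80) (nat_lit 5) (nat_lit 85) (nat_lit 5) (nat_lit 86) (nat_lit 5) (nat_lit 335) (nat_lit 326) (nat_lit 239)) (XT.lf (nat_lit 0) (nat_lit 8194168375) (nat_lit 304) (nat_lit 29040727425) (nat_lit 380) (nat_lit 8545541813) (nat_lit 76) (nat_lit 5) (nat_lit 80) (nat_lit 5) (nat_lit 81) (nat_lit 5) (nat_lit 336) (nat_lit 326) (nat_lit 238))))) (XT.nd (nat_lit 234) (nat_lit 912) (nat_lit 0) (XT.nd (nat_lit 78) (nat_lit 684) (nat_lit 0) (XT.lf (nat_lit 0) (nat_lit 47010940016) (nat_lit 304) (nat_lit 101167989) (nat_lit 380) (nat_lit 779220449) (nat_lit 76) (nat_lit 5) (nat_lit 80)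 (nat_lit 5) (nat_lit 81) (nat_lit 5) (nat_lit 337) (nat_lit 326) (nat_lit 237)) (XT.nd (nat_lit 78) (nat_lit 304) (nat_lit 0) (XT.lf (nat_lit 0) (nat_lit 8481118839) (nat_lit 380) (nat_lit 10718013489) (nat_lit 76) (nat_lit 30910214247) (nat_lit 71) (nat_lit 5) (nat_lit 76) (nat_lit 5) (nat_lit 72) (nat_lit 5) (nat_lit 338) (nat_lit 326) (nat_lit 236)) (XT.lf (nat_lit 0) (nat_lit 19151830782) (nat_lit 380) (nat_lit 21277162900) (nat_lit 76) (nat_lit 12040337851) (nat_lit 67) (nat_lit 5) (nat_lit 72) (nat_lit 5) (nat_lit 68) (nat_lit 5) (nat_lit 339) (nat_lit 326) (nat_lit 235)))) (XT.nd (nat_lit 78) (nat_lit 608) (nat_lit 0) (XT.lf (nat_lit 0) (nat_lit 22207227478) (nat_lit 304) (nat_lit 9324276213) (nat_lit 380) (nat_lit 23443852292) (nat_lit 63) (nat_lit 5) (nat_lit 67) (nat_lit 5) (nat_lit 68) (nat_lit 5) (nat_lit 340) (nat_lit 326) (nat_lit 234)) (XT.nd (nat_lit 78) (nat_lit 380) (nat_lit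 0) (XT.lf (nat_lit 0) (nat_lit 12268695931) (nat_lit 228) (nat_lit 33575371313) (nat_lit 304) (nat_lit 11790674766) (nat_lit 60) (nat_lit 5) (nat_lit 63) (nat_lit 5) (nat_lit 64) (nat_lit 5) (nat_lit 341) (nat_lit 326) (nat_lit 233)) (XT.lf (nat_lit 0) (nat_lit 1462344198) (nat_lit 304) (nat_lit 62721769) (nat_lit 380) (nat_lit 58943410040) (nat_lit 55) (nat_lit 5) (nat_lit 59) (nat_lit 5) (nat_lit 60) (nat_lit 5) (nat_lit 342) (nat_lit 326) (nat_lit 232)))))) (XT.nd (nat_lit 390) (nat_lit 760) (nat_lit 0) (XT.nd (nat_lit 156) (nat_lit 684) (nat_lit 0) (XT.nd (nat_lit 78) (nat_lit 228) (nat_lit 0) (XT.lf (nat_lit 0) (nat_lit 16861567024) (nat_lit 380) (nat_lit 10613939207) (nat_lit 76) (nat_lit 35975313020) (nat_lit 55) (nat_lit 5) (nat_lit 60) (nat_lit 5) (nat_lit 56) (nat_lit 5) (nat_lit 343) (nat_lit 326) (nat_lit 231)) (XT.lf (nat_lit 0) (nat_lit 34233151895) (nat_lit 304) (nat_lit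 23757455950) (nat_lit 76) (nat_lit 8640738052) (nat_lit 52) (nat_lit 5) (nat_lit 56) (nat_lit 5) (nat_lit 53) (nat_lit 5) (nat_lit 344) (nat_lit 326) (nat_lit 230))) (XT.nd (nat_lit 78) (nat_lit 456) (nat_lit 0) (XT.lf (nat_lit 0) (nat_lit 31499350955) (nat_lit 228) (nat_lit 22634376706) (nat_lit 304) (nat_lit 15875627631) (nat_lit 49) (nat_lit 5) (nat_lit 52) (nat_lit 5) (nat_lit 53) (nat_lit 5) (nat_lit 345) (nat_lit 326) (nat_lit 229)) (XT.nd (nat_lit 78) (nat_lit 228) (nat_lit 0) (XT.lf (nat_lit 0) (nat_lit 2873665231) (nat_lit 228) (nat_lit 54923311098) (nat_lit 76) (nat_lit 15810698936) (nat_lit 46) (nat_lit 5) (nat_lit 49) (nat_lit 5) (nat_lit 47) (nat_lit 5) (nat_lit 346) (nat_lit 326) (nat_lit 228)) (XT.lf (nat_lit 0) (nat_lit 3826231858) (nat_lit 228) (nat_lit 19867682310) (nat_lit 304) (nat_lit 53730576115) (nat_lit 43) (nat_lit 5) (nat_lit 46) (nat_lit 5) (nat_lit 47) (nat_lit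 5) (nat_lit 347) (nat_lit 326) (nat_lit 227))))) (XT.nd (nat_lit 234) (nat_lit 380) (nat_lit 0) (XT.nd (nat_lit 78) (nat_lit 380) (nat_lit 0) (XT.lf (nat_lit 0) (nat_lit 47478287210) (nat_lit 304) (nat_lit 12611783313) (nat_lit 76) (nat_lit 21391657660) (nat_lit 43) (nat_lit 5) (nat_lit 47) (nat_lit 5) (nat_lit 44) (nat_lit 5) (nat_lit 348) (nat_lit 326) (nat_lit 226)) (XT.nd (nat_lit 78) (nat_lit 228) (nat_lit 0) (XT.lf (nat_lit 0) (nat_lit 54663597412) (nat_lit 152) (nat_lit 19687237166) (nat_lit 228) (nat_lit 11453441989) (nat_lit 41) (nat_lit 5) (nat_lit 43) (nat_lit 5) (nat_lit 44) (nat_lit 5) (nat_lit 349) (nat_lit 326) (nat_lit 225)) (XT.lf (nat_lit 0) (nat_lit 13697054030) (nat_lit 228) (nat_lit 52485333773) (nat_lit 76) (nat_lit 24219702911) (nat_lit 38) (nat_lit 5) (nat_lit 41) (nat_lit 5) (nat_lit 39) (nat_lit 5) (nat_lit 350) (nat_lit 326) (nat_lit 224)))) (XT.nd (nat_lit 78)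 (nat_lit 228) (nat_lit 0) (XT.lf (nat_lit 0) (nat_lit 18318110686) (nat_lit 152) (nat_lit 23312073798) (nat_lit 228) (nat_lit 53669566249) (nat_lit 36) (nat_lit 5) (nat_lit 38) (nat_lit 5) (nat_lit 39) (nat_lit 5) (nat_lit 351) (nat_lit 326) (nat_lit 223)) (XT.nd (nat_lit 78) (nat_lit 228) (nat_lit 0) (XT.lf (nat_lit 0) (nat_lit 73083436183) (nat_lit 228) (nat_lit 4261663489) (nat_lit 76) (nat_lit 23179852363) (nat_lit 36) (nat_lit 5) (nat_lit 39) (nat_lit 5) (nat_lit 37) (nat_lit 5) (nat_lit 352) (nat_lit 326) (nat_lit 222)) (XT.lf (nat_lit 0) (nat_lit 2464589982) (nat_lit 228) (nat_lit 29807223256) (nat_lit 76) (nat_lit 73815260801) (nat_lit 33) (nat_lit 5) (nat_lit 36) (nat_lit 5) (nat_lit 34) (nat_lit 5) (nat_lit 353) (nat_lit 326) (nat_lit 221))))))) (XT.nd (nat_lit 858) (nat_lit 608) (nat_lit 0) (XT.nd (nat_lit 390) (nat_lit 532) (nat_lit 0) (XT.nd (nat_lit 156) (nat_lit 304) (nat_lit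 0) (XT.nd (nat_lit 78) (nat_lit 152) (nat_lit 0) (XT.lf (nat_lit 0) (nat_lit 34986383020) (nat_lit 228) (nat_lit 59764588910) (nat_lit 76) (nat_lit 17261471693) (nat_lit 31) (nat_lit 5) (nat_lit 34) (nat_lit 5) (nat_lit 32) (nat_lit 5) (nat_lit 354) (nat_lit 326) (nat_lit 220)) (XT.lf (nat_lit 0) (nat_lit 23749487473) (nat_lit 152) (nat_lit 47800820639) (nat_lit 228) (nat_lit 46789516760) (nat_lit 29) (nat_lit 5) (nat_lit 31) (nat_lit 5) (nat_lit 32) (nat_lit 5) (nat_lit 355) (nat_lit 326) (nat_lit 219))) (XT.nd (nat_lit 78) (nat_lit 304) (nat_lit 0) (XT.lf (nat_lit 0) (nat_lit 112140621592) (nat_lit 228) (nat_lit 9108662241) (nat_lit 76) (nat_lit 3869050484) (nat_lit 29) (nat_lit 5) (nat_lit 32) (nat_lit 5) (nat_lit 30) (nat_lit 4) (nat_lit 356) (nat_lit 326) (nat_lit 218)) (XT.nd (nat_lit 78) (nat_lit 152) (nat_lit 0) (XT.lf (nat_lit 0) (nat_lit 24953631126) (nat_lit 152) (nat_lit 47608307960)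 (nat_lit 76) (nat_lit 59750411583) (nat_lit 27) (nat_lit 5) (nat_lit 29) (nat_lit 5) (nat_lit 28) (nat_lit 5) (nat_lit 357) (nat_lit 326) (nat_lit 217)) (XT.lf (nat_lit 0) (nat_lit 47570817592) (nat_lit 152) (nat_lit 18802066885) (nat_lit 228) (nat_lit 73652963649) (nat_lit 25) (nat_lit 5) (nat_lit 27) (nat_lit 5) (nat_lit 28) (nat_lit 5) (nat_lit 358) (nat_lit 326) (nat_lit 216))))) (XT.nd (nat_lit 234) (nat_lit 228) (nat_lit 0) (XT.nd (nat_lit 78) (nat_lit 228) (nat_lit 0) (XT.lf (nat_lit 0) (nat_lit 3222684801) (nat_lit 76) (nat_lit 109387238660) (nat_lit 152) (nat_lit 35671290720) (nat_lit 24) (nat_lit 5) (nat_lit 25) (nat_lit 5) (nat_lit 26) (nat_lit 4) (nat_lit 359) (nat_lit 326) (nat_lit 215)) (XT.nd (nat_lit 78) (nat_lit 152) (nat_lit 0) (XT.lf (nat_lit 0) (nat_lit 7129816598) (nat_lit 152) (nat_lit 47690515532) (nat_lit 76) (nat_lit 102274897795) (nat_lit 23) (nat_lit 5) (nat_lit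 25) (nat_lit 5) (nat_lit 24) (nat_lit 5) (nat_lit 360) (nat_lit 326) (nat_lit 214)) (XT.lf (nat_lit 0) (nat_lit 53126472661) (nat_lit 228) (nat_lit 107885008040) (nat_lit 76) (nat_lit 5522587914) (nat_lit 21) (nat_lit 5) (nat_lit 24) (nat_lit 5) (nat_lit 22) (nat_lit 4) (nat_lit 361) (nat_lit 326) (nat_lit 213)))) (XT.nd (nat_lit 78) (nat_lit 228) (nat_lit 0) (XT.lf (nat_lit 0) (nat_lit 104569941487) (nat_lit 228) (nat_lit 2428581687) (nat_lit 76) (nat_lit 69641138024) (nat_lit 21) (nat_lit 5) (nat_lit 24) (nat_lit 5) (nat_lit 22) (nat_lit 4) (nat_lit 362) (nat_lit 326) (nat_lit 212)) (XT.nd (nat_lit 78) (nat_lit 152) (nat_lit 0) (XT.lf (nat_lit 0) (nat_lit 115147070921) (nat_lit 76) (nat_lit 46778060068) (nat_lit 152) (nat_lit 25538758790) (nat_lit 20) (nat_lit 5) (nat_lit 21) (nat_lit 5) (nat_lit 22) (nat_lit 4) (nat_lit 363) (nat_lit 326) (nat_lit 211)) (XT.lf (nat_lit 0) (nat_lit 24956857738)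 (nat_lit 152) (nat_lit 155316298150) (nat_lit 76) (nat_lit 18809948008) (nat_lit 18) (nat_lit 5) (nat_lit 20) (nat_lit 5) (nat_lit 19) (nat_lit 4) (nat_lit 364) (nat_lit 326) (nat_lit 210)))))) (XT.nd (nat_lit 468) (nat_lit 304) (nat_lit 0) (XT.nd (nat_lit 234) (nat_lit 228) (nat_lit 0) (XT.nd (nat_lit 78) (nat_lit 76) (nat_lit 0) (XT.lf (nat_lit 0) (nat_lit 80677033803) (nat_lit 152) (nat_lit 41091966961) (nat_lit 76) (nat_lit 89737938385) (nat_lit 18) (nat_lit 5) (nat_lit 20) (nat_lit 5) (nat_lit 19) (nat_lit 4) (nat_lit 365) (nat_lit 326) (nat_lit 209)) (XT.nd (nat_lit 78) (nat_lit 0) (nat_lit 0) (XT.lf (nat_lit 0) (nat_lit 84988067666) (nat_lit 76) (nat_lit 57192338831) (nat_lit 152) (nat_lit 82677996167) (nat_lit 17) (nat_lit 5) (nat_lit 18) (nat_lit 5) (nat_lit 19) (nat_lit 4) (nat_lit 366) (nat_lit 326) (nat_lit 208)) (XT.lf (nat_lit 0) (nat_lit 209526253251) (nat_lit 152) (nat_lit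 16830325007) (nat_lit 0) (nat_lit 12875295313) (nat_lit 17) (nat_lit 5) (nat_lit 19) (nat_lit 4) (nat_lit 17) (nat_lit 4) (nat_lit 367) (nat_lit 326) (nat_lit 207)))) (XT.nd (nat_lit 78) (nat_lit 76) (nat_lit 0) (XT.lf (nat_lit 0) (nat_lit 29489867620) (nat_lit 152) (nat_lit 136198263865) (nat_lit 76) (nat_lit 88902338014) (nat_lit 15) (nat_lit 5) (nat_lit 17) (nat_lit 5) (nat_lit 16) (nat_lit 4) (nat_lit 368) (nat_lit 326) (nat_lit 206)) (XT.nd (nat_lit 78) (nat_lit 76) (nat_lit 0) (XT.lf (nat_lit 0) (nat_lit 92691004590) (nat_lit 152) (nat_lit 6637353958) (nat_lit 76) (nat_lit 171809508603) (nat_lit 15) (nat_lit 5) (nat_lit 17) (nat_lit 5) (nat_lit 16) (nat_lit 4) (nat_lit 369) (nat_lit 326) (nat_lit 205)) (XT.lf (nat_lit 0) (nat_lit 137693531104) (nat_lit 76) (nat_lit 25403425043) (nat_lit 152) (nat_lit 125804664681) (nat_lit 14) (nat_lit 5) (nat_lit 15) (nat_lit 5) (nat_lit 16) (nat_lit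 4) (nat_lit 370) (nat_lit 326) (nat_lit 204))))) (XT.nd (nat_lit 234) (nat_lit 152) (nat_lit 0) (XT.nd (nat_lit 78) (nat_lit 152) (nat_lit 0) (XT.lf (nat_lit 0) (nat_lit 240101766004) (nat_lit 152) (nat_lit 15126478501) (nat_lit 0) (nat_lit 52809911553) (nat_lit 14) (nat_lit 5) (nat_lit 16) (nat_lit 4) (nat_lit 14) (nat_lit 4) (nat_lit 371) (nat_lit 326) (nat_lit 203)) (XT.nd (nat_lit 78) (nat_lit 76) (nat_lit 0) (XT.lf (nat_lit 0) (nat_lit 135756610584) (nat_lit 76) (nat_lit 190057292705) (nat_lit 76) (nat_lit 2764364026) (nat_lit 13) (nat_lit 4) (nat_lit 14) (nat_lit 5) (nat_lit 14) (nat_lit 4) (nat_lit 372) (nat_lit 326) (nat_lit 202)) (XT.lf (nat_lit 0) (nat_lit 65724011312) (nat_lit 152) (nat_lit 52559700144) (nat_lit 76) (nat_lit 232411743564) (nat_lit 12) (nat_lit 5) (nat_lit 14) (nat_lit 5) (nat_lit 13) (nat_lit 4) (nat_lit 373) (nat_lit 326) (nat_lit 201)))) (XT.nd (nat_lit 78)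 (nat_lit 76) (nat_lit 0) (XT.lf (nat_lit 0) (nat_lit 102144265984) (nat_lit 76) (nat_lit 39045543917) (nat_lit 152) (nat_lit 233310182094) (nat_lit 11) (nat_lit 5) (nat_lit 12) (nat_lit 5) (nat_lit 13) (nat_lit 4) (nat_lit 374) (nat_lit 326) (nat_lit 200)) (XT.nd (nat_lit 78) (nat_lit 76) (nat_lit 0) (XT.lf (nat_lit 0) (nat_lit 224349105633) (nat_lit 152) (nat_lit 129804723609) (nat_lit 0) (nat_lit 45972251279) (nat_lit 11) (nat_lit 5) (nat_lit 13) (nat_lit 4) (nat_lit 11) (nat_lit 4) (nat_lit 375) (nat_lit 326) (nat_lit 199)) (XT.lf (nat_lit 0) (nat_lit 24267248259) (nat_lit 76) (nat_lit 290930394775) (nat_lit 76) (nat_lit 112552788431) (nat_lit 10) (nat_lit 4) (nat_lit 11) (nat_lit 5) (nat_lit 11) (nat_lit 4) (nat_lit 376) (nat_lit 326) (nat_lit 198))))))))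
noncomputable def xc93 : XT := (XT.nd (nat_lit 43836) (nat_lit 0) (nat_lit 1444) (XT.nd (nat_lit 858) (nat_lit 0) (nat_lit 0) (XT.nd (nat_lit 390) (nat_lit 228) (nat_lit 0) (XT.nd (nat_lit 156) (nat_lit 76) (nat_lit 0) (XT.nd (nat_lit 78) (nat_lit 76) (nat_lit 0) (XT.lf (nat_lit 0) (nat_lit 195298890025) (nat_lit 76) (nat_lit 220275561944) (nat_lit 76) (nat_lit 41897259312) (nat_lit 10) (nat_lit 4) (nat_lit 11) (nat_lit 5) (nat_lit 11) (nat_lit 4) (nat_lit 377) (nat_lit 326) (nat_lit 197)) (XT.lf (nat_lit 0) (nat_lit 33308671007) (nat_lit 152) (nat_lit 110096171777) (nat_lit 76) (nat_lit 346139022680) (nat_lit 9) (nat_lit 5) (nat_lit 11) (nat_lit 5) (nat_lit 10) (nat_lit 4) (nat_lit 378) (nat_lit 326) (nat_lit 196))) (XT.nd (nat_lit 78) (nat_lit 0) (nat_lit 0) (XT.lf (nat_lit 0) (nat_lit 55205880332) (nat_lit 76) (nat_lit 58738229242) (nat_lit 152) (nat_lit 410159295087) (nat_lit 8) (nat_lit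 5) (nat_lit 9) (nat_lit 5) (nat_lit 10) (nat_lit 4) (nat_lit 379) (nat_lit 326) (nat_lit 195)) (XT.nd (nat_lit 78) (nat_lit 0) (nat_lit 0) (XT.lf (nat_lit 0) (nat_lit 203489580025) (nat_lit 152) (nat_lit 324211393972) (nat_lit 0) (nat_lit 33603773326) (nat_lit 8) (nat_lit 5) (nat_lit 10) (nat_lit 4) (nat_lit 8) (nat_lit 4) (nat_lit 380) (nat_lit 326) (nat_lit 194)) (XT.lf (nat_lit 0) (nat_lit 301188555013) (nat_lit 152) (nat_lit 168941888299) (nat_lit 0) (nat_lit 131302260893) (nat_lit 8) (nat_lit 5) (nat_lit 10) (nat_lit 4) (nat_lit 8) (nat_lit 4) (nat_lit 381) (nat_lit 326) (nat_lit 193))))) (XT.nd (nat_lit 234) (nat_lit 152) (nat_lit 0) (XT.nd (nat_lit 78) (nat_lit 76) (nat_lit 0) (XT.lf (nat_lit 0) (nat_lit 406702923057) (nat_lit 152) (nat_lit 1251823350) (nat_lit 0) (nat_lit 236816177621) (nat_lit 8) (nat_lit 5) (nat_lit 10) (nat_lit 4) (nat_lit 8) (nat_lit 4) (nat_lit 382) (nat_lit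 326) (nat_lit 192)) (XT.nd (nat_lit 78) (nat_lit 0) (nat_lit 0) (XT.lf (nat_lit 0) (nat_lit 185799256319) (nat_lit 76) (nat_lit 337759545260) (nat_lit 76) (nat_lit 167872381939) (nat_lit 7) (nat_lit 4) (nat_lit 8) (nat_lit 5) (nat_lit 8) (nat_lit 4) (nat_lit 383) (nat_lit 326) (nat_lit 191)) (XT.lf (nat_lit 0) (nat_lit 387858237840) (nat_lit 76) (nat_lit 261926254599) (nat_lit 76) (nat_lit 92038704347) (nat_lit 7) (nat_lit 4) (nat_lit 8) (nat_lit 5) (nat_lit 8) (nat_lit 4) (nat_lit 384) (nat_lit 326) (nat_lit 190)))) (XT.nd (nat_lit 78) (nat_lit 152) (nat_lit 0) (XT.lf (nat_lit 0) (nat_lit 606081116837) (nat_lit 76) (nat_lit 180026692195) (nat_lit 76) (nat_lit 10138783674) (nat_lit 7) (nat_lit 4) (nat_lit 8) (nat_lit 5) (nat_lit 8) (nat_lit 4) (nat_lit 385) (nat_lit 326) (nat_lit 189)) (XT.nd (nat_lit 78) (nat_lit 76) (nat_lit 0) (XT.lf (nat_lit 0) (nat_lit 75806217056) (nat_lit 152) (nat_lit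 14485495285) (nat_lit 76) (nat_lit 764671033903) (nat_lit 6) (nat_lit 5) (nat_lit 8) (nat_lit 5) (nat_lit 7) (nat_lit 4) (nat_lit 386) (nat_lit 326) (nat_lit 188)) (XT.lf (nat_lit 0) (nat_lit 171252283153) (nat_lit 152) (nat_lit 737512898010) (nat_lit 0) (nat_lit 9453666573) (nat_lit 5) (nat_lit 5) (nat_lit 7) (nat_lit 4) (nat_lit 5) (nat_lit 4) (nat_lit 387) (nat_lit 326) (nat_lit 187)))))) (XT.nd (nat_lit 42510) (nat_lit 0) (nat_lit 5396) (XT.nd (nat_lit 42276) (nat_lit 0) (nat_lit 6536) (XT.nd (nat_lit 42120) (nat_lit 0) (nat_lit 7220) (XT.lf (nat_lit 0) (nat_lit 276112619776) (nat_lit 152) (nat_lit 596020156060) (nat_lit 0) (nat_lit 114313732333) (nat_lit 5) (nat_lit 5) (nat_lit 7) (nat_lit 4) (nat_lit 5) (nat_lit 4) (nat_lit 388) (nat_lit 326) (nat_lit 186)) (XT.nd (nat_lit 78) (nat_lit 0) (nat_lit 0) (XT.lf (nat_lit 0) (nat_lit 7811940354) (nat_lit 0) (nat_lit 7811940354) (nat_lit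 684) (nat_lit 698041031) (nat_lit 100) (nat_lit 5) (nat_lit 100) (nat_lit 3) (nat_lit 109) (nat_lit 3) (nat_lit 327) (nat_lit 327) (nat_lit 246)) (XT.lf (nat_lit 76) (nat_lit 7303320696) (nat_lit 0) (nat_lit 25533236746) (nat_lit 760) (nat_lit 1095955178) (nat_lit 101) (nat_lit 5) (nat_lit 100) (nat_lit 5) (nat_lit 110) (nat_lit 5) (nat_lit 328) (nat_lit 327) (nat_lit 245)))) (XT.nd (nat_lit 78) (nat_lit 684) (nat_lit 0) (XT.lf (nat_lit 76) (nat_lit 33902812301) (nat_lit 0) (nat_lit 1196181442) (nat_lit 760) (nat_lit 197968760) (nat_lit 101) (nat_lit 5) (nat_lit 100) (nat_lit 5) (nat_lit 110) (nat_lit 5) (nat_lit 329) (nat_lit 327) (nat_lit 244)) (XT.nd (nat_lit 78) (nat_lit 0) (nat_lit 76) (XT.lf (nat_lit 0) (nat_lit 1554129300) (nat_lit 760) (nat_lit 10451411685) (nat_lit 836) (nat_lit 24724088382) (nat_lit 91) (nat_lit 5) (nat_lit 101) (nat_lit 5) (nat_lit 102) (nat_lit 5) (nat_lit 330)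 (nat_lit 327) (nat_lit 243)) (XT.lf (nat_lit 0) (nat_lit 3995329522) (nat_lit 760) (nat_lit 19989242065) (nat_lit 836) (nat_lit 14264393676) (nat_lit 92) (nat_lit 5) (nat_lit 102) (nat_lit 5) (nat_lit 103) (nat_lit 5) (nat_lit 331) (nat_lit 327) (nat_lit 242))))) (XT.nd (nat_lit 234) (nat_lit 1292) (nat_lit 0) (XT.nd (nat_lit 78) (nat_lit 0) (nat_lit 0) (XT.lf (nat_lit 0) (nat_lit 7208006222) (nat_lit 760) (nat_lit 30040360330) (nat_lit 836) (nat_lit 2612683070) (nat_lit 93) (nat_lit 5) (nat_lit 103) (nat_lit 5) (nat_lit 104) (nat_lit 5) (nat_lit 332) (nat_lit 327) (nat_lit 241)) (XT.nd (nat_lit 78) (nat_lit 0) (nat_lit 76) (XT.lf (nat_lit 76) (nat_lit 752750002) (nat_lit 0) (nat_lit 10688069530) (nat_lit 836) (nat_lit 30123134901) (nat_lit 94) (nat_lit 5) (nat_lit 93) (nat_lit 5) (nat_lit 104) (nat_lit 5) (nat_lit 333) (nat_lit 327) (nat_lit 240)) (XT.lf (nat_lit 0) (nat_lit 16818588860)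 (nat_lit 760) (nat_lit 8590296371) (nat_lit 76) (nat_lit 17953898949) (nat_lit 94) (nat_lit 5) (nat_lit 104) (nat_lit 5) (nat_lit 95) (nat_lit 5) (nat_lit 334) (nat_lit 327) (nat_lit 239)))) (XT.nd (nat_lit 78) (nat_lit 684) (nat_lit 0) (XT.lf (nat_lit 0) (nat_lit 23277670621) (nat_lit 760) (nat_lit 18449940081) (nat_lit 76) (nat_lit 3545363488) (nat_lit 85) (nat_lit 5) (nat_lit 95) (nat_lit 5) (nat_lit 86) (nat_lit 5) (nat_lit 335) (nat_lit 327) (nat_lit 238)) (XT.nd (nat_lit 78) (nat_lit 304) (nat_lit 0) (XT.lf (nat_lit 0) (nat_lit 18193629448) (nat_lit 380) (nat_lit 12918774453) (nat_lit 456) (nat_lit 16180637051) (nat_lit 80) (nat_lit 5) (nat_lit 85) (nat_lit 5) (nat_lit 86) (nat_lit 5) (nat_lit 336) (nat_lit 327) (nat_lit 237)) (XT.lf (nat_lit 0) (nat_lit 8960830985) (nat_lit 304) (nat_lit 31358393970) (nat_lit 380) (nat_lit 9118229866) (nat_lit 76) (nat_lit 5) (nat_lit 80) (nat_lit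 5) (nat_lit 81) (nat_lit 5) (nat_lit 337) (nat_lit 327) (nat_lit 236))))))) (XT.nd (nat_lit 858) (nat_lit 1444) (nat_lit 0) (XT.nd (nat_lit 390) (nat_lit 1292) (nat_lit 0) (XT.nd (nat_lit 156) (nat_lit 836) (nat_lit 0) (XT.nd (nat_lit 78) (nat_lit 380) (nat_lit 0) (XT.lf (nat_lit 0) (nat_lit 50874712569) (nat_lit 304) (nat_lit 104083975) (nat_lit 380) (nat_lit 738821703) (nat_lit 76) (nat_lit 5) (nat_lit 80) (nat_lit 5) (nat_lit 81) (nat_lit 5) (nat_lit 338) (nat_lit 327) (nat_lit 235)) (XT.lf (nat_lit 0) (nat_lit 9253402874) (nat_lit 380) (nat_lit 11469091521) (nat_lit 76) (nat_lit 33390795113) (nat_lit 71) (nat_lit 5) (nat_lit 76) (nat_lit 5) (nat_lit 72) (nat_lit 5) (nat_lit 339) (nat_lit 327) (nat_lit 234))) (XT.nd (nat_lit 78) (nat_lit 532) (nat_lit 0) (XT.lf (nat_lit 0) (nat_lit 20772620220) (nat_lit 380) (nat_lit 22873274721) (nat_lit 76) (nat_lit 13016444421) (nat_lit 67) (nat_lit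 5) (nat_lit 72) (nat_lit 5) (nat_lit 68) (nat_lit 5) (nat_lit 340) (nat_lit 327) (nat_lit 233)) (XT.nd (nat_lit 78) (nat_lit 228) (nat_lit 0) (XT.lf (nat_lit 0) (nat_lit 24085257596) (nat_lit 304) (nat_lit 10052427168) (nat_lit 380) (nat_lit 25231418007) (nat_lit 63) (nat_lit 5) (nat_lit 67) (nat_lit 5) (nat_lit 68) (nat_lit 5) (nat_lit 341) (nat_lit 327) (nat_lit 232)) (XT.lf (nat_lit 0) (nat_lit 13351064464) (nat_lit 228) (nat_lit 36239823945) (nat_lit 304) (nat_lit 12650576828) (nat_lit 60) (nat_lit 5) (nat_lit 63) (nat_lit 5) (nat_lit 64) (nat_lit 5) (nat_lit 342) (nat_lit 327) (nat_lit 231))))) (XT.nd (nat_lit 234) (nat_lit 684) (nat_lit 0) (XT.nd (nat_lit 78) (nat_lit 228) (nat_lit 0) (XT.lf (nat_lit 0) (nat_lit 1678455839) (nat_lit 304) (nat_lit 44870545) (nat_lit 380) (nat_lit 63578734395) (nat_lit 55) (nat_lit 5) (nat_lit 59) (nat_lit 5) (nat_lit 60) (nat_lit 5) (nat_lit 343) (nat_lit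 327) (nat_lit 230)) (XT.nd (nat_lit 78) (nat_lit 228) (nat_lit 0) (XT.lf (nat_lit 0) (nat_lit 18281429598) (nat_lit 380) (nat_lit 11367998450) (nat_lit 76) (nat_lit 38873835298) (nat_lit 55) (nat_lit 5) (nat_lit 60) (nat_lit 5) (nat_lit 56) (nat_lit 5) (nat_lit 344) (nat_lit 327) (nat_lit 229)) (XT.lf (nat_lit 0) (nat_lit 37039278181) (nat_lit 304) (nat_lit 25564075316) (nat_lit 76) (nat_lit 9355057306) (nat_lit 52) (nat_lit 5) (nat_lit 56) (nat_lit 5) (nat_lit 53) (nat_lit 5) (nat_lit 345) (nat_lit 327) (nat_lit 228)))) (XT.nd (nat_lit 78) (nat_lit 456) (nat_lit 0) (XT.lf (nat_lit 0) (nat_lit 34109192011) (nat_lit 228) (nat_lit 24419113394) (nat_lit 304) (nat_lit 17078540390) (nat_lit 49) (nat_lit 5) (nat_lit 52) (nat_lit 5) (nat_lit 53) (nat_lit 5) (nat_lit 346) (nat_lit 327) (nat_lit 227)) (XT.nd (nat_lit 78) (nat_lit 228) (nat_lit 0) (XT.lf (nat_lit 0) (nat_lit 3165523118) (nat_lit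 228) (nat_lit 59226356583) (nat_lit 76) (nat_lit 17101254964) (nat_lit 46) (nat_lit 5) (nat_lit 49) (nat_lit 5) (nat_lit 47) (nat_lit 5) (nat_lit 347) (nat_lit 327) (nat_lit 226)) (XT.lf (nat_lit 0) (nat_lit 4219202908) (nat_lit 228) (nat_lit 21428955409) (nat_lit 304) (nat_lit 57967302427) (nat_lit 43) (nat_lit 5) (nat_lit 46) (nat_lit 5) (nat_lit 47) (nat_lit 5) (nat_lit 348) (nat_lit 327) (nat_lit 225)))))) (XT.nd (nat_lit 468) (nat_lit 684) (nat_lit 0) (XT.nd (nat_lit 234) (nat_lit 380) (nat_lit 0) (XT.nd (nat_lit 78) (nat_lit 380) (nat_lit 0) (XT.lf (nat_lit 0) (nat_lit 51331337579) (nat_lit 304) (nat_lit 13537927926) (nat_lit 76) (nat_lit 23128213220) (nat_lit 43) (nat_lit 5) (nat_lit 47) (nat_lit 5) (nat_lit 44) (nat_lit 5) (nat_lit 349) (nat_lit 327) (nat_lit 224)) (XT.nd (nat_lit 78) (nat_lit 228) (nat_lit 0) (XT.lf (nat_lit 0) (nat_lit 59115884955) (nat_lit 152) (nat_lit 21234981986)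 (nat_lit 228) (nat_lit 12315108709) (nat_lit 41) (nat_lit 5) (nat_lit 43) (nat_lit 5) (nat_lit 44) (nat_lit 5) (nat_lit 350) (nat_lit 327) (nat_lit 223)) (XT.lf (nat_lit 0) (nat_lit 14843399564) (nat_lit 228) (nat_lit 56604569277) (nat_lit 76) (nat_lit 26183720597) (nat_lit 38) (nat_lit 5) (nat_lit 41) (nat_lit 5) (nat_lit 39) (nat_lit 5) (nat_lit 351) (nat_lit 327) (nat_lit 222)))) (XT.nd (nat_lit 78) (nat_lit 228) (nat_lit 0) (XT.lf (nat_lit 0) (nat_lit 19859691802) (nat_lit 152) (nat_lit 25148930533) (nat_lit 228) (nat_lit 57912670752) (nat_lit 36) (nat_lit 5) (nat_lit 38) (nat_lit 5) (nat_lit 39) (nat_lit 5) (nat_lit 352) (nat_lit 327) (nat_lit 221)) (XT.nd (nat_lit 78) (nat_lit 228) (nat_lit 0) (XT.lf (nat_lit 0) (nat_lit 78974983259) (nat_lit 228) (nat_lit 4530252954) (nat_lit 76) (nat_lit 25059434533) (nat_lit 36) (nat_lit 5) (nat_lit 39) (nat_lit 5) (nat_lit 37) (nat_lit 5) (nat_lit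 353) (nat_lit 327) (nat_lit 220)) (XT.lf (nat_lit 0) (nat_lit 2705115061) (nat_lit 228) (nat_lit 32121138019) (nat_lit 76) (nat_lit 79745589147) (nat_lit 33) (nat_lit 5) (nat_lit 36) (nat_lit 5) (nat_lit 34) (nat_lit 5) (nat_lit 354) (nat_lit 327) (nat_lit 219))))) (XT.nd (nat_lit 234) (nat_lit 380) (nat_lit 0) (XT.nd (nat_lit 78) (nat_lit 152) (nat_lit 0) (XT.lf (nat_lit 0) (nat_lit 37826907182) (nat_lit 228) (nat_lit 64476488182) (nat_lit 76) (nat_lit 18667935440) (nat_lit 31) (nat_lit 5) (nat_lit 34) (nat_lit 5) (nat_lit 32) (nat_lit 5) (nat_lit 355) (nat_lit 327) (nat_lit 218)) (XT.nd (nat_lit 78) (nat_lit 0) (nat_lit 0) (XT.lf (nat_lit 0) (nat_lit 25715704015) (nat_lit 152) (nat_lit 51598194249) (nat_lit 228) (nat_lit 50491108736) (nat_lit 29) (nat_lit 5) (nat_lit 31) (nat_lit 5) (nat_lit 32) (nat_lit 5) (nat_lit 356) (nat_lit 327) (nat_lit 217)) (XT.lf (nat_lit 0) (nat_lit 121148891914)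 (nat_lit 228) (nat_lit 9774536083) (nat_lit 76) (nat_lit 4202498346) (nat_lit 29) (nat_lit 5) (nat_lit 32) (nat_lit 5) (nat_lit 30) (nat_lit 4) (nat_lit 357) (nat_lit 327) (nat_lit 216)))) (XT.nd (nat_lit 78) (nat_lit 228) (nat_lit 0) (XT.lf (nat_lit 0) (nat_lit 26985736656) (nat_lit 152) (nat_lit 51355678406) (nat_lit 76) (nat_lit 64554112019) (nat_lit 27) (nat_lit 5) (nat_lit 29) (nat_lit 5) (nat_lit 28) (nat_lit 5) (nat_lit 358) (nat_lit 327) (nat_lit 215)) (XT.nd (nat_lit 78) (nat_lit 76) (nat_lit 0) (XT.lf (nat_lit 0) (nat_lit 51435113420) (nat_lit 152) (nat_lit 20281679274) (nat_lit 228) (nat_lit 79509400066) (nat_lit 25) (nat_lit 5) (nat_lit 27) (nat_lit 5) (nat_lit 28) (nat_lit 5) (nat_lit 359) (nat_lit 327) (nat_lit 214)) (XT.lf (nat_lit 0) (nat_lit 3537863646) (nat_lit 76) (nat_lit 118113657454) (nat_lit 152) (nat_lit 38490532118) (nat_lit 24) (nat_lit 5) (nat_lit 25) (nat_lit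 5) (nat_lit 26) (nat_lit 4) (nat_lit 360) (nat_lit 327) (nat_lit 213))))))))
noncomputable def xc94 : XT := (XT.nd (nat_lit 1716) (nat_lit 228) (nat_lit 0) (XT.nd (nat_lit 858) (nat_lit 456) (nat_lit 0) (XT.nd (nat_lit 390) (nat_lit 304) (nat_lit 0) (XT.nd (nat_lit 156) (nat_lit 228) (nat_lit 0) (XT.nd (nat_lit 78) (nat_lit 152) (nat_lit 0) (XT.lf (nat_lit 0) (nat_lit 7731089763) (nat_lit 152) (nat_lit 51451604818) (nat_lit 76) (nat_lit 110478593550) (nat_lit 23) (nat_lit 5) (nat_lit 25) (nat_lit 5) (nat_lit 24) (nat_lit 5) (nat_lit 361) (nat_lit 327) (nat_lit 212)) (XT.lf (nat_lit 0) (nat_lit 57406348616) (nat_lit 228) (nat_lit 116462874623) (nat_lit 76) (nat_lit 5986068335) (nat_lit 21) (nat_lit 5) (nat_lit 24) (nat_lit 5) (nat_lit 22) (nat_lit 4) (nat_lit 362) (nat_lit 327) (nat_lit 211))) (XT.nd (nat_lit 78) (nat_lit 228) (nat_lit 0) (XT.lf (nat_lit 0) (nat_lit 112963090641) (nat_lit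 228) (nat_lit 2573855203) (nat_lit 76) (nat_lit 75232497017) (nat_lit 21) (nat_lit 5) (nat_lit 24) (nat_lit 5) (nat_lit 22) (nat_lit 4) (nat_lit 363) (nat_lit 327) (nat_lit 210)) (XT.nd (nat_lit 78) (nat_lit 152) (nat_lit 0) (XT.lf (nat_lit 0) (nat_lit 124405719567) (nat_lit 76) (nat_lit 50499666685) (nat_lit 152) (nat_lit 27554289931) (nat_lit 20) (nat_lit 5) (nat_lit 21) (nat_lit 5) (nat_lit 22) (nat_lit 4) (nat_lit 364) (nat_lit 327) (nat_lit 209)) (XT.lf (nat_lit 0) (nat_lit 26979146796) (nat_lit 152) (nat_lit 167694935367) (nat_lit 76) (nat_lit 20334371966) (nat_lit 18) (nat_lit 5) (nat_lit 20) (nat_lit 5) (nat_lit 19) (nat_lit 4) (nat_lit 365) (nat_lit 327) (nat_lit 208))))) (XT.nd (nat_lit 234) (nat_lit 228) (nat_lit 0) (XT.nd (nat_lit 78) (nat_lit 76) (nat_lit 0) (XT.lf (nat_lit 0) (nat_lit 87155030248) (nat_lit 152) (nat_lit 44336114471) (nat_lit 76) (nat_lit 96935147638) (nat_lit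 18) (nat_lit 5) (nat_lit 20) (nat_lit 5) (nat_lit 19) (nat_lit 4) (nat_lit 366) (nat_lit 327) (nat_lit 207)) (XT.nd (nat_lit 78) (nat_lit 0) (nat_lit 0) (XT.lf (nat_lit 0) (nat_lit 91828445079) (nat_lit 76) (nat_lit 61749107524) (nat_lit 152) (nat_lit 89268377115) (nat_lit 17) (nat_lit 5) (nat_lit 18) (nat_lit 5) (nat_lit 19) (nat_lit 4) (nat_lit 367) (nat_lit 327) (nat_lit 206)) (XT.lf (nat_lit 0) (nat_lit 226309653763) (nat_lit 152) (nat_lit 18137689459) (nat_lit 0) (nat_lit 13922006446) (nat_lit 17) (nat_lit 5) (nat_lit 19) (nat_lit 4) (nat_lit 17) (nat_lit 4) (nat_lit 368) (nat_lit 327) (nat_lit 205)))) (XT.nd (nat_lit 78) (nat_lit 76) (nat_lit 0) (XT.lf (nat_lit 0) (nat_lit 31869703591) (nat_lit 152) (nat_lit 147056070585) (nat_lit 76) (nat_lit 96030892816) (nat_lit 15) (nat_lit 5) (nat_lit 17) (nat_lit 5) (nat_lit 16) (nat_lit 4) (nat_lit 369) (nat_lit 327) (nat_lit 204)) (XT.nd (nat_lit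 78) (nat_lit 76) (nat_lit 0) (XT.lf (nat_lit 0) (nat_lit 100125402143) (nat_lit 152) (nat_lit 7133106729) (nat_lit 76) (nat_lit 185569424625) (nat_lit 15) (nat_lit 5) (nat_lit 17) (nat_lit 5) (nat_lit 16) (nat_lit 4) (nat_lit 370) (nat_lit 327) (nat_lit 203)) (XT.lf (nat_lit 0) (nat_lit 148742717844) (nat_lit 76) (nat_lit 27420222110) (nat_lit 152) (nat_lit 135849892539) (nat_lit 14) (nat_lit 5) (nat_lit 15) (nat_lit 5) (nat_lit 16) (nat_lit 4) (nat_lit 371) (nat_lit 327) (nat_lit 202)))))) (XT.nd (nat_lit 390) (nat_lit 228) (nat_lit 0) (XT.nd (nat_lit 156) (nat_lit 152) (nat_lit 0) (XT.nd (nat_lit 78) (nat_lit 76) (nat_lit 0) (XT.lf (nat_lit 0) (nat_lit 259327008168) (nat_lit 152) (nat_lit 16304762879) (nat_lit 0) (nat_lit 57048576309) (nat_lit 14) (nat_lit 5) (nat_lit 16) (nat_lit 4) (nat_lit 14) (nat_lit 4) (nat_lit 372) (nat_lit 327) (nat_lit 201)) (XT.lf (nat_lit 0) (nat_lit 146647589871)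 (nat_lit 76) (nat_lit 205247735250) (nat_lit 76) (nat_lit 2968382412) (nat_lit 13) (nat_lit 4) (nat_lit 14) (nat_lit 5) (nat_lit 14) (nat_lit 4) (nat_lit 373) (nat_lit 327) (nat_lit 200))) (XT.nd (nat_lit 78) (nat_lit 76) (nat_lit 0) (XT.lf (nat_lit 0) (nat_lit 70997286333) (nat_lit 152) (nat_lit 56735768611) (nat_lit 76) (nat_lit 251017263756) (nat_lit 12) (nat_lit 5) (nat_lit 14) (nat_lit 5) (nat_lit 13) (nat_lit 4) (nat_lit 374) (nat_lit 327) (nat_lit 199)) (XT.nd (nat_lit 78) (nat_lit 0) (nat_lit 0) (XT.lf (nat_lit 0) (nat_lit 110343267213) (nat_lit 76) (nat_lit 42156372980) (nat_lit 152) (nat_lit 251959614240) (nat_lit 11) (nat_lit 5) (nat_lit 12) (nat_lit 5) (nat_lit 13) (nat_lit 4) (nat_lit 375) (nat_lit 327) (nat_lit 198)) (XT.lf (nat_lit 0) (nat_lit 242310779981) (nat_lit 152) (nat_lit 140163178534) (nat_lit 0) (nat_lit 49661516851) (nat_lit 11) (nat_lit 5) (nat_lit 13) (nat_lit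 4) (nat_lit 11) (nat_lit 4) (nat_lit 376) (nat_lit 327) (nat_lit 197))))) (XT.nd (nat_lit 234) (nat_lit 76) (nat_lit 0) (XT.nd (nat_lit 78) (nat_lit 76) (nat_lit 0) (XT.lf (nat_lit 0) (nat_lit 26233424504) (nat_lit 76) (nat_lit 314193144799) (nat_lit 76) (nat_lit 121543236957) (nat_lit 10) (nat_lit 4) (nat_lit 11) (nat_lit 5) (nat_lit 11) (nat_lit 4) (nat_lit 377) (nat_lit 327) (nat_lit 196)) (XT.nd (nat_lit 78) (nat_lit 76) (nat_lit 0) (XT.lf (nat_lit 0) (nat_lit 210945760841) (nat_lit 76) (nat_lit 237886790642) (nat_lit 76) (nat_lit 45236285846) (nat_lit 10) (nat_lit 4) (nat_lit 11) (nat_lit 5) (nat_lit 11) (nat_lit 4) (nat_lit 378) (nat_lit 327) (nat_lit 195)) (XT.lf (nat_lit 0) (nat_lit 35984796166) (nat_lit 152) (nat_lit 118882225389) (nat_lit 76) (nat_lit 373839778321) (nat_lit 9) (nat_lit 5) (nat_lit 11) (nat_lit 5) (nat_lit 10) (nat_lit 4) (nat_lit 379) (nat_lit 327) (nat_lit 194))))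 (XT.nd (nat_lit 78) (nat_lit 0) (nat_lit 0) (XT.lf (nat_lit 0) (nat_lit 59643050435) (nat_lit 76) (nat_lit 63427495788) (nat_lit 152) (nat_lit 442960582407) (nat_lit 8) (nat_lit 5) (nat_lit 9) (nat_lit 5) (nat_lit 10) (nat_lit 4) (nat_lit 380) (nat_lit 327) (nat_lit 193)) (XT.nd (nat_lit 78) (nat_lit 0) (nat_lit 0) (XT.lf (nat_lit 0) (nat_lit 219778987871) (nat_lit 152) (nat_lit 350128772893) (nat_lit 0) (nat_lit 36300851485) (nat_lit 8) (nat_lit 5) (nat_lit 10) (nat_lit 4) (nat_lit 8) (nat_lit 4) (nat_lit 381) (nat_lit 327) (nat_lit 192)) (XT.lf (nat_lit 0) (nat_lit 325293122233) (nat_lit 152) (nat_lit 182439153625) (nat_lit 0) (nat_lit 141814567961) (nat_lit 8) (nat_lit 5) (nat_lit 10) (nat_lit 4) (nat_lit 8) (nat_lit 4) (nat_lit 382) (nat_lit 327) (nat_lit 191))))))) (XT.nd (nat_lit 42978) (nat_lit 0) (nat_lit 3800) (XT.nd (nat_lit 390) (nat_lit 76) (nat_lit 0) (XT.nd (nat_lit 156) (nat_lit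 76) (nat_lit 0) (XT.nd (nat_lit 78) (nat_lit 76) (nat_lit 0) (XT.lf (nat_lit 0) (nat_lit 439247937289) (nat_lit 152) (nat_lit 1335223165) (nat_lit 0) (nat_lit 255768996087) (nat_lit 8) (nat_lit 5) (nat_lit 10) (nat_lit 4) (nat_lit 8) (nat_lit 4) (nat_lit 383) (nat_lit 327) (nat_lit 190)) (XT.lf (nat_lit 0) (nat_lit 200679215114) (nat_lit 76) (nat_lit 364772670670) (nat_lit 76) (nat_lit 181293371198) (nat_lit 7) (nat_lit 4) (nat_lit 8) (nat_lit 5) (nat_lit 8) (nat_lit 4) (nat_lit 384) (nat_lit 327) (nat_lit 189))) (XT.nd (nat_lit 78) (nat_lit 76) (nat_lit 0) (XT.lf (nat_lit 0) (nat_lit 418901728617) (nat_lit 76) (nat_lit 282873282549) (nat_lit 76) (nat_lit 99393651347) (nat_lit 7) (nat_lit 4) (nat_lit 8) (nat_lit 5) (nat_lit 8) (nat_lit 4) (nat_lit 385) (nat_lit 327) (nat_lit 188)) (XT.nd (nat_lit 78) (nat_lit 76) (nat_lit 0) (XT.lf (nat_lit 0) (nat_lit 654581339286) (nat_lit 76) (nat_lit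 194422279036) (nat_lit 76) (nat_lit 10942340676) (nat_lit 7) (nat_lit 4) (nat_lit 8) (nat_lit 5) (nat_lit 8) (nat_lit 4) (nat_lit 386) (nat_lit 327) (nat_lit 187)) (XT.lf (nat_lit 0) (nat_lit 81877477553) (nat_lit 152) (nat_lit 15631393780) (nat_lit 76) (nat_lit 825850554781) (nat_lit 6) (nat_lit 5) (nat_lit 8) (nat_lit 5) (nat_lit 7) (nat_lit 4) (nat_lit 387) (nat_lit 327) (nat_lit 186))))) (XT.nd (nat_lit 42354) (nat_lit 0) (nat_lit 6536) (XT.nd (nat_lit 42198) (nat_lit 0) (nat_lit 7220) (XT.lf (nat_lit 0) (nat_lit 184959013711) (nat_lit 152) (nat_lit 796501319287) (nat_lit 0) (nat_lit 10215693612) (nat_lit 5) (nat_lit 5) (nat_lit 7) (nat_lit 4) (nat_lit 5) (nat_lit 4) (nat_lit 388) (nat_lit 327) (nat_lit 185)) (XT.nd (nat_lit 78) (nat_lit 0) (nat_lit 0) (XT.lf (nat_lit 0) (nat_lit 8481412170) (nat_lit 0) (nat_lit 8481412170) (nat_lit 684) (nat_lit 660262535) (nat_lit 100) (nat_lit 5)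 (nat_lit 100) (nat_lit 3) (nat_lit 109) (nat_lit 3) (nat_lit 328) (nat_lit 328) (nat_lit 244)) (XT.lf (nat_lit 76) (nat_lit 7982858277) (nat_lit 0) (nat_lit 27645700386) (nat_lit 760) (nat_lit 1010047538) (nat_lit 101) (nat_lit 5) (nat_lit 100) (nat_lit 5) (nat_lit 110) (nat_lit 5) (nat_lit 329) (nat_lit 328) (nat_lit 243)))) (XT.nd (nat_lit 78) (nat_lit 684) (nat_lit 0) (XT.lf (nat_lit 76) (nat_lit 36703252031) (nat_lit 0) (nat_lit 1356509939) (nat_lit 760) (nat_lit 53080284) (nat_lit 101) (nat_lit 5) (nat_lit 100) (nat_lit 5) (nat_lit 110) (nat_lit 5) (nat_lit 330) (nat_lit 328) (nat_lit 242)) (XT.nd (nat_lit 78) (nat_lit 0) (nat_lit 76) (XT.lf (nat_lit 0) (nat_lit 1823041035) (nat_lit 760) (nat_lit 11189655822) (nat_lit 836) (nat_lit 26647866722) (nat_lit 91) (nat_lit 5) (nat_lit 101) (nat_lit 5) (nat_lit 102) (nat_lit 5) (nat_lit 331) (nat_lit 328) (nat_lit 241)) (XT.lf (nat_lit 0)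 (nat_lit 4449637812) (nat_lit 760) (nat_lit 21487156170) (nat_lit 836) (nat_lit 15365162677) (nat_lit 92) (nat_lit 5) (nat_lit 102) (nat_lit 5) (nat_lit 103) (nat_lit 5) (nat_lit 332) (nat_lit 328) (nat_lit 240)))))) (XT.nd (nat_lit 468) (nat_lit 1596) (nat_lit 0) (XT.nd (nat_lit 234) (nat_lit 1292) (nat_lit 0) (XT.nd (nat_lit 78) (nat_lit 0) (nat_lit 0) (XT.lf (nat_lit 0) (nat_lit 7910405060) (nat_lit 760) (nat_lit 32339815758) (nat_lit 836) (nat_lit 2793247331) (nat_lit 93) (nat_lit 5) (nat_lit 103) (nat_lit 5) (nat_lit 104) (nat_lit 5) (nat_lit 333) (nat_lit 328) (nat_lit 239)) (XT.nd (nat_lit 78) (nat_lit 0) (nat_lit 76) (XT.lf (nat_lit 76) (nat_lit 912233535) (nat_lit 0) (nat_lit 11561844248) (nat_lit 836) (nat_lit 32408928993) (nat_lit 94) (nat_lit 5) (nat_lit 93) (nat_lit 5) (nat_lit 104) (nat_lit 5) (nat_lit 334) (nat_lit 328) (nat_lit 238)) (XT.lf (nat_lit 0) (nat_lit 18273057705)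 (nat_lit 760) (nat_lit 9179723823) (nat_lit 76) (nat_lit 19373424100) (nat_lit 94) (nat_lit 5) (nat_lit 104) (nat_lit 5) (nat_lit 95) (nat_lit 5) (nat_lit 335) (nat_lit 328) (nat_lit 237)))) (XT.nd (nat_lit 78) (nat_lit 684) (nat_lit 0) (XT.lf (nat_lit 0) (nat_lit 25242116045) (nat_lit 760) (nat_lit 19826991975) (nat_lit 76) (nat_lit 3820451590) (nat_lit 85) (nat_lit 5) (nat_lit 95) (nat_lit 5) (nat_lit 86) (nat_lit 5) (nat_lit 336) (nat_lit 328) (nat_lit 236)) (XT.nd (nat_lit 78) (nat_lit 304) (nat_lit 0) (XT.lf (nat_lit 0) (nat_lit 19743763160) (nat_lit 380) (nat_lit 13953769751) (nat_lit 456) (nat_lit 17374013994) (nat_lit 80) (nat_lit 5) (nat_lit 85) (nat_lit 5) (nat_lit 86) (nat_lit 5) (nat_lit 337) (nat_lit 328) (nat_lit 235)) (XT.lf (nat_lit 0) (nat_lit 9772972790) (nat_lit 304) (nat_lit 33862271551) (nat_lit 380) (nat_lit 9752561976) (nat_lit 76) (nat_lit 5) (nat_lit 80) (nat_lit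 5) (nat_lit 81) (nat_lit 5) (nat_lit 338) (nat_lit 328) (nat_lit 234))))) (XT.nd (nat_lit 234) (nat_lit 912) (nat_lit 0) (XT.nd (nat_lit 78) (nat_lit 684) (nat_lit 0) (XT.lf (nat_lit 0) (nat_lit 55032907469) (nat_lit 304) (nat_lit 107971863) (nat_lit 380) (nat_lit 709847551) (nat_lit 76) (nat_lit 5) (nat_lit 80) (nat_lit 5) (nat_lit 81) (nat_lit 5) (nat_lit 339) (nat_lit 328) (nat_lit 233)) (XT.nd (nat_lit 78) (nat_lit 304) (nat_lit 0) (XT.lf (nat_lit 0) (nat_lit 10074088793) (nat_lit 380) (nat_lit 12295429673) (nat_lit 76) (nat_lit 36068714865) (nat_lit 71) (nat_lit 5) (nat_lit 76) (nat_lit 5) (nat_lit 72) (nat_lit 5) (nat_lit 340) (nat_lit 328) (nat_lit 232)) (XT.lf (nat_lit 0) (nat_lit 22510426902) (nat_lit 380) (nat_lit 24612206305) (nat_lit 76) (nat_lit 14068802106) (nat_lit 67) (nat_lit 5) (nat_lit 72) (nat_lit 5) (nat_lit 68) (nat_lit 5) (nat_lit 341) (nat_lit 328) (nat_lit 231))))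 (XT.nd (nat_lit 78) (nat_lit 608) (nat_lit 0) (XT.lf (nat_lit 0) (nat_lit 26099056873) (nat_lit 304) (nat_lit 10841368305) (nat_lit 380) (nat_lit 27174534954) (nat_lit 63) (nat_lit 5) (nat_lit 67) (nat_lit 5) (nat_lit 68) (nat_lit 5) (nat_lit 342) (nat_lit 328) (nat_lit 230)) (XT.nd (nat_lit 78) (nat_lit 380) (nat_lit 0) (XT.lf (nat_lit 0) (nat_lit 14505631840) (nat_lit 228) (nat_lit 39120510998) (nat_lit 304) (nat_lit 13591162138) (nat_lit 60) (nat_lit 5) (nat_lit 63) (nat_lit 5) (nat_lit 64) (nat_lit 5) (nat_lit 343) (nat_lit 328) (nat_lit 229)) (XT.lf (nat_lit 0) (nat_lit 1897715249) (nat_lit 304) (nat_lit 28853737) (nat_lit 380) (nat_lit 68596318771) (nat_lit 55) (nat_lit 5) (nat_lit 59) (nat_lit 5) (nat_lit 60) (nat_lit 5) (nat_lit 344) (nat_lit 328) (nat_lit 228))))))))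
noncomputable def xc95 : XT := (XT.nd (nat_lit 1794) (nat_lit 912) (nat_lit 0) (XT.nd (nat_lit 858) (nat_lit 1140) (nat_lit 0) (XT.nd (nat_lit 390) (nat_lit 760) (nat_lit 0) (XT.nd (nat_lit 156) (nat_lit 684) (nat_lit 0) (XT.nd (nat_lit 78) (nat_lit 228) (nat_lit 0) (XT.lf (nat_lit 0) (nat_lit 19804761191) (nat_lit 380) (nat_lit 12195943219) (nat_lit 76) (nat_lit 42001315199) (nat_lit 55) (nat_lit 5) (nat_lit 60) (nat_lit 5) (nat_lit 56) (nat_lit 5) (nat_lit 345) (nat_lit 328) (nat_lit 227)) (XT.lf (nat_lit 0) (nat_lit 40060268630) (nat_lit 304) (nat_lit 27528631116) (nat_lit 76) (nat_lit 10123232303) (nat_lit 52) (nat_lit 5) (nat_lit 56) (nat_lit 5) (nat_lit 53) (nat_lit 5) (nat_lit 346) (nat_lit 328) (nat_lit 226))) (XT.nd (nat_lit 78) (nat_lit 456) (nat_lit 0) (XT.lf (nat_lit 0) (nat_lit 36914996113) (nat_lit 228) (nat_lit 26350340127) (nat_lit 304) (nat_lit 18387264077) (nat_lit 49)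 (nat_lit 5) (nat_lit 52) (nat_lit 5) (nat_lit 53) (nat_lit 5) (nat_lit 347) (nat_lit 328) (nat_lit 225)) (XT.nd (nat_lit 78) (nat_lit 228) (nat_lit 0) (XT.lf (nat_lit 0) (nat_lit 3471889682) (nat_lit 228) (nat_lit 63886602110) (nat_lit 76) (nat_lit 18491389067) (nat_lit 46) (nat_lit 5) (nat_lit 49) (nat_lit 5) (nat_lit 47) (nat_lit 5) (nat_lit 348) (nat_lit 328) (nat_lit 224)) (XT.lf (nat_lit 0) (nat_lit 4631218310) (nat_lit 228) (nat_lit 23119145052) (nat_lit 304) (nat_lit 62551771860) (nat_lit 43) (nat_lit 5) (nat_lit 46) (nat_lit 5) (nat_lit 47) (nat_lit 5) (nat_lit 349) (nat_lit 328) (nat_lit 223))))) (XT.nd (nat_lit 234) (nat_lit 380) (nat_lit 0) (XT.nd (nat_lit 78) (nat_lit 380) (nat_lit 0) (XT.lf (nat_lit 0) (nat_lit 55484815943) (nat_lit 304) (nat_lit 14549976175) (nat_lit 76) (nat_lit 25000094890) (nat_lit 43) (nat_lit 5) (nat_lit 47) (nat_lit 5) (nat_lit 44) (nat_lit 5) (nat_lit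 350) (nat_lit 328) (nat_lit 222)) (XT.nd (nat_lit 78) (nat_lit 228) (nat_lit 0) (XT.lf (nat_lit 0) (nat_lit 63913056772) (nat_lit 152) (nat_lit 22910431648) (nat_lit 228) (nat_lit 13253499300) (nat_lit 41) (nat_lit 5) (nat_lit 43) (nat_lit 5) (nat_lit 44) (nat_lit 5) (nat_lit 351) (nat_lit 328) (nat_lit 221)) (XT.lf (nat_lit 0) (nat_lit 16074236765) (nat_lit 228) (nat_lit 61064698195) (nat_lit 76) (nat_lit 28301087529) (nat_lit 38) (nat_lit 5) (nat_lit 41) (nat_lit 5) (nat_lit 39) (nat_lit 5) (nat_lit 352) (nat_lit 328) (nat_lit 220)))) (XT.nd (nat_lit 78) (nat_lit 228) (nat_lit 0) (XT.lf (nat_lit 0) (nat_lit 21513738290) (nat_lit 152) (nat_lit 27136745894) (nat_lit 228) (nat_lit 62502422413) (nat_lit 36) (nat_lit 5) (nat_lit 38) (nat_lit 5) (nat_lit 39) (nat_lit 5) (nat_lit 353) (nat_lit 328) (nat_lit 219)) (XT.nd (nat_lit 78) (nat_lit 228) (nat_lit 0) (XT.lf (nat_lit 0) (nat_lit 85331452583)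 (nat_lit 228) (nat_lit 4830650203) (nat_lit 76) (nat_lit 27085789074) (nat_lit 36) (nat_lit 5) (nat_lit 39) (nat_lit 5) (nat_lit 37) (nat_lit 5) (nat_lit 354) (nat_lit 328) (nat_lit 218)) (XT.lf (nat_lit 0) (nat_lit 2958696659) (nat_lit 228) (nat_lit 34630246843) (nat_lit 76) (nat_lit 86146761897) (nat_lit 33) (nat_lit 5) (nat_lit 36) (nat_lit 5) (nat_lit 34) (nat_lit 5) (nat_lit 355) (nat_lit 328) (nat_lit 217)))))) (XT.nd (nat_lit 468) (nat_lit 456) (nat_lit 0) (XT.nd (nat_lit 234) (nat_lit 380) (nat_lit 0) (XT.nd (nat_lit 78) (nat_lit 152) (nat_lit 0) (XT.lf (nat_lit 0) (nat_lit 40888736644) (nat_lit 228) (nat_lit 69575221228) (nat_lit 76) (nat_lit 20183271862) (nat_lit 31) (nat_lit 5) (nat_lit 34) (nat_lit 5) (nat_lit 32) (nat_lit 5) (nat_lit 356) (nat_lit 328) (nat_lit 216)) (XT.nd (nat_lit 78) (nat_lit 0) (nat_lit 0) (XT.lf (nat_lit 0) (nat_lit 27829765502) (nat_lit 152) (nat_lit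 55703165666) (nat_lit 228) (nat_lit 54494758405) (nat_lit 29) (nat_lit 5) (nat_lit 31) (nat_lit 5) (nat_lit 32) (nat_lit 5) (nat_lit 357) (nat_lit 328) (nat_lit 215)) (XT.lf (nat_lit 0) (nat_lit 130872542459) (nat_lit 228) (nat_lit 10502641686) (nat_lit 76) (nat_lit 4559209036) (nat_lit 29) (nat_lit 5) (nat_lit 32) (nat_lit 5) (nat_lit 30) (nat_lit 4) (nat_lit 358) (nat_lit 328) (nat_lit 214)))) (XT.nd (nat_lit 78) (nat_lit 228) (nat_lit 0) (XT.lf (nat_lit 0) (nat_lit 29175301212) (nat_lit 152) (nat_lit 55411582789) (nat_lit 76) (nat_lit 69738732055) (nat_lit 27) (nat_lit 5) (nat_lit 29) (nat_lit 5) (nat_lit 28) (nat_lit 5) (nat_lit 359) (nat_lit 328) (nat_lit 213)) (XT.nd (nat_lit 78) (nat_lit 76) (nat_lit 0) (XT.lf (nat_lit 0) (nat_lit 55600188629) (nat_lit 152) (nat_lit 21883163409) (nat_lit 228) (nat_lit 85839458763) (nat_lit 25) (nat_lit 5) (nat_lit 27) (nat_lit 5) (nat_lit 28) (nat_lit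 5) (nat_lit 360) (nat_lit 328) (nat_lit 212)) (XT.lf (nat_lit 0) (nat_lit 3870073174) (nat_lit 76) (nat_lit 127541693552) (nat_lit 152) (nat_lit 41540229197) (nat_lit 24) (nat_lit 5) (nat_lit 25) (nat_lit 5) (nat_lit 26) (nat_lit 4) (nat_lit 361) (nat_lit 328) (nat_lit 211))))) (XT.nd (nat_lit 234) (nat_lit 228) (nat_lit 0) (XT.nd (nat_lit 78) (nat_lit 152) (nat_lit 0) (XT.lf (nat_lit 0) (nat_lit 8376058287) (nat_lit 152) (nat_lit 55521306629) (nat_lit 76) (nat_lit 119335488658) (nat_lit 23) (nat_lit 5) (nat_lit 25) (nat_lit 5) (nat_lit 24) (nat_lit 5) (nat_lit 362) (nat_lit 328) (nat_lit 210)) (XT.nd (nat_lit 78) (nat_lit 0) (nat_lit 0) (XT.lf (nat_lit 0) (nat_lit 62024369315) (nat_lit 228) (nat_lit 125734522168) (nat_lit 76) (nat_lit 6483535238) (nat_lit 21) (nat_lit 5) (nat_lit 24) (nat_lit 5) (nat_lit 22) (nat_lit 4) (nat_lit 363) (nat_lit 328) (nat_lit 209)) (XT.lf (nat_lit 0) (nat_lit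 122023760865) (nat_lit 228) (nat_lit 2737742856) (nat_lit 76) (nat_lit 81268301812) (nat_lit 21) (nat_lit 5) (nat_lit 24) (nat_lit 5) (nat_lit 22) (nat_lit 4) (nat_lit 364) (nat_lit 328) (nat_lit 208)))) (XT.nd (nat_lit 78) (nat_lit 152) (nat_lit 0) (XT.lf (nat_lit 0) (nat_lit 134398371725) (nat_lit 76) (nat_lit 54521946101) (nat_lit 152) (nat_lit 29734996670) (nat_lit 20) (nat_lit 5) (nat_lit 21) (nat_lit 5) (nat_lit 22) (nat_lit 4) (nat_lit 365) (nat_lit 328) (nat_lit 207)) (XT.nd (nat_lit 78) (nat_lit 0) (nat_lit 0) (XT.lf (nat_lit 0) (nat_lit 29159546818) (nat_lit 152) (nat_lit 181070521079) (nat_lit 76) (nat_lit 21977949669) (nat_lit 18) (nat_lit 5) (nat_lit 20) (nat_lit 5) (nat_lit 19) (nat_lit 4) (nat_lit 366) (nat_lit 328) (nat_lit 206)) (XT.lf (nat_lit 0) (nat_lit 94147866259) (nat_lit 152) (nat_lit 47845958150) (nat_lit 76) (nat_lit 104705540881) (nat_lit 18) (nat_lit 5) (nat_lit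 20) (nat_lit 5) (nat_lit 19) (nat_lit 4) (nat_lit 367) (nat_lit 328) (nat_lit 205))))))) (XT.nd (nat_lit 858) (nat_lit 304) (nat_lit 0) (XT.nd (nat_lit 390) (nat_lit 304) (nat_lit 0) (XT.nd (nat_lit 156) (nat_lit 228) (nat_lit 0) (XT.nd (nat_lit 78) (nat_lit 0) (nat_lit 0) (XT.lf (nat_lit 0) (nat_lit 99210156213) (nat_lit 76) (nat_lit 66673073838) (nat_lit 152) (nat_lit 96389392257) (nat_lit 17) (nat_lit 5) (nat_lit 18) (nat_lit 5) (nat_lit 19) (nat_lit 4) (nat_lit 368) (nat_lit 328) (nat_lit 204)) (XT.lf (nat_lit 0) (nat_lit 244432687597) (nat_lit 152) (nat_lit 19555215634) (nat_lit 0) (nat_lit 15050073809) (nat_lit 17) (nat_lit 5) (nat_lit 19) (nat_lit 4) (nat_lit 17) (nat_lit 4) (nat_lit 369) (nat_lit 328) (nat_lit 203))) (XT.nd (nat_lit 78) (nat_lit 76) (nat_lit 0) (XT.lf (nat_lit 0) (nat_lit 34436980976) (nat_lit 152) (nat_lit 158787930726) (nat_lit 76) (nat_lit 103727396959) (nat_lit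 15) (nat_lit 5) (nat_lit 17) (nat_lit 5) (nat_lit 16) (nat_lit 4) (nat_lit 370) (nat_lit 328) (nat_lit 202)) (XT.nd (nat_lit 78) (nat_lit 76) (nat_lit 0) (XT.lf (nat_lit 0) (nat_lit 108151824220) (nat_lit 152) (nat_lit 7673546466) (nat_lit 76) (nat_lit 200427971851) (nat_lit 15) (nat_lit 5) (nat_lit 17) (nat_lit 5) (nat_lit 16) (nat_lit 4) (nat_lit 371) (nat_lit 328) (nat_lit 201)) (XT.lf (nat_lit 0) (nat_lit 160671031235) (nat_lit 76) (nat_lit 29600570901) (nat_lit 152) (nat_lit 146701469918) (nat_lit 14) (nat_lit 5) (nat_lit 15) (nat_lit 5) (nat_lit 16) (nat_lit 4) (nat_lit 372) (nat_lit 328) (nat_lit 200))))) (XT.nd (nat_lit 234) (nat_lit 152) (nat_lit 0) (XT.nd (nat_lit 78) (nat_lit 152) (nat_lit 0) (XT.lf (nat_lit 0) (nat_lit 280087830072) (nat_lit 152) (nat_lit 17581851468) (nat_lit 0) (nat_lit 61624355272) (nat_lit 14) (nat_lit 5) (nat_lit 16) (nat_lit 4) (nat_lit 14) (nat_lit 4)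 (nat_lit 373) (nat_lit 328) (nat_lit 199)) (XT.nd (nat_lit 78) (nat_lit 76) (nat_lit 0) (XT.lf (nat_lit 0) (nat_lit 158405503405) (nat_lit 76) (nat_lit 221655430551) (nat_lit 76) (nat_lit 3191166161) (nat_lit 13) (nat_lit 4) (nat_lit 14) (nat_lit 5) (nat_lit 14) (nat_lit 4) (nat_lit 374) (nat_lit 328) (nat_lit 198)) (XT.lf (nat_lit 0) (nat_lit 76690232919) (nat_lit 152) (nat_lit 61250018007) (nat_lit 76) (nat_lit 271109430785) (nat_lit 12) (nat_lit 5) (nat_lit 14) (nat_lit 5) (nat_lit 13) (nat_lit 4) (nat_lit 375) (nat_lit 328) (nat_lit 197)))) (XT.nd (nat_lit 78) (nat_lit 76) (nat_lit 0) (XT.lf (nat_lit 0) (nat_lit 119194271071) (nat_lit 76) (nat_lit 45517896494) (nat_lit 152) (nat_lit 272103195433) (nat_lit 11) (nat_lit 5) (nat_lit 12) (nat_lit 5) (nat_lit 13) (nat_lit 4) (nat_lit 376) (nat_lit 328) (nat_lit 196)) (XT.nd (nat_lit 78) (nat_lit 76) (nat_lit 0) (XT.lf (nat_lit 0) (nat_lit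 261707427272) (nat_lit 152) (nat_lit 151354008054) (nat_lit 0) (nat_lit 53644285138) (nat_lit 11) (nat_lit 5) (nat_lit 13) (nat_lit 4) (nat_lit 11) (nat_lit 4) (nat_lit 377) (nat_lit 328) (nat_lit 195)) (XT.lf (nat_lit 0) (nat_lit 28353357366) (nat_lit 76) (nat_lit 339318581329) (nat_lit 76) (nat_lit 131254886459) (nat_lit 10) (nat_lit 4) (nat_lit 11) (nat_lit 5) (nat_lit 11) (nat_lit 4) (nat_lit 378) (nat_lit 328) (nat_lit 194)))))) (XT.nd (nat_lit 468) (nat_lit 152) (nat_lit 0) (XT.nd (nat_lit 234) (nat_lit 0) (nat_lit 0) (XT.nd (nat_lit 78) (nat_lit 152) (nat_lit 0) (XT.lf (nat_lit 0) (nat_lit 227841105877) (nat_lit 76) (nat_lit 256908460695) (nat_lit 76) (nat_lit 48844254033) (nat_lit 10) (nat_lit 4) (nat_lit 11) (nat_lit 5) (nat_lit 11) (nat_lit 4) (nat_lit 379) (nat_lit 328) (nat_lit 193)) (XT.nd (nat_lit 78) (nat_lit 76) (nat_lit 0) (XT.lf (nat_lit 0) (nat_lit 38873380510) (nat_lit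 152) (nat_lit 128374250497) (nat_lit 76) (nat_lit 403755220039) (nat_lit 9) (nat_lit 5) (nat_lit 11) (nat_lit 5) (nat_lit 10) (nat_lit 4) (nat_lit 380) (nat_lit 328) (nat_lit 192)) (XT.lf (nat_lit 0) (nat_lit 64432241106) (nat_lit 76) (nat_lit 68493300566) (nat_lit 152) (nat_lit 478387607080) (nat_lit 8) (nat_lit 5) (nat_lit 9) (nat_lit 5) (nat_lit 10) (nat_lit 4) (nat_lit 381) (nat_lit 328) (nat_lit 191)))) (XT.nd (nat_lit 78) (nat_lit 0) (nat_lit 0) (XT.lf (nat_lit 0) (nat_lit 237370087288) (nat_lit 152) (nat_lit 378122328672) (nat_lit 0) (nat_lit 39212443859) (nat_lit 8) (nat_lit 5) (nat_lit 10) (nat_lit 4) (nat_lit 8) (nat_lit 4) (nat_lit 382) (nat_lit 328) (nat_lit 190)) (XT.nd (nat_lit 78) (nat_lit 0) (nat_lit 0) (XT.lf (nat_lit 0) (nat_lit 351324702000) (nat_lit 152) (nat_lit 197018780311) (nat_lit 0) (nat_lit 153166700302) (nat_lit 8) (nat_lit 5) (nat_lit 10) (nat_lit 4) (nat_lit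 8) (nat_lit 4) (nat_lit 383) (nat_lit 328) (nat_lit 189)) (XT.lf (nat_lit 0) (nat_lit 474395300040) (nat_lit 152) (nat_lit 1427683977) (nat_lit 0) (nat_lit 276236966611) (nat_lit 8) (nat_lit 5) (nat_lit 10) (nat_lit 4) (nat_lit 8) (nat_lit 4) (nat_lit 384) (nat_lit 328) (nat_lit 188))))) (XT.nd (nat_lit 234) (nat_lit 76) (nat_lit 0) (XT.nd (nat_lit 78) (nat_lit 0) (nat_lit 0) (XT.lf (nat_lit 0) (nat_lit 216747285425) (nat_lit 76) (nat_lit 393947935788) (nat_lit 76) (nat_lit 195789295202) (nat_lit 7) (nat_lit 4) (nat_lit 8) (nat_lit 5) (nat_lit 8) (nat_lit 4) (nat_lit 385) (nat_lit 328) (nat_lit 187)) (XT.nd (nat_lit 78) (nat_lit 0) (nat_lit 0) (XT.lf (nat_lit 0) (nat_lit 452426582741) (nat_lit 76) (nat_lit 305497081695) (nat_lit 76) (nat_lit 107338156702) (nat_lit 7) (nat_lit 4) (nat_lit 8) (nat_lit 5) (nat_lit 8) (nat_lit 4) (nat_lit 386) (nat_lit 328) (nat_lit 186)) (XT.lf (nat_lit 0)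 (nat_lit 706959620350) (nat_lit 76) (nat_lit 209970447045) (nat_lit 76) (nat_lit 11811258714) (nat_lit 7) (nat_lit 4) (nat_lit 8) (nat_lit 5) (nat_lit 8) (nat_lit 4) (nat_lit 387) (nat_lit 328) (nat_lit 185)))) (XT.nd (nat_lit 42276) (nat_lit 0) (nat_lit 7144) (XT.lf (nat_lit 0) (nat_lit 88433474054) (nat_lit 152) (nat_lit 16870810352) (nat_lit 76) (nat_lit 891923604449) (nat_lit 6) (nat_lit 5) (nat_lit 8) (nat_lit 5) (nat_lit 7) (nat_lit 4) (nat_lit 388) (nat_lit 328) (nat_lit 184)) (XT.nd (nat_lit 78) (nat_lit 0) (nat_lit 0) (XT.lf (nat_lit 0) (nat_lit 9198090943) (nat_lit 0) (nat_lit 9198090943) (nat_lit 684) (nat_lit 632817952) (nat_lit 100) (nat_lit 5) (nat_lit 100) (nat_lit 3) (nat_lit 109) (nat_lit 3) (nat_lit 329) (nat_lit 329) (nat_lit 242)) (XT.lf (nat_lit 76) (nat_lit 8703167259) (nat_lit 0) (nat_lit 29917202696) (nat_lit 760) (nat_lit 942030992) (nat_lit 101) (nat_lit 5) (nat_lit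 100) (nat_lit 5) (nat_lit 110) (nat_lit 5) (nat_lit 330) (nat_lit 329) (nat_lit 241))))))))
noncomputable def xc96 : XT := (XT.nd (nat_lit 1716) (nat_lit 2128) (nat_lit 0) (XT.nd (nat_lit 858) (nat_lit 2280) (nat_lit 0) (XT.nd (nat_lit 390) (nat_lit 1444) (nat_lit 0) (XT.nd (nat_lit 156) (nat_lit 0) (nat_lit 152) (XT.nd (nat_lit 78) (nat_lit 0) (nat_lit 76) (XT.lf (nat_lit 0) (nat_lit 77894372) (nat_lit 760) (nat_lit 1441230404) (nat_lit 836) (nat_lit 39635928568) (nat_lit 90) (nat_lit 5) (nat_lit 100) (nat_lit 5) (nat_lit 101) (nat_lit 5) (nat_lit 331) (nat_lit 329) (nat_lit 240)) (XT.lf (nat_lit 0) (nat_lit 2092839558) (nat_lit 760) (nat_lit 12000921569) (nat_lit 836) (nat_lit 28733272251) (nat_lit 91) (nat_lit 5) (nat_lit 101) (nat_lit 5) (nat_lit 102) (nat_lit 5) (nat_lit 332) (nat_lit 329) (nat_lit 239))) (XT.nd (nat_lit 78) (nat_lit 0) (nat_lit 76) (XT.lf (nat_lit 0) (nat_lit 4921076884)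 (nat_lit 760) (nat_lit 23119344318) (nat_lit 836) (nat_lit 16559754212) (nat_lit 92) (nat_lit 5) (nat_lit 102) (nat_lit 5) (nat_lit 103) (nat_lit 5) (nat_lit 333) (nat_lit 329) (nat_lit 238)) (XT.nd (nat_lit 78) (nat_lit 0) (nat_lit 0) (XT.lf (nat_lit 0) (nat_lit 8651054971) (nat_lit 760) (nat_lit 34838032056) (nat_lit 836) (nat_lit 2992315498) (nat_lit 93) (nat_lit 5) (nat_lit 103) (nat_lit 5) (nat_lit 104) (nat_lit 5) (nat_lit 334) (nat_lit 329) (nat_lit 237)) (XT.lf (nat_lit 76) (nat_lit 1070314699) (nat_lit 0) (nat_lit 12502849021) (nat_lit 836) (nat_lit 34895284687) (nat_lit 94) (nat_lit 5) (nat_lit 93) (nat_lit 5) (nat_lit 104) (nat_lit 5) (nat_lit 335) (nat_lit 329) (nat_lit 236))))) (XT.nd (nat_lit 234) (nat_lit 684) (nat_lit 0) (XT.nd (nat_lit 78) (nat_lit 1064) (nat_lit 0) (XT.lf (nat_lit 0) (nat_lit 19828336595) (nat_lit 760) (nat_lit 9830257201) (nat_lit 76) (nat_lit 20908906083)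 (nat_lit 94) (nat_lit 5) (nat_lit 104) (nat_lit 5) (nat_lit 95) (nat_lit 5) (nat_lit 336) (nat_lit 329) (nat_lit 235)) (XT.nd (nat_lit 78) (nat_lit 380) (nat_lit 0) (XT.lf (nat_lit 0) (nat_lit 27349132598) (nat_lit 760) (nat_lit 21328323390) (nat_lit 76) (nat_lit 4118765206) (nat_lit 85) (nat_lit 5) (nat_lit 95) (nat_lit 5) (nat_lit 86) (nat_lit 5) (nat_lit 337) (nat_lit 329) (nat_lit 234)) (XT.lf (nat_lit 0) (nat_lit 21404405637) (nat_lit 380) (nat_lit 15071351631) (nat_lit 456) (nat_lit 18677280432) (nat_lit 80) (nat_lit 5) (nat_lit 85) (nat_lit 5) (nat_lit 86) (nat_lit 5) (nat_lit 338) (nat_lit 329) (nat_lit 233)))) (XT.nd (nat_lit 78) (nat_lit 380) (nat_lit 0) (XT.lf (nat_lit 0) (nat_lit 10636493848) (nat_lit 304) (nat_lit 36567143246) (nat_lit 380) (nat_lit 10451211483) (nat_lit 76) (nat_lit 5) (nat_lit 80) (nat_lit 5) (nat_lit 81) (nat_lit 5) (nat_lit 339) (nat_lit 329) (nat_lit 232))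 (XT.nd (nat_lit 78) (nat_lit 380) (nat_lit 0) (XT.lf (nat_lit 0) (nat_lit 59511172691) (nat_lit 304) (nat_lit 112804030) (nat_lit 380) (nat_lit 691121048) (nat_lit 76) (nat_lit 5) (nat_lit 80) (nat_lit 5) (nat_lit 81) (nat_lit 5) (nat_lit 340) (nat_lit 329) (nat_lit 231)) (XT.lf (nat_lit 0) (nat_lit 10948957674) (nat_lit 380) (nat_lit 13200884032) (nat_lit 76) (nat_lit 38959918624) (nat_lit 71) (nat_lit 5) (nat_lit 76) (nat_lit 5) (nat_lit 72) (nat_lit 5) (nat_lit 341) (nat_lit 329) (nat_lit 230)))))) (XT.nd (nat_lit 390) (nat_lit 1064) (nat_lit 0) (XT.nd (nat_lit 156) (nat_lit 608) (nat_lit 0) (XT.nd (nat_lit 78) (nat_lit 304) (nat_lit 0) (XT.lf (nat_lit 0) (nat_lit 24376416287) (nat_lit 380) (nat_lit 26503224653) (nat_lit 76) (nat_lit 15203773123) (nat_lit 67) (nat_lit 5) (nat_lit 72) (nat_lit 5) (nat_lit 68) (nat_lit 5) (nat_lit 342) (nat_lit 329) (nat_lit 229)) (XT.lf (nat_lit 0) (nat_lit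 28261551612) (nat_lit 304) (nat_lit 11695600749) (nat_lit 380) (nat_lit 29283857410) (nat_lit 63) (nat_lit 5) (nat_lit 67) (nat_lit 5) (nat_lit 68) (nat_lit 5) (nat_lit 343) (nat_lit 329) (nat_lit 228))) (XT.nd (nat_lit 78) (nat_lit 380) (nat_lit 0) (XT.lf (nat_lit 0) (nat_lit 15740226950) (nat_lit 228) (nat_lit 42234292084) (nat_lit 304) (nat_lit 14617188960) (nat_lit 60) (nat_lit 5) (nat_lit 63) (nat_lit 5) (nat_lit 64) (nat_lit 5) (nat_lit 344) (nat_lit 329) (nat_lit 227)) (XT.nd (nat_lit 78) (nat_lit 0) (nat_lit 0) (XT.lf (nat_lit 0) (nat_lit 2122391646) (nat_lit 304) (nat_lit 14352664) (nat_lit 380) (nat_lit 74025112771) (nat_lit 55) (nat_lit 5) (nat_lit 59) (nat_lit 5) (nat_lit 60) (nat_lit 5) (nat_lit 345) (nat_lit 329) (nat_lit 226)) (XT.lf (nat_lit 0) (nat_lit 21441283054) (nat_lit 380) (nat_lit 13101749758) (nat_lit 76) (nat_lit 45376486496) (nat_lit 55) (nat_lit 5) (nat_lit 60)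 (nat_lit 5) (nat_lit 56) (nat_lit 5) (nat_lit 346) (nat_lit 329) (nat_lit 225))))) (XT.nd (nat_lit 234) (nat_lit 380) (nat_lit 0) (XT.nd (nat_lit 78) (nat_lit 456) (nat_lit 0) (XT.lf (nat_lit 0) (nat_lit 43314685624) (nat_lit 304) (nat_lit 29661845624) (nat_lit 76) (nat_lit 10950040830) (nat_lit 52) (nat_lit 5) (nat_lit 56) (nat_lit 5) (nat_lit 53) (nat_lit 5) (nat_lit 347) (nat_lit 329) (nat_lit 224)) (XT.nd (nat_lit 78) (nat_lit 228) (nat_lit 0) (XT.lf (nat_lit 0) (nat_lit 39934269826) (nat_lit 228) (nat_lit 28439246677) (nat_lit 304) (nat_lit 19808897171) (nat_lit 49) (nat_lit 5) (nat_lit 52) (nat_lit 5) (nat_lit 53) (nat_lit 5) (nat_lit 348) (nat_lit 329) (nat_lit 223)) (XT.lf (nat_lit 0) (nat_lit 3795186737) (nat_lit 228) (nat_lit 68930775307) (nat_lit 76) (nat_lit 19989590543) (nat_lit 46) (nat_lit 5) (nat_lit 49) (nat_lit 5) (nat_lit 47) (nat_lit 5) (nat_lit 349) (nat_lit 329) (nat_lit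 222)))) (XT.nd (nat_lit 78) (nat_lit 152) (nat_lit 0) (XT.lf (nat_lit 0) (nat_lit 5065569657) (nat_lit 228) (nat_lit 24947991824) (nat_lit 304) (nat_lit 67510547730) (nat_lit 43) (nat_lit 5) (nat_lit 46) (nat_lit 5) (nat_lit 47) (nat_lit 5) (nat_lit 350) (nat_lit 329) (nat_lit 221)) (XT.nd (nat_lit 78) (nat_lit 152) (nat_lit 0) (XT.lf (nat_lit 0) (nat_lit 59963871587) (nat_lit 304) (nat_lit 15653115229) (nat_lit 76) (nat_lit 27018642101) (nat_lit 43) (nat_lit 5) (nat_lit 47) (nat_lit 5) (nat_lit 44) (nat_lit 5) (nat_lit 351) (nat_lit 329) (nat_lit 220)) (XT.lf (nat_lit 0) (nat_lit 69084315494) (nat_lit 152) (nat_lit 24723248264) (nat_lit 228) (nat_lit 14273640264) (nat_lit 41) (nat_lit 5) (nat_lit 43) (nat_lit 5) (nat_lit 44) (nat_lit 5) (nat_lit 352) (nat_lit 329) (nat_lit 219))))))) (XT.nd (nat_lit 858) (nat_lit 760) (nat_lit 0) (XT.nd (nat_lit 390) (nat_lit 608) (nat_lit 0) (XT.nd (nat_lit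 156) (nat_lit 380) (nat_lit 0) (XT.nd (nat_lit 78) (nat_lit 152) (nat_lit 0) (XT.lf (nat_lit 0) (nat_lit 17397354406) (nat_lit 228) (nat_lit 65891372144) (nat_lit 76) (nat_lit 30584609789) (nat_lit 38) (nat_lit 5) (nat_lit 41) (nat_lit 5) (nat_lit 39) (nat_lit 5) (nat_lit 353) (nat_lit 329) (nat_lit 218)) (XT.lf (nat_lit 0) (nat_lit 23290796838) (nat_lit 152) (nat_lit 29287024487) (nat_lit 228) (nat_lit 67465526014) (nat_lit 36) (nat_lit 5) (nat_lit 38) (nat_lit 5) (nat_lit 39) (nat_lit 5) (nat_lit 354) (nat_lit 329) (nat_lit 217))) (XT.nd (nat_lit 78) (nat_lit 380) (nat_lit 0) (XT.lf (nat_lit 0) (nat_lit 92190951182) (nat_lit 228) (nat_lit 5163927503) (nat_lit 76) (nat_lit 29271170529) (nat_lit 36) (nat_lit 5) (nat_lit 39) (nat_lit 5) (nat_lit 37) (nat_lit 5) (nat_lit 355) (nat_lit 329) (nat_lit 216)) (XT.nd (nat_lit 78) (nat_lit 152) (nat_lit 0) (XT.lf (nat_lit 0) (nat_lit 3227261728)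 (nat_lit 228) (nat_lit 37348727104) (nat_lit 76) (nat_lit 93056957598) (nat_lit 33) (nat_lit 5) (nat_lit 36) (nat_lit 5) (nat_lit 34) (nat_lit 5) (nat_lit 356) (nat_lit 329) (nat_lit 215)) (XT.lf (nat_lit 0) (nat_lit 44190422755) (nat_lit 228) (nat_lit 75090324996) (nat_lit 76) (nat_lit 21816710692) (nat_lit 31) (nat_lit 5) (nat_lit 34) (nat_lit 5) (nat_lit 32) (nat_lit 5) (nat_lit 357) (nat_lit 329) (nat_lit 214))))) (XT.nd (nat_lit 234) (nat_lit 304) (nat_lit 0) (XT.nd (nat_lit 78) (nat_lit 152) (nat_lit 0) (XT.lf (nat_lit 0) (nat_lit 30104848015) (nat_lit 152) (nat_lit 60139799472) (nat_lit 228) (nat_lit 58823784354) (nat_lit 29) (nat_lit 5) (nat_lit 31) (nat_lit 5) (nat_lit 32) (nat_lit 5) (nat_lit 358) (nat_lit 329) (nat_lit 213)) (XT.nd (nat_lit 78) (nat_lit 152) (nat_lit 0) (XT.lf (nat_lit 0) (nat_lit 141369557097) (nat_lit 228) (nat_lit 11296679080) (nat_lit 76) (nat_lit 4941530483)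 (nat_lit 29) (nat_lit 5) (nat_lit 32) (nat_lit 5) (nat_lit 30) (nat_lit 4) (nat_lit 359) (nat_lit 329) (nat_lit 212)) (XT.lf (nat_lit 0) (nat_lit 31535650432) (nat_lit 152) (nat_lit 59799456351) (nat_lit 76) (nat_lit 75335226945) (nat_lit 27) (nat_lit 5) (nat_lit 29) (nat_lit 5) (nat_lit 28) (nat_lit 5) (nat_lit 360) (nat_lit 329) (nat_lit 211)))) (XT.nd (nat_lit 78) (nat_lit 152) (nat_lit 0) (XT.lf (nat_lit 0) (nat_lit 60091298829) (nat_lit 152) (nat_lit 23615769321) (nat_lit 228) (nat_lit 92680300899) (nat_lit 25) (nat_lit 5) (nat_lit 27) (nat_lit 5) (nat_lit 28) (nat_lit 5) (nat_lit 361) (nat_lit 329) (nat_lit 210)) (XT.nd (nat_lit 78) (nat_lit 76) (nat_lit 0) (XT.lf (nat_lit 0) (nat_lit 4221843324) (nat_lit 76) (nat_lit 137726976483) (nat_lit 152) (nat_lit 44838117037) (nat_lit 24) (nat_lit 5) (nat_lit 25) (nat_lit 5) (nat_lit 26) (nat_lit 4) (nat_lit 362) (nat_lit 329) (nat_lit 209))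 (XT.lf (nat_lit 0) (nat_lit 9068846433) (nat_lit 152) (nat_lit 59923207855) (nat_lit 76) (nat_lit 128898280789) (nat_lit 23) (nat_lit 5) (nat_lit 25) (nat_lit 5) (nat_lit 24) (nat_lit 5) (nat_lit 363) (nat_lit 329) (nat_lit 208)))))) (XT.nd (nat_lit 468) (nat_lit 304) (nat_lit 0) (XT.nd (nat_lit 234) (nat_lit 228) (nat_lit 0) (XT.nd (nat_lit 78) (nat_lit 76) (nat_lit 0) (XT.lf (nat_lit 0) (nat_lit 67008191983) (nat_lit 228) (nat_lit 135754375827) (nat_lit 76) (nat_lit 7018148643) (nat_lit 21) (nat_lit 5) (nat_lit 24) (nat_lit 5) (nat_lit 22) (nat_lit 4) (nat_lit 364) (nat_lit 329) (nat_lit 207)) (XT.nd (nat_lit 78) (nat_lit 76) (nat_lit 0) (XT.lf (nat_lit 0) (nat_lit 131805914625) (nat_lit 228) (nat_lit 2920736252) (nat_lit 76) (nat_lit 87784516500) (nat_lit 21) (nat_lit 5) (nat_lit 24) (nat_lit 5) (nat_lit 22) (nat_lit 4) (nat_lit 365) (nat_lit 329) (nat_lit 206)) (XT.lf (nat_lit 0) (nat_lit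 145184701848) (nat_lit 76) (nat_lit 58868532104) (nat_lit 152) (nat_lit 32093531953) (nat_lit 20) (nat_lit 5) (nat_lit 21) (nat_lit 5) (nat_lit 22) (nat_lit 4) (nat_lit 366) (nat_lit 329) (nat_lit 205)))) (XT.nd (nat_lit 78) (nat_lit 76) (nat_lit 0) (XT.lf (nat_lit 0) (nat_lit 31511230555) (nat_lit 152) (nat_lit 195521861396) (nat_lit 76) (nat_lit 23750612895) (nat_lit 18) (nat_lit 5) (nat_lit 20) (nat_lit 5) (nat_lit 19) (nat_lit 4) (nat_lit 367) (nat_lit 329) (nat_lit 204)) (XT.nd (nat_lit 78) (nat_lit 76) (nat_lit 0) (XT.lf (nat_lit 0) (nat_lit 101697214070) (nat_lit 152) (nat_lit 51641874275) (nat_lit 76) (nat_lit 113095342718) (nat_lit 18) (nat_lit 5) (nat_lit 20) (nat_lit 5) (nat_lit 19) (nat_lit 4) (nat_lit 368) (nat_lit 329) (nat_lit 203)) (XT.lf (nat_lit 0) (nat_lit 107177348964) (nat_lit 76) (nat_lit 71993234655) (nat_lit 152) (nat_lit 104083006747) (nat_lit 17) (nat_lit 5) (nat_lit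 18) (nat_lit 5) (nat_lit 19) (nat_lit 4) (nat_lit 369) (nat_lit 329) (nat_lit 202))))) (XT.nd (nat_lit 234) (nat_lit 152) (nat_lit 0) (XT.nd (nat_lit 78) (nat_lit 152) (nat_lit 0) (XT.lf (nat_lit 0) (nat_lit 264002958925) (nat_lit 152) (nat_lit 21090921481) (nat_lit 0) (nat_lit 16266345530) (nat_lit 17) (nat_lit 5) (nat_lit 19) (nat_lit 4) (nat_lit 17) (nat_lit 4) (nat_lit 370) (nat_lit 329) (nat_lit 201)) (XT.nd (nat_lit 78) (nat_lit 0) (nat_lit 0) (XT.lf (nat_lit 0) (nat_lit 37207115292) (nat_lit 152) (nat_lit 171462994072) (nat_lit 76) (nat_lit 112037619508) (nat_lit 15) (nat_lit 5) (nat_lit 17) (nat_lit 5) (nat_lit 16) (nat_lit 4) (nat_lit 371) (nat_lit 329) (nat_lit 200)) (XT.lf (nat_lit 0) (nat_lit 116818021859) (nat_lit 152) (nat_lit 8261531005) (nat_lit 76) (nat_lit 216473349223) (nat_lit 15) (nat_lit 5) (nat_lit 17) (nat_lit 5) (nat_lit 16) (nat_lit 4) (nat_lit 372) (nat_lit 329)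 (nat_lit 199)))) (XT.nd (nat_lit 78) (nat_lit 76) (nat_lit 0) (XT.lf (nat_lit 0) (nat_lit 173549487365) (nat_lit 76) (nat_lit 31957240563) (nat_lit 152) (nat_lit 158423515132) (nat_lit 14) (nat_lit 5) (nat_lit 15) (nat_lit 5) (nat_lit 16) (nat_lit 4) (nat_lit 373) (nat_lit 329) (nat_lit 198)) (XT.nd (nat_lit 78) (nat_lit 76) (nat_lit 0) (XT.lf (nat_lit 0) (nat_lit 302507426138) (nat_lit 152) (nat_lit 18965000717) (nat_lit 0) (nat_lit 66564499904) (nat_lit 14) (nat_lit 5) (nat_lit 16) (nat_lit 4) (nat_lit 14) (nat_lit 4) (nat_lit 374) (nat_lit 329) (nat_lit 197)) (XT.lf (nat_lit 0) (nat_lit 171100325660) (nat_lit 76) (nat_lit 239377471032) (nat_lit 76) (nat_lit 3433867852) (nat_lit 13) (nat_lit 4) (nat_lit 14) (nat_lit 5) (nat_lit 14) (nat_lit 4) (nat_lit 375) (nat_lit 329) (nat_lit 196))))))))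
noncomputable def xc97 : XT := (XT.nd (nat_lit 43992) (nat_lit 0) (nat_lit 1520) (XT.nd (nat_lit 858) (nat_lit 0) (nat_lit 0) (XT.nd (nat_lit 390) (nat_lit 228) (nat_lit 0) (XT.nd (nat_lit 156) (nat_lit 76) (nat_lit 0) (XT.nd (nat_lit 78) (nat_lit 76) (nat_lit 0) (XT.lf (nat_lit 0) (nat_lit 82836737286) (nat_lit 152) (nat_lit 66128918545) (nat_lit 76) (nat_lit 292807432443) (nat_lit 12) (nat_lit 5) (nat_lit 14) (nat_lit 5) (nat_lit 13) (nat_lit 4) (nat_lit 376) (nat_lit 329) (nat_lit 195)) (XT.lf (nat_lit 0) (nat_lit 128749996640) (nat_lit 76) (nat_lit 49149909210) (nat_lit 152) (nat_lit 293860144530) (nat_lit 11) (nat_lit 5) (nat_lit 12) (nat_lit 5) (nat_lit 13) (nat_lit 4) (nat_lit 377) (nat_lit 329) (nat_lit 194))) (XT.nd (nat_lit 78) (nat_lit 76) (nat_lit 0) (XT.lf (nat_lit 0) (nat_lit 282654125099) (nat_lit 152) (nat_lit 163443274546) (nat_lit 0) (nat_lit 57944270112) (nat_lit 11)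 (nat_lit 5) (nat_lit 13) (nat_lit 4) (nat_lit 11) (nat_lit 4) (nat_lit 378) (nat_lit 329) (nat_lit 193)) (XT.nd (nat_lit 78) (nat_lit 0) (nat_lit 0) (XT.lf (nat_lit 0) (nat_lit 30639852037) (nat_lit 76) (nat_lit 366455481541) (nat_lit 76) (nat_lit 141745152672) (nat_lit 10) (nat_lit 4) (nat_lit 11) (nat_lit 5) (nat_lit 11) (nat_lit 4) (nat_lit 379) (nat_lit 329) (nat_lit 192)) (XT.lf (nat_lit 0) (nat_lit 246085270349) (nat_lit 76) (nat_lit 277453187278) (nat_lit 76) (nat_lit 52742419629) (nat_lit 10) (nat_lit 4) (nat_lit 11) (nat_lit 5) (nat_lit 11) (nat_lit 4) (nat_lit 380) (nat_lit 329) (nat_lit 191))))) (XT.nd (nat_lit 234) (nat_lit 76) (nat_lit 0) (XT.nd (nat_lit 78) (nat_lit 76) (nat_lit 0) (XT.lf (nat_lit 0) (nat_lit 41991653429) (nat_lit 152) (nat_lit 138628284395) (nat_lit 76) (nat_lit 436062718792) (nat_lit 9) (nat_lit 5) (nat_lit 11) (nat_lit 5) (nat_lit 10) (nat_lit 4) (nat_lit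 381) (nat_lit 329) (nat_lit 190)) (XT.nd (nat_lit 78) (nat_lit 0) (nat_lit 0) (XT.lf (nat_lit 0) (nat_lit 69602035275) (nat_lit 76) (nat_lit 73965567350) (nat_lit 152) (nat_lit 516650194933) (nat_lit 8) (nat_lit 5) (nat_lit 9) (nat_lit 5) (nat_lit 10) (nat_lit 4) (nat_lit 382) (nat_lit 329) (nat_lit 189)) (XT.lf (nat_lit 0) (nat_lit 256367222038) (nat_lit 152) (nat_lit 408357757924) (nat_lit 0) (nat_lit 42355890205) (nat_lit 8) (nat_lit 5) (nat_lit 10) (nat_lit 4) (nat_lit 8) (nat_lit 4) (nat_lit 383) (nat_lit 329) (nat_lit 188)))) (XT.nd (nat_lit 78) (nat_lit 76) (nat_lit 0) (XT.lf (nat_lit 0) (nat_lit 379437648315) (nat_lit 152) (nat_lit 212766989179) (nat_lit 0) (nat_lit 165426009323) (nat_lit 8) (nat_lit 5) (nat_lit 10) (nat_lit 4) (nat_lit 8) (nat_lit 4) (nat_lit 384) (nat_lit 329) (nat_lit 187)) (XT.nd (nat_lit 78) (nat_lit 76) (nat_lit 0) (XT.lf (nat_lit 0) (nat_lit 512353377890)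 (nat_lit 152) (nat_lit 1529589846) (nat_lit 0) (nat_lit 298341454492) (nat_lit 8) (nat_lit 5) (nat_lit 10) (nat_lit 4) (nat_lit 8) (nat_lit 4) (nat_lit 385) (nat_lit 329) (nat_lit 186)) (XT.lf (nat_lit 0) (nat_lit 234098842180) (nat_lit 76) (nat_lit 425458156338) (nat_lit 76) (nat_lit 211445969603) (nat_lit 7) (nat_lit 4) (nat_lit 8) (nat_lit 5) (nat_lit 8) (nat_lit 4) (nat_lit 386) (nat_lit 329) (nat_lit 185)))))) (XT.nd (nat_lit 42666) (nat_lit 0) (nat_lit 5928) (XT.nd (nat_lit 42432) (nat_lit 0) (nat_lit 6308) (XT.nd (nat_lit 78) (nat_lit 0) (nat_lit 0) (XT.lf (nat_lit 0) (nat_lit 488631611140) (nat_lit 76) (nat_lit 329931649792) (nat_lit 76) (nat_lit 115919219225) (nat_lit 7) (nat_lit 4) (nat_lit 8) (nat_lit 5) (nat_lit 8) (nat_lit 4) (nat_lit 387) (nat_lit 329) (nat_lit 184)) (XT.lf (nat_lit 0) (nat_lit 763526484218) (nat_lit 76) (nat_lit 226763269440) (nat_lit 76) (nat_lit 12750613102)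 (nat_lit 7) (nat_lit 4) (nat_lit 8) (nat_lit 5) (nat_lit 8) (nat_lit 4) (nat_lit 388) (nat_lit 329) (nat_lit 183))) (XT.nd (nat_lit 78) (nat_lit 760) (nat_lit 0) (XT.lf (nat_lit 0) (nat_lit 9966659240) (nat_lit 0) (nat_lit 9966659240) (nat_lit 684) (nat_lit 614628586) (nat_lit 100) (nat_lit 5) (nat_lit 100) (nat_lit 3) (nat_lit 109) (nat_lit 3) (nat_lit 330) (nat_lit 330) (nat_lit 240)) (XT.nd (nat_lit 78) (nat_lit 760) (nat_lit 0) (XT.lf (nat_lit 76) (nat_lit 9469448348) (nat_lit 0) (nat_lit 32361887450) (nat_lit 760) (nat_lit 889804009) (nat_lit 101) (nat_lit 5) (nat_lit 100) (nat_lit 5) (nat_lit 110) (nat_lit 5) (nat_lit 331) (nat_lit 330) (nat_lit 239)) (XT.lf (nat_lit 0) (nat_lit 198483147) (nat_lit 760) (nat_lit 1487742823) (nat_lit 836) (nat_lit 42755349405) (nat_lit 90) (nat_lit 5) (nat_lit 100) (nat_lit 5) (nat_lit 101) (nat_lit 5) (nat_lit 332) (nat_lit 330) (nat_lit 238)))))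 (XT.nd (nat_lit 234) (nat_lit 456) (nat_lit 0) (XT.nd (nat_lit 78) (nat_lit 0) (nat_lit 76) (XT.lf (nat_lit 0) (nat_lit 2366538361) (nat_lit 760) (nat_lit 12889058807) (nat_lit 836) (nat_lit 30992133098) (nat_lit 91) (nat_lit 5) (nat_lit 101) (nat_lit 5) (nat_lit 102) (nat_lit 5) (nat_lit 333) (nat_lit 330) (nat_lit 237)) (XT.nd (nat_lit 78) (nat_lit 0) (nat_lit 76) (XT.lf (nat_lit 0) (nat_lit 5413758273) (nat_lit 760) (nat_lit 24894488275) (nat_lit 836) (nat_lit 17854852211) (nat_lit 92) (nat_lit 5) (nat_lit 102) (nat_lit 5) (nat_lit 103) (nat_lit 5) (nat_lit 334) (nat_lit 330) (nat_lit 236)) (XT.lf (nat_lit 0) (nat_lit 9435575503) (nat_lit 760) (nat_lit 37548798074) (nat_lit 836) (nat_lit 3210788855) (nat_lit 93) (nat_lit 5) (nat_lit 103) (nat_lit 5) (nat_lit 104) (nat_lit 5) (nat_lit 335) (nat_lit 330) (nat_lit 235)))) (XT.nd (nat_lit 78) (nat_lit 608) (nat_lit 0) (XT.lf (nat_lit 76)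 (nat_lit 1228901535) (nat_lit 0) (nat_lit 13516843432) (nat_lit 836) (nat_lit 37595722084) (nat_lit 94) (nat_lit 5) (nat_lit 93) (nat_lit 5) (nat_lit 104) (nat_lit 5) (nat_lit 336) (nat_lit 330) (nat_lit 234)) (XT.nd (nat_lit 78) (nat_lit 684) (nat_lit 0) (XT.lf (nat_lit 0) (nat_lit 21494708351) (nat_lit 760) (nat_lit 10544794608) (nat_lit 76) (nat_lit 22569279796) (nat_lit 94) (nat_lit 5) (nat_lit 104) (nat_lit 5) (nat_lit 95) (nat_lit 5) (nat_lit 337) (nat_lit 330) (nat_lit 233)) (XT.lf (nat_lit 0) (nat_lit 29612206612) (nat_lit 760) (nat_lit 22961862973) (nat_lit 76) (nat_lit 4441988549) (nat_lit 85) (nat_lit 5) (nat_lit 95) (nat_lit 5) (nat_lit 86) (nat_lit 5) (nat_lit 338) (nat_lit 330) (nat_lit 232))))))) (XT.nd (nat_lit 858) (nat_lit 1672) (nat_lit 0) (XT.nd (nat_lit 390) (nat_lit 1368) (nat_lit 0) (XT.nd (nat_lit 156) (nat_lit 684) (nat_lit 0) (XT.nd (nat_lit 78) (nat_lit 304) (nat_lit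 0) (XT.lf (nat_lit 0) (nat_lit 23186323780) (nat_lit 380) (nat_lit 16278157413) (nat_lit 456) (nat_lit 20097170444) (nat_lit 80) (nat_lit 5) (nat_lit 85) (nat_lit 5) (nat_lit 86) (nat_lit 5) (nat_lit 339) (nat_lit 330) (nat_lit 231)) (XT.lf (nat_lit 0) (nat_lit 11557443564) (nat_lit 304) (nat_lit 39488991019) (nat_lit 380) (nat_lit 11217387746) (nat_lit 76) (nat_lit 5) (nat_lit 80) (nat_lit 5) (nat_lit 81) (nat_lit 5) (nat_lit 340) (nat_lit 330) (nat_lit 230))) (XT.nd (nat_lit 78) (nat_lit 684) (nat_lit 0) (XT.lf (nat_lit 0) (nat_lit 64336909292) (nat_lit 304) (nat_lit 118565679) (nat_lit 380) (nat_lit 681669385) (nat_lit 76) (nat_lit 5) (nat_lit 80) (nat_lit 5) (nat_lit 81) (nat_lit 5) (nat_lit 341) (nat_lit 330) (nat_lit 229)) (XT.nd (nat_lit 78) (nat_lit 304) (nat_lit 0) (XT.lf (nat_lit 0) (nat_lit 11883980750) (nat_lit 380) (nat_lit 14189927993) (nat_lit 76) (nat_lit 42081604578) (nat_lit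 71) (nat_lit 5) (nat_lit 76) (nat_lit 5) (nat_lit 72) (nat_lit 5) (nat_lit 342) (nat_lit 330) (nat_lit 228)) (XT.lf (nat_lit 0) (nat_lit 26382389701) (nat_lit 380) (nat_lit 28556646072) (nat_lit 76) (nat_lit 16428191269) (nat_lit 67) (nat_lit 5) (nat_lit 72) (nat_lit 5) (nat_lit 68) (nat_lit 5) (nat_lit 343) (nat_lit 330) (nat_lit 227))))) (XT.nd (nat_lit 234) (nat_lit 456) (nat_lit 0) (XT.nd (nat_lit 78) (nat_lit 608) (nat_lit 0) (XT.lf (nat_lit 0) (nat_lit 30586407660) (nat_lit 304) (nat_lit 12620037372) (nat_lit 380) (nat_lit 31571147330) (nat_lit 63) (nat_lit 5) (nat_lit 67) (nat_lit 5) (nat_lit 68) (nat_lit 5) (nat_lit 344) (nat_lit 330) (nat_lit 226)) (XT.nd (nat_lit 78) (nat_lit 380) (nat_lit 0) (XT.lf (nat_lit 0) (nat_lit 17063012118) (nat_lit 228) (nat_lit 45599438235) (nat_lit 304) (nat_lit 15734038229) (nat_lit 60) (nat_lit 5) (nat_lit 63) (nat_lit 5) (nat_lit 64) (nat_lit 5)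 (nat_lit 345) (nat_lit 330) (nat_lit 225)) (XT.lf (nat_lit 0) (nat_lit 2354647978) (nat_lit 304) (nat_lit 1089550) (nat_lit 380) (nat_lit 79896614676) (nat_lit 55) (nat_lit 5) (nat_lit 59) (nat_lit 5) (nat_lit 60) (nat_lit 5) (nat_lit 346) (nat_lit 330) (nat_lit 224)))) (XT.nd (nat_lit 78) (nat_lit 456) (nat_lit 0) (XT.lf (nat_lit 0) (nat_lit 23201288175) (nat_lit 380) (nat_lit 14089988402) (nat_lit 76) (nat_lit 49019522152) (nat_lit 55) (nat_lit 5) (nat_lit 60) (nat_lit 5) (nat_lit 56) (nat_lit 5) (nat_lit 347) (nat_lit 330) (nat_lit 223)) (XT.nd (nat_lit 78) (nat_lit 228) (nat_lit 0) (XT.lf (nat_lit 0) (nat_lit 46822380623) (nat_lit 304) (nat_lit 31975571754) (nat_lit 76) (nat_lit 11840575940) (nat_lit 52) (nat_lit 5) (nat_lit 56) (nat_lit 5) (nat_lit 53) (nat_lit 5) (nat_lit 348) (nat_lit 330) (nat_lit 222)) (XT.lf (nat_lit 0) (nat_lit 43185659237) (nat_lit 228) (nat_lit 30697993526)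 (nat_lit 304) (nat_lit 21351300962) (nat_lit 49) (nat_lit 5) (nat_lit 52) (nat_lit 5) (nat_lit 53) (nat_lit 5) (nat_lit 349) (nat_lit 330) (nat_lit 221)))))) (XT.nd (nat_lit 468) (nat_lit 684) (nat_lit 0) (XT.nd (nat_lit 234) (nat_lit 532) (nat_lit 0) (XT.nd (nat_lit 78) (nat_lit 228) (nat_lit 0) (XT.lf (nat_lit 0) (nat_lit 4137849928) (nat_lit 228) (nat_lit 74388005702) (nat_lit 76) (nat_lit 21604953217) (nat_lit 46) (nat_lit 5) (nat_lit 49) (nat_lit 5) (nat_lit 47) (nat_lit 5) (nat_lit 350) (nat_lit 330) (nat_lit 220)) (XT.nd (nat_lit 78) (nat_lit 0) (nat_lit 0) (XT.lf (nat_lit 0) (nat_lit 5525559642) (nat_lit 228) (nat_lit 26926097260) (nat_lit 304) (nat_lit 72872497619) (nat_lit 43) (nat_lit 5) (nat_lit 46) (nat_lit 5) (nat_lit 47) (nat_lit 5) (nat_lit 351) (nat_lit 330) (nat_lit 219)) (XT.lf (nat_lit 0) (nat_lit 64795506664) (nat_lit 304) (nat_lit 16853187630) (nat_lit 76) (nat_lit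 29196028204) (nat_lit 43) (nat_lit 5) (nat_lit 47) (nat_lit 5) (nat_lit 44) (nat_lit 5) (nat_lit 352) (nat_lit 330) (nat_lit 218)))) (XT.nd (nat_lit 78) (nat_lit 380) (nat_lit 0) (XT.lf (nat_lit 0) (nat_lit 74660970010) (nat_lit 152) (nat_lit 26683945988) (nat_lit 228) (nat_lit 15381118780) (nat_lit 41) (nat_lit 5) (nat_lit 43) (nat_lit 5) (nat_lit 44) (nat_lit 5) (nat_lit 353) (nat_lit 330) (nat_lit 217)) (XT.nd (nat_lit 78) (nat_lit 152) (nat_lit 0) (XT.lf (nat_lit 0) (nat_lit 18821017501) (nat_lit 228) (nat_lit 71112525960) (nat_lit 76) (nat_lit 33048041173) (nat_lit 38) (nat_lit 5) (nat_lit 41) (nat_lit 5) (nat_lit 39) (nat_lit 5) (nat_lit 354) (nat_lit 330) (nat_lit 216)) (XT.lf (nat_lit 0) (nat_lit 25202036824) (nat_lit 152) (nat_lit 31612272901) (nat_lit 228) (nat_lit 72830969234) (nat_lit 36) (nat_lit 5) (nat_lit 38) (nat_lit 5) (nat_lit 39) (nat_lit 5) (nat_lit 355) (nat_lit 330)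 (nat_lit 215))))) (XT.nd (nat_lit 234) (nat_lit 304) (nat_lit 0) (XT.nd (nat_lit 78) (nat_lit 380) (nat_lit 0) (XT.lf (nat_lit 0) (nat_lit 99594504362) (nat_lit 228) (nat_lit 5531452956) (nat_lit 76) (nat_lit 31628740653) (nat_lit 36) (nat_lit 5) (nat_lit 39) (nat_lit 5) (nat_lit 37) (nat_lit 5) (nat_lit 356) (nat_lit 330) (nat_lit 214)) (XT.nd (nat_lit 78) (nat_lit 152) (nat_lit 0) (XT.lf (nat_lit 0) (nat_lit 3512765485) (nat_lit 228) (nat_lit 40292095534) (nat_lit 76) (nat_lit 100517336178) (nat_lit 33) (nat_lit 5) (nat_lit 36) (nat_lit 5) (nat_lit 34) (nat_lit 5) (nat_lit 357) (nat_lit 330) (nat_lit 213)) (XT.lf (nat_lit 0) (nat_lit 47751880152) (nat_lit 228) (nat_lit 81053900507) (nat_lit 76) (nat_lit 23578145868) (nat_lit 31) (nat_lit 5) (nat_lit 34) (nat_lit 5) (nat_lit 32) (nat_lit 5) (nat_lit 358) (nat_lit 330) (nat_lit 212)))) (XT.nd (nat_lit 78) (nat_lit 152) (nat_lit 0) (XT.lf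 (nat_lit 0) (nat_lit 32554989348) (nat_lit 152) (nat_lit 64934162916) (nat_lit 228) (nat_lit 63503491352) (nat_lit 29) (nat_lit 5) (nat_lit 31) (nat_lit 5) (nat_lit 32) (nat_lit 5) (nat_lit 359) (nat_lit 330) (nat_lit 211)) (XT.nd (nat_lit 78) (nat_lit 152) (nat_lit 0) (XT.lf (nat_lit 0) (nat_lit 152702450918) (nat_lit 228) (nat_lit 12160826694) (nat_lit 76) (nat_lit 5351928988) (nat_lit 29) (nat_lit 5) (nat_lit 32) (nat_lit 5) (nat_lit 30) (nat_lit 4) (nat_lit 360) (nat_lit 330) (nat_lit 210)) (XT.lf (nat_lit 0) (nat_lit 34081072017) (nat_lit 152) (nat_lit 64544787122) (nat_lit 76) (nat_lit 81376959646) (nat_lit 27) (nat_lit 5) (nat_lit 29) (nat_lit 5) (nat_lit 28) (nat_lit 5) (nat_lit 361) (nat_lit 330) (nat_lit 209))))))))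
noncomputable def xc98 : XT := (XT.nd (nat_lit 1716) (nat_lit 76) (nat_lit 0) (XT.nd (nat_lit 858) (nat_lit 532) (nat_lit 0) (XT.nd (nat_lit 390) (nat_lit 456) (nat_lit 0) (XT.nd (nat_lit 156) (nat_lit 228) (nat_lit 0) (XT.nd (nat_lit 78) (nat_lit 76) (nat_lit 0) (XT.lf (nat_lit 0) (nat_lit 64935549845) (nat_lit 152) (nat_lit 25489558336) (nat_lit 228) (nat_lit 100072164473) (nat_lit 25) (nat_lit 5) (nat_lit 27) (nat_lit 5) (nat_lit 28) (nat_lit 5) (nat_lit 362) (nat_lit 330) (nat_lit 208)) (XT.lf (nat_lit 0) (nat_lit 4595739879) (nat_lit 76) (nat_lit 148729657447) (nat_lit 152) (nat_lit 48403449583) (nat_lit 24) (nat_lit 5) (nat_lit 25) (nat_lit 5) (nat_lit 26) (nat_lit 4) (nat_lit 363) (nat_lit 330) (nat_lit 207))) (XT.nd (nat_lit 78) (nat_lit 152) (nat_lit 0) (XT.lf (nat_lit 0) (nat_lit 9813818725) (nat_lit 152) (nat_lit 64682939565) (nat_lit 76) (nat_lit 139223820411) (nat_lit 23) (nat_lit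 5) (nat_lit 25) (nat_lit 5) (nat_lit 24) (nat_lit 5) (nat_lit 364) (nat_lit 330) (nat_lit 206)) (XT.nd (nat_lit 78) (nat_lit 0) (nat_lit 0) (XT.lf (nat_lit 0) (nat_lit 72387600019) (nat_lit 228) (nat_lit 146581368456) (nat_lit 76) (nat_lit 7593258445) (nat_lit 21) (nat_lit 5) (nat_lit 24) (nat_lit 5) (nat_lit 22) (nat_lit 4) (nat_lit 365) (nat_lit 330) (nat_lit 205)) (XT.lf (nat_lit 0) (nat_lit 142367751385) (nat_lit 228) (nat_lit 3123508637) (nat_lit 76) (nat_lit 94819924034) (nat_lit 21) (nat_lit 5) (nat_lit 24) (nat_lit 5) (nat_lit 22) (nat_lit 4) (nat_lit 366) (nat_lit 330) (nat_lit 204))))) (XT.nd (nat_lit 234) (nat_lit 228) (nat_lit 0) (XT.nd (nat_lit 78) (nat_lit 152) (nat_lit 0) (XT.lf (nat_lit 0) (nat_lit 156829022221) (nat_lit 76) (nat_lit 63565009114) (nat_lit 152) (nat_lit 34643641008) (nat_lit 20) (nat_lit 5) (nat_lit 21) (nat_lit 5) (nat_lit 22) (nat_lit 4) (nat_lit 367) (nat_lit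 330) (nat_lit 203)) (XT.nd (nat_lit 78) (nat_lit 0) (nat_lit 0) (XT.lf (nat_lit 0) (nat_lit 34048349843) (nat_lit 152) (nat_lit 211134202412) (nat_lit 76) (nat_lit 25663030969) (nat_lit 18) (nat_lit 5) (nat_lit 20) (nat_lit 5) (nat_lit 19) (nat_lit 4) (nat_lit 368) (nat_lit 330) (nat_lit 202)) (XT.lf (nat_lit 0) (nat_lit 109848010495) (nat_lit 152) (nat_lit 55745994684) (nat_lit 76) (nat_lit 122154422953) (nat_lit 18) (nat_lit 5) (nat_lit 20) (nat_lit 5) (nat_lit 19) (nat_lit 4) (nat_lit 369) (nat_lit 330) (nat_lit 201)))) (XT.nd (nat_lit 78) (nat_lit 152) (nat_lit 0) (XT.lf (nat_lit 0) (nat_lit 115777583052) (nat_lit 76) (nat_lit 77740960669) (nat_lit 152) (nat_lit 112394612231) (nat_lit 17) (nat_lit 5) (nat_lit 18) (nat_lit 5) (nat_lit 19) (nat_lit 4) (nat_lit 370) (nat_lit 330) (nat_lit 200)) (XT.nd (nat_lit 78) (nat_lit 152) (nat_lit 0) (XT.lf (nat_lit 0) (nat_lit 285136618411) (nat_lit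 152) (nat_lit 22753579798) (nat_lit 0) (nat_lit 17578169132) (nat_lit 17) (nat_lit 5) (nat_lit 19) (nat_lit 4) (nat_lit 17) (nat_lit 4) (nat_lit 371) (nat_lit 330) (nat_lit 199)) (XT.lf (nat_lit 0) (nat_lit 40196695351) (nat_lit 152) (nat_lit 185156052877) (nat_lit 76) (nat_lit 121010943535) (nat_lit 15) (nat_lit 5) (nat_lit 17) (nat_lit 5) (nat_lit 16) (nat_lit 4) (nat_lit 372) (nat_lit 330) (nat_lit 198)))))) (XT.nd (nat_lit 390) (nat_lit 304) (nat_lit 0) (XT.nd (nat_lit 156) (nat_lit 152) (nat_lit 0) (XT.nd (nat_lit 78) (nat_lit 76) (nat_lit 0) (XT.lf (nat_lit 0) (nat_lit 126175510678) (nat_lit 152) (nat_lit 8900249115) (nat_lit 76) (nat_lit 233800767592) (nat_lit 15) (nat_lit 5) (nat_lit 17) (nat_lit 5) (nat_lit 16) (nat_lit 4) (nat_lit 373) (nat_lit 330) (nat_lit 197)) (XT.lf (nat_lit 0) (nat_lit 187454685750) (nat_lit 76) (nat_lit 34504066713) (nat_lit 152) (nat_lit 171085331545)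 (nat_lit 14) (nat_lit 5) (nat_lit 15) (nat_lit 5) (nat_lit 16) (nat_lit 4) (nat_lit 374) (nat_lit 330) (nat_lit 196))) (XT.nd (nat_lit 78) (nat_lit 152) (nat_lit 0) (XT.lf (nat_lit 0) (nat_lit 326718796686) (nat_lit 152) (nat_lit 20462140016) (nat_lit 0) (nat_lit 71898401503) (nat_lit 14) (nat_lit 5) (nat_lit 16) (nat_lit 4) (nat_lit 14) (nat_lit 4) (nat_lit 375) (nat_lit 330) (nat_lit 195)) (XT.nd (nat_lit 78) (nat_lit 76) (nat_lit 0) (XT.lf (nat_lit 0) (nat_lit 184807540656) (nat_lit 76) (nat_lit 258518757567) (nat_lit 76) (nat_lit 3697782011) (nat_lit 13) (nat_lit 4) (nat_lit 14) (nat_lit 5) (nat_lit 14) (nat_lit 4) (nat_lit 376) (nat_lit 330) (nat_lit 194)) (XT.lf (nat_lit 0) (nat_lit 89473351966) (nat_lit 152) (nat_lit 71401141405) (nat_lit 76) (nat_lit 316239955018) (nat_lit 12) (nat_lit 5) (nat_lit 14) (nat_lit 5) (nat_lit 13) (nat_lit 4) (nat_lit 377) (nat_lit 330) (nat_lit 193)))))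 (XT.nd (nat_lit 234) (nat_lit 152) (nat_lit 0) (XT.nd (nat_lit 78) (nat_lit 76) (nat_lit 0) (XT.lf (nat_lit 0) (nat_lit 139067300798) (nat_lit 76) (nat_lit 53073826670) (nat_lit 152) (nat_lit 317359262558) (nat_lit 11) (nat_lit 5) (nat_lit 12) (nat_lit 5) (nat_lit 13) (nat_lit 4) (nat_lit 378) (nat_lit 330) (nat_lit 192)) (XT.nd (nat_lit 78) (nat_lit 76) (nat_lit 0) (XT.lf (nat_lit 0) (nat_lit 305275117355) (nat_lit 152) (nat_lit 176502400645) (nat_lit 0) (nat_lit 62587049515) (nat_lit 11) (nat_lit 5) (nat_lit 13) (nat_lit 4) (nat_lit 11) (nat_lit 4) (nat_lit 379) (nat_lit 330) (nat_lit 191)) (XT.lf (nat_lit 0) (nat_lit 33106666128) (nat_lit 76) (nat_lit 395764558700) (nat_lit 76) (nat_lit 153076084584) (nat_lit 10) (nat_lit 4) (nat_lit 11) (nat_lit 5) (nat_lit 11) (nat_lit 4) (nat_lit 380) (nat_lit 330) (nat_lit 190)))) (XT.nd (nat_lit 78) (nat_lit 152) (nat_lit 0) (XT.lf (nat_lit 0) (nat_lit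 265786560428) (nat_lit 76) (nat_lit 299642626183) (nat_lit 76) (nat_lit 56953775883) (nat_lit 10) (nat_lit 4) (nat_lit 11) (nat_lit 5) (nat_lit 11) (nat_lit 4) (nat_lit 381) (nat_lit 330) (nat_lit 189)) (XT.nd (nat_lit 78) (nat_lit 76) (nat_lit 0) (XT.lf (nat_lit 0) (nat_lit 45358189474) (nat_lit 152) (nat_lit 149704910194) (nat_lit 76) (nat_lit 470953807240) (nat_lit 9) (nat_lit 5) (nat_lit 11) (nat_lit 5) (nat_lit 10) (nat_lit 4) (nat_lit 382) (nat_lit 330) (nat_lit 188)) (XT.lf (nat_lit 0) (nat_lit 75183242404) (nat_lit 76) (nat_lit 79876642247) (nat_lit 152) (nat_lit 557974991123) (nat_lit 8) (nat_lit 5) (nat_lit 9) (nat_lit 5) (nat_lit 10) (nat_lit 4) (nat_lit 383) (nat_lit 330) (nat_lit 187))))))) (XT.nd (nat_lit 43290) (nat_lit 0) (nat_lit 3420) (XT.nd (nat_lit 42822) (nat_lit 0) (nat_lit 6308) (XT.nd (nat_lit 156) (nat_lit 76) (nat_lit 0) (XT.nd (nat_lit 78) (nat_lit 0) (nat_lit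 0) (XT.lf (nat_lit 0) (nat_lit 276883053649) (nat_lit 152) (nat_lit 441014069709) (nat_lit 0) (nat_lit 45749891974) (nat_lit 8) (nat_lit 5) (nat_lit 10) (nat_lit 4) (nat_lit 8) (nat_lit 4) (nat_lit 384) (nat_lit 330) (nat_lit 186)) (XT.lf (nat_lit 0) (nat_lit 409798635964) (nat_lit 152) (nat_lit 229776951231) (nat_lit 0) (nat_lit 178665210951) (nat_lit 8) (nat_lit 5) (nat_lit 10) (nat_lit 4) (nat_lit 8) (nat_lit 4) (nat_lit 385) (nat_lit 330) (nat_lit 185))) (XT.nd (nat_lit 78) (nat_lit 76) (nat_lit 0) (XT.lf (nat_lit 0) (nat_lit 553347181255) (nat_lit 152) (nat_lit 1641404180) (nat_lit 0) (nat_lit 322213512409) (nat_lit 8) (nat_lit 5) (nat_lit 10) (nat_lit 4) (nat_lit 8) (nat_lit 4) (nat_lit 386) (nat_lit 330) (nat_lit 184)) (XT.nd (nat_lit 42510) (nat_lit 0) (nat_lit 7068) (XT.lf (nat_lit 0) (nat_lit 252836843795) (nat_lit 76) (nat_lit 459489995477) (nat_lit 76) (nat_lit 228356100861)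 (nat_lit 7) (nat_lit 4) (nat_lit 8) (nat_lit 5) (nat_lit 8) (nat_lit 4) (nat_lit 387) (nat_lit 330) (nat_lit 183)) (XT.lf (nat_lit 0) (nat_lit 10792044981) (nat_lit 0) (nat_lit 10792044981) (nat_lit 684) (nat_lit 604801271) (nat_lit 100) (nat_lit 5) (nat_lit 100) (nat_lit 3) (nat_lit 109) (nat_lit 3) (nat_lit 331) (nat_lit 331) (nat_lit 238))))) (XT.nd (nat_lit 234) (nat_lit 0) (nat_lit 152) (XT.nd (nat_lit 78) (nat_lit 760) (nat_lit 0) (XT.lf (nat_lit 76) (nat_lit 10287041690) (nat_lit 0) (nat_lit 34994827247) (nat_lit 760) (nat_lit 851600931) (nat_lit 101) (nat_lit 5) (nat_lit 100) (nat_lit 5) (nat_lit 110) (nat_lit 5) (nat_lit 332) (nat_lit 331) (nat_lit 237)) (XT.nd (nat_lit 78) (nat_lit 0) (nat_lit 76) (XT.lf (nat_lit 0) (nat_lit 312404687) (nat_lit 760) (nat_lit 1547789329) (nat_lit 836) (nat_lit 46131664318) (nat_lit 90) (nat_lit 5) (nat_lit 100) (nat_lit 5) (nat_lit 101) (nat_lit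 5) (nat_lit 333) (nat_lit 331) (nat_lit 236)) (XT.lf (nat_lit 0) (nat_lit 2646972232) (nat_lit 760) (nat_lit 13858509568) (nat_lit 836) (nat_lit 33437380861) (nat_lit 91) (nat_lit 5) (nat_lit 101) (nat_lit 5) (nat_lit 102) (nat_lit 5) (nat_lit 334) (nat_lit 331) (nat_lit 235)))) (XT.nd (nat_lit 78) (nat_lit 0) (nat_lit 76) (XT.lf (nat_lit 0) (nat_lit 5931731396) (nat_lit 760) (nat_lit 26822258252) (nat_lit 836) (nat_lit 19257792567) (nat_lit 92) (nat_lit 5) (nat_lit 102) (nat_lit 5) (nat_lit 103) (nat_lit 5) (nat_lit 335) (nat_lit 331) (nat_lit 234)) (XT.nd (nat_lit 78) (nat_lit 0) (nat_lit 0) (XT.lf (nat_lit 0) (nat_lit 10269670630) (nat_lit 760) (nat_lit 40487307076) (nat_lit 836) (nat_lit 3449723395) (nat_lit 93) (nat_lit 5) (nat_lit 103) (nat_lit 5) (nat_lit 104) (nat_lit 5) (nat_lit 336) (nat_lit 331) (nat_lit 233)) (XT.lf (nat_lit 76) (nat_lit 1389766521) (nat_lit 0) (nat_lit 14609993452)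 (nat_lit 836) (nat_lit 40525203087) (nat_lit 94) (nat_lit 5) (nat_lit 93) (nat_lit 5) (nat_lit 104) (nat_lit 5) (nat_lit 337) (nat_lit 331) (nat_lit 232)))))) (XT.nd (nat_lit 468) (nat_lit 1444) (nat_lit 0) (XT.nd (nat_lit 234) (nat_lit 684) (nat_lit 0) (XT.nd (nat_lit 78) (nat_lit 1064) (nat_lit 0) (XT.lf (nat_lit 0) (nat_lit 23282961999) (nat_lit 760) (nat_lit 11326749945) (nat_lit 76) (nat_lit 24364243670) (nat_lit 94) (nat_lit 5) (nat_lit 104) (nat_lit 5) (nat_lit 95) (nat_lit 5) (nat_lit 338) (nat_lit 331) (nat_lit 231)) (XT.nd (nat_lit 78) (nat_lit 380) (nat_lit 0) (XT.lf (nat_lit 0) (nat_lit 32045606500) (nat_lit 760) (nat_lit 24736460941) (nat_lit 76) (nat_lit 4791965368) (nat_lit 85) (nat_lit 5) (nat_lit 95) (nat_lit 5) (nat_lit 86) (nat_lit 5) (nat_lit 339) (nat_lit 331) (nat_lit 230)) (XT.lf (nat_lit 0) (nat_lit 25100871051) (nat_lit 380) (nat_lit 17581351065) (nat_lit 456) (nat_lit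 21641250301) (nat_lit 80) (nat_lit 5) (nat_lit 85) (nat_lit 5) (nat_lit 86) (nat_lit 5) (nat_lit 340) (nat_lit 331) (nat_lit 229)))) (XT.nd (nat_lit 78) (nat_lit 380) (nat_lit 0) (XT.lf (nat_lit 0) (nat_lit 12542078666) (nat_lit 304) (nat_lit 42645089307) (nat_lit 380) (nat_lit 12054833074) (nat_lit 76) (nat_lit 5) (nat_lit 80) (nat_lit 5) (nat_lit 81) (nat_lit 5) (nat_lit 341) (nat_lit 331) (nat_lit 228)) (XT.nd (nat_lit 78) (nat_lit 380) (nat_lit 0) (XT.lf (nat_lit 0) (nat_lit 69539454273) (nat_lit 304) (nat_lit 125253717) (nat_lit 380) (nat_lit 680697666) (nat_lit 76) (nat_lit 5) (nat_lit 80) (nat_lit 5) (nat_lit 81) (nat_lit 5) (nat_lit 342) (nat_lit 331) (nat_lit 227)) (XT.lf (nat_lit 0) (nat_lit 12885373475) (nat_lit 380) (nat_lit 15267657588) (nat_lit 76) (nat_lit 45452327444) (nat_lit 71) (nat_lit 5) (nat_lit 76) (nat_lit 5) (nat_lit 72) (nat_lit 5) (nat_lit 343) (nat_lit 331) (nat_lit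 226))))) (XT.nd (nat_lit 234) (nat_lit 608) (nat_lit 0) (XT.nd (nat_lit 78) (nat_lit 532) (nat_lit 0) (XT.lf (nat_lit 0) (nat_lit 28540871919) (nat_lit 380) (nat_lit 30783876186) (nat_lit 76) (nat_lit 17749404986) (nat_lit 67) (nat_lit 5) (nat_lit 72) (nat_lit 5) (nat_lit 68) (nat_lit 5) (nat_lit 344) (nat_lit 331) (nat_lit 225)) (XT.nd (nat_lit 78) (nat_lit 228) (nat_lit 0) (XT.lf (nat_lit 0) (nat_lit 33088131588) (nat_lit 304) (nat_lit 13620028362) (nat_lit 380) (nat_lit 34049326537) (nat_lit 63) (nat_lit 5) (nat_lit 67) (nat_lit 5) (nat_lit 68) (nat_lit 5) (nat_lit 345) (nat_lit 331) (nat_lit 224)) (XT.lf (nat_lit 0) (nat_lit 18482551554) (nat_lit 228) (nat_lit 49235735872) (nat_lit 304) (nat_lit 16947728839) (nat_lit 60) (nat_lit 5) (nat_lit 63) (nat_lit 5) (nat_lit 64) (nat_lit 5) (nat_lit 346) (nat_lit 331) (nat_lit 223)))) (XT.nd (nat_lit 78) (nat_lit 228) (nat_lit 0) (XT.lf (nat_lit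 0) (nat_lit 2585569340) (nat_lit 380) (nat_lit 86234037992) (nat_lit 76) (nat_lit 10820888) (nat_lit 55) (nat_lit 5) (nat_lit 60) (nat_lit 5) (nat_lit 56) (nat_lit 5) (nat_lit 347) (nat_lit 331) (nat_lit 222)) (XT.nd (nat_lit 78) (nat_lit 228) (nat_lit 0) (XT.lf (nat_lit 0) (nat_lit 25095716397) (nat_lit 380) (nat_lit 15165831733) (nat_lit 76) (nat_lit 52952157943) (nat_lit 55) (nat_lit 5) (nat_lit 60) (nat_lit 5) (nat_lit 56) (nat_lit 5) (nat_lit 348) (nat_lit 331) (nat_lit 221)) (XT.lf (nat_lit 0) (nat_lit 50604625249) (nat_lit 304) (nat_lit 34482844586) (nat_lit 76) (nat_lit 12800280730) (nat_lit 52) (nat_lit 5) (nat_lit 56) (nat_lit 5) (nat_lit 53) (nat_lit 5) (nat_lit 349) (nat_lit 331) (nat_lit 220))))))))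
noncomputable def xc99 : XT := (XT.nd (nat_lit 1794) (nat_lit 684) (nat_lit 0) (XT.nd (nat_lit 858) (nat_lit 912) (nat_lit 0) (XT.nd (nat_lit 390) (nat_lit 912) (nat_lit 0) (XT.nd (nat_lit 156) (nat_lit 380) (nat_lit 0) (XT.nd (nat_lit 78) (nat_lit 228) (nat_lit 0) (XT.lf (nat_lit 0) (nat_lit 46689078356) (nat_lit 228) (nat_lit 33139778752) (nat_lit 304) (nat_lit 23023132763) (nat_lit 49) (nat_lit 5) (nat_lit 52) (nat_lit 5) (nat_lit 53) (nat_lit 5) (nat_lit 350) (nat_lit 331) (nat_lit 219)) (XT.lf (nat_lit 0) (nat_lit 4502355504) (nat_lit 228) (nat_lit 80289979261) (nat_lit 76) (nat_lit 23347234447) (nat_lit 46) (nat_lit 5) (nat_lit 49) (nat_lit 5) (nat_lit 47) (nat_lit 5) (nat_lit 351) (nat_lit 331) (nat_lit 218))) (XT.nd (nat_lit 78) (nat_lit 152) (nat_lit 0) (XT.lf (nat_lit 0) (nat_lit 6014538923) (nat_lit 228) (nat_lit 29064981071) (nat_lit 304) (nat_lit 78668952154) (nat_lit 43) (nat_lit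 5) (nat_lit 46) (nat_lit 5) (nat_lit 47) (nat_lit 5) (nat_lit 352) (nat_lit 331) (nat_lit 217)) (XT.nd (nat_lit 78) (nat_lit 152) (nat_lit 0) (XT.lf (nat_lit 0) (nat_lit 70008747120) (nat_lit 304) (nat_lit 18156709429) (nat_lit 76) (nat_lit 31545337634) (nat_lit 43) (nat_lit 5) (nat_lit 47) (nat_lit 5) (nat_lit 44) (nat_lit 5) (nat_lit 353) (nat_lit 331) (nat_lit 216)) (XT.lf (nat_lit 0) (nat_lit 80676636772) (nat_lit 152) (nat_lit 28803947902) (nat_lit 228) (nat_lit 16582104934) (nat_lit 41) (nat_lit 5) (nat_lit 43) (nat_lit 5) (nat_lit 44) (nat_lit 5) (nat_lit 354) (nat_lit 331) (nat_lit 215))))) (XT.nd (nat_lit 234) (nat_lit 532) (nat_lit 0) (XT.nd (nat_lit 78) (nat_lit 152) (nat_lit 0) (XT.lf (nat_lit 0) (nat_lit 20354026356) (nat_lit 228) (nat_lit 76758527390) (nat_lit 76) (nat_lit 35706169961) (nat_lit 38) (nat_lit 5) (nat_lit 41) (nat_lit 5) (nat_lit 39) (nat_lit 5) (nat_lit 355)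 (nat_lit 331) (nat_lit 214)) (XT.nd (nat_lit 78) (nat_lit 0) (nat_lit 0) (XT.lf (nat_lit 0) (nat_lit 27259331662) (nat_lit 152) (nat_lit 34126068224) (nat_lit 228) (nat_lit 78630184375) (nat_lit 36) (nat_lit 5) (nat_lit 38) (nat_lit 5) (nat_lit 39) (nat_lit 5) (nat_lit 356) (nat_lit 331) (nat_lit 213)) (XT.lf (nat_lit 0) (nat_lit 107586307754) (nat_lit 228) (nat_lit 5934884189) (nat_lit 76) (nat_lit 34172651429) (nat_lit 36) (nat_lit 5) (nat_lit 39) (nat_lit 5) (nat_lit 37) (nat_lit 5) (nat_lit 357) (nat_lit 331) (nat_lit 212)))) (XT.nd (nat_lit 78) (nat_lit 304) (nat_lit 0) (XT.lf (nat_lit 0) (nat_lit 3817211637) (nat_lit 228) (nat_lit 43477286103) (nat_lit 76) (nat_lit 108572287863) (nat_lit 33) (nat_lit 5) (nat_lit 36) (nat_lit 5) (nat_lit 34) (nat_lit 5) (nat_lit 358) (nat_lit 331) (nat_lit 211)) (XT.nd (nat_lit 78) (nat_lit 152) (nat_lit 0) (XT.lf (nat_lit 0) (nat_lit 51594513055)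 (nat_lit 228) (nat_lit 87500789288) (nat_lit 76) (nat_lit 25478199253) (nat_lit 31) (nat_lit 5) (nat_lit 34) (nat_lit 5) (nat_lit 32) (nat_lit 5) (nat_lit 359) (nat_lit 331) (nat_lit 210)) (XT.lf (nat_lit 0) (nat_lit 35195185386) (nat_lit 152) (nat_lit 70114475071) (nat_lit 228) (nat_lit 68561312026) (nat_lit 29) (nat_lit 5) (nat_lit 31) (nat_lit 5) (nat_lit 32) (nat_lit 5) (nat_lit 360) (nat_lit 331) (nat_lit 209)))))) (XT.nd (nat_lit 468) (nat_lit 304) (nat_lit 0) (XT.nd (nat_lit 234) (nat_lit 304) (nat_lit 0) (XT.nd (nat_lit 78) (nat_lit 304) (nat_lit 0) (XT.lf (nat_lit 0) (nat_lit 164938648067) (nat_lit 228) (nat_lit 13099753605) (nat_lit 76) (nat_lit 5793008604) (nat_lit 29) (nat_lit 5) (nat_lit 32) (nat_lit 5) (nat_lit 30) (nat_lit 4) (nat_lit 361) (nat_lit 331) (nat_lit 208)) (XT.nd (nat_lit 78) (nat_lit 152) (nat_lit 0) (XT.lf (nat_lit 0) (nat_lit 36826907529) (nat_lit 152) (nat_lit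 69675254747) (nat_lit 76) (nat_lit 87899903237) (nat_lit 27) (nat_lit 5) (nat_lit 29) (nat_lit 5) (nat_lit 28) (nat_lit 5) (nat_lit 362) (nat_lit 331) (nat_lit 207)) (XT.lf (nat_lit 0) (nat_lit 70162070025) (nat_lit 152) (nat_lit 27515457802) (nat_lit 228) (nat_lit 108058595640) (nat_lit 25) (nat_lit 5) (nat_lit 27) (nat_lit 5) (nat_lit 28) (nat_lit 5) (nat_lit 363) (nat_lit 331) (nat_lit 206)))) (XT.nd (nat_lit 78) (nat_lit 228) (nat_lit 0) (XT.lf (nat_lit 0) (nat_lit 4994391086) (nat_lit 76) (nat_lit 160614760878) (nat_lit 152) (nat_lit 52257106879) (nat_lit 24) (nat_lit 5) (nat_lit 25) (nat_lit 5) (nat_lit 26) (nat_lit 4) (nat_lit 364) (nat_lit 331) (nat_lit 205)) (XT.nd (nat_lit 78) (nat_lit 152) (nat_lit 0) (XT.lf (nat_lit 0) (nat_lit 10615611961) (nat_lit 152) (nat_lit 69828318114) (nat_lit 76) (nat_lit 150373452003) (nat_lit 23) (nat_lit 5) (nat_lit 25) (nat_lit 5) (nat_lit 24) (nat_lit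 5) (nat_lit 365) (nat_lit 331) (nat_lit 204)) (XT.lf (nat_lit 0) (nat_lit 78194685418) (nat_lit 228) (nat_lit 158279279307) (nat_lit 76) (nat_lit 8212428578) (nat_lit 21) (nat_lit 5) (nat_lit 24) (nat_lit 5) (nat_lit 22) (nat_lit 4) (nat_lit 366) (nat_lit 331) (nat_lit 203))))) (XT.nd (nat_lit 234) (nat_lit 76) (nat_lit 0) (XT.nd (nat_lit 78) (nat_lit 228) (nat_lit 0) (XT.lf (nat_lit 0) (nat_lit 153772057976) (nat_lit 228) (nat_lit 3346909119) (nat_lit 76) (nat_lit 102416360046) (nat_lit 21) (nat_lit 5) (nat_lit 24) (nat_lit 5) (nat_lit 22) (nat_lit 4) (nat_lit 367) (nat_lit 331) (nat_lit 202)) (XT.nd (nat_lit 78) (nat_lit 152) (nat_lit 0) (XT.lf (nat_lit 0) (nat_lit 169400673410) (nat_lit 76) (nat_lit 68639059672) (nat_lit 152) (nat_lit 37400237313) (nat_lit 20) (nat_lit 5) (nat_lit 21) (nat_lit 5) (nat_lit 22) (nat_lit 4) (nat_lit 368) (nat_lit 331) (nat_lit 201)) (XT.lf (nat_lit 0) (nat_lit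 36786124589) (nat_lit 152) (nat_lit 227999726075) (nat_lit 76) (nat_lit 27726677908) (nat_lit 18) (nat_lit 5) (nat_lit 20) (nat_lit 5) (nat_lit 19) (nat_lit 4) (nat_lit 369) (nat_lit 331) (nat_lit 200)))) (XT.nd (nat_lit 78) (nat_lit 76) (nat_lit 0) (XT.lf (nat_lit 0) (nat_lit 118648727963) (nat_lit 152) (nat_lit 60182329323) (nat_lit 76) (nat_lit 131936595735) (nat_lit 18) (nat_lit 5) (nat_lit 20) (nat_lit 5) (nat_lit 19) (nat_lit 4) (nat_lit 370) (nat_lit 331) (nat_lit 199)) (XT.nd (nat_lit 78) (nat_lit 0) (nat_lit 0) (XT.lf (nat_lit 0) (nat_lit 125062120089) (nat_lit 76) (nat_lit 83950178574) (nat_lit 152) (nat_lit 121373291072) (nat_lit 17) (nat_lit 5) (nat_lit 18) (nat_lit 5) (nat_lit 19) (nat_lit 4) (nat_lit 371) (nat_lit 331) (nat_lit 198)) (XT.lf (nat_lit 0) (nat_lit 307959055748) (nat_lit 152) (nat_lit 24552762442) (nat_lit 0) (nat_lit 18993438404) (nat_lit 17) (nat_lit 5) (nat_lit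 19) (nat_lit 4) (nat_lit 17) (nat_lit 4) (nat_lit 372) (nat_lit 331) (nat_lit 197))))))) (XT.nd (nat_lit 858) (nat_lit 76) (nat_lit 0) (XT.nd (nat_lit 390) (nat_lit 304) (nat_lit 0) (XT.nd (nat_lit 156) (nat_lit 152) (nat_lit 0) (XT.nd (nat_lit 78) (nat_lit 0) (nat_lit 0) (XT.lf (nat_lit 0) (nat_lit 43423585674) (nat_lit 152) (nat_lit 199947977505) (nat_lit 76) (nat_lit 130700662010) (nat_lit 15) (nat_lit 5) (nat_lit 17) (nat_lit 5) (nat_lit 16) (nat_lit 4) (nat_lit 373) (nat_lit 331) (nat_lit 196)) (XT.lf (nat_lit 0) (nat_lit 136279879953) (nat_lit 152) (nat_lit 9593232375) (nat_lit 76) (nat_lit 252513016955) (nat_lit 15) (nat_lit 5) (nat_lit 17) (nat_lit 5) (nat_lit 16) (nat_lit 4) (nat_lit 374) (nat_lit 331) (nat_lit 195))) (XT.nd (nat_lit 78) (nat_lit 76) (nat_lit 0) (XT.lf (nat_lit 0) (nat_lit 202469269969) (nat_lit 76) (nat_lit 37256030343) (nat_lit 152) (nat_lit 184761814450) (nat_lit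 14) (nat_lit 5) (nat_lit 15) (nat_lit 5) (nat_lit 16) (nat_lit 4) (nat_lit 375) (nat_lit 331) (nat_lit 194)) (XT.nd (nat_lit 78) (nat_lit 76) (nat_lit 0) (XT.lf (nat_lit 0) (nat_lit 352865539497) (nat_lit 152) (nat_lit 22081912350) (nat_lit 0) (nat_lit 77657768142) (nat_lit 14) (nat_lit 5) (nat_lit 16) (nat_lit 4) (nat_lit 14) (nat_lit 4) (nat_lit 376) (nat_lit 331) (nat_lit 193)) (XT.lf (nat_lit 0) (nat_lit 199608595333) (nat_lit 76) (nat_lit 279192618299) (nat_lit 76) (nat_lit 3984349369) (nat_lit 13) (nat_lit 4) (nat_lit 14) (nat_lit 5) (nat_lit 14) (nat_lit 4) (nat_lit 377) (nat_lit 331) (nat_lit 192))))) (XT.nd (nat_lit 234) (nat_lit 152) (nat_lit 0) (XT.nd (nat_lit 78) (nat_lit 76) (nat_lit 0) (XT.lf (nat_lit 0) (nat_lit 96639515475) (nat_lit 152) (nat_lit 77097722924) (nat_lit 76) (nat_lit 341545948384) (nat_lit 12) (nat_lit 5) (nat_lit 14) (nat_lit 5) (nat_lit 13) (nat_lit 4) (nat_lit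 378) (nat_lit 331) (nat_lit 191)) (XT.nd (nat_lit 78) (nat_lit 0) (nat_lit 0) (XT.lf (nat_lit 0) (nat_lit 150207520619) (nat_lit 76) (nat_lit 57312809555) (nat_lit 152) (nat_lit 342739692919) (nat_lit 11) (nat_lit 5) (nat_lit 12) (nat_lit 5) (nat_lit 13) (nat_lit 4) (nat_lit 379) (nat_lit 331) (nat_lit 190)) (XT.lf (nat_lit 0) (nat_lit 329704553224) (nat_lit 152) (nat_lit 190608587326) (nat_lit 0) (nat_lit 67600218718) (nat_lit 11) (nat_lit 5) (nat_lit 13) (nat_lit 4) (nat_lit 11) (nat_lit 4) (nat_lit 380) (nat_lit 331) (nat_lit 189)))) (XT.nd (nat_lit 78) (nat_lit 76) (nat_lit 0) (XT.lf (nat_lit 0) (nat_lit 35768596132) (nat_lit 76) (nat_lit 427419412214) (nat_lit 76) (nat_lit 165314729391) (nat_lit 10) (nat_lit 4) (nat_lit 11) (nat_lit 5) (nat_lit 11) (nat_lit 4) (nat_lit 381) (nat_lit 331) (nat_lit 188)) (XT.nd (nat_lit 78) (nat_lit 76) (nat_lit 0) (XT.lf (nat_lit 0) (nat_lit 287061889628)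 (nat_lit 76) (nat_lit 323608192590) (nat_lit 76) (nat_lit 61503187251) (nat_lit 10) (nat_lit 4) (nat_lit 11) (nat_lit 5) (nat_lit 11) (nat_lit 4) (nat_lit 382) (nat_lit 331) (nat_lit 187)) (XT.lf (nat_lit 0) (nat_lit 48993020704) (nat_lit 152) (nat_lit 161669611521) (nat_lit 76) (nat_lit 508635316675) (nat_lit 9) (nat_lit 5) (nat_lit 11) (nat_lit 5) (nat_lit 10) (nat_lit 4) (nat_lit 383) (nat_lit 331) (nat_lit 186)))))) (XT.nd (nat_lit 42978) (nat_lit 0) (nat_lit 6232) (XT.nd (nat_lit 234) (nat_lit 0) (nat_lit 0) (XT.nd (nat_lit 78) (nat_lit 0) (nat_lit 0) (XT.lf (nat_lit 0) (nat_lit 81209085188) (nat_lit 76) (nat_lit 86261483425) (nat_lit 152) (nat_lit 602606800938) (nat_lit 8) (nat_lit 5) (nat_lit 9) (nat_lit 5) (nat_lit 10) (nat_lit 4) (nat_lit 384) (nat_lit 331) (nat_lit 185)) (XT.nd (nat_lit 78) (nat_lit 0) (nat_lit 0) (XT.lf (nat_lit 0) (nat_lit 299039231074) (nat_lit 152) (nat_lit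 476284642432) (nat_lit 0) (nat_lit 49414624889) (nat_lit 8) (nat_lit 5) (nat_lit 10) (nat_lit 4) (nat_lit 8) (nat_lit 4) (nat_lit 385) (nat_lit 331) (nat_lit 184)) (XT.lf (nat_lit 0) (nat_lit 442587650113) (nat_lit 152) (nat_lit 248149336168) (nat_lit 0) (nat_lit 192962818158) (nat_lit 8) (nat_lit 5) (nat_lit 10) (nat_lit 4) (nat_lit 8) (nat_lit 4) (nat_lit 386) (nat_lit 331) (nat_lit 183)))) (XT.nd (nat_lit 42588) (nat_lit 0) (nat_lit 6992) (XT.lf (nat_lit 0) (nat_lit 597619699525) (nat_lit 152) (nat_lit 1763669143) (nat_lit 0) (nat_lit 347994658523) (nat_lit 8) (nat_lit 5) (nat_lit 10) (nat_lit 4) (nat_lit 8) (nat_lit 4) (nat_lit 387) (nat_lit 331) (nat_lit 182)) (XT.nd (nat_lit 78) (nat_lit 0) (nat_lit 0) (XT.lf (nat_lit 0) (nat_lit 11679459507) (nat_lit 0) (nat_lit 11679459507) (nat_lit 684) (nat_lit 602604439) (nat_lit 100) (nat_lit 5) (nat_lit 100) (nat_lit 3) (nat_lit 109) (nat_lit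 3) (nat_lit 332) (nat_lit 332) (nat_lit 236)) (XT.lf (nat_lit 76) (nat_lit 11161477481) (nat_lit 0) (nat_lit 37832126735) (nat_lit 760) (nat_lit 825946941) (nat_lit 101) (nat_lit 5) (nat_lit 100) (nat_lit 5) (nat_lit 110) (nat_lit 5) (nat_lit 333) (nat_lit 332) (nat_lit 235))))) (XT.nd (nat_lit 234) (nat_lit 0) (nat_lit 228) (XT.nd (nat_lit 78) (nat_lit 0) (nat_lit 76) (XT.lf (nat_lit 0) (nat_lit 421453036) (nat_lit 760) (nat_lit 1621052701) (nat_lit 836) (nat_lit 49784377643) (nat_lit 90) (nat_lit 5) (nat_lit 100) (nat_lit 5) (nat_lit 101) (nat_lit 5) (nat_lit 334) (nat_lit 332) (nat_lit 234)) (XT.nd (nat_lit 78) (nat_lit 0) (nat_lit 76) (XT.lf (nat_lit 0) (nat_lit 2936842837) (nat_lit 760) (nat_lit 14914314867) (nat_lit 836) (nat_lit 36083116455) (nat_lit 91) (nat_lit 5) (nat_lit 101) (nat_lit 5) (nat_lit 102) (nat_lit 5) (nat_lit 335) (nat_lit 332) (nat_lit 233)) (XT.lf (nat_lit 0) (nat_lit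 6479034363) (nat_lit 760) (nat_lit 28913350054) (nat_lit 836) (nat_lit 20776598567) (nat_lit 92) (nat_lit 5) (nat_lit 102) (nat_lit 5) (nat_lit 103) (nat_lit 5) (nat_lit 336) (nat_lit 332) (nat_lit 232)))) (XT.nd (nat_lit 78) (nat_lit 0) (nat_lit 0) (XT.lf (nat_lit 0) (nat_lit 11159187598) (nat_lit 760) (nat_lit 43670226104) (nat_lit 836) (nat_lit 3710330409) (nat_lit 93) (nat_lit 5) (nat_lit 103) (nat_lit 5) (nat_lit 104) (nat_lit 5) (nat_lit 337) (nat_lit 332) (nat_lit 231)) (XT.nd (nat_lit 78) (nat_lit 0) (nat_lit 76) (XT.lf (nat_lit 76) (nat_lit 1554576842) (nat_lit 0) (nat_lit 15788911708) (nat_lit 836) (nat_lit 43700195359) (nat_lit 94) (nat_lit 5) (nat_lit 93) (nat_lit 5) (nat_lit 104) (nat_lit 5) (nat_lit 338) (nat_lit 332) (nat_lit 230)) (XT.lf (nat_lit 0) (nat_lit 25204478400) (nat_lit 760) (nat_lit 12180053665) (nat_lit 76) (nat_lit 26304313797) (nat_lit 94) (nat_lit 5) (nat_lit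 104) (nat_lit 5) (nat_lit 95) (nat_lit 5) (nat_lit 339) (nat_lit 332) (nat_lit 229))))))))
noncomputable def xc100 : XT := (XT.nd (nat_lit 1716) (nat_lit 1520) (nat_lit 0) (XT.nd (nat_lit 858) (nat_lit 1748) (nat_lit 0) (XT.nd (nat_lit 390) (nat_lit 1444) (nat_lit 0) (XT.nd (nat_lit 156) (nat_lit 684) (nat_lit 0) (XT.nd (nat_lit 78) (nat_lit 380) (nat_lit 0) (XT.lf (nat_lit 0) (nat_lit 34664487667) (nat_lit 760) (nat_lit 26661921824) (nat_lit 76) (nat_lit 5170708173) (nat_lit 85) (nat_lit 5) (nat_lit 95) (nat_lit 5) (nat_lit 86) (nat_lit 5) (nat_lit 340) (nat_lit 332) (nat_lit 228)) (XT.lf (nat_lit 0) (nat_lit 27160073596) (nat_lit 380) (nat_lit 18988665957) (nat_lit 456) (nat_lit 23317943177) (nat_lit 80) (nat_lit 5) (nat_lit 85) (nat_lit 5) (nat_lit 86) (nat_lit 5) (nat_lit 341) (nat_lit 332) (nat_lit 227))) (XT.nd (nat_lit 78) (nat_lit 380) (nat_lit 0) (XT.lf (nat_lit 0) (nat_lit 13596919253)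 (nat_lit 304) (nat_lit 46054106437) (nat_lit 380) (nat_lit 12967825951) (nat_lit 76) (nat_lit 5) (nat_lit 80) (nat_lit 5) (nat_lit 81) (nat_lit 5) (nat_lit 342) (nat_lit 332) (nat_lit 226)) (XT.nd (nat_lit 78) (nat_lit 380) (nat_lit 0) (XT.lf (nat_lit 0) (nat_lit 75150271998) (nat_lit 304) (nat_lit 132875852) (nat_lit 380) (nat_lit 687566656) (nat_lit 76) (nat_lit 5) (nat_lit 80) (nat_lit 5) (nat_lit 81) (nat_lit 5) (nat_lit 343) (nat_lit 332) (nat_lit 225)) (XT.lf (nat_lit 0) (nat_lit 13959648367) (nat_lit 380) (nat_lit 16439803524) (nat_lit 76) (nat_lit 49092109747) (nat_lit 71) (nat_lit 5) (nat_lit 76) (nat_lit 5) (nat_lit 72) (nat_lit 5) (nat_lit 344) (nat_lit 332) (nat_lit 224))))) (XT.nd (nat_lit 234) (nat_lit 608) (nat_lit 0) (XT.nd (nat_lit 78) (nat_lit 532) (nat_lit 0) (XT.lf (nat_lit 0) (nat_lit 30865200521) (nat_lit 380) (nat_lit 33197459418) (nat_lit 76) (nat_lit 19175323105)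 (nat_lit 67) (nat_lit 5) (nat_lit 72) (nat_lit 5) (nat_lit 68) (nat_lit 5) (nat_lit 345) (nat_lit 332) (nat_lit 223)) (XT.nd (nat_lit 78) (nat_lit 228) (nat_lit 0) (XT.lf (nat_lit 0) (nat_lit 35782173984) (nat_lit 304) (nat_lit 14701389890) (nat_lit 380) (nat_lit 36732538281) (nat_lit 63) (nat_lit 5) (nat_lit 67) (nat_lit 5) (nat_lit 68) (nat_lit 5) (nat_lit 346) (nat_lit 332) (nat_lit 222)) (XT.lf (nat_lit 0) (nat_lit 20007879330) (nat_lit 228) (nat_lit 53164600382) (nat_lit 304) (nat_lit 18264939079) (nat_lit 60) (nat_lit 5) (nat_lit 63) (nat_lit 5) (nat_lit 64) (nat_lit 5) (nat_lit 347) (nat_lit 332) (nat_lit 221)))) (XT.nd (nat_lit 78) (nat_lit 228) (nat_lit 0) (XT.lf (nat_lit 0) (nat_lit 2827901154) (nat_lit 380) (nat_lit 93085209419) (nat_lit 76) (nat_lit 21940281) (nat_lit 55) (nat_lit 5) (nat_lit 60) (nat_lit 5) (nat_lit 56) (nat_lit 5) (nat_lit 348) (nat_lit 332) (nat_lit 220))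 (XT.nd (nat_lit 78) (nat_lit 228) (nat_lit 0) (XT.lf (nat_lit 0) (nat_lit 27136231363) (nat_lit 380) (nat_lit 16335069000) (nat_lit 76) (nat_lit 57197824765) (nat_lit 55) (nat_lit 5) (nat_lit 60) (nat_lit 5) (nat_lit 56) (nat_lit 5) (nat_lit 349) (nat_lit 332) (nat_lit 219)) (XT.lf (nat_lit 0) (nat_lit 54684248848) (nat_lit 304) (nat_lit 37197942567) (nat_lit 76) (nat_lit 13834984527) (nat_lit 52) (nat_lit 5) (nat_lit 56) (nat_lit 5) (nat_lit 53) (nat_lit 5) (nat_lit 350) (nat_lit 332) (nat_lit 218)))))) (XT.nd (nat_lit 390) (nat_lit 912) (nat_lit 0) (XT.nd (nat_lit 156) (nat_lit 380) (nat_lit 0) (XT.nd (nat_lit 78) (nat_lit 228) (nat_lit 0) (XT.lf (nat_lit 0) (nat_lit 50465842467) (nat_lit 228) (nat_lit 35778911793) (nat_lit 304) (nat_lit 24833885753) (nat_lit 49) (nat_lit 5) (nat_lit 52) (nat_lit 5) (nat_lit 53) (nat_lit 5) (nat_lit 351) (nat_lit 332) (nat_lit 217)) (XT.lf (nat_lit 0)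 (nat_lit 4891245575) (nat_lit 228) (nat_lit 86671110646) (nat_lit 76) (nat_lit 25226917328) (nat_lit 46) (nat_lit 5) (nat_lit 49) (nat_lit 5) (nat_lit 47) (nat_lit 5) (nat_lit 352) (nat_lit 332) (nat_lit 216))) (XT.nd (nat_lit 78) (nat_lit 152) (nat_lit 0) (XT.lf (nat_lit 0) (nat_lit 6535940814) (nat_lit 228) (nat_lit 31377144603) (nat_lit 304) (nat_lit 84933880127) (nat_lit 43) (nat_lit 5) (nat_lit 46) (nat_lit 5) (nat_lit 47) (nat_lit 5) (nat_lit 353) (nat_lit 332) (nat_lit 215)) (XT.nd (nat_lit 78) (nat_lit 152) (nat_lit 0) (XT.lf (nat_lit 0) (nat_lit 75634824053) (nat_lit 304) (nat_lit 19570894664) (nat_lit 76) (nat_lit 34080647750) (nat_lit 43) (nat_lit 5) (nat_lit 47) (nat_lit 5) (nat_lit 44) (nat_lit 5) (nat_lit 354) (nat_lit 332) (nat_lit 214)) (XT.lf (nat_lit 0) (nat_lit 87167452522) (nat_lit 152) (nat_lit 31095649052) (nat_lit 228) (nat_lit 17883378963) (nat_lit 41) (nat_lit 5)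 (nat_lit 43) (nat_lit 5) (nat_lit 44) (nat_lit 5) (nat_lit 355) (nat_lit 332) (nat_lit 213))))) (XT.nd (nat_lit 234) (nat_lit 532) (nat_lit 0) (XT.nd (nat_lit 78) (nat_lit 152) (nat_lit 0) (XT.lf (nat_lit 0) (nat_lit 22005777352) (nat_lit 228) (nat_lit 82862343456) (nat_lit 76) (nat_lit 38574911067) (nat_lit 38) (nat_lit 5) (nat_lit 41) (nat_lit 5) (nat_lit 39) (nat_lit 5) (nat_lit 356) (nat_lit 332) (nat_lit 212)) (XT.nd (nat_lit 78) (nat_lit 0) (nat_lit 0) (XT.lf (nat_lit 0) (nat_lit 29475342162) (nat_lit 152) (nat_lit 36843133698) (nat_lit 228) (nat_lit 84897226012) (nat_lit 36) (nat_lit 5) (nat_lit 38) (nat_lit 5) (nat_lit 39) (nat_lit 5) (nat_lit 357) (nat_lit 332) (nat_lit 211)) (XT.lf (nat_lit 0) (nat_lit 116213996877) (nat_lit 228) (nat_lit 6376165834) (nat_lit 76) (nat_lit 36918133232) (nat_lit 36) (nat_lit 5) (nat_lit 39) (nat_lit 5) (nat_lit 37) (nat_lit 5) (nat_lit 358) (nat_lit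 332) (nat_lit 210)))) (XT.nd (nat_lit 78) (nat_lit 304) (nat_lit 0) (XT.lf (nat_lit 0) (nat_lit 4142671656) (nat_lit 228) (nat_lit 46922738304) (nat_lit 76) (nat_lit 117269700514) (nat_lit 33) (nat_lit 5) (nat_lit 36) (nat_lit 5) (nat_lit 34) (nat_lit 5) (nat_lit 359) (nat_lit 332) (nat_lit 209)) (XT.nd (nat_lit 78) (nat_lit 152) (nat_lit 0) (XT.lf (nat_lit 0) (nat_lit 55741349211) (nat_lit 228) (nat_lit 94468768019) (nat_lit 76) (nat_lit 27528287939) (nat_lit 31) (nat_lit 5) (nat_lit 34) (nat_lit 5) (nat_lit 32) (nat_lit 5) (nat_lit 360) (nat_lit 332) (nat_lit 208)) (XT.lf (nat_lit 0) (nat_lit 38041490280) (nat_lit 152) (nat_lit 75711269497) (nat_lit 228) (nat_lit 74026962329) (nat_lit 29) (nat_lit 5) (nat_lit 31) (nat_lit 5) (nat_lit 32) (nat_lit 5) (nat_lit 361) (nat_lit 332) (nat_lit 207))))))) (XT.nd (nat_lit 858) (nat_lit 608) (nat_lit 0) (XT.nd (nat_lit 390) (nat_lit 456) (nat_lit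 0) (XT.nd (nat_lit 156) (nat_lit 304) (nat_lit 0) (XT.nd (nat_lit 78) (nat_lit 152) (nat_lit 0) (XT.lf (nat_lit 0) (nat_lit 178150887610) (nat_lit 228) (nat_lit 14118636478) (nat_lit 76) (nat_lit 6267530652) (nat_lit 29) (nat_lit 5) (nat_lit 32) (nat_lit 5) (nat_lit 30) (nat_lit 4) (nat_lit 362) (nat_lit 332) (nat_lit 206)) (XT.lf (nat_lit 0) (nat_lit 39789649425) (nat_lit 152) (nat_lit 75220884056) (nat_lit 76) (nat_lit 94942858132) (nat_lit 27) (nat_lit 5) (nat_lit 29) (nat_lit 5) (nat_lit 28) (nat_lit 5) (nat_lit 363) (nat_lit 332) (nat_lit 205))) (XT.nd (nat_lit 78) (nat_lit 152) (nat_lit 0) (XT.lf (nat_lit 0) (nat_lit 75802192856) (nat_lit 152) (nat_lit 29705321654) (nat_lit 228) (nat_lit 116686700652) (nat_lit 25) (nat_lit 5) (nat_lit 27) (nat_lit 5) (nat_lit 28) (nat_lit 5) (nat_lit 364) (nat_lit 332) (nat_lit 204)) (XT.nd (nat_lit 78) (nat_lit 76) (nat_lit 0) (XT.lf (nat_lit 0)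 (nat_lit 5420513032) (nat_lit 76) (nat_lit 173452565577) (nat_lit 152) (nat_lit 56421712921) (nat_lit 24) (nat_lit 5) (nat_lit 25) (nat_lit 5) (nat_lit 26) (nat_lit 4) (nat_lit 365) (nat_lit 332) (nat_lit 203)) (XT.lf (nat_lit 0) (nat_lit 11479167964) (nat_lit 152) (nat_lit 75389500729) (nat_lit 76) (nat_lit 162413381283) (nat_lit 23) (nat_lit 5) (nat_lit 25) (nat_lit 5) (nat_lit 24) (nat_lit 5) (nat_lit 366) (nat_lit 332) (nat_lit 202))))) (XT.nd (nat_lit 234) (nat_lit 228) (nat_lit 0) (XT.nd (nat_lit 78) (nat_lit 76) (nat_lit 0) (XT.lf (nat_lit 0) (nat_lit 84464044029) (nat_lit 228) (nat_lit 170917102940) (nat_lit 76) (nat_lit 8879461836) (nat_lit 21) (nat_lit 5) (nat_lit 24) (nat_lit 5) (nat_lit 22) (nat_lit 4) (nat_lit 367) (nat_lit 332) (nat_lit 201)) (XT.nd (nat_lit 78) (nat_lit 76) (nat_lit 0) (XT.lf (nat_lit 0) (nat_lit 166086585371) (nat_lit 228) (nat_lit 3591959337) (nat_lit 76)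 (nat_lit 110618964194) (nat_lit 21) (nat_lit 5) (nat_lit 24) (nat_lit 5) (nat_lit 22) (nat_lit 4) (nat_lit 368) (nat_lit 332) (nat_lit 200)) (XT.lf (nat_lit 0) (nat_lit 182974443170) (nat_lit 76) (nat_lit 74120624971) (nat_lit 152) (nat_lit 40379486256) (nat_lit 20) (nat_lit 5) (nat_lit 21) (nat_lit 5) (nat_lit 22) (nat_lit 4) (nat_lit 369) (nat_lit 332) (nat_lit 199)))) (XT.nd (nat_lit 78) (nat_lit 76) (nat_lit 0) (XT.lf (nat_lit 0) (nat_lit 39740937360) (nat_lit 152) (nat_lit 246218088479) (nat_lit 76) (nat_lit 29953903756) (nat_lit 18) (nat_lit 5) (nat_lit 20) (nat_lit 5) (nat_lit 19) (nat_lit 4) (nat_lit 370) (nat_lit 332) (nat_lit 198)) (XT.nd (nat_lit 78) (nat_lit 76) (nat_lit 0) (XT.lf (nat_lit 0) (nat_lit 128151665833) (nat_lit 152) (nat_lit 64976901149) (nat_lit 76) (nat_lit 142499941556) (nat_lit 18) (nat_lit 5) (nat_lit 20) (nat_lit 5) (nat_lit 19) (nat_lit 4) (nat_lit 371) (nat_lit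 332) (nat_lit 197)) (XT.lf (nat_lit 0) (nat_lit 135086234409) (nat_lit 76) (nat_lit 90657568932) (nat_lit 152) (nat_lit 131072103143) (nat_lit 17) (nat_lit 5) (nat_lit 18) (nat_lit 5) (nat_lit 19) (nat_lit 4) (nat_lit 372) (nat_lit 332) (nat_lit 196)))))) (XT.nd (nat_lit 468) (nat_lit 304) (nat_lit 0) (XT.nd (nat_lit 234) (nat_lit 152) (nat_lit 0) (XT.nd (nat_lit 78) (nat_lit 152) (nat_lit 0) (XT.lf (nat_lit 0) (nat_lit 332605646345) (nat_lit 152) (nat_lit 26498890383) (nat_lit 0) (nat_lit 20520643021) (nat_lit 17) (nat_lit 5) (nat_lit 19) (nat_lit 4) (nat_lit 17) (nat_lit 4) (nat_lit 373) (nat_lit 332) (nat_lit 195)) (XT.nd (nat_lit 78) (nat_lit 0) (nat_lit 0) (XT.lf (nat_lit 0) (nat_lit 46907035880) (nat_lit 152) (nat_lit 215926189160) (nat_lit 76) (nat_lit 141164296411) (nat_lit 15) (nat_lit 5) (nat_lit 17) (nat_lit 5) (nat_lit 16) (nat_lit 4) (nat_lit 374) (nat_lit 332) (nat_lit 194))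 (XT.lf (nat_lit 0) (nat_lit 147191125305) (nat_lit 152) (nat_lit 10344370090) (nat_lit 76) (nat_lit 272721078163) (nat_lit 15) (nat_lit 5) (nat_lit 17) (nat_lit 5) (nat_lit 16) (nat_lit 4) (nat_lit 375) (nat_lit 332) (nat_lit 193)))) (XT.nd (nat_lit 78) (nat_lit 76) (nat_lit 0) (XT.lf (nat_lit 0) (nat_lit 218682423156) (nat_lit 76) (nat_lit 40229343954) (nat_lit 152) (nat_lit 199533891620) (nat_lit 14) (nat_lit 5) (nat_lit 15) (nat_lit 5) (nat_lit 16) (nat_lit 4) (nat_lit 376) (nat_lit 332) (nat_lit 192)) (XT.nd (nat_lit 78) (nat_lit 76) (nat_lit 0) (XT.lf (nat_lit 0) (nat_lit 381102703674) (nat_lit 152) (nat_lit 23833720081) (nat_lit 0) (nat_lit 83876814935) (nat_lit 14) (nat_lit 5) (nat_lit 16) (nat_lit 4) (nat_lit 14) (nat_lit 4) (nat_lit 377) (nat_lit 332) (nat_lit 191)) (XT.lf (nat_lit 0) (nat_lit 215591387406) (nat_lit 76) (nat_lit 301521477803) (nat_lit 76) (nat_lit 4295162473) (nat_lit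 13) (nat_lit 4) (nat_lit 14) (nat_lit 5) (nat_lit 14) (nat_lit 4) (nat_lit 378) (nat_lit 332) (nat_lit 190))))) (XT.nd (nat_lit 234) (nat_lit 152) (nat_lit 0) (XT.nd (nat_lit 78) (nat_lit 76) (nat_lit 0) (XT.lf (nat_lit 0) (nat_lit 104377788639) (nat_lit 152) (nat_lit 83252243610) (nat_lit 76) (nat_lit 368875451556) (nat_lit 12) (nat_lit 5) (nat_lit 14) (nat_lit 5) (nat_lit 13) (nat_lit 4) (nat_lit 379) (nat_lit 332) (nat_lit 189)) (XT.nd (nat_lit 78) (nat_lit 0) (nat_lit 0) (XT.lf (nat_lit 0) (nat_lit 162236841538) (nat_lit 76) (nat_lit 61891898750) (nat_lit 152) (nat_lit 370151743316) (nat_lit 11) (nat_lit 5) (nat_lit 12) (nat_lit 5) (nat_lit 13) (nat_lit 4) (nat_lit 380) (nat_lit 332) (nat_lit 188)) (XT.lf (nat_lit 0) (nat_lit 356087284493) (nat_lit 152) (nat_lit 205845266964) (nat_lit 0) (nat_lit 73013556211) (nat_lit 11) (nat_lit 5) (nat_lit 13) (nat_lit 4) (nat_lit 11) (nat_lit 4)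 (nat_lit 381) (nat_lit 332) (nat_lit 187)))) (XT.nd (nat_lit 78) (nat_lit 76) (nat_lit 0) (XT.lf (nat_lit 0) (nat_lit 38641569346) (nat_lit 76) (nat_lit 461607554369) (nat_lit 76) (nat_lit 178533527461) (nat_lit 10) (nat_lit 4) (nat_lit 11) (nat_lit 5) (nat_lit 11) (nat_lit 4) (nat_lit 382) (nat_lit 332) (nat_lit 186)) (XT.nd (nat_lit 78) (nat_lit 76) (nat_lit 0) (XT.lf (nat_lit 0) (nat_lit 310037475542) (nat_lit 76) (nat_lit 349491837977) (nat_lit 76) (nat_lit 66417534563) (nat_lit 10) (nat_lit 4) (nat_lit 11) (nat_lit 5) (nat_lit 11) (nat_lit 4) (nat_lit 383) (nat_lit 332) (nat_lit 185)) (XT.lf (nat_lit 0) (nat_lit 52917757347) (nat_lit 152) (nat_lit 174593156875) (nat_lit 76) (nat_lit 549330604335) (nat_lit 9) (nat_lit 5) (nat_lit 11) (nat_lit 5) (nat_lit 10) (nat_lit 4) (nat_lit 384) (nat_lit 332) (nat_lit 184))))))))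
noncomputable def xc101 : XT := (XT.nd (nat_lit 44304) (nat_lit 0) (nat_lit 684) (XT.nd (nat_lit 43446) (nat_lit 0) (nat_lit 3344) (XT.nd (nat_lit 42978) (nat_lit 0) (nat_lit 6232) (XT.nd (nat_lit 156) (nat_lit 0) (nat_lit 0) (XT.nd (nat_lit 78) (nat_lit 0) (nat_lit 0) (XT.lf (nat_lit 0) (nat_lit 87715399958) (nat_lit 76) (nat_lit 93157866604) (nat_lit 152) (nat_lit 650810038535) (nat_lit 8) (nat_lit 5) (nat_lit 9) (nat_lit 5) (nat_lit 10) (nat_lit 4) (nat_lit 385) (nat_lit 332) (nat_lit 183)) (XT.lf (nat_lit 0) (nat_lit 322967113330) (nat_lit 152) (nat_lit 514378366455) (nat_lit 0) (nat_lit 53371860002) (nat_lit 8) (nat_lit 5) (nat_lit 10) (nat_lit 4) (nat_lit 8) (nat_lit 4) (nat_lit 386) (nat_lit 332) (nat_lit 182))) (XT.nd (nat_lit 42666) (nat_lit 0) (nat_lit 6992) (XT.lf (nat_lit 0) (nat_lit 477999054502) (nat_lit 152) (nat_lit 267992905866) (nat_lit 0) (nat_lit 208403607612) (nat_lit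 8) (nat_lit 5) (nat_lit 10) (nat_lit 4) (nat_lit 8) (nat_lit 4) (nat_lit 387) (nat_lit 332) (nat_lit 181)) (XT.nd (nat_lit 78) (nat_lit 0) (nat_lit 0) (XT.lf (nat_lit 0) (nat_lit 12634436062) (nat_lit 0) (nat_lit 12634436062) (nat_lit 684) (nat_lit 607447795) (nat_lit 100) (nat_lit 5) (nat_lit 100) (nat_lit 3) (nat_lit 109) (nat_lit 3) (nat_lit 333) (nat_lit 333) (nat_lit 234)) (XT.lf (nat_lit 76) (nat_lit 12098525015) (nat_lit 0) (nat_lit 40891029956) (nat_lit 760) (nat_lit 811619693) (nat_lit 101) (nat_lit 5) (nat_lit 100) (nat_lit 5) (nat_lit 110) (nat_lit 5) (nat_lit 334) (nat_lit 333) (nat_lit 233))))) (XT.nd (nat_lit 234) (nat_lit 0) (nat_lit 228) (XT.nd (nat_lit 78) (nat_lit 0) (nat_lit 76) (XT.lf (nat_lit 0) (nat_lit 527233728) (nat_lit 760) (nat_lit 1707390061) (nat_lit 836) (nat_lit 53734703454) (nat_lit 90) (nat_lit 5) (nat_lit 100) (nat_lit 5) (nat_lit 101) (nat_lit 5) (nat_lit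 335) (nat_lit 333) (nat_lit 232)) (XT.nd (nat_lit 78) (nat_lit 0) (nat_lit 76) (XT.lf (nat_lit 0) (nat_lit 3238759423) (nat_lit 760) (nat_lit 16062127867) (nat_lit 836) (nat_lit 38944684433) (nat_lit 91) (nat_lit 5) (nat_lit 101) (nat_lit 5) (nat_lit 102) (nat_lit 5) (nat_lit 336) (nat_lit 333) (nat_lit 231)) (XT.lf (nat_lit 0) (nat_lit 7059740905) (nat_lit 760) (nat_lit 31179531177) (nat_lit 836) (nat_lit 22420021545) (nat_lit 92) (nat_lit 5) (nat_lit 102) (nat_lit 5) (nat_lit 103) (nat_lit 5) (nat_lit 337) (nat_lit 333) (nat_lit 230)))) (XT.nd (nat_lit 78) (nat_lit 0) (nat_lit 0) (XT.lf (nat_lit 0) (nat_lit 12110173050) (nat_lit 760) (nat_lit 47115777030) (nat_lit 836) (nat_lit 3993978809) (nat_lit 93) (nat_lit 5) (nat_lit 103) (nat_lit 5) (nat_lit 104) (nat_lit 5) (nat_lit 338) (nat_lit 333) (nat_lit 229)) (XT.nd (nat_lit 78) (nat_lit 0) (nat_lit 76) (XT.lf (nat_lit 76) (nat_lit 1724921211)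 (nat_lit 0) (nat_lit 17060699868) (nat_lit 836) (nat_lit 47138748732) (nat_lit 94) (nat_lit 5) (nat_lit 93) (nat_lit 5) (nat_lit 104) (nat_lit 5) (nat_lit 339) (nat_lit 333) (nat_lit 228)) (XT.lf (nat_lit 0) (nat_lit 27271316303) (nat_lit 760) (nat_lit 13109159369) (nat_lit 76) (nat_lit 28400883380) (nat_lit 94) (nat_lit 5) (nat_lit 104) (nat_lit 5) (nat_lit 95) (nat_lit 5) (nat_lit 340) (nat_lit 333) (nat_lit 227)))))) (XT.nd (nat_lit 390) (nat_lit 1444) (nat_lit 0) (XT.nd (nat_lit 156) (nat_lit 684) (nat_lit 0) (XT.nd (nat_lit 78) (nat_lit 380) (nat_lit 0) (XT.lf (nat_lit 0) (nat_lit 37484999773) (nat_lit 760) (nat_lit 28749045672) (nat_lit 76) (nat_lit 5580408702) (nat_lit 85) (nat_lit 5) (nat_lit 95) (nat_lit 5) (nat_lit 86) (nat_lit 5) (nat_lit 341) (nat_lit 333) (nat_lit 226)) (XT.lf (nat_lit 0) (nat_lit 29376717670) (nat_lit 380) (nat_lit 20508450939) (nat_lit 456) (nat_lit 25136561803)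 (nat_lit 80) (nat_lit 5) (nat_lit 85) (nat_lit 5) (nat_lit 86) (nat_lit 5) (nat_lit 342) (nat_lit 333) (nat_lit 225))) (XT.nd (nat_lit 78) (nat_lit 380) (nat_lit 0) (XT.lf (nat_lit 0) (nat_lit 14728803704) (nat_lit 304) (nat_lit 49736214431) (nat_lit 380) (nat_lit 13961190154) (nat_lit 76) (nat_lit 5) (nat_lit 80) (nat_lit 5) (nat_lit 81) (nat_lit 5) (nat_lit 343) (nat_lit 333) (nat_lit 224)) (XT.nd (nat_lit 78) (nat_lit 380) (nat_lit 0) (XT.lf (nat_lit 0) (nat_lit 81203155712) (nat_lit 304) (nat_lit 141449883) (nat_lit 380) (nat_lit 701773958) (nat_lit 76) (nat_lit 5) (nat_lit 80) (nat_lit 5) (nat_lit 81) (nat_lit 5) (nat_lit 344) (nat_lit 333) (nat_lit 223)) (XT.lf (nat_lit 0) (nat_lit 15113667334) (nat_lit 380) (nat_lit 17712749577) (nat_lit 76) (nat_lit 53022561608) (nat_lit 71) (nat_lit 5) (nat_lit 76) (nat_lit 5) (nat_lit 72) (nat_lit 5) (nat_lit 345) (nat_lit 333) (nat_lit 222)))))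 (XT.nd (nat_lit 234) (nat_lit 608) (nat_lit 0) (XT.nd (nat_lit 78) (nat_lit 532) (nat_lit 0) (XT.lf (nat_lit 0) (nat_lit 33369617908) (nat_lit 380) (nat_lit 35811137806) (nat_lit 76) (nat_lit 20714463597) (nat_lit 67) (nat_lit 5) (nat_lit 72) (nat_lit 5) (nat_lit 68) (nat_lit 5) (nat_lit 346) (nat_lit 333) (nat_lit 221)) (XT.nd (nat_lit 78) (nat_lit 228) (nat_lit 0) (XT.lf (nat_lit 0) (nat_lit 38685035856) (nat_lit 304) (nat_lit 15870435974) (nat_lit 380) (nat_lit 39636218179) (nat_lit 63) (nat_lit 5) (nat_lit 67) (nat_lit 5) (nat_lit 68) (nat_lit 5) (nat_lit 347) (nat_lit 333) (nat_lit 220)) (XT.lf (nat_lit 0) (nat_lit 21648567677) (nat_lit 228) (nat_lit 57409199859) (nat_lit 304) (nat_lit 19693034012) (nat_lit 60) (nat_lit 5) (nat_lit 63) (nat_lit 5) (nat_lit 64) (nat_lit 5) (nat_lit 348) (nat_lit 333) (nat_lit 219)))) (XT.nd (nat_lit 78) (nat_lit 228) (nat_lit 0) (XT.lf (nat_lit 0) (nat_lit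 3084557001) (nat_lit 380) (nat_lit 100491258329) (nat_lit 76) (nat_lit 32486417) (nat_lit 55) (nat_lit 5) (nat_lit 60) (nat_lit 5) (nat_lit 56) (nat_lit 5) (nat_lit 349) (nat_lit 333) (nat_lit 218)) (XT.nd (nat_lit 78) (nat_lit 228) (nat_lit 0) (XT.lf (nat_lit 0) (nat_lit 29335300015) (nat_lit 380) (nat_lit 17604126518) (nat_lit 76) (nat_lit 61781790481) (nat_lit 55) (nat_lit 5) (nat_lit 60) (nat_lit 5) (nat_lit 56) (nat_lit 5) (nat_lit 350) (nat_lit 333) (nat_lit 217)) (XT.lf (nat_lit 0) (nat_lit 59085783663) (nat_lit 304) (nat_lit 40136458369) (nat_lit 76) (nat_lit 14950940816) (nat_lit 52) (nat_lit 5) (nat_lit 56) (nat_lit 5) (nat_lit 53) (nat_lit 5) (nat_lit 351) (nat_lit 333) (nat_lit 216))))))) (XT.nd (nat_lit 858) (nat_lit 912) (nat_lit 0) (XT.nd (nat_lit 390) (nat_lit 912) (nat_lit 0) (XT.nd (nat_lit 156) (nat_lit 380) (nat_lit 0) (XT.nd (nat_lit 78) (nat_lit 228) (nat_lit 0) (XT.lf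 (nat_lit 0) (nat_lit 54538807603) (nat_lit 228) (nat_lit 38630894438) (nat_lit 304) (nat_lit 26793935407) (nat_lit 49) (nat_lit 5) (nat_lit 52) (nat_lit 5) (nat_lit 53) (nat_lit 5) (nat_lit 352) (nat_lit 333) (nat_lit 215)) (XT.lf (nat_lit 0) (nat_lit 5307152243) (nat_lit 228) (nat_lit 93568733864) (nat_lit 76) (nat_lit 27255276583) (nat_lit 46) (nat_lit 5) (nat_lit 49) (nat_lit 5) (nat_lit 47) (nat_lit 5) (nat_lit 353) (nat_lit 333) (nat_lit 214))) (XT.nd (nat_lit 78) (nat_lit 152) (nat_lit 0) (XT.lf (nat_lit 0) (nat_lit 7093314345) (nat_lit 228) (nat_lit 33876140800) (nat_lit 304) (nat_lit 91704080764) (nat_lit 43) (nat_lit 5) (nat_lit 46) (nat_lit 5) (nat_lit 47) (nat_lit 5) (nat_lit 354) (nat_lit 333) (nat_lit 213)) (XT.nd (nat_lit 78) (nat_lit 152) (nat_lit 0) (XT.lf (nat_lit 0) (nat_lit 81707366804) (nat_lit 304) (nat_lit 21103685992) (nat_lit 76) (nat_lit 36817115949) (nat_lit 43)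 (nat_lit 5) (nat_lit 47) (nat_lit 5) (nat_lit 44) (nat_lit 5) (nat_lit 355) (nat_lit 333) (nat_lit 212)) (XT.lf (nat_lit 0) (nat_lit 94172300034) (nat_lit 152) (nat_lit 33572485919) (nat_lit 228) (nat_lit 19292363438) (nat_lit 41) (nat_lit 5) (nat_lit 43) (nat_lit 5) (nat_lit 44) (nat_lit 5) (nat_lit 356) (nat_lit 333) (nat_lit 211))))) (XT.nd (nat_lit 234) (nat_lit 532) (nat_lit 0) (XT.nd (nat_lit 78) (nat_lit 152) (nat_lit 0) (XT.lf (nat_lit 0) (nat_lit 23786326035) (nat_lit 228) (nat_lit 89459724173) (nat_lit 76) (nat_lit 41671404217) (nat_lit 38) (nat_lit 5) (nat_lit 41) (nat_lit 5) (nat_lit 39) (nat_lit 5) (nat_lit 357) (nat_lit 333) (nat_lit 210)) (XT.nd (nat_lit 78) (nat_lit 0) (nat_lit 0) (XT.lf (nat_lit 0) (nat_lit 31863602704) (nat_lit 152) (nat_lit 39779421856) (nat_lit 228) (nat_lit 91668965417) (nat_lit 36) (nat_lit 5) (nat_lit 38) (nat_lit 5) (nat_lit 39) (nat_lit 5) (nat_lit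 358) (nat_lit 333) (nat_lit 209)) (XT.lf (nat_lit 0) (nat_lit 125528935987) (nat_lit 228) (nat_lit 6857530456) (nat_lit 76) (nat_lit 39881588767) (nat_lit 36) (nat_lit 5) (nat_lit 39) (nat_lit 5) (nat_lit 37) (nat_lit 5) (nat_lit 359) (nat_lit 333) (nat_lit 208)))) (XT.nd (nat_lit 78) (nat_lit 304) (nat_lit 0) (XT.lf (nat_lit 0) (nat_lit 4491303399) (nat_lit 228) (nat_lit 50648496080) (nat_lit 76) (nat_lit 126661247082) (nat_lit 33) (nat_lit 5) (nat_lit 36) (nat_lit 5) (nat_lit 34) (nat_lit 5) (nat_lit 360) (nat_lit 333) (nat_lit 207)) (XT.nd (nat_lit 78) (nat_lit 152) (nat_lit 0) (XT.lf (nat_lit 0) (nat_lit 60217182450) (nat_lit 228) (nat_lit 101998762248) (nat_lit 76) (nat_lit 29740695647) (nat_lit 31) (nat_lit 5) (nat_lit 34) (nat_lit 5) (nat_lit 32) (nat_lit 5) (nat_lit 361) (nat_lit 333) (nat_lit 206)) (XT.lf (nat_lit 0) (nat_lit 41111121285) (nat_lit 152) (nat_lit 81757571280) (nat_lit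 228) (nat_lit 79932611549) (nat_lit 29) (nat_lit 5) (nat_lit 31) (nat_lit 5) (nat_lit 32) (nat_lit 5) (nat_lit 362) (nat_lit 333) (nat_lit 205)))))) (XT.nd (nat_lit 468) (nat_lit 304) (nat_lit 0) (XT.nd (nat_lit 234) (nat_lit 304) (nat_lit 0) (XT.nd (nat_lit 78) (nat_lit 304) (nat_lit 0) (XT.lf (nat_lit 0) (nat_lit 192417660006) (nat_lit 228) (nat_lit 15223181053) (nat_lit 76) (nat_lit 6778433583) (nat_lit 29) (nat_lit 5) (nat_lit 32) (nat_lit 5) (nat_lit 30) (nat_lit 4) (nat_lit 363) (nat_lit 333) (nat_lit 204)) (XT.nd (nat_lit 78) (nat_lit 152) (nat_lit 0) (XT.lf (nat_lit 0) (nat_lit 42987044024) (nat_lit 152) (nat_lit 81214214014) (nat_lit 76) (nat_lit 102547685476) (nat_lit 27) (nat_lit 5) (nat_lit 29) (nat_lit 5) (nat_lit 28) (nat_lit 5) (nat_lit 364) (nat_lit 333) (nat_lit 203)) (XT.lf (nat_lit 0) (nat_lit 81889651231) (nat_lit 152) (nat_lit 32071997068) (nat_lit 228) (nat_lit 126007419764)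 (nat_lit 25) (nat_lit 5) (nat_lit 27) (nat_lit 5) (nat_lit 28) (nat_lit 5) (nat_lit 365) (nat_lit 333) (nat_lit 202)))) (XT.nd (nat_lit 78) (nat_lit 228) (nat_lit 0) (XT.lf (nat_lit 0) (nat_lit 5876934132) (nat_lit 76) (nat_lit 187319017591) (nat_lit 152) (nat_lit 60921764676) (nat_lit 24) (nat_lit 5) (nat_lit 25) (nat_lit 5) (nat_lit 26) (nat_lit 4) (nat_lit 366) (nat_lit 333) (nat_lit 201)) (XT.nd (nat_lit 78) (nat_lit 152) (nat_lit 0) (XT.lf (nat_lit 0) (nat_lit 12409767386) (nat_lit 152) (nat_lit 81399156301) (nat_lit 76) (nat_lit 175415070716) (nat_lit 23) (nat_lit 5) (nat_lit 25) (nat_lit 5) (nat_lit 24) (nat_lit 5) (nat_lit 367) (nat_lit 333) (nat_lit 200)) (XT.lf (nat_lit 0) (nat_lit 91232984919) (nat_lit 228) (nat_lit 184569450331) (nat_lit 76) (nat_lit 9598425583) (nat_lit 21) (nat_lit 5) (nat_lit 24) (nat_lit 5) (nat_lit 22) (nat_lit 4) (nat_lit 368) (nat_lit 333) (nat_lit 199)))))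 (XT.nd (nat_lit 234) (nat_lit 76) (nat_lit 0) (XT.nd (nat_lit 78) (nat_lit 228) (nat_lit 0) (XT.lf (nat_lit 0) (nat_lit 179384454207) (nat_lit 228) (nat_lit 3859852340) (nat_lit 76) (nat_lit 119476450589) (nat_lit 21) (nat_lit 5) (nat_lit 24) (nat_lit 5) (nat_lit 22) (nat_lit 4) (nat_lit 369) (nat_lit 333) (nat_lit 198)) (XT.nd (nat_lit 78) (nat_lit 152) (nat_lit 0) (XT.lf (nat_lit 0) (nat_lit 197631016498) (nat_lit 76) (nat_lit 80042079261) (nat_lit 152) (nat_lit 43598896904) (nat_lit 20) (nat_lit 5) (nat_lit 21) (nat_lit 5) (nat_lit 22) (nat_lit 4) (nat_lit 370) (nat_lit 333) (nat_lit 197)) (XT.lf (nat_lit 0) (nat_lit 42930434231) (nat_lit 152) (nat_lit 265897003595) (nat_lit 76) (nat_lit 32358010652) (nat_lit 18) (nat_lit 5) (nat_lit 20) (nat_lit 5) (nat_lit 19) (nat_lit 4) (nat_lit 371) (nat_lit 333) (nat_lit 196)))) (XT.nd (nat_lit 78) (nat_lit 76) (nat_lit 0) (XT.lf (nat_lit 0) (nat_lit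 138413263806) (nat_lit 152) (nat_lit 70157894016) (nat_lit 76) (nat_lit 153907154099) (nat_lit 18) (nat_lit 5) (nat_lit 20) (nat_lit 5) (nat_lit 19) (nat_lit 4) (nat_lit 372) (nat_lit 333) (nat_lit 195)) (XT.nd (nat_lit 78) (nat_lit 0) (nat_lit 0) (XT.lf (nat_lit 0) (nat_lit 145909546668) (nat_lit 76) (nat_lit 97902780818) (nat_lit 152) (nat_lit 141548396758) (nat_lit 17) (nat_lit 5) (nat_lit 18) (nat_lit 5) (nat_lit 19) (nat_lit 4) (nat_lit 373) (nat_lit 333) (nat_lit 194)) (XT.lf (nat_lit 0) (nat_lit 359222556676) (nat_lit 152) (nat_lit 28603289735) (nat_lit 0) (nat_lit 22168921301) (nat_lit 17) (nat_lit 5) (nat_lit 19) (nat_lit 4) (nat_lit 17) (nat_lit 4) (nat_lit 374) (nat_lit 333) (nat_lit 193))))))))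
noncomputable def xc102 : XT := (XT.nd (nat_lit 44382) (nat_lit 0) (nat_lit 1444) (XT.nd (nat_lit 858) (nat_lit 76) (nat_lit 0) (XT.nd (nat_lit 390) (nat_lit 304) (nat_lit 0) (XT.nd (nat_lit 156) (nat_lit 152) (nat_lit 0) (XT.nd (nat_lit 78) (nat_lit 0) (nat_lit 0) (XT.lf (nat_lit 0) (nat_lit 50667797784) (nat_lit 152) (nat_lit 233185172371) (nat_lit 76) (nat_lit 152463939987) (nat_lit 15) (nat_lit 5) (nat_lit 17) (nat_lit 5) (nat_lit 16) (nat_lit 4) (nat_lit 375) (nat_lit 333) (nat_lit 192)) (XT.lf (nat_lit 0) (nat_lit 158974007027) (nat_lit 152) (nat_lit 11157927177) (nat_lit 76) (nat_lit 294544782808) (nat_lit 15) (nat_lit 5) (nat_lit 17) (nat_lit 5) (nat_lit 16) (nat_lit 4) (nat_lit 376) (nat_lit 333) (nat_lit 191))) (XT.nd (nat_lit 78) (nat_lit 76) (nat_lit 0) (XT.lf (nat_lit 0) (nat_lit 236190401431) (nat_lit 76) (nat_lit 43441545366) (nat_lit 152) (nat_lit 215489000080) (nat_lit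 14) (nat_lit 5) (nat_lit 15) (nat_lit 5) (nat_lit 16) (nat_lit 4) (nat_lit 377) (nat_lit 333) (nat_lit 190)) (XT.nd (nat_lit 78) (nat_lit 76) (nat_lit 0) (XT.lf (nat_lit 0) (nat_lit 411597710964) (nat_lit 152) (nat_lit 25727776007) (nat_lit 0) (nat_lit 90592468825) (nat_lit 14) (nat_lit 5) (nat_lit 16) (nat_lit 4) (nat_lit 14) (nat_lit 4) (nat_lit 378) (nat_lit 333) (nat_lit 189)) (XT.lf (nat_lit 0) (nat_lit 232850790687) (nat_lit 76) (nat_lit 325637580492) (nat_lit 76) (nat_lit 4631972620) (nat_lit 13) (nat_lit 4) (nat_lit 14) (nat_lit 5) (nat_lit 14) (nat_lit 4) (nat_lit 379) (nat_lit 333) (nat_lit 188))))) (XT.nd (nat_lit 234) (nat_lit 152) (nat_lit 0) (XT.nd (nat_lit 78) (nat_lit 76) (nat_lit 0) (XT.lf (nat_lit 0) (nat_lit 112734109061) (nat_lit 152) (nat_lit 89901022938) (nat_lit 76) (nat_lit 398390483653) (nat_lit 12) (nat_lit 5) (nat_lit 14) (nat_lit 5) (nat_lit 13) (nat_lit 4) (nat_lit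 380) (nat_lit 333) (nat_lit 187)) (XT.nd (nat_lit 78) (nat_lit 0) (nat_lit 0) (XT.lf (nat_lit 0) (nat_lit 175226693585) (nat_lit 76) (nat_lit 66838161856) (nat_lit 152) (nat_lit 399757774210) (nat_lit 11) (nat_lit 5) (nat_lit 12) (nat_lit 5) (nat_lit 13) (nat_lit 4) (nat_lit 381) (nat_lit 333) (nat_lit 186)) (XT.lf (nat_lit 0) (nat_lit 384579725938) (nat_lit 152) (nat_lit 222302593956) (nat_lit 0) (nat_lit 78859201745) (nat_lit 11) (nat_lit 5) (nat_lit 13) (nat_lit 4) (nat_lit 11) (nat_lit 4) (nat_lit 382) (nat_lit 333) (nat_lit 185)))) (XT.nd (nat_lit 78) (nat_lit 76) (nat_lit 0) (XT.lf (nat_lit 0) (nat_lit 41742741879) (nat_lit 76) (nat_lit 498531519811) (nat_lit 76) (nat_lit 192810739595) (nat_lit 10) (nat_lit 4) (nat_lit 11) (nat_lit 5) (nat_lit 11) (nat_lit 4) (nat_lit 383) (nat_lit 333) (nat_lit 184)) (XT.nd (nat_lit 78) (nat_lit 76) (nat_lit 0) (XT.lf (nat_lit 0) (nat_lit 334849591164)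 (nat_lit 76) (nat_lit 377446889730) (nat_lit 76) (nat_lit 71725872455) (nat_lit 10) (nat_lit 4) (nat_lit 11) (nat_lit 5) (nat_lit 11) (nat_lit 4) (nat_lit 384) (nat_lit 333) (nat_lit 183)) (XT.lf (nat_lit 0) (nat_lit 57155717532) (nat_lit 152) (nat_lit 188552015832) (nat_lit 76) (nat_lit 593280878406) (nat_lit 9) (nat_lit 5) (nat_lit 11) (nat_lit 5) (nat_lit 10) (nat_lit 4) (nat_lit 385) (nat_lit 333) (nat_lit 182)))))) (XT.nd (nat_lit 43056) (nat_lit 0) (nat_lit 5852) (XT.nd (nat_lit 42822) (nat_lit 0) (nat_lit 6232) (XT.nd (nat_lit 78) (nat_lit 0) (nat_lit 0) (XT.lf (nat_lit 0) (nat_lit 94740852081) (nat_lit 76) (nat_lit 100606607476) (nat_lit 152) (nat_lit 702870292169) (nat_lit 8) (nat_lit 5) (nat_lit 9) (nat_lit 5) (nat_lit 10) (nat_lit 4) (nat_lit 386) (nat_lit 333) (nat_lit 181)) (XT.lf (nat_lit 0) (nat_lit 348808549415) (nat_lit 152) (nat_lit 555520879109) (nat_lit 0) (nat_lit 57645093988)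 (nat_lit 8) (nat_lit 5) (nat_lit 10) (nat_lit 4) (nat_lit 8) (nat_lit 4) (nat_lit 387) (nat_lit 333) (nat_lit 180))) (XT.nd (nat_lit 78) (nat_lit 760) (nat_lit 0) (XT.lf (nat_lit 0) (nat_lit 13662869097) (nat_lit 0) (nat_lit 13662869097) (nat_lit 684) (nat_lit 618865123) (nat_lit 100) (nat_lit 5) (nat_lit 100) (nat_lit 3) (nat_lit 109) (nat_lit 3) (nat_lit 334) (nat_lit 334) (nat_lit 232)) (XT.nd (nat_lit 78) (nat_lit 760) (nat_lit 0) (XT.lf (nat_lit 76) (nat_lit 13104240809) (nat_lit 0) (nat_lit 44190032759) (nat_lit 760) (nat_lit 807616652) (nat_lit 101) (nat_lit 5) (nat_lit 100) (nat_lit 5) (nat_lit 110) (nat_lit 5) (nat_lit 335) (nat_lit 334) (nat_lit 231)) (XT.lf (nat_lit 0) (nat_lit 631196077) (nat_lit 760) (nat_lit 1806818323) (nat_lit 836) (nat_lit 58005681033) (nat_lit 90) (nat_lit 5) (nat_lit 100) (nat_lit 5) (nat_lit 101) (nat_lit 5) (nat_lit 336) (nat_lit 334) (nat_lit 230)))))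 (XT.nd (nat_lit 234) (nat_lit 456) (nat_lit 0) (XT.nd (nat_lit 78) (nat_lit 0) (nat_lit 76) (XT.lf (nat_lit 0) (nat_lit 3555275437) (nat_lit 760) (nat_lit 17308233050) (nat_lit 836) (nat_lit 42038755981) (nat_lit 91) (nat_lit 5) (nat_lit 101) (nat_lit 5) (nat_lit 102) (nat_lit 5) (nat_lit 337) (nat_lit 334) (nat_lit 229)) (XT.nd (nat_lit 78) (nat_lit 0) (nat_lit 76) (XT.lf (nat_lit 0) (nat_lit 7678004224) (nat_lit 760) (nat_lit 33633695727) (nat_lit 836) (nat_lit 24197586825) (nat_lit 92) (nat_lit 5) (nat_lit 102) (nat_lit 5) (nat_lit 103) (nat_lit 5) (nat_lit 338) (nat_lit 334) (nat_lit 228)) (XT.lf (nat_lit 0) (nat_lit 13128927262) (nat_lit 760) (nat_lit 50843829348) (nat_lit 836) (nat_lit 4302199075) (nat_lit 93) (nat_lit 5) (nat_lit 103) (nat_lit 5) (nat_lit 104) (nat_lit 5) (nat_lit 339) (nat_lit 334) (nat_lit 227)))) (XT.nd (nat_lit 78) (nat_lit 608) (nat_lit 0) (XT.lf (nat_lit 76)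 (nat_lit 1902333823) (nat_lit 0) (nat_lit 18432993463) (nat_lit 836) (nat_lit 50860584008) (nat_lit 94) (nat_lit 5) (nat_lit 93) (nat_lit 5) (nat_lit 104) (nat_lit 5) (nat_lit 340) (nat_lit 334) (nat_lit 226)) (XT.nd (nat_lit 78) (nat_lit 684) (nat_lit 0) (XT.lf (nat_lit 0) (nat_lit 29496299754) (nat_lit 760) (nat_lit 14119055879) (nat_lit 76) (nat_lit 30666287795) (nat_lit 94) (nat_lit 5) (nat_lit 104) (nat_lit 5) (nat_lit 95) (nat_lit 5) (nat_lit 341) (nat_lit 334) (nat_lit 225)) (XT.lf (nat_lit 0) (nat_lit 40524397399) (nat_lit 760) (nat_lit 31009677575) (nat_lit 76) (nat_lit 6023449659) (nat_lit 85) (nat_lit 5) (nat_lit 95) (nat_lit 5) (nat_lit 86) (nat_lit 5) (nat_lit 342) (nat_lit 334) (nat_lit 224))))))) (XT.nd (nat_lit 858) (nat_lit 1672) (nat_lit 0) (XT.nd (nat_lit 390) (nat_lit 1368) (nat_lit 0) (XT.nd (nat_lit 156) (nat_lit 684) (nat_lit 0) (XT.nd (nat_lit 78) (nat_lit 304) (nat_lit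 0) (XT.lf (nat_lit 0) (nat_lit 31764439263) (nat_lit 380) (nat_lit 22149720041) (nat_lit 456) (nat_lit 27107348863) (nat_lit 80) (nat_lit 5) (nat_lit 85) (nat_lit 5) (nat_lit 86) (nat_lit 5) (nat_lit 343) (nat_lit 334) (nat_lit 223)) (XT.lf (nat_lit 0) (nat_lit 15944943143) (nat_lit 304) (nat_lit 53713207847) (nat_lit 380) (nat_lit 15040309412) (nat_lit 76) (nat_lit 5) (nat_lit 80) (nat_lit 5) (nat_lit 81) (nat_lit 5) (nat_lit 344) (nat_lit 334) (nat_lit 222))) (XT.nd (nat_lit 78) (nat_lit 684) (nat_lit 0) (XT.lf (nat_lit 0) (nat_lit 87734440709) (nat_lit 304) (nat_lit 151003153) (nat_lit 380) (nat_lit 722938139) (nat_lit 76) (nat_lit 5) (nat_lit 80) (nat_lit 5) (nat_lit 81) (nat_lit 5) (nat_lit 345) (nat_lit 334) (nat_lit 221)) (XT.nd (nat_lit 78) (nat_lit 304) (nat_lit 0) (XT.lf (nat_lit 0) (nat_lit 16354694103) (nat_lit 380) (nat_lit 19093557069) (nat_lit 76) (nat_lit 57267009783) (nat_lit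 71) (nat_lit 5) (nat_lit 76) (nat_lit 5) (nat_lit 72) (nat_lit 5) (nat_lit 346) (nat_lit 334) (nat_lit 220)) (XT.lf (nat_lit 0) (nat_lit 36069366821) (nat_lit 380) (nat_lit 38639919120) (nat_lit 76) (nat_lit 22376005667) (nat_lit 67) (nat_lit 5) (nat_lit 72) (nat_lit 5) (nat_lit 68) (nat_lit 5) (nat_lit 347) (nat_lit 334) (nat_lit 219))))) (XT.nd (nat_lit 234) (nat_lit 456) (nat_lit 0) (XT.nd (nat_lit 78) (nat_lit 608) (nat_lit 0) (XT.lf (nat_lit 0) (nat_lit 41814379151) (nat_lit 304) (nat_lit 17134013661) (nat_lit 380) (nat_lit 42777174648) (nat_lit 63) (nat_lit 5) (nat_lit 67) (nat_lit 5) (nat_lit 68) (nat_lit 5) (nat_lit 348) (nat_lit 334) (nat_lit 218)) (XT.nd (nat_lit 78) (nat_lit 380) (nat_lit 0) (XT.lf (nat_lit 0) (nat_lit 23414796369) (nat_lit 228) (nat_lit 61994589695) (nat_lit 304) (nat_lit 21240098651) (nat_lit 60) (nat_lit 5) (nat_lit 63) (nat_lit 5) (nat_lit 64) (nat_lit 5)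 (nat_lit 349) (nat_lit 334) (nat_lit 217)) (XT.lf (nat_lit 0) (nat_lit 3357405026) (nat_lit 380) (nat_lit 108495607141) (nat_lit 76) (nat_lit 42622122) (nat_lit 55) (nat_lit 5) (nat_lit 60) (nat_lit 5) (nat_lit 56) (nat_lit 5) (nat_lit 350) (nat_lit 334) (nat_lit 216)))) (XT.nd (nat_lit 78) (nat_lit 456) (nat_lit 0) (XT.lf (nat_lit 0) (nat_lit 31706275373) (nat_lit 380) (nat_lit 18980093811) (nat_lit 76) (nat_lit 66731312230) (nat_lit 55) (nat_lit 5) (nat_lit 60) (nat_lit 5) (nat_lit 56) (nat_lit 5) (nat_lit 351) (nat_lit 334) (nat_lit 215)) (XT.nd (nat_lit 78) (nat_lit 228) (nat_lit 0) (XT.lf (nat_lit 0) (nat_lit 63835618670) (nat_lit 304) (nat_lit 43315379494) (nat_lit 76) (nat_lit 16154867184) (nat_lit 52) (nat_lit 5) (nat_lit 56) (nat_lit 5) (nat_lit 53) (nat_lit 5) (nat_lit 352) (nat_lit 334) (nat_lit 214)) (XT.lf (nat_lit 0) (nat_lit 58932517269) (nat_lit 228) (nat_lit 41712509427)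 (nat_lit 304) (nat_lit 28914592553) (nat_lit 49) (nat_lit 5) (nat_lit 52) (nat_lit 5) (nat_lit 53) (nat_lit 5) (nat_lit 353) (nat_lit 334) (nat_lit 213)))))) (XT.nd (nat_lit 468) (nat_lit 684) (nat_lit 0) (XT.nd (nat_lit 234) (nat_lit 532) (nat_lit 0) (XT.nd (nat_lit 78) (nat_lit 228) (nat_lit 0) (XT.lf (nat_lit 0) (nat_lit 5752820978) (nat_lit 228) (nat_lit 101023312104) (nat_lit 76) (nat_lit 29444448597) (nat_lit 46) (nat_lit 5) (nat_lit 49) (nat_lit 5) (nat_lit 47) (nat_lit 5) (nat_lit 354) (nat_lit 334) (nat_lit 212)) (XT.nd (nat_lit 78) (nat_lit 0) (nat_lit 0) (XT.lf (nat_lit 0) (nat_lit 7690356195) (nat_lit 228) (nat_lit 36576650984) (nat_lit 304) (nat_lit 99019394046) (nat_lit 43) (nat_lit 5) (nat_lit 46) (nat_lit 5) (nat_lit 47) (nat_lit 5) (nat_lit 355) (nat_lit 334) (nat_lit 211)) (XT.lf (nat_lit 0) (nat_lit 88262609121) (nat_lit 304) (nat_lit 22763791360) (nat_lit 76) (nat_lit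 39771072656) (nat_lit 43) (nat_lit 5) (nat_lit 47) (nat_lit 5) (nat_lit 44) (nat_lit 5) (nat_lit 356) (nat_lit 334) (nat_lit 210)))) (XT.nd (nat_lit 78) (nat_lit 380) (nat_lit 0) (XT.lf (nat_lit 0) (nat_lit 101733048466) (nat_lit 152) (nat_lit 36249012624) (nat_lit 228) (nat_lit 20817160399) (nat_lit 41) (nat_lit 5) (nat_lit 43) (nat_lit 5) (nat_lit 44) (nat_lit 5) (nat_lit 357) (nat_lit 334) (nat_lit 209)) (XT.nd (nat_lit 78) (nat_lit 152) (nat_lit 0) (XT.lf (nat_lit 0) (nat_lit 25706453050) (nat_lit 228) (nat_lit 96589404405) (nat_lit 76) (nat_lit 45014118839) (nat_lit 38) (nat_lit 5) (nat_lit 41) (nat_lit 5) (nat_lit 39) (nat_lit 5) (nat_lit 358) (nat_lit 334) (nat_lit 208)) (XT.lf (nat_lit 0) (nat_lit 34438610989) (nat_lit 152) (nat_lit 42952205528) (nat_lit 228) (nat_lit 98985302715) (nat_lit 36) (nat_lit 5) (nat_lit 38) (nat_lit 5) (nat_lit 39) (nat_lit 5) (nat_lit 359) (nat_lit 334)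 (nat_lit 207))))) (XT.nd (nat_lit 234) (nat_lit 304) (nat_lit 0) (XT.nd (nat_lit 78) (nat_lit 380) (nat_lit 0) (XT.lf (nat_lit 0) (nat_lit 135586528096) (nat_lit 228) (nat_lit 7381502711) (nat_lit 76) (nat_lit 43080693438) (nat_lit 36) (nat_lit 5) (nat_lit 39) (nat_lit 5) (nat_lit 37) (nat_lit 5) (nat_lit 360) (nat_lit 334) (nat_lit 206)) (XT.nd (nat_lit 78) (nat_lit 152) (nat_lit 0) (XT.lf (nat_lit 0) (nat_lit 4865369340) (nat_lit 228) (nat_lit 54676317735) (nat_lit 76) (nat_lit 136802694968) (nat_lit 33) (nat_lit 5) (nat_lit 36) (nat_lit 5) (nat_lit 34) (nat_lit 5) (nat_lit 361) (nat_lit 334) (nat_lit 205)) (XT.lf (nat_lit 0) (nat_lit 65048724828) (nat_lit 228) (nat_lit 110135080227) (nat_lit 76) (nat_lit 32128648721) (nat_lit 31) (nat_lit 5) (nat_lit 34) (nat_lit 5) (nat_lit 32) (nat_lit 5) (nat_lit 362) (nat_lit 334) (nat_lit 204)))) (XT.nd (nat_lit 78) (nat_lit 152) (nat_lit 0) (XT.lf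 (nat_lit 0) (nat_lit 44422569101) (nat_lit 152) (nat_lit 88289089382) (nat_lit 228) (nat_lit 86313067724) (nat_lit 29) (nat_lit 5) (nat_lit 31) (nat_lit 5) (nat_lit 32) (nat_lit 5) (nat_lit 363) (nat_lit 334) (nat_lit 203)) (XT.nd (nat_lit 78) (nat_lit 152) (nat_lit 0) (XT.lf (nat_lit 0) (nat_lit 207823676876) (nat_lit 228) (nat_lit 16419648069) (nat_lit 76) (nat_lit 7328853400) (nat_lit 29) (nat_lit 5) (nat_lit 32) (nat_lit 5) (nat_lit 30) (nat_lit 4) (nat_lit 364) (nat_lit 334) (nat_lit 202)) (XT.lf (nat_lit 0) (nat_lit 46438201171) (nat_lit 152) (nat_lit 87690482851) (nat_lit 76) (nat_lit 110759558179) (nat_lit 27) (nat_lit 5) (nat_lit 29) (nat_lit 5) (nat_lit 28) (nat_lit 5) (nat_lit 365) (nat_lit 334) (nat_lit 201))))))))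
noncomputable def xc103 : XT := (XT.nd (nat_lit 44538) (nat_lit 0) (nat_lit 2508) (XT.nd (nat_lit 858) (nat_lit 532) (nat_lit 0) (XT.nd (nat_lit 390) (nat_lit 456) (nat_lit 0) (XT.nd (nat_lit 156) (nat_lit 228) (nat_lit 0) (XT.nd (nat_lit 78) (nat_lit 76) (nat_lit 0) (XT.lf (nat_lit 0) (nat_lit 88460784703) (nat_lit 152) (nat_lit 34629397506) (nat_lit 228) (nat_lit 136075824610) (nat_lit 25) (nat_lit 5) (nat_lit 27) (nat_lit 5) (nat_lit 28) (nat_lit 5) (nat_lit 366) (nat_lit 334) (nat_lit 200)) (XT.lf (nat_lit 0) (nat_lit 6366619091) (nat_lit 76) (nat_lit 202296177173) (nat_lit 152) (nat_lit 65783772929) (nat_lit 24) (nat_lit 5) (nat_lit 25) (nat_lit 5) (nat_lit 26) (nat_lit 4) (nat_lit 367) (nat_lit 334) (nat_lit 199))) (XT.nd (nat_lit 78) (nat_lit 152) (nat_lit 0) (XT.lf (nat_lit 0) (nat_lit 13413064883) (nat_lit 152) (nat_lit 87892652173) (nat_lit 76) (nat_lit 189455665717) (nat_lit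 23) (nat_lit 5) (nat_lit 25) (nat_lit 5) (nat_lit 24) (nat_lit 5) (nat_lit 368) (nat_lit 334) (nat_lit 198)) (XT.nd (nat_lit 78) (nat_lit 0) (nat_lit 0) (XT.lf (nat_lit 0) (nat_lit 98541755201) (nat_lit 228) (nat_lit 199316984372) (nat_lit 76) (nat_lit 10373678574) (nat_lit 21) (nat_lit 5) (nat_lit 24) (nat_lit 5) (nat_lit 22) (nat_lit 4) (nat_lit 369) (nat_lit 334) (nat_lit 197)) (XT.lf (nat_lit 0) (nat_lit 193744591551) (nat_lit 228) (nat_lit 4151953504) (nat_lit 76) (nat_lit 129041398991) (nat_lit 21) (nat_lit 5) (nat_lit 24) (nat_lit 5) (nat_lit 22) (nat_lit 4) (nat_lit 370) (nat_lit 334) (nat_lit 196))))) (XT.nd (nat_lit 234) (nat_lit 228) (nat_lit 0) (XT.nd (nat_lit 78) (nat_lit 152) (nat_lit 0) (XT.lf (nat_lit 0) (nat_lit 213457459643) (nat_lit 76) (nat_lit 86438419103) (nat_lit 152) (nat_lit 47077422295) (nat_lit 20) (nat_lit 5) (nat_lit 21) (nat_lit 5) (nat_lit 22) (nat_lit 4)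 (nat_lit 371) (nat_lit 334) (nat_lit 195)) (XT.nd (nat_lit 78) (nat_lit 0) (nat_lit 0) (XT.lf (nat_lit 0) (nat_lit 46373632587) (nat_lit 152) (nat_lit 287152875712) (nat_lit 76) (nat_lit 34953334113) (nat_lit 18) (nat_lit 5) (nat_lit 20) (nat_lit 5) (nat_lit 19) (nat_lit 4) (nat_lit 372) (nat_lit 334) (nat_lit 194)) (XT.lf (nat_lit 0) (nat_lit 149494439370) (nat_lit 152) (nat_lit 75755814268) (nat_lit 76) (nat_lit 166225914028) (nat_lit 18) (nat_lit 5) (nat_lit 20) (nat_lit 5) (nat_lit 19) (nat_lit 4) (nat_lit 373) (nat_lit 334) (nat_lit 193)))) (XT.nd (nat_lit 78) (nat_lit 152) (nat_lit 0) (XT.lf (nat_lit 0) (nat_lit 157596382337) (nat_lit 76) (nat_lit 105728664440) (nat_lit 152) (nat_lit 152864145526) (nat_lit 17) (nat_lit 5) (nat_lit 18) (nat_lit 5) (nat_lit 19) (nat_lit 4) (nat_lit 374) (nat_lit 334) (nat_lit 192)) (XT.nd (nat_lit 78) (nat_lit 152) (nat_lit 0) (XT.lf (nat_lit 0) (nat_lit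 387967613116) (nat_lit 152) (nat_lit 30878253979) (nat_lit 0) (nat_lit 23948116451) (nat_lit 17) (nat_lit 5) (nat_lit 19) (nat_lit 4) (nat_lit 17) (nat_lit 4) (nat_lit 375) (nat_lit 334) (nat_lit 191)) (XT.lf (nat_lit 0) (nat_lit 54728250956) (nat_lit 152) (nat_lit 251827030124) (nat_lit 76) (nat_lit 164666627771) (nat_lit 15) (nat_lit 5) (nat_lit 17) (nat_lit 5) (nat_lit 16) (nat_lit 4) (nat_lit 376) (nat_lit 334) (nat_lit 190)))))) (XT.nd (nat_lit 468) (nat_lit 228) (nat_lit 0) (XT.nd (nat_lit 234) (nat_lit 228) (nat_lit 0) (XT.nd (nat_lit 78) (nat_lit 76) (nat_lit 0) (XT.lf (nat_lit 0) (nat_lit 171698436246) (nat_lit 152) (nat_lit 12038565020) (nat_lit 76) (nat_lit 318113525234) (nat_lit 15) (nat_lit 5) (nat_lit 17) (nat_lit 5) (nat_lit 16) (nat_lit 4) (nat_lit 377) (nat_lit 334) (nat_lit 189)) (XT.nd (nat_lit 78) (nat_lit 0) (nat_lit 0) (XT.lf (nat_lit 0) (nat_lit 255097108530) (nat_lit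 76) (nat_lit 46911599702) (nat_lit 152) (nat_lit 232721601852) (nat_lit 14) (nat_lit 5) (nat_lit 15) (nat_lit 5) (nat_lit 16) (nat_lit 4) (nat_lit 378) (nat_lit 334) (nat_lit 188)) (XT.lf (nat_lit 0) (nat_lit 444531350026) (nat_lit 152) (nat_lit 27775159884) (nat_lit 0) (nat_lit 97844589149) (nat_lit 14) (nat_lit 5) (nat_lit 16) (nat_lit 4) (nat_lit 14) (nat_lit 4) (nat_lit 379) (nat_lit 334) (nat_lit 187)))) (XT.nd (nat_lit 78) (nat_lit 152) (nat_lit 0) (XT.lf (nat_lit 0) (nat_lit 251489221130) (nat_lit 76) (nat_lit 351683772516) (nat_lit 76) (nat_lit 4996698082) (nat_lit 13) (nat_lit 4) (nat_lit 14) (nat_lit 5) (nat_lit 14) (nat_lit 4) (nat_lit 380) (nat_lit 334) (nat_lit 186)) (XT.nd (nat_lit 78) (nat_lit 76) (nat_lit 0) (XT.lf (nat_lit 0) (nat_lit 121758065264) (nat_lit 152) (nat_lit 97083330972) (nat_lit 76) (nat_lit 430266005586) (nat_lit 12) (nat_lit 5) (nat_lit 14) (nat_lit 5) (nat_lit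 13) (nat_lit 4) (nat_lit 381) (nat_lit 334) (nat_lit 185)) (XT.lf (nat_lit 0) (nat_lit 189254178116) (nat_lit 76) (nat_lit 72180851984) (nat_lit 152) (nat_lit 431733159032) (nat_lit 11) (nat_lit 5) (nat_lit 12) (nat_lit 5) (nat_lit 13) (nat_lit 4) (nat_lit 382) (nat_lit 334) (nat_lit 184))))) (XT.nd (nat_lit 234) (nat_lit 152) (nat_lit 0) (XT.nd (nat_lit 78) (nat_lit 76) (nat_lit 0) (XT.lf (nat_lit 0) (nat_lit 415350783955) (nat_lit 152) (nat_lit 240077975713) (nat_lit 0) (nat_lit 85171848240) (nat_lit 11) (nat_lit 5) (nat_lit 13) (nat_lit 4) (nat_lit 11) (nat_lit 4) (nat_lit 383) (nat_lit 334) (nat_lit 183)) (XT.nd (nat_lit 78) (nat_lit 0) (nat_lit 0) (XT.lf (nat_lit 0) (nat_lit 45090603432) (nat_lit 76) (nat_lit 538410064280) (nat_lit 76) (nat_lit 208230909066) (nat_lit 10) (nat_lit 4) (nat_lit 11) (nat_lit 5) (nat_lit 11) (nat_lit 4) (nat_lit 384) (nat_lit 334) (nat_lit 182)) (XT.lf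 (nat_lit 0) (nat_lit 361645375311) (nat_lit 76) (nat_lit 407638958394) (nat_lit 76) (nat_lit 77459599940) (nat_lit 10) (nat_lit 4) (nat_lit 11) (nat_lit 5) (nat_lit 11) (nat_lit 4) (nat_lit 385) (nat_lit 334) (nat_lit 181)))) (XT.nd (nat_lit 78) (nat_lit 76) (nat_lit 0) (XT.lf (nat_lit 0) (nat_lit 61732066907) (nat_lit 152) (nat_lit 203628809477) (nat_lit 76) (nat_lit 640746628621) (nat_lit 9) (nat_lit 5) (nat_lit 11) (nat_lit 5) (nat_lit 10) (nat_lit 4) (nat_lit 386) (nat_lit 334) (nat_lit 180)) (XT.nd (nat_lit 42822) (nat_lit 0) (nat_lit 6992) (XT.lf (nat_lit 0) (nat_lit 102327167681) (nat_lit 76) (nat_lit 108651802350) (nat_lit 152) (nat_lit 759096015123) (nat_lit 8) (nat_lit 5) (nat_lit 9) (nat_lit 5) (nat_lit 10) (nat_lit 4) (nat_lit 387) (nat_lit 334) (nat_lit 179)) (XT.lf (nat_lit 0) (nat_lit 14771054788) (nat_lit 0) (nat_lit 14771054788) (nat_lit 684) (nat_lit 636499764) (nat_lit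 100) (nat_lit 5) (nat_lit 100) (nat_lit 3) (nat_lit 109) (nat_lit 3) (nat_lit 335) (nat_lit 335) (nat_lit 230))))))) (XT.nd (nat_lit 858) (nat_lit 2660) (nat_lit 0) (XT.nd (nat_lit 390) (nat_lit 1064) (nat_lit 0) (XT.nd (nat_lit 156) (nat_lit 0) (nat_lit 76) (XT.nd (nat_lit 78) (nat_lit 760) (nat_lit 0) (XT.lf (nat_lit 76) (nat_lit 14185016452) (nat_lit 0) (nat_lit 47749001161) (nat_lit 760) (nat_lit 813127376) (nat_lit 101) (nat_lit 5) (nat_lit 100) (nat_lit 5) (nat_lit 110) (nat_lit 5) (nat_lit 336) (nat_lit 335) (nat_lit 229)) (XT.lf (nat_lit 0) (nat_lit 734661285) (nat_lit 760) (nat_lit 1919502555) (nat_lit 836) (nat_lit 62622302614) (nat_lit 90) (nat_lit 5) (nat_lit 100) (nat_lit 5) (nat_lit 101) (nat_lit 5) (nat_lit 337) (nat_lit 335) (nat_lit 228))) (XT.nd (nat_lit 78) (nat_lit 0) (nat_lit 76) (XT.lf (nat_lit 0) (nat_lit 3888921803) (nat_lit 760) (nat_lit 18659571182) (nat_lit 836)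 (nat_lit 45383420927) (nat_lit 91) (nat_lit 5) (nat_lit 101) (nat_lit 5) (nat_lit 102) (nat_lit 5) (nat_lit 338) (nat_lit 335) (nat_lit 227)) (XT.nd (nat_lit 78) (nat_lit 0) (nat_lit 76) (XT.lf (nat_lit 0) (nat_lit 8338098512) (nat_lit 760) (nat_lit 36289928128) (nat_lit 836) (nat_lit 26119645105) (nat_lit 92) (nat_lit 5) (nat_lit 102) (nat_lit 5) (nat_lit 103) (nat_lit 5) (nat_lit 339) (nat_lit 335) (nat_lit 226)) (XT.lf (nat_lit 0) (nat_lit 14222057258) (nat_lit 760) (nat_lit 54876004897) (nat_lit 836) (nat_lit 4636688753) (nat_lit 93) (nat_lit 5) (nat_lit 103) (nat_lit 5) (nat_lit 104) (nat_lit 5) (nat_lit 340) (nat_lit 335) (nat_lit 225))))) (XT.nd (nat_lit 234) (nat_lit 684) (nat_lit 0) (XT.nd (nat_lit 78) (nat_lit 608) (nat_lit 0) (XT.lf (nat_lit 76) (nat_lit 2088315894) (nat_lit 0) (nat_lit 19914009488) (nat_lit 836) (nat_lit 54887194255) (nat_lit 94) (nat_lit 5) (nat_lit 93) (nat_lit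 5) (nat_lit 104) (nat_lit 5) (nat_lit 341) (nat_lit 335) (nat_lit 224)) (XT.nd (nat_lit 78) (nat_lit 684) (nat_lit 0) (XT.lf (nat_lit 0) (nat_lit 31893107770) (nat_lit 760) (nat_lit 15215284533) (nat_lit 76) (nat_lit 33113875580) (nat_lit 94) (nat_lit 5) (nat_lit 104) (nat_lit 5) (nat_lit 95) (nat_lit 5) (nat_lit 342) (nat_lit 335) (nat_lit 223)) (XT.lf (nat_lit 0) (nat_lit 43801155128) (nat_lit 760) (nat_lit 33456765438) (nat_lit 76) (nat_lit 6502417761) (nat_lit 85) (nat_lit 5) (nat_lit 95) (nat_lit 5) (nat_lit 86) (nat_lit 5) (nat_lit 343) (nat_lit 335) (nat_lit 222)))) (XT.nd (nat_lit 78) (nat_lit 304) (nat_lit 0) (XT.lf (nat_lit 0) (nat_lit 34337816779) (nat_lit 380) (nat_lit 23922206070) (nat_lit 456) (nat_lit 29241525006) (nat_lit 80) (nat_lit 5) (nat_lit 85) (nat_lit 5) (nat_lit 86) (nat_lit 5) (nat_lit 344) (nat_lit 335) (nat_lit 221)) (XT.nd (nat_lit 78) (nat_lit 0) (nat_lit 0)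 (XT.lf (nat_lit 0) (nat_lit 17252976131) (nat_lit 304) (nat_lit 58008632326) (nat_lit 380) (nat_lit 16211147373) (nat_lit 76) (nat_lit 5) (nat_lit 80) (nat_lit 5) (nat_lit 81) (nat_lit 5) (nat_lit 345) (nat_lit 335) (nat_lit 220)) (XT.lf (nat_lit 0) (nat_lit 94783230722) (nat_lit 304) (nat_lit 161572156) (nat_lit 380) (nat_lit 750785420) (nat_lit 76) (nat_lit 5) (nat_lit 80) (nat_lit 5) (nat_lit 81) (nat_lit 5) (nat_lit 346) (nat_lit 335) (nat_lit 219)))))) (XT.nd (nat_lit 468) (nat_lit 1064) (nat_lit 0) (XT.nd (nat_lit 234) (nat_lit 608) (nat_lit 0) (XT.nd (nat_lit 78) (nat_lit 608) (nat_lit 0) (XT.lf (nat_lit 0) (nat_lit 17690447360) (nat_lit 380) (nat_lit 20589995275) (nat_lit 76) (nat_lit 61850636723) (nat_lit 71) (nat_lit 5) (nat_lit 76) (nat_lit 5) (nat_lit 72) (nat_lit 5) (nat_lit 347) (nat_lit 335) (nat_lit 218)) (XT.nd (nat_lit 78) (nat_lit 304) (nat_lit 0) (XT.lf (nat_lit 0) (nat_lit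 38980790206) (nat_lit 380) (nat_lit 41700154393) (nat_lit 76) (nat_lit 24169845536) (nat_lit 67) (nat_lit 5) (nat_lit 72) (nat_lit 5) (nat_lit 68) (nat_lit 5) (nat_lit 348) (nat_lit 335) (nat_lit 217)) (XT.lf (nat_lit 0) (nat_lit 45189142331) (nat_lit 304) (nat_lit 18499541689) (nat_lit 380) (nat_lit 46173679052) (nat_lit 63) (nat_lit 5) (nat_lit 67) (nat_lit 5) (nat_lit 68) (nat_lit 5) (nat_lit 349) (nat_lit 335) (nat_lit 216)))) (XT.nd (nat_lit 78) (nat_lit 380) (nat_lit 0) (XT.lf (nat_lit 0) (nat_lit 25317423905) (nat_lit 228) (nat_lit 66947858729) (nat_lit 304) (nat_lit 22914976913) (nat_lit 60) (nat_lit 5) (nat_lit 63) (nat_lit 5) (nat_lit 64) (nat_lit 5) (nat_lit 350) (nat_lit 335) (nat_lit 215)) (XT.nd (nat_lit 78) (nat_lit 0) (nat_lit 0) (XT.lf (nat_lit 0) (nat_lit 3648359796) (nat_lit 380) (nat_lit 117145290130) (nat_lit 76) (nat_lit 52493476) (nat_lit 55) (nat_lit 5) (nat_lit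 60) (nat_lit 5) (nat_lit 56) (nat_lit 5) (nat_lit 351) (nat_lit 335) (nat_lit 214)) (XT.lf (nat_lit 0) (nat_lit 34263483299) (nat_lit 380) (nat_lit 20470755406) (nat_lit 76) (nat_lit 72075800157) (nat_lit 55) (nat_lit 5) (nat_lit 60) (nat_lit 5) (nat_lit 56) (nat_lit 5) (nat_lit 352) (nat_lit 335) (nat_lit 213))))) (XT.nd (nat_lit 234) (nat_lit 380) (nat_lit 0) (XT.nd (nat_lit 78) (nat_lit 456) (nat_lit 0) (XT.lf (nat_lit 0) (nat_lit 68962163221) (nat_lit 304) (nat_lit 46753178831) (nat_lit 76) (nat_lit 17453987614) (nat_lit 52) (nat_lit 5) (nat_lit 56) (nat_lit 5) (nat_lit 53) (nat_lit 5) (nat_lit 353) (nat_lit 335) (nat_lit 212)) (XT.nd (nat_lit 78) (nat_lit 228) (nat_lit 0) (XT.lf (nat_lit 0) (nat_lit 63673357554) (nat_lit 228) (nat_lit 45041917104) (nat_lit 304) (nat_lit 31208163175) (nat_lit 49) (nat_lit 5) (nat_lit 52) (nat_lit 5) (nat_lit 53) (nat_lit 5) (nat_lit 354) (nat_lit 335)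 (nat_lit 211)) (XT.lf (nat_lit 0) (nat_lit 6231133552) (nat_lit 228) (nat_lit 109078667755) (nat_lit 76) (nat_lit 31807506103) (nat_lit 46) (nat_lit 5) (nat_lit 49) (nat_lit 5) (nat_lit 47) (nat_lit 5) (nat_lit 355) (nat_lit 335) (nat_lit 210)))) (XT.nd (nat_lit 78) (nat_lit 152) (nat_lit 0) (XT.lf (nat_lit 0) (nat_lit 8330941946) (nat_lit 228) (nat_lit 39494568832) (nat_lit 304) (nat_lit 106922930155) (nat_lit 43) (nat_lit 5) (nat_lit 46) (nat_lit 5) (nat_lit 47) (nat_lit 5) (nat_lit 356) (nat_lit 335) (nat_lit 209)) (XT.nd (nat_lit 78) (nat_lit 152) (nat_lit 0) (XT.lf (nat_lit 0) (nat_lit 95339609768) (nat_lit 304) (nat_lit 24560726707) (nat_lit 76) (nat_lit 42960120807) (nat_lit 43) (nat_lit 5) (nat_lit 47) (nat_lit 5) (nat_lit 44) (nat_lit 5) (nat_lit 357) (nat_lit 335) (nat_lit 208)) (XT.lf (nat_lit 0) (nat_lit 109894809995) (nat_lit 152) (nat_lit 39140984244) (nat_lit 228) (nat_lit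 22466593490) (nat_lit 41) (nat_lit 5) (nat_lit 43) (nat_lit 5) (nat_lit 44) (nat_lit 5) (nat_lit 358) (nat_lit 335) (nat_lit 207))))))))
noncomputable def xc104 : XT := (XT.nd (nat_lit 1716) (nat_lit 380) (nat_lit 0) (XT.nd (nat_lit 858) (nat_lit 684) (nat_lit 0) (XT.nd (nat_lit 390) (nat_lit 608) (nat_lit 0) (XT.nd (nat_lit 156) (nat_lit 380) (nat_lit 0) (XT.nd (nat_lit 78) (nat_lit 152) (nat_lit 0) (XT.lf (nat_lit 0) (nat_lit 27777733467) (nat_lit 228) (nat_lit 104293324845) (nat_lit 76) (nat_lit 48622966354) (nat_lit 38) (nat_lit 5) (nat_lit 41) (nat_lit 5) (nat_lit 39) (nat_lit 5) (nat_lit 359) (nat_lit 335) (nat_lit 206)) (XT.lf (nat_lit 0) (nat_lit 37215922150) (nat_lit 152) (nat_lit 46380177172) (nat_lit 228) (nat_lit 106889397907) (nat_lit 36) (nat_lit 5) (nat_lit 38) (nat_lit 5) (nat_lit 39) (nat_lit 5) (nat_lit 360) (nat_lit 335) (nat_lit 205))) (XT.nd (nat_lit 78) (nat_lit 380)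 (nat_lit 0) (XT.lf (nat_lit 0) (nat_lit 146446548106) (nat_lit 228) (nat_lit 7950906517) (nat_lit 76) (nat_lit 46534502796) (nat_lit 36) (nat_lit 5) (nat_lit 39) (nat_lit 5) (nat_lit 37) (nat_lit 5) (nat_lit 361) (nat_lit 335) (nat_lit 204)) (XT.nd (nat_lit 78) (nat_lit 152) (nat_lit 0) (XT.lf (nat_lit 0) (nat_lit 5267254639) (nat_lit 228) (nat_lit 59029797269) (nat_lit 76) (nat_lit 147754239200) (nat_lit 33) (nat_lit 5) (nat_lit 36) (nat_lit 5) (nat_lit 34) (nat_lit 5) (nat_lit 362) (nat_lit 335) (nat_lit 203)) (XT.lf (nat_lit 0) (nat_lit 70264769404) (nat_lit 228) (nat_lit 118925668022) (nat_lit 76) (nat_lit 34706397256) (nat_lit 31) (nat_lit 5) (nat_lit 34) (nat_lit 5) (nat_lit 32) (nat_lit 5) (nat_lit 363) (nat_lit 335) (nat_lit 202))))) (XT.nd (nat_lit 234) (nat_lit 304) (nat_lit 0) (XT.nd (nat_lit 78) (nat_lit 152) (nat_lit 0) (XT.lf (nat_lit 0) (nat_lit 47995714574) (nat_lit 152)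 (nat_lit 95344425380) (nat_lit 228) (nat_lit 93205979441) (nat_lit 29) (nat_lit 5) (nat_lit 31) (nat_lit 5) (nat_lit 32) (nat_lit 5) (nat_lit 364) (nat_lit 335) (nat_lit 201)) (XT.nd (nat_lit 78) (nat_lit 152) (nat_lit 0) (XT.lf (nat_lit 0) (nat_lit 224460376985) (nat_lit 228) (nat_lit 17714883607) (nat_lit 76) (nat_lit 7922144808) (nat_lit 29) (nat_lit 5) (nat_lit 32) (nat_lit 5) (nat_lit 30) (nat_lit 4) (nat_lit 365) (nat_lit 335) (nat_lit 200)) (XT.lf (nat_lit 0) (nat_lit 50163711333) (nat_lit 152) (nat_lit 94687830289) (nat_lit 76) (nat_lit 119627231153) (nat_lit 27) (nat_lit 5) (nat_lit 29) (nat_lit 5) (nat_lit 28) (nat_lit 5) (nat_lit 366) (nat_lit 335) (nat_lit 199)))) (XT.nd (nat_lit 78) (nat_lit 152) (nat_lit 0) (XT.lf (nat_lit 0) (nat_lit 95554761140) (nat_lit 152) (nat_lit 37392582531) (nat_lit 228) (nat_lit 146951440703) (nat_lit 25) (nat_lit 5) (nat_lit 27) (nat_lit 5) (nat_lit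 28) (nat_lit 5) (nat_lit 367) (nat_lit 335) (nat_lit 198)) (XT.nd (nat_lit 78) (nat_lit 76) (nat_lit 0) (XT.lf (nat_lit 0) (nat_lit 6892692640) (nat_lit 76) (nat_lit 218472702430) (nat_lit 152) (nat_lit 71036415675) (nat_lit 24) (nat_lit 5) (nat_lit 25) (nat_lit 5) (nat_lit 26) (nat_lit 4) (nat_lit 368) (nat_lit 335) (nat_lit 197)) (XT.lf (nat_lit 0) (nat_lit 14495125939) (nat_lit 152) (nat_lit 94908257907) (nat_lit 76) (nat_lit 204618454145) (nat_lit 23) (nat_lit 5) (nat_lit 25) (nat_lit 5) (nat_lit 24) (nat_lit 5) (nat_lit 369) (nat_lit 335) (nat_lit 196)))))) (XT.nd (nat_lit 390) (nat_lit 304) (nat_lit 0) (XT.nd (nat_lit 156) (nat_lit 228) (nat_lit 0) (XT.nd (nat_lit 78) (nat_lit 0) (nat_lit 0) (XT.lf (nat_lit 0) (nat_lit 106433781735) (nat_lit 228) (nat_lit 215246892175) (nat_lit 76) (nat_lit 11209899115) (nat_lit 21) (nat_lit 5) (nat_lit 24) (nat_lit 5) (nat_lit 22) (nat_lit 4) (nat_lit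 370) (nat_lit 335) (nat_lit 195)) (XT.lf (nat_lit 0) (nat_lit 209252201577) (nat_lit 228) (nat_lit 4469803352) (nat_lit 76) (nat_lit 139370568554) (nat_lit 21) (nat_lit 5) (nat_lit 24) (nat_lit 5) (nat_lit 22) (nat_lit 4) (nat_lit 371) (nat_lit 335) (nat_lit 194))) (XT.nd (nat_lit 78) (nat_lit 152) (nat_lit 0) (XT.lf (nat_lit 0) (nat_lit 230547741107) (nat_lit 76) (nat_lit 93347468541) (nat_lit 152) (nat_lit 50835568786) (nat_lit 20) (nat_lit 5) (nat_lit 21) (nat_lit 5) (nat_lit 22) (nat_lit 4) (nat_lit 372) (nat_lit 335) (nat_lit 193)) (XT.nd (nat_lit 78) (nat_lit 0) (nat_lit 0) (XT.lf (nat_lit 0) (nat_lit 50091036582) (nat_lit 152) (nat_lit 310111484223) (nat_lit 76) (nat_lit 37755330103) (nat_lit 18) (nat_lit 5) (nat_lit 20) (nat_lit 5) (nat_lit 19) (nat_lit 4) (nat_lit 373) (nat_lit 335) (nat_lit 192)) (XT.lf (nat_lit 0) (nat_lit 161460951362) (nat_lit 152) (nat_lit 81803666867) (nat_lit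 76) (nat_lit 179529292020) (nat_lit 18) (nat_lit 5) (nat_lit 20) (nat_lit 5) (nat_lit 19) (nat_lit 4) (nat_lit 374) (nat_lit 335) (nat_lit 191))))) (XT.nd (nat_lit 234) (nat_lit 76) (nat_lit 0) (XT.nd (nat_lit 78) (nat_lit 152) (nat_lit 0) (XT.lf (nat_lit 0) (nat_lit 170216157341) (nat_lit 76) (nat_lit 114181523057) (nat_lit 152) (nat_lit 165086313028) (nat_lit 17) (nat_lit 5) (nat_lit 18) (nat_lit 5) (nat_lit 19) (nat_lit 4) (nat_lit 375) (nat_lit 335) (nat_lit 190)) (XT.nd (nat_lit 78) (nat_lit 152) (nat_lit 0) (XT.lf (nat_lit 0) (nat_lit 419011239506) (nat_lit 152) (nat_lit 33337112603) (nat_lit 0) (nat_lit 25868836691) (nat_lit 17) (nat_lit 5) (nat_lit 19) (nat_lit 4) (nat_lit 17) (nat_lit 4) (nat_lit 376) (nat_lit 335) (nat_lit 189)) (XT.lf (nat_lit 0) (nat_lit 59112537567) (nat_lit 152) (nat_lit 271962084820) (nat_lit 76) (nat_lit 177844735586) (nat_lit 15) (nat_lit 5) (nat_lit 17)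 (nat_lit 5) (nat_lit 16) (nat_lit 4) (nat_lit 377) (nat_lit 335) (nat_lit 188)))) (XT.nd (nat_lit 78) (nat_lit 76) (nat_lit 0) (XT.lf (nat_lit 0) (nat_lit 185439891270) (nat_lit 152) (nat_lit 12991365302) (nat_lit 76) (nat_lit 343567030950) (nat_lit 15) (nat_lit 5) (nat_lit 17) (nat_lit 5) (nat_lit 16) (nat_lit 4) (nat_lit 378) (nat_lit 335) (nat_lit 187)) (XT.nd (nat_lit 78) (nat_lit 0) (nat_lit 0) (XT.lf (nat_lit 0) (nat_lit 275514715163) (nat_lit 76) (nat_lit 50660010108) (nat_lit 152) (nat_lit 251333741665) (nat_lit 14) (nat_lit 5) (nat_lit 15) (nat_lit 5) (nat_lit 16) (nat_lit 4) (nat_lit 379) (nat_lit 335) (nat_lit 186)) (XT.lf (nat_lit 0) (nat_lit 480098849613) (nat_lit 152) (nat_lit 29987880662) (nat_lit 0) (nat_lit 105676205337) (nat_lit 14) (nat_lit 5) (nat_lit 16) (nat_lit 4) (nat_lit 14) (nat_lit 4) (nat_lit 380) (nat_lit 335) (nat_lit 185))))))) (XT.nd (nat_lit 43680) (nat_lit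 0) (nat_lit 3876) (XT.nd (nat_lit 390) (nat_lit 76) (nat_lit 0) (XT.nd (nat_lit 156) (nat_lit 152) (nat_lit 0) (XT.nd (nat_lit 78) (nat_lit 76) (nat_lit 0) (XT.lf (nat_lit 0) (nat_lit 271617247014) (nat_lit 76) (nat_lit 379814346731) (nat_lit 76) (nat_lit 5391433630) (nat_lit 13) (nat_lit 4) (nat_lit 14) (nat_lit 5) (nat_lit 14) (nat_lit 4) (nat_lit 381) (nat_lit 335) (nat_lit 184)) (XT.lf (nat_lit 0) (nat_lit 131503192205) (nat_lit 152) (nat_lit 104841617991) (nat_lit 76) (nat_lit 464690958221) (nat_lit 12) (nat_lit 5) (nat_lit 14) (nat_lit 5) (nat_lit 13) (nat_lit 4) (nat_lit 382) (nat_lit 335) (nat_lit 183))) (XT.nd (nat_lit 78) (nat_lit 76) (nat_lit 0) (XT.lf (nat_lit 0) (nat_lit 204402527663) (nat_lit 76) (nat_lit 77951579727) (nat_lit 152) (nat_lit 466267321772) (nat_lit 11) (nat_lit 5) (nat_lit 12) (nat_lit 5) (nat_lit 13) (nat_lit 4) (nat_lit 383) (nat_lit 335) (nat_lit 182)) (XT.nd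 (nat_lit 78) (nat_lit 76) (nat_lit 0) (XT.lf (nat_lit 0) (nat_lit 448582858969) (nat_lit 152) (nat_lit 259276647104) (nat_lit 0) (nat_lit 91988948598) (nat_lit 11) (nat_lit 5) (nat_lit 13) (nat_lit 4) (nat_lit 11) (nat_lit 4) (nat_lit 384) (nat_lit 335) (nat_lit 181)) (XT.lf (nat_lit 0) (nat_lit 48705089535) (nat_lit 76) (nat_lit 581479459687) (nat_lit 76) (nat_lit 224885361132) (nat_lit 10) (nat_lit 4) (nat_lit 11) (nat_lit 5) (nat_lit 11) (nat_lit 4) (nat_lit 385) (nat_lit 335) (nat_lit 180))))) (XT.nd (nat_lit 43056) (nat_lit 0) (nat_lit 6156) (XT.nd (nat_lit 78) (nat_lit 76) (nat_lit 0) (XT.lf (nat_lit 0) (nat_lit 390583707028) (nat_lit 76) (nat_lit 440246917903) (nat_lit 76) (nat_lit 83652645102) (nat_lit 10) (nat_lit 4) (nat_lit 11) (nat_lit 5) (nat_lit 11) (nat_lit 4) (nat_lit 386) (nat_lit 335) (nat_lit 179)) (XT.nd (nat_lit 42900) (nat_lit 0) (nat_lit 6916) (XT.lf (nat_lit 0) (nat_lit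 66673969000) (nat_lit 152) (nat_lit 219912797688) (nat_lit 76) (nat_lit 692009170933) (nat_lit 9) (nat_lit 5) (nat_lit 11) (nat_lit 5) (nat_lit 10) (nat_lit 4) (nat_lit 387) (nat_lit 335) (nat_lit 178)) (XT.lf (nat_lit 0) (nat_lit 15965733139) (nat_lit 0) (nat_lit 15965733139) (nat_lit 684) (nat_lit 660092440) (nat_lit 100) (nat_lit 5) (nat_lit 100) (nat_lit 3) (nat_lit 109) (nat_lit 3) (nat_lit 336) (nat_lit 336) (nat_lit 228)))) (XT.nd (nat_lit 78) (nat_lit 760) (nat_lit 0) (XT.lf (nat_lit 76) (nat_lit 15347626735) (nat_lit 0) (nat_lit 51589296580) (nat_lit 760) (nat_lit 827510035) (nat_lit 101) (nat_lit 5) (nat_lit 100) (nat_lit 5) (nat_lit 110) (nat_lit 5) (nat_lit 337) (nat_lit 336) (nat_lit 227)) (XT.nd (nat_lit 78) (nat_lit 0) (nat_lit 76) (XT.lf (nat_lit 0) (nat_lit 838847015) (nat_lit 760) (nat_lit 2045746887) (nat_lit 836) (nat_lit 67611653951) (nat_lit 90) (nat_lit 5) (nat_lit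 100) (nat_lit 5) (nat_lit 101) (nat_lit 5) (nat_lit 338) (nat_lit 336) (nat_lit 226)) (XT.lf (nat_lit 0) (nat_lit 4242237477) (nat_lit 760) (nat_lit 20123769907) (nat_lit 836) (nat_lit 48998289103) (nat_lit 91) (nat_lit 5) (nat_lit 101) (nat_lit 5) (nat_lit 102) (nat_lit 5) (nat_lit 339) (nat_lit 336) (nat_lit 225)))))) (XT.nd (nat_lit 468) (nat_lit 1520) (nat_lit 0) (XT.nd (nat_lit 234) (nat_lit 912) (nat_lit 0) (XT.nd (nat_lit 78) (nat_lit 0) (nat_lit 76) (XT.lf (nat_lit 0) (nat_lit 9044458765) (nat_lit 760) (nat_lit 39163575689) (nat_lit 836) (nat_lit 28197429449) (nat_lit 92) (nat_lit 5) (nat_lit 102) (nat_lit 5) (nat_lit 103) (nat_lit 5) (nat_lit 340) (nat_lit 336) (nat_lit 224)) (XT.nd (nat_lit 78) (nat_lit 0) (nat_lit 0) (XT.lf (nat_lit 0) (nat_lit 15396529499) (nat_lit 760) (nat_lit 59235794822) (nat_lit 836) (nat_lit 4999319457) (nat_lit 93) (nat_lit 5) (nat_lit 103) (nat_lit 5)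 (nat_lit 104) (nat_lit 5) (nat_lit 341) (nat_lit 336) (nat_lit 223)) (XT.lf (nat_lit 76) (nat_lit 2284355245) (nat_lit 0) (nat_lit 21512597110) (nat_lit 836) (nat_lit 59241958828) (nat_lit 94) (nat_lit 5) (nat_lit 93) (nat_lit 5) (nat_lit 104) (nat_lit 5) (nat_lit 342) (nat_lit 336) (nat_lit 222)))) (XT.nd (nat_lit 78) (nat_lit 1064) (nat_lit 0) (XT.lf (nat_lit 0) (nat_lit 34476367121) (nat_lit 760) (nat_lit 16403961501) (nat_lit 76) (nat_lit 35758085729) (nat_lit 94) (nat_lit 5) (nat_lit 104) (nat_lit 5) (nat_lit 95) (nat_lit 5) (nat_lit 343) (nat_lit 336) (nat_lit 221)) (XT.nd (nat_lit 78) (nat_lit 380) (nat_lit 0) (XT.lf (nat_lit 0) (nat_lit 47335088018) (nat_lit 760) (nat_lit 36104426063) (nat_lit 76) (nat_lit 7020118153) (nat_lit 85) (nat_lit 5) (nat_lit 95) (nat_lit 5) (nat_lit 86) (nat_lit 5) (nat_lit 344) (nat_lit 336) (nat_lit 220)) (XT.lf (nat_lit 0) (nat_lit 37112467615) (nat_lit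 380) (nat_lit 25836418448) (nat_lit 456) (nat_lit 31551344463) (nat_lit 80) (nat_lit 5) (nat_lit 85) (nat_lit 5) (nat_lit 86) (nat_lit 5) (nat_lit 345) (nat_lit 336) (nat_lit 219))))) (XT.nd (nat_lit 234) (nat_lit 836) (nat_lit 0) (XT.nd (nat_lit 78) (nat_lit 380) (nat_lit 0) (XT.lf (nat_lit 0) (nat_lit 18661024181) (nat_lit 304) (nat_lit 62647923608) (nat_lit 380) (nat_lit 17480272709) (nat_lit 76) (nat_lit 5) (nat_lit 80) (nat_lit 5) (nat_lit 81) (nat_lit 5) (nat_lit 346) (nat_lit 336) (nat_lit 218)) (XT.nd (nat_lit 78) (nat_lit 380) (nat_lit 0) (XT.lf (nat_lit 0) (nat_lit 102391639142) (nat_lit 304) (nat_lit 173202277) (nat_lit 380) (nat_lit 785138574) (nat_lit 76) (nat_lit 5) (nat_lit 80) (nat_lit 5) (nat_lit 81) (nat_lit 5) (nat_lit 347) (nat_lit 336) (nat_lit 217)) (XT.lf (nat_lit 0) (nat_lit 19129155138) (nat_lit 380) (nat_lit 22210577648) (nat_lit 76) (nat_lit 66800630526) (nat_lit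 71) (nat_lit 5) (nat_lit 76) (nat_lit 5) (nat_lit 72) (nat_lit 5) (nat_lit 348) (nat_lit 336) (nat_lit 216)))) (XT.nd (nat_lit 78) (nat_lit 532) (nat_lit 0) (XT.lf (nat_lit 0) (nat_lit 42121436241) (nat_lit 380) (nat_lit 45009625030) (nat_lit 76) (nat_lit 26106656271) (nat_lit 67) (nat_lit 5) (nat_lit 72) (nat_lit 5) (nat_lit 68) (nat_lit 5) (nat_lit 349) (nat_lit 336) (nat_lit 215)) (XT.nd (nat_lit 78) (nat_lit 228) (nat_lit 0) (XT.lf (nat_lit 0) (nat_lit 48829661962) (nat_lit 304) (nat_lit 19975052808) (nat_lit 380) (nat_lit 49845565858) (nat_lit 63) (nat_lit 5) (nat_lit 67) (nat_lit 5) (nat_lit 68) (nat_lit 5) (nat_lit 350) (nat_lit 336) (nat_lit 214)) (XT.lf (nat_lit 0) (nat_lit 27368061152) (nat_lit 228) (nat_lit 72298287785) (nat_lit 304) (nat_lit 24727316329) (nat_lit 60) (nat_lit 5) (nat_lit 63) (nat_lit 5) (nat_lit 64) (nat_lit 5) (nat_lit 351) (nat_lit 336) (nat_lit 213))))))))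
noncomputable def xc105 : XT := (XT.nd (nat_lit 1716) (nat_lit 760) (nat_lit 0) (XT.nd (nat_lit 858) (nat_lit 1216) (nat_lit 0) (XT.nd (nat_lit 390) (nat_lit 760) (nat_lit 0) (XT.nd (nat_lit 156) (nat_lit 684) (nat_lit 0) (XT.nd (nat_lit 78) (nat_lit 0) (nat_lit 0) (XT.lf (nat_lit 0) (nat_lit 3959400706) (nat_lit 380) (nat_lit 126491222684) (nat_lit 76) (nat_lit 62232720) (nat_lit 55) (nat_lit 5) (nat_lit 60) (nat_lit 5) (nat_lit 56) (nat_lit 5) (nat_lit 352) (nat_lit 336) (nat_lit 212)) (XT.lf (nat_lit 0) (nat_lit 37022313931) (nat_lit 380) (nat_lit 22084628194) (nat_lit 76) (nat_lit 77846993583) (nat_lit 55) (nat_lit 5) (nat_lit 60) (nat_lit 5) (nat_lit 56) (nat_lit 5) (nat_lit 353) (nat_lit 336) (nat_lit 211))) (XT.nd (nat_lit 78) (nat_lit 456) (nat_lit 0) (XT.lf (nat_lit 0) (nat_lit 74496021615) (nat_lit 304) (nat_lit 50469915457) (nat_lit 76) (nat_lit 18856077418) (nat_lit 52) (nat_lit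 5) (nat_lit 56) (nat_lit 5) (nat_lit 53) (nat_lit 5) (nat_lit 354) (nat_lit 336) (nat_lit 210)) (XT.nd (nat_lit 78) (nat_lit 228) (nat_lit 0) (XT.lf (nat_lit 0) (nat_lit 68789721790) (nat_lit 228) (nat_lit 48638760633) (nat_lit 304) (nat_lit 33688015147) (nat_lit 49) (nat_lit 5) (nat_lit 52) (nat_lit 5) (nat_lit 53) (nat_lit 5) (nat_lit 355) (nat_lit 336) (nat_lit 209)) (XT.lf (nat_lit 0) (nat_lit 6745130834) (nat_lit 228) (nat_lit 117782233708) (nat_lit 76) (nat_lit 34358538020) (nat_lit 46) (nat_lit 5) (nat_lit 49) (nat_lit 5) (nat_lit 47) (nat_lit 5) (nat_lit 356) (nat_lit 336) (nat_lit 208))))) (XT.nd (nat_lit 234) (nat_lit 380) (nat_lit 0) (XT.nd (nat_lit 78) (nat_lit 152) (nat_lit 0) (XT.lf (nat_lit 0) (nat_lit 9019157061) (nat_lit 228) (nat_lit 42647091958) (nat_lit 304) (nat_lit 115461319253) (nat_lit 43) (nat_lit 5) (nat_lit 46) (nat_lit 5) (nat_lit 47) (nat_lit 5) (nat_lit 357)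 (nat_lit 336) (nat_lit 207)) (XT.nd (nat_lit 78) (nat_lit 152) (nat_lit 0) (XT.lf (nat_lit 0) (nat_lit 102980489041) (nat_lit 304) (nat_lit 26504864711) (nat_lit 76) (nat_lit 46403242490) (nat_lit 43) (nat_lit 5) (nat_lit 47) (nat_lit 5) (nat_lit 44) (nat_lit 5) (nat_lit 358) (nat_lit 336) (nat_lit 206)) (XT.lf (nat_lit 0) (nat_lit 118706214455) (nat_lit 152) (nat_lit 42265447663) (nat_lit 228) (nat_lit 24250255211) (nat_lit 41) (nat_lit 5) (nat_lit 43) (nat_lit 5) (nat_lit 44) (nat_lit 5) (nat_lit 359) (nat_lit 336) (nat_lit 205)))) (XT.nd (nat_lit 78) (nat_lit 152) (nat_lit 0) (XT.lf (nat_lit 0) (nat_lit 30012610043) (nat_lit 228) (nat_lit 112616873213) (nat_lit 76) (nat_lit 52519420611) (nat_lit 38) (nat_lit 5) (nat_lit 41) (nat_lit 5) (nat_lit 39) (nat_lit 5) (nat_lit 360) (nat_lit 336) (nat_lit 204)) (XT.nd (nat_lit 78) (nat_lit 0) (nat_lit 0) (XT.lf (nat_lit 0) (nat_lit 40212247946)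 (nat_lit 152) (nat_lit 50083557053) (nat_lit 228) (nat_lit 115427921974) (nat_lit 36) (nat_lit 5) (nat_lit 38) (nat_lit 5) (nat_lit 39) (nat_lit 5) (nat_lit 361) (nat_lit 336) (nat_lit 203)) (XT.lf (nat_lit 0) (nat_lit 158173501174) (nat_lit 228) (nat_lit 8568875119) (nat_lit 76) (nat_lit 50263567789) (nat_lit 36) (nat_lit 5) (nat_lit 39) (nat_lit 5) (nat_lit 37) (nat_lit 5) (nat_lit 362) (nat_lit 336) (nat_lit 202)))))) (XT.nd (nat_lit 390) (nat_lit 532) (nat_lit 0) (XT.nd (nat_lit 156) (nat_lit 304) (nat_lit 0) (XT.nd (nat_lit 78) (nat_lit 152) (nat_lit 0) (XT.lf (nat_lit 0) (nat_lit 5699485277) (nat_lit 228) (nat_lit 63734497678) (nat_lit 76) (nat_lit 159580861459) (nat_lit 33) (nat_lit 5) (nat_lit 36) (nat_lit 5) (nat_lit 34) (nat_lit 5) (nat_lit 363) (nat_lit 336) (nat_lit 201)) (XT.lf (nat_lit 0) (nat_lit 75896364700) (nat_lit 228) (nat_lit 128422387254) (nat_lit 76) (nat_lit 37489301901)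 (nat_lit 31) (nat_lit 5) (nat_lit 34) (nat_lit 5) (nat_lit 32) (nat_lit 5) (nat_lit 364) (nat_lit 336) (nat_lit 200))) (XT.nd (nat_lit 78) (nat_lit 152) (nat_lit 0) (XT.lf (nat_lit 0) (nat_lit 51851952627) (nat_lit 152) (nat_lit 102965299754) (nat_lit 228) (nat_lit 100652055104) (nat_lit 29) (nat_lit 5) (nat_lit 31) (nat_lit 5) (nat_lit 32) (nat_lit 5) (nat_lit 365) (nat_lit 336) (nat_lit 199)) (XT.nd (nat_lit 78) (nat_lit 152) (nat_lit 0) (XT.lf (nat_lit 0) (nat_lit 242426471511) (nat_lit 228) (nat_lit 19116353868) (nat_lit 76) (nat_lit 8561903306) (nat_lit 29) (nat_lit 5) (nat_lit 32) (nat_lit 5) (nat_lit 30) (nat_lit 4) (nat_lit 366) (nat_lit 336) (nat_lit 198)) (XT.lf (nat_lit 0) (nat_lit 54185770919) (nat_lit 152) (nat_lit 102247517900) (nat_lit 76) (nat_lit 129203332417) (nat_lit 27) (nat_lit 5) (nat_lit 29) (nat_lit 5) (nat_lit 28) (nat_lit 5) (nat_lit 367) (nat_lit 336) (nat_lit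 197))))) (XT.nd (nat_lit 234) (nat_lit 228) (nat_lit 0) (XT.nd (nat_lit 78) (nat_lit 152) (nat_lit 0) (XT.lf (nat_lit 0) (nat_lit 103213814238) (nat_lit 152) (nat_lit 40377844779) (nat_lit 228) (nat_lit 158698596875) (nat_lit 25) (nat_lit 5) (nat_lit 27) (nat_lit 5) (nat_lit 28) (nat_lit 5) (nat_lit 368) (nat_lit 336) (nat_lit 196)) (XT.nd (nat_lit 78) (nat_lit 76) (nat_lit 0) (XT.lf (nat_lit 0) (nat_lit 7458463352) (nat_lit 76) (nat_lit 235944372433) (nat_lit 152) (nat_lit 76710704882) (nat_lit 24) (nat_lit 5) (nat_lit 25) (nat_lit 5) (nat_lit 26) (nat_lit 4) (nat_lit 369) (nat_lit 336) (nat_lit 195)) (XT.lf (nat_lit 0) (nat_lit 15662465665) (nat_lit 152) (nat_lit 102487367066) (nat_lit 76) (nat_lit 220993361865) (nat_lit 23) (nat_lit 5) (nat_lit 25) (nat_lit 5) (nat_lit 24) (nat_lit 5) (nat_lit 370) (nat_lit 336) (nat_lit 194)))) (XT.nd (nat_lit 78) (nat_lit 76) (nat_lit 0) (XT.lf (nat_lit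 0) (nat_lit 114955931220) (nat_lit 228) (nat_lit 232453396852) (nat_lit 76) (nat_lit 12112114788) (nat_lit 21) (nat_lit 5) (nat_lit 24) (nat_lit 5) (nat_lit 22) (nat_lit 4) (nat_lit 371) (nat_lit 336) (nat_lit 193)) (XT.nd (nat_lit 78) (nat_lit 76) (nat_lit 0) (XT.lf (nat_lit 0) (nat_lit 225999273024) (nat_lit 228) (nat_lit 4815122159) (nat_lit 76) (nat_lit 150525236024) (nat_lit 21) (nat_lit 5) (nat_lit 24) (nat_lit 5) (nat_lit 22) (nat_lit 4) (nat_lit 372) (nat_lit 336) (nat_lit 192)) (XT.lf (nat_lit 0) (nat_lit 249003292814) (nat_lit 76) (nat_lit 100810101338) (nat_lit 152) (nat_lit 54895515033) (nat_lit 20) (nat_lit 5) (nat_lit 21) (nat_lit 5) (nat_lit 22) (nat_lit 4) (nat_lit 373) (nat_lit 336) (nat_lit 191))))))) (XT.nd (nat_lit 858) (nat_lit 76) (nat_lit 0) (XT.nd (nat_lit 390) (nat_lit 304) (nat_lit 0) (XT.nd (nat_lit 156) (nat_lit 228) (nat_lit 0) (XT.nd (nat_lit 78) (nat_lit 0)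 (nat_lit 0) (XT.lf (nat_lit 0) (nat_lit 54104761029) (nat_lit 152) (nat_lit 334908724681) (nat_lit 76) (nat_lit 40780668428) (nat_lit 18) (nat_lit 5) (nat_lit 20) (nat_lit 5) (nat_lit 19) (nat_lit 4) (nat_lit 374) (nat_lit 336) (nat_lit 190)) (XT.lf (nat_lit 0) (nat_lit 174383791841) (nat_lit 152) (nat_lit 88337146994) (nat_lit 76) (nat_lit 193896183454) (nat_lit 18) (nat_lit 5) (nat_lit 20) (nat_lit 5) (nat_lit 19) (nat_lit 4) (nat_lit 375) (nat_lit 336) (nat_lit 189))) (XT.nd (nat_lit 78) (nat_lit 152) (nat_lit 0) (XT.lf (nat_lit 0) (nat_lit 183843793221) (nat_lit 76) (nat_lit 123311385662) (nat_lit 152) (nat_lit 178287247443) (nat_lit 17) (nat_lit 5) (nat_lit 18) (nat_lit 5) (nat_lit 19) (nat_lit 4) (nat_lit 376) (nat_lit 336) (nat_lit 188)) (XT.nd (nat_lit 78) (nat_lit 152) (nat_lit 0) (XT.lf (nat_lit 0) (nat_lit 452537469034) (nat_lit 152) (nat_lit 35994306497) (nat_lit 0) (nat_lit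 27942519659) (nat_lit 17) (nat_lit 5) (nat_lit 19) (nat_lit 4) (nat_lit 17) (nat_lit 4) (nat_lit 377) (nat_lit 336) (nat_lit 187)) (XT.lf (nat_lit 0) (nat_lit 63846707354) (nat_lit 152) (nat_lit 293709528532) (nat_lit 76) (nat_lit 192076410449) (nat_lit 15) (nat_lit 5) (nat_lit 17) (nat_lit 5) (nat_lit 16) (nat_lit 4) (nat_lit 378) (nat_lit 336) (nat_lit 186))))) (XT.nd (nat_lit 234) (nat_lit 228) (nat_lit 0) (XT.nd (nat_lit 78) (nat_lit 76) (nat_lit 0) (XT.lf (nat_lit 0) (nat_lit 200279866629) (nat_lit 152) (nat_lit 14021856865) (nat_lit 76) (nat_lit 371056186034) (nat_lit 15) (nat_lit 5) (nat_lit 17) (nat_lit 5) (nat_lit 16) (nat_lit 4) (nat_lit 379) (nat_lit 336) (nat_lit 185)) (XT.nd (nat_lit 78) (nat_lit 0) (nat_lit 0) (XT.lf (nat_lit 0) (nat_lit 297564326832) (nat_lit 76) (nat_lit 54708937828) (nat_lit 152) (nat_lit 271435649901) (nat_lit 14) (nat_lit 5) (nat_lit 15) (nat_lit 5) (nat_lit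 16) (nat_lit 4) (nat_lit 380) (nat_lit 336) (nat_lit 184)) (XT.lf (nat_lit 0) (nat_lit 518511037062) (nat_lit 152) (nat_lit 32378944712) (nat_lit 0) (nat_lit 114133773176) (nat_lit 14) (nat_lit 5) (nat_lit 16) (nat_lit 4) (nat_lit 14) (nat_lit 4) (nat_lit 381) (nat_lit 336) (nat_lit 183)))) (XT.nd (nat_lit 78) (nat_lit 152) (nat_lit 0) (XT.lf (nat_lit 0) (nat_lit 293354246968) (nat_lit 76) (nat_lit 410195955730) (nat_lit 76) (nat_lit 5818461370) (nat_lit 13) (nat_lit 4) (nat_lit 14) (nat_lit 5) (nat_lit 14) (nat_lit 4) (nat_lit 382) (nat_lit 336) (nat_lit 182)) (XT.nd (nat_lit 78) (nat_lit 76) (nat_lit 0) (XT.lf (nat_lit 0) (nat_lit 142027289934) (nat_lit 152) (nat_lit 113221763396) (nat_lit 76) (nat_lit 501869383188) (nat_lit 12) (nat_lit 5) (nat_lit 14) (nat_lit 5) (nat_lit 13) (nat_lit 4) (nat_lit 383) (nat_lit 336) (nat_lit 181)) (XT.lf (nat_lit 0) (nat_lit 220761601701) (nat_lit 76)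 (nat_lit 84184499301) (nat_lit 152) (nat_lit 503564858078) (nat_lit 11) (nat_lit 5) (nat_lit 12) (nat_lit 5) (nat_lit 13) (nat_lit 4) (nat_lit 384) (nat_lit 336) (nat_lit 180)))))) (XT.nd (nat_lit 43446) (nat_lit 0) (nat_lit 5320) (XT.nd (nat_lit 43212) (nat_lit 0) (nat_lit 6080) (XT.nd (nat_lit 78) (nat_lit 76) (nat_lit 0) (XT.lf (nat_lit 0) (nat_lit 484472927584) (nat_lit 152) (nat_lit 280012291676) (nat_lit 0) (nat_lit 99350938714) (nat_lit 11) (nat_lit 5) (nat_lit 13) (nat_lit 4) (nat_lit 11) (nat_lit 4) (nat_lit 385) (nat_lit 336) (nat_lit 179)) (XT.nd (nat_lit 43056) (nat_lit 0) (nat_lit 6840) (XT.lf (nat_lit 0) (nat_lit 52607701968) (nat_lit 76) (nat_lit 627994893163) (nat_lit 76) (nat_lit 242872742955) (nat_lit 10) (nat_lit 4) (nat_lit 11) (nat_lit 5) (nat_lit 11) (nat_lit 4) (nat_lit 386) (nat_lit 336) (nat_lit 178)) (XT.lf (nat_lit 0) (nat_lit 17254132024) (nat_lit 0) (nat_lit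 17254132024) (nat_lit 684) (nat_lit 689471076) (nat_lit 100) (nat_lit 5) (nat_lit 100) (nat_lit 3) (nat_lit 109) (nat_lit 3) (nat_lit 337) (nat_lit 337) (nat_lit 226)))) (XT.nd (nat_lit 78) (nat_lit 760) (nat_lit 0) (XT.lf (nat_lit 76) (nat_lit 16599278581) (nat_lit 0) (nat_lit 55733908865) (nat_lit 760) (nat_lit 850271597) (nat_lit 101) (nat_lit 5) (nat_lit 100) (nat_lit 5) (nat_lit 110) (nat_lit 5) (nat_lit 338) (nat_lit 337) (nat_lit 225)) (XT.nd (nat_lit 78) (nat_lit 0) (nat_lit 76) (XT.lf (nat_lit 0) (nat_lit 944888956) (nat_lit 760) (nat_lit 2185987680) (nat_lit 836) (nat_lit 73003068372) (nat_lit 90) (nat_lit 5) (nat_lit 100) (nat_lit 5) (nat_lit 101) (nat_lit 5) (nat_lit 339) (nat_lit 337) (nat_lit 224)) (XT.lf (nat_lit 0) (nat_lit 4617797828) (nat_lit 760) (nat_lit 21709179929) (nat_lit 836) (nat_lit 52904601564) (nat_lit 91) (nat_lit 5) (nat_lit 101) (nat_lit 5) (nat_lit 102)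 (nat_lit 5) (nat_lit 340) (nat_lit 337) (nat_lit 223))))) (XT.nd (nat_lit 234) (nat_lit 912) (nat_lit 0) (XT.nd (nat_lit 78) (nat_lit 0) (nat_lit 76) (XT.lf (nat_lit 0) (nat_lit 9801719488) (nat_lit 760) (nat_lit 42271330221) (nat_lit 836) (nat_lit 30443118125) (nat_lit 92) (nat_lit 5) (nat_lit 102) (nat_lit 5) (nat_lit 103) (nat_lit 5) (nat_lit 341) (nat_lit 337) (nat_lit 222)) (XT.nd (nat_lit 78) (nat_lit 0) (nat_lit 0) (XT.lf (nat_lit 0) (nat_lit 16659722762) (nat_lit 760) (nat_lit 63948689216) (nat_lit 836) (nat_lit 5392145333) (nat_lit 93) (nat_lit 5) (nat_lit 103) (nat_lit 5) (nat_lit 104) (nat_lit 5) (nat_lit 342) (nat_lit 337) (nat_lit 221)) (XT.lf (nat_lit 76) (nat_lit 2491944268) (nat_lit 0) (nat_lit 23238291832) (nat_lit 836) (nat_lit 63950270465) (nat_lit 94) (nat_lit 5) (nat_lit 93) (nat_lit 5) (nat_lit 104) (nat_lit 5) (nat_lit 343) (nat_lit 337) (nat_lit 220)))) (XT.nd (nat_lit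 78) (nat_lit 1064) (nat_lit 0) (XT.lf (nat_lit 0) (nat_lit 37261749064) (nat_lit 760) (nat_lit 17691805002) (nat_lit 76) (nat_lit 38614531716) (nat_lit 94) (nat_lit 5) (nat_lit 104) (nat_lit 5) (nat_lit 95) (nat_lit 5) (nat_lit 344) (nat_lit 337) (nat_lit 219)) (XT.nd (nat_lit 78) (nat_lit 380) (nat_lit 0) (XT.lf (nat_lit 0) (nat_lit 51147478462) (nat_lit 760) (nat_lit 38968019680) (nat_lit 76) (nat_lit 7579590233) (nat_lit 85) (nat_lit 5) (nat_lit 95) (nat_lit 5) (nat_lit 86) (nat_lit 5) (nat_lit 345) (nat_lit 337) (nat_lit 218)) (XT.lf (nat_lit 0) (nat_lit 40105149433) (nat_lit 380) (nat_lit 27903705631) (nat_lit 456) (nat_lit 34050158345) (nat_lit 80) (nat_lit 5) (nat_lit 85) (nat_lit 5) (nat_lit 86) (nat_lit 5) (nat_lit 346) (nat_lit 337) (nat_lit 217))))))))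
noncomputable def xc106 : XT := (XT.nd (nat_lit 1716) (nat_lit 1216) (nat_lit 0) (XT.nd (nat_lit 858) (nat_lit 1444) (nat_lit 0) (XT.nd (nat_lit 390) (nat_lit 1292) (nat_lit 0) (XT.nd (nat_lit 156) (nat_lit 988) (nat_lit 0) (XT.nd (nat_lit 78) (nat_lit 0) (nat_lit 0) (XT.lf (nat_lit 0) (nat_lit 20177748673) (nat_lit 304) (nat_lit 67658557818) (nat_lit 380) (nat_lit 18854889267) (nat_lit 76) (nat_lit 5) (nat_lit 80) (nat_lit 5) (nat_lit 81) (nat_lit 5) (nat_lit 347) (nat_lit 337) (nat_lit 216)) (XT.lf (nat_lit 0) (nat_lit 110605046715) (nat_lit 304) (nat_lit 185947646) (nat_lit 380) (nat_lit 825907753) (nat_lit 76) (nat_lit 5) (nat_lit 80) (nat_lit 5) (nat_lit 81) (nat_lit 5) (nat_lit 348) (nat_lit 337) (nat_lit 215))) (XT.nd (nat_lit 78) (nat_lit 608) (nat_lit 0) (XT.lf (nat_lit 0) (nat_lit 20679610997) (nat_lit 380) (nat_lit 23964603858) (nat_lit 76) (nat_lit 72146346662) (nat_lit 71)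 (nat_lit 5) (nat_lit 76) (nat_lit 5) (nat_lit 72) (nat_lit 5) (nat_lit 349) (nat_lit 337) (nat_lit 214)) (XT.nd (nat_lit 78) (nat_lit 304) (nat_lit 0) (XT.lf (nat_lit 0) (nat_lit 45510169332) (nat_lit 380) (nat_lit 48587639789) (nat_lit 76) (nat_lit 28197952056) (nat_lit 67) (nat_lit 5) (nat_lit 72) (nat_lit 5) (nat_lit 68) (nat_lit 5) (nat_lit 350) (nat_lit 337) (nat_lit 213)) (XT.lf (nat_lit 0) (nat_lit 52757801247) (nat_lit 304) (nat_lit 21569239975) (nat_lit 380) (nat_lit 53814343228) (nat_lit 63) (nat_lit 5) (nat_lit 67) (nat_lit 5) (nat_lit 68) (nat_lit 5) (nat_lit 351) (nat_lit 337) (nat_lit 212))))) (XT.nd (nat_lit 234) (nat_lit 684) (nat_lit 0) (XT.nd (nat_lit 78) (nat_lit 380) (nat_lit 0) (XT.lf (nat_lit 0) (nat_lit 29579148136) (nat_lit 228) (nat_lit 78077521486) (nat_lit 304) (nat_lit 26687618630) (nat_lit 60) (nat_lit 5) (nat_lit 63) (nat_lit 5) (nat_lit 64) (nat_lit 5) (nat_lit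 352) (nat_lit 337) (nat_lit 211)) (XT.nd (nat_lit 78) (nat_lit 0) (nat_lit 0) (XT.lf (nat_lit 0) (nat_lit 4292589770) (nat_lit 380) (nat_lit 136588494901) (nat_lit 76) (nat_lit 71960795) (nat_lit 55) (nat_lit 5) (nat_lit 60) (nat_lit 5) (nat_lit 56) (nat_lit 5) (nat_lit 353) (nat_lit 337) (nat_lit 210)) (XT.lf (nat_lit 0) (nat_lit 39999318497) (nat_lit 380) (nat_lit 23831004378) (nat_lit 76) (nat_lit 84079150715) (nat_lit 55) (nat_lit 5) (nat_lit 60) (nat_lit 5) (nat_lit 56) (nat_lit 5) (nat_lit 354) (nat_lit 337) (nat_lit 209)))) (XT.nd (nat_lit 78) (nat_lit 456) (nat_lit 0) (XT.lf (nat_lit 0) (nat_lit 80470179799) (nat_lit 304) (nat_lit 54487346073) (nat_lit 76) (nat_lit 20369511138) (nat_lit 52) (nat_lit 5) (nat_lit 56) (nat_lit 5) (nat_lit 53) (nat_lit 5) (nat_lit 355) (nat_lit 337) (nat_lit 208)) (XT.nd (nat_lit 78) (nat_lit 228) (nat_lit 0) (XT.lf (nat_lit 0) (nat_lit 74312185911)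 (nat_lit 228) (nat_lit 52524280345) (nat_lit 304) (nat_lit 36368652139) (nat_lit 49) (nat_lit 5) (nat_lit 52) (nat_lit 5) (nat_lit 53) (nat_lit 5) (nat_lit 356) (nat_lit 337) (nat_lit 207)) (XT.lf (nat_lit 0) (nat_lit 7298035710) (nat_lit 228) (nat_lit 127185327264) (nat_lit 76) (nat_lit 37112734974) (nat_lit 46) (nat_lit 5) (nat_lit 49) (nat_lit 5) (nat_lit 47) (nat_lit 5) (nat_lit 357) (nat_lit 337) (nat_lit 206)))))) (XT.nd (nat_lit 390) (nat_lit 684) (nat_lit 0) (XT.nd (nat_lit 156) (nat_lit 532) (nat_lit 0) (XT.nd (nat_lit 78) (nat_lit 0) (nat_lit 0) (XT.lf (nat_lit 0) (nat_lit 9759327966) (nat_lit 228) (nat_lit 46052821610) (nat_lit 304) (nat_lit 124684982926) (nat_lit 43) (nat_lit 5) (nat_lit 46) (nat_lit 5) (nat_lit 47) (nat_lit 5) (nat_lit 358) (nat_lit 337) (nat_lit 205)) (XT.lf (nat_lit 0) (nat_lit 111230682701) (nat_lit 304) (nat_lit 28607489714) (nat_lit 76) (nat_lit 50120913427)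 (nat_lit 43) (nat_lit 5) (nat_lit 47) (nat_lit 5) (nat_lit 44) (nat_lit 5) (nat_lit 359) (nat_lit 337) (nat_lit 204))) (XT.nd (nat_lit 78) (nat_lit 380) (nat_lit 0) (XT.lf (nat_lit 0) (nat_lit 128219703776) (nat_lit 152) (nat_lit 45640840438) (nat_lit 228) (nat_lit 26178559442) (nat_lit 41) (nat_lit 5) (nat_lit 43) (nat_lit 5) (nat_lit 44) (nat_lit 5) (nat_lit 360) (nat_lit 337) (nat_lit 203)) (XT.nd (nat_lit 78) (nat_lit 152) (nat_lit 0) (XT.lf (nat_lit 0) (nat_lit 32424470955) (nat_lit 228) (nat_lit 121609146921) (nat_lit 76) (nat_lit 56726647226) (nat_lit 38) (nat_lit 5) (nat_lit 41) (nat_lit 5) (nat_lit 39) (nat_lit 5) (nat_lit 361) (nat_lit 337) (nat_lit 202)) (XT.lf (nat_lit 0) (nat_lit 43445561822) (nat_lit 152) (nat_lit 54084210846) (nat_lit 228) (nat_lit 124651329459) (nat_lit 36) (nat_lit 5) (nat_lit 38) (nat_lit 5) (nat_lit 39) (nat_lit 5) (nat_lit 362) (nat_lit 337) (nat_lit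 201))))) (XT.nd (nat_lit 234) (nat_lit 304) (nat_lit 0) (XT.nd (nat_lit 78) (nat_lit 380) (nat_lit 0) (XT.lf (nat_lit 0) (nat_lit 170837008514) (nat_lit 228) (nat_lit 9238863936) (nat_lit 76) (nat_lit 54290058536) (nat_lit 36) (nat_lit 5) (nat_lit 39) (nat_lit 5) (nat_lit 37) (nat_lit 5) (nat_lit 363) (nat_lit 337) (nat_lit 200)) (XT.nd (nat_lit 78) (nat_lit 152) (nat_lit 0) (XT.lf (nat_lit 0) (nat_lit 6164746455) (nat_lit 228) (nat_lit 68818096852) (nat_lit 76) (nat_lit 172352717141) (nat_lit 33) (nat_lit 5) (nat_lit 36) (nat_lit 5) (nat_lit 34) (nat_lit 5) (nat_lit 364) (nat_lit 337) (nat_lit 199)) (XT.lf (nat_lit 0) (nat_lit 81977001982) (nat_lit 228) (nat_lit 138681316944) (nat_lit 76) (nat_lit 40493926904) (nat_lit 31) (nat_lit 5) (nat_lit 34) (nat_lit 5) (nat_lit 32) (nat_lit 5) (nat_lit 365) (nat_lit 337) (nat_lit 198)))) (XT.nd (nat_lit 78) (nat_lit 152) (nat_lit 0) (XT.lf (nat_lit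 0) (nat_lit 56014324274) (nat_lit 152) (nat_lit 111196797004) (nat_lit 228) (nat_lit 108695300879) (nat_lit 29) (nat_lit 5) (nat_lit 31) (nat_lit 5) (nat_lit 32) (nat_lit 5) (nat_lit 366) (nat_lit 337) (nat_lit 197)) (XT.nd (nat_lit 78) (nat_lit 152) (nat_lit 0) (XT.lf (nat_lit 0) (nat_lit 261828531934) (nat_lit 228) (nat_lit 20632184444) (nat_lit 76) (nat_lit 9251988384) (nat_lit 29) (nat_lit 5) (nat_lit 32) (nat_lit 5) (nat_lit 30) (nat_lit 4) (nat_lit 367) (nat_lit 337) (nat_lit 196)) (XT.lf (nat_lit 0) (nat_lit 58528316645) (nat_lit 152) (nat_lit 110414168774) (nat_lit 76) (nat_lit 139544676832) (nat_lit 27) (nat_lit 5) (nat_lit 29) (nat_lit 5) (nat_lit 28) (nat_lit 5) (nat_lit 368) (nat_lit 337) (nat_lit 195))))))) (XT.nd (nat_lit 858) (nat_lit 304) (nat_lit 0) (XT.nd (nat_lit 390) (nat_lit 456) (nat_lit 0) (XT.nd (nat_lit 156) (nat_lit 228) (nat_lit 0) (XT.nd (nat_lit 78) (nat_lit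 76) (nat_lit 0) (XT.lf (nat_lit 0) (nat_lit 111483498428) (nat_lit 152) (nat_lit 43602804567) (nat_lit 228) (nat_lit 171386803654) (nat_lit 25) (nat_lit 5) (nat_lit 27) (nat_lit 5) (nat_lit 28) (nat_lit 5) (nat_lit 369) (nat_lit 337) (nat_lit 194)) (XT.lf (nat_lit 0) (nat_lit 8067447777) (nat_lit 76) (nat_lit 254814652859) (nat_lit 152) (nat_lit 82840167543) (nat_lit 24) (nat_lit 5) (nat_lit 25) (nat_lit 5) (nat_lit 26) (nat_lit 4) (nat_lit 370) (nat_lit 337) (nat_lit 193))) (XT.nd (nat_lit 78) (nat_lit 152) (nat_lit 0) (XT.lf (nat_lit 0) (nat_lit 16922089849) (nat_lit 152) (nat_lit 110674738226) (nat_lit 76) (nat_lit 238677487354) (nat_lit 23) (nat_lit 5) (nat_lit 25) (nat_lit 5) (nat_lit 24) (nat_lit 5) (nat_lit 371) (nat_lit 337) (nat_lit 192)) (XT.nd (nat_lit 78) (nat_lit 0) (nat_lit 0) (XT.lf (nat_lit 0) (nat_lit 124158790273) (nat_lit 228) (nat_lit 251038311692) (nat_lit 76) (nat_lit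 13085733957) (nat_lit 21) (nat_lit 5) (nat_lit 24) (nat_lit 5) (nat_lit 22) (nat_lit 4) (nat_lit 372) (nat_lit 337) (nat_lit 191)) (XT.lf (nat_lit 0) (nat_lit 244085126492) (nat_lit 228) (nat_lit 5189816277) (nat_lit 76) (nat_lit 162571560449) (nat_lit 21) (nat_lit 5) (nat_lit 24) (nat_lit 5) (nat_lit 22) (nat_lit 4) (nat_lit 373) (nat_lit 337) (nat_lit 190))))) (XT.nd (nat_lit 234) (nat_lit 228) (nat_lit 0) (XT.nd (nat_lit 78) (nat_lit 152) (nat_lit 0) (XT.lf (nat_lit 0) (nat_lit 268933614897) (nat_lit 76) (nat_lit 108870481558) (nat_lit 152) (nat_lit 59281241236) (nat_lit 20) (nat_lit 5) (nat_lit 21) (nat_lit 5) (nat_lit 22) (nat_lit 4) (nat_lit 374) (nat_lit 337) (nat_lit 189)) (XT.nd (nat_lit 78) (nat_lit 0) (nat_lit 0) (XT.lf (nat_lit 0) (nat_lit 58438664477) (nat_lit 152) (nat_lit 361691410412) (nat_lit 76) (nat_lit 44047333080) (nat_lit 18) (nat_lit 5) (nat_lit 20) (nat_lit 5) (nat_lit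 19) (nat_lit 4) (nat_lit 375) (nat_lit 337) (nat_lit 188)) (XT.lf (nat_lit 0) (nat_lit 188339608675) (nat_lit 152) (nat_lit 95394848159) (nat_lit 76) (nat_lit 209411777368) (nat_lit 18) (nat_lit 5) (nat_lit 20) (nat_lit 5) (nat_lit 19) (nat_lit 4) (nat_lit 376) (nat_lit 337) (nat_lit 187)))) (XT.nd (nat_lit 78) (nat_lit 152) (nat_lit 0) (XT.lf (nat_lit 0) (nat_lit 198560164385) (nat_lit 76) (nat_lit 133172301968) (nat_lit 152) (nat_lit 192545108387) (nat_lit 17) (nat_lit 5) (nat_lit 18) (nat_lit 5) (nat_lit 19) (nat_lit 4) (nat_lit 377) (nat_lit 337) (nat_lit 186)) (XT.nd (nat_lit 78) (nat_lit 152) (nat_lit 0) (XT.lf (nat_lit 0) (nat_lit 488745036487) (nat_lit 152) (nat_lit 38865470432) (nat_lit 0) (nat_lit 30181501507) (nat_lit 17) (nat_lit 5) (nat_lit 19) (nat_lit 4) (nat_lit 17) (nat_lit 4) (nat_lit 378) (nat_lit 337) (nat_lit 185)) (XT.lf (nat_lit 0) (nat_lit 68958873625) (nat_lit 152)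 (nat_lit 317198126314) (nat_lit 76) (nat_lit 207446034959) (nat_lit 15) (nat_lit 5) (nat_lit 17) (nat_lit 5) (nat_lit 16) (nat_lit 4) (nat_lit 379) (nat_lit 337) (nat_lit 184)))))) (XT.nd (nat_lit 468) (nat_lit 0) (nat_lit 0) (XT.nd (nat_lit 234) (nat_lit 228) (nat_lit 0) (XT.nd (nat_lit 78) (nat_lit 76) (nat_lit 0) (XT.lf (nat_lit 0) (nat_lit 216306357518) (nat_lit 152) (nat_lit 15136045691) (nat_lit 76) (nat_lit 400743932467) (nat_lit 15) (nat_lit 5) (nat_lit 17) (nat_lit 5) (nat_lit 16) (nat_lit 4) (nat_lit 380) (nat_lit 337) (nat_lit 183)) (XT.nd (nat_lit 78) (nat_lit 0) (nat_lit 0) (XT.lf (nat_lit 0) (nat_lit 321376704166) (nat_lit 76) (nat_lit 59082332305) (nat_lit 152) (nat_lit 293146394300) (nat_lit 14) (nat_lit 5) (nat_lit 15) (nat_lit 5) (nat_lit 16) (nat_lit 4) (nat_lit 381) (nat_lit 337) (nat_lit 182)) (XT.lf (nat_lit 0) (nat_lit 559995588990) (nat_lit 152) (nat_lit 34962430382)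 (nat_lit 0) (nat_lit 123267451206) (nat_lit 14) (nat_lit 5) (nat_lit 16) (nat_lit 4) (nat_lit 14) (nat_lit 4) (nat_lit 382) (nat_lit 337) (nat_lit 181)))) (XT.nd (nat_lit 78) (nat_lit 152) (nat_lit 0) (XT.lf (nat_lit 0) (nat_lit 316829119813) (nat_lit 76) (nat_lit 443008598290) (nat_lit 76) (nat_lit 6280262912) (nat_lit 13) (nat_lit 4) (nat_lit 14) (nat_lit 5) (nat_lit 14) (nat_lit 4) (nat_lit 383) (nat_lit 337) (nat_lit 180)) (XT.nd (nat_lit 78) (nat_lit 76) (nat_lit 0) (XT.lf (nat_lit 0) (nat_lit 153392767327) (nat_lit 152) (nat_lit 122273345315) (nat_lit 76) (nat_lit 542021633012) (nat_lit 12) (nat_lit 5) (nat_lit 14) (nat_lit 5) (nat_lit 13) (nat_lit 4) (nat_lit 384) (nat_lit 337) (nat_lit 179)) (XT.lf (nat_lit 0) (nat_lit 238428421321) (nat_lit 76) (nat_lit 90916509928) (nat_lit 152) (nat_lit 543846746454) (nat_lit 11) (nat_lit 5) (nat_lit 12) (nat_lit 5) (nat_lit 13) (nat_lit 4) (nat_lit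 385) (nat_lit 337) (nat_lit 178))))) (XT.nd (nat_lit 43290) (nat_lit 0) (nat_lit 6004) (XT.nd (nat_lit 43134) (nat_lit 0) (nat_lit 6764) (XT.lf (nat_lit 0) (nat_lit 523233710948) (nat_lit 152) (nat_lit 302407713285) (nat_lit 0) (nat_lit 107301477998) (nat_lit 11) (nat_lit 5) (nat_lit 13) (nat_lit 4) (nat_lit 11) (nat_lit 4) (nat_lit 386) (nat_lit 337) (nat_lit 177)) (XT.nd (nat_lit 78) (nat_lit 0) (nat_lit 0) (XT.lf (nat_lit 0) (nat_lit 18644013540) (nat_lit 0) (nat_lit 18644013540) (nat_lit 684) (nat_lit 724542378) (nat_lit 100) (nat_lit 5) (nat_lit 100) (nat_lit 3) (nat_lit 109) (nat_lit 3) (nat_lit 338) (nat_lit 338) (nat_lit 224)) (XT.lf (nat_lit 76) (nat_lit 17947661288) (nat_lit 0) (nat_lit 60207598047) (nat_lit 760) (nat_lit 881051177) (nat_lit 101) (nat_lit 5) (nat_lit 100) (nat_lit 5) (nat_lit 110) (nat_lit 5) (nat_lit 339) (nat_lit 338) (nat_lit 223)))) (XT.nd (nat_lit 78) (nat_lit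 0) (nat_lit 76) (XT.lf (nat_lit 0) (nat_lit 1053859856) (nat_lit 760) (nat_lit 2340788713) (nat_lit 836) (nat_lit 78828295071) (nat_lit 90) (nat_lit 5) (nat_lit 100) (nat_lit 5) (nat_lit 101) (nat_lit 5) (nat_lit 340) (nat_lit 338) (nat_lit 222)) (XT.nd (nat_lit 78) (nat_lit 0) (nat_lit 76) (XT.lf (nat_lit 0) (nat_lit 5018241333) (nat_lit 760) (nat_lit 23424916748) (nat_lit 836) (nat_lit 57125352176) (nat_lit 91) (nat_lit 5) (nat_lit 101) (nat_lit 5) (nat_lit 102) (nat_lit 5) (nat_lit 341) (nat_lit 338) (nat_lit 221)) (XT.lf (nat_lit 0) (nat_lit 10614752813) (nat_lit 760) (nat_lit 45631318941) (nat_lit 836) (nat_lit 32869903583) (nat_lit 92) (nat_lit 5) (nat_lit 102) (nat_lit 5) (nat_lit 103) (nat_lit 5) (nat_lit 342) (nat_lit 338) (nat_lit 220))))))))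
noncomputable def xc107 : XT := (XT.nd (nat_lit 1794) (nat_lit 1672) (nat_lit 0) (XT.nd (nat_lit 858) (nat_lit 2052) (nat_lit 0) (XT.nd (nat_lit 390) (nat_lit 1520) (nat_lit 0) (XT.nd (nat_lit 156) (nat_lit 988) (nat_lit 0) (XT.nd (nat_lit 78) (nat_lit 0) (nat_lit 0) (XT.lf (nat_lit 0) (nat_lit 18019481809) (nat_lit 760) (nat_lit 69042319957) (nat_lit 836) (nat_lit 5817412980) (nat_lit 93) (nat_lit 5) (nat_lit 103) (nat_lit 5) (nat_lit 104) (nat_lit 5) (nat_lit 343) (nat_lit 338) (nat_lit 219)) (XT.lf (nat_lit 76) (nat_lit 2712596622) (nat_lit 0) (nat_lit 25101373485) (nat_lit 836) (nat_lit 69039675960) (nat_lit 94) (nat_lit 5) (nat_lit 93) (nat_lit 5) (nat_lit 104) (nat_lit 5) (nat_lit 344) (nat_lit 338) (nat_lit 218))) (XT.nd (nat_lit 78) (nat_lit 1064) (nat_lit 0) (XT.lf (nat_lit 0) (nat_lit 40266070826) (nat_lit 760) (nat_lit 19086167391) (nat_lit 76) (nat_lit 41700092683) (nat_lit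 94) (nat_lit 5) (nat_lit 104) (nat_lit 5) (nat_lit 95) (nat_lit 5) (nat_lit 345) (nat_lit 338) (nat_lit 217)) (XT.nd (nat_lit 78) (nat_lit 380) (nat_lit 0) (XT.lf (nat_lit 0) (nat_lit 55261210383) (nat_lit 760) (nat_lit 42064233145) (nat_lit 76) (nat_lit 8184125001) (nat_lit 85) (nat_lit 5) (nat_lit 95) (nat_lit 5) (nat_lit 86) (nat_lit 5) (nat_lit 346) (nat_lit 338) (nat_lit 216)) (XT.lf (nat_lit 0) (nat_lit 43333866950) (nat_lit 380) (nat_lit 30136322475) (nat_lit 456) (nat_lit 36752485762) (nat_lit 80) (nat_lit 5) (nat_lit 85) (nat_lit 5) (nat_lit 86) (nat_lit 5) (nat_lit 347) (nat_lit 338) (nat_lit 215))))) (XT.nd (nat_lit 234) (nat_lit 836) (nat_lit 0) (XT.nd (nat_lit 78) (nat_lit 380) (nat_lit 0) (XT.lf (nat_lit 0) (nat_lit 21812409717) (nat_lit 304) (nat_lit 73070213913) (nat_lit 380) (nat_lit 20342871236) (nat_lit 76) (nat_lit 5) (nat_lit 80) (nat_lit 5) (nat_lit 81) (nat_lit 5)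 (nat_lit 348) (nat_lit 338) (nat_lit 214)) (XT.nd (nat_lit 78) (nat_lit 380) (nat_lit 0) (XT.lf (nat_lit 0) (nat_lit 119472377444) (nat_lit 304) (nat_lit 199871114) (nat_lit 380) (nat_lit 873082991) (nat_lit 76) (nat_lit 5) (nat_lit 80) (nat_lit 5) (nat_lit 81) (nat_lit 5) (nat_lit 349) (nat_lit 338) (nat_lit 213)) (XT.lf (nat_lit 0) (nat_lit 22351232490) (nat_lit 380) (nat_lit 25862207694) (nat_lit 76) (nat_lit 77919482458) (nat_lit 71) (nat_lit 5) (nat_lit 76) (nat_lit 5) (nat_lit 72) (nat_lit 5) (nat_lit 350) (nat_lit 338) (nat_lit 212)))) (XT.nd (nat_lit 78) (nat_lit 532) (nat_lit 0) (XT.lf (nat_lit 0) (nat_lit 49167287912) (nat_lit 380) (nat_lit 52455142020) (nat_lit 76) (nat_lit 30456157290) (nat_lit 67) (nat_lit 5) (nat_lit 72) (nat_lit 5) (nat_lit 68) (nat_lit 5) (nat_lit 351) (nat_lit 338) (nat_lit 211)) (XT.nd (nat_lit 78) (nat_lit 228) (nat_lit 0) (XT.lf (nat_lit 0) (nat_lit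 56997086464) (nat_lit 304) (nat_lit 23291506662) (nat_lit 380) (nat_lit 58103314504) (nat_lit 63) (nat_lit 5) (nat_lit 67) (nat_lit 5) (nat_lit 68) (nat_lit 5) (nat_lit 352) (nat_lit 338) (nat_lit 210)) (XT.lf (nat_lit 0) (nat_lit 31964034592) (nat_lit 228) (nat_lit 84319754307) (nat_lit 304) (nat_lit 28807296327) (nat_lit 60) (nat_lit 5) (nat_lit 63) (nat_lit 5) (nat_lit 64) (nat_lit 5) (nat_lit 353) (nat_lit 338) (nat_lit 209)))))) (XT.nd (nat_lit 468) (nat_lit 760) (nat_lit 0) (XT.nd (nat_lit 234) (nat_lit 684) (nat_lit 0) (XT.nd (nat_lit 78) (nat_lit 228) (nat_lit 0) (XT.lf (nat_lit 0) (nat_lit 4650089036) (nat_lit 380) (nat_lit 147496691094) (nat_lit 76) (nat_lit 81789553) (nat_lit 55) (nat_lit 5) (nat_lit 60) (nat_lit 5) (nat_lit 56) (nat_lit 5) (nat_lit 354) (nat_lit 338) (nat_lit 208)) (XT.nd (nat_lit 78) (nat_lit 228) (nat_lit 0) (XT.lf (nat_lit 0) (nat_lit 43212312204) (nat_lit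 380) (nat_lit 25720000099) (nat_lit 76) (nat_lit 90809253044) (nat_lit 55) (nat_lit 5) (nat_lit 60) (nat_lit 5) (nat_lit 56) (nat_lit 5) (nat_lit 355) (nat_lit 338) (nat_lit 207)) (XT.lf (nat_lit 0) (nat_lit 86920205409) (nat_lit 304) (nat_lit 58829047561) (nat_lit 76) (nat_lit 22003313736) (nat_lit 52) (nat_lit 5) (nat_lit 56) (nat_lit 5) (nat_lit 53) (nat_lit 5) (nat_lit 356) (nat_lit 338) (nat_lit 206)))) (XT.nd (nat_lit 78) (nat_lit 456) (nat_lit 0) (XT.lf (nat_lit 0) (nat_lit 80273695744) (nat_lit 228) (nat_lit 56721437845) (nat_lit 304) (nat_lit 39265795013) (nat_lit 49) (nat_lit 5) (nat_lit 52) (nat_lit 5) (nat_lit 53) (nat_lit 5) (nat_lit 357) (nat_lit 338) (nat_lit 205)) (XT.nd (nat_lit 78) (nat_lit 228) (nat_lit 0) (XT.lf (nat_lit 0) (nat_lit 7893276379) (nat_lit 228) (nat_lit 137343448079) (nat_lit 76) (nat_lit 40086481064) (nat_lit 46) (nat_lit 5) (nat_lit 49) (nat_lit 5) (nat_lit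 47) (nat_lit 5) (nat_lit 358) (nat_lit 338) (nat_lit 204)) (XT.lf (nat_lit 0) (nat_lit 10556053575) (nat_lit 228) (nat_lit 49731870979) (nat_lit 304) (nat_lit 134648428793) (nat_lit 43) (nat_lit 5) (nat_lit 46) (nat_lit 5) (nat_lit 47) (nat_lit 5) (nat_lit 359) (nat_lit 338) (nat_lit 203))))) (XT.nd (nat_lit 234) (nat_lit 380) (nat_lit 0) (XT.nd (nat_lit 78) (nat_lit 380) (nat_lit 0) (XT.lf (nat_lit 0) (nat_lit 120139214938) (nat_lit 304) (nat_lit 30880858976) (nat_lit 76) (nat_lit 54135226023) (nat_lit 43) (nat_lit 5) (nat_lit 47) (nat_lit 5) (nat_lit 44) (nat_lit 5) (nat_lit 360) (nat_lit 338) (nat_lit 202)) (XT.nd (nat_lit 78) (nat_lit 228) (nat_lit 0) (XT.lf (nat_lit 0) (nat_lit 138491848120) (nat_lit 152) (nat_lit 49287098209) (nat_lit 228) (nat_lit 28262799457) (nat_lit 41) (nat_lit 5) (nat_lit 43) (nat_lit 5) (nat_lit 44) (nat_lit 5) (nat_lit 361) (nat_lit 338) (nat_lit 201)) (XT.lf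 (nat_lit 0) (nat_lit 35027732565) (nat_lit 228) (nat_lit 131323238629) (nat_lit 76) (nat_lit 61269642659) (nat_lit 38) (nat_lit 5) (nat_lit 41) (nat_lit 5) (nat_lit 39) (nat_lit 5) (nat_lit 362) (nat_lit 338) (nat_lit 200)))) (XT.nd (nat_lit 78) (nat_lit 228) (nat_lit 0) (XT.lf (nat_lit 0) (nat_lit 46935210575) (nat_lit 152) (nat_lit 58405777299) (nat_lit 228) (nat_lit 134614154031) (nat_lit 36) (nat_lit 5) (nat_lit 38) (nat_lit 5) (nat_lit 39) (nat_lit 5) (nat_lit 363) (nat_lit 338) (nat_lit 199)) (XT.nd (nat_lit 78) (nat_lit 228) (nat_lit 0) (XT.lf (nat_lit 0) (nat_lit 184512223007) (nat_lit 228) (nat_lit 9964666130) (nat_lit 76) (nat_lit 58637897412) (nat_lit 36) (nat_lit 5) (nat_lit 39) (nat_lit 5) (nat_lit 37) (nat_lit 5) (nat_lit 364) (nat_lit 338) (nat_lit 198)) (XT.lf (nat_lit 0) (nat_lit 6665901442) (nat_lit 228) (nat_lit 74310546794) (nat_lit 76) (nat_lit 186145552795) (nat_lit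 33) (nat_lit 5) (nat_lit 36) (nat_lit 5) (nat_lit 34) (nat_lit 5) (nat_lit 365) (nat_lit 338) (nat_lit 197))))))) (XT.nd (nat_lit 858) (nat_lit 532) (nat_lit 0) (XT.nd (nat_lit 390) (nat_lit 532) (nat_lit 0) (XT.nd (nat_lit 156) (nat_lit 304) (nat_lit 0) (XT.nd (nat_lit 78) (nat_lit 152) (nat_lit 0) (XT.lf (nat_lit 0) (nat_lit 88542816553) (nat_lit 228) (nat_lit 149763081138) (nat_lit 76) (nat_lit 43738140003) (nat_lit 31) (nat_lit 5) (nat_lit 34) (nat_lit 5) (nat_lit 32) (nat_lit 5) (nat_lit 366) (nat_lit 338) (nat_lit 196)) (XT.lf (nat_lit 0) (nat_lit 60507657662) (nat_lit 152) (nat_lit 120087631017) (nat_lit 228) (nat_lit 117383278660) (nat_lit 29) (nat_lit 5) (nat_lit 31) (nat_lit 5) (nat_lit 32) (nat_lit 5) (nat_lit 367) (nat_lit 338) (nat_lit 195))) (XT.nd (nat_lit 78) (nat_lit 304) (nat_lit 0) (XT.lf (nat_lit 0) (nat_lit 282781624075) (nat_lit 228) (nat_lit 22271204216) (nat_lit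 76) (nat_lit 9996548015) (nat_lit 29) (nat_lit 5) (nat_lit 32) (nat_lit 5) (nat_lit 30) (nat_lit 4) (nat_lit 368) (nat_lit 338) (nat_lit 194)) (XT.nd (nat_lit 78) (nat_lit 152) (nat_lit 0) (XT.lf (nat_lit 0) (nat_lit 63217169813) (nat_lit 152) (nat_lit 119236027791) (nat_lit 76) (nat_lit 150712604392) (nat_lit 27) (nat_lit 5) (nat_lit 29) (nat_lit 5) (nat_lit 28) (nat_lit 5) (nat_lit 369) (nat_lit 338) (nat_lit 193)) (XT.lf (nat_lit 0) (nat_lit 120412962812) (nat_lit 152) (nat_lit 47086512648) (nat_lit 228) (nat_lit 185091162753) (nat_lit 25) (nat_lit 5) (nat_lit 27) (nat_lit 5) (nat_lit 28) (nat_lit 5) (nat_lit 370) (nat_lit 338) (nat_lit 192))))) (XT.nd (nat_lit 234) (nat_lit 228) (nat_lit 0) (XT.nd (nat_lit 78) (nat_lit 228) (nat_lit 0) (XT.lf (nat_lit 0) (nat_lit 8723395173) (nat_lit 76) (nat_lit 275195307454) (nat_lit 152) (nat_lit 89461042014) (nat_lit 24) (nat_lit 5) (nat_lit 25)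 (nat_lit 5) (nat_lit 26) (nat_lit 4) (nat_lit 371) (nat_lit 338) (nat_lit 191)) (XT.nd (nat_lit 78) (nat_lit 152) (nat_lit 0) (XT.lf (nat_lit 0) (nat_lit 18281538561) (nat_lit 152) (nat_lit 119518756545) (nat_lit 76) (nat_lit 257775678574) (nat_lit 23) (nat_lit 5) (nat_lit 25) (nat_lit 5) (nat_lit 24) (nat_lit 5) (nat_lit 372) (nat_lit 338) (nat_lit 190)) (XT.lf (nat_lit 0) (nat_lit 134096967223) (nat_lit 228) (nat_lit 271111639909) (nat_lit 76) (nat_lit 14136579288) (nat_lit 21) (nat_lit 5) (nat_lit 24) (nat_lit 5) (nat_lit 22) (nat_lit 4) (nat_lit 373) (nat_lit 338) (nat_lit 189)))) (XT.nd (nat_lit 78) (nat_lit 228) (nat_lit 0) (XT.lf (nat_lit 0) (nat_lit 263617004877) (nat_lit 228) (nat_lit 5595986100) (nat_lit 76) (nat_lit 175580976594) (nat_lit 21) (nat_lit 5) (nat_lit 24) (nat_lit 5) (nat_lit 22) (nat_lit 4) (nat_lit 374) (nat_lit 338) (nat_lit 188)) (XT.nd (nat_lit 78) (nat_lit 152)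 (nat_lit 0) (XT.lf (nat_lit 0) (nat_lit 290456927767) (nat_lit 76) (nat_lit 117576323884) (nat_lit 152) (nat_lit 64018669376) (nat_lit 20) (nat_lit 5) (nat_lit 21) (nat_lit 5) (nat_lit 22) (nat_lit 4) (nat_lit 375) (nat_lit 338) (nat_lit 187)) (XT.lf (nat_lit 0) (nat_lit 63118492344) (nat_lit 152) (nat_lit 390618139361) (nat_lit 76) (nat_lit 47574730132) (nat_lit 18) (nat_lit 5) (nat_lit 20) (nat_lit 5) (nat_lit 19) (nat_lit 4) (nat_lit 376) (nat_lit 338) (nat_lit 186)))))) (XT.nd (nat_lit 468) (nat_lit 228) (nat_lit 0) (XT.nd (nat_lit 234) (nat_lit 228) (nat_lit 0) (XT.nd (nat_lit 78) (nat_lit 76) (nat_lit 0) (XT.lf (nat_lit 0) (nat_lit 203411161359) (nat_lit 152) (nat_lit 103018487970) (nat_lit 76) (nat_lit 226168062526) (nat_lit 18) (nat_lit 5) (nat_lit 20) (nat_lit 5) (nat_lit 19) (nat_lit 4) (nat_lit 377) (nat_lit 338) (nat_lit 185)) (XT.nd (nat_lit 78) (nat_lit 0) (nat_lit 0) (XT.lf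 (nat_lit 0) (nat_lit 214452580165) (nat_lit 76) (nat_lit 143822661445) (nat_lit 152) (nat_lit 207944328469) (nat_lit 17) (nat_lit 5) (nat_lit 18) (nat_lit 5) (nat_lit 19) (nat_lit 4) (nat_lit 378) (nat_lit 338) (nat_lit 184)) (XT.lf (nat_lit 0) (nat_lit 527848557386) (nat_lit 152) (nat_lit 41967523065) (nat_lit 0) (nat_lit 32599091136) (nat_lit 17) (nat_lit 5) (nat_lit 19) (nat_lit 4) (nat_lit 17) (nat_lit 4) (nat_lit 379) (nat_lit 338) (nat_lit 183)))) (XT.nd (nat_lit 78) (nat_lit 76) (nat_lit 0) (XT.lf (nat_lit 0) (nat_lit 74479381254) (nat_lit 152) (nat_lit 342566976675) (nat_lit 76) (nat_lit 224044728450) (nat_lit 15) (nat_lit 5) (nat_lit 17) (nat_lit 5) (nat_lit 16) (nat_lit 4) (nat_lit 380) (nat_lit 338) (nat_lit 182)) (XT.nd (nat_lit 78) (nat_lit 76) (nat_lit 0) (XT.lf (nat_lit 0) (nat_lit 233614382544) (nat_lit 152) (nat_lit 16340448102) (nat_lit 76) (nat_lit 432806234744) (nat_lit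 15) (nat_lit 5) (nat_lit 17) (nat_lit 5) (nat_lit 16) (nat_lit 4) (nat_lit 381) (nat_lit 338) (nat_lit 181)) (XT.lf (nat_lit 0) (nat_lit 347093040076) (nat_lit 76) (nat_lit 63806072054) (nat_lit 152) (nat_lit 316594584244) (nat_lit 14) (nat_lit 5) (nat_lit 15) (nat_lit 5) (nat_lit 16) (nat_lit 4) (nat_lit 382) (nat_lit 338) (nat_lit 180))))) (XT.nd (nat_lit 234) (nat_lit 76) (nat_lit 0) (XT.nd (nat_lit 78) (nat_lit 152) (nat_lit 0) (XT.lf (nat_lit 0) (nat_lit 604798381655) (nat_lit 152) (nat_lit 37753569268) (nat_lit 0) (nat_lit 133131398895) (nat_lit 14) (nat_lit 5) (nat_lit 16) (nat_lit 4) (nat_lit 14) (nat_lit 4) (nat_lit 383) (nat_lit 338) (nat_lit 179)) (XT.nd (nat_lit 78) (nat_lit 76) (nat_lit 0) (XT.lf (nat_lit 0) (nat_lit 342181050468) (nat_lit 76) (nat_lit 478446685074) (nat_lit 76) (nat_lit 6779532908) (nat_lit 13) (nat_lit 4) (nat_lit 14) (nat_lit 5) (nat_lit 14) (nat_lit 4)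 (nat_lit 384) (nat_lit 338) (nat_lit 178)) (XT.lf (nat_lit 0) (nat_lit 165667012957) (nat_lit 152) (nat_lit 132049932460) (nat_lit 76) (nat_lit 585385677754) (nat_lit 12) (nat_lit 5) (nat_lit 14) (nat_lit 5) (nat_lit 13) (nat_lit 4) (nat_lit 385) (nat_lit 338) (nat_lit 177)))) (XT.nd (nat_lit 43212) (nat_lit 0) (nat_lit 6764) (XT.lf (nat_lit 0) (nat_lit 257507746024) (nat_lit 76) (nat_lit 98187473626) (nat_lit 152) (nat_lit 587351656720) (nat_lit 11) (nat_lit 5) (nat_lit 12) (nat_lit 5) (nat_lit 13) (nat_lit 4) (nat_lit 386) (nat_lit 338) (nat_lit 176)) (XT.nd (nat_lit 78) (nat_lit 0) (nat_lit 0) (XT.lf (nat_lit 0) (nat_lit 20143723027) (nat_lit 0) (nat_lit 20143723027) (nat_lit 684) (nat_lit 765284930) (nat_lit 100) (nat_lit 5) (nat_lit 100) (nat_lit 3) (nat_lit 109) (nat_lit 3) (nat_lit 339) (nat_lit 339) (nat_lit 222)) (XT.lf (nat_lit 76) (nat_lit 19400998557) (nat_lit 0) (nat_lit 65037045803)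 (nat_lit 760) (nat_lit 919606132) (nat_lit 101) (nat_lit 5) (nat_lit 100) (nat_lit 5) (nat_lit 110) (nat_lit 5) (nat_lit 340) (nat_lit 339) (nat_lit 221))))))))
noncomputable def xc108 : XT := (XT.nd (nat_lit 1716) (nat_lit 2128) (nat_lit 0) (XT.nd (nat_lit 858) (nat_lit 2280) (nat_lit 0) (XT.nd (nat_lit 390) (nat_lit 1444) (nat_lit 0) (XT.nd (nat_lit 156) (nat_lit 0) (nat_lit 152) (XT.nd (nat_lit 78) (nat_lit 0) (nat_lit 76) (XT.lf (nat_lit 0) (nat_lit 1166786429) (nat_lit 760) (nat_lit 2510838177) (nat_lit 836) (nat_lit 85121682501) (nat_lit 90) (nat_lit 5) (nat_lit 100) (nat_lit 5) (nat_lit 101) (nat_lit 5) (nat_lit 341) (nat_lit 339) (nat_lit 220)) (XT.lf (nat_lit 0) (nat_lit 5446295014) (nat_lit 760) (nat_lit 25280908052) (nat_lit 836) (nat_lit 61685420205) (nat_lit 91) (nat_lit 5) (nat_lit 101) (nat_lit 5) (nat_lit 102) (nat_lit 5) (nat_lit 342) (nat_lit 339) (nat_lit 219))) (XT.nd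 (nat_lit 78) (nat_lit 0) (nat_lit 76) (XT.lf (nat_lit 0) (nat_lit 11488706501) (nat_lit 760) (nat_lit 49263205030) (nat_lit 836) (nat_lit 35492067893) (nat_lit 92) (nat_lit 5) (nat_lit 102) (nat_lit 5) (nat_lit 103) (nat_lit 5) (nat_lit 343) (nat_lit 339) (nat_lit 218)) (XT.nd (nat_lit 78) (nat_lit 0) (nat_lit 0) (XT.lf (nat_lit 0) (nat_lit 19484172407) (nat_lit 760) (nat_lit 74546617422) (nat_lit 836) (nat_lit 6277572841) (nat_lit 93) (nat_lit 5) (nat_lit 103) (nat_lit 5) (nat_lit 104) (nat_lit 5) (nat_lit 344) (nat_lit 339) (nat_lit 217)) (XT.lf (nat_lit 76) (nat_lit 2947862937) (nat_lit 0) (nat_lit 27112928415) (nat_lit 836) (nat_lit 74540030984) (nat_lit 94) (nat_lit 5) (nat_lit 93) (nat_lit 5) (nat_lit 104) (nat_lit 5) (nat_lit 345) (nat_lit 339) (nat_lit 216))))) (XT.nd (nat_lit 234) (nat_lit 684) (nat_lit 0) (XT.nd (nat_lit 78) (nat_lit 1064) (nat_lit 0) (XT.lf (nat_lit 0) (nat_lit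 43507402647) (nat_lit 760) (nat_lit 20595072089) (nat_lit 76) (nat_lit 45033012332) (nat_lit 94) (nat_lit 5) (nat_lit 104) (nat_lit 5) (nat_lit 95) (nat_lit 5) (nat_lit 346) (nat_lit 339) (nat_lit 215)) (XT.nd (nat_lit 78) (nat_lit 380) (nat_lit 0) (XT.lf (nat_lit 0) (nat_lit 59700911778) (nat_lit 760) (nat_lit 45411172113) (nat_lit 76) (nat_lit 8837283969) (nat_lit 85) (nat_lit 5) (nat_lit 95) (nat_lit 5) (nat_lit 86) (nat_lit 5) (nat_lit 347) (nat_lit 339) (nat_lit 214)) (XT.lf (nat_lit 0) (nat_lit 46817985053) (nat_lit 380) (nat_lit 32547502959) (nat_lit 456) (nat_lit 39674093017) (nat_lit 80) (nat_lit 5) (nat_lit 85) (nat_lit 5) (nat_lit 86) (nat_lit 5) (nat_lit 348) (nat_lit 339) (nat_lit 213)))) (XT.nd (nat_lit 78) (nat_lit 380) (nat_lit 0) (XT.lf (nat_lit 0) (nat_lit 23574927486) (nat_lit 304) (nat_lit 78914949227) (nat_lit 380) (nat_lit 21952803358) (nat_lit 76) (nat_lit 5) (nat_lit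 80) (nat_lit 5) (nat_lit 81) (nat_lit 5) (nat_lit 349) (nat_lit 339) (nat_lit 212)) (XT.nd (nat_lit 78) (nat_lit 380) (nat_lit 0) (XT.lf (nat_lit 0) (nat_lit 129046394483) (nat_lit 304) (nat_lit 215044322) (nat_lit 380) (nat_lit 926728171) (nat_lit 76) (nat_lit 5) (nat_lit 80) (nat_lit 5) (nat_lit 81) (nat_lit 5) (nat_lit 350) (nat_lit 339) (nat_lit 211)) (XT.lf (nat_lit 0) (nat_lit 24154122424) (nat_lit 380) (nat_lit 27914410928) (nat_lit 76) (nat_lit 84154265389) (nat_lit 71) (nat_lit 5) (nat_lit 76) (nat_lit 5) (nat_lit 72) (nat_lit 5) (nat_lit 351) (nat_lit 339) (nat_lit 210)))))) (XT.nd (nat_lit 390) (nat_lit 1064) (nat_lit 0) (XT.nd (nat_lit 156) (nat_lit 608) (nat_lit 0) (XT.nd (nat_lit 78) (nat_lit 304) (nat_lit 0) (XT.lf (nat_lit 0) (nat_lit 53114649884) (nat_lit 380) (nat_lit 56634827599) (nat_lit 76) (nat_lit 32894680968) (nat_lit 67) (nat_lit 5) (nat_lit 72) (nat_lit 5) (nat_lit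 68) (nat_lit 5) (nat_lit 352) (nat_lit 339) (nat_lit 209)) (XT.lf (nat_lit 0) (nat_lit 61572852282) (nat_lit 304) (nat_lit 25152021544) (nat_lit 380) (nat_lit 62737711195) (nat_lit 63) (nat_lit 5) (nat_lit 67) (nat_lit 5) (nat_lit 68) (nat_lit 5) (nat_lit 353) (nat_lit 339) (nat_lit 208))) (XT.nd (nat_lit 78) (nat_lit 380) (nat_lit 0) (XT.lf (nat_lit 0) (nat_lit 34537064942) (nat_lit 228) (nat_lit 91061931961) (nat_lit 304) (nat_lit 31098735490) (nat_lit 60) (nat_lit 5) (nat_lit 63) (nat_lit 5) (nat_lit 64) (nat_lit 5) (nat_lit 354) (nat_lit 339) (nat_lit 207)) (XT.nd (nat_lit 78) (nat_lit 0) (nat_lit 0) (XT.lf (nat_lit 0) (nat_lit 5034177851) (nat_lit 380) (nat_lit 159280236910) (nat_lit 76) (nat_lit 91823710) (nat_lit 55) (nat_lit 5) (nat_lit 60) (nat_lit 5) (nat_lit 56) (nat_lit 5) (nat_lit 355) (nat_lit 339) (nat_lit 206)) (XT.lf (nat_lit 0) (nat_lit 46680483931) (nat_lit 380) (nat_lit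 27762609856) (nat_lit 76) (nat_lit 98077225689) (nat_lit 55) (nat_lit 5) (nat_lit 60) (nat_lit 5) (nat_lit 56) (nat_lit 5) (nat_lit 356) (nat_lit 339) (nat_lit 205))))) (XT.nd (nat_lit 234) (nat_lit 380) (nat_lit 0) (XT.nd (nat_lit 78) (nat_lit 456) (nat_lit 0) (XT.lf (nat_lit 0) (nat_lit 93884462468) (nat_lit 304) (nat_lit 63520551238) (nat_lit 76) (nat_lit 23767215415) (nat_lit 52) (nat_lit 5) (nat_lit 56) (nat_lit 5) (nat_lit 53) (nat_lit 5) (nat_lit 357) (nat_lit 339) (nat_lit 204)) (XT.nd (nat_lit 78) (nat_lit 228) (nat_lit 0) (XT.lf (nat_lit 0) (nat_lit 86709767466) (nat_lit 228) (nat_lit 61255050570) (nat_lit 304) (nat_lit 42396471082) (nat_lit 49) (nat_lit 5) (nat_lit 52) (nat_lit 5) (nat_lit 53) (nat_lit 5) (nat_lit 358) (nat_lit 339) (nat_lit 203)) (XT.lf (nat_lit 0) (nat_lit 8534510276) (nat_lit 228) (nat_lit 148316601765) (nat_lit 76) (nat_lit 43297452441) (nat_lit 46) (nat_lit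 5) (nat_lit 49) (nat_lit 5) (nat_lit 47) (nat_lit 5) (nat_lit 359) (nat_lit 339) (nat_lit 202)))) (XT.nd (nat_lit 78) (nat_lit 152) (nat_lit 0) (XT.lf (nat_lit 0) (nat_lit 11414237597) (nat_lit 228) (nat_lit 53705982764) (nat_lit 304) (nat_lit 145410569928) (nat_lit 43) (nat_lit 5) (nat_lit 46) (nat_lit 5) (nat_lit 47) (nat_lit 5) (nat_lit 360) (nat_lit 339) (nat_lit 201)) (XT.nd (nat_lit 78) (nat_lit 152) (nat_lit 0) (XT.lf (nat_lit 0) (nat_lit 129758992068) (nat_lit 304) (nat_lit 33338270496) (nat_lit 76) (nat_lit 58470021747) (nat_lit 43) (nat_lit 5) (nat_lit 47) (nat_lit 5) (nat_lit 44) (nat_lit 5) (nat_lit 361) (nat_lit 339) (nat_lit 200)) (XT.lf (nat_lit 0) (nat_lit 149583685718) (nat_lit 152) (nat_lit 53225771257) (nat_lit 228) (nat_lit 30515211667) (nat_lit 41) (nat_lit 5) (nat_lit 43) (nat_lit 5) (nat_lit 44) (nat_lit 5) (nat_lit 362) (nat_lit 339) (nat_lit 199))))))) (XT.nd (nat_lit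 858) (nat_lit 760) (nat_lit 0) (XT.nd (nat_lit 390) (nat_lit 608) (nat_lit 0) (XT.nd (nat_lit 156) (nat_lit 380) (nat_lit 0) (XT.nd (nat_lit 78) (nat_lit 152) (nat_lit 0) (XT.lf (nat_lit 0) (nat_lit 37837927794) (nat_lit 228) (nat_lit 141816546241) (nat_lit 76) (nat_lit 66175383871) (nat_lit 38) (nat_lit 5) (nat_lit 41) (nat_lit 5) (nat_lit 39) (nat_lit 5) (nat_lit 363) (nat_lit 339) (nat_lit 198)) (XT.lf (nat_lit 0) (nat_lit 50702033428) (nat_lit 152) (nat_lit 63073806686) (nat_lit 228) (nat_lit 145375328719) (nat_lit 36) (nat_lit 5) (nat_lit 38) (nat_lit 5) (nat_lit 39) (nat_lit 5) (nat_lit 364) (nat_lit 339) (nat_lit 197))) (XT.nd (nat_lit 78) (nat_lit 380) (nat_lit 0) (XT.lf (nat_lit 0) (nat_lit 199280277160) (nat_lit 228) (nat_lit 10750430881) (nat_lit 76) (nat_lit 63332902279) (nat_lit 36) (nat_lit 5) (nat_lit 39) (nat_lit 5) (nat_lit 37) (nat_lit 5) (nat_lit 365) (nat_lit 339) (nat_lit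 196)) (XT.nd (nat_lit 78) (nat_lit 152) (nat_lit 0) (XT.lf (nat_lit 0) (nat_lit 7206011066) (nat_lit 228) (nat_lit 80244247013) (nat_lit 76) (nat_lit 201041156452) (nat_lit 33) (nat_lit 5) (nat_lit 36) (nat_lit 5) (nat_lit 34) (nat_lit 5) (nat_lit 366) (nat_lit 339) (nat_lit 195)) (XT.lf (nat_lit 0) (nat_lit 95632804302) (nat_lit 228) (nat_lit 161733204136) (nat_lit 76) (nat_lit 47241219792) (nat_lit 31) (nat_lit 5) (nat_lit 34) (nat_lit 5) (nat_lit 32) (nat_lit 5) (nat_lit 367) (nat_lit 339) (nat_lit 194))))) (XT.nd (nat_lit 234) (nat_lit 304) (nat_lit 0) (XT.nd (nat_lit 78) (nat_lit 152) (nat_lit 0) (XT.lf (nat_lit 0) (nat_lit 65358719046) (nat_lit 152) (nat_lit 129690432181) (nat_lit 228) (nat_lit 126767385491) (nat_lit 29) (nat_lit 5) (nat_lit 31) (nat_lit 5) (nat_lit 32) (nat_lit 5) (nat_lit 368) (nat_lit 339) (nat_lit 193)) (XT.nd (nat_lit 78) (nat_lit 152) (nat_lit 0) (XT.lf (nat_lit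 0) (nat_lit 305409992125) (nat_lit 228) (nat_lit 24042994017) (nat_lit 76) (nat_lit 10800044627) (nat_lit 29) (nat_lit 5) (nat_lit 32) (nat_lit 5) (nat_lit 30) (nat_lit 4) (nat_lit 369) (nat_lit 339) (nat_lit 192)) (XT.lf (nat_lit 0) (nat_lit 68280191406) (nat_lit 152) (nat_lit 128765243961) (nat_lit 76) (nat_lit 162773345094) (nat_lit 27) (nat_lit 5) (nat_lit 29) (nat_lit 5) (nat_lit 28) (nat_lit 5) (nat_lit 370) (nat_lit 339) (nat_lit 191)))) (XT.nd (nat_lit 78) (nat_lit 152) (nat_lit 0) (XT.lf (nat_lit 0) (nat_lit 130055245815) (nat_lit 152) (nat_lit 50849561674) (nat_lit 228) (nat_lit 199892810030) (nat_lit 25) (nat_lit 5) (nat_lit 27) (nat_lit 5) (nat_lit 28) (nat_lit 5) (nat_lit 371) (nat_lit 339) (nat_lit 190)) (XT.nd (nat_lit 78) (nat_lit 76) (nat_lit 0) (XT.lf (nat_lit 0) (nat_lit 9430313061) (nat_lit 76) (nat_lit 297207058908) (nat_lit 152) (nat_lit 96612490763) (nat_lit 24) (nat_lit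 5) (nat_lit 25) (nat_lit 5) (nat_lit 26) (nat_lit 4) (nat_lit 372) (nat_lit 339) (nat_lit 189)) (XT.lf (nat_lit 0) (nat_lit 19748932638) (nat_lit 152) (nat_lit 129071717342) (nat_lit 76) (nat_lit 278401155556) (nat_lit 23) (nat_lit 5) (nat_lit 25) (nat_lit 5) (nat_lit 24) (nat_lit 5) (nat_lit 373) (nat_lit 339) (nat_lit 188)))))) (XT.nd (nat_lit 468) (nat_lit 304) (nat_lit 0) (XT.nd (nat_lit 234) (nat_lit 228) (nat_lit 0) (XT.nd (nat_lit 78) (nat_lit 76) (nat_lit 0) (XT.lf (nat_lit 0) (nat_lit 144829417440) (nat_lit 228) (nat_lit 292792223436) (nat_lit 76) (nat_lit 15270923510) (nat_lit 21) (nat_lit 5) (nat_lit 24) (nat_lit 5) (nat_lit 22) (nat_lit 4) (nat_lit 374) (nat_lit 339) (nat_lit 187)) (XT.nd (nat_lit 78) (nat_lit 76) (nat_lit 0) (XT.lf (nat_lit 0) (nat_lit 284710710489) (nat_lit 228) (nat_lit 6035935667) (nat_lit 76) (nat_lit 189630619424) (nat_lit 21) (nat_lit 5) (nat_lit 24)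 (nat_lit 5) (nat_lit 22) (nat_lit 4) (nat_lit 375) (nat_lit 339) (nat_lit 186)) (XT.lf (nat_lit 0) (nat_lit 313700875402) (nat_lit 76) (nat_lit 126979175167) (nat_lit 152) (nat_lit 69135815224) (nat_lit 20) (nat_lit 5) (nat_lit 21) (nat_lit 5) (nat_lit 22) (nat_lit 4) (nat_lit 376) (nat_lit 339) (nat_lit 185)))) (XT.nd (nat_lit 78) (nat_lit 76) (nat_lit 0) (XT.lf (nat_lit 0) (nat_lit 68172030982) (nat_lit 152) (nat_lit 421860231212) (nat_lit 76) (nat_lit 51383803884) (nat_lit 18) (nat_lit 5) (nat_lit 20) (nat_lit 5) (nat_lit 19) (nat_lit 4) (nat_lit 377) (nat_lit 339) (nat_lit 184)) (XT.nd (nat_lit 78) (nat_lit 76) (nat_lit 0) (XT.lf (nat_lit 0) (nat_lit 219687812833) (nat_lit 152) (nat_lit 111253152844) (nat_lit 76) (nat_lit 244264373585) (nat_lit 18) (nat_lit 5) (nat_lit 20) (nat_lit 5) (nat_lit 19) (nat_lit 4) (nat_lit 378) (nat_lit 339) (nat_lit 183)) (XT.lf (nat_lit 0) (nat_lit 231615304607)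 (nat_lit 76) (nat_lit 155325538249) (nat_lit 152) (nat_lit 224576112238) (nat_lit 17) (nat_lit 5) (nat_lit 18) (nat_lit 5) (nat_lit 19) (nat_lit 4) (nat_lit 379) (nat_lit 339) (nat_lit 182))))) (XT.nd (nat_lit 234) (nat_lit 152) (nat_lit 0) (XT.nd (nat_lit 78) (nat_lit 152) (nat_lit 0) (XT.lf (nat_lit 0) (nat_lit 570079801012) (nat_lit 152) (nat_lit 45318764930) (nat_lit 0) (nat_lit 35209650036) (nat_lit 17) (nat_lit 5) (nat_lit 19) (nat_lit 4) (nat_lit 17) (nat_lit 4) (nat_lit 380) (nat_lit 339) (nat_lit 181)) (XT.nd (nat_lit 78) (nat_lit 0) (nat_lit 0) (XT.lf (nat_lit 0) (nat_lit 80440987703) (nat_lit 152) (nat_lit 369966333657) (nat_lit 76) (nat_lit 241970887911) (nat_lit 15) (nat_lit 5) (nat_lit 17) (nat_lit 5) (nat_lit 16) (nat_lit 4) (nat_lit 381) (nat_lit 339) (nat_lit 180)) (XT.lf (nat_lit 0) (nat_lit 252306547915) (nat_lit 152) (nat_lit 17642127328) (nat_lit 76) (nat_lit 467433123510)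 (nat_lit 15) (nat_lit 5) (nat_lit 17) (nat_lit 5) (nat_lit 16) (nat_lit 4) (nat_lit 382) (nat_lit 339) (nat_lit 179)))) (XT.nd (nat_lit 78) (nat_lit 76) (nat_lit 0) (XT.lf (nat_lit 0) (nat_lit 374865798420) (nat_lit 76) (nat_lit 68908117116) (nat_lit 152) (nat_lit 341919131780) (nat_lit 14) (nat_lit 5) (nat_lit 15) (nat_lit 5) (nat_lit 16) (nat_lit 4) (nat_lit 383) (nat_lit 339) (nat_lit 178)) (XT.nd (nat_lit 78) (nat_lit 76) (nat_lit 0) (XT.lf (nat_lit 0) (nat_lit 653184948985) (nat_lit 152) (nat_lit 40768834625) (nat_lit 0) (nat_lit 143784098385) (nat_lit 14) (nat_lit 5) (nat_lit 16) (nat_lit 4) (nat_lit 14) (nat_lit 4) (nat_lit 384) (nat_lit 339) (nat_lit 177)) (XT.lf (nat_lit 0) (nat_lit 369560336519) (nat_lit 76) (nat_lit 516720189874) (nat_lit 76) (nat_lit 7319194035) (nat_lit 13) (nat_lit 4) (nat_lit 14) (nat_lit 5) (nat_lit 14) (nat_lit 4) (nat_lit 385) (nat_lit 339) (nat_lit 176))))))))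
noncomputable def xc109 : XT := (XT.nd (nat_lit 45006) (nat_lit 0) (nat_lit 152) (XT.nd (nat_lit 44070) (nat_lit 0) (nat_lit 2356) (XT.nd (nat_lit 43602) (nat_lit 0) (nat_lit 5168) (XT.nd (nat_lit 43368) (nat_lit 0) (nat_lit 5928) (XT.nd (nat_lit 43290) (nat_lit 0) (nat_lit 6688) (XT.lf (nat_lit 0) (nat_lit 178922795327) (nat_lit 152) (nat_lit 142609399896) (nat_lit 76) (nat_lit 632218515944) (nat_lit 12) (nat_lit 5) (nat_lit 14) (nat_lit 5) (nat_lit 13) (nat_lit 4) (nat_lit 386) (nat_lit 339) (nat_lit 175)) (XT.lf (nat_lit 0) (nat_lit 21762241106) (nat_lit 0) (nat_lit 21762241106) (nat_lit 684) (nat_lit 811743632) (nat_lit 100) (nat_lit 5) (nat_lit 100) (nat_lit 3) (nat_lit 109) (nat_lit 3) (nat_lit 340) (nat_lit 340) (nat_lit 220))) (XT.nd (nat_lit 78) (nat_lit 760) (nat_lit 0) (XT.lf (nat_lit 76) (nat_lit 20968102761) (nat_lit 0) (nat_lit 70251017622) (nat_lit 760) (nat_lit 965800532)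 (nat_lit 101) (nat_lit 5) (nat_lit 100) (nat_lit 5) (nat_lit 110) (nat_lit 5) (nat_lit 341) (nat_lit 340) (nat_lit 219)) (XT.nd (nat_lit 78) (nat_lit 0) (nat_lit 76) (XT.lf (nat_lit 0) (nat_lit 1284664481) (nat_lit 760) (nat_lit 2696947315) (nat_lit 836) (nat_lit 91920377856) (nat_lit 90) (nat_lit 5) (nat_lit 100) (nat_lit 5) (nat_lit 101) (nat_lit 5) (nat_lit 342) (nat_lit 340) (nat_lit 218)) (XT.lf (nat_lit 0) (nat_lit 5904799005) (nat_lit 760) (nat_lit 27287946851) (nat_lit 836) (nat_lit 66611714602) (nat_lit 91) (nat_lit 5) (nat_lit 101) (nat_lit 5) (nat_lit 102) (nat_lit 5) (nat_lit 343) (nat_lit 340) (nat_lit 217))))) (XT.nd (nat_lit 234) (nat_lit 912) (nat_lit 0) (XT.nd (nat_lit 78) (nat_lit 0) (nat_lit 76) (XT.lf (nat_lit 0) (nat_lit 12429042272) (nat_lit 760) (nat_lit 53188298276) (nat_lit 836) (nat_lit 38325065033) (nat_lit 92) (nat_lit 5) (nat_lit 102) (nat_lit 5) (nat_lit 103)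 (nat_lit 5) (nat_lit 344) (nat_lit 340) (nat_lit 216)) (XT.nd (nat_lit 78) (nat_lit 0) (nat_lit 0) (XT.lf (nat_lit 0) (nat_lit 21062738206) (nat_lit 760) (nat_lit 80493981819) (nat_lit 836) (nat_lit 6775292061) (nat_lit 93) (nat_lit 5) (nat_lit 103) (nat_lit 5) (nat_lit 104) (nat_lit 5) (nat_lit 345) (nat_lit 340) (nat_lit 215)) (XT.lf (nat_lit 76) (nat_lit 3199345765) (nat_lit 0) (nat_lit 29284916263) (nat_lit 836) (nat_lit 80483669803) (nat_lit 94) (nat_lit 5) (nat_lit 93) (nat_lit 5) (nat_lit 104) (nat_lit 5) (nat_lit 346) (nat_lit 340) (nat_lit 214)))) (XT.nd (nat_lit 78) (nat_lit 1064) (nat_lit 0) (XT.lf (nat_lit 0) (nat_lit 47005181207) (nat_lit 760) (nat_lit 22227255451) (nat_lit 76) (nat_lit 48633006056) (nat_lit 94) (nat_lit 5) (nat_lit 104) (nat_lit 5) (nat_lit 95) (nat_lit 5) (nat_lit 347) (nat_lit 340) (nat_lit 213)) (XT.nd (nat_lit 78) (nat_lit 380) (nat_lit 0) (XT.lf (nat_lit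 0) (nat_lit 64493106604) (nat_lit 760) (nat_lit 49028462588) (nat_lit 76) (nat_lit 9542919780) (nat_lit 85) (nat_lit 5) (nat_lit 95) (nat_lit 5) (nat_lit 86) (nat_lit 5) (nat_lit 348) (nat_lit 340) (nat_lit 212)) (XT.lf (nat_lit 0) (nat_lit 50578349052) (nat_lit 380) (nat_lit 35151538695) (nat_lit 456) (nat_lit 42832081152) (nat_lit 80) (nat_lit 5) (nat_lit 85) (nat_lit 5) (nat_lit 86) (nat_lit 5) (nat_lit 349) (nat_lit 340) (nat_lit 211)))))) (XT.nd (nat_lit 468) (nat_lit 1292) (nat_lit 0) (XT.nd (nat_lit 234) (nat_lit 836) (nat_lit 0) (XT.nd (nat_lit 78) (nat_lit 380) (nat_lit 0) (XT.lf (nat_lit 0) (nat_lit 25475946541) (nat_lit 304) (nat_lit 85227389164) (nat_lit 380) (nat_lit 23694026276) (nat_lit 76) (nat_lit 5) (nat_lit 80) (nat_lit 5) (nat_lit 81) (nat_lit 5) (nat_lit 350) (nat_lit 340) (nat_lit 210)) (XT.nd (nat_lit 78) (nat_lit 380) (nat_lit 0) (XT.lf (nat_lit 0) (nat_lit 139384017946)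 (nat_lit 304) (nat_lit 231547868) (nat_lit 380) (nat_lit 986976285) (nat_lit 76) (nat_lit 5) (nat_lit 80) (nat_lit 5) (nat_lit 81) (nat_lit 5) (nat_lit 351) (nat_lit 340) (nat_lit 209)) (XT.lf (nat_lit 0) (nat_lit 26099133403) (nat_lit 380) (nat_lit 30133183331) (nat_lit 76) (nat_lit 90887656290) (nat_lit 71) (nat_lit 5) (nat_lit 76) (nat_lit 5) (nat_lit 72) (nat_lit 5) (nat_lit 352) (nat_lit 340) (nat_lit 208)))) (XT.nd (nat_lit 78) (nat_lit 532) (nat_lit 0) (XT.lf (nat_lit 0) (nat_lit 57375806561) (nat_lit 380) (nat_lit 61151274144) (nat_lit 76) (nat_lit 35527996782) (nat_lit 67) (nat_lit 5) (nat_lit 72) (nat_lit 5) (nat_lit 68) (nat_lit 5) (nat_lit 353) (nat_lit 340) (nat_lit 207)) (XT.nd (nat_lit 78) (nat_lit 228) (nat_lit 0) (XT.lf (nat_lit 0) (nat_lit 66512396943) (nat_lit 304) (nat_lit 27161777873) (nat_lit 380) (nat_lit 67744838114) (nat_lit 63) (nat_lit 5) (nat_lit 67) (nat_lit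 5) (nat_lit 68) (nat_lit 5) (nat_lit 354) (nat_lit 340) (nat_lit 206)) (XT.lf (nat_lit 0) (nat_lit 37313668326) (nat_lit 228) (nat_lit 98343969260) (nat_lit 304) (nat_lit 33575365003) (nat_lit 60) (nat_lit 5) (nat_lit 63) (nat_lit 5) (nat_lit 64) (nat_lit 5) (nat_lit 355) (nat_lit 340) (nat_lit 205))))) (XT.nd (nat_lit 234) (nat_lit 684) (nat_lit 0) (XT.nd (nat_lit 78) (nat_lit 228) (nat_lit 0) (XT.lf (nat_lit 0) (nat_lit 5447270182) (nat_lit 380) (nat_lit 172008776001) (nat_lit 76) (nat_lit 102162570) (nat_lit 55) (nat_lit 5) (nat_lit 60) (nat_lit 5) (nat_lit 56) (nat_lit 5) (nat_lit 356) (nat_lit 340) (nat_lit 204)) (XT.nd (nat_lit 78) (nat_lit 228) (nat_lit 0) (XT.lf (nat_lit 0) (nat_lit 50424513482) (nat_lit 380) (nat_lit 29970766920) (nat_lit 76) (nat_lit 105926175006) (nat_lit 55) (nat_lit 5) (nat_lit 60) (nat_lit 5) (nat_lit 56) (nat_lit 5) (nat_lit 357) (nat_lit 340) (nat_lit 203))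 (XT.lf (nat_lit 0) (nat_lit 101404342088) (nat_lit 304) (nat_lit 68589489466) (nat_lit 76) (nat_lit 25671710429) (nat_lit 52) (nat_lit 5) (nat_lit 56) (nat_lit 5) (nat_lit 53) (nat_lit 5) (nat_lit 358) (nat_lit 340) (nat_lit 202)))) (XT.nd (nat_lit 78) (nat_lit 456) (nat_lit 0) (XT.lf (nat_lit 0) (nat_lit 93658702553) (nat_lit 228) (nat_lit 66151937551) (nat_lit 304) (nat_lit 45779111667) (nat_lit 49) (nat_lit 5) (nat_lit 52) (nat_lit 5) (nat_lit 53) (nat_lit 5) (nat_lit 359) (nat_lit 340) (nat_lit 201)) (XT.nd (nat_lit 78) (nat_lit 228) (nat_lit 0) (XT.lf (nat_lit 0) (nat_lit 9225648831) (nat_lit 228) (nat_lit 160169650963) (nat_lit 76) (nat_lit 46764723336) (nat_lit 46) (nat_lit 5) (nat_lit 49) (nat_lit 5) (nat_lit 47) (nat_lit 5) (nat_lit 360) (nat_lit 340) (nat_lit 200)) (XT.lf (nat_lit 0) (nat_lit 12339121921) (nat_lit 228) (nat_lit 57998656606) (nat_lit 304) (nat_lit 157035070900)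 (nat_lit 43) (nat_lit 5) (nat_lit 46) (nat_lit 5) (nat_lit 47) (nat_lit 5) (nat_lit 361) (nat_lit 340) (nat_lit 199))))))) (XT.nd (nat_lit 858) (nat_lit 836) (nat_lit 0) (XT.nd (nat_lit 390) (nat_lit 836) (nat_lit 0) (XT.nd (nat_lit 156) (nat_lit 380) (nat_lit 0) (XT.nd (nat_lit 78) (nat_lit 152) (nat_lit 0) (XT.lf (nat_lit 0) (nat_lit 140147118785) (nat_lit 304) (nat_lit 35994137693) (nat_lit 76) (nat_lit 63151033674) (nat_lit 43) (nat_lit 5) (nat_lit 47) (nat_lit 5) (nat_lit 44) (nat_lit 5) (nat_lit 362) (nat_lit 340) (nat_lit 198)) (XT.lf (nat_lit 0) (nat_lit 161561088522) (nat_lit 152) (nat_lit 57480150852) (nat_lit 228) (nat_lit 32949045416) (nat_lit 41) (nat_lit 5) (nat_lit 43) (nat_lit 5) (nat_lit 44) (nat_lit 5) (nat_lit 363) (nat_lit 340) (nat_lit 197))) (XT.nd (nat_lit 78) (nat_lit 152) (nat_lit 0) (XT.lf (nat_lit 0) (nat_lit 40871800686) (nat_lit 228) (nat_lit 153151109070) (nat_lit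 76) (nat_lit 71472989512) (nat_lit 38) (nat_lit 5) (nat_lit 41) (nat_lit 5) (nat_lit 39) (nat_lit 5) (nat_lit 364) (nat_lit 340) (nat_lit 196)) (XT.nd (nat_lit 78) (nat_lit 0) (nat_lit 0) (XT.lf (nat_lit 0) (nat_lit 54768489318) (nat_lit 152) (nat_lit 68115910811) (nat_lit 228) (nat_lit 156998532628) (nat_lit 36) (nat_lit 5) (nat_lit 38) (nat_lit 5) (nat_lit 39) (nat_lit 5) (nat_lit 365) (nat_lit 340) (nat_lit 195)) (XT.lf (nat_lit 0) (nat_lit 215228766131) (nat_lit 228) (nat_lit 11600684367) (nat_lit 76) (nat_lit 68402940733) (nat_lit 36) (nat_lit 5) (nat_lit 39) (nat_lit 5) (nat_lit 37) (nat_lit 5) (nat_lit 366) (nat_lit 340) (nat_lit 194))))) (XT.nd (nat_lit 234) (nat_lit 304) (nat_lit 0) (XT.nd (nat_lit 78) (nat_lit 304) (nat_lit 0) (XT.lf (nat_lit 0) (nat_lit 7788354013) (nat_lit 228) (nat_lit 86654232999) (nat_lit 76) (nat_lit 217127843544) (nat_lit 33) (nat_lit 5) (nat_lit 36) (nat_lit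 5) (nat_lit 34) (nat_lit 5) (nat_lit 367) (nat_lit 340) (nat_lit 193)) (XT.nd (nat_lit 78) (nat_lit 152) (nat_lit 0) (XT.lf (nat_lit 0) (nat_lit 103289054867) (nat_lit 228) (nat_lit 174662495333) (nat_lit 76) (nat_lit 51023971241) (nat_lit 31) (nat_lit 5) (nat_lit 34) (nat_lit 5) (nat_lit 32) (nat_lit 5) (nat_lit 368) (nat_lit 340) (nat_lit 192)) (XT.lf (nat_lit 0) (nat_lit 70596374707) (nat_lit 152) (nat_lit 140062057945) (nat_lit 228) (nat_lit 136903156079) (nat_lit 29) (nat_lit 5) (nat_lit 31) (nat_lit 5) (nat_lit 32) (nat_lit 5) (nat_lit 369) (nat_lit 340) (nat_lit 191)))) (XT.nd (nat_lit 78) (nat_lit 304) (nat_lit 0) (XT.lf (nat_lit 0) (nat_lit 329847796744) (nat_lit 228) (nat_lit 25957940280) (nat_lit 76) (nat_lit 11667282740) (nat_lit 29) (nat_lit 5) (nat_lit 32) (nat_lit 5) (nat_lit 30) (nat_lit 4) (nat_lit 370) (nat_lit 340) (nat_lit 190)) (XT.nd (nat_lit 78) (nat_lit 152) (nat_lit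 0) (XT.lf (nat_lit 0) (nat_lit 73747448975) (nat_lit 152) (nat_lit 139058176395) (nat_lit 76) (nat_lit 175798412591) (nat_lit 27) (nat_lit 5) (nat_lit 29) (nat_lit 5) (nat_lit 28) (nat_lit 5) (nat_lit 371) (nat_lit 340) (nat_lit 189)) (XT.lf (nat_lit 0) (nat_lit 140467592417) (nat_lit 152) (nat_lit 54914207004) (nat_lit 228) (nat_lit 215879394518) (nat_lit 25) (nat_lit 5) (nat_lit 27) (nat_lit 5) (nat_lit 28) (nat_lit 5) (nat_lit 372) (nat_lit 340) (nat_lit 188)))))) (XT.nd (nat_lit 468) (nat_lit 304) (nat_lit 0) (XT.nd (nat_lit 234) (nat_lit 228) (nat_lit 0) (XT.nd (nat_lit 78) (nat_lit 228) (nat_lit 0) (XT.lf (nat_lit 0) (nat_lit 10192493828) (nat_lit 76) (nat_lit 320980303025) (nat_lit 152) (nat_lit 104336830720) (nat_lit 24) (nat_lit 5) (nat_lit 25) (nat_lit 5) (nat_lit 26) (nat_lit 4) (nat_lit 373) (nat_lit 340) (nat_lit 187)) (XT.nd (nat_lit 78) (nat_lit 152) (nat_lit 0) (XT.lf (nat_lit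 0) (nat_lit 21333023339) (nat_lit 152) (nat_lit 139390133289) (nat_lit 76) (nat_lit 300676182410) (nat_lit 23) (nat_lit 5) (nat_lit 25) (nat_lit 5) (nat_lit 24) (nat_lit 5) (nat_lit 374) (nat_lit 340) (nat_lit 186)) (XT.lf (nat_lit 0) (nat_lit 156419794188) (nat_lit 228) (nat_lit 316208444533) (nat_lit 76) (nat_lit 16495527671) (nat_lit 21) (nat_lit 5) (nat_lit 24) (nat_lit 5) (nat_lit 22) (nat_lit 4) (nat_lit 375) (nat_lit 340) (nat_lit 185)))) (XT.nd (nat_lit 78) (nat_lit 228) (nat_lit 0) (XT.lf (nat_lit 0) (nat_lit 307491292655) (nat_lit 228) (nat_lit 6512183874) (nat_lit 76) (nat_lit 204803782201) (nat_lit 21) (nat_lit 5) (nat_lit 24) (nat_lit 5) (nat_lit 22) (nat_lit 4) (nat_lit 376) (nat_lit 340) (nat_lit 184)) (XT.nd (nat_lit 78) (nat_lit 152) (nat_lit 0) (XT.lf (nat_lit 0) (nat_lit 338803284095) (nat_lit 76) (nat_lit 137134718861) (nat_lit 152) (nat_lit 74662952989) (nat_lit 20)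 (nat_lit 5) (nat_lit 21) (nat_lit 5) (nat_lit 22) (nat_lit 4) (nat_lit 377) (nat_lit 340) (nat_lit 183)) (XT.lf (nat_lit 0) (nat_lit 73629273613) (nat_lit 152) (nat_lit 455602740298) (nat_lit 76) (nat_lit 55497161950) (nat_lit 18) (nat_lit 5) (nat_lit 20) (nat_lit 5) (nat_lit 19) (nat_lit 4) (nat_lit 378) (nat_lit 340) (nat_lit 182))))) (XT.nd (nat_lit 234) (nat_lit 228) (nat_lit 0) (XT.nd (nat_lit 78) (nat_lit 76) (nat_lit 0) (XT.lf (nat_lit 0) (nat_lit 237266060223) (nat_lit 152) (nat_lit 120147563024) (nat_lit 76) (nat_lit 263807980653) (nat_lit 18) (nat_lit 5) (nat_lit 20) (nat_lit 5) (nat_lit 19) (nat_lit 4) (nat_lit 379) (nat_lit 340) (nat_lit 181)) (XT.nd (nat_lit 78) (nat_lit 0) (nat_lit 0) (XT.lf (nat_lit 0) (nat_lit 250150117135) (nat_lit 76) (nat_lit 167749064067) (nat_lit 152) (nat_lit 242538975473) (nat_lit 17) (nat_lit 5) (nat_lit 18) (nat_lit 5) (nat_lit 19) (nat_lit 4) (nat_lit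 380) (nat_lit 340) (nat_lit 180)) (XT.lf (nat_lit 0) (nat_lit 615689064925) (nat_lit 152) (nat_lit 48938984935) (nat_lit 0) (nat_lit 38028678219) (nat_lit 17) (nat_lit 5) (nat_lit 19) (nat_lit 4) (nat_lit 17) (nat_lit 4) (nat_lit 381) (nat_lit 340) (nat_lit 179)))) (XT.nd (nat_lit 78) (nat_lit 76) (nat_lit 0) (XT.lf (nat_lit 0) (nat_lit 86879058171) (nat_lit 152) (nat_lit 399558495329) (nat_lit 76) (nat_lit 261330771894) (nat_lit 15) (nat_lit 5) (nat_lit 17) (nat_lit 5) (nat_lit 16) (nat_lit 4) (nat_lit 382) (nat_lit 340) (nat_lit 178)) (XT.nd (nat_lit 78) (nat_lit 76) (nat_lit 0) (XT.lf (nat_lit 0) (nat_lit 272493656426) (nat_lit 152) (nat_lit 19048733607) (nat_lit 76) (nat_lit 504829822418) (nat_lit 15) (nat_lit 5) (nat_lit 17) (nat_lit 5) (nat_lit 16) (nat_lit 4) (nat_lit 383) (nat_lit 340) (nat_lit 177)) (XT.lf (nat_lit 0) (nat_lit 404859619168) (nat_lit 76) (nat_lit 74418673976) (nat_lit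 152) (nat_lit 369270073842) (nat_lit 14) (nat_lit 5) (nat_lit 15) (nat_lit 5) (nat_lit 16) (nat_lit 4) (nat_lit 384) (nat_lit 340) (nat_lit 176))))))))
noncomputable def xc110 : XT := (XT.nd (nat_lit 45006) (nat_lit 0) (nat_lit 152) (XT.nd (nat_lit 44148) (nat_lit 0) (nat_lit 2736) (XT.nd (nat_lit 43680) (nat_lit 0) (nat_lit 5472) (XT.nd (nat_lit 43446) (nat_lit 0) (nat_lit 5852) (XT.nd (nat_lit 78) (nat_lit 76) (nat_lit 0) (XT.lf (nat_lit 0) (nat_lit 705442056974) (nat_lit 152) (nat_lit 44026037395) (nat_lit 0) (nat_lit 155288701752) (nat_lit 14) (nat_lit 5) (nat_lit 16) (nat_lit 4) (nat_lit 14) (nat_lit 4) (nat_lit 385) (nat_lit 340) (nat_lit 175)) (XT.lf (nat_lit 0) (nat_lit 399129280394) (nat_lit 76) (nat_lit 558055893193) (nat_lit 76) (nat_lit 7902413453) (nat_lit 13) (nat_lit 4) (nat_lit 14) (nat_lit 5) (nat_lit 14) (nat_lit 4) (nat_lit 386) (nat_lit 340) (nat_lit 174))) (XT.nd (nat_lit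 78) (nat_lit 760) (nat_lit 0) (XT.lf (nat_lit 0) (nat_lit 23509239115) (nat_lit 0) (nat_lit 23509239115) (nat_lit 684) (nat_lit 864025293) (nat_lit 100) (nat_lit 5) (nat_lit 100) (nat_lit 3) (nat_lit 109) (nat_lit 3) (nat_lit 341) (nat_lit 341) (nat_lit 218)) (XT.nd (nat_lit 78) (nat_lit 760) (nat_lit 0) (XT.lf (nat_lit 76) (nat_lit 22658431914) (nat_lit 0) (nat_lit 75880536751) (nat_lit 760) (nat_lit 1019595704) (nat_lit 101) (nat_lit 5) (nat_lit 100) (nat_lit 5) (nat_lit 110) (nat_lit 5) (nat_lit 342) (nat_lit 341) (nat_lit 217)) (XT.lf (nat_lit 0) (nat_lit 1408472566) (nat_lit 760) (nat_lit 2900050566) (nat_lit 836) (nat_lit 99264543711) (nat_lit 90) (nat_lit 5) (nat_lit 100) (nat_lit 5) (nat_lit 101) (nat_lit 5) (nat_lit 343) (nat_lit 341) (nat_lit 216))))) (XT.nd (nat_lit 234) (nat_lit 456) (nat_lit 0) (XT.nd (nat_lit 78) (nat_lit 0) (nat_lit 76) (XT.lf (nat_lit 0) (nat_lit 6396730585)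 (nat_lit 760) (nat_lit 29457750565) (nat_lit 836) (nat_lit 71933330767) (nat_lit 91) (nat_lit 5) (nat_lit 101) (nat_lit 5) (nat_lit 102) (nat_lit 5) (nat_lit 344) (nat_lit 341) (nat_lit 215)) (XT.nd (nat_lit 78) (nat_lit 0) (nat_lit 76) (XT.lf (nat_lit 0) (nat_lit 13441574888) (nat_lit 760) (nat_lit 57429676304) (nat_lit 836) (nat_lit 41385610451) (nat_lit 92) (nat_lit 5) (nat_lit 102) (nat_lit 5) (nat_lit 103) (nat_lit 5) (nat_lit 345) (nat_lit 341) (nat_lit 214)) (XT.lf (nat_lit 0) (nat_lit 22764760012) (nat_lit 760) (nat_lit 86919470018) (nat_lit 836) (nat_lit 7313468884) (nat_lit 93) (nat_lit 5) (nat_lit 103) (nat_lit 5) (nat_lit 104) (nat_lit 5) (nat_lit 346) (nat_lit 341) (nat_lit 213)))) (XT.nd (nat_lit 78) (nat_lit 608) (nat_lit 0) (XT.lf (nat_lit 76) (nat_lit 3468714031) (nat_lit 0) (nat_lit 31630241779) (nat_lit 836) (nat_lit 86905590703) (nat_lit 94) (nat_lit 5) (nat_lit 93)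 (nat_lit 5) (nat_lit 104) (nat_lit 5) (nat_lit 347) (nat_lit 341) (nat_lit 212)) (XT.nd (nat_lit 78) (nat_lit 684) (nat_lit 0) (XT.lf (nat_lit 0) (nat_lit 50780330226) (nat_lit 760) (nat_lit 23992213660) (nat_lit 76) (nat_lit 52521376941) (nat_lit 94) (nat_lit 5) (nat_lit 104) (nat_lit 5) (nat_lit 95) (nat_lit 5) (nat_lit 348) (nat_lit 341) (nat_lit 211)) (XT.lf (nat_lit 0) (nat_lit 69666377048) (nat_lit 760) (nat_lit 52937362284) (nat_lit 76) (nat_lit 10305198608) (nat_lit 85) (nat_lit 5) (nat_lit 95) (nat_lit 5) (nat_lit 86) (nat_lit 5) (nat_lit 349) (nat_lit 341) (nat_lit 210)))))) (XT.nd (nat_lit 390) (nat_lit 1368) (nat_lit 0) (XT.nd (nat_lit 156) (nat_lit 684) (nat_lit 0) (XT.nd (nat_lit 78) (nat_lit 304) (nat_lit 0) (XT.lf (nat_lit 0) (nat_lit 54637412925) (nat_lit 380) (nat_lit 37963863694) (nat_lit 456) (nat_lit 46244982258) (nat_lit 80) (nat_lit 5) (nat_lit 85) (nat_lit 5) (nat_lit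 86) (nat_lit 5) (nat_lit 350) (nat_lit 341) (nat_lit 209)) (XT.lf (nat_lit 0) (nat_lit 27526903656) (nat_lit 304) (nat_lit 92044932149) (nat_lit 380) (nat_lit 25576687137) (nat_lit 76) (nat_lit 5) (nat_lit 80) (nat_lit 5) (nat_lit 81) (nat_lit 5) (nat_lit 351) (nat_lit 341) (nat_lit 208))) (XT.nd (nat_lit 78) (nat_lit 684) (nat_lit 0) (XT.lf (nat_lit 0) (nat_lit 150546666596) (nat_lit 304) (nat_lit 249471559) (nat_lit 380) (nat_lit 1054025832) (nat_lit 76) (nat_lit 5) (nat_lit 80) (nat_lit 5) (nat_lit 81) (nat_lit 5) (nat_lit 352) (nat_lit 341) (nat_lit 207)) (XT.nd (nat_lit 78) (nat_lit 304) (nat_lit 0) (XT.lf (nat_lit 0) (nat_lit 28197936148) (nat_lit 380) (nat_lit 32531509060) (nat_lit 76) (nat_lit 98159568715) (nat_lit 71) (nat_lit 5) (nat_lit 76) (nat_lit 5) (nat_lit 72) (nat_lit 5) (nat_lit 353) (nat_lit 341) (nat_lit 206)) (XT.lf (nat_lit 0) (nat_lit 61976146023) (nat_lit 380) (nat_lit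 66031082126) (nat_lit 76) (nat_lit 38371729441) (nat_lit 67) (nat_lit 5) (nat_lit 72) (nat_lit 5) (nat_lit 68) (nat_lit 5) (nat_lit 354) (nat_lit 341) (nat_lit 205))))) (XT.nd (nat_lit 234) (nat_lit 456) (nat_lit 0) (XT.nd (nat_lit 78) (nat_lit 608) (nat_lit 0) (XT.lf (nat_lit 0) (nat_lit 71845148368) (nat_lit 304) (nat_lit 29332657866) (nat_lit 380) (nat_lit 73154231424) (nat_lit 63) (nat_lit 5) (nat_lit 67) (nat_lit 5) (nat_lit 68) (nat_lit 5) (nat_lit 355) (nat_lit 341) (nat_lit 204)) (XT.nd (nat_lit 78) (nat_lit 380) (nat_lit 0) (XT.lf (nat_lit 0) (nat_lit 40310454340) (nat_lit 228) (nat_lit 106208985722) (nat_lit 304) (nat_lit 36251732572) (nat_lit 60) (nat_lit 5) (nat_lit 63) (nat_lit 5) (nat_lit 64) (nat_lit 5) (nat_lit 356) (nat_lit 341) (nat_lit 203)) (XT.lf (nat_lit 0) (nat_lit 5891932200) (nat_lit 380) (nat_lit 185757578336) (nat_lit 76) (nat_lit 112901560) (nat_lit 55) (nat_lit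 5) (nat_lit 60) (nat_lit 5) (nat_lit 56) (nat_lit 5) (nat_lit 357) (nat_lit 341) (nat_lit 202)))) (XT.nd (nat_lit 78) (nat_lit 456) (nat_lit 0) (XT.lf (nat_lit 0) (nat_lit 54466697157) (nat_lit 380) (nat_lit 32357409991) (nat_lit 76) (nat_lit 114402644918) (nat_lit 55) (nat_lit 5) (nat_lit 60) (nat_lit 5) (nat_lit 56) (nat_lit 5) (nat_lit 358) (nat_lit 341) (nat_lit 201)) (XT.nd (nat_lit 78) (nat_lit 228) (nat_lit 0) (XT.lf (nat_lit 0) (nat_lit 109524510633) (nat_lit 304) (nat_lit 74065755387) (nat_lit 76) (nat_lit 27728120258) (nat_lit 52) (nat_lit 5) (nat_lit 56) (nat_lit 5) (nat_lit 53) (nat_lit 5) (nat_lit 359) (nat_lit 341) (nat_lit 200)) (XT.lf (nat_lit 0) (nat_lit 101161818587) (nat_lit 228) (nat_lit 71441077240) (nat_lit 304) (nat_lit 49433658448) (nat_lit 49) (nat_lit 5) (nat_lit 52) (nat_lit 5) (nat_lit 53) (nat_lit 5) (nat_lit 360) (nat_lit 341) (nat_lit 199))))))) (XT.nd (nat_lit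 858) (nat_lit 1064) (nat_lit 0) (XT.nd (nat_lit 390) (nat_lit 684) (nat_lit 0) (XT.nd (nat_lit 156) (nat_lit 380) (nat_lit 0) (XT.nd (nat_lit 78) (nat_lit 228) (nat_lit 0) (XT.lf (nat_lit 0) (nat_lit 9970883292) (nat_lit 228) (nat_lit 172972695825) (nat_lit 76) (nat_lit 50508880199) (nat_lit 46) (nat_lit 5) (nat_lit 49) (nat_lit 5) (nat_lit 47) (nat_lit 5) (nat_lit 361) (nat_lit 341) (nat_lit 198)) (XT.lf (nat_lit 0) (nat_lit 13336321389) (nat_lit 228) (nat_lit 62635287150) (nat_lit 304) (nat_lit 169590722403) (nat_lit 43) (nat_lit 5) (nat_lit 46) (nat_lit 5) (nat_lit 47) (nat_lit 5) (nat_lit 362) (nat_lit 341) (nat_lit 197))) (XT.nd (nat_lit 78) (nat_lit 380) (nat_lit 0) (XT.lf (nat_lit 0) (nat_lit 151365238899) (nat_lit 304) (nat_lit 38864071278) (nat_lit 76) (nat_lit 68206040053) (nat_lit 43) (nat_lit 5) (nat_lit 47) (nat_lit 5) (nat_lit 44) (nat_lit 5) (nat_lit 363) (nat_lit 341) (nat_lit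 196)) (XT.nd (nat_lit 78) (nat_lit 228) (nat_lit 0) (XT.lf (nat_lit 0) (nat_lit 174495155941) (nat_lit 152) (nat_lit 62075406109) (nat_lit 228) (nat_lit 35578639159) (nat_lit 41) (nat_lit 5) (nat_lit 43) (nat_lit 5) (nat_lit 44) (nat_lit 5) (nat_lit 364) (nat_lit 341) (nat_lit 195)) (XT.lf (nat_lit 0) (nat_lit 44147407798) (nat_lit 228) (nat_lit 165393972083) (nat_lit 76) (nat_lit 77193893600) (nat_lit 38) (nat_lit 5) (nat_lit 41) (nat_lit 5) (nat_lit 39) (nat_lit 5) (nat_lit 365) (nat_lit 341) (nat_lit 194))))) (XT.nd (nat_lit 234) (nat_lit 304) (nat_lit 0) (XT.nd (nat_lit 78) (nat_lit 228) (nat_lit 0) (XT.lf (nat_lit 0) (nat_lit 59158793237) (nat_lit 152) (nat_lit 73561925438) (nat_lit 228) (nat_lit 169552566140) (nat_lit 36) (nat_lit 5) (nat_lit 38) (nat_lit 5) (nat_lit 39) (nat_lit 5) (nat_lit 366) (nat_lit 341) (nat_lit 193)) (XT.nd (nat_lit 78) (nat_lit 228) (nat_lit 0) (XT.lf (nat_lit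 0) (nat_lit 232452268723) (nat_lit 228) (nat_lit 12520353499) (nat_lit 76) (nat_lit 73878096319) (nat_lit 36) (nat_lit 5) (nat_lit 39) (nat_lit 5) (nat_lit 37) (nat_lit 5) (nat_lit 367) (nat_lit 341) (nat_lit 192)) (XT.lf (nat_lit 0) (nat_lit 8416448107) (nat_lit 228) (nat_lit 93578380816) (nat_lit 76) (nat_lit 234500981329) (nat_lit 33) (nat_lit 5) (nat_lit 36) (nat_lit 5) (nat_lit 34) (nat_lit 5) (nat_lit 368) (nat_lit 341) (nat_lit 191)))) (XT.nd (nat_lit 78) (nat_lit 152) (nat_lit 0) (XT.lf (nat_lit 0) (nat_lit 111557002835) (nat_lit 228) (nat_lit 188627465866) (nat_lit 76) (nat_lit 55108850074) (nat_lit 31) (nat_lit 5) (nat_lit 34) (nat_lit 5) (nat_lit 32) (nat_lit 5) (nat_lit 369) (nat_lit 341) (nat_lit 190)) (XT.nd (nat_lit 78) (nat_lit 0) (nat_lit 0) (XT.lf (nat_lit 0) (nat_lit 76251764842) (nat_lit 152) (nat_lit 151263928607) (nat_lit 228) (nat_lit 147850590106) (nat_lit 29) (nat_lit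 5) (nat_lit 31) (nat_lit 5) (nat_lit 32) (nat_lit 5) (nat_lit 370) (nat_lit 341) (nat_lit 189)) (XT.lf (nat_lit 0) (nat_lit 356239911678) (nat_lit 228) (nat_lit 28027293903) (nat_lit 76) (nat_lit 12603438459) (nat_lit 29) (nat_lit 5) (nat_lit 32) (nat_lit 5) (nat_lit 30) (nat_lit 4) (nat_lit 371) (nat_lit 341) (nat_lit 188)))))) (XT.nd (nat_lit 468) (nat_lit 456) (nat_lit 0) (XT.nd (nat_lit 234) (nat_lit 228) (nat_lit 0) (XT.nd (nat_lit 78) (nat_lit 228) (nat_lit 0) (XT.lf (nat_lit 0) (nat_lit 79651396348) (nat_lit 152) (nat_lit 150175725669) (nat_lit 76) (nat_lit 189865028987) (nat_lit 27) (nat_lit 5) (nat_lit 29) (nat_lit 5) (nat_lit 28) (nat_lit 5) (nat_lit 372) (nat_lit 341) (nat_lit 187)) (XT.nd (nat_lit 78) (nat_lit 76) (nat_lit 0) (XT.lf (nat_lit 0) (nat_lit 151711795880) (nat_lit 152) (nat_lit 59304497540) (nat_lit 228) (nat_lit 233145596290) (nat_lit 25) (nat_lit 5) (nat_lit 27)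 (nat_lit 5) (nat_lit 28) (nat_lit 5) (nat_lit 373) (nat_lit 341) (nat_lit 186)) (XT.lf (nat_lit 0) (nat_lit 11014542616) (nat_lit 76) (nat_lit 346655880391) (nat_lit 152) (nat_lit 112679782575) (nat_lit 24) (nat_lit 5) (nat_lit 25) (nat_lit 5) (nat_lit 26) (nat_lit 4) (nat_lit 374) (nat_lit 341) (nat_lit 185)))) (XT.nd (nat_lit 78) (nat_lit 152) (nat_lit 0) (XT.lf (nat_lit 0) (nat_lit 23043245530) (nat_lit 152) (nat_lit 150535066997) (nat_lit 76) (nat_lit 324732792787) (nat_lit 23) (nat_lit 5) (nat_lit 25) (nat_lit 5) (nat_lit 24) (nat_lit 5) (nat_lit 375) (nat_lit 341) (nat_lit 184)) (XT.nd (nat_lit 78) (nat_lit 0) (nat_lit 0) (XT.lf (nat_lit 0) (nat_lit 168936827100) (nat_lit 228) (nat_lit 341498984311) (nat_lit 76) (nat_lit 17817682127) (nat_lit 21) (nat_lit 5) (nat_lit 24) (nat_lit 5) (nat_lit 22) (nat_lit 4) (nat_lit 376) (nat_lit 341) (nat_lit 183)) (XT.lf (nat_lit 0) (nat_lit 332093789935)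 (nat_lit 228) (nat_lit 7027477302) (nat_lit 76) (nat_lit 221190410928) (nat_lit 21) (nat_lit 5) (nat_lit 24) (nat_lit 5) (nat_lit 22) (nat_lit 4) (nat_lit 377) (nat_lit 341) (nat_lit 182))))) (XT.nd (nat_lit 234) (nat_lit 228) (nat_lit 0) (XT.nd (nat_lit 78) (nat_lit 152) (nat_lit 0) (XT.lf (nat_lit 0) (nat_lit 365912981202) (nat_lit 76) (nat_lit 148103104120) (nat_lit 152) (nat_lit 80632793537) (nat_lit 20) (nat_lit 5) (nat_lit 21) (nat_lit 5) (nat_lit 22) (nat_lit 4) (nat_lit 378) (nat_lit 341) (nat_lit 181)) (XT.nd (nat_lit 78) (nat_lit 0) (nat_lit 0) (XT.lf (nat_lit 0) (nat_lit 79522599173) (nat_lit 152) (nat_lit 492045550219) (nat_lit 76) (nat_lit 59939210074) (nat_lit 18) (nat_lit 5) (nat_lit 20) (nat_lit 5) (nat_lit 19) (nat_lit 4) (nat_lit 379) (nat_lit 341) (nat_lit 180)) (XT.lf (nat_lit 0) (nat_lit 256250107699) (nat_lit 152) (nat_lit 129754359451) (nat_lit 76) (nat_lit 284914725742)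 (nat_lit 18) (nat_lit 5) (nat_lit 20) (nat_lit 5) (nat_lit 19) (nat_lit 4) (nat_lit 380) (nat_lit 341) (nat_lit 179)))) (XT.nd (nat_lit 78) (nat_lit 152) (nat_lit 0) (XT.lf (nat_lit 0) (nat_lit 270166917451) (nat_lit 76) (nat_lit 181166831063) (nat_lit 152) (nat_lit 261939327955) (nat_lit 17) (nat_lit 5) (nat_lit 18) (nat_lit 5) (nat_lit 19) (nat_lit 4) (nat_lit 381) (nat_lit 341) (nat_lit 178)) (XT.nd (nat_lit 78) (nat_lit 152) (nat_lit 0) (XT.lf (nat_lit 0) (nat_lit 664946659110) (nat_lit 152) (nat_lit 52849575960) (nat_lit 0) (nat_lit 41072906788) (nat_lit 17) (nat_lit 5) (nat_lit 19) (nat_lit 4) (nat_lit 17) (nat_lit 4) (nat_lit 382) (nat_lit 341) (nat_lit 177)) (XT.lf (nat_lit 0) (nat_lit 93831776044) (nat_lit 152) (nat_lit 431518763930) (nat_lit 76) (nat_lit 282239130894) (nat_lit 15) (nat_lit 5) (nat_lit 17) (nat_lit 5) (nat_lit 16) (nat_lit 4) (nat_lit 383) (nat_lit 341) (nat_lit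 176))))))))
noncomputable def xc111 : XT := (XT.nd (nat_lit 45240) (nat_lit 0) (nat_lit 76) (XT.nd (nat_lit 44304) (nat_lit 0) (nat_lit 2432) (XT.nd (nat_lit 43836) (nat_lit 0) (nat_lit 5396) (XT.nd (nat_lit 43602) (nat_lit 0) (nat_lit 5776) (XT.nd (nat_lit 78) (nat_lit 76) (nat_lit 0) (XT.lf (nat_lit 0) (nat_lit 294295364884) (nat_lit 152) (nat_lit 20568548012) (nat_lit 76) (nat_lit 545217964923) (nat_lit 15) (nat_lit 5) (nat_lit 17) (nat_lit 5) (nat_lit 16) (nat_lit 4) (nat_lit 384) (nat_lit 341) (nat_lit 175)) (XT.lf (nat_lit 0) (nat_lit 437252295487) (nat_lit 76) (nat_lit 80370373905) (nat_lit 152) (nat_lit 398809460544) (nat_lit 14) (nat_lit 5) (nat_lit 15) (nat_lit 5) (nat_lit 16) (nat_lit 4) (nat_lit 385) (nat_lit 341) (nat_lit 174))) (XT.nd (nat_lit 78) (nat_lit 760) (nat_lit 0) (XT.lf (nat_lit 0) (nat_lit 25395138328) (nat_lit 0) (nat_lit 25395138328) (nat_lit 684) (nat_lit 922295268)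 (nat_lit 100) (nat_lit 5) (nat_lit 100) (nat_lit 3) (nat_lit 109) (nat_lit 3) (nat_lit 342) (nat_lit 342) (nat_lit 216)) (XT.nd (nat_lit 78) (nat_lit 760) (nat_lit 0) (XT.lf (nat_lit 76) (nat_lit 24482149791) (nat_lit 0) (nat_lit 81959071013) (nat_lit 760) (nat_lit 1081042587) (nat_lit 101) (nat_lit 5) (nat_lit 100) (nat_lit 5) (nat_lit 110) (nat_lit 5) (nat_lit 343) (nat_lit 342) (nat_lit 215)) (XT.lf (nat_lit 0) (nat_lit 1539184429) (nat_lit 760) (nat_lit 3121207103) (nat_lit 836) (nat_lit 107197593033) (nat_lit 90) (nat_lit 5) (nat_lit 100) (nat_lit 5) (nat_lit 101) (nat_lit 5) (nat_lit 344) (nat_lit 342) (nat_lit 214))))) (XT.nd (nat_lit 234) (nat_lit 456) (nat_lit 0) (XT.nd (nat_lit 78) (nat_lit 0) (nat_lit 76) (XT.lf (nat_lit 0) (nat_lit 6925227998) (nat_lit 760) (nat_lit 31803026274) (nat_lit 836) (nat_lit 77681720647) (nat_lit 91) (nat_lit 5) (nat_lit 101) (nat_lit 5) (nat_lit 102)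 (nat_lit 5) (nat_lit 345) (nat_lit 342) (nat_lit 213)) (XT.nd (nat_lit 78) (nat_lit 0) (nat_lit 76) (XT.lf (nat_lit 0) (nat_lit 14532512363) (nat_lit 760) (nat_lit 62012317012) (nat_lit 836) (nat_lit 44691778402) (nat_lit 92) (nat_lit 5) (nat_lit 102) (nat_lit 5) (nat_lit 103) (nat_lit 5) (nat_lit 346) (nat_lit 342) (nat_lit 212)) (XT.lf (nat_lit 0) (nat_lit 24600517931) (nat_lit 760) (nat_lit 93860998859) (nat_lit 836) (nat_lit 7895248605) (nat_lit 93) (nat_lit 5) (nat_lit 103) (nat_lit 5) (nat_lit 104) (nat_lit 5) (nat_lit 347) (nat_lit 342) (nat_lit 211)))) (XT.nd (nat_lit 78) (nat_lit 608) (nat_lit 0) (XT.lf (nat_lit 76) (nat_lit 3757717159) (nat_lit 0) (nat_lit 34162832088) (nat_lit 836) (nat_lit 93843658086) (nat_lit 94) (nat_lit 5) (nat_lit 93) (nat_lit 5) (nat_lit 104) (nat_lit 5) (nat_lit 348) (nat_lit 342) (nat_lit 210)) (XT.nd (nat_lit 78) (nat_lit 684) (nat_lit 0) (XT.lf (nat_lit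 0) (nat_lit 54855389123) (nat_lit 760) (nat_lit 25900254825) (nat_lit 76) (nat_lit 56721141280) (nat_lit 94) (nat_lit 5) (nat_lit 104) (nat_lit 5) (nat_lit 95) (nat_lit 5) (nat_lit 349) (nat_lit 342) (nat_lit 209)) (XT.lf (nat_lit 0) (nat_lit 75251537278) (nat_lit 760) (nat_lit 57160882380) (nat_lit 76) (nat_lit 11128624480) (nat_lit 85) (nat_lit 5) (nat_lit 95) (nat_lit 5) (nat_lit 86) (nat_lit 5) (nat_lit 350) (nat_lit 342) (nat_lit 208)))))) (XT.nd (nat_lit 468) (nat_lit 1292) (nat_lit 0) (XT.nd (nat_lit 234) (nat_lit 988) (nat_lit 0) (XT.nd (nat_lit 78) (nat_lit 304) (nat_lit 0) (XT.lf (nat_lit 0) (nat_lit 59019376422) (nat_lit 380) (nat_lit 41001145888) (nat_lit 456) (nat_lit 49932864973) (nat_lit 80) (nat_lit 5) (nat_lit 85) (nat_lit 5) (nat_lit 86) (nat_lit 5) (nat_lit 351) (nat_lit 342) (nat_lit 207)) (XT.nd (nat_lit 78) (nat_lit 0) (nat_lit 0) (XT.lf (nat_lit 0) (nat_lit 29740099666)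 (nat_lit 304) (nat_lit 99407971037) (nat_lit 380) (nat_lit 27611795667) (nat_lit 76) (nat_lit 5) (nat_lit 80) (nat_lit 5) (nat_lit 81) (nat_lit 5) (nat_lit 352) (nat_lit 342) (nat_lit 206)) (XT.lf (nat_lit 0) (nat_lit 162600625588) (nat_lit 304) (nat_lit 268914763) (nat_lit 380) (nat_lit 1128138231) (nat_lit 76) (nat_lit 5) (nat_lit 80) (nat_lit 5) (nat_lit 81) (nat_lit 5) (nat_lit 353) (nat_lit 342) (nat_lit 205)))) (XT.nd (nat_lit 78) (nat_lit 608) (nat_lit 0) (XT.lf (nat_lit 0) (nat_lit 30463092090) (nat_lit 380) (nat_lit 35123459709) (nat_lit 76) (nat_lit 106013105751) (nat_lit 71) (nat_lit 5) (nat_lit 76) (nat_lit 5) (nat_lit 72) (nat_lit 5) (nat_lit 354) (nat_lit 342) (nat_lit 204)) (XT.nd (nat_lit 78) (nat_lit 304) (nat_lit 0) (XT.lf (nat_lit 0) (nat_lit 66943046808) (nat_lit 380) (nat_lit 71303028616) (nat_lit 76) (nat_lit 41442747730) (nat_lit 67) (nat_lit 5) (nat_lit 72) (nat_lit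 5) (nat_lit 68) (nat_lit 5) (nat_lit 355) (nat_lit 342) (nat_lit 203)) (XT.lf (nat_lit 0) (nat_lit 77602842259) (nat_lit 304) (nat_lit 31677502459) (nat_lit 380) (nat_lit 78997830450) (nat_lit 63) (nat_lit 5) (nat_lit 67) (nat_lit 5) (nat_lit 68) (nat_lit 5) (nat_lit 356) (nat_lit 342) (nat_lit 202))))) (XT.nd (nat_lit 234) (nat_lit 684) (nat_lit 0) (XT.nd (nat_lit 78) (nat_lit 380) (nat_lit 0) (XT.lf (nat_lit 0) (nat_lit 43545315163) (nat_lit 228) (nat_lit 114703560307) (nat_lit 304) (nat_lit 39143587887) (nat_lit 60) (nat_lit 5) (nat_lit 63) (nat_lit 5) (nat_lit 64) (nat_lit 5) (nat_lit 357) (nat_lit 342) (nat_lit 201)) (XT.nd (nat_lit 78) (nat_lit 0) (nat_lit 0) (XT.lf (nat_lit 0) (nat_lit 6370900291) (nat_lit 380) (nat_lit 200607982490) (nat_lit 76) (nat_lit 124133602) (nat_lit 55) (nat_lit 5) (nat_lit 60) (nat_lit 5) (nat_lit 56) (nat_lit 5) (nat_lit 358) (nat_lit 342) (nat_lit 200))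 (XT.lf (nat_lit 0) (nat_lit 58831082480) (nat_lit 380) (nat_lit 34936556390) (nat_lit 76) (nat_lit 123556893472) (nat_lit 55) (nat_lit 5) (nat_lit 60) (nat_lit 5) (nat_lit 56) (nat_lit 5) (nat_lit 359) (nat_lit 342) (nat_lit 199)))) (XT.nd (nat_lit 78) (nat_lit 456) (nat_lit 0) (XT.lf (nat_lit 0) (nat_lit 118293176883) (nat_lit 304) (nat_lit 79981676624) (nat_lit 76) (nat_lit 29948661541) (nat_lit 52) (nat_lit 5) (nat_lit 56) (nat_lit 5) (nat_lit 53) (nat_lit 5) (nat_lit 360) (nat_lit 342) (nat_lit 198)) (XT.nd (nat_lit 78) (nat_lit 228) (nat_lit 0) (XT.lf (nat_lit 0) (nat_lit 109263697399) (nat_lit 228) (nat_lit 77153778272) (nat_lit 304) (nat_lit 53381679183) (nat_lit 49) (nat_lit 5) (nat_lit 52) (nat_lit 5) (nat_lit 53) (nat_lit 5) (nat_lit 361) (nat_lit 342) (nat_lit 197)) (XT.lf (nat_lit 0) (nat_lit 10774711839) (nat_lit 228) (nat_lit 186801486101) (nat_lit 76) (nat_lit 54552144624)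 (nat_lit 46) (nat_lit 5) (nat_lit 49) (nat_lit 5) (nat_lit 47) (nat_lit 5) (nat_lit 362) (nat_lit 342) (nat_lit 196))))))) (XT.nd (nat_lit 858) (nat_lit 912) (nat_lit 0) (XT.nd (nat_lit 390) (nat_lit 684) (nat_lit 0) (XT.nd (nat_lit 156) (nat_lit 532) (nat_lit 0) (XT.nd (nat_lit 78) (nat_lit 0) (nat_lit 0) (XT.lf (nat_lit 0) (nat_lit 14411860258) (nat_lit 228) (nat_lit 67643313496) (nat_lit 304) (nat_lit 183151846648) (nat_lit 43) (nat_lit 5) (nat_lit 46) (nat_lit 5) (nat_lit 47) (nat_lit 5) (nat_lit 363) (nat_lit 342) (nat_lit 195)) (XT.lf (nat_lit 0) (nat_lit 163479902636) (nat_lit 304) (nat_lit 41964968731) (nat_lit 76) (nat_lit 73665029847) (nat_lit 43) (nat_lit 5) (nat_lit 47) (nat_lit 5) (nat_lit 44) (nat_lit 5) (nat_lit 364) (nat_lit 342) (nat_lit 194))) (XT.nd (nat_lit 78) (nat_lit 380) (nat_lit 0) (XT.lf (nat_lit 0) (nat_lit 188462639076) (nat_lit 152) (nat_lit 67038732140) (nat_lit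 228) (nat_lit 38419503431) (nat_lit 41) (nat_lit 5) (nat_lit 43) (nat_lit 5) (nat_lit 44) (nat_lit 5) (nat_lit 365) (nat_lit 342) (nat_lit 193)) (XT.nd (nat_lit 78) (nat_lit 152) (nat_lit 0) (XT.lf (nat_lit 0) (nat_lit 47684227047) (nat_lit 228) (nat_lit 178617580289) (nat_lit 76) (nat_lit 83372032769) (nat_lit 38) (nat_lit 5) (nat_lit 41) (nat_lit 5) (nat_lit 39) (nat_lit 5) (nat_lit 366) (nat_lit 342) (nat_lit 192)) (XT.lf (nat_lit 0) (nat_lit 63899062518) (nat_lit 152) (nat_lit 79444086059) (nat_lit 228) (nat_lit 183111756771) (nat_lit 36) (nat_lit 5) (nat_lit 38) (nat_lit 5) (nat_lit 39) (nat_lit 5) (nat_lit 367) (nat_lit 342) (nat_lit 191))))) (XT.nd (nat_lit 234) (nat_lit 304) (nat_lit 0) (XT.nd (nat_lit 78) (nat_lit 380) (nat_lit 0) (XT.lf (nat_lit 0) (nat_lit 251052909499) (nat_lit 228) (nat_lit 13514792464) (nat_lit 76) (nat_lit 79790847736) (nat_lit 36) (nat_lit 5) (nat_lit 39)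 (nat_lit 5) (nat_lit 37) (nat_lit 5) (nat_lit 368) (nat_lit 342) (nat_lit 190)) (XT.nd (nat_lit 78) (nat_lit 152) (nat_lit 0) (XT.lf (nat_lit 0) (nat_lit 9094072747) (nat_lit 228) (nat_lit 101057628972) (nat_lit 76) (nat_lit 253263554950) (nat_lit 33) (nat_lit 5) (nat_lit 36) (nat_lit 5) (nat_lit 34) (nat_lit 5) (nat_lit 369) (nat_lit 342) (nat_lit 189)) (XT.lf (nat_lit 0) (nat_lit 120485698502) (nat_lit 228) (nat_lit 203710779483) (nat_lit 76) (nat_lit 59520096774) (nat_lit 31) (nat_lit 5) (nat_lit 34) (nat_lit 5) (nat_lit 32) (nat_lit 5) (nat_lit 370) (nat_lit 342) (nat_lit 188)))) (XT.nd (nat_lit 78) (nat_lit 152) (nat_lit 0) (XT.lf (nat_lit 0) (nat_lit 82358490527) (nat_lit 152) (nat_lit 163362390311) (nat_lit 228) (nat_lit 159674506262) (nat_lit 29) (nat_lit 5) (nat_lit 31) (nat_lit 5) (nat_lit 32) (nat_lit 5) (nat_lit 371) (nat_lit 342) (nat_lit 187)) (XT.nd (nat_lit 78) (nat_lit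 152) (nat_lit 0) (XT.lf (nat_lit 0) (nat_lit 384742783621) (nat_lit 228) (nat_lit 30263234617) (nat_lit 76) (nat_lit 13614091021) (nat_lit 29) (nat_lit 5) (nat_lit 32) (nat_lit 5) (nat_lit 30) (nat_lit 4) (nat_lit 372) (nat_lit 342) (nat_lit 186)) (XT.lf (nat_lit 0) (nat_lit 86027067259) (nat_lit 152) (nat_lit 162183692469) (nat_lit 76) (nat_lit 205056583320) (nat_lit 27) (nat_lit 5) (nat_lit 29) (nat_lit 5) (nat_lit 28) (nat_lit 5) (nat_lit 373) (nat_lit 342) (nat_lit 185)))))) (XT.nd (nat_lit 468) (nat_lit 380) (nat_lit 0) (XT.nd (nat_lit 234) (nat_lit 228) (nat_lit 0) (XT.nd (nat_lit 78) (nat_lit 152) (nat_lit 0) (XT.lf (nat_lit 0) (nat_lit 163854566086) (nat_lit 152) (nat_lit 64046417335) (nat_lit 228) (nat_lit 251793686218) (nat_lit 25) (nat_lit 5) (nat_lit 27) (nat_lit 5) (nat_lit 28) (nat_lit 5) (nat_lit 374) (nat_lit 342) (nat_lit 184)) (XT.nd (nat_lit 78) (nat_lit 76) (nat_lit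 0) (XT.lf (nat_lit 0) (nat_lit 11901406713) (nat_lit 76) (nat_lit 374385910085) (nat_lit 152) (nat_lit 121690740453) (nat_lit 24) (nat_lit 5) (nat_lit 25) (nat_lit 5) (nat_lit 26) (nat_lit 4) (nat_lit 375) (nat_lit 342) (nat_lit 183)) (XT.lf (nat_lit 0) (nat_lit 24889774724) (nat_lit 152) (nat_lit 162572490880) (nat_lit 76) (nat_lit 350713573089) (nat_lit 23) (nat_lit 5) (nat_lit 25) (nat_lit 5) (nat_lit 24) (nat_lit 5) (nat_lit 376) (nat_lit 342) (nat_lit 182)))) (XT.nd (nat_lit 78) (nat_lit 76) (nat_lit 0) (XT.lf (nat_lit 0) (nat_lit 182454730553) (nat_lit 228) (nat_lit 368813642611) (nat_lit 76) (nat_lit 19245250541) (nat_lit 21) (nat_lit 5) (nat_lit 24) (nat_lit 5) (nat_lit 22) (nat_lit 4) (nat_lit 377) (nat_lit 342) (nat_lit 181)) (XT.nd (nat_lit 78) (nat_lit 76) (nat_lit 0) (XT.lf (nat_lit 0) (nat_lit 358664031357) (nat_lit 228) (nat_lit 7584804704) (nat_lit 76) (nat_lit 238887638101)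 (nat_lit 21) (nat_lit 5) (nat_lit 24) (nat_lit 5) (nat_lit 22) (nat_lit 4) (nat_lit 378) (nat_lit 342) (nat_lit 180)) (XT.lf (nat_lit 0) (nat_lit 395190678803) (nat_lit 76) (nat_lit 159949301482) (nat_lit 152) (nat_lit 87080677231) (nat_lit 20) (nat_lit 5) (nat_lit 21) (nat_lit 5) (nat_lit 22) (nat_lit 4) (nat_lit 379) (nat_lit 342) (nat_lit 179))))) (XT.nd (nat_lit 234) (nat_lit 152) (nat_lit 0) (XT.nd (nat_lit 78) (nat_lit 76) (nat_lit 0) (XT.lf (nat_lit 0) (nat_lit 85886965123) (nat_lit 152) (nat_lit 531404556631) (nat_lit 76) (nat_lit 64736297470) (nat_lit 18) (nat_lit 5) (nat_lit 20) (nat_lit 5) (nat_lit 19) (nat_lit 4) (nat_lit 380) (nat_lit 342) (nat_lit 178)) (XT.nd (nat_lit 78) (nat_lit 76) (nat_lit 0) (XT.lf (nat_lit 0) (nat_lit 276752484848) (nat_lit 152) (nat_lit 140130414128) (nat_lit 76) (nat_lit 307709709903) (nat_lit 18) (nat_lit 5) (nat_lit 20) (nat_lit 5) (nat_lit 19)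 (nat_lit 4) (nat_lit 381) (nat_lit 342) (nat_lit 177)) (XT.lf (nat_lit 0) (nat_lit 291784378311) (nat_lit 76) (nat_lit 195658327300) (nat_lit 152) (nat_lit 282892103173) (nat_lit 17) (nat_lit 5) (nat_lit 18) (nat_lit 5) (nat_lit 19) (nat_lit 4) (nat_lit 382) (nat_lit 342) (nat_lit 176)))) (XT.nd (nat_lit 78) (nat_lit 152) (nat_lit 0) (XT.lf (nat_lit 0) (nat_lit 718144508601) (nat_lit 152) (nat_lit 57073660204) (nat_lit 0) (nat_lit 44360397691) (nat_lit 17) (nat_lit 5) (nat_lit 19) (nat_lit 4) (nat_lit 17) (nat_lit 4) (nat_lit 383) (nat_lit 342) (nat_lit 175)) (XT.nd (nat_lit 78) (nat_lit 0) (nat_lit 0) (XT.lf (nat_lit 0) (nat_lit 101340369928) (nat_lit 152) (nat_lit 466036483300) (nat_lit 76) (nat_lit 304819887950) (nat_lit 15) (nat_lit 5) (nat_lit 17) (nat_lit 5) (nat_lit 16) (nat_lit 4) (nat_lit 384) (nat_lit 342) (nat_lit 174)) (XT.lf (nat_lit 0) (nat_lit 317840893889) (nat_lit 152)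 (nat_lit 22210530238) (nat_lit 76) (nat_lit 588836908213) (nat_lit 15) (nat_lit 5) (nat_lit 17) (nat_lit 5) (nat_lit 16) (nat_lit 4) (nat_lit 385) (nat_lit 342) (nat_lit 173))))))))
noncomputable def xc112 : XT := (XT.nd (nat_lit 1716) (nat_lit 2128) (nat_lit 0) (XT.nd (nat_lit 858) (nat_lit 2508) (nat_lit 0) (XT.nd (nat_lit 390) (nat_lit 1064) (nat_lit 0) (XT.nd (nat_lit 156) (nat_lit 760) (nat_lit 0) (XT.nd (nat_lit 78) (nat_lit 0) (nat_lit 0) (XT.lf (nat_lit 0) (nat_lit 27431173334) (nat_lit 0) (nat_lit 27431173334) (nat_lit 684) (nat_lit 986775007) (nat_lit 100) (nat_lit 5) (nat_lit 100) (nat_lit 3) (nat_lit 109) (nat_lit 3) (nat_lit 343) (nat_lit 343) (nat_lit 214)) (XT.lf (nat_lit 76) (nat_lit 26450189644) (nat_lit 0) (nat_lit 88522733699) (nat_lit 760) (nat_lit 1150275673) (nat_lit 101) (nat_lit 5) (nat_lit 100) (nat_lit 5) (nat_lit 110) (nat_lit 5) (nat_lit 344) (nat_lit 343) (nat_lit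 213))) (XT.nd (nat_lit 78) (nat_lit 0) (nat_lit 76) (XT.lf (nat_lit 0) (nat_lit 1677780482) (nat_lit 760) (nat_lit 3361603680) (nat_lit 836) (nat_lit 115766443879) (nat_lit 90) (nat_lit 5) (nat_lit 100) (nat_lit 5) (nat_lit 101) (nat_lit 5) (nat_lit 345) (nat_lit 343) (nat_lit 212)) (XT.nd (nat_lit 78) (nat_lit 0) (nat_lit 76) (XT.lf (nat_lit 0) (nat_lit 7493614351) (nat_lit 760) (nat_lit 34337542436) (nat_lit 836) (nat_lit 83890877143) (nat_lit 91) (nat_lit 5) (nat_lit 101) (nat_lit 5) (nat_lit 102) (nat_lit 5) (nat_lit 346) (nat_lit 343) (nat_lit 211)) (XT.lf (nat_lit 0) (nat_lit 15708497683) (nat_lit 760) (nat_lit 66963242877) (nat_lit 836) (nat_lit 48263107570) (nat_lit 92) (nat_lit 5) (nat_lit 102) (nat_lit 5) (nat_lit 103) (nat_lit 5) (nat_lit 347) (nat_lit 343) (nat_lit 210))))) (XT.nd (nat_lit 234) (nat_lit 1292) (nat_lit 0) (XT.nd (nat_lit 78) (nat_lit 0) (nat_lit 0) (XT.lf (nat_lit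 0) (nat_lit 26581056893) (nat_lit 760) (nat_lit 101359566044) (nat_lit 836) (nat_lit 8524041170) (nat_lit 93) (nat_lit 5) (nat_lit 103) (nat_lit 5) (nat_lit 104) (nat_lit 5) (nat_lit 348) (nat_lit 343) (nat_lit 209)) (XT.nd (nat_lit 78) (nat_lit 0) (nat_lit 76) (XT.lf (nat_lit 76) (nat_lit 4068199077) (nat_lit 0) (nat_lit 36897719909) (nat_lit 836) (nat_lit 101338822309) (nat_lit 94) (nat_lit 5) (nat_lit 93) (nat_lit 5) (nat_lit 104) (nat_lit 5) (nat_lit 349) (nat_lit 343) (nat_lit 208)) (XT.lf (nat_lit 0) (nat_lit 59254650567) (nat_lit 760) (nat_lit 27962556480) (nat_lit 76) (nat_lit 61257164358) (nat_lit 94) (nat_lit 5) (nat_lit 104) (nat_lit 5) (nat_lit 95) (nat_lit 5) (nat_lit 350) (nat_lit 343) (nat_lit 207)))) (XT.nd (nat_lit 78) (nat_lit 684) (nat_lit 0) (XT.lf (nat_lit 0) (nat_lit 81281819781) (nat_lit 760) (nat_lit 61723920248) (nat_lit 76) (nat_lit 12018065659) (nat_lit 85) (nat_lit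 5) (nat_lit 95) (nat_lit 5) (nat_lit 86) (nat_lit 5) (nat_lit 351) (nat_lit 343) (nat_lit 206)) (XT.nd (nat_lit 78) (nat_lit 304) (nat_lit 0) (XT.lf (nat_lit 0) (nat_lit 63750331940) (nat_lit 380) (nat_lit 44281385963) (nat_lit 456) (nat_lit 53917449705) (nat_lit 80) (nat_lit 5) (nat_lit 85) (nat_lit 5) (nat_lit 86) (nat_lit 5) (nat_lit 352) (nat_lit 343) (nat_lit 205)) (XT.lf (nat_lit 0) (nat_lit 32128775847) (nat_lit 304) (nat_lit 107360132312) (nat_lit 380) (nat_lit 29811285925) (nat_lit 76) (nat_lit 5) (nat_lit 80) (nat_lit 5) (nat_lit 81) (nat_lit 5) (nat_lit 353) (nat_lit 343) (nat_lit 204)))))) (XT.nd (nat_lit 390) (nat_lit 1292) (nat_lit 0) (XT.nd (nat_lit 156) (nat_lit 836) (nat_lit 0) (XT.nd (nat_lit 78) (nat_lit 380) (nat_lit 0) (XT.lf (nat_lit 0) (nat_lit 175617442494) (nat_lit 304) (nat_lit 289986825) (nat_lit 380) (nat_lit 1209636145) (nat_lit 76) (nat_lit 5) (nat_lit 80)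 (nat_lit 5) (nat_lit 81) (nat_lit 5) (nat_lit 354) (nat_lit 343) (nat_lit 203)) (XT.lf (nat_lit 0) (nat_lit 32908130755) (nat_lit 380) (nat_lit 37924274350) (nat_lit 76) (nat_lit 114494815681) (nat_lit 71) (nat_lit 5) (nat_lit 76) (nat_lit 5) (nat_lit 72) (nat_lit 5) (nat_lit 355) (nat_lit 343) (nat_lit 202))) (XT.nd (nat_lit 78) (nat_lit 532) (nat_lit 0) (XT.lf (nat_lit 0) (nat_lit 72306042938) (nat_lit 380) (nat_lit 76998234485) (nat_lit 76) (nat_lit 44759264886) (nat_lit 67) (nat_lit 5) (nat_lit 72) (nat_lit 5) (nat_lit 68) (nat_lit 5) (nat_lit 356) (nat_lit 343) (nat_lit 201)) (XT.nd (nat_lit 78) (nat_lit 228) (nat_lit 0) (XT.lf (nat_lit 0) (nat_lit 83819713348) (nat_lit 304) (nat_lit 34210186849) (nat_lit 380) (nat_lit 85310164184) (nat_lit 63) (nat_lit 5) (nat_lit 67) (nat_lit 5) (nat_lit 68) (nat_lit 5) (nat_lit 357) (nat_lit 343) (nat_lit 200)) (XT.lf (nat_lit 0) (nat_lit 47037534749)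 (nat_lit 228) (nat_lit 123878006764) (nat_lit 304) (nat_lit 42267973330) (nat_lit 60) (nat_lit 5) (nat_lit 63) (nat_lit 5) (nat_lit 64) (nat_lit 5) (nat_lit 358) (nat_lit 343) (nat_lit 199))))) (XT.nd (nat_lit 234) (nat_lit 684) (nat_lit 0) (XT.nd (nat_lit 78) (nat_lit 228) (nat_lit 0) (XT.lf (nat_lit 0) (nat_lit 6887099676) (nat_lit 380) (nat_lit 216647874421) (nat_lit 76) (nat_lit 135950365) (nat_lit 55) (nat_lit 5) (nat_lit 60) (nat_lit 5) (nat_lit 56) (nat_lit 5) (nat_lit 359) (nat_lit 343) (nat_lit 198)) (XT.nd (nat_lit 78) (nat_lit 228) (nat_lit 0) (XT.lf (nat_lit 0) (nat_lit 63543612932) (nat_lit 380) (nat_lit 37723382135) (nat_lit 76) (nat_lit 133443191315) (nat_lit 55) (nat_lit 5) (nat_lit 60) (nat_lit 5) (nat_lit 56) (nat_lit 5) (nat_lit 360) (nat_lit 343) (nat_lit 197)) (XT.lf (nat_lit 0) (nat_lit 127762379833) (nat_lit 304) (nat_lit 86372203899) (nat_lit 76) (nat_lit 32346519195)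 (nat_lit 52) (nat_lit 5) (nat_lit 56) (nat_lit 5) (nat_lit 53) (nat_lit 5) (nat_lit 361) (nat_lit 343) (nat_lit 196)))) (XT.nd (nat_lit 78) (nat_lit 456) (nat_lit 0) (XT.lf (nat_lit 0) (nat_lit 118012452077) (nat_lit 228) (nat_lit 83323864187) (nat_lit 304) (nat_lit 57646493404) (nat_lit 49) (nat_lit 5) (nat_lit 52) (nat_lit 5) (nat_lit 53) (nat_lit 5) (nat_lit 362) (nat_lit 343) (nat_lit 195)) (XT.nd (nat_lit 78) (nat_lit 228) (nat_lit 0) (XT.lf (nat_lit 0) (nat_lit 11641968179) (nat_lit 228) (nat_lit 201737867172) (nat_lit 76) (nat_lit 58918505845) (nat_lit 46) (nat_lit 5) (nat_lit 49) (nat_lit 5) (nat_lit 47) (nat_lit 5) (nat_lit 363) (nat_lit 343) (nat_lit 194)) (XT.lf (nat_lit 0) (nat_lit 15572210620) (nat_lit 228) (nat_lit 73052380920) (nat_lit 304) (nat_lit 197798735852) (nat_lit 43) (nat_lit 5) (nat_lit 46) (nat_lit 5) (nat_lit 47) (nat_lit 5) (nat_lit 364) (nat_lit 343) (nat_lit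 193))))))) (XT.nd (nat_lit 858) (nat_lit 760) (nat_lit 0) (XT.nd (nat_lit 390) (nat_lit 836) (nat_lit 0) (XT.nd (nat_lit 156) (nat_lit 380) (nat_lit 0) (XT.nd (nat_lit 78) (nat_lit 152) (nat_lit 0) (XT.lf (nat_lit 0) (nat_lit 176562962735) (nat_lit 304) (nat_lit 45315111831) (nat_lit 76) (nat_lit 79560381231) (nat_lit 43) (nat_lit 5) (nat_lit 47) (nat_lit 5) (nat_lit 44) (nat_lit 5) (nat_lit 365) (nat_lit 343) (nat_lit 192)) (XT.lf (nat_lit 0) (nat_lit 203546398025) (nat_lit 152) (nat_lit 72399510360) (nat_lit 228) (nat_lit 41488411047) (nat_lit 41) (nat_lit 5) (nat_lit 43) (nat_lit 5) (nat_lit 44) (nat_lit 5) (nat_lit 366) (nat_lit 343) (nat_lit 191))) (XT.nd (nat_lit 78) (nat_lit 152) (nat_lit 0) (XT.lf (nat_lit 0) (nat_lit 51503274733) (nat_lit 228) (nat_lit 192900205539) (nat_lit 76) (nat_lit 90044048204) (nat_lit 38) (nat_lit 5) (nat_lit 41) (nat_lit 5) (nat_lit 39) (nat_lit 5) (nat_lit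 367) (nat_lit 343) (nat_lit 190)) (XT.nd (nat_lit 78) (nat_lit 0) (nat_lit 0) (XT.lf (nat_lit 0) (nat_lit 69017473991) (nat_lit 152) (nat_lit 85797218041) (nat_lit 228) (nat_lit 197756398051) (nat_lit 36) (nat_lit 5) (nat_lit 38) (nat_lit 5) (nat_lit 39) (nat_lit 5) (nat_lit 368) (nat_lit 343) (nat_lit 189)) (XT.lf (nat_lit 0) (nat_lit 271140965371) (nat_lit 228) (nat_lit 14589812182) (nat_lit 76) (nat_lit 86176262083) (nat_lit 36) (nat_lit 5) (nat_lit 39) (nat_lit 5) (nat_lit 37) (nat_lit 5) (nat_lit 369) (nat_lit 343) (nat_lit 188))))) (XT.nd (nat_lit 234) (nat_lit 304) (nat_lit 0) (XT.nd (nat_lit 78) (nat_lit 304) (nat_lit 0) (XT.lf (nat_lit 0) (nat_lit 9825292660) (nat_lit 228) (nat_lit 109136218790) (nat_lit 76) (nat_lit 273526778505) (nat_lit 33) (nat_lit 5) (nat_lit 36) (nat_lit 5) (nat_lit 34) (nat_lit 5) (nat_lit 370) (nat_lit 343) (nat_lit 187)) (XT.nd (nat_lit 78) (nat_lit 152)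 (nat_lit 0) (XT.lf (nat_lit 0) (nat_lit 130128099856) (nat_lit 228) (nat_lit 220001740218) (nat_lit 76) (nat_lit 64283881037) (nat_lit 31) (nat_lit 5) (nat_lit 34) (nat_lit 5) (nat_lit 32) (nat_lit 5) (nat_lit 371) (nat_lit 343) (nat_lit 186)) (XT.lf (nat_lit 0) (nat_lit 88952814915) (nat_lit 152) (nat_lit 176429107373) (nat_lit 228) (nat_lit 172444925051) (nat_lit 29) (nat_lit 5) (nat_lit 31) (nat_lit 5) (nat_lit 32) (nat_lit 5) (nat_lit 372) (nat_lit 343) (nat_lit 185)))) (XT.nd (nat_lit 78) (nat_lit 304) (nat_lit 0) (XT.lf (nat_lit 0) (nat_lit 415525360466) (nat_lit 228) (nat_lit 32678941193) (nat_lit 76) (nat_lit 14705256614) (nat_lit 29) (nat_lit 5) (nat_lit 32) (nat_lit 5) (nat_lit 30) (nat_lit 4) (nat_lit 373) (nat_lit 343) (nat_lit 184)) (XT.nd (nat_lit 78) (nat_lit 152) (nat_lit 0) (XT.lf (nat_lit 0) (nat_lit 92912284082) (nat_lit 152) (nat_lit 175153165599) (nat_lit 76) (nat_lit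 221463126458) (nat_lit 27) (nat_lit 5) (nat_lit 29) (nat_lit 5) (nat_lit 28) (nat_lit 5) (nat_lit 374) (nat_lit 343) (nat_lit 183)) (XT.lf (nat_lit 0) (nat_lit 176967926687) (nat_lit 152) (nat_lit 69168038808) (nat_lit 228) (nat_lit 271934130896) (nat_lit 25) (nat_lit 5) (nat_lit 27) (nat_lit 5) (nat_lit 28) (nat_lit 5) (nat_lit 375) (nat_lit 343) (nat_lit 182)))))) (XT.nd (nat_lit 468) (nat_lit 228) (nat_lit 0) (XT.nd (nat_lit 234) (nat_lit 228) (nat_lit 0) (XT.nd (nat_lit 78) (nat_lit 228) (nat_lit 0) (XT.lf (nat_lit 0) (nat_lit 12858406671) (nat_lit 76) (nat_lit 404334690354) (nat_lit 152) (nat_lit 131423063537) (nat_lit 24) (nat_lit 5) (nat_lit 25) (nat_lit 5) (nat_lit 26) (nat_lit 4) (nat_lit 376) (nat_lit 343) (nat_lit 181)) (XT.nd (nat_lit 78) (nat_lit 152) (nat_lit 0) (XT.lf (nat_lit 0) (nat_lit 26883588347) (nat_lit 152) (nat_lit 175573676402) (nat_lit 76) (nat_lit 378772508112)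 (nat_lit 23) (nat_lit 5) (nat_lit 25) (nat_lit 5) (nat_lit 24) (nat_lit 5) (nat_lit 377) (nat_lit 343) (nat_lit 180)) (XT.lf (nat_lit 0) (nat_lit 197053644393) (nat_lit 228) (nat_lit 398314224035) (nat_lit 76) (nat_lit 20786717158) (nat_lit 21) (nat_lit 5) (nat_lit 24) (nat_lit 5) (nat_lit 22) (nat_lit 4) (nat_lit 378) (nat_lit 343) (nat_lit 179)))) (XT.nd (nat_lit 78) (nat_lit 228) (nat_lit 0) (XT.lf (nat_lit 0) (nat_lit 387359501453) (nat_lit 228) (nat_lit 8187413168) (nat_lit 76) (nat_lit 258000358940) (nat_lit 21) (nat_lit 5) (nat_lit 24) (nat_lit 5) (nat_lit 22) (nat_lit 4) (nat_lit 379) (nat_lit 343) (nat_lit 178)) (XT.nd (nat_lit 78) (nat_lit 152) (nat_lit 0) (XT.lf (nat_lit 0) (nat_lit 426809927539) (nat_lit 76) (nat_lit 172743487226) (nat_lit 152) (nat_lit 94044782481) (nat_lit 20) (nat_lit 5) (nat_lit 21) (nat_lit 5) (nat_lit 22) (nat_lit 4) (nat_lit 380) (nat_lit 343) (nat_lit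 177)) (XT.lf (nat_lit 0) (nat_lit 92760115419) (nat_lit 152) (nat_lit 573912945162) (nat_lit 76) (nat_lit 69916873584) (nat_lit 18) (nat_lit 5) (nat_lit 20) (nat_lit 5) (nat_lit 19) (nat_lit 4) (nat_lit 381) (nat_lit 343) (nat_lit 176))))) (XT.nd (nat_lit 234) (nat_lit 152) (nat_lit 0) (XT.nd (nat_lit 78) (nat_lit 76) (nat_lit 0) (XT.lf (nat_lit 0) (nat_lit 298894714272) (nat_lit 152) (nat_lit 151337165778) (nat_lit 76) (nat_lit 332328035137) (nat_lit 18) (nat_lit 5) (nat_lit 20) (nat_lit 5) (nat_lit 19) (nat_lit 4) (nat_lit 382) (nat_lit 343) (nat_lit 175)) (XT.nd (nat_lit 78) (nat_lit 0) (nat_lit 0) (XT.lf (nat_lit 0) (nat_lit 315130650064) (nat_lit 76) (nat_lit 211309407194) (nat_lit 152) (nat_lit 305521438660) (nat_lit 17) (nat_lit 5) (nat_lit 18) (nat_lit 5) (nat_lit 19) (nat_lit 4) (nat_lit 383) (nat_lit 343) (nat_lit 174)) (XT.lf (nat_lit 0) (nat_lit 775597884072) (nat_lit 152) (nat_lit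 61636224975) (nat_lit 0) (nat_lit 47910651282) (nat_lit 17) (nat_lit 5) (nat_lit 19) (nat_lit 4) (nat_lit 17) (nat_lit 4) (nat_lit 384) (nat_lit 343) (nat_lit 173)))) (XT.nd (nat_lit 43680) (nat_lit 0) (nat_lit 6460) (XT.lf (nat_lit 0) (nat_lit 109449358610) (nat_lit 152) (nat_lit 503316159729) (nat_lit 76) (nat_lit 329206873520) (nat_lit 15) (nat_lit 5) (nat_lit 17) (nat_lit 5) (nat_lit 16) (nat_lit 4) (nat_lit 385) (nat_lit 343) (nat_lit 172)) (XT.nd (nat_lit 78) (nat_lit 0) (nat_lit 0) (XT.lf (nat_lit 0) (nat_lit 29629460016) (nat_lit 0) (nat_lit 29629460016) (nat_lit 684) (nat_lit 1057740428) (nat_lit 100) (nat_lit 5) (nat_lit 100) (nat_lit 3) (nat_lit 109) (nat_lit 3) (nat_lit 344) (nat_lit 344) (nat_lit 212)) (XT.lf (nat_lit 76) (nat_lit 28574321988) (nat_lit 0) (nat_lit 95610499759) (nat_lit 760) (nat_lit 1227508358) (nat_lit 101) (nat_lit 5) (nat_lit 100) (nat_lit 5) (nat_lit 110)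 (nat_lit 5) (nat_lit 345) (nat_lit 344) (nat_lit 211))))))))
noncomputable def xc113 : XT := (XT.nd (nat_lit 1716) (nat_lit 1824) (nat_lit 0) (XT.nd (nat_lit 858) (nat_lit 2280) (nat_lit 0) (XT.nd (nat_lit 390) (nat_lit 1444) (nat_lit 0) (XT.nd (nat_lit 156) (nat_lit 0) (nat_lit 152) (XT.nd (nat_lit 78) (nat_lit 0) (nat_lit 76) (XT.lf (nat_lit 0) (nat_lit 1825258492) (nat_lit 760) (nat_lit 3622558732) (nat_lit 836) (nat_lit 125021795228) (nat_lit 90) (nat_lit 5) (nat_lit 100) (nat_lit 5) (nat_lit 101) (nat_lit 5) (nat_lit 346) (nat_lit 344) (nat_lit 210)) (XT.lf (nat_lit 0) (nat_lit 8105421840) (nat_lit 760) (nat_lit 37076207405) (nat_lit 836) (nat_lit 90597533840) (nat_lit 91) (nat_lit 5) (nat_lit 101) (nat_lit 5) (nat_lit 102) (nat_lit 5) (nat_lit 347) (nat_lit 344) (nat_lit 209))) (XT.nd (nat_lit 78) (nat_lit 0) (nat_lit 76) (XT.lf (nat_lit 0) (nat_lit 16976652404) (nat_lit 760) (nat_lit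 72311677910) (nat_lit 836) (nat_lit 52120715585) (nat_lit 92) (nat_lit 5) (nat_lit 102) (nat_lit 5) (nat_lit 103) (nat_lit 5) (nat_lit 348) (nat_lit 344) (nat_lit 208)) (XT.nd (nat_lit 78) (nat_lit 0) (nat_lit 0) (XT.lf (nat_lit 0) (nat_lit 28718256061) (nat_lit 760) (nat_lit 109459489830) (nat_lit 836) (nat_lit 9203540489) (nat_lit 93) (nat_lit 5) (nat_lit 103) (nat_lit 5) (nat_lit 104) (nat_lit 5) (nat_lit 349) (nat_lit 344) (nat_lit 207)) (XT.lf (nat_lit 76) (nat_lit 4402112261) (nat_lit 0) (nat_lit 39851133226) (nat_lit 836) (nat_lit 109435358457) (nat_lit 94) (nat_lit 5) (nat_lit 93) (nat_lit 5) (nat_lit 104) (nat_lit 5) (nat_lit 350) (nat_lit 344) (nat_lit 206))))) (XT.nd (nat_lit 234) (nat_lit 684) (nat_lit 0) (XT.nd (nat_lit 78) (nat_lit 1064) (nat_lit 0) (XT.lf (nat_lit 0) (nat_lit 64004307861) (nat_lit 760) (nat_lit 30191228753) (nat_lit 76) (nat_lit 66156307274) (nat_lit 94)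 (nat_lit 5) (nat_lit 104) (nat_lit 5) (nat_lit 95) (nat_lit 5) (nat_lit 351) (nat_lit 344) (nat_lit 205)) (XT.nd (nat_lit 78) (nat_lit 380) (nat_lit 0) (XT.lf (nat_lit 0) (nat_lit 87793075515) (nat_lit 760) (nat_lit 66653403893) (nat_lit 76) (nat_lit 12978783220) (nat_lit 85) (nat_lit 5) (nat_lit 95) (nat_lit 5) (nat_lit 86) (nat_lit 5) (nat_lit 352) (nat_lit 344) (nat_lit 204)) (XT.lf (nat_lit 0) (nat_lit 68858422114) (nat_lit 380) (nat_lit 47824024073) (nat_lit 456) (nat_lit 58222234170) (nat_lit 80) (nat_lit 5) (nat_lit 85) (nat_lit 5) (nat_lit 86) (nat_lit 5) (nat_lit 353) (nat_lit 344) (nat_lit 203)))) (XT.nd (nat_lit 78) (nat_lit 380) (nat_lit 0) (XT.lf (nat_lit 0) (nat_lit 34707195377) (nat_lit 304) (nat_lit 115948534453) (nat_lit 380) (nat_lit 32188084036) (nat_lit 76) (nat_lit 5) (nat_lit 80) (nat_lit 5) (nat_lit 81) (nat_lit 5) (nat_lit 354) (nat_lit 344) (nat_lit 202)) (XT.nd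 (nat_lit 78) (nat_lit 380) (nat_lit 0) (XT.lf (nat_lit 0) (nat_lit 189674354062) (nat_lit 304) (nat_lit 312807582) (nat_lit 380) (nat_lit 1298902626) (nat_lit 76) (nat_lit 5) (nat_lit 80) (nat_lit 5) (nat_lit 81) (nat_lit 5) (nat_lit 355) (nat_lit 344) (nat_lit 201)) (XT.lf (nat_lit 0) (nat_lit 35547632466) (nat_lit 380) (nat_lit 40950446976) (nat_lit 76) (nat_lit 123654968039) (nat_lit 71) (nat_lit 5) (nat_lit 76) (nat_lit 5) (nat_lit 72) (nat_lit 5) (nat_lit 356) (nat_lit 344) (nat_lit 200)))))) (XT.nd (nat_lit 390) (nat_lit 1064) (nat_lit 0) (XT.nd (nat_lit 156) (nat_lit 608) (nat_lit 0) (XT.nd (nat_lit 78) (nat_lit 304) (nat_lit 0) (XT.lf (nat_lit 0) (nat_lit 78097001326) (nat_lit 380) (nat_lit 83150345970) (nat_lit 76) (nat_lit 48340946867) (nat_lit 67) (nat_lit 5) (nat_lit 72) (nat_lit 5) (nat_lit 68) (nat_lit 5) (nat_lit 357) (nat_lit 344) (nat_lit 199)) (XT.lf (nat_lit 0) (nat_lit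 90532701002) (nat_lit 304) (nat_lit 36945702238) (nat_lit 380) (nat_lit 92128553534) (nat_lit 63) (nat_lit 5) (nat_lit 67) (nat_lit 5) (nat_lit 68) (nat_lit 5) (nat_lit 358) (nat_lit 344) (nat_lit 198))) (XT.nd (nat_lit 78) (nat_lit 380) (nat_lit 0) (XT.lf (nat_lit 0) (nat_lit 50807905817) (nat_lit 228) (nat_lit 133786671202) (nat_lit 304) (nat_lit 45643322730) (nat_lit 60) (nat_lit 5) (nat_lit 63) (nat_lit 5) (nat_lit 64) (nat_lit 5) (nat_lit 359) (nat_lit 344) (nat_lit 197)) (XT.nd (nat_lit 78) (nat_lit 0) (nat_lit 0) (XT.lf (nat_lit 0) (nat_lit 7443663811) (nat_lit 380) (nat_lit 233972205517) (nat_lit 76) (nat_lit 148443399) (nat_lit 55) (nat_lit 5) (nat_lit 60) (nat_lit 5) (nat_lit 56) (nat_lit 5) (nat_lit 360) (nat_lit 344) (nat_lit 196)) (XT.lf (nat_lit 0) (nat_lit 68632283597) (nat_lit 380) (nat_lit 40734309318) (nat_lit 76) (nat_lit 144120143848) (nat_lit 55) (nat_lit 5) (nat_lit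 60) (nat_lit 5) (nat_lit 56) (nat_lit 5) (nat_lit 361) (nat_lit 344) (nat_lit 195))))) (XT.nd (nat_lit 234) (nat_lit 380) (nat_lit 0) (XT.nd (nat_lit 78) (nat_lit 456) (nat_lit 0) (XT.lf (nat_lit 0) (nat_lit 137988298888) (nat_lit 304) (nat_lit 93275115625) (nat_lit 76) (nat_lit 34935925171) (nat_lit 52) (nat_lit 5) (nat_lit 56) (nat_lit 5) (nat_lit 53) (nat_lit 5) (nat_lit 362) (nat_lit 344) (nat_lit 194)) (XT.nd (nat_lit 78) (nat_lit 228) (nat_lit 0) (XT.lf (nat_lit 0) (nat_lit 127460014503) (nat_lit 228) (nat_lit 89987873161) (nat_lit 304) (nat_lit 62253308801) (nat_lit 49) (nat_lit 5) (nat_lit 52) (nat_lit 5) (nat_lit 53) (nat_lit 5) (nat_lit 363) (nat_lit 344) (nat_lit 193)) (XT.lf (nat_lit 0) (nat_lit 12577851861) (nat_lit 228) (nat_lit 217870262615) (nat_lit 76) (nat_lit 63633863585) (nat_lit 46) (nat_lit 5) (nat_lit 49) (nat_lit 5) (nat_lit 47) (nat_lit 5) (nat_lit 364) (nat_lit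 344) (nat_lit 192)))) (XT.nd (nat_lit 78) (nat_lit 152) (nat_lit 0) (XT.lf (nat_lit 0) (nat_lit 16824333098) (nat_lit 228) (nat_lit 78894515790) (nat_lit 304) (nat_lit 213618126380) (nat_lit 43) (nat_lit 5) (nat_lit 46) (nat_lit 5) (nat_lit 47) (nat_lit 5) (nat_lit 365) (nat_lit 344) (nat_lit 191)) (XT.nd (nat_lit 78) (nat_lit 152) (nat_lit 0) (XT.lf (nat_lit 0) (nat_lit 190692001715) (nat_lit 304) (nat_lit 48934272769) (nat_lit 76) (nat_lit 85927054147) (nat_lit 43) (nat_lit 5) (nat_lit 47) (nat_lit 5) (nat_lit 44) (nat_lit 5) (nat_lit 366) (nat_lit 344) (nat_lit 190)) (XT.lf (nat_lit 0) (nat_lit 219835895037) (nat_lit 152) (nat_lit 78189481862) (nat_lit 228) (nat_lit 44803495026) (nat_lit 41) (nat_lit 5) (nat_lit 43) (nat_lit 5) (nat_lit 44) (nat_lit 5) (nat_lit 367) (nat_lit 344) (nat_lit 189))))))) (XT.nd (nat_lit 858) (nat_lit 456) (nat_lit 0) (XT.nd (nat_lit 390) (nat_lit 608) (nat_lit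 0) (XT.nd (nat_lit 156) (nat_lit 380) (nat_lit 0) (XT.nd (nat_lit 78) (nat_lit 152) (nat_lit 0) (XT.lf (nat_lit 0) (nat_lit 55627231431) (nat_lit 228) (nat_lit 208326408218) (nat_lit 76) (nat_lit 97249503484) (nat_lit 38) (nat_lit 5) (nat_lit 41) (nat_lit 5) (nat_lit 39) (nat_lit 5) (nat_lit 368) (nat_lit 344) (nat_lit 188)) (XT.lf (nat_lit 0) (nat_lit 74544433015) (nat_lit 152) (nat_lit 92658942242) (nat_lit 228) (nat_lit 213573223971) (nat_lit 36) (nat_lit 5) (nat_lit 38) (nat_lit 5) (nat_lit 39) (nat_lit 5) (nat_lit 369) (nat_lit 344) (nat_lit 187))) (XT.nd (nat_lit 78) (nat_lit 380) (nat_lit 0) (XT.lf (nat_lit 0) (nat_lit 292835520303) (nat_lit 228) (nat_lit 15751712795) (nat_lit 76) (nat_lit 93072203352) (nat_lit 36) (nat_lit 5) (nat_lit 39) (nat_lit 5) (nat_lit 37) (nat_lit 5) (nat_lit 370) (nat_lit 344) (nat_lit 186)) (XT.nd (nat_lit 78) (nat_lit 152) (nat_lit 0) (XT.lf (nat_lit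 0) (nat_lit 10614483162) (nat_lit 228) (nat_lit 117861954686) (nat_lit 76) (nat_lit 295410754769) (nat_lit 33) (nat_lit 5) (nat_lit 36) (nat_lit 5) (nat_lit 34) (nat_lit 5) (nat_lit 371) (nat_lit 344) (nat_lit 185)) (XT.lf (nat_lit 0) (nat_lit 140541387517) (nat_lit 228) (nat_lit 237596819745) (nat_lit 76) (nat_lit 69428457537) (nat_lit 31) (nat_lit 5) (nat_lit 34) (nat_lit 5) (nat_lit 32) (nat_lit 5) (nat_lit 372) (nat_lit 344) (nat_lit 184))))) (XT.nd (nat_lit 234) (nat_lit 304) (nat_lit 0) (XT.nd (nat_lit 78) (nat_lit 152) (nat_lit 0) (XT.lf (nat_lit 0) (nat_lit 96073879911) (nat_lit 152) (nat_lit 190541486235) (nat_lit 228) (nat_lit 186237482609) (nat_lit 29) (nat_lit 5) (nat_lit 31) (nat_lit 5) (nat_lit 32) (nat_lit 5) (nat_lit 373) (nat_lit 344) (nat_lit 183)) (XT.nd (nat_lit 78) (nat_lit 152) (nat_lit 0) (XT.lf (nat_lit 0) (nat_lit 448770093484) (nat_lit 228) (nat_lit 35288667845)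 (nat_lit 76) (nat_lit 15883424666) (nat_lit 29) (nat_lit 5) (nat_lit 32) (nat_lit 5) (nat_lit 30) (nat_lit 4) (nat_lit 374) (nat_lit 344) (nat_lit 182)) (XT.lf (nat_lit 0) (nat_lit 100347882930) (nat_lit 152) (nat_lit 189160941594) (nat_lit 76) (nat_lit 239181905376) (nat_lit 27) (nat_lit 5) (nat_lit 29) (nat_lit 5) (nat_lit 28) (nat_lit 5) (nat_lit 375) (nat_lit 344) (nat_lit 181)))) (XT.nd (nat_lit 78) (nat_lit 152) (nat_lit 0) (XT.lf (nat_lit 0) (nat_lit 191129643499) (nat_lit 152) (nat_lit 74699688435) (nat_lit 228) (nat_lit 293686246297) (nat_lit 25) (nat_lit 5) (nat_lit 27) (nat_lit 5) (nat_lit 28) (nat_lit 5) (nat_lit 376) (nat_lit 344) (nat_lit 180)) (XT.nd (nat_lit 78) (nat_lit 76) (nat_lit 0) (XT.lf (nat_lit 0) (nat_lit 13891269380) (nat_lit 76) (nat_lit 436679671567) (nat_lit 152) (nat_lit 141934391343) (nat_lit 24) (nat_lit 5) (nat_lit 25) (nat_lit 5) (nat_lit 26) (nat_lit 4)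 (nat_lit 377) (nat_lit 344) (nat_lit 179)) (XT.lf (nat_lit 0) (nat_lit 29036531626) (nat_lit 152) (nat_lit 189615614967) (nat_lit 76) (nat_lit 409075894131) (nat_lit 23) (nat_lit 5) (nat_lit 25) (nat_lit 5) (nat_lit 24) (nat_lit 5) (nat_lit 378) (nat_lit 344) (nat_lit 178)))))) (XT.nd (nat_lit 468) (nat_lit 0) (nat_lit 0) (XT.nd (nat_lit 234) (nat_lit 228) (nat_lit 0) (XT.nd (nat_lit 78) (nat_lit 76) (nat_lit 0) (XT.lf (nat_lit 0) (nat_lit 212820109637) (nat_lit 228) (nat_lit 430175495374) (nat_lit 76) (nat_lit 22451237670) (nat_lit 21) (nat_lit 5) (nat_lit 24) (nat_lit 5) (nat_lit 22) (nat_lit 4) (nat_lit 379) (nat_lit 344) (nat_lit 177)) (XT.nd (nat_lit 78) (nat_lit 76) (nat_lit 0) (XT.lf (nat_lit 0) (nat_lit 418350274248) (nat_lit 228) (nat_lit 8838826051) (nat_lit 76) (nat_lit 278641853525) (nat_lit 21) (nat_lit 5) (nat_lit 24) (nat_lit 5) (nat_lit 22) (nat_lit 4) (nat_lit 380) (nat_lit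 344) (nat_lit 176)) (XT.lf (nat_lit 0) (nat_lit 460958146323) (nat_lit 76) (nat_lit 186561458681) (nat_lit 152) (nat_lit 101566351253) (nat_lit 20) (nat_lit 5) (nat_lit 21) (nat_lit 5) (nat_lit 22) (nat_lit 4) (nat_lit 381) (nat_lit 344) (nat_lit 175)))) (XT.nd (nat_lit 78) (nat_lit 76) (nat_lit 0) (XT.lf (nat_lit 0) (nat_lit 100182804871) (nat_lit 152) (nat_lit 619822571996) (nat_lit 76) (nat_lit 75511657213) (nat_lit 18) (nat_lit 5) (nat_lit 20) (nat_lit 5) (nat_lit 19) (nat_lit 4) (nat_lit 382) (nat_lit 344) (nat_lit 174)) (XT.nd (nat_lit 78) (nat_lit 76) (nat_lit 0) (XT.lf (nat_lit 0) (nat_lit 322808032356) (nat_lit 152) (nat_lit 163440982763) (nat_lit 76) (nat_lit 358915605487) (nat_lit 18) (nat_lit 5) (nat_lit 20) (nat_lit 5) (nat_lit 19) (nat_lit 4) (nat_lit 383) (nat_lit 344) (nat_lit 173)) (XT.lf (nat_lit 0) (nat_lit 340344121178) (nat_lit 76) (nat_lit 228212799782) (nat_lit 152)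 (nat_lit 329961410984) (nat_lit 17) (nat_lit 5) (nat_lit 18) (nat_lit 5) (nat_lit 19) (nat_lit 4) (nat_lit 384) (nat_lit 344) (nat_lit 172))))) (XT.nd (nat_lit 43914) (nat_lit 0) (nat_lit 5548) (XT.nd (nat_lit 43758) (nat_lit 0) (nat_lit 6308) (XT.lf (nat_lit 0) (nat_lit 837647270681) (nat_lit 152) (nat_lit 66564269710) (nat_lit 0) (nat_lit 51744722329) (nat_lit 17) (nat_lit 5) (nat_lit 19) (nat_lit 4) (nat_lit 17) (nat_lit 4) (nat_lit 385) (nat_lit 344) (nat_lit 171)) (XT.nd (nat_lit 78) (nat_lit 0) (nat_lit 0) (XT.lf (nat_lit 0) (nat_lit 32003068545) (nat_lit 0) (nat_lit 32003068545) (nat_lit 684) (nat_lit 1135521030) (nat_lit 100) (nat_lit 5) (nat_lit 100) (nat_lit 3) (nat_lit 109) (nat_lit 3) (nat_lit 345) (nat_lit 345) (nat_lit 210)) (XT.lf (nat_lit 76) (nat_lit 30867226914) (nat_lit 0) (nat_lit 103264438645) (nat_lit 760) (nat_lit 1313029526) (nat_lit 101) (nat_lit 5) (nat_lit 100)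 (nat_lit 5) (nat_lit 110) (nat_lit 5) (nat_lit 346) (nat_lit 345) (nat_lit 209)))) (XT.nd (nat_lit 78) (nat_lit 0) (nat_lit 76) (XT.lf (nat_lit 0) (nat_lit 1982643688) (nat_lit 760) (nat_lit 3905527660) (nat_lit 836) (nat_lit 135018425540) (nat_lit 90) (nat_lit 5) (nat_lit 100) (nat_lit 5) (nat_lit 101) (nat_lit 5) (nat_lit 347) (nat_lit 345) (nat_lit 208)) (XT.nd (nat_lit 78) (nat_lit 0) (nat_lit 76) (XT.lf (nat_lit 0) (nat_lit 8764416580) (nat_lit 760) (nat_lit 40035155141) (nat_lit 836) (nat_lit 97841381237) (nat_lit 91) (nat_lit 5) (nat_lit 101) (nat_lit 5) (nat_lit 102) (nat_lit 5) (nat_lit 348) (nat_lit 345) (nat_lit 207)) (XT.lf (nat_lit 0) (nat_lit 18344622479) (nat_lit 760) (nat_lit 78089218113) (nat_lit 836) (nat_lit 56287423080) (nat_lit 92) (nat_lit 5) (nat_lit 102) (nat_lit 5) (nat_lit 103) (nat_lit 5) (nat_lit 349) (nat_lit 345) (nat_lit 206))))))))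
noncomputable def xc114 : XT := (XT.nd (nat_lit 1716) (nat_lit 1444) (nat_lit 0) (XT.nd (nat_lit 858) (nat_lit 1824) (nat_lit 0) (XT.nd (nat_lit 390) (nat_lit 1520) (nat_lit 0) (XT.nd (nat_lit 156) (nat_lit 988) (nat_lit 0) (XT.nd (nat_lit 78) (nat_lit 0) (nat_lit 0) (XT.lf (nat_lit 0) (nat_lit 31024902603) (nat_lit 760) (nat_lit 118208668856) (nat_lit 836) (nat_lit 9937745561) (nat_lit 93) (nat_lit 5) (nat_lit 103) (nat_lit 5) (nat_lit 104) (nat_lit 5) (nat_lit 350) (nat_lit 345) (nat_lit 205)) (XT.lf (nat_lit 76) (nat_lit 4761531977) (nat_lit 0) (nat_lit 43040591961) (nat_lit 836) (nat_lit 118181125374) (nat_lit 94) (nat_lit 5) (nat_lit 93) (nat_lit 5) (nat_lit 104) (nat_lit 5) (nat_lit 351) (nat_lit 345) (nat_lit 204))) (XT.nd (nat_lit 78) (nat_lit 1064) (nat_lit 0) (XT.lf (nat_lit 0) (nat_lit 69132613094) (nat_lit 760) (nat_lit 32599383495) (nat_lit 76) (nat_lit 71447585661) (nat_lit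 94) (nat_lit 5) (nat_lit 104) (nat_lit 5) (nat_lit 95) (nat_lit 5) (nat_lit 352) (nat_lit 345) (nat_lit 203)) (XT.nd (nat_lit 78) (nat_lit 380) (nat_lit 0) (XT.lf (nat_lit 0) (nat_lit 94823989108) (nat_lit 760) (nat_lit 71978448860) (nat_lit 76) (nat_lit 14016461999) (nat_lit 85) (nat_lit 5) (nat_lit 95) (nat_lit 5) (nat_lit 86) (nat_lit 5) (nat_lit 353) (nat_lit 345) (nat_lit 202)) (XT.lf (nat_lit 0) (nat_lit 74374009136) (nat_lit 380) (nat_lit 51650055081) (nat_lit 456) (nat_lit 62872629921) (nat_lit 80) (nat_lit 5) (nat_lit 85) (nat_lit 5) (nat_lit 86) (nat_lit 5) (nat_lit 354) (nat_lit 345) (nat_lit 201))))) (XT.nd (nat_lit 234) (nat_lit 836) (nat_lit 0) (XT.nd (nat_lit 78) (nat_lit 380) (nat_lit 0) (XT.lf (nat_lit 0) (nat_lit 37490730423) (nat_lit 304) (nat_lit 125224067035) (nat_lit 380) (nat_lit 34756182230) (nat_lit 76) (nat_lit 5) (nat_lit 80) (nat_lit 5) (nat_lit 81) (nat_lit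 5) (nat_lit 355) (nat_lit 345) (nat_lit 200)) (XT.nd (nat_lit 78) (nat_lit 380) (nat_lit 0) (XT.lf (nat_lit 0) (nat_lit 204854746291) (nat_lit 304) (nat_lit 337507953) (nat_lit 380) (nat_lit 1396381014) (nat_lit 76) (nat_lit 5) (nat_lit 80) (nat_lit 5) (nat_lit 81) (nat_lit 5) (nat_lit 356) (nat_lit 345) (nat_lit 199)) (XT.lf (nat_lit 0) (nat_lit 38397316905) (nat_lit 380) (nat_lit 44219821794) (nat_lit 76) (nat_lit 133547851682) (nat_lit 71) (nat_lit 5) (nat_lit 76) (nat_lit 5) (nat_lit 72) (nat_lit 5) (nat_lit 357) (nat_lit 345) (nat_lit 198)))) (XT.nd (nat_lit 78) (nat_lit 532) (nat_lit 0) (XT.lf (nat_lit 0) (nat_lit 84350312661) (nat_lit 380) (nat_lit 89795731610) (nat_lit 76) (nat_lit 52209029193) (nat_lit 67) (nat_lit 5) (nat_lit 72) (nat_lit 5) (nat_lit 68) (nat_lit 5) (nat_lit 358) (nat_lit 345) (nat_lit 197)) (XT.nd (nat_lit 78) (nat_lit 228) (nat_lit 0) (XT.lf (nat_lit 0) (nat_lit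 97781670466) (nat_lit 304) (nat_lit 39900244254) (nat_lit 380) (nat_lit 99493330457) (nat_lit 63) (nat_lit 5) (nat_lit 67) (nat_lit 5) (nat_lit 68) (nat_lit 5) (nat_lit 359) (nat_lit 345) (nat_lit 196)) (XT.lf (nat_lit 0) (nat_lit 54878855403) (nat_lit 228) (nat_lit 144488253643) (nat_lit 304) (nat_lit 49289568670) (nat_lit 60) (nat_lit 5) (nat_lit 63) (nat_lit 5) (nat_lit 64) (nat_lit 5) (nat_lit 360) (nat_lit 345) (nat_lit 195)))))) (XT.nd (nat_lit 390) (nat_lit 760) (nat_lit 0) (XT.nd (nat_lit 156) (nat_lit 684) (nat_lit 0) (XT.nd (nat_lit 78) (nat_lit 0) (nat_lit 0) (XT.lf (nat_lit 0) (nat_lit 8043954722) (nat_lit 380) (nat_lit 252683552897) (nat_lit 76) (nat_lit 161705192) (nat_lit 55) (nat_lit 5) (nat_lit 60) (nat_lit 5) (nat_lit 56) (nat_lit 5) (nat_lit 361) (nat_lit 345) (nat_lit 194)) (XT.lf (nat_lit 0) (nat_lit 74127308698) (nat_lit 380) (nat_lit 43987101229) (nat_lit 76) (nat_lit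 155651038986) (nat_lit 55) (nat_lit 5) (nat_lit 60) (nat_lit 5) (nat_lit 56) (nat_lit 5) (nat_lit 362) (nat_lit 345) (nat_lit 193))) (XT.nd (nat_lit 78) (nat_lit 456) (nat_lit 0) (XT.lf (nat_lit 0) (nat_lit 149031588339) (nat_lit 304) (nat_lit 100731239598) (nat_lit 76) (nat_lit 37732243321) (nat_lit 52) (nat_lit 5) (nat_lit 56) (nat_lit 5) (nat_lit 53) (nat_lit 5) (nat_lit 363) (nat_lit 345) (nat_lit 192)) (XT.nd (nat_lit 78) (nat_lit 228) (nat_lit 0) (XT.lf (nat_lit 0) (nat_lit 137662445173) (nat_lit 228) (nat_lit 97185273933) (nat_lit 304) (nat_lit 67229369050) (nat_lit 49) (nat_lit 5) (nat_lit 52) (nat_lit 5) (nat_lit 53) (nat_lit 5) (nat_lit 364) (nat_lit 345) (nat_lit 191)) (XT.lf (nat_lit 0) (nat_lit 13587960521) (nat_lit 228) (nat_lit 235294196098) (nat_lit 76) (nat_lit 68726182131) (nat_lit 46) (nat_lit 5) (nat_lit 49) (nat_lit 5) (nat_lit 47) (nat_lit 5) (nat_lit 365) (nat_lit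 345) (nat_lit 190))))) (XT.nd (nat_lit 234) (nat_lit 380) (nat_lit 0) (XT.nd (nat_lit 78) (nat_lit 152) (nat_lit 0) (XT.lf (nat_lit 0) (nat_lit 18175720099) (nat_lit 228) (nat_lit 85204314705) (nat_lit 304) (nat_lit 230703711316) (nat_lit 43) (nat_lit 5) (nat_lit 46) (nat_lit 5) (nat_lit 47) (nat_lit 5) (nat_lit 366) (nat_lit 345) (nat_lit 189)) (XT.nd (nat_lit 78) (nat_lit 152) (nat_lit 0) (XT.lf (nat_lit 0) (nat_lit 205950792890) (nat_lit 304) (nat_lit 52843829397) (nat_lit 76) (nat_lit 92802798056) (nat_lit 43) (nat_lit 5) (nat_lit 47) (nat_lit 5) (nat_lit 44) (nat_lit 5) (nat_lit 367) (nat_lit 345) (nat_lit 188)) (XT.lf (nat_lit 0) (nat_lit 237427726490) (nat_lit 152) (nat_lit 84442934883) (nat_lit 228) (nat_lit 48384354785) (nat_lit 41) (nat_lit 5) (nat_lit 43) (nat_lit 5) (nat_lit 44) (nat_lit 5) (nat_lit 368) (nat_lit 345) (nat_lit 187)))) (XT.nd (nat_lit 78) (nat_lit 152) (nat_lit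 0) (XT.lf (nat_lit 0) (nat_lit 60080577573) (nat_lit 228) (nat_lit 224987536511) (nat_lit 76) (nat_lit 105031119648) (nat_lit 38) (nat_lit 5) (nat_lit 41) (nat_lit 5) (nat_lit 39) (nat_lit 5) (nat_lit 369) (nat_lit 345) (nat_lit 186)) (XT.nd (nat_lit 78) (nat_lit 0) (nat_lit 0) (XT.lf (nat_lit 0) (nat_lit 80512755407) (nat_lit 152) (nat_lit 100069897296) (nat_lit 228) (nat_lit 230655921803) (nat_lit 36) (nat_lit 5) (nat_lit 38) (nat_lit 5) (nat_lit 39) (nat_lit 5) (nat_lit 370) (nat_lit 345) (nat_lit 185)) (XT.lf (nat_lit 0) (nat_lit 316265172028) (nat_lit 228) (nat_lit 17007319330) (nat_lit 76) (nat_lit 100519557382) (nat_lit 36) (nat_lit 5) (nat_lit 39) (nat_lit 5) (nat_lit 37) (nat_lit 5) (nat_lit 371) (nat_lit 345) (nat_lit 184))))))) (XT.nd (nat_lit 858) (nat_lit 228) (nat_lit 0) (XT.nd (nat_lit 390) (nat_lit 532) (nat_lit 0) (XT.nd (nat_lit 156) (nat_lit 304) (nat_lit 0) (XT.nd (nat_lit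 78) (nat_lit 152) (nat_lit 0) (XT.lf (nat_lit 0) (nat_lit 11466357084) (nat_lit 228) (nat_lit 127286485814) (nat_lit 76) (nat_lit 319045187496) (nat_lit 33) (nat_lit 5) (nat_lit 36) (nat_lit 5) (nat_lit 34) (nat_lit 5) (nat_lit 372) (nat_lit 345) (nat_lit 183)) (XT.lf (nat_lit 0) (nat_lit 151787304548) (nat_lit 228) (nat_lit 256600227455) (nat_lit 76) (nat_lit 74984333948) (nat_lit 31) (nat_lit 5) (nat_lit 34) (nat_lit 5) (nat_lit 32) (nat_lit 5) (nat_lit 373) (nat_lit 345) (nat_lit 182))) (XT.nd (nat_lit 78) (nat_lit 152) (nat_lit 0) (XT.lf (nat_lit 0) (nat_lit 103763939655) (nat_lit 152) (nat_lit 205783133556) (nat_lit 228) (nat_lit 201133877954) (nat_lit 29) (nat_lit 5) (nat_lit 31) (nat_lit 5) (nat_lit 32) (nat_lit 5) (nat_lit 374) (nat_lit 345) (nat_lit 181)) (XT.nd (nat_lit 78) (nat_lit 152) (nat_lit 0) (XT.lf (nat_lit 0) (nat_lit 484674019362) (nat_lit 228) (nat_lit 38107827251)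 (nat_lit 76) (nat_lit 17155596859) (nat_lit 29) (nat_lit 5) (nat_lit 32) (nat_lit 5) (nat_lit 30) (nat_lit 4) (nat_lit 375) (nat_lit 345) (nat_lit 180)) (XT.lf (nat_lit 0) (nat_lit 108377956466) (nat_lit 152) (nat_lit 204289978399) (nat_lit 76) (nat_lit 258317939973) (nat_lit 27) (nat_lit 5) (nat_lit 29) (nat_lit 5) (nat_lit 28) (nat_lit 5) (nat_lit 376) (nat_lit 345) (nat_lit 179))))) (XT.nd (nat_lit 234) (nat_lit 228) (nat_lit 0) (XT.nd (nat_lit 78) (nat_lit 152) (nat_lit 0) (XT.lf (nat_lit 0) (nat_lit 206423686684) (nat_lit 152) (nat_lit 80674125891) (nat_lit 228) (nat_lit 317178903998) (nat_lit 25) (nat_lit 5) (nat_lit 27) (nat_lit 5) (nat_lit 28) (nat_lit 5) (nat_lit 377) (nat_lit 345) (nat_lit 178)) (XT.nd (nat_lit 78) (nat_lit 76) (nat_lit 0) (XT.lf (nat_lit 0) (nat_lit 15006163330) (nat_lit 76) (nat_lit 471612507215) (nat_lit 152) (nat_lit 153286984492) (nat_lit 24) (nat_lit 5)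 (nat_lit 25) (nat_lit 5) (nat_lit 26) (nat_lit 4) (nat_lit 378) (nat_lit 345) (nat_lit 177)) (XT.lf (nat_lit 0) (nat_lit 31361388494) (nat_lit 152) (nat_lit 204781472922) (nat_lit 76) (nat_lit 441803324861) (nat_lit 23) (nat_lit 5) (nat_lit 25) (nat_lit 5) (nat_lit 24) (nat_lit 5) (nat_lit 379) (nat_lit 345) (nat_lit 176)))) (XT.nd (nat_lit 78) (nat_lit 76) (nat_lit 0) (XT.lf (nat_lit 0) (nat_lit 229847581999) (nat_lit 228) (nat_lit 464586220030) (nat_lit 76) (nat_lit 24248693970) (nat_lit 21) (nat_lit 5) (nat_lit 24) (nat_lit 5) (nat_lit 22) (nat_lit 4) (nat_lit 380) (nat_lit 345) (nat_lit 175)) (XT.nd (nat_lit 78) (nat_lit 76) (nat_lit 0) (XT.lf (nat_lit 0) (nat_lit 451820021735) (nat_lit 228) (nat_lit 9542862716) (nat_lit 76) (nat_lit 300934458554) (nat_lit 21) (nat_lit 5) (nat_lit 24) (nat_lit 5) (nat_lit 22) (nat_lit 4) (nat_lit 381) (nat_lit 345) (nat_lit 174)) (XT.lf (nat_lit 0)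 (nat_lit 497837734055) (nat_lit 76) (nat_lit 201485082918) (nat_lit 152) (nat_lit 109689932821) (nat_lit 20) (nat_lit 5) (nat_lit 21) (nat_lit 5) (nat_lit 22) (nat_lit 4) (nat_lit 382) (nat_lit 345) (nat_lit 173)))))) (XT.nd (nat_lit 44226) (nat_lit 0) (nat_lit 5168) (XT.nd (nat_lit 43992) (nat_lit 0) (nat_lit 5548) (XT.nd (nat_lit 78) (nat_lit 76) (nat_lit 0) (XT.lf (nat_lit 0) (nat_lit 108199041245) (nat_lit 152) (nat_lit 669405455278) (nat_lit 76) (nat_lit 81553818993) (nat_lit 18) (nat_lit 5) (nat_lit 20) (nat_lit 5) (nat_lit 19) (nat_lit 4) (nat_lit 383) (nat_lit 345) (nat_lit 172)) (XT.nd (nat_lit 78) (nat_lit 76) (nat_lit 0) (XT.lf (nat_lit 0) (nat_lit 348634167523) (nat_lit 152) (nat_lit 176513555386) (nat_lit 76) (nat_lit 387629992076) (nat_lit 18) (nat_lit 5) (nat_lit 20) (nat_lit 5) (nat_lit 19) (nat_lit 4) (nat_lit 384) (nat_lit 345) (nat_lit 171)) (XT.lf (nat_lit 0) (nat_lit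 367574239271) (nat_lit 76) (nat_lit 246468657794) (nat_lit 152) (nat_lit 356356829719) (nat_lit 17) (nat_lit 5) (nat_lit 18) (nat_lit 5) (nat_lit 19) (nat_lit 4) (nat_lit 385) (nat_lit 345) (nat_lit 170)))) (XT.nd (nat_lit 78) (nat_lit 760) (nat_lit 0) (XT.lf (nat_lit 0) (nat_lit 34566101861) (nat_lit 0) (nat_lit 34566101861) (nat_lit 684) (nat_lit 1220499689) (nat_lit 100) (nat_lit 5) (nat_lit 100) (nat_lit 3) (nat_lit 109) (nat_lit 3) (nat_lit 346) (nat_lit 346) (nat_lit 208)) (XT.nd (nat_lit 78) (nat_lit 760) (nat_lit 0) (XT.lf (nat_lit 76) (nat_lit 33342571431) (nat_lit 0) (nat_lit 111529965227) (nat_lit 760) (nat_lit 1407201261) (nat_lit 101) (nat_lit 5) (nat_lit 100) (nat_lit 5) (nat_lit 110) (nat_lit 5) (nat_lit 347) (nat_lit 346) (nat_lit 207)) (XT.lf (nat_lit 0) (nat_lit 2150998423) (nat_lit 760) (nat_lit 4212109301) (nat_lit 836) (nat_lit 145815515747) (nat_lit 90) (nat_lit 5)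 (nat_lit 100) (nat_lit 5) (nat_lit 101) (nat_lit 5) (nat_lit 348) (nat_lit 346) (nat_lit 206))))) (XT.nd (nat_lit 234) (nat_lit 456) (nat_lit 0) (XT.nd (nat_lit 78) (nat_lit 0) (nat_lit 76) (XT.lf (nat_lit 0) (nat_lit 9474624255) (nat_lit 760) (nat_lit 43231838561) (nat_lit 836) (nat_lit 105665300694) (nat_lit 91) (nat_lit 5) (nat_lit 101) (nat_lit 5) (nat_lit 102) (nat_lit 5) (nat_lit 349) (nat_lit 346) (nat_lit 205)) (XT.nd (nat_lit 78) (nat_lit 0) (nat_lit 76) (XT.lf (nat_lit 0) (nat_lit 19820626676) (nat_lit 760) (nat_lit 84330016373) (nat_lit 836) (nat_lit 60787887990) (nat_lit 92) (nat_lit 5) (nat_lit 102) (nat_lit 5) (nat_lit 103) (nat_lit 5) (nat_lit 350) (nat_lit 346) (nat_lit 204)) (XT.lf (nat_lit 0) (nat_lit 33514770374) (nat_lit 760) (nat_lit 127658863600) (nat_lit 836) (nat_lit 10730983513) (nat_lit 93) (nat_lit 5) (nat_lit 103) (nat_lit 5) (nat_lit 104) (nat_lit 5) (nat_lit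 351) (nat_lit 346) (nat_lit 203)))) (XT.nd (nat_lit 78) (nat_lit 608) (nat_lit 0) (XT.lf (nat_lit 76) (nat_lit 5148670872) (nat_lit 0) (nat_lit 46485012224) (nat_lit 836) (nat_lit 127627846406) (nat_lit 94) (nat_lit 5) (nat_lit 93) (nat_lit 5) (nat_lit 104) (nat_lit 5) (nat_lit 352) (nat_lit 346) (nat_lit 202)) (XT.nd (nat_lit 78) (nat_lit 684) (nat_lit 0) (XT.lf (nat_lit 0) (nat_lit 74670047077) (nat_lit 760) (nat_lit 35201209726) (nat_lit 76) (nat_lit 77162341250) (nat_lit 94) (nat_lit 5) (nat_lit 104) (nat_lit 5) (nat_lit 95) (nat_lit 5) (nat_lit 353) (nat_lit 346) (nat_lit 201)) (XT.lf (nat_lit 0) (nat_lit 102416310458) (nat_lit 760) (nat_lit 77730528485) (nat_lit 76) (nat_lit 15137244084) (nat_lit 85) (nat_lit 5) (nat_lit 95) (nat_lit 5) (nat_lit 86) (nat_lit 5) (nat_lit 354) (nat_lit 346) (nat_lit 200))))))))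
noncomputable def xc115 : XT := (XT.nd (nat_lit 1794) (nat_lit 684) (nat_lit 0) (XT.nd (nat_lit 858) (nat_lit 1672) (nat_lit 0) (XT.nd (nat_lit 390) (nat_lit 1368) (nat_lit 0) (XT.nd (nat_lit 156) (nat_lit 684) (nat_lit 0) (XT.nd (nat_lit 78) (nat_lit 304) (nat_lit 0) (XT.lf (nat_lit 0) (nat_lit 80329856867) (nat_lit 380) (nat_lit 55782153007) (nat_lit 456) (nat_lit 67896110597) (nat_lit 80) (nat_lit 5) (nat_lit 85) (nat_lit 5) (nat_lit 86) (nat_lit 5) (nat_lit 355) (nat_lit 346) (nat_lit 199)) (XT.lf (nat_lit 0) (nat_lit 40495955434) (nat_lit 304) (nat_lit 135241692179) (nat_lit 380) (nat_lit 37530719566) (nat_lit 76) (nat_lit 5) (nat_lit 80) (nat_lit 5) (nat_lit 81) (nat_lit 5) (nat_lit 356) (nat_lit 346) (nat_lit 198))) (XT.nd (nat_lit 78) (nat_lit 684) (nat_lit 0) (XT.lf (nat_lit 0) (nat_lit 221248650602) (nat_lit 304) (nat_lit 364230609) (nat_lit 380) (nat_lit 1502575529) (nat_lit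 76) (nat_lit 5) (nat_lit 80) (nat_lit 5) (nat_lit 81) (nat_lit 5) (nat_lit 357) (nat_lit 346) (nat_lit 197)) (XT.nd (nat_lit 78) (nat_lit 304) (nat_lit 0) (XT.lf (nat_lit 0) (nat_lit 41474138131) (nat_lit 380) (nat_lit 47751696854) (nat_lit 76) (nat_lit 144232096655) (nat_lit 71) (nat_lit 5) (nat_lit 76) (nat_lit 5) (nat_lit 72) (nat_lit 5) (nat_lit 358) (nat_lit 346) (nat_lit 196)) (XT.lf (nat_lit 0) (nat_lit 91103096958) (nat_lit 380) (nat_lit 96973695661) (nat_lit 76) (nat_lit 56386443037) (nat_lit 67) (nat_lit 5) (nat_lit 72) (nat_lit 5) (nat_lit 68) (nat_lit 5) (nat_lit 359) (nat_lit 346) (nat_lit 195))))) (XT.nd (nat_lit 234) (nat_lit 456) (nat_lit 0) (XT.nd (nat_lit 78) (nat_lit 608) (nat_lit 0) (XT.lf (nat_lit 0) (nat_lit 105609651105) (nat_lit 304) (nat_lit 43091308580) (nat_lit 380) (nat_lit 107448075220) (nat_lit 63) (nat_lit 5) (nat_lit 67) (nat_lit 5) (nat_lit 68) (nat_lit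 5) (nat_lit 360) (nat_lit 346) (nat_lit 194)) (XT.nd (nat_lit 78) (nat_lit 380) (nat_lit 0) (XT.lf (nat_lit 0) (nat_lit 59274579747) (nat_lit 228) (nat_lit 156046155451) (nat_lit 304) (nat_lit 53228258959) (nat_lit 60) (nat_lit 5) (nat_lit 63) (nat_lit 5) (nat_lit 64) (nat_lit 5) (nat_lit 361) (nat_lit 346) (nat_lit 193)) (XT.lf (nat_lit 0) (nat_lit 8691584445) (nat_lit 380) (nat_lit 272892725244) (nat_lit 76) (nat_lit 175830155) (nat_lit 55) (nat_lit 5) (nat_lit 60) (nat_lit 5) (nat_lit 56) (nat_lit 5) (nat_lit 362) (nat_lit 346) (nat_lit 192)))) (XT.nd (nat_lit 78) (nat_lit 456) (nat_lit 0) (XT.lf (nat_lit 0) (nat_lit 80061302047) (nat_lit 380) (nat_lit 47500965731) (nat_lit 76) (nat_lit 168104222612) (nat_lit 55) (nat_lit 5) (nat_lit 60) (nat_lit 5) (nat_lit 56) (nat_lit 5) (nat_lit 363) (nat_lit 346) (nat_lit 191)) (XT.nd (nat_lit 78) (nat_lit 228) (nat_lit 0) (XT.lf (nat_lit 0) (nat_lit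 160957738124) (nat_lit 304) (nat_lit 108784693090) (nat_lit 76) (nat_lit 40752060900) (nat_lit 52) (nat_lit 5) (nat_lit 56) (nat_lit 5) (nat_lit 53) (nat_lit 5) (nat_lit 364) (nat_lit 346) (nat_lit 190)) (XT.lf (nat_lit 0) (nat_lit 148680267184) (nat_lit 228) (nat_lit 104958699173) (nat_lit 304) (nat_lit 72604113932) (nat_lit 49) (nat_lit 5) (nat_lit 52) (nat_lit 5) (nat_lit 53) (nat_lit 5) (nat_lit 365) (nat_lit 346) (nat_lit 189)))))) (XT.nd (nat_lit 468) (nat_lit 684) (nat_lit 0) (XT.nd (nat_lit 234) (nat_lit 532) (nat_lit 0) (XT.nd (nat_lit 78) (nat_lit 228) (nat_lit 0) (XT.lf (nat_lit 0) (nat_lit 14678324276) (nat_lit 228) (nat_lit 254112855648) (nat_lit 76) (nat_lit 74225656553) (nat_lit 46) (nat_lit 5) (nat_lit 49) (nat_lit 5) (nat_lit 47) (nat_lit 5) (nat_lit 366) (nat_lit 346) (nat_lit 188)) (XT.nd (nat_lit 78) (nat_lit 0) (nat_lit 0) (XT.lf (nat_lit 0) (nat_lit 19634441934) (nat_lit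 228) (nat_lit 92019148952) (nat_lit 304) (nat_lit 249156694457) (nat_lit 43) (nat_lit 5) (nat_lit 46) (nat_lit 5) (nat_lit 47) (nat_lit 5) (nat_lit 367) (nat_lit 346) (nat_lit 187)) (XT.lf (nat_lit 0) (nat_lit 222429797882) (nat_lit 304) (nat_lit 57066890282) (nat_lit 76) (nat_lit 100228376132) (nat_lit 43) (nat_lit 5) (nat_lit 47) (nat_lit 5) (nat_lit 44) (nat_lit 5) (nat_lit 368) (nat_lit 346) (nat_lit 186)))) (XT.nd (nat_lit 78) (nat_lit 380) (nat_lit 0) (XT.lf (nat_lit 0) (nat_lit 256426196882) (nat_lit 152) (nat_lit 91196907459) (nat_lit 228) (nat_lit 52252171204) (nat_lit 41) (nat_lit 5) (nat_lit 43) (nat_lit 5) (nat_lit 44) (nat_lit 5) (nat_lit 369) (nat_lit 346) (nat_lit 185)) (XT.nd (nat_lit 78) (nat_lit 152) (nat_lit 0) (XT.lf (nat_lit 0) (nat_lit 64889739508) (nat_lit 228) (nat_lit 242982266142) (nat_lit 76) (nat_lit 113435028874) (nat_lit 38) (nat_lit 5) (nat_lit 41) (nat_lit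 5) (nat_lit 39) (nat_lit 5) (nat_lit 370) (nat_lit 346) (nat_lit 184)) (XT.lf (nat_lit 0) (nat_lit 86957863417) (nat_lit 152) (nat_lit 108073979885) (nat_lit 228) (nat_lit 249105686282) (nat_lit 36) (nat_lit 5) (nat_lit 38) (nat_lit 5) (nat_lit 39) (nat_lit 5) (nat_lit 371) (nat_lit 346) (nat_lit 183))))) (XT.nd (nat_lit 234) (nat_lit 304) (nat_lit 0) (XT.nd (nat_lit 78) (nat_lit 380) (nat_lit 0) (XT.lf (nat_lit 0) (nat_lit 341568794999) (nat_lit 228) (nat_lit 18364020714) (nat_lit 76) (nat_lit 108562474650) (nat_lit 36) (nat_lit 5) (nat_lit 39) (nat_lit 5) (nat_lit 37) (nat_lit 5) (nat_lit 372) (nat_lit 346) (nat_lit 182)) (XT.nd (nat_lit 78) (nat_lit 152) (nat_lit 0) (XT.lf (nat_lit 0) (nat_lit 12385993556) (nat_lit 228) (nat_lit 137465610743) (nat_lit 76) (nat_lit 344570150528) (nat_lit 33) (nat_lit 5) (nat_lit 36) (nat_lit 5) (nat_lit 34) (nat_lit 5) (nat_lit 373) (nat_lit 346) (nat_lit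 181)) (XT.lf (nat_lit 0) (nat_lit 163932523161) (nat_lit 228) (nat_lit 277124526628) (nat_lit 76) (nat_lit 80984452241) (nat_lit 31) (nat_lit 5) (nat_lit 34) (nat_lit 5) (nat_lit 32) (nat_lit 5) (nat_lit 374) (nat_lit 346) (nat_lit 180)))) (XT.nd (nat_lit 78) (nat_lit 152) (nat_lit 0) (XT.lf (nat_lit 0) (nat_lit 112068612227) (nat_lit 152) (nat_lit 222244351132) (nat_lit 228) (nat_lit 217222356311) (nat_lit 29) (nat_lit 5) (nat_lit 31) (nat_lit 5) (nat_lit 32) (nat_lit 5) (nat_lit 375) (nat_lit 346) (nat_lit 179)) (XT.nd (nat_lit 78) (nat_lit 152) (nat_lit 0) (XT.lf (nat_lit 0) (nat_lit 523449928565) (nat_lit 228) (nat_lit 41153080641) (nat_lit 76) (nat_lit 18529329089) (nat_lit 29) (nat_lit 5) (nat_lit 32) (nat_lit 5) (nat_lit 30) (nat_lit 4) (nat_lit 376) (nat_lit 346) (nat_lit 178)) (XT.lf (nat_lit 0) (nat_lit 117050115910) (nat_lit 152) (nat_lit 220629885756) (nat_lit 76) (nat_lit 278984645891)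 (nat_lit 27) (nat_lit 5) (nat_lit 29) (nat_lit 5) (nat_lit 28) (nat_lit 5) (nat_lit 377) (nat_lit 346) (nat_lit 177))))))) (XT.nd (nat_lit 44772) (nat_lit 0) (nat_lit 3192) (XT.nd (nat_lit 390) (nat_lit 228) (nat_lit 0) (XT.nd (nat_lit 156) (nat_lit 228) (nat_lit 0) (XT.nd (nat_lit 78) (nat_lit 76) (nat_lit 0) (XT.lf (nat_lit 0) (nat_lit 222940729514) (nat_lit 152) (nat_lit 87126737701) (nat_lit 228) (nat_lit 342551294163) (nat_lit 25) (nat_lit 5) (nat_lit 27) (nat_lit 5) (nat_lit 28) (nat_lit 5) (nat_lit 378) (nat_lit 346) (nat_lit 176)) (XT.lf (nat_lit 0) (nat_lit 16209736300) (nat_lit 76) (nat_lit 509340189137) (nat_lit 152) (nat_lit 165548092977) (nat_lit 24) (nat_lit 5) (nat_lit 25) (nat_lit 5) (nat_lit 26) (nat_lit 4) (nat_lit 379) (nat_lit 346) (nat_lit 175))) (XT.nd (nat_lit 78) (nat_lit 152) (nat_lit 0) (XT.lf (nat_lit 0) (nat_lit 33871957957) (nat_lit 152) (nat_lit 221161083311)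 (nat_lit 76) (nat_lit 477148756145) (nat_lit 23) (nat_lit 5) (nat_lit 25) (nat_lit 5) (nat_lit 24) (nat_lit 5) (nat_lit 380) (nat_lit 346) (nat_lit 174)) (XT.nd (nat_lit 78) (nat_lit 0) (nat_lit 0) (XT.lf (nat_lit 0) (nat_lit 248236986287) (nat_lit 228) (nat_lit 501750275578) (nat_lit 76) (nat_lit 26189753142) (nat_lit 21) (nat_lit 5) (nat_lit 24) (nat_lit 5) (nat_lit 22) (nat_lit 4) (nat_lit 381) (nat_lit 346) (nat_lit 173)) (XT.lf (nat_lit 0) (nat_lit 487967102853) (nat_lit 228) (nat_lit 10303660200) (nat_lit 76) (nat_lit 325010292696) (nat_lit 21) (nat_lit 5) (nat_lit 24) (nat_lit 5) (nat_lit 22) (nat_lit 4) (nat_lit 382) (nat_lit 346) (nat_lit 172))))) (XT.nd (nat_lit 44148) (nat_lit 0) (nat_lit 5472) (XT.nd (nat_lit 78) (nat_lit 152) (nat_lit 0) (XT.lf (nat_lit 0) (nat_lit 537667269949) (nat_lit 76) (nat_lit 217602781477) (nat_lit 152) (nat_lit 118463647223) (nat_lit 20) (nat_lit 5)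 (nat_lit 21) (nat_lit 5) (nat_lit 22) (nat_lit 4) (nat_lit 383) (nat_lit 346) (nat_lit 171)) (XT.nd (nat_lit 43992) (nat_lit 0) (nat_lit 6232) (XT.lf (nat_lit 0) (nat_lit 116856346561) (nat_lit 152) (nat_lit 722955386146) (nat_lit 76) (nat_lit 88079178355) (nat_lit 18) (nat_lit 5) (nat_lit 20) (nat_lit 5) (nat_lit 19) (nat_lit 4) (nat_lit 384) (nat_lit 346) (nat_lit 170)) (XT.lf (nat_lit 0) (nat_lit 37333780127) (nat_lit 0) (nat_lit 37333780127) (nat_lit 684) (nat_lit 1313113065) (nat_lit 100) (nat_lit 5) (nat_lit 100) (nat_lit 3) (nat_lit 109) (nat_lit 3) (nat_lit 347) (nat_lit 347) (nat_lit 206)))) (XT.nd (nat_lit 78) (nat_lit 760) (nat_lit 0) (XT.lf (nat_lit 76) (nat_lit 36015092341) (nat_lit 0) (nat_lit 120456110293) (nat_lit 760) (nat_lit 1510457550) (nat_lit 101) (nat_lit 5) (nat_lit 100) (nat_lit 5) (nat_lit 110) (nat_lit 5) (nat_lit 348) (nat_lit 347) (nat_lit 205)) (XT.nd (nat_lit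 78) (nat_lit 0) (nat_lit 76) (XT.lf (nat_lit 0) (nat_lit 2331431556) (nat_lit 760) (nat_lit 4544053550) (nat_lit 836) (nat_lit 157476998574) (nat_lit 90) (nat_lit 5) (nat_lit 100) (nat_lit 5) (nat_lit 101) (nat_lit 5) (nat_lit 349) (nat_lit 347) (nat_lit 204)) (XT.lf (nat_lit 0) (nat_lit 10240356839) (nat_lit 760) (nat_lit 46685131023) (nat_lit 836) (nat_lit 114115617479) (nat_lit 91) (nat_lit 5) (nat_lit 101) (nat_lit 5) (nat_lit 102) (nat_lit 5) (nat_lit 350) (nat_lit 347) (nat_lit 203)))))) (XT.nd (nat_lit 468) (nat_lit 1520) (nat_lit 0) (XT.nd (nat_lit 234) (nat_lit 912) (nat_lit 0) (XT.nd (nat_lit 78) (nat_lit 0) (nat_lit 76) (XT.lf (nat_lit 0) (nat_lit 21413507947) (nat_lit 760) (nat_lit 91070982850) (nat_lit 836) (nat_lit 65648750874) (nat_lit 92) (nat_lit 5) (nat_lit 102) (nat_lit 5) (nat_lit 103) (nat_lit 5) (nat_lit 351) (nat_lit 347) (nat_lit 202)) (XT.nd (nat_lit 78) (nat_lit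 0) (nat_lit 0) (XT.lf (nat_lit 0) (nat_lit 36202704029) (nat_lit 760) (nat_lit 137866001044) (nat_lit 836) (nat_lit 11587934679) (nat_lit 93) (nat_lit 5) (nat_lit 103) (nat_lit 5) (nat_lit 104) (nat_lit 5) (nat_lit 352) (nat_lit 347) (nat_lit 201)) (XT.lf (nat_lit 76) (nat_lit 5565894048) (nat_lit 0) (nat_lit 50204818779) (nat_lit 836) (nat_lit 137831413454) (nat_lit 94) (nat_lit 5) (nat_lit 93) (nat_lit 5) (nat_lit 104) (nat_lit 5) (nat_lit 353) (nat_lit 347) (nat_lit 200)))) (XT.nd (nat_lit 78) (nat_lit 1064) (nat_lit 0) (XT.lf (nat_lit 0) (nat_lit 80649502125) (nat_lit 760) (nat_lit 38012055776) (nat_lit 76) (nat_lit 83334427261) (nat_lit 94) (nat_lit 5) (nat_lit 104) (nat_lit 5) (nat_lit 95) (nat_lit 5) (nat_lit 354) (nat_lit 347) (nat_lit 199)) (XT.nd (nat_lit 78) (nat_lit 380) (nat_lit 0) (XT.lf (nat_lit 0) (nat_lit 110615104168) (nat_lit 760) (nat_lit 83943658450) (nat_lit 76) (nat_lit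 16347765041) (nat_lit 85) (nat_lit 5) (nat_lit 95) (nat_lit 5) (nat_lit 86) (nat_lit 5) (nat_lit 355) (nat_lit 347) (nat_lit 198)) (XT.lf (nat_lit 0) (nat_lit 86761326864) (nat_lit 380) (nat_lit 60244805426) (nat_lit 456) (nat_lit 73322372732) (nat_lit 80) (nat_lit 5) (nat_lit 85) (nat_lit 5) (nat_lit 86) (nat_lit 5) (nat_lit 356) (nat_lit 347) (nat_lit 197))))) (XT.nd (nat_lit 234) (nat_lit 836) (nat_lit 0) (XT.nd (nat_lit 78) (nat_lit 380) (nat_lit 0) (XT.lf (nat_lit 0) (nat_lit 43740747246) (nat_lit 304) (nat_lit 146060770165) (nat_lit 380) (nat_lit 40528069756) (nat_lit 76) (nat_lit 5) (nat_lit 80) (nat_lit 5) (nat_lit 81) (nat_lit 5) (nat_lit 357) (nat_lit 347) (nat_lit 196)) (XT.nd (nat_lit 78) (nat_lit 380) (nat_lit 0) (XT.lf (nat_lit 0) (nat_lit 238953279111) (nat_lit 304) (nat_lit 393130735) (nat_lit 380) (nat_lit 1618052520) (nat_lit 76) (nat_lit 5) (nat_lit 80) (nat_lit 5) (nat_lit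 81) (nat_lit 5) (nat_lit 358) (nat_lit 347) (nat_lit 195)) (XT.lf (nat_lit 0) (nat_lit 44796386631) (nat_lit 380) (nat_lit 51566936612) (nat_lit 76) (nat_lit 155771021759) (nat_lit 71) (nat_lit 5) (nat_lit 76) (nat_lit 5) (nat_lit 72) (nat_lit 5) (nat_lit 359) (nat_lit 347) (nat_lit 194)))) (XT.nd (nat_lit 78) (nat_lit 532) (nat_lit 0) (XT.lf (nat_lit 0) (nat_lit 98395425034) (nat_lit 380) (nat_lit 104726709217) (nat_lit 76) (nat_lit 60897951337) (nat_lit 67) (nat_lit 5) (nat_lit 72) (nat_lit 5) (nat_lit 68) (nat_lit 5) (nat_lit 360) (nat_lit 347) (nat_lit 193)) (XT.nd (nat_lit 78) (nat_lit 228) (nat_lit 0) (XT.lf (nat_lit 0) (nat_lit 114063093120) (nat_lit 304) (nat_lit 46537794323) (nat_lit 380) (nat_lit 116039873164) (nat_lit 63) (nat_lit 5) (nat_lit 67) (nat_lit 5) (nat_lit 68) (nat_lit 5) (nat_lit 361) (nat_lit 347) (nat_lit 192)) (XT.lf (nat_lit 0) (nat_lit 64021189399) (nat_lit 228)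 (nat_lit 168528854674) (nat_lit 304) (nat_lit 57482682909) (nat_lit 60) (nat_lit 5) (nat_lit 63) (nat_lit 5) (nat_lit 64) (nat_lit 5) (nat_lit 362) (nat_lit 347) (nat_lit 191))))))))
noncomputable def xc116 : XT := (XT.nd (nat_lit 45708) (nat_lit 0) (nat_lit 1748) (XT.nd (nat_lit 858) (nat_lit 1216) (nat_lit 0) (XT.nd (nat_lit 390) (nat_lit 760) (nat_lit 0) (XT.nd (nat_lit 156) (nat_lit 684) (nat_lit 0) (XT.nd (nat_lit 78) (nat_lit 0) (nat_lit 0) (XT.lf (nat_lit 0) (nat_lit 9390437731) (nat_lit 380) (nat_lit 294719417711) (nat_lit 76) (nat_lit 190915555) (nat_lit 55) (nat_lit 5) (nat_lit 60) (nat_lit 5) (nat_lit 56) (nat_lit 5) (nat_lit 363) (nat_lit 347) (nat_lit 190)) (XT.lf (nat_lit 0) (nat_lit 86469471517) (nat_lit 380) (nat_lit 51296667478) (nat_lit 76) (nat_lit 181553503927) (nat_lit 55) (nat_lit 5) (nat_lit 60) (nat_lit 5) (nat_lit 56) (nat_lit 5) (nat_lit 364) (nat_lit 347) (nat_lit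 189))) (XT.nd (nat_lit 78) (nat_lit 456) (nat_lit 0) (XT.lf (nat_lit 0) (nat_lit 173837463072) (nat_lit 304) (nat_lit 117483142683) (nat_lit 76) (nat_lit 44013287255) (nat_lit 52) (nat_lit 5) (nat_lit 56) (nat_lit 5) (nat_lit 53) (nat_lit 5) (nat_lit 365) (nat_lit 347) (nat_lit 188)) (XT.nd (nat_lit 78) (nat_lit 228) (nat_lit 0) (XT.lf (nat_lit 0) (nat_lit 160578826417) (nat_lit 228) (nat_lit 113354197684) (nat_lit 304) (nat_lit 78409352647) (nat_lit 49) (nat_lit 5) (nat_lit 52) (nat_lit 5) (nat_lit 53) (nat_lit 5) (nat_lit 366) (nat_lit 347) (nat_lit 187)) (XT.lf (nat_lit 0) (nat_lit 15855442510) (nat_lit 228) (nat_lit 274437703598) (nat_lit 76) (nat_lit 80164892077) (nat_lit 46) (nat_lit 5) (nat_lit 49) (nat_lit 5) (nat_lit 47) (nat_lit 5) (nat_lit 367) (nat_lit 347) (nat_lit 186))))) (XT.nd (nat_lit 234) (nat_lit 380) (nat_lit 0) (XT.nd (nat_lit 78) (nat_lit 152) (nat_lit 0) (XT.lf (nat_lit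 0) (nat_lit 21209196111) (nat_lit 228) (nat_lit 99379385489) (nat_lit 304) (nat_lit 269086388994) (nat_lit 43) (nat_lit 5) (nat_lit 46) (nat_lit 5) (nat_lit 47) (nat_lit 5) (nat_lit 368) (nat_lit 347) (nat_lit 185)) (XT.nd (nat_lit 78) (nat_lit 152) (nat_lit 0) (XT.lf (nat_lit 0) (nat_lit 240226703628) (nat_lit 304) (nat_lit 61628430233) (nat_lit 76) (nat_lit 108247807259) (nat_lit 43) (nat_lit 5) (nat_lit 47) (nat_lit 5) (nat_lit 44) (nat_lit 5) (nat_lit 369) (nat_lit 347) (nat_lit 184)) (XT.lf (nat_lit 0) (nat_lit 276943938271) (nat_lit 152) (nat_lit 98491406443) (nat_lit 228) (nat_lit 56429831214) (nat_lit 41) (nat_lit 5) (nat_lit 43) (nat_lit 5) (nat_lit 44) (nat_lit 5) (nat_lit 370) (nat_lit 347) (nat_lit 183)))) (XT.nd (nat_lit 78) (nat_lit 152) (nat_lit 0) (XT.lf (nat_lit 0) (nat_lit 70083246969) (nat_lit 228) (nat_lit 262417183776) (nat_lit 76) (nat_lit 122511048309) (nat_lit 38)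 (nat_lit 5) (nat_lit 41) (nat_lit 5) (nat_lit 39) (nat_lit 5) (nat_lit 371) (nat_lit 347) (nat_lit 182)) (XT.nd (nat_lit 78) (nat_lit 0) (nat_lit 0) (XT.lf (nat_lit 0) (nat_lit 93917996929) (nat_lit 152) (nat_lit 116718604385) (nat_lit 228) (nat_lit 269031818427) (nat_lit 36) (nat_lit 5) (nat_lit 38) (nat_lit 5) (nat_lit 39) (nat_lit 5) (nat_lit 372) (nat_lit 347) (nat_lit 181)) (XT.lf (nat_lit 0) (nat_lit 368896364108) (nat_lit 228) (nat_lit 19829812327) (nat_lit 76) (nat_lit 117248632324) (nat_lit 36) (nat_lit 5) (nat_lit 39) (nat_lit 5) (nat_lit 37) (nat_lit 5) (nat_lit 373) (nat_lit 347) (nat_lit 180)))))) (XT.nd (nat_lit 390) (nat_lit 532) (nat_lit 0) (XT.nd (nat_lit 156) (nat_lit 304) (nat_lit 0) (XT.nd (nat_lit 78) (nat_lit 152) (nat_lit 0) (XT.lf (nat_lit 0) (nat_lit 13378868844) (nat_lit 228) (nat_lit 148459606915) (nat_lit 76) (nat_lit 372136918291) (nat_lit 33) (nat_lit 5) (nat_lit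 36) (nat_lit 5) (nat_lit 34) (nat_lit 5) (nat_lit 374) (nat_lit 347) (nat_lit 179)) (XT.lf (nat_lit 0) (nat_lit 177049040523) (nat_lit 228) (nat_lit 299291300295) (nat_lit 76) (nat_lit 87464384327) (nat_lit 31) (nat_lit 5) (nat_lit 34) (nat_lit 5) (nat_lit 32) (nat_lit 5) (nat_lit 375) (nat_lit 347) (nat_lit 178))) (XT.nd (nat_lit 78) (nat_lit 152) (nat_lit 0) (XT.lf (nat_lit 0) (nat_lit 121037151102) (nat_lit 152) (nat_lit 240022670563) (nat_lit 228) (nat_lit 234598231339) (nat_lit 29) (nat_lit 5) (nat_lit 31) (nat_lit 5) (nat_lit 32) (nat_lit 5) (nat_lit 376) (nat_lit 347) (nat_lit 177)) (XT.nd (nat_lit 78) (nat_lit 152) (nat_lit 0) (XT.lf (nat_lit 0) (nat_lit 565327626942) (nat_lit 228) (nat_lit 44442435469) (nat_lit 76) (nat_lit 20012776652) (nat_lit 29) (nat_lit 5) (nat_lit 32) (nat_lit 5) (nat_lit 30) (nat_lit 4) (nat_lit 377) (nat_lit 347) (nat_lit 176)) (XT.lf (nat_lit 0) (nat_lit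 126415773782) (nat_lit 152) (nat_lit 238277455188) (nat_lit 76) (nat_lit 301304507000) (nat_lit 27) (nat_lit 5) (nat_lit 29) (nat_lit 5) (nat_lit 28) (nat_lit 5) (nat_lit 378) (nat_lit 347) (nat_lit 175))))) (XT.nd (nat_lit 234) (nat_lit 228) (nat_lit 0) (XT.nd (nat_lit 78) (nat_lit 152) (nat_lit 0) (XT.lf (nat_lit 0) (nat_lit 240778686689) (nat_lit 152) (nat_lit 94095746522) (nat_lit 228) (nat_lit 369953749757) (nat_lit 25) (nat_lit 5) (nat_lit 27) (nat_lit 5) (nat_lit 28) (nat_lit 5) (nat_lit 379) (nat_lit 347) (nat_lit 174)) (XT.nd (nat_lit 78) (nat_lit 76) (nat_lit 0) (XT.lf (nat_lit 0) (nat_lit 17509155726) (nat_lit 76) (nat_lit 550086273735) (nat_lit 152) (nat_lit 178790354104) (nat_lit 24) (nat_lit 5) (nat_lit 25) (nat_lit 5) (nat_lit 26) (nat_lit 4) (nat_lit 380) (nat_lit 347) (nat_lit 173)) (XT.lf (nat_lit 0) (nat_lit 36583136389) (nat_lit 152) (nat_lit 238851477311) (nat_lit 76)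 (nat_lit 515321655688) (nat_lit 23) (nat_lit 5) (nat_lit 25) (nat_lit 5) (nat_lit 24) (nat_lit 5) (nat_lit 381) (nat_lit 347) (nat_lit 172)))) (XT.nd (nat_lit 78) (nat_lit 76) (nat_lit 0) (XT.lf (nat_lit 0) (nat_lit 268097314986) (nat_lit 228) (nat_lit 541887861020) (nat_lit 76) (nat_lit 28285931040) (nat_lit 21) (nat_lit 5) (nat_lit 24) (nat_lit 5) (nat_lit 22) (nat_lit 4) (nat_lit 382) (nat_lit 347) (nat_lit 171)) (XT.nd (nat_lit 78) (nat_lit 76) (nat_lit 0) (XT.lf (nat_lit 0) (nat_lit 527005739410) (nat_lit 228) (nat_lit 11125696901) (nat_lit 76) (nat_lit 351012039858) (nat_lit 21) (nat_lit 5) (nat_lit 24) (nat_lit 5) (nat_lit 22) (nat_lit 4) (nat_lit 383) (nat_lit 347) (nat_lit 170)) (XT.lf (nat_lit 0) (nat_lit 580682809612) (nat_lit 76) (nat_lit 235010054000) (nat_lit 152) (nat_lit 127939469949) (nat_lit 20) (nat_lit 5) (nat_lit 21) (nat_lit 5) (nat_lit 22) (nat_lit 4) (nat_lit 384)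 (nat_lit 347) (nat_lit 169))))))) (XT.nd (nat_lit 858) (nat_lit 2508) (nat_lit 0) (XT.nd (nat_lit 390) (nat_lit 1064) (nat_lit 0) (XT.nd (nat_lit 156) (nat_lit 760) (nat_lit 0) (XT.nd (nat_lit 78) (nat_lit 0) (nat_lit 0) (XT.lf (nat_lit 0) (nat_lit 40322531678) (nat_lit 0) (nat_lit 40322531678) (nat_lit 684) (nat_lit 1413852613) (nat_lit 100) (nat_lit 5) (nat_lit 100) (nat_lit 3) (nat_lit 109) (nat_lit 3) (nat_lit 348) (nat_lit 348) (nat_lit 204)) (XT.lf (nat_lit 76) (nat_lit 38900685184) (nat_lit 0) (nat_lit 130095812292) (nat_lit 760) (nat_lit 1623303918) (nat_lit 101) (nat_lit 5) (nat_lit 100) (nat_lit 5) (nat_lit 110) (nat_lit 5) (nat_lit 349) (nat_lit 348) (nat_lit 203))) (XT.nd (nat_lit 78) (nat_lit 0) (nat_lit 76) (XT.lf (nat_lit 0) (nat_lit 2525107653) (nat_lit 760) (nat_lit 4903270139) (nat_lit 836) (nat_lit 170071936210) (nat_lit 90) (nat_lit 5) (nat_lit 100) (nat_lit 5) (nat_lit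 101) (nat_lit 5) (nat_lit 350) (nat_lit 348) (nat_lit 202)) (XT.nd (nat_lit 78) (nat_lit 0) (nat_lit 76) (XT.lf (nat_lit 0) (nat_lit 11066240603) (nat_lit 760) (nat_lit 50415436513) (nat_lit 836) (nat_lit 123242374360) (nat_lit 91) (nat_lit 5) (nat_lit 101) (nat_lit 5) (nat_lit 102) (nat_lit 5) (nat_lit 351) (nat_lit 348) (nat_lit 201)) (XT.lf (nat_lit 0) (nat_lit 23132788118) (nat_lit 760) (nat_lit 98352001985) (nat_lit 836) (nat_lit 70898792100) (nat_lit 92) (nat_lit 5) (nat_lit 102) (nat_lit 5) (nat_lit 103) (nat_lit 5) (nat_lit 352) (nat_lit 348) (nat_lit 200))))) (XT.nd (nat_lit 234) (nat_lit 1292) (nat_lit 0) (XT.nd (nat_lit 78) (nat_lit 0) (nat_lit 0) (XT.lf (nat_lit 0) (nat_lit 39104709125) (nat_lit 760) (nat_lit 148890504341) (nat_lit 836) (nat_lit 12513659856) (nat_lit 93) (nat_lit 5) (nat_lit 103) (nat_lit 5) (nat_lit 104) (nat_lit 5) (nat_lit 353) (nat_lit 348) (nat_lit 199))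 (XT.nd (nat_lit 78) (nat_lit 0) (nat_lit 76) (XT.lf (nat_lit 76) (nat_lit 6015734765) (nat_lit 0) (nat_lit 54222066402) (nat_lit 836) (nat_lit 148852216085) (nat_lit 94) (nat_lit 5) (nat_lit 93) (nat_lit 5) (nat_lit 104) (nat_lit 5) (nat_lit 354) (nat_lit 348) (nat_lit 198)) (XT.lf (nat_lit 0) (nat_lit 87106478826) (nat_lit 760) (nat_lit 41048518585) (nat_lit 76) (nat_lit 90000408731) (nat_lit 94) (nat_lit 5) (nat_lit 104) (nat_lit 5) (nat_lit 95) (nat_lit 5) (nat_lit 355) (nat_lit 348) (nat_lit 197)))) (XT.nd (nat_lit 78) (nat_lit 684) (nat_lit 0) (XT.lf (nat_lit 0) (nat_lit 119469018325) (nat_lit 760) (nat_lit 90654596673) (nat_lit 76) (nat_lit 17655193096) (nat_lit 85) (nat_lit 5) (nat_lit 95) (nat_lit 5) (nat_lit 86) (nat_lit 5) (nat_lit 356) (nat_lit 348) (nat_lit 196)) (XT.nd (nat_lit 78) (nat_lit 304) (nat_lit 0) (XT.lf (nat_lit 0) (nat_lit 93706589535) (nat_lit 380) (nat_lit 65064458600)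 (nat_lit 456) (nat_lit 79183510019) (nat_lit 80) (nat_lit 5) (nat_lit 85) (nat_lit 5) (nat_lit 86) (nat_lit 5) (nat_lit 357) (nat_lit 348) (nat_lit 195)) (XT.lf (nat_lit 0) (nat_lit 47244392638) (nat_lit 304) (nat_lit 157745411109) (nat_lit 380) (nat_lit 43765936585) (nat_lit 76) (nat_lit 5) (nat_lit 80) (nat_lit 5) (nat_lit 81) (nat_lit 5) (nat_lit 358) (nat_lit 348) (nat_lit 194)))))) (XT.nd (nat_lit 468) (nat_lit 912) (nat_lit 0) (XT.nd (nat_lit 234) (nat_lit 912) (nat_lit 0) (XT.nd (nat_lit 78) (nat_lit 684) (nat_lit 0) (XT.lf (nat_lit 0) (nat_lit 258073602192) (nat_lit 304) (nat_lit 424376870) (nat_lit 380) (nat_lit 1743442322) (nat_lit 76) (nat_lit 5) (nat_lit 80) (nat_lit 5) (nat_lit 81) (nat_lit 5) (nat_lit 359) (nat_lit 348) (nat_lit 193)) (XT.nd (nat_lit 78) (nat_lit 304) (nat_lit 0) (XT.lf (nat_lit 0) (nat_lit 48383799079) (nat_lit 380) (nat_lit 55688094019) (nat_lit 76) (nat_lit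 168233009888) (nat_lit 71) (nat_lit 5) (nat_lit 76) (nat_lit 5) (nat_lit 72) (nat_lit 5) (nat_lit 360) (nat_lit 348) (nat_lit 192)) (XT.lf (nat_lit 0) (nat_lit 106270557252) (nat_lit 380) (nat_lit 113100660344) (nat_lit 76) (nat_lit 65770295724) (nat_lit 67) (nat_lit 5) (nat_lit 72) (nat_lit 5) (nat_lit 68) (nat_lit 5) (nat_lit 361) (nat_lit 348) (nat_lit 191)))) (XT.nd (nat_lit 78) (nat_lit 608) (nat_lit 0) (XT.lf (nat_lit 0) (nat_lit 123192144279) (nat_lit 304) (nat_lit 50260115758) (nat_lit 380) (nat_lit 125319592446) (nat_lit 63) (nat_lit 5) (nat_lit 67) (nat_lit 5) (nat_lit 68) (nat_lit 5) (nat_lit 362) (nat_lit 348) (nat_lit 190)) (XT.nd (nat_lit 78) (nat_lit 380) (nat_lit 0) (XT.lf (nat_lit 0) (nat_lit 69146865408) (nat_lit 228) (nat_lit 182010311528) (nat_lit 304) (nat_lit 62078008133) (nat_lit 60) (nat_lit 5) (nat_lit 63) (nat_lit 5) (nat_lit 64) (nat_lit 5) (nat_lit 363) (nat_lit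 348) (nat_lit 189)) (XT.lf (nat_lit 0) (nat_lit 10144696181) (nat_lit 380) (nat_lit 318292919729) (nat_lit 76) (nat_lit 207062417) (nat_lit 55) (nat_lit 5) (nat_lit 60) (nat_lit 5) (nat_lit 56) (nat_lit 5) (nat_lit 364) (nat_lit 348) (nat_lit 188))))) (XT.nd (nat_lit 234) (nat_lit 456) (nat_lit 0) (XT.nd (nat_lit 78) (nat_lit 456) (nat_lit 0) (XT.lf (nat_lit 0) (nat_lit 93389828712) (nat_lit 380) (nat_lit 55396649580) (nat_lit 76) (nat_lit 196078593147) (nat_lit 55) (nat_lit 5) (nat_lit 60) (nat_lit 5) (nat_lit 56) (nat_lit 5) (nat_lit 365) (nat_lit 348) (nat_lit 187)) (XT.nd (nat_lit 78) (nat_lit 228) (nat_lit 0) (XT.lf (nat_lit 0) (nat_lit 187747122924) (nat_lit 304) (nat_lit 126878085375) (nat_lit 76) (nat_lit 47535260286) (nat_lit 52) (nat_lit 5) (nat_lit 56) (nat_lit 5) (nat_lit 53) (nat_lit 5) (nat_lit 366) (nat_lit 348) (nat_lit 186)) (XT.lf (nat_lit 0) (nat_lit 173428680076) (nat_lit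 228) (nat_lit 122421506901) (nat_lit 304) (nat_lit 84679451340) (nat_lit 49) (nat_lit 5) (nat_lit 52) (nat_lit 5) (nat_lit 53) (nat_lit 5) (nat_lit 367) (nat_lit 348) (nat_lit 185)))) (XT.nd (nat_lit 78) (nat_lit 228) (nat_lit 0) (XT.lf (nat_lit 0) (nat_lit 17126323291) (nat_lit 228) (nat_lit 296389135780) (nat_lit 76) (nat_lit 86579097675) (nat_lit 46) (nat_lit 5) (nat_lit 49) (nat_lit 5) (nat_lit 47) (nat_lit 5) (nat_lit 368) (nat_lit 348) (nat_lit 184)) (XT.nd (nat_lit 78) (nat_lit 0) (nat_lit 0) (XT.lf (nat_lit 0) (nat_lit 22909360145) (nat_lit 228) (nat_lit 107328625749) (nat_lit 304) (nat_lit 290610864398) (nat_lit 43) (nat_lit 5) (nat_lit 46) (nat_lit 5) (nat_lit 47) (nat_lit 5) (nat_lit 369) (nat_lit 348) (nat_lit 183)) (XT.lf (nat_lit 0) (nat_lit 259447002053) (nat_lit 304) (nat_lit 66555437101) (nat_lit 76) (nat_lit 116908627240) (nat_lit 43) (nat_lit 5) (nat_lit 47) (nat_lit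 5) (nat_lit 44) (nat_lit 5) (nat_lit 370) (nat_lit 348) (nat_lit 182))))))))
noncomputable def xc117 : XT := (XT.nd (nat_lit 45786) (nat_lit 0) (nat_lit 608) (XT.nd (nat_lit 858) (nat_lit 228) (nat_lit 0) (XT.nd (nat_lit 390) (nat_lit 684) (nat_lit 0) (XT.nd (nat_lit 156) (nat_lit 380) (nat_lit 0) (XT.nd (nat_lit 78) (nat_lit 228) (nat_lit 0) (XT.lf (nat_lit 0) (nat_lit 299102578880) (nat_lit 152) (nat_lit 106369644186) (nat_lit 228) (nat_lit 60942062630) (nat_lit 41) (nat_lit 5) (nat_lit 43) (nat_lit 5) (nat_lit 44) (nat_lit 5) (nat_lit 371) (nat_lit 348) (nat_lit 181)) (XT.lf (nat_lit 0) (nat_lit 75691902869) (nat_lit 228) (nat_lit 283407417483) (nat_lit 76) (nat_lit 132312975662) (nat_lit 38) (nat_lit 5) (nat_lit 41) (nat_lit 5) (nat_lit 39) (nat_lit 5) (nat_lit 372) (nat_lit 348) (nat_lit 180))) (XT.nd (nat_lit 78) (nat_lit 228) (nat_lit 0) (XT.lf (nat_lit 0) (nat_lit 101434441175)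 (nat_lit 152) (nat_lit 126054983432) (nat_lit 228) (nat_lit 290552372511) (nat_lit 36) (nat_lit 5) (nat_lit 38) (nat_lit 5) (nat_lit 39) (nat_lit 5) (nat_lit 373) (nat_lit 348) (nat_lit 179)) (XT.nd (nat_lit 78) (nat_lit 228) (nat_lit 0) (XT.lf (nat_lit 0) (nat_lit 398409844077) (nat_lit 228) (nat_lit 21413342337) (nat_lit 76) (nat_lit 126629517168) (nat_lit 36) (nat_lit 5) (nat_lit 39) (nat_lit 5) (nat_lit 37) (nat_lit 5) (nat_lit 374) (nat_lit 348) (nat_lit 178)) (XT.lf (nat_lit 0) (nat_lit 14450889432) (nat_lit 228) (nat_lit 160333586812) (nat_lit 76) (nat_lit 401908862599) (nat_lit 33) (nat_lit 5) (nat_lit 36) (nat_lit 5) (nat_lit 34) (nat_lit 5) (nat_lit 375) (nat_lit 348) (nat_lit 177))))) (XT.nd (nat_lit 234) (nat_lit 380) (nat_lit 0) (XT.nd (nat_lit 78) (nat_lit 152) (nat_lit 0) (XT.lf (nat_lit 0) (nat_lit 191214606006) (nat_lit 228) (nat_lit 323231870725) (nat_lit 76) (nat_lit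 94462543224) (nat_lit 31) (nat_lit 5) (nat_lit 34) (nat_lit 5) (nat_lit 32) (nat_lit 5) (nat_lit 376) (nat_lit 348) (nat_lit 176)) (XT.nd (nat_lit 78) (nat_lit 0) (nat_lit 0) (XT.lf (nat_lit 0) (nat_lit 130722737984) (nat_lit 152) (nat_lit 259223430831) (nat_lit 228) (nat_lit 253364449348) (nat_lit 29) (nat_lit 5) (nat_lit 31) (nat_lit 5) (nat_lit 32) (nat_lit 5) (nat_lit 377) (nat_lit 348) (nat_lit 175)) (XT.lf (nat_lit 0) (nat_lit 610555298082) (nat_lit 228) (nat_lit 47995351206) (nat_lit 76) (nat_lit 21614742917) (nat_lit 29) (nat_lit 5) (nat_lit 32) (nat_lit 5) (nat_lit 30) (nat_lit 4) (nat_lit 378) (nat_lit 348) (nat_lit 174)))) (XT.nd (nat_lit 78) (nat_lit 228) (nat_lit 0) (XT.lf (nat_lit 0) (nat_lit 136530449093) (nat_lit 152) (nat_lit 257337232682) (nat_lit 76) (nat_lit 325409801577) (nat_lit 27) (nat_lit 5) (nat_lit 29) (nat_lit 5) (nat_lit 28) (nat_lit 5) (nat_lit 379) (nat_lit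 348) (nat_lit 173)) (XT.nd (nat_lit 78) (nat_lit 76) (nat_lit 0) (XT.lf (nat_lit 0) (nat_lit 260043295421) (nat_lit 152) (nat_lit 101622437283) (nat_lit 228) (nat_lit 399548636896) (nat_lit 25) (nat_lit 5) (nat_lit 27) (nat_lit 5) (nat_lit 28) (nat_lit 5) (nat_lit 380) (nat_lit 348) (nat_lit 172)) (XT.lf (nat_lit 0) (nat_lit 18912152005) (nat_lit 76) (nat_lit 594092206384) (nat_lit 152) (nat_lit 193092222426) (nat_lit 24) (nat_lit 5) (nat_lit 25) (nat_lit 5) (nat_lit 26) (nat_lit 4) (nat_lit 381) (nat_lit 348) (nat_lit 171)))))) (XT.nd (nat_lit 44460) (nat_lit 0) (nat_lit 5244) (XT.nd (nat_lit 156) (nat_lit 0) (nat_lit 0) (XT.nd (nat_lit 78) (nat_lit 152) (nat_lit 0) (XT.lf (nat_lit 0) (nat_lit 39511006262) (nat_lit 152) (nat_lit 257957458437) (nat_lit 76) (nat_lit 556548244670) (nat_lit 23) (nat_lit 5) (nat_lit 25) (nat_lit 5) (nat_lit 24) (nat_lit 5) (nat_lit 382) (nat_lit 348) (nat_lit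 170)) (XT.lf (nat_lit 0) (nat_lit 289546274563) (nat_lit 228) (nat_lit 585236800906) (nat_lit 76) (nat_lit 30549660844) (nat_lit 21) (nat_lit 5) (nat_lit 24) (nat_lit 5) (nat_lit 22) (nat_lit 4) (nat_lit 383) (nat_lit 348) (nat_lit 169))) (XT.nd (nat_lit 44148) (nat_lit 0) (nat_lit 6004) (XT.lf (nat_lit 0) (nat_lit 569167285950) (nat_lit 228) (nat_lit 12013818399) (nat_lit 76) (nat_lit 379093795011) (nat_lit 21) (nat_lit 5) (nat_lit 24) (nat_lit 5) (nat_lit 22) (nat_lit 4) (nat_lit 384) (nat_lit 348) (nat_lit 168)) (XT.nd (nat_lit 78) (nat_lit 0) (nat_lit 0) (XT.lf (nat_lit 0) (nat_lit 43550091019) (nat_lit 0) (nat_lit 43550091019) (nat_lit 684) (nat_lit 1523266122) (nat_lit 100) (nat_lit 5) (nat_lit 100) (nat_lit 3) (nat_lit 109) (nat_lit 3) (nat_lit 349) (nat_lit 349) (nat_lit 202)) (XT.lf (nat_lit 76) (nat_lit 42016499820) (nat_lit 0) (nat_lit 140506232055) (nat_lit 760) (nat_lit 1746317892)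 (nat_lit 101) (nat_lit 5) (nat_lit 100) (nat_lit 5) (nat_lit 110) (nat_lit 5) (nat_lit 350) (nat_lit 349) (nat_lit 201))))) (XT.nd (nat_lit 234) (nat_lit 0) (nat_lit 228) (XT.nd (nat_lit 78) (nat_lit 0) (nat_lit 76) (XT.lf (nat_lit 0) (nat_lit 2733256160) (nat_lit 760) (nat_lit 5291838596) (nat_lit 836) (nat_lit 183674928546) (nat_lit 90) (nat_lit 5) (nat_lit 100) (nat_lit 5) (nat_lit 101) (nat_lit 5) (nat_lit 351) (nat_lit 349) (nat_lit 200)) (XT.nd (nat_lit 78) (nat_lit 0) (nat_lit 76) (XT.lf (nat_lit 0) (nat_lit 11957245627) (nat_lit 760) (nat_lit 54444809129) (nat_lit 836) (nat_lit 133099627378) (nat_lit 91) (nat_lit 5) (nat_lit 101) (nat_lit 5) (nat_lit 102) (nat_lit 5) (nat_lit 352) (nat_lit 349) (nat_lit 199)) (XT.lf (nat_lit 0) (nat_lit 24988726270) (nat_lit 760) (nat_lit 106216167379) (nat_lit 836) (nat_lit 76569101809) (nat_lit 92) (nat_lit 5) (nat_lit 102) (nat_lit 5) (nat_lit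 103) (nat_lit 5) (nat_lit 353) (nat_lit 349) (nat_lit 198)))) (XT.nd (nat_lit 78) (nat_lit 0) (nat_lit 0) (XT.lf (nat_lit 0) (nat_lit 42238048796) (nat_lit 760) (nat_lit 160797649364) (nat_lit 836) (nat_lit 13513629875) (nat_lit 93) (nat_lit 5) (nat_lit 103) (nat_lit 5) (nat_lit 104) (nat_lit 5) (nat_lit 354) (nat_lit 349) (nat_lit 197)) (XT.nd (nat_lit 78) (nat_lit 0) (nat_lit 76) (XT.lf (nat_lit 76) (nat_lit 6500910893) (nat_lit 0) (nat_lit 58560570844) (nat_lit 836) (nat_lit 160755497585) (nat_lit 94) (nat_lit 5) (nat_lit 93) (nat_lit 5) (nat_lit 104) (nat_lit 5) (nat_lit 355) (nat_lit 349) (nat_lit 196)) (XT.lf (nat_lit 0) (nat_lit 94079297999) (nat_lit 760) (nat_lit 44328540630) (nat_lit 76) (nat_lit 97199778955) (nat_lit 94) (nat_lit 5) (nat_lit 104) (nat_lit 5) (nat_lit 95) (nat_lit 5) (nat_lit 356) (nat_lit 349) (nat_lit 195))))))) (XT.nd (nat_lit 858) (nat_lit 1748) (nat_lit 0)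 (XT.nd (nat_lit 390) (nat_lit 1444) (nat_lit 0) (XT.nd (nat_lit 156) (nat_lit 684) (nat_lit 0) (XT.nd (nat_lit 78) (nat_lit 380) (nat_lit 0) (XT.lf (nat_lit 0) (nat_lit 129030574277) (nat_lit 760) (nat_lit 97903059698) (nat_lit 76) (nat_lit 19067271481) (nat_lit 85) (nat_lit 5) (nat_lit 95) (nat_lit 5) (nat_lit 86) (nat_lit 5) (nat_lit 357) (nat_lit 349) (nat_lit 194)) (XT.lf (nat_lit 0) (nat_lit 101206851713) (nat_lit 380) (nat_lit 70269674222) (nat_lit 456) (nat_lit 85514202024) (nat_lit 80) (nat_lit 5) (nat_lit 85) (nat_lit 5) (nat_lit 86) (nat_lit 5) (nat_lit 358) (nat_lit 349) (nat_lit 193))) (XT.nd (nat_lit 78) (nat_lit 380) (nat_lit 0) (XT.lf (nat_lit 0) (nat_lit 51027704005) (nat_lit 304) (nat_lit 170364854809) (nat_lit 380) (nat_lit 47263457438) (nat_lit 76) (nat_lit 5) (nat_lit 80) (nat_lit 5) (nat_lit 81) (nat_lit 5) (nat_lit 359) (nat_lit 349) (nat_lit 192)) (XT.nd (nat_lit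 78) (nat_lit 380) (nat_lit 0) (XT.lf (nat_lit 0) (nat_lit 278722971808) (nat_lit 304) (nat_lit 458151846) (nat_lit 380) (nat_lit 1879441714) (nat_lit 76) (nat_lit 5) (nat_lit 80) (nat_lit 5) (nat_lit 81) (nat_lit 5) (nat_lit 360) (nat_lit 349) (nat_lit 191)) (XT.lf (nat_lit 0) (nat_lit 52257676460) (nat_lit 380) (nat_lit 60139542841) (nat_lit 76) (nat_lit 181691913358) (nat_lit 71) (nat_lit 5) (nat_lit 76) (nat_lit 5) (nat_lit 72) (nat_lit 5) (nat_lit 361) (nat_lit 349) (nat_lit 190))))) (XT.nd (nat_lit 234) (nat_lit 608) (nat_lit 0) (XT.nd (nat_lit 78) (nat_lit 532) (nat_lit 0) (XT.lf (nat_lit 0) (nat_lit 114775200989) (nat_lit 380) (nat_lit 122145124685) (nat_lit 76) (nat_lit 71032355150) (nat_lit 67) (nat_lit 5) (nat_lit 72) (nat_lit 5) (nat_lit 68) (nat_lit 5) (nat_lit 362) (nat_lit 349) (nat_lit 189)) (XT.nd (nat_lit 78) (nat_lit 228) (nat_lit 0) (XT.lf (nat_lit 0) (nat_lit 133050948357)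 (nat_lit 304) (nat_lit 54280323071) (nat_lit 380) (nat_lit 135342184387) (nat_lit 63) (nat_lit 5) (nat_lit 67) (nat_lit 5) (nat_lit 68) (nat_lit 5) (nat_lit 363) (nat_lit 349) (nat_lit 188)) (XT.lf (nat_lit 0) (nat_lit 74682027584) (nat_lit 228) (nat_lit 196570406409) (nat_lit 304) (nat_lit 67041428646) (nat_lit 60) (nat_lit 5) (nat_lit 63) (nat_lit 5) (nat_lit 64) (nat_lit 5) (nat_lit 364) (nat_lit 349) (nat_lit 187)))) (XT.nd (nat_lit 78) (nat_lit 228) (nat_lit 0) (XT.lf (nat_lit 0) (nat_lit 10958863981) (nat_lit 380) (nat_lit 343752879885) (nat_lit 76) (nat_lit 224376396) (nat_lit 55) (nat_lit 5) (nat_lit 60) (nat_lit 5) (nat_lit 56) (nat_lit 5) (nat_lit 365) (nat_lit 349) (nat_lit 186)) (XT.nd (nat_lit 78) (nat_lit 228) (nat_lit 0) (XT.lf (nat_lit 0) (nat_lit 100863415106) (nat_lit 380) (nat_lit 59825165415) (nat_lit 76) (nat_lit 211765574104) (nat_lit 55) (nat_lit 5) (nat_lit 60) (nat_lit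 5) (nat_lit 56) (nat_lit 5) (nat_lit 366) (nat_lit 349) (nat_lit 185)) (XT.lf (nat_lit 0) (nat_lit 202769175685) (nat_lit 304) (nat_lit 137025152573) (nat_lit 76) (nat_lit 51338861331) (nat_lit 52) (nat_lit 5) (nat_lit 56) (nat_lit 5) (nat_lit 53) (nat_lit 5) (nat_lit 367) (nat_lit 349) (nat_lit 184)))))) (XT.nd (nat_lit 468) (nat_lit 684) (nat_lit 0) (XT.nd (nat_lit 234) (nat_lit 380) (nat_lit 0) (XT.nd (nat_lit 78) (nat_lit 456) (nat_lit 0) (XT.lf (nat_lit 0) (nat_lit 187306015931) (nat_lit 228) (nat_lit 132214347312) (nat_lit 304) (nat_lit 91451535911) (nat_lit 49) (nat_lit 5) (nat_lit 52) (nat_lit 5) (nat_lit 53) (nat_lit 5) (nat_lit 368) (nat_lit 349) (nat_lit 183)) (XT.nd (nat_lit 78) (nat_lit 228) (nat_lit 0) (XT.lf (nat_lit 0) (nat_lit 18498525673) (nat_lit 228) (nat_lit 320097193848) (nat_lit 76) (nat_lit 93506295030) (nat_lit 46) (nat_lit 5) (nat_lit 49) (nat_lit 5) (nat_lit 47)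 (nat_lit 5) (nat_lit 369) (nat_lit 349) (nat_lit 182)) (XT.lf (nat_lit 0) (nat_lit 24745048211) (nat_lit 228) (nat_lit 115913963667) (nat_lit 304) (nat_lit 313857645316) (nat_lit 43) (nat_lit 5) (nat_lit 46) (nat_lit 5) (nat_lit 47) (nat_lit 5) (nat_lit 370) (nat_lit 349) (nat_lit 181)))) (XT.nd (nat_lit 78) (nat_lit 380) (nat_lit 0) (XT.lf (nat_lit 0) (nat_lit 280204615900) (nat_lit 304) (nat_lit 71877070670) (nat_lit 76) (nat_lit 126262170816) (nat_lit 43) (nat_lit 5) (nat_lit 47) (nat_lit 5) (nat_lit 44) (nat_lit 5) (nat_lit 371) (nat_lit 349) (nat_lit 180)) (XT.nd (nat_lit 78) (nat_lit 228) (nat_lit 0) (XT.lf (nat_lit 0) (nat_lit 323033464844) (nat_lit 152) (nat_lit 114878294278) (nat_lit 228) (nat_lit 65815580006) (nat_lit 41) (nat_lit 5) (nat_lit 43) (nat_lit 5) (nat_lit 44) (nat_lit 5) (nat_lit 372) (nat_lit 349) (nat_lit 179)) (XT.lf (nat_lit 0) (nat_lit 81748966469) (nat_lit 228)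 (nat_lit 306077317984) (nat_lit 76) (nat_lit 142898908338) (nat_lit 38) (nat_lit 5) (nat_lit 41) (nat_lit 5) (nat_lit 39) (nat_lit 5) (nat_lit 373) (nat_lit 349) (nat_lit 178))))) (XT.nd (nat_lit 234) (nat_lit 304) (nat_lit 0) (XT.nd (nat_lit 78) (nat_lit 228) (nat_lit 0) (XT.lf (nat_lit 0) (nat_lit 109551772337) (nat_lit 152) (nat_lit 136138431058) (nat_lit 228) (nat_lit 313794855016) (nat_lit 36) (nat_lit 5) (nat_lit 38) (nat_lit 5) (nat_lit 39) (nat_lit 5) (nat_lit 374) (nat_lit 349) (nat_lit 177)) (XT.nd (nat_lit 78) (nat_lit 228) (nat_lit 0) (XT.lf (nat_lit 0) (nat_lit 430284149813) (nat_lit 228) (nat_lit 23123962042) (nat_lit 76) (nat_lit 136760730958) (nat_lit 36) (nat_lit 5) (nat_lit 39) (nat_lit 5) (nat_lit 37) (nat_lit 5) (nat_lit 375) (nat_lit 349) (nat_lit 176)) (XT.lf (nat_lit 0) (nat_lit 15608427562) (nat_lit 228) (nat_lit 173157882934) (nat_lit 76) (nat_lit 434062421096)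 (nat_lit 33) (nat_lit 5) (nat_lit 36) (nat_lit 5) (nat_lit 34) (nat_lit 5) (nat_lit 376) (nat_lit 349) (nat_lit 175)))) (XT.nd (nat_lit 78) (nat_lit 152) (nat_lit 0) (XT.lf (nat_lit 0) (nat_lit 206513182443) (nat_lit 228) (nat_lit 349088076768) (nat_lit 76) (nat_lit 102020411009) (nat_lit 31) (nat_lit 5) (nat_lit 34) (nat_lit 5) (nat_lit 32) (nat_lit 5) (nat_lit 377) (nat_lit 349) (nat_lit 174)) (XT.nd (nat_lit 78) (nat_lit 0) (nat_lit 0) (XT.lf (nat_lit 0) (nat_lit 141182798788) (nat_lit 152) (nat_lit 279960402196) (nat_lit 228) (nat_lit 273632198834) (nat_lit 29) (nat_lit 5) (nat_lit 31) (nat_lit 5) (nat_lit 32) (nat_lit 5) (nat_lit 378) (nat_lit 349) (nat_lit 173)) (XT.lf (nat_lit 0) (nat_lit 659400974488) (nat_lit 228) (nat_lit 51832853873) (nat_lit 76) (nat_lit 23344731791) (nat_lit 29) (nat_lit 5) (nat_lit 32) (nat_lit 5) (nat_lit 30) (nat_lit 4) (nat_lit 379) (nat_lit 349) (nat_lit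 172))))))))
noncomputable def xc118 : XT := (XT.nd (nat_lit 45864) (nat_lit 0) (nat_lit 228) (XT.nd (nat_lit 45006) (nat_lit 0) (nat_lit 2584) (XT.nd (nat_lit 44538) (nat_lit 0) (nat_lit 5244) (XT.nd (nat_lit 156) (nat_lit 304) (nat_lit 0) (XT.nd (nat_lit 78) (nat_lit 152) (nat_lit 0) (XT.lf (nat_lit 0) (nat_lit 147454096791) (nat_lit 152) (nat_lit 277922137462) (nat_lit 76) (nat_lit 351443386473) (nat_lit 27) (nat_lit 5) (nat_lit 29) (nat_lit 5) (nat_lit 28) (nat_lit 5) (nat_lit 380) (nat_lit 349) (nat_lit 171)) (XT.lf (nat_lit 0) (nat_lit 280848742763) (nat_lit 152) (nat_lit 109751401538) (nat_lit 228) (nat_lit 431511316564) (nat_lit 25) (nat_lit 5) (nat_lit 27) (nat_lit 5) (nat_lit 28) (nat_lit 5) (nat_lit 381) (nat_lit 349) (nat_lit 170))) (XT.nd (nat_lit 78) (nat_lit 228) (nat_lit 0) (XT.lf (nat_lit 0) (nat_lit 20427065027) (nat_lit 76) (nat_lit 641618751918) (nat_lit 152) (nat_lit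 208538434233) (nat_lit 24) (nat_lit 5) (nat_lit 25) (nat_lit 5) (nat_lit 26) (nat_lit 4) (nat_lit 382) (nat_lit 349) (nat_lit 169)) (XT.nd (nat_lit 78) (nat_lit 152) (nat_lit 0) (XT.lf (nat_lit 0) (nat_lit 42672931825) (nat_lit 152) (nat_lit 278592222929) (nat_lit 76) (nat_lit 601072838577) (nat_lit 23) (nat_lit 5) (nat_lit 25) (nat_lit 5) (nat_lit 24) (nat_lit 5) (nat_lit 383) (nat_lit 349) (nat_lit 168)) (XT.lf (nat_lit 0) (nat_lit 312710983368) (nat_lit 228) (nat_lit 632053954002) (nat_lit 76) (nat_lit 32994367011) (nat_lit 21) (nat_lit 5) (nat_lit 24) (nat_lit 5) (nat_lit 22) (nat_lit 4) (nat_lit 384) (nat_lit 349) (nat_lit 167))))) (XT.nd (nat_lit 234) (nat_lit 0) (nat_lit 76) (XT.nd (nat_lit 78) (nat_lit 760) (nat_lit 0) (XT.lf (nat_lit 0) (nat_lit 47035604480) (nat_lit 0) (nat_lit 47035604480) (nat_lit 684) (nat_lit 1641959802) (nat_lit 100) (nat_lit 5) (nat_lit 100) (nat_lit 3)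 (nat_lit 109) (nat_lit 3) (nat_lit 350) (nat_lit 350) (nat_lit 200)) (XT.nd (nat_lit 78) (nat_lit 760) (nat_lit 0) (XT.lf (nat_lit 76) (nat_lit 45381043246) (nat_lit 0) (nat_lit 151749092400) (nat_lit 760) (nat_lit 1880150261) (nat_lit 101) (nat_lit 5) (nat_lit 100) (nat_lit 5) (nat_lit 110) (nat_lit 5) (nat_lit 351) (nat_lit 350) (nat_lit 199)) (XT.lf (nat_lit 0) (nat_lit 2957180622) (nat_lit 760) (nat_lit 5712019400) (nat_lit 836) (nat_lit 198366554380) (nat_lit 90) (nat_lit 5) (nat_lit 100) (nat_lit 5) (nat_lit 101) (nat_lit 5) (nat_lit 352) (nat_lit 350) (nat_lit 198)))) (XT.nd (nat_lit 78) (nat_lit 0) (nat_lit 76) (XT.lf (nat_lit 0) (nat_lit 12918717060) (nat_lit 760) (nat_lit 58797082556) (nat_lit 836) (nat_lit 143745765494) (nat_lit 91) (nat_lit 5) (nat_lit 101) (nat_lit 5) (nat_lit 102) (nat_lit 5) (nat_lit 353) (nat_lit 350) (nat_lit 197)) (XT.nd (nat_lit 78) (nat_lit 0) (nat_lit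 76) (XT.lf (nat_lit 0) (nat_lit 26992381214) (nat_lit 760) (nat_lit 114710035903) (nat_lit 836) (nat_lit 82693263648) (nat_lit 92) (nat_lit 5) (nat_lit 102) (nat_lit 5) (nat_lit 103) (nat_lit 5) (nat_lit 354) (nat_lit 350) (nat_lit 196)) (XT.lf (nat_lit 0) (nat_lit 45621347621) (nat_lit 760) (nat_lit 173657950233) (nat_lit 836) (nat_lit 14593757672) (nat_lit 93) (nat_lit 5) (nat_lit 103) (nat_lit 5) (nat_lit 104) (nat_lit 5) (nat_lit 355) (nat_lit 350) (nat_lit 195)))))) (XT.nd (nat_lit 390) (nat_lit 1596) (nat_lit 0) (XT.nd (nat_lit 156) (nat_lit 1292) (nat_lit 0) (XT.nd (nat_lit 78) (nat_lit 0) (nat_lit 76) (XT.lf (nat_lit 76) (nat_lit 7024342258) (nat_lit 0) (nat_lit 63246050196) (nat_lit 836) (nat_lit 173611740044) (nat_lit 94) (nat_lit 5) (nat_lit 93) (nat_lit 5) (nat_lit 104) (nat_lit 5) (nat_lit 356) (nat_lit 350) (nat_lit 194)) (XT.lf (nat_lit 0) (nat_lit 101609329139) (nat_lit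 760) (nat_lit 47871515031) (nat_lit 76) (nat_lit 104975193306) (nat_lit 94) (nat_lit 5) (nat_lit 104) (nat_lit 5) (nat_lit 95) (nat_lit 5) (nat_lit 357) (nat_lit 350) (nat_lit 193))) (XT.nd (nat_lit 78) (nat_lit 684) (nat_lit 0) (XT.lf (nat_lit 0) (nat_lit 139356479140) (nat_lit 760) (nat_lit 105731956815) (nat_lit 76) (nat_lit 20592364224) (nat_lit 85) (nat_lit 5) (nat_lit 95) (nat_lit 5) (nat_lit 86) (nat_lit 5) (nat_lit 358) (nat_lit 350) (nat_lit 192)) (XT.nd (nat_lit 78) (nat_lit 304) (nat_lit 0) (XT.lf (nat_lit 0) (nat_lit 109306602024) (nat_lit 380) (nat_lit 75891298685) (nat_lit 456) (nat_lit 92351918437) (nat_lit 80) (nat_lit 5) (nat_lit 85) (nat_lit 5) (nat_lit 86) (nat_lit 5) (nat_lit 359) (nat_lit 350) (nat_lit 191)) (XT.lf (nat_lit 0) (nat_lit 55113143881) (nat_lit 304) (nat_lit 183993880995) (nat_lit 380) (nat_lit 51041315520) (nat_lit 76) (nat_lit 5) (nat_lit 80) (nat_lit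 5) (nat_lit 81) (nat_lit 5) (nat_lit 360) (nat_lit 350) (nat_lit 190))))) (XT.nd (nat_lit 234) (nat_lit 912) (nat_lit 0) (XT.nd (nat_lit 78) (nat_lit 684) (nat_lit 0) (XT.lf (nat_lit 0) (nat_lit 301023794327) (nat_lit 304) (nat_lit 494653809) (nat_lit 380) (nat_lit 2026816946) (nat_lit 76) (nat_lit 5) (nat_lit 80) (nat_lit 5) (nat_lit 81) (nat_lit 5) (nat_lit 361) (nat_lit 350) (nat_lit 189)) (XT.nd (nat_lit 78) (nat_lit 304) (nat_lit 0) (XT.lf (nat_lit 0) (nat_lit 56441011302) (nat_lit 380) (nat_lit 64947620964) (nat_lit 76) (nat_lit 196227491631) (nat_lit 71) (nat_lit 5) (nat_lit 76) (nat_lit 5) (nat_lit 72) (nat_lit 5) (nat_lit 362) (nat_lit 350) (nat_lit 188)) (XT.lf (nat_lit 0) (nat_lit 123959788361) (nat_lit 380) (nat_lit 131913658111) (nat_lit 76) (nat_lit 76715317163) (nat_lit 67) (nat_lit 5) (nat_lit 72) (nat_lit 5) (nat_lit 68) (nat_lit 5) (nat_lit 363) (nat_lit 350) (nat_lit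 187)))) (XT.nd (nat_lit 78) (nat_lit 608) (nat_lit 0) (XT.lf (nat_lit 0) (nat_lit 143697967072) (nat_lit 304) (nat_lit 58622232844) (nat_lit 380) (nat_lit 146167008164) (nat_lit 63) (nat_lit 5) (nat_lit 67) (nat_lit 5) (nat_lit 68) (nat_lit 5) (nat_lit 364) (nat_lit 350) (nat_lit 186)) (XT.nd (nat_lit 78) (nat_lit 380) (nat_lit 0) (XT.lf (nat_lit 0) (nat_lit 80659515840) (nat_lit 228) (nat_lit 212295413029) (nat_lit 304) (nat_lit 72402325124) (nat_lit 60) (nat_lit 5) (nat_lit 63) (nat_lit 5) (nat_lit 64) (nat_lit 5) (nat_lit 365) (nat_lit 350) (nat_lit 185)) (XT.lf (nat_lit 0) (nat_lit 11837795412) (nat_lit 380) (nat_lit 371250132376) (nat_lit 76) (nat_lit 242968643) (nat_lit 55) (nat_lit 5) (nat_lit 60) (nat_lit 5) (nat_lit 56) (nat_lit 5) (nat_lit 366) (nat_lit 350) (nat_lit 184))))))) (XT.nd (nat_lit 858) (nat_lit 684) (nat_lit 0) (XT.nd (nat_lit 390) (nat_lit 760) (nat_lit 0) (XT.nd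 (nat_lit 156) (nat_lit 684) (nat_lit 0) (XT.nd (nat_lit 78) (nat_lit 228) (nat_lit 0) (XT.lf (nat_lit 0) (nat_lit 108934546011) (nat_lit 380) (nat_lit 64608421334) (nat_lit 76) (nat_lit 228707414602) (nat_lit 55) (nat_lit 5) (nat_lit 60) (nat_lit 5) (nat_lit 56) (nat_lit 5) (nat_lit 367) (nat_lit 350) (nat_lit 183)) (XT.lf (nat_lit 0) (nat_lit 218992666982) (nat_lit 304) (nat_lit 147984438757) (nat_lit 76) (nat_lit 55446639152) (nat_lit 52) (nat_lit 5) (nat_lit 56) (nat_lit 5) (nat_lit 53) (nat_lit 5) (nat_lit 368) (nat_lit 350) (nat_lit 182))) (XT.nd (nat_lit 78) (nat_lit 456) (nat_lit 0) (XT.lf (nat_lit 0) (nat_lit 202293104758) (nat_lit 228) (nat_lit 142790740517) (nat_lit 304) (nat_lit 98765711308) (nat_lit 49) (nat_lit 5) (nat_lit 52) (nat_lit 5) (nat_lit 53) (nat_lit 5) (nat_lit 369) (nat_lit 350) (nat_lit 181)) (XT.nd (nat_lit 78) (nat_lit 228) (nat_lit 0) (XT.lf (nat_lit 0) (nat_lit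 19980205155) (nat_lit 228) (nat_lit 345702334931) (nat_lit 76) (nat_lit 100987544123) (nat_lit 46) (nat_lit 5) (nat_lit 49) (nat_lit 5) (nat_lit 47) (nat_lit 5) (nat_lit 370) (nat_lit 350) (nat_lit 180)) (XT.lf (nat_lit 0) (nat_lit 26727172004) (nat_lit 228) (nat_lit 125186264452) (nat_lit 304) (nat_lit 338964466618) (nat_lit 43) (nat_lit 5) (nat_lit 46) (nat_lit 5) (nat_lit 47) (nat_lit 5) (nat_lit 371) (nat_lit 350) (nat_lit 179))))) (XT.nd (nat_lit 234) (nat_lit 380) (nat_lit 0) (XT.nd (nat_lit 78) (nat_lit 380) (nat_lit 0) (XT.lf (nat_lit 0) (nat_lit 302622574407) (nat_lit 304) (nat_lit 77624834576) (nat_lit 76) (nat_lit 136363876130) (nat_lit 43) (nat_lit 5) (nat_lit 47) (nat_lit 5) (nat_lit 44) (nat_lit 5) (nat_lit 372) (nat_lit 350) (nat_lit 178)) (XT.nd (nat_lit 78) (nat_lit 228) (nat_lit 0) (XT.lf (nat_lit 0) (nat_lit 348878439402) (nat_lit 152) (nat_lit 124067767831) (nat_lit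 228) (nat_lit 71079242357) (nat_lit 41) (nat_lit 5) (nat_lit 43) (nat_lit 5) (nat_lit 44) (nat_lit 5) (nat_lit 373) (nat_lit 350) (nat_lit 177)) (XT.lf (nat_lit 0) (nat_lit 88290351011) (nat_lit 228) (nat_lit 330561194698) (nat_lit 76) (nat_lit 154331588000) (nat_lit 38) (nat_lit 5) (nat_lit 41) (nat_lit 5) (nat_lit 39) (nat_lit 5) (nat_lit 374) (nat_lit 350) (nat_lit 176)))) (XT.nd (nat_lit 78) (nat_lit 228) (nat_lit 0) (XT.lf (nat_lit 0) (nat_lit 118318122515) (nat_lit 152) (nat_lit 147028690172) (nat_lit 228) (nat_lit 338896979686) (nat_lit 36) (nat_lit 5) (nat_lit 38) (nat_lit 5) (nat_lit 39) (nat_lit 5) (nat_lit 375) (nat_lit 350) (nat_lit 175)) (XT.nd (nat_lit 78) (nat_lit 228) (nat_lit 0) (XT.lf (nat_lit 0) (nat_lit 464708183419) (nat_lit 228) (nat_lit 24971780513) (nat_lit 76) (nat_lit 147702320243) (nat_lit 36) (nat_lit 5) (nat_lit 39) (nat_lit 5) (nat_lit 37) (nat_lit 5) (nat_lit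 376) (nat_lit 350) (nat_lit 174)) (XT.lf (nat_lit 0) (nat_lit 16858359461) (nat_lit 228) (nat_lit 187008463823) (nat_lit 76) (nat_lit 468788143084) (nat_lit 33) (nat_lit 5) (nat_lit 36) (nat_lit 5) (nat_lit 34) (nat_lit 5) (nat_lit 377) (nat_lit 350) (nat_lit 173)))))) (XT.nd (nat_lit 44772) (nat_lit 0) (nat_lit 5016) (XT.nd (nat_lit 234) (nat_lit 380) (nat_lit 0) (XT.nd (nat_lit 78) (nat_lit 152) (nat_lit 0) (XT.lf (nat_lit 0) (nat_lit 223035444134) (nat_lit 228) (nat_lit 377013113637) (nat_lit 76) (nat_lit 110182784910) (nat_lit 31) (nat_lit 5) (nat_lit 34) (nat_lit 5) (nat_lit 32) (nat_lit 5) (nat_lit 378) (nat_lit 350) (nat_lit 172)) (XT.nd (nat_lit 78) (nat_lit 0) (nat_lit 0) (XT.lf (nat_lit 0) (nat_lit 152479344644) (nat_lit 152) (nat_lit 302356460107) (nat_lit 228) (nat_lit 295521568926) (nat_lit 29) (nat_lit 5) (nat_lit 31) (nat_lit 5) (nat_lit 32) (nat_lit 5) (nat_lit 379) (nat_lit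 350) (nat_lit 171)) (XT.lf (nat_lit 0) (nat_lit 712154126314) (nat_lit 228) (nat_lit 55977659969) (nat_lit 76) (nat_lit 25213004300) (nat_lit 29) (nat_lit 5) (nat_lit 32) (nat_lit 5) (nat_lit 30) (nat_lit 4) (nat_lit 380) (nat_lit 350) (nat_lit 170)))) (XT.nd (nat_lit 78) (nat_lit 228) (nat_lit 0) (XT.lf (nat_lit 0) (nat_lit 159251463431) (nat_lit 152) (nat_lit 300154130481) (nat_lit 76) (nat_lit 379559543921) (nat_lit 27) (nat_lit 5) (nat_lit 29) (nat_lit 5) (nat_lit 28) (nat_lit 5) (nat_lit 381) (nat_lit 350) (nat_lit 169)) (XT.nd (nat_lit 78) (nat_lit 76) (nat_lit 0) (XT.lf (nat_lit 0) (nat_lit 303318342894) (nat_lit 152) (nat_lit 118530801446) (nat_lit 228) (nat_lit 466031183408) (nat_lit 25) (nat_lit 5) (nat_lit 27) (nat_lit 5) (nat_lit 28) (nat_lit 5) (nat_lit 382) (nat_lit 350) (nat_lit 168)) (XT.lf (nat_lit 0) (nat_lit 22062894206) (nat_lit 76) (nat_lit 692947539644) (nat_lit 152)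 (nat_lit 225220509327) (nat_lit 24) (nat_lit 5) (nat_lit 25) (nat_lit 5) (nat_lit 26) (nat_lit 4) (nat_lit 383) (nat_lit 350) (nat_lit 167))))) (XT.nd (nat_lit 234) (nat_lit 0) (nat_lit 76) (XT.nd (nat_lit 78) (nat_lit 760) (nat_lit 0) (XT.lf (nat_lit 0) (nat_lit 50799744144) (nat_lit 0) (nat_lit 50799744144) (nat_lit 684) (nat_lit 1770600872) (nat_lit 100) (nat_lit 5) (nat_lit 100) (nat_lit 3) (nat_lit 109) (nat_lit 3) (nat_lit 351) (nat_lit 351) (nat_lit 198)) (XT.nd (nat_lit 78) (nat_lit 760) (nat_lit 0) (XT.lf (nat_lit 76) (nat_lit 49014290287) (nat_lit 0) (nat_lit 163891044637) (nat_lit 760) (nat_lit 2025527078) (nat_lit 101) (nat_lit 5) (nat_lit 100) (nat_lit 5) (nat_lit 110) (nat_lit 5) (nat_lit 352) (nat_lit 351) (nat_lit 197)) (XT.lf (nat_lit 0) (nat_lit 3198268078) (nat_lit 760) (nat_lit 6166266373) (nat_lit 836) (nat_lit 214233848166) (nat_lit 90) (nat_lit 5) (nat_lit 100) (nat_lit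 5) (nat_lit 101) (nat_lit 5) (nat_lit 353) (nat_lit 351) (nat_lit 196)))) (XT.nd (nat_lit 78) (nat_lit 0) (nat_lit 76) (XT.lf (nat_lit 0) (nat_lit 13956408340) (nat_lit 760) (nat_lit 63498010251) (nat_lit 836) (nat_lit 155243856025) (nat_lit 91) (nat_lit 5) (nat_lit 101) (nat_lit 5) (nat_lit 102) (nat_lit 5) (nat_lit 354) (nat_lit 351) (nat_lit 195)) (XT.nd (nat_lit 78) (nat_lit 0) (nat_lit 76) (XT.lf (nat_lit 0) (nat_lit 29155678470) (nat_lit 760) (nat_lit 123883902504) (nat_lit 836) (nat_lit 89307553353) (nat_lit 92) (nat_lit 5) (nat_lit 102) (nat_lit 5) (nat_lit 103) (nat_lit 5) (nat_lit 355) (nat_lit 351) (nat_lit 194)) (XT.lf (nat_lit 0) (nat_lit 49274703340) (nat_lit 760) (nat_lit 187547576066) (nat_lit 836) (nat_lit 15760433017) (nat_lit 93) (nat_lit 5) (nat_lit 103) (nat_lit 5) (nat_lit 104) (nat_lit 5) (nat_lit 356) (nat_lit 351) (nat_lit 193))))))))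
noncomputable def xc119 : XT := (XT.nd (nat_lit 1794) (nat_lit 456) (nat_lit 0) (XT.nd (nat_lit 858) (nat_lit 1824) (nat_lit 0) (XT.nd (nat_lit 390) (nat_lit 1596) (nat_lit 0) (XT.nd (nat_lit 156) (nat_lit 1292) (nat_lit 0) (XT.nd (nat_lit 78) (nat_lit 0) (nat_lit 76) (XT.lf (nat_lit 76) (nat_lit 7589169005) (nat_lit 0) (nat_lit 68306277493) (nat_lit 836) (nat_lit 187497080698) (nat_lit 94) (nat_lit 5) (nat_lit 93) (nat_lit 5) (nat_lit 104) (nat_lit 5) (nat_lit 357) (nat_lit 351) (nat_lit 192)) (XT.lf (nat_lit 0) (nat_lit 109741236736) (nat_lit 760) (nat_lit 51698399428) (nat_lit 76) (nat_lit 113372721832) (nat_lit 94) (nat_lit 5) (nat_lit 104) (nat_lit 5) (nat_lit 95) (nat_lit 5) (nat_lit 358) (nat_lit 351) (nat_lit 191))) (XT.nd (nat_lit 78) (nat_lit 684) (nat_lit 0) (XT.lf (nat_lit 0) (nat_lit 150507962939) (nat_lit 760) (nat_lit 114187643282) (nat_lit 76) (nat_lit 22239505611) (nat_lit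 85) (nat_lit 5) (nat_lit 95) (nat_lit 5) (nat_lit 86) (nat_lit 5) (nat_lit 359) (nat_lit 351) (nat_lit 190)) (XT.nd (nat_lit 78) (nat_lit 304) (nat_lit 0) (XT.lf (nat_lit 0) (nat_lit 118053875534) (nat_lit 380) (nat_lit 81962645898) (nat_lit 456) (nat_lit 99737140028) (nat_lit 80) (nat_lit 5) (nat_lit 85) (nat_lit 5) (nat_lit 86) (nat_lit 5) (nat_lit 360) (nat_lit 351) (nat_lit 189)) (XT.lf (nat_lit 0) (nat_lit 59524959071) (nat_lit 304) (nat_lit 198713252415) (nat_lit 380) (nat_lit 55121861406) (nat_lit 76) (nat_lit 5) (nat_lit 80) (nat_lit 5) (nat_lit 81) (nat_lit 5) (nat_lit 361) (nat_lit 351) (nat_lit 188))))) (XT.nd (nat_lit 234) (nat_lit 912) (nat_lit 0) (XT.nd (nat_lit 78) (nat_lit 684) (nat_lit 0) (XT.lf (nat_lit 0) (nat_lit 325108256835) (nat_lit 304) (nat_lit 534097356) (nat_lit 380) (nat_lit 2186407343) (nat_lit 76) (nat_lit 5) (nat_lit 80) (nat_lit 5) (nat_lit 81) (nat_lit 5)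 (nat_lit 362) (nat_lit 351) (nat_lit 187)) (XT.nd (nat_lit 78) (nat_lit 304) (nat_lit 0) (XT.lf (nat_lit 0) (nat_lit 60958624790) (nat_lit 380) (nat_lit 70140785490) (nat_lit 76) (nat_lit 211925884039) (nat_lit 71) (nat_lit 5) (nat_lit 76) (nat_lit 5) (nat_lit 72) (nat_lit 5) (nat_lit 363) (nat_lit 351) (nat_lit 186)) (XT.lf (nat_lit 0) (nat_lit 133878775899) (nat_lit 380) (nat_lit 142464113115) (nat_lit 76) (nat_lit 82852862838) (nat_lit 67) (nat_lit 5) (nat_lit 72) (nat_lit 5) (nat_lit 68) (nat_lit 5) (nat_lit 364) (nat_lit 351) (nat_lit 185)))) (XT.nd (nat_lit 78) (nat_lit 608) (nat_lit 0) (XT.lf (nat_lit 0) (nat_lit 155196327453) (nat_lit 304) (nat_lit 63311569022) (nat_lit 380) (nat_lit 157858181769) (nat_lit 63) (nat_lit 5) (nat_lit 67) (nat_lit 5) (nat_lit 68) (nat_lit 5) (nat_lit 365) (nat_lit 351) (nat_lit 184)) (XT.nd (nat_lit 78) (nat_lit 380) (nat_lit 0) (XT.lf (nat_lit 0) (nat_lit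 87114785723) (nat_lit 228) (nat_lit 229278509470) (nat_lit 304) (nat_lit 78192438248) (nat_lit 60) (nat_lit 5) (nat_lit 63) (nat_lit 5) (nat_lit 64) (nat_lit 5) (nat_lit 366) (nat_lit 351) (nat_lit 183)) (XT.lf (nat_lit 0) (nat_lit 12786724320) (nat_lit 380) (nat_lit 400947589898) (nat_lit 76) (nat_lit 262956662) (nat_lit 55) (nat_lit 5) (nat_lit 60) (nat_lit 5) (nat_lit 56) (nat_lit 5) (nat_lit 367) (nat_lit 351) (nat_lit 182)))))) (XT.nd (nat_lit 468) (nat_lit 912) (nat_lit 0) (XT.nd (nat_lit 234) (nat_lit 456) (nat_lit 0) (XT.nd (nat_lit 78) (nat_lit 456) (nat_lit 0) (XT.lf (nat_lit 0) (nat_lit 117651073835) (nat_lit 380) (nat_lit 69774731088) (nat_lit 76) (nat_lit 247004517518) (nat_lit 55) (nat_lit 5) (nat_lit 60) (nat_lit 5) (nat_lit 56) (nat_lit 5) (nat_lit 368) (nat_lit 351) (nat_lit 181)) (XT.nd (nat_lit 78) (nat_lit 228) (nat_lit 0) (XT.lf (nat_lit 0) (nat_lit 236513758360) (nat_lit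 304) (nat_lit 159820856733) (nat_lit 76) (nat_lit 59882943770) (nat_lit 52) (nat_lit 5) (nat_lit 56) (nat_lit 5) (nat_lit 53) (nat_lit 5) (nat_lit 369) (nat_lit 351) (nat_lit 180)) (XT.lf (nat_lit 0) (nat_lit 218478788695) (nat_lit 228) (nat_lit 154213352828) (nat_lit 304) (nat_lit 106665298566) (nat_lit 49) (nat_lit 5) (nat_lit 52) (nat_lit 5) (nat_lit 53) (nat_lit 5) (nat_lit 370) (nat_lit 351) (nat_lit 179)))) (XT.nd (nat_lit 78) (nat_lit 228) (nat_lit 0) (XT.lf (nat_lit 0) (nat_lit 21580162571) (nat_lit 228) (nat_lit 373356263130) (nat_lit 76) (nat_lit 109067186791) (nat_lit 46) (nat_lit 5) (nat_lit 49) (nat_lit 5) (nat_lit 47) (nat_lit 5) (nat_lit 371) (nat_lit 351) (nat_lit 178)) (XT.nd (nat_lit 78) (nat_lit 0) (nat_lit 0) (XT.lf (nat_lit 0) (nat_lit 28867506204) (nat_lit 228) (nat_lit 135200465755) (nat_lit 304) (nat_lit 366080089033) (nat_lit 43) (nat_lit 5) (nat_lit 46) (nat_lit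 5) (nat_lit 47) (nat_lit 5) (nat_lit 372) (nat_lit 351) (nat_lit 177)) (XT.lf (nat_lit 0) (nat_lit 326833742871) (nat_lit 304) (nat_lit 83832762231) (nat_lit 76) (nat_lit 147273613492) (nat_lit 43) (nat_lit 5) (nat_lit 47) (nat_lit 5) (nat_lit 44) (nat_lit 5) (nat_lit 373) (nat_lit 351) (nat_lit 176))))) (XT.nd (nat_lit 234) (nat_lit 380) (nat_lit 0) (XT.nd (nat_lit 78) (nat_lit 380) (nat_lit 0) (XT.lf (nat_lit 0) (nat_lit 376790684179) (nat_lit 152) (nat_lit 133992511969) (nat_lit 228) (nat_lit 76764223679) (nat_lit 41) (nat_lit 5) (nat_lit 43) (nat_lit 5) (nat_lit 44) (nat_lit 5) (nat_lit 374) (nat_lit 351) (nat_lit 175)) (XT.nd (nat_lit 78) (nat_lit 152) (nat_lit 0) (XT.lf (nat_lit 0) (nat_lit 95354837000) (nat_lit 228) (nat_lit 357004110914) (nat_lit 76) (nat_lit 166678772614) (nat_lit 38) (nat_lit 5) (nat_lit 41) (nat_lit 5) (nat_lit 39) (nat_lit 5) (nat_lit 375) (nat_lit 351) (nat_lit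 174)) (XT.lf (nat_lit 0) (nat_lit 127785465655) (nat_lit 152) (nat_lit 158790286336) (nat_lit 228) (nat_lit 366007483148) (nat_lit 36) (nat_lit 5) (nat_lit 38) (nat_lit 5) (nat_lit 39) (nat_lit 5) (nat_lit 376) (nat_lit 351) (nat_lit 173)))) (XT.nd (nat_lit 78) (nat_lit 380) (nat_lit 0) (XT.lf (nat_lit 0) (nat_lit 501885954023) (nat_lit 228) (nat_lit 26967723835) (nat_lit 76) (nat_lit 159519132414) (nat_lit 36) (nat_lit 5) (nat_lit 39) (nat_lit 5) (nat_lit 37) (nat_lit 5) (nat_lit 377) (nat_lit 351) (nat_lit 172)) (XT.nd (nat_lit 78) (nat_lit 152) (nat_lit 0) (XT.lf (nat_lit 0) (nat_lit 18208106489) (nat_lit 228) (nat_lit 201967383603) (nat_lit 76) (nat_lit 506291818931) (nat_lit 33) (nat_lit 5) (nat_lit 36) (nat_lit 5) (nat_lit 34) (nat_lit 5) (nat_lit 378) (nat_lit 351) (nat_lit 171)) (XT.lf (nat_lit 0) (nat_lit 240879314555) (nat_lit 228) (nat_lit 407172440100) (nat_lit 76) (nat_lit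 118998043009) (nat_lit 31) (nat_lit 5) (nat_lit 34) (nat_lit 5) (nat_lit 32) (nat_lit 5) (nat_lit 379) (nat_lit 351) (nat_lit 170))))))) (XT.nd (nat_lit 45240) (nat_lit 0) (nat_lit 2052) (XT.nd (nat_lit 44772) (nat_lit 0) (nat_lit 4940) (XT.nd (nat_lit 156) (nat_lit 304) (nat_lit 0) (XT.nd (nat_lit 78) (nat_lit 0) (nat_lit 0) (XT.lf (nat_lit 0) (nat_lit 164679339979) (nat_lit 152) (nat_lit 326544313109) (nat_lit 228) (nat_lit 319162260648) (nat_lit 29) (nat_lit 5) (nat_lit 31) (nat_lit 5) (nat_lit 32) (nat_lit 5) (nat_lit 380) (nat_lit 351) (nat_lit 169)) (XT.lf (nat_lit 0) (nat_lit 769127377088) (nat_lit 228) (nat_lit 60454310512) (nat_lit 76) (nat_lit 27230639607) (nat_lit 29) (nat_lit 5) (nat_lit 32) (nat_lit 5) (nat_lit 30) (nat_lit 4) (nat_lit 381) (nat_lit 351) (nat_lit 168))) (XT.nd (nat_lit 78) (nat_lit 152) (nat_lit 0) (XT.lf (nat_lit 0) (nat_lit 171992471193) (nat_lit 152) (nat_lit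 324164936589) (nat_lit 76) (nat_lit 409924896024) (nat_lit 27) (nat_lit 5) (nat_lit 29) (nat_lit 5) (nat_lit 28) (nat_lit 5) (nat_lit 382) (nat_lit 351) (nat_lit 167)) (XT.nd (nat_lit 44460) (nat_lit 0) (nat_lit 5700) (XT.lf (nat_lit 0) (nat_lit 327585268410) (nat_lit 152) (nat_lit 128012654952) (nat_lit 228) (nat_lit 503312787751) (nat_lit 25) (nat_lit 5) (nat_lit 27) (nat_lit 5) (nat_lit 28) (nat_lit 5) (nat_lit 383) (nat_lit 351) (nat_lit 166)) (XT.lf (nat_lit 0) (nat_lit 54864830763) (nat_lit 0) (nat_lit 54864830763) (nat_lit 684) (nat_lit 1909920654) (nat_lit 100) (nat_lit 5) (nat_lit 100) (nat_lit 3) (nat_lit 109) (nat_lit 3) (nat_lit 352) (nat_lit 352) (nat_lit 196))))) (XT.nd (nat_lit 234) (nat_lit 0) (nat_lit 152) (XT.nd (nat_lit 78) (nat_lit 760) (nat_lit 0) (XT.lf (nat_lit 76) (nat_lit 52937802835) (nat_lit 0) (nat_lit 177004064187) (nat_lit 760) (nat_lit 2183252369) (nat_lit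 101) (nat_lit 5) (nat_lit 100) (nat_lit 5) (nat_lit 110) (nat_lit 5) (nat_lit 353) (nat_lit 352) (nat_lit 195)) (XT.nd (nat_lit 78) (nat_lit 0) (nat_lit 76) (XT.lf (nat_lit 0) (nat_lit 3457998699) (nat_lit 760) (nat_lit 6657240369) (nat_lit 836) (nat_lit 231370815138) (nat_lit 90) (nat_lit 5) (nat_lit 100) (nat_lit 5) (nat_lit 101) (nat_lit 5) (nat_lit 354) (nat_lit 352) (nat_lit 194)) (XT.lf (nat_lit 0) (nat_lit 15076516613) (nat_lit 760) (nat_lit 68575417164) (nat_lit 836) (nat_lit 167662017878) (nat_lit 91) (nat_lit 5) (nat_lit 101) (nat_lit 5) (nat_lit 102) (nat_lit 5) (nat_lit 355) (nat_lit 352) (nat_lit 193)))) (XT.nd (nat_lit 78) (nat_lit 0) (nat_lit 76) (XT.lf (nat_lit 0) (nat_lit 31491482164) (nat_lit 760) (nat_lit 133792097325) (nat_lit 836) (nat_lit 96451153346) (nat_lit 92) (nat_lit 5) (nat_lit 102) (nat_lit 5) (nat_lit 103) (nat_lit 5) (nat_lit 356) (nat_lit 352) (nat_lit 192))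 (XT.nd (nat_lit 78) (nat_lit 0) (nat_lit 0) (XT.lf (nat_lit 0) (nat_lit 53219807102) (nat_lit 760) (nat_lit 202548801402) (nat_lit 836) (nat_lit 17020560123) (nat_lit 93) (nat_lit 5) (nat_lit 103) (nat_lit 5) (nat_lit 104) (nat_lit 5) (nat_lit 357) (nat_lit 352) (nat_lit 191)) (XT.lf (nat_lit 76) (nat_lit 8198771118) (nat_lit 0) (nat_lit 73771245470) (nat_lit 836) (nat_lit 202493761977) (nat_lit 94) (nat_lit 5) (nat_lit 93) (nat_lit 5) (nat_lit 104) (nat_lit 5) (nat_lit 358) (nat_lit 352) (nat_lit 190)))))) (XT.nd (nat_lit 468) (nat_lit 1444) (nat_lit 0) (XT.nd (nat_lit 234) (nat_lit 684) (nat_lit 0) (XT.nd (nat_lit 78) (nat_lit 1064) (nat_lit 0) (XT.lf (nat_lit 0) (nat_lit 118523245950) (nat_lit 760) (nat_lit 55831839279) (nat_lit 76) (nat_lit 122442122107) (nat_lit 94) (nat_lit 5) (nat_lit 104) (nat_lit 5) (nat_lit 95) (nat_lit 5) (nat_lit 359) (nat_lit 352) (nat_lit 189)) (XT.nd (nat_lit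 78) (nat_lit 380) (nat_lit 0) (XT.lf (nat_lit 0) (nat_lit 162551142385) (nat_lit 760) (nat_lit 123320194116) (nat_lit 76) (nat_lit 24018453653) (nat_lit 85) (nat_lit 5) (nat_lit 95) (nat_lit 5) (nat_lit 86) (nat_lit 5) (nat_lit 360) (nat_lit 352) (nat_lit 188)) (XT.lf (nat_lit 0) (nat_lit 127500539270) (nat_lit 380) (nat_lit 88519694708) (nat_lit 456) (nat_lit 107713597612) (nat_lit 80) (nat_lit 5) (nat_lit 85) (nat_lit 5) (nat_lit 86) (nat_lit 5) (nat_lit 361) (nat_lit 352) (nat_lit 187)))) (XT.nd (nat_lit 78) (nat_lit 380) (nat_lit 0) (XT.lf (nat_lit 0) (nat_lit 64289325207) (nat_lit 304) (nat_lit 214610193388) (nat_lit 380) (nat_lit 59529244615) (nat_lit 76) (nat_lit 5) (nat_lit 80) (nat_lit 5) (nat_lit 81) (nat_lit 5) (nat_lit 362) (nat_lit 352) (nat_lit 186)) (XT.nd (nat_lit 78) (nat_lit 380) (nat_lit 0) (XT.lf (nat_lit 0) (nat_lit 351119111280) (nat_lit 304) (nat_lit 576714755) (nat_lit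 380) (nat_lit 2359129464) (nat_lit 76) (nat_lit 5) (nat_lit 80) (nat_lit 5) (nat_lit 81) (nat_lit 5) (nat_lit 363) (nat_lit 352) (nat_lit 185)) (XT.lf (nat_lit 0) (nat_lit 65837314588) (nat_lit 380) (nat_lit 75749780539) (nat_lit 76) (nat_lit 228880120294) (nat_lit 71) (nat_lit 5) (nat_lit 76) (nat_lit 5) (nat_lit 72) (nat_lit 5) (nat_lit 364) (nat_lit 352) (nat_lit 184))))) (XT.nd (nat_lit 234) (nat_lit 608) (nat_lit 0) (XT.nd (nat_lit 78) (nat_lit 532) (nat_lit 0) (XT.lf (nat_lit 0) (nat_lit 144590967948) (nat_lit 380) (nat_lit 153858980809) (nat_lit 76) (nat_lit 89481366473) (nat_lit 67) (nat_lit 5) (nat_lit 72) (nat_lit 5) (nat_lit 68) (nat_lit 5) (nat_lit 365) (nat_lit 352) (nat_lit 183)) (XT.nd (nat_lit 78) (nat_lit 228) (nat_lit 0) (XT.lf (nat_lit 0) (nat_lit 167614196729) (nat_lit 304) (nat_lit 68376115215) (nat_lit 380) (nat_lit 170484961269) (nat_lit 63) (nat_lit 5) (nat_lit 67)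 (nat_lit 5) (nat_lit 68) (nat_lit 5) (nat_lit 366) (nat_lit 352) (nat_lit 182)) (XT.lf (nat_lit 0) (nat_lit 94086119314) (nat_lit 228) (nat_lit 247620330178) (nat_lit 304) (nat_lit 84446056142) (nat_lit 60) (nat_lit 5) (nat_lit 63) (nat_lit 5) (nat_lit 64) (nat_lit 5) (nat_lit 367) (nat_lit 352) (nat_lit 181)))) (XT.nd (nat_lit 78) (nat_lit 228) (nat_lit 0) (XT.lf (nat_lit 0) (nat_lit 13811295731) (nat_lit 380) (nat_lit 433021208244) (nat_lit 76) (nat_lit 284465183) (nat_lit 55) (nat_lit 5) (nat_lit 60) (nat_lit 5) (nat_lit 56) (nat_lit 5) (nat_lit 368) (nat_lit 352) (nat_lit 180)) (XT.nd (nat_lit 78) (nat_lit 228) (nat_lit 0) (XT.lf (nat_lit 0) (nat_lit 127064672211) (nat_lit 380) (nat_lit 75354682867) (nat_lit 76) (nat_lit 266765315946) (nat_lit 55) (nat_lit 5) (nat_lit 60) (nat_lit 5) (nat_lit 56) (nat_lit 5) (nat_lit 369) (nat_lit 352) (nat_lit 179)) (XT.lf (nat_lit 0) (nat_lit 255436297661)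 (nat_lit 304) (nat_lit 172604521564) (nat_lit 76) (nat_lit 64674070944) (nat_lit 52) (nat_lit 5) (nat_lit 56) (nat_lit 5) (nat_lit 53) (nat_lit 5) (nat_lit 370) (nat_lit 352) (nat_lit 178))))))))
noncomputable def xc120 : XT := (XT.nd (nat_lit 46176) (nat_lit 0) (nat_lit 152) (XT.nd (nat_lit 858) (nat_lit 152) (nat_lit 0) (XT.nd (nat_lit 390) (nat_lit 912) (nat_lit 0) (XT.nd (nat_lit 156) (nat_lit 380) (nat_lit 0) (XT.nd (nat_lit 78) (nat_lit 228) (nat_lit 0) (XT.lf (nat_lit 0) (nat_lit 235959008419) (nat_lit 228) (nat_lit 166549866415) (nat_lit 304) (nat_lit 115197090998) (nat_lit 49) (nat_lit 5) (nat_lit 52) (nat_lit 5) (nat_lit 53) (nat_lit 5) (nat_lit 371) (nat_lit 352) (nat_lit 177)) (XT.lf (nat_lit 0) (nat_lit 23307896740) (nat_lit 228) (nat_lit 403222827799) (nat_lit 76) (nat_lit 117793109692) (nat_lit 46) (nat_lit 5) (nat_lit 49) (nat_lit 5) (nat_lit 47) (nat_lit 5) (nat_lit 372)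 (nat_lit 352) (nat_lit 176))) (XT.nd (nat_lit 78) (nat_lit 152) (nat_lit 0) (XT.lf (nat_lit 0) (nat_lit 31178758929) (nat_lit 228) (nat_lit 146015903005) (nat_lit 304) (nat_lit 395365180214) (nat_lit 43) (nat_lit 5) (nat_lit 46) (nat_lit 5) (nat_lit 47) (nat_lit 5) (nat_lit 373) (nat_lit 352) (nat_lit 175)) (XT.nd (nat_lit 78) (nat_lit 152) (nat_lit 0) (XT.lf (nat_lit 0) (nat_lit 352981610436) (nat_lit 304) (nat_lit 90537617853) (nat_lit 76) (nat_lit 159056040356) (nat_lit 43) (nat_lit 5) (nat_lit 47) (nat_lit 5) (nat_lit 44) (nat_lit 5) (nat_lit 374) (nat_lit 352) (nat_lit 174)) (XT.lf (nat_lit 0) (nat_lit 406935627550) (nat_lit 152) (nat_lit 144711332261) (nat_lit 228) (nat_lit 82904197250) (nat_lit 41) (nat_lit 5) (nat_lit 43) (nat_lit 5) (nat_lit 44) (nat_lit 5) (nat_lit 375) (nat_lit 352) (nat_lit 173))))) (XT.nd (nat_lit 234) (nat_lit 532) (nat_lit 0) (XT.nd (nat_lit 78) (nat_lit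 152) (nat_lit 0) (XT.lf (nat_lit 0) (nat_lit 102984302414) (nat_lit 228) (nat_lit 385562742805) (nat_lit 76) (nat_lit 180013638188) (nat_lit 38) (nat_lit 5) (nat_lit 41) (nat_lit 5) (nat_lit 39) (nat_lit 5) (nat_lit 376) (nat_lit 352) (nat_lit 172)) (XT.nd (nat_lit 78) (nat_lit 0) (nat_lit 0) (XT.lf (nat_lit 0) (nat_lit 138009926141) (nat_lit 152) (nat_lit 171492909921) (nat_lit 228) (nat_lit 395287005913) (nat_lit 36) (nat_lit 5) (nat_lit 38) (nat_lit 5) (nat_lit 39) (nat_lit 5) (nat_lit 377) (nat_lit 352) (nat_lit 171)) (XT.lf (nat_lit 0) (nat_lit 542037787074) (nat_lit 228) (nat_lit 29123599287) (nat_lit 76) (nat_lit 172281200174) (nat_lit 36) (nat_lit 5) (nat_lit 39) (nat_lit 5) (nat_lit 37) (nat_lit 5) (nat_lit 378) (nat_lit 352) (nat_lit 170)))) (XT.nd (nat_lit 78) (nat_lit 304) (nat_lit 0) (XT.lf (nat_lit 0) (nat_lit 19665679451) (nat_lit 228) (nat_lit 218123267667) (nat_lit 76)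 (nat_lit 546795699768) (nat_lit 33) (nat_lit 5) (nat_lit 36) (nat_lit 5) (nat_lit 34) (nat_lit 5) (nat_lit 379) (nat_lit 352) (nat_lit 169)) (XT.nd (nat_lit 78) (nat_lit 152) (nat_lit 0) (XT.lf (nat_lit 0) (nat_lit 260150546970) (nat_lit 228) (nat_lit 439744758433) (nat_lit 76) (nat_lit 128518431122) (nat_lit 31) (nat_lit 5) (nat_lit 34) (nat_lit 5) (nat_lit 32) (nat_lit 5) (nat_lit 380) (nat_lit 352) (nat_lit 168)) (XT.lf (nat_lit 0) (nat_lit 177855099870) (nat_lit 152) (nat_lit 352667289051) (nat_lit 228) (nat_lit 344694355190) (nat_lit 29) (nat_lit 5) (nat_lit 31) (nat_lit 5) (nat_lit 32) (nat_lit 5) (nat_lit 381) (nat_lit 352) (nat_lit 167)))))) (XT.nd (nat_lit 44850) (nat_lit 0) (nat_lit 4408) (XT.nd (nat_lit 44616) (nat_lit 0) (nat_lit 4788) (XT.nd (nat_lit 78) (nat_lit 152) (nat_lit 0) (XT.lf (nat_lit 0) (nat_lit 830658356579) (nat_lit 228) (nat_lit 65289315972) (nat_lit 76) (nat_lit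 29409600861) (nat_lit 29) (nat_lit 5) (nat_lit 32) (nat_lit 5) (nat_lit 30) (nat_lit 4) (nat_lit 382) (nat_lit 352) (nat_lit 166)) (XT.lf (nat_lit 0) (nat_lit 185752632509) (nat_lit 152) (nat_lit 350096824648) (nat_lit 76) (nat_lit 442719392326) (nat_lit 27) (nat_lit 5) (nat_lit 29) (nat_lit 5) (nat_lit 28) (nat_lit 5) (nat_lit 383) (nat_lit 352) (nat_lit 165))) (XT.nd (nat_lit 78) (nat_lit 760) (nat_lit 0) (XT.lf (nat_lit 0) (nat_lit 59254966372) (nat_lit 0) (nat_lit 59254966372) (nat_lit 684) (nat_lit 2060718175) (nat_lit 100) (nat_lit 5) (nat_lit 100) (nat_lit 3) (nat_lit 109) (nat_lit 3) (nat_lit 353) (nat_lit 353) (nat_lit 194)) (XT.nd (nat_lit 78) (nat_lit 760) (nat_lit 0) (XT.lf (nat_lit 76) (nat_lit 57174858376) (nat_lit 0) (nat_lit 191165877644) (nat_lit 760) (nat_lit 2354211533) (nat_lit 101) (nat_lit 5) (nat_lit 100) (nat_lit 5) (nat_lit 110) (nat_lit 5) (nat_lit 354) (nat_lit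 353) (nat_lit 193)) (XT.lf (nat_lit 0) (nat_lit 3737955789) (nat_lit 760) (nat_lit 7187824303) (nat_lit 836) (nat_lit 249878987823) (nat_lit 90) (nat_lit 5) (nat_lit 100) (nat_lit 5) (nat_lit 101) (nat_lit 5) (nat_lit 355) (nat_lit 353) (nat_lit 192))))) (XT.nd (nat_lit 234) (nat_lit 456) (nat_lit 0) (XT.nd (nat_lit 78) (nat_lit 0) (nat_lit 76) (XT.lf (nat_lit 0) (nat_lit 16285720595) (nat_lit 760) (nat_lit 74059363854) (nat_lit 836) (nat_lit 181073824791) (nat_lit 91) (nat_lit 5) (nat_lit 101) (nat_lit 5) (nat_lit 102) (nat_lit 5) (nat_lit 356) (nat_lit 353) (nat_lit 191)) (XT.nd (nat_lit 78) (nat_lit 0) (nat_lit 76) (XT.lf (nat_lit 0) (nat_lit 34013672321) (nat_lit 760) (nat_lit 144493306864) (nat_lit 836) (nat_lit 104166384609) (nat_lit 92) (nat_lit 5) (nat_lit 102) (nat_lit 5) (nat_lit 103) (nat_lit 5) (nat_lit 357) (nat_lit 353) (nat_lit 190)) (XT.lf (nat_lit 0) (nat_lit 57480072992)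 (nat_lit 760) (nat_lit 218750492938) (nat_lit 836) (nat_lit 18381598336) (nat_lit 93) (nat_lit 5) (nat_lit 103) (nat_lit 5) (nat_lit 104) (nat_lit 5) (nat_lit 358) (nat_lit 353) (nat_lit 189)))) (XT.nd (nat_lit 78) (nat_lit 608) (nat_lit 0) (XT.lf (nat_lit 76) (nat_lit 8856789228) (nat_lit 0) (nat_lit 79673344436) (nat_lit 836) (nat_lit 218690617894) (nat_lit 94) (nat_lit 5) (nat_lit 93) (nat_lit 5) (nat_lit 104) (nat_lit 5) (nat_lit 359) (nat_lit 353) (nat_lit 188)) (XT.nd (nat_lit 78) (nat_lit 684) (nat_lit 0) (XT.lf (nat_lit 0) (nat_lit 128007429251) (nat_lit 760) (nat_lit 60296301285) (nat_lit 76) (nat_lit 132237133961) (nat_lit 94) (nat_lit 5) (nat_lit 104) (nat_lit 5) (nat_lit 95) (nat_lit 5) (nat_lit 360) (nat_lit 353) (nat_lit 187)) (XT.lf (nat_lit 0) (nat_lit 175557413482) (nat_lit 760) (nat_lit 133183700052) (nat_lit 76) (nat_lit 25939747842) (nat_lit 85) (nat_lit 5) (nat_lit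 95) (nat_lit 5) (nat_lit 86) (nat_lit 5) (nat_lit 361) (nat_lit 353) (nat_lit 186))))))) (XT.nd (nat_lit 858) (nat_lit 1520) (nat_lit 0) (XT.nd (nat_lit 390) (nat_lit 1368) (nat_lit 0) (XT.nd (nat_lit 156) (nat_lit 684) (nat_lit 0) (XT.nd (nat_lit 78) (nat_lit 304) (nat_lit 0) (XT.lf (nat_lit 0) (nat_lit 137702600324) (nat_lit 380) (nat_lit 95601302124) (nat_lit 456) (nat_lit 116328530399) (nat_lit 80) (nat_lit 5) (nat_lit 85) (nat_lit 5) (nat_lit 86) (nat_lit 5) (nat_lit 362) (nat_lit 353) (nat_lit 185)) (XT.lf (nat_lit 0) (nat_lit 69434502610) (nat_lit 304) (nat_lit 231778906646) (nat_lit 380) (nat_lit 64289555975) (nat_lit 76) (nat_lit 5) (nat_lit 80) (nat_lit 5) (nat_lit 81) (nat_lit 5) (nat_lit 363) (nat_lit 353) (nat_lit 184))) (XT.nd (nat_lit 78) (nat_lit 684) (nat_lit 0) (XT.lf (nat_lit 0) (nat_lit 379210521097) (nat_lit 304) (nat_lit 622757294) (nat_lit 380) (nat_lit 2545981850)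 (nat_lit 76) (nat_lit 5) (nat_lit 80) (nat_lit 5) (nat_lit 81) (nat_lit 5) (nat_lit 364) (nat_lit 353) (nat_lit 183)) (XT.nd (nat_lit 78) (nat_lit 304) (nat_lit 0) (XT.lf (nat_lit 0) (nat_lit 71106014274) (nat_lit 380) (nat_lit 81807818717) (nat_lit 76) (nat_lit 247190671835) (nat_lit 71) (nat_lit 5) (nat_lit 76) (nat_lit 5) (nat_lit 72) (nat_lit 5) (nat_lit 365) (nat_lit 353) (nat_lit 182)) (XT.lf (nat_lit 0) (nat_lit 156159865735) (nat_lit 380) (nat_lit 166165760526) (nat_lit 76) (nat_lit 96640111222) (nat_lit 67) (nat_lit 5) (nat_lit 72) (nat_lit 5) (nat_lit 68) (nat_lit 5) (nat_lit 366) (nat_lit 353) (nat_lit 181))))) (XT.nd (nat_lit 234) (nat_lit 456) (nat_lit 0) (XT.nd (nat_lit 78) (nat_lit 608) (nat_lit 0) (XT.lf (nat_lit 0) (nat_lit 181025186960) (nat_lit 304) (nat_lit 73845879219) (nat_lit 380) (nat_lit 184122150625) (nat_lit 63) (nat_lit 5) (nat_lit 67) (nat_lit 5) (nat_lit 68)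 (nat_lit 5) (nat_lit 367) (nat_lit 353) (nat_lit 180)) (XT.nd (nat_lit 78) (nat_lit 380) (nat_lit 0) (XT.lf (nat_lit 0) (nat_lit 101614852766) (nat_lit 228) (nat_lit 267429562174) (nat_lit 304) (nat_lit 91200217001) (nat_lit 60) (nat_lit 5) (nat_lit 63) (nat_lit 5) (nat_lit 64) (nat_lit 5) (nat_lit 368) (nat_lit 353) (nat_lit 179)) (XT.lf (nat_lit 0) (nat_lit 14917599823) (nat_lit 380) (nat_lit 467661028322) (nat_lit 76) (nat_lit 307627052) (nat_lit 55) (nat_lit 5) (nat_lit 60) (nat_lit 5) (nat_lit 56) (nat_lit 5) (nat_lit 369) (nat_lit 353) (nat_lit 178)))) (XT.nd (nat_lit 78) (nat_lit 456) (nat_lit 0) (XT.lf (nat_lit 0) (nat_lit 137231142686) (nat_lit 380) (nat_lit 81381319920) (nat_lit 76) (nat_lit 288106915901) (nat_lit 55) (nat_lit 5) (nat_lit 60) (nat_lit 5) (nat_lit 56) (nat_lit 5) (nat_lit 370) (nat_lit 353) (nat_lit 177)) (XT.nd (nat_lit 78) (nat_lit 228) (nat_lit 0) (XT.lf (nat_lit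 0) (nat_lit 275872434868) (nat_lit 304) (nat_lit 186411165433) (nat_lit 76) (nat_lit 69848418149) (nat_lit 52) (nat_lit 5) (nat_lit 56) (nat_lit 5) (nat_lit 53) (nat_lit 5) (nat_lit 371) (nat_lit 353) (nat_lit 176)) (XT.lf (nat_lit 0) (nat_lit 254837372293) (nat_lit 228) (nat_lit 179873380215) (nat_lit 304) (nat_lit 124411631038) (nat_lit 49) (nat_lit 5) (nat_lit 52) (nat_lit 5) (nat_lit 53) (nat_lit 5) (nat_lit 372) (nat_lit 353) (nat_lit 175)))))) (XT.nd (nat_lit 468) (nat_lit 532) (nat_lit 0) (XT.nd (nat_lit 234) (nat_lit 532) (nat_lit 0) (XT.nd (nat_lit 78) (nat_lit 228) (nat_lit 0) (XT.lf (nat_lit 0) (nat_lit 25173661163) (nat_lit 228) (nat_lit 435478993889) (nat_lit 76) (nat_lit 127217028254) (nat_lit 46) (nat_lit 5) (nat_lit 49) (nat_lit 5) (nat_lit 47) (nat_lit 5) (nat_lit 373) (nat_lit 353) (nat_lit 174)) (XT.nd (nat_lit 78) (nat_lit 0) (nat_lit 0) (XT.lf (nat_lit 0) (nat_lit 33674647630)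 (nat_lit 228) (nat_lit 157696660833) (nat_lit 304) (nat_lit 426993266424) (nat_lit 43) (nat_lit 5) (nat_lit 46) (nat_lit 5) (nat_lit 47) (nat_lit 5) (nat_lit 374) (nat_lit 353) (nat_lit 173)) (XT.lf (nat_lit 0) (nat_lit 381221140757) (nat_lit 304) (nat_lit 97779113773) (nat_lit 76) (nat_lit 171780984648) (nat_lit 43) (nat_lit 5) (nat_lit 47) (nat_lit 5) (nat_lit 44) (nat_lit 5) (nat_lit 375) (nat_lit 353) (nat_lit 172)))) (XT.nd (nat_lit 78) (nat_lit 380) (nat_lit 0) (XT.lf (nat_lit 0) (nat_lit 439491925487) (nat_lit 152) (nat_lit 156287741015) (nat_lit 228) (nat_lit 89535534811) (nat_lit 41) (nat_lit 5) (nat_lit 43) (nat_lit 5) (nat_lit 44) (nat_lit 5) (nat_lit 376) (nat_lit 353) (nat_lit 171)) (XT.nd (nat_lit 78) (nat_lit 152) (nat_lit 0) (XT.lf (nat_lit 0) (nat_lit 111223971207) (nat_lit 228) (nat_lit 416406307340) (nat_lit 76) (nat_lit 194415212580) (nat_lit 38) (nat_lit 5) (nat_lit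 41) (nat_lit 5) (nat_lit 39) (nat_lit 5) (nat_lit 377) (nat_lit 353) (nat_lit 170)) (XT.lf (nat_lit 0) (nat_lit 149052111894) (nat_lit 152) (nat_lit 185211828893) (nat_lit 228) (nat_lit 426909043987) (nat_lit 36) (nat_lit 5) (nat_lit 38) (nat_lit 5) (nat_lit 39) (nat_lit 5) (nat_lit 378) (nat_lit 353) (nat_lit 169))))) (XT.nd (nat_lit 234) (nat_lit 152) (nat_lit 0) (XT.nd (nat_lit 78) (nat_lit 380) (nat_lit 0) (XT.lf (nat_lit 0) (nat_lit 585401630282) (nat_lit 228) (nat_lit 31452164823) (nat_lit 76) (nat_lit 186064156722) (nat_lit 36) (nat_lit 5) (nat_lit 39) (nat_lit 5) (nat_lit 37) (nat_lit 5) (nat_lit 379) (nat_lit 353) (nat_lit 168)) (XT.nd (nat_lit 78) (nat_lit 152) (nat_lit 0) (XT.lf (nat_lit 0) (nat_lit 21239726369) (nat_lit 228) (nat_lit 235571837393) (nat_lit 76) (nat_lit 590539814702) (nat_lit 33) (nat_lit 5) (nat_lit 36) (nat_lit 5) (nat_lit 34) (nat_lit 5) (nat_lit 380) (nat_lit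 353) (nat_lit 167)) (XT.lf (nat_lit 0) (nat_lit 280963351403) (nat_lit 228) (nat_lit 474923072924) (nat_lit 76) (nat_lit 138800372580) (nat_lit 31) (nat_lit 5) (nat_lit 34) (nat_lit 5) (nat_lit 32) (nat_lit 5) (nat_lit 381) (nat_lit 353) (nat_lit 166)))) (XT.nd (nat_lit 78) (nat_lit 0) (nat_lit 0) (XT.lf (nat_lit 0) (nat_lit 192084719016) (nat_lit 152) (nat_lit 380880184258) (nat_lit 228) (nat_lit 372269143737) (nat_lit 29) (nat_lit 5) (nat_lit 31) (nat_lit 5) (nat_lit 32) (nat_lit 5) (nat_lit 382) (nat_lit 353) (nat_lit 165)) (XT.nd (nat_lit 44616) (nat_lit 0) (nat_lit 5396) (XT.lf (nat_lit 0) (nat_lit 897111701824) (nat_lit 228) (nat_lit 70511312947) (nat_lit 76) (nat_lit 31762806246) (nat_lit 29) (nat_lit 5) (nat_lit 32) (nat_lit 5) (nat_lit 30) (nat_lit 4) (nat_lit 383) (nat_lit 353) (nat_lit 164)) (XT.lf (nat_lit 0) (nat_lit 63996177424) (nat_lit 0) (nat_lit 63996177424) (nat_lit 684)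 (nat_lit 2223864268) (nat_lit 100) (nat_lit 5) (nat_lit 100) (nat_lit 3) (nat_lit 109) (nat_lit 3) (nat_lit 354) (nat_lit 354) (nat_lit 192))))))))
noncomputable def xc121 : XT := (XT.nd (nat_lit 1716) (nat_lit 912) (nat_lit 0) (XT.nd (nat_lit 858) (nat_lit 2508) (nat_lit 0) (XT.nd (nat_lit 390) (nat_lit 1064) (nat_lit 0) (XT.nd (nat_lit 156) (nat_lit 0) (nat_lit 76) (XT.nd (nat_lit 78) (nat_lit 760) (nat_lit 0) (XT.lf (nat_lit 76) (nat_lit 61750588571) (nat_lit 0) (nat_lit 206460423852) (nat_lit 760) (nat_lit 2539375423) (nat_lit 101) (nat_lit 5) (nat_lit 100) (nat_lit 5) (nat_lit 110) (nat_lit 5) (nat_lit 355) (nat_lit 354) (nat_lit 191)) (XT.lf (nat_lit 0) (nat_lit 4039836211) (nat_lit 760) (nat_lit 7761139602) (nat_lit 836) (nat_lit 269868027249) (nat_lit 90) (nat_lit 5) (nat_lit 100) (nat_lit 5) (nat_lit 101) (nat_lit 5) (nat_lit 356) (nat_lit 354) (nat_lit 190))) (XT.nd (nat_lit 78)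 (nat_lit 0) (nat_lit 76) (XT.lf (nat_lit 0) (nat_lit 17591221121) (nat_lit 760) (nat_lit 79982323968) (nat_lit 836) (nat_lit 195558740962) (nat_lit 91) (nat_lit 5) (nat_lit 101) (nat_lit 5) (nat_lit 102) (nat_lit 5) (nat_lit 357) (nat_lit 354) (nat_lit 189)) (XT.nd (nat_lit 78) (nat_lit 0) (nat_lit 76) (XT.lf (nat_lit 0) (nat_lit 36737228027) (nat_lit 760) (nat_lit 156050921065) (nat_lit 836) (nat_lit 112498957205) (nat_lit 92) (nat_lit 5) (nat_lit 102) (nat_lit 5) (nat_lit 103) (nat_lit 5) (nat_lit 358) (nat_lit 354) (nat_lit 188)) (XT.lf (nat_lit 0) (nat_lit 62080777634) (nat_lit 760) (nat_lit 236248635446) (nat_lit 836) (nat_lit 19851606144) (nat_lit 93) (nat_lit 5) (nat_lit 103) (nat_lit 5) (nat_lit 104) (nat_lit 5) (nat_lit 359) (nat_lit 354) (nat_lit 187))))) (XT.nd (nat_lit 234) (nat_lit 684) (nat_lit 0) (XT.nd (nat_lit 78) (nat_lit 608) (nat_lit 0) (XT.lf (nat_lit 76) (nat_lit 9567146856)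 (nat_lit 0) (nat_lit 86047554351) (nat_lit 836) (nat_lit 236183599630) (nat_lit 94) (nat_lit 5) (nat_lit 93) (nat_lit 5) (nat_lit 104) (nat_lit 5) (nat_lit 360) (nat_lit 354) (nat_lit 186)) (XT.nd (nat_lit 78) (nat_lit 684) (nat_lit 0) (XT.lf (nat_lit 0) (nat_lit 138250015724) (nat_lit 760) (nat_lit 65118217720) (nat_lit 76) (nat_lit 142815797824) (nat_lit 94) (nat_lit 5) (nat_lit 104) (nat_lit 5) (nat_lit 95) (nat_lit 5) (nat_lit 361) (nat_lit 354) (nat_lit 185)) (XT.lf (nat_lit 0) (nat_lit 189603875308) (nat_lit 760) (nat_lit 143836587420) (nat_lit 76) (nat_lit 28014771544) (nat_lit 85) (nat_lit 5) (nat_lit 95) (nat_lit 5) (nat_lit 86) (nat_lit 5) (nat_lit 362) (nat_lit 354) (nat_lit 184)))) (XT.nd (nat_lit 78) (nat_lit 304) (nat_lit 0) (XT.lf (nat_lit 0) (nat_lit 148720538385) (nat_lit 380) (nat_lit 103249433592) (nat_lit 456) (nat_lit 125632965246) (nat_lit 80) (nat_lit 5) (nat_lit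 85) (nat_lit 5) (nat_lit 86) (nat_lit 5) (nat_lit 363) (nat_lit 354) (nat_lit 183)) (XT.nd (nat_lit 78) (nat_lit 0) (nat_lit 0) (XT.lf (nat_lit 0) (nat_lit 74991004406) (nat_lit 304) (nat_lit 250321131547) (nat_lit 380) (nat_lit 69430981591) (nat_lit 76) (nat_lit 5) (nat_lit 80) (nat_lit 5) (nat_lit 81) (nat_lit 5) (nat_lit 364) (nat_lit 354) (nat_lit 182)) (XT.lf (nat_lit 0) (nat_lit 409548975365) (nat_lit 304) (nat_lit 672496737) (nat_lit 380) (nat_lit 2748050340) (nat_lit 76) (nat_lit 5) (nat_lit 80) (nat_lit 5) (nat_lit 81) (nat_lit 5) (nat_lit 365) (nat_lit 354) (nat_lit 181)))))) (XT.nd (nat_lit 390) (nat_lit 912) (nat_lit 0) (XT.nd (nat_lit 156) (nat_lit 912) (nat_lit 0) (XT.nd (nat_lit 78) (nat_lit 304) (nat_lit 0) (XT.lf (nat_lit 0) (nat_lit 76795965339) (nat_lit 380) (nat_lit 88350777320) (nat_lit 76) (nat_lit 266966047253) (nat_lit 71) (nat_lit 5) (nat_lit 76) (nat_lit 5) (nat_lit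 72) (nat_lit 5) (nat_lit 366) (nat_lit 354) (nat_lit 180)) (XT.lf (nat_lit 0) (nat_lit 168654044183) (nat_lit 380) (nat_lit 179457359204) (nat_lit 76) (nat_lit 104371521965) (nat_lit 67) (nat_lit 5) (nat_lit 72) (nat_lit 5) (nat_lit 68) (nat_lit 5) (nat_lit 367) (nat_lit 354) (nat_lit 179))) (XT.nd (nat_lit 78) (nat_lit 608) (nat_lit 0) (XT.lf (nat_lit 0) (nat_lit 195508791845) (nat_lit 304) (nat_lit 79753270738) (nat_lit 380) (nat_lit 198850544463) (nat_lit 63) (nat_lit 5) (nat_lit 67) (nat_lit 5) (nat_lit 68) (nat_lit 5) (nat_lit 368) (nat_lit 354) (nat_lit 178)) (XT.nd (nat_lit 78) (nat_lit 380) (nat_lit 0) (XT.lf (nat_lit 0) (nat_lit 109745621840) (nat_lit 228) (nat_lit 288823588997) (nat_lit 304) (nat_lit 98494928092) (nat_lit 60) (nat_lit 5) (nat_lit 63) (nat_lit 5) (nat_lit 64) (nat_lit 5) (nat_lit 369) (nat_lit 354) (nat_lit 177)) (XT.lf (nat_lit 0) (nat_lit 16112208456) (nat_lit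 380) (nat_lit 505072301721) (nat_lit 76) (nat_lit 332584142) (nat_lit 55) (nat_lit 5) (nat_lit 60) (nat_lit 5) (nat_lit 56) (nat_lit 5) (nat_lit 370) (nat_lit 354) (nat_lit 176))))) (XT.nd (nat_lit 234) (nat_lit 456) (nat_lit 0) (XT.nd (nat_lit 78) (nat_lit 456) (nat_lit 0) (XT.lf (nat_lit 0) (nat_lit 148210745810) (nat_lit 380) (nat_lit 87890335823) (nat_lit 76) (nat_lit 311155790400) (nat_lit 55) (nat_lit 5) (nat_lit 60) (nat_lit 5) (nat_lit 56) (nat_lit 5) (nat_lit 371) (nat_lit 354) (nat_lit 175)) (XT.nd (nat_lit 78) (nat_lit 228) (nat_lit 0) (XT.lf (nat_lit 0) (nat_lit 297943287095) (nat_lit 304) (nat_lit 201322585883) (nat_lit 76) (nat_lit 75436652994) (nat_lit 52) (nat_lit 5) (nat_lit 56) (nat_lit 5) (nat_lit 53) (nat_lit 5) (nat_lit 372) (nat_lit 354) (nat_lit 174)) (XT.lf (nat_lit 0) (nat_lit 275225770856) (nat_lit 228) (nat_lit 194262842957) (nat_lit 304) (nat_lit 134363509360)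 (nat_lit 49) (nat_lit 5) (nat_lit 52) (nat_lit 5) (nat_lit 53) (nat_lit 5) (nat_lit 373) (nat_lit 354) (nat_lit 173)))) (XT.nd (nat_lit 78) (nat_lit 228) (nat_lit 0) (XT.lf (nat_lit 0) (nat_lit 27188525151) (nat_lit 228) (nat_lit 470315890102) (nat_lit 76) (nat_lit 137394793279) (nat_lit 46) (nat_lit 5) (nat_lit 49) (nat_lit 5) (nat_lit 47) (nat_lit 5) (nat_lit 374) (nat_lit 354) (nat_lit 172)) (XT.nd (nat_lit 78) (nat_lit 0) (nat_lit 0) (XT.lf (nat_lit 0) (nat_lit 36369980884) (nat_lit 228) (nat_lit 170311952673) (nat_lit 304) (nat_lit 461151760481) (nat_lit 43) (nat_lit 5) (nat_lit 46) (nat_lit 5) (nat_lit 47) (nat_lit 5) (nat_lit 375) (nat_lit 354) (nat_lit 171)) (XT.lf (nat_lit 0) (nat_lit 411719690632) (nat_lit 304) (nat_lit 105600145286) (nat_lit 76) (nat_lit 185523858707) (nat_lit 43) (nat_lit 5) (nat_lit 47) (nat_lit 5) (nat_lit 44) (nat_lit 5) (nat_lit 376) (nat_lit 354) (nat_lit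 170))))))) (XT.nd (nat_lit 45630) (nat_lit 0) (nat_lit 1824) (XT.nd (nat_lit 45162) (nat_lit 0) (nat_lit 4484) (XT.nd (nat_lit 156) (nat_lit 532) (nat_lit 0) (XT.nd (nat_lit 78) (nat_lit 228) (nat_lit 0) (XT.lf (nat_lit 0) (nat_lit 474652520724) (nat_lit 152) (nat_lit 168790333490) (nat_lit 228) (nat_lit 96697521783) (nat_lit 41) (nat_lit 5) (nat_lit 43) (nat_lit 5) (nat_lit 44) (nat_lit 5) (nat_lit 377) (nat_lit 354) (nat_lit 169)) (XT.lf (nat_lit 0) (nat_lit 120122681599) (nat_lit 228) (nat_lit 449717564595) (nat_lit 76) (nat_lit 209968843970) (nat_lit 38) (nat_lit 5) (nat_lit 41) (nat_lit 5) (nat_lit 39) (nat_lit 5) (nat_lit 378) (nat_lit 354) (nat_lit 168))) (XT.nd (nat_lit 78) (nat_lit 380) (nat_lit 0) (XT.lf (nat_lit 0) (nat_lit 160977473970) (nat_lit 152) (nat_lit 200028334685) (nat_lit 228) (nat_lit 461060976698) (nat_lit 36) (nat_lit 5) (nat_lit 38) (nat_lit 5) (nat_lit 39) (nat_lit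 5) (nat_lit 379) (nat_lit 354) (nat_lit 167)) (XT.nd (nat_lit 156) (nat_lit 380) (nat_lit 0) (XT.lf (nat_lit 0) (nat_lit 632234463930) (nat_lit 228) (nat_lit 33967204259) (nat_lit 76) (nat_lit 200949684093) (nat_lit 36) (nat_lit 5) (nat_lit 39) (nat_lit 5) (nat_lit 37) (nat_lit 5) (nat_lit 380) (nat_lit 354) (nat_lit 166)) (XT.lf (nat_lit 0) (nat_lit 303441071672) (nat_lit 228) (nat_lit 512915833211) (nat_lit 76) (nat_lit 149904802737) (nat_lit 31) (nat_lit 5) (nat_lit 34) (nat_lit 5) (nat_lit 32) (nat_lit 5) (nat_lit 382) (nat_lit 354) (nat_lit 164))))) (XT.nd (nat_lit 234) (nat_lit 0) (nat_lit 76) (XT.nd (nat_lit 78) (nat_lit 760) (nat_lit 0) (XT.lf (nat_lit 0) (nat_lit 69116569270) (nat_lit 0) (nat_lit 69116569270) (nat_lit 684) (nat_lit 2400306194) (nat_lit 100) (nat_lit 5) (nat_lit 100) (nat_lit 3) (nat_lit 109) (nat_lit 3) (nat_lit 355) (nat_lit 355) (nat_lit 190)) (XT.nd (nat_lit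 78) (nat_lit 760) (nat_lit 0) (XT.lf (nat_lit 76) (nat_lit 66692128734) (nat_lit 0) (nat_lit 222978351721) (nat_lit 760) (nat_lit 2739805093) (nat_lit 101) (nat_lit 5) (nat_lit 100) (nat_lit 5) (nat_lit 110) (nat_lit 5) (nat_lit 356) (nat_lit 355) (nat_lit 189)) (XT.lf (nat_lit 0) (nat_lit 4365461345) (nat_lit 760) (nat_lit 8380564168) (nat_lit 836) (nat_lit 291456372379) (nat_lit 90) (nat_lit 5) (nat_lit 100) (nat_lit 5) (nat_lit 101) (nat_lit 5) (nat_lit 357) (nat_lit 355) (nat_lit 188)))) (XT.nd (nat_lit 78) (nat_lit 0) (nat_lit 76) (XT.lf (nat_lit 0) (nat_lit 19000784652) (nat_lit 760) (nat_lit 86379376111) (nat_lit 836) (nat_lit 211202591634) (nat_lit 91) (nat_lit 5) (nat_lit 101) (nat_lit 5) (nat_lit 102) (nat_lit 5) (nat_lit 358) (nat_lit 355) (nat_lit 187)) (XT.nd (nat_lit 78) (nat_lit 0) (nat_lit 76) (XT.lf (nat_lit 0) (nat_lit 39678316970) (nat_lit 760) (nat_lit 168533408374)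 (nat_lit 836) (nat_lit 121498240918) (nat_lit 92) (nat_lit 5) (nat_lit 102) (nat_lit 5) (nat_lit 103) (nat_lit 5) (nat_lit 359) (nat_lit 355) (nat_lit 186)) (XT.lf (nat_lit 0) (nat_lit 67049210696) (nat_lit 760) (nat_lit 255146899972) (nat_lit 836) (nat_lit 21439288768) (nat_lit 93) (nat_lit 5) (nat_lit 103) (nat_lit 5) (nat_lit 104) (nat_lit 5) (nat_lit 360) (nat_lit 355) (nat_lit 185)))))) (XT.nd (nat_lit 468) (nat_lit 1596) (nat_lit 0) (XT.nd (nat_lit 234) (nat_lit 684) (nat_lit 0) (XT.nd (nat_lit 78) (nat_lit 608) (nat_lit 0) (XT.lf (nat_lit 76) (nat_lit 10334074237) (nat_lit 0) (nat_lit 92931652217) (nat_lit 836) (nat_lit 255076343416) (nat_lit 94) (nat_lit 5) (nat_lit 93) (nat_lit 5) (nat_lit 104) (nat_lit 5) (nat_lit 361) (nat_lit 355) (nat_lit 184)) (XT.nd (nat_lit 78) (nat_lit 684) (nat_lit 0) (XT.lf (nat_lit 0) (nat_lit 149311724916) (nat_lit 760) (nat_lit 70326142500) (nat_lit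 76) (nat_lit 154240798573) (nat_lit 94) (nat_lit 5) (nat_lit 104) (nat_lit 5) (nat_lit 95) (nat_lit 5) (nat_lit 362) (nat_lit 355) (nat_lit 183)) (XT.lf (nat_lit 0) (nat_lit 204773787483) (nat_lit 760) (nat_lit 155341963800) (nat_lit 76) (nat_lit 30255819416) (nat_lit 85) (nat_lit 5) (nat_lit 95) (nat_lit 5) (nat_lit 86) (nat_lit 5) (nat_lit 363) (nat_lit 355) (nat_lit 182)))) (XT.nd (nat_lit 78) (nat_lit 304) (nat_lit 0) (XT.lf (nat_lit 0) (nat_lit 160619664681) (nat_lit 380) (nat_lit 111509411683) (nat_lit 456) (nat_lit 135682018460) (nat_lit 80) (nat_lit 5) (nat_lit 85) (nat_lit 5) (nat_lit 86) (nat_lit 5) (nat_lit 364) (nat_lit 355) (nat_lit 181)) (XT.nd (nat_lit 78) (nat_lit 0) (nat_lit 0) (XT.lf (nat_lit 0) (nat_lit 80991777889) (nat_lit 304) (nat_lit 270346746942) (nat_lit 380) (nat_lit 74983969324) (nat_lit 76) (nat_lit 5) (nat_lit 80) (nat_lit 5) (nat_lit 81) (nat_lit 5) (nat_lit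 365) (nat_lit 355) (nat_lit 180)) (XT.lf (nat_lit 0) (nat_lit 442314275922) (nat_lit 304) (nat_lit 726226912) (nat_lit 380) (nat_lit 2966514002) (nat_lit 76) (nat_lit 5) (nat_lit 80) (nat_lit 5) (nat_lit 81) (nat_lit 5) (nat_lit 366) (nat_lit 355) (nat_lit 179))))) (XT.nd (nat_lit 234) (nat_lit 608) (nat_lit 0) (XT.nd (nat_lit 78) (nat_lit 608) (nat_lit 0) (XT.lf (nat_lit 0) (nat_lit 82940902788) (nat_lit 380) (nat_lit 95417410413) (nat_lit 76) (nat_lit 288323435346) (nat_lit 71) (nat_lit 5) (nat_lit 76) (nat_lit 5) (nat_lit 72) (nat_lit 5) (nat_lit 367) (nat_lit 355) (nat_lit 178)) (XT.nd (nat_lit 78) (nat_lit 304) (nat_lit 0) (XT.lf (nat_lit 0) (nat_lit 182147558724) (nat_lit 380) (nat_lit 193812522903) (nat_lit 76) (nat_lit 112721416772) (nat_lit 67) (nat_lit 5) (nat_lit 72) (nat_lit 5) (nat_lit 68) (nat_lit 5) (nat_lit 368) (nat_lit 355) (nat_lit 177)) (XT.lf (nat_lit 0) (nat_lit 211150858299)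 (nat_lit 304) (nat_lit 86133293356) (nat_lit 380) (nat_lit 214757406426) (nat_lit 63) (nat_lit 5) (nat_lit 67) (nat_lit 5) (nat_lit 68) (nat_lit 5) (nat_lit 369) (nat_lit 355) (nat_lit 176)))) (XT.nd (nat_lit 78) (nat_lit 380) (nat_lit 0) (XT.lf (nat_lit 0) (nat_lit 118526626915) (nat_lit 228) (nat_lit 311929186208) (nat_lit 304) (nat_lit 106373402423) (nat_lit 60) (nat_lit 5) (nat_lit 63) (nat_lit 5) (nat_lit 64) (nat_lit 5) (nat_lit 370) (nat_lit 355) (nat_lit 175)) (XT.nd (nat_lit 78) (nat_lit 0) (nat_lit 0) (XT.lf (nat_lit 0) (nat_lit 17402214493) (nat_lit 380) (nat_lit 545476706515) (nat_lit 76) (nat_lit 359488306) (nat_lit 55) (nat_lit 5) (nat_lit 60) (nat_lit 5) (nat_lit 56) (nat_lit 5) (nat_lit 371) (nat_lit 355) (nat_lit 174)) (XT.lf (nat_lit 0) (nat_lit 160068558587) (nat_lit 380) (nat_lit 94920285518) (nat_lit 76) (nat_lit 336048529033) (nat_lit 55) (nat_lit 5) (nat_lit 60) (nat_lit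 5) (nat_lit 56) (nat_lit 5) (nat_lit 372) (nat_lit 355) (nat_lit 173))))))))
noncomputable def xc122 : XT := (XT.nd (nat_lit 46566) (nat_lit 0) (nat_lit 228) (XT.nd (nat_lit 45708) (nat_lit 0) (nat_lit 2888) (XT.nd (nat_lit 390) (nat_lit 760) (nat_lit 0) (XT.nd (nat_lit 156) (nat_lit 456) (nat_lit 0) (XT.nd (nat_lit 78) (nat_lit 228) (nat_lit 0) (XT.lf (nat_lit 0) (nat_lit 321779656644) (nat_lit 304) (nat_lit 217427130079) (nat_lit 76) (nat_lit 81471895071) (nat_lit 52) (nat_lit 5) (nat_lit 56) (nat_lit 5) (nat_lit 53) (nat_lit 5) (nat_lit 373) (nat_lit 355) (nat_lit 172)) (XT.lf (nat_lit 0) (nat_lit 297245040325) (nat_lit 228) (nat_lit 209803520877) (nat_lit 304) (nat_lit 145111688051) (nat_lit 49) (nat_lit 5) (nat_lit 52) (nat_lit 5) (nat_lit 53) (nat_lit 5) (nat_lit 374) (nat_lit 355) (nat_lit 171))) (XT.nd (nat_lit 78) (nat_lit 228) (nat_lit 0) (XT.lf (nat_lit 0) (nat_lit 29364439720)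 (nat_lit 228) (nat_lit 507939941061) (nat_lit 76) (nat_lit 148386722048) (nat_lit 46) (nat_lit 5) (nat_lit 49) (nat_lit 5) (nat_lit 47) (nat_lit 5) (nat_lit 375) (nat_lit 355) (nat_lit 170)) (XT.nd (nat_lit 78) (nat_lit 0) (nat_lit 0) (XT.lf (nat_lit 0) (nat_lit 39280746573) (nat_lit 228) (nat_lit 183936530778) (nat_lit 304) (nat_lit 498043072054) (nat_lit 43) (nat_lit 5) (nat_lit 46) (nat_lit 5) (nat_lit 47) (nat_lit 5) (nat_lit 376) (nat_lit 355) (nat_lit 169)) (XT.lf (nat_lit 0) (nat_lit 444658002005) (nat_lit 304) (nat_lit 114047044435) (nat_lit 76) (nat_lit 200366106299) (nat_lit 43) (nat_lit 5) (nat_lit 47) (nat_lit 5) (nat_lit 44) (nat_lit 5) (nat_lit 377) (nat_lit 355) (nat_lit 168))))) (XT.nd (nat_lit 312) (nat_lit 228) (nat_lit 0) (XT.nd (nat_lit 78) (nat_lit 380) (nat_lit 0) (XT.lf (nat_lit 0) (nat_lit 512625786509) (nat_lit 152) (nat_lit 182293194251) (nat_lit 228) (nat_lit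 104432589805) (nat_lit 41) (nat_lit 5) (nat_lit 43) (nat_lit 5) (nat_lit 44) (nat_lit 5) (nat_lit 378) (nat_lit 355) (nat_lit 167)) (XT.nd (nat_lit 78) (nat_lit 152) (nat_lit 0) (XT.lf (nat_lit 0) (nat_lit 129733175736) (nat_lit 228) (nat_lit 485693900376) (nat_lit 76) (nat_lit 226766706755) (nat_lit 38) (nat_lit 5) (nat_lit 41) (nat_lit 5) (nat_lit 39) (nat_lit 5) (nat_lit 379) (nat_lit 355) (nat_lit 166)) (XT.lf (nat_lit 0) (nat_lit 173856694800) (nat_lit 152) (nat_lit 216030223785) (nat_lit 228) (nat_lit 497945176843) (nat_lit 36) (nat_lit 5) (nat_lit 38) (nat_lit 5) (nat_lit 39) (nat_lit 5) (nat_lit 380) (nat_lit 355) (nat_lit 165)))) (XT.nd (nat_lit 44850) (nat_lit 0) (nat_lit 5092) (XT.lf (nat_lit 0) (nat_lit 24775333245) (nat_lit 228) (nat_lit 274768845700) (nat_lit 76) (nat_lit 688806402168) (nat_lit 33) (nat_lit 5) (nat_lit 36) (nat_lit 5) (nat_lit 34) (nat_lit 5) (nat_lit 382)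 (nat_lit 355) (nat_lit 163)) (XT.nd (nat_lit 78) (nat_lit 0) (nat_lit 0) (XT.lf (nat_lit 0) (nat_lit 74646492936) (nat_lit 0) (nat_lit 74646492936) (nat_lit 684) (nat_lit 2591072788) (nat_lit 100) (nat_lit 5) (nat_lit 100) (nat_lit 3) (nat_lit 109) (nat_lit 3) (nat_lit 356) (nat_lit 356) (nat_lit 188)) (XT.lf (nat_lit 76) (nat_lit 72028779105) (nat_lit 0) (nat_lit 240817557754) (nat_lit 760) (nat_lit 2956657226) (nat_lit 101) (nat_lit 5) (nat_lit 100) (nat_lit 5) (nat_lit 110) (nat_lit 5) (nat_lit 357) (nat_lit 356) (nat_lit 187)))))) (XT.nd (nat_lit 390) (nat_lit 1444) (nat_lit 0) (XT.nd (nat_lit 156) (nat_lit 0) (nat_lit 152) (XT.nd (nat_lit 78) (nat_lit 0) (nat_lit 76) (XT.lf (nat_lit 0) (nat_lit 4716788647) (nat_lit 760) (nat_lit 9049751926) (nat_lit 836) (nat_lit 314771941625) (nat_lit 90) (nat_lit 5) (nat_lit 100) (nat_lit 5) (nat_lit 101) (nat_lit 5) (nat_lit 358) (nat_lit 356) (nat_lit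 186)) (XT.lf (nat_lit 0) (nat_lit 20522790019) (nat_lit 760) (nat_lit 93288411236) (nat_lit 836) (nat_lit 228098071423) (nat_lit 91) (nat_lit 5) (nat_lit 101) (nat_lit 5) (nat_lit 102) (nat_lit 5) (nat_lit 359) (nat_lit 356) (nat_lit 185))) (XT.nd (nat_lit 78) (nat_lit 0) (nat_lit 76) (XT.lf (nat_lit 0) (nat_lit 42854391912) (nat_lit 760) (nat_lit 182014720982) (nat_lit 836) (nat_lit 131217557613) (nat_lit 92) (nat_lit 5) (nat_lit 102) (nat_lit 5) (nat_lit 103) (nat_lit 5) (nat_lit 360) (nat_lit 356) (nat_lit 184)) (XT.nd (nat_lit 78) (nat_lit 0) (nat_lit 0) (XT.lf (nat_lit 0) (nat_lit 72414837240) (nat_lit 760) (nat_lit 275557257671) (nat_lit 836) (nat_lit 23154049611) (nat_lit 93) (nat_lit 5) (nat_lit 103) (nat_lit 5) (nat_lit 104) (nat_lit 5) (nat_lit 361) (nat_lit 356) (nat_lit 183)) (XT.lf (nat_lit 76) (nat_lit 11162133880) (nat_lit 0) (nat_lit 100366436040) (nat_lit 836) (nat_lit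 275480784064) (nat_lit 94) (nat_lit 5) (nat_lit 93) (nat_lit 5) (nat_lit 104) (nat_lit 5) (nat_lit 362) (nat_lit 356) (nat_lit 182))))) (XT.nd (nat_lit 234) (nat_lit 684) (nat_lit 0) (XT.nd (nat_lit 78) (nat_lit 1064) (nat_lit 0) (XT.lf (nat_lit 0) (nat_lit 161258127187) (nat_lit 760) (nat_lit 75950919911) (nat_lit 76) (nat_lit 166579836912) (nat_lit 94) (nat_lit 5) (nat_lit 104) (nat_lit 5) (nat_lit 95) (nat_lit 5) (nat_lit 363) (nat_lit 356) (nat_lit 181)) (XT.nd (nat_lit 78) (nat_lit 380) (nat_lit 0) (XT.lf (nat_lit 0) (nat_lit 221157064067) (nat_lit 760) (nat_lit 167767991503) (nat_lit 76) (nat_lit 32676170212) (nat_lit 85) (nat_lit 5) (nat_lit 95) (nat_lit 5) (nat_lit 86) (nat_lit 5) (nat_lit 364) (nat_lit 356) (nat_lit 180)) (XT.lf (nat_lit 0) (nat_lit 173470509483) (nat_lit 380) (nat_lit 120430184682) (nat_lit 456) (nat_lit 146535221908) (nat_lit 80) (nat_lit 5) (nat_lit 85) (nat_lit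 5) (nat_lit 86) (nat_lit 5) (nat_lit 365) (nat_lit 356) (nat_lit 179)))) (XT.nd (nat_lit 78) (nat_lit 380) (nat_lit 0) (XT.lf (nat_lit 0) (nat_lit 87472400238) (nat_lit 304) (nat_lit 291974422286) (nat_lit 380) (nat_lit 80981408754) (nat_lit 76) (nat_lit 5) (nat_lit 80) (nat_lit 5) (nat_lit 81) (nat_lit 5) (nat_lit 366) (nat_lit 356) (nat_lit 178)) (XT.nd (nat_lit 78) (nat_lit 380) (nat_lit 0) (XT.lf (nat_lit 0) (nat_lit 477700603291) (nat_lit 304) (nat_lit 784265425) (nat_lit 380) (nat_lit 3202651682) (nat_lit 76) (nat_lit 5) (nat_lit 80) (nat_lit 5) (nat_lit 81) (nat_lit 5) (nat_lit 367) (nat_lit 356) (nat_lit 177)) (XT.lf (nat_lit 0) (nat_lit 89577255449) (nat_lit 380) (nat_lit 103049578029) (nat_lit 76) (nat_lit 311389399606) (nat_lit 71) (nat_lit 5) (nat_lit 76) (nat_lit 5) (nat_lit 72) (nat_lit 5) (nat_lit 368) (nat_lit 356) (nat_lit 176))))))) (XT.nd (nat_lit 858) (nat_lit 380) (nat_lit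 0) (XT.nd (nat_lit 390) (nat_lit 1064) (nat_lit 0) (XT.nd (nat_lit 156) (nat_lit 608) (nat_lit 0) (XT.nd (nat_lit 78) (nat_lit 304) (nat_lit 0) (XT.lf (nat_lit 0) (nat_lit 196720384518) (nat_lit 380) (nat_lit 209316302996) (nat_lit 76) (nat_lit 121739278475) (nat_lit 67) (nat_lit 5) (nat_lit 72) (nat_lit 5) (nat_lit 68) (nat_lit 5) (nat_lit 369) (nat_lit 356) (nat_lit 175)) (XT.lf (nat_lit 0) (nat_lit 228044095608) (nat_lit 304) (nat_lit 93023751884) (nat_lit 380) (nat_lit 231936985914) (nat_lit 63) (nat_lit 5) (nat_lit 67) (nat_lit 5) (nat_lit 68) (nat_lit 5) (nat_lit 370) (nat_lit 356) (nat_lit 174))) (XT.nd (nat_lit 78) (nat_lit 380) (nat_lit 0) (XT.lf (nat_lit 0) (nat_lit 128009919042) (nat_lit 228) (nat_lit 336883272554) (nat_lit 304) (nat_lit 114882314470) (nat_lit 60) (nat_lit 5) (nat_lit 63) (nat_lit 5) (nat_lit 64) (nat_lit 5) (nat_lit 371) (nat_lit 356) (nat_lit 173)) (XT.nd (nat_lit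 78) (nat_lit 0) (nat_lit 0) (XT.lf (nat_lit 0) (nat_lit 18795274163) (nat_lit 380) (nat_lit 589113660472) (nat_lit 76) (nat_lit 388502371) (nat_lit 55) (nat_lit 5) (nat_lit 60) (nat_lit 5) (nat_lit 56) (nat_lit 5) (nat_lit 372) (nat_lit 356) (nat_lit 172)) (XT.lf (nat_lit 0) (nat_lit 172874860413) (nat_lit 380) (nat_lit 102512813392) (nat_lit 76) (nat_lit 362932647467) (nat_lit 55) (nat_lit 5) (nat_lit 60) (nat_lit 5) (nat_lit 56) (nat_lit 5) (nat_lit 373) (nat_lit 356) (nat_lit 171))))) (XT.nd (nat_lit 234) (nat_lit 380) (nat_lit 0) (XT.nd (nat_lit 78) (nat_lit 456) (nat_lit 0) (XT.lf (nat_lit 0) (nat_lit 347522806424) (nat_lit 304) (nat_lit 234820217944) (nat_lit 76) (nat_lit 87989912311) (nat_lit 52) (nat_lit 5) (nat_lit 56) (nat_lit 5) (nat_lit 53) (nat_lit 5) (nat_lit 374) (nat_lit 356) (nat_lit 170)) (XT.nd (nat_lit 78) (nat_lit 228) (nat_lit 0) (XT.lf (nat_lit 0) (nat_lit 321025679046)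 (nat_lit 228) (nat_lit 226587502893) (nat_lit 304) (nat_lit 156719849725) (nat_lit 49) (nat_lit 5) (nat_lit 52) (nat_lit 5) (nat_lit 53) (nat_lit 5) (nat_lit 375) (nat_lit 356) (nat_lit 169)) (XT.lf (nat_lit 0) (nat_lit 31714308680) (nat_lit 228) (nat_lit 548574090180) (nat_lit 76) (nat_lit 160257955857) (nat_lit 46) (nat_lit 5) (nat_lit 49) (nat_lit 5) (nat_lit 47) (nat_lit 5) (nat_lit 376) (nat_lit 356) (nat_lit 168)))) (XT.nd (nat_lit 78) (nat_lit 152) (nat_lit 0) (XT.lf (nat_lit 0) (nat_lit 42424207000) (nat_lit 228) (nat_lit 198651129073) (nat_lit 304) (nat_lit 537885806856) (nat_lit 43) (nat_lit 5) (nat_lit 46) (nat_lit 5) (nat_lit 47) (nat_lit 5) (nat_lit 377) (nat_lit 356) (nat_lit 167)) (XT.nd (nat_lit 78) (nat_lit 152) (nat_lit 0) (XT.lf (nat_lit 0) (nat_lit 480231273272) (nat_lit 304) (nat_lit 123169854223) (nat_lit 76) (nat_lit 216395685351) (nat_lit 43) (nat_lit 5) (nat_lit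 47) (nat_lit 5) (nat_lit 44) (nat_lit 5) (nat_lit 378) (nat_lit 356) (nat_lit 166)) (XT.lf (nat_lit 0) (nat_lit 553636761747) (nat_lit 152) (nat_lit 196876336076) (nat_lit 228) (nat_lit 112786567942) (nat_lit 41) (nat_lit 5) (nat_lit 43) (nat_lit 5) (nat_lit 44) (nat_lit 5) (nat_lit 379) (nat_lit 356) (nat_lit 165)))))) (XT.nd (nat_lit 45318) (nat_lit 0) (nat_lit 3724) (XT.nd (nat_lit 45084) (nat_lit 0) (nat_lit 4104) (XT.nd (nat_lit 78) (nat_lit 152) (nat_lit 0) (XT.lf (nat_lit 0) (nat_lit 140112412449) (nat_lit 228) (nat_lit 524548495580) (nat_lit 76) (nat_lit 244908347879) (nat_lit 38) (nat_lit 5) (nat_lit 41) (nat_lit 5) (nat_lit 39) (nat_lit 5) (nat_lit 380) (nat_lit 356) (nat_lit 164)) (XT.nd (nat_lit 78) (nat_lit 0) (nat_lit 0) (XT.lf (nat_lit 0) (nat_lit 187766107367) (nat_lit 152) (nat_lit 233312317893) (nat_lit 228) (nat_lit 537780209723) (nat_lit 36) (nat_lit 5) (nat_lit 38)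 (nat_lit 5) (nat_lit 39) (nat_lit 5) (nat_lit 381) (nat_lit 356) (nat_lit 163)) (XT.lf (nat_lit 0) (nat_lit 737439446754) (nat_lit 228) (nat_lit 39617463939) (nat_lit 76) (nat_lit 234388367327) (nat_lit 36) (nat_lit 5) (nat_lit 39) (nat_lit 5) (nat_lit 37) (nat_lit 5) (nat_lit 382) (nat_lit 356) (nat_lit 162)))) (XT.nd (nat_lit 78) (nat_lit 760) (nat_lit 0) (XT.lf (nat_lit 0) (nat_lit 80618725166) (nat_lit 0) (nat_lit 80618725166) (nat_lit 684) (nat_lit 2797280163) (nat_lit 100) (nat_lit 5) (nat_lit 100) (nat_lit 3) (nat_lit 109) (nat_lit 3) (nat_lit 357) (nat_lit 357) (nat_lit 186)) (XT.nd (nat_lit 78) (nat_lit 760) (nat_lit 0) (XT.lf (nat_lit 76) (nat_lit 77792178890) (nat_lit 0) (nat_lit 260083766469) (nat_lit 760) (nat_lit 3191190256) (nat_lit 101) (nat_lit 5) (nat_lit 100) (nat_lit 5) (nat_lit 110) (nat_lit 5) (nat_lit 358) (nat_lit 357) (nat_lit 185)) (XT.lf (nat_lit 0) (nat_lit 5095923916)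 (nat_lit 760) (nat_lit 9772654084) (nat_lit 836) (nat_lit 339952890590) (nat_lit 90) (nat_lit 5) (nat_lit 100) (nat_lit 5) (nat_lit 101) (nat_lit 5) (nat_lit 359) (nat_lit 357) (nat_lit 184))))) (XT.nd (nat_lit 234) (nat_lit 456) (nat_lit 0) (XT.nd (nat_lit 78) (nat_lit 0) (nat_lit 76) (XT.lf (nat_lit 0) (nat_lit 22166278682) (nat_lit 760) (nat_lit 100750356765) (nat_lit 836) (nat_lit 246345293387) (nat_lit 91) (nat_lit 5) (nat_lit 101) (nat_lit 5) (nat_lit 102) (nat_lit 5) (nat_lit 360) (nat_lit 357) (nat_lit 183)) (XT.nd (nat_lit 78) (nat_lit 0) (nat_lit 76) (XT.lf (nat_lit 0) (nat_lit 46284294693) (nat_lit 760) (nat_lit 196574732627) (nat_lit 836) (nat_lit 141714497048) (nat_lit 92) (nat_lit 5) (nat_lit 102) (nat_lit 5) (nat_lit 103) (nat_lit 5) (nat_lit 361) (nat_lit 357) (nat_lit 182)) (XT.lf (nat_lit 0) (nat_lit 78209472854) (nat_lit 760) (nat_lit 297600642899) (nat_lit 836) (nat_lit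 25006045854) (nat_lit 93) (nat_lit 5) (nat_lit 103) (nat_lit 5) (nat_lit 104) (nat_lit 5) (nat_lit 362) (nat_lit 357) (nat_lit 181)))) (XT.nd (nat_lit 78) (nat_lit 608) (nat_lit 0) (XT.lf (nat_lit 76) (nat_lit 12056248026) (nat_lit 0) (nat_lit 108395966668) (nat_lit 836) (nat_lit 297517817756) (nat_lit 94) (nat_lit 5) (nat_lit 93) (nat_lit 5) (nat_lit 104) (nat_lit 5) (nat_lit 363) (nat_lit 357) (nat_lit 180)) (XT.nd (nat_lit 78) (nat_lit 684) (nat_lit 0) (XT.lf (nat_lit 0) (nat_lit 174160032744) (nat_lit 760) (nat_lit 82025866969) (nat_lit 76) (nat_lit 179906030495) (nat_lit 94) (nat_lit 5) (nat_lit 104) (nat_lit 5) (nat_lit 95) (nat_lit 5) (nat_lit 364) (nat_lit 357) (nat_lit 179)) (XT.lf (nat_lit 0) (nat_lit 238850806820) (nat_lit 760) (nat_lit 181188291075) (nat_lit 76) (nat_lit 35290165444) (nat_lit 85) (nat_lit 5) (nat_lit 95) (nat_lit 5) (nat_lit 86) (nat_lit 5) (nat_lit 365) (nat_lit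 357) (nat_lit 178))))))))
noncomputable def xc123 : XT := (XT.nd (nat_lit 46722) (nat_lit 0) (nat_lit 380) (XT.nd (nat_lit 858) (nat_lit 988) (nat_lit 0) (XT.nd (nat_lit 390) (nat_lit 1368) (nat_lit 0) (XT.nd (nat_lit 156) (nat_lit 684) (nat_lit 0) (XT.nd (nat_lit 78) (nat_lit 304) (nat_lit 0) (XT.lf (nat_lit 0) (nat_lit 187349240457) (nat_lit 380) (nat_lit 130064616659) (nat_lit 456) (nat_lit 158256875369) (nat_lit 80) (nat_lit 5) (nat_lit 85) (nat_lit 5) (nat_lit 86) (nat_lit 5) (nat_lit 366) (nat_lit 357) (nat_lit 177)) (XT.lf (nat_lit 0) (nat_lit 94471289752) (nat_lit 304) (nat_lit 315332320846) (nat_lit 380) (nat_lit 87458825676) (nat_lit 76) (nat_lit 5) (nat_lit 80) (nat_lit 5) (nat_lit 81) (nat_lit 5) (nat_lit 367) (nat_lit 357) (nat_lit 176))) (XT.nd (nat_lit 78) (nat_lit 684) (nat_lit 0) (XT.lf (nat_lit 0) (nat_lit 515917667753) (nat_lit 304) (nat_lit 846955528) (nat_lit 380) (nat_lit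 3457849207) (nat_lit 76) (nat_lit 5) (nat_lit 80) (nat_lit 5) (nat_lit 81) (nat_lit 5) (nat_lit 368) (nat_lit 357) (nat_lit 175)) (XT.nd (nat_lit 78) (nat_lit 304) (nat_lit 0) (XT.lf (nat_lit 0) (nat_lit 96744362186) (nat_lit 380) (nat_lit 111292493845) (nat_lit 76) (nat_lit 336300628248) (nat_lit 71) (nat_lit 5) (nat_lit 76) (nat_lit 5) (nat_lit 72) (nat_lit 5) (nat_lit 369) (nat_lit 357) (nat_lit 174)) (XT.lf (nat_lit 0) (nat_lit 212458890705) (nat_lit 380) (nat_lit 226060559790) (nat_lit 76) (nat_lit 131478547950) (nat_lit 67) (nat_lit 5) (nat_lit 72) (nat_lit 5) (nat_lit 68) (nat_lit 5) (nat_lit 370) (nat_lit 357) (nat_lit 173))))) (XT.nd (nat_lit 234) (nat_lit 456) (nat_lit 0) (XT.nd (nat_lit 78) (nat_lit 608) (nat_lit 0) (XT.lf (nat_lit 0) (nat_lit 246288625181) (nat_lit 304) (nat_lit 100465476332) (nat_lit 380) (nat_lit 250491076280) (nat_lit 63) (nat_lit 5) (nat_lit 67) (nat_lit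 5) (nat_lit 68) (nat_lit 5) (nat_lit 371) (nat_lit 357) (nat_lit 172)) (XT.nd (nat_lit 78) (nat_lit 380) (nat_lit 0) (XT.lf (nat_lit 0) (nat_lit 138251708771) (nat_lit 228) (nat_lit 363833721266) (nat_lit 304) (nat_lit 124072076456) (nat_lit 60) (nat_lit 5) (nat_lit 63) (nat_lit 5) (nat_lit 64) (nat_lit 5) (nat_lit 372) (nat_lit 357) (nat_lit 171)) (XT.lf (nat_lit 0) (nat_lit 20299652707) (nat_lit 380) (nat_lit 636241739451) (nat_lit 76) (nat_lit 419801183) (nat_lit 55) (nat_lit 5) (nat_lit 60) (nat_lit 5) (nat_lit 56) (nat_lit 5) (nat_lit 373) (nat_lit 357) (nat_lit 170)))) (XT.nd (nat_lit 78) (nat_lit 456) (nat_lit 0) (XT.lf (nat_lit 0) (nat_lit 186705549812) (nat_lit 380) (nat_lit 110712899706) (nat_lit 76) (nat_lit 391967461693) (nat_lit 55) (nat_lit 5) (nat_lit 60) (nat_lit 5) (nat_lit 56) (nat_lit 5) (nat_lit 374) (nat_lit 357) (nat_lit 169)) (XT.nd (nat_lit 78) (nat_lit 228) (nat_lit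 0) (XT.lf (nat_lit 0) (nat_lit 375325297302) (nat_lit 304) (nat_lit 253604907275) (nat_lit 76) (nat_lit 95029333036) (nat_lit 52) (nat_lit 5) (nat_lit 56) (nat_lit 5) (nat_lit 53) (nat_lit 5) (nat_lit 375) (nat_lit 357) (nat_lit 168)) (XT.lf (nat_lit 0) (nat_lit 346708621140) (nat_lit 228) (nat_lit 244714246219) (nat_lit 304) (nat_lit 169256774664) (nat_lit 49) (nat_lit 5) (nat_lit 52) (nat_lit 5) (nat_lit 53) (nat_lit 5) (nat_lit 376) (nat_lit 357) (nat_lit 167)))))) (XT.nd (nat_lit 45396) (nat_lit 0) (nat_lit 4104) (XT.nd (nat_lit 234) (nat_lit 532) (nat_lit 0) (XT.nd (nat_lit 78) (nat_lit 228) (nat_lit 0) (XT.lf (nat_lit 0) (nat_lit 34252065329) (nat_lit 228) (nat_lit 592459120475) (nat_lit 76) (nat_lit 173078846136) (nat_lit 46) (nat_lit 5) (nat_lit 49) (nat_lit 5) (nat_lit 47) (nat_lit 5) (nat_lit 377) (nat_lit 357) (nat_lit 166)) (XT.nd (nat_lit 78) (nat_lit 0) (nat_lit 0) (XT.lf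 (nat_lit 0) (nat_lit 45819001500) (nat_lit 228) (nat_lit 214542941478) (nat_lit 304) (nat_lit 580916061869) (nat_lit 43) (nat_lit 5) (nat_lit 46) (nat_lit 5) (nat_lit 47) (nat_lit 5) (nat_lit 378) (nat_lit 357) (nat_lit 165)) (XT.lf (nat_lit 0) (nat_lit 518650316207) (nat_lit 304) (nat_lit 133022624859) (nat_lit 76) (nat_lit 233707589278) (nat_lit 43) (nat_lit 5) (nat_lit 47) (nat_lit 5) (nat_lit 44) (nat_lit 5) (nat_lit 379) (nat_lit 357) (nat_lit 164)))) (XT.nd (nat_lit 78) (nat_lit 380) (nat_lit 0) (XT.lf (nat_lit 0) (nat_lit 597928484852) (nat_lit 152) (nat_lit 212626174001) (nat_lit 228) (nat_lit 121808954070) (nat_lit 41) (nat_lit 5) (nat_lit 43) (nat_lit 5) (nat_lit 44) (nat_lit 5) (nat_lit 380) (nat_lit 357) (nat_lit 163)) (XT.nd (nat_lit 78) (nat_lit 152) (nat_lit 0) (XT.lf (nat_lit 0) (nat_lit 151321904978) (nat_lit 228) (nat_lit 566511589195) (nat_lit 76) (nat_lit 264501276842)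 (nat_lit 38) (nat_lit 5) (nat_lit 41) (nat_lit 5) (nat_lit 39) (nat_lit 5) (nat_lit 381) (nat_lit 357) (nat_lit 162)) (XT.lf (nat_lit 0) (nat_lit 202788147827) (nat_lit 152) (nat_lit 251977025723) (nat_lit 228) (nat_lit 580802128157) (nat_lit 36) (nat_lit 5) (nat_lit 38) (nat_lit 5) (nat_lit 39) (nat_lit 5) (nat_lit 382) (nat_lit 357) (nat_lit 161))))) (XT.nd (nat_lit 234) (nat_lit 0) (nat_lit 76) (XT.nd (nat_lit 78) (nat_lit 760) (nat_lit 0) (XT.lf (nat_lit 0) (nat_lit 87068662819) (nat_lit 0) (nat_lit 87068662819) (nat_lit 684) (nat_lit 3020137981) (nat_lit 100) (nat_lit 5) (nat_lit 100) (nat_lit 3) (nat_lit 109) (nat_lit 3) (nat_lit 358) (nat_lit 358) (nat_lit 184)) (XT.nd (nat_lit 78) (nat_lit 760) (nat_lit 0) (XT.lf (nat_lit 76) (nat_lit 84016494093) (nat_lit 0) (nat_lit 280891157167) (nat_lit 760) (nat_lit 3444771185) (nat_lit 101) (nat_lit 5) (nat_lit 100) (nat_lit 5) (nat_lit 110)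 (nat_lit 5) (nat_lit 359) (nat_lit 358) (nat_lit 183)) (XT.lf (nat_lit 0) (nat_lit 5505134331) (nat_lit 760) (nat_lit 10553542202) (nat_lit 836) (nat_lit 367148430509) (nat_lit 90) (nat_lit 5) (nat_lit 100) (nat_lit 5) (nat_lit 101) (nat_lit 5) (nat_lit 360) (nat_lit 358) (nat_lit 182)))) (XT.nd (nat_lit 78) (nat_lit 0) (nat_lit 76) (XT.lf (nat_lit 0) (nat_lit 23941008841) (nat_lit 760) (nat_lit 108809418768) (nat_lit 836) (nat_lit 266052382093) (nat_lit 91) (nat_lit 5) (nat_lit 101) (nat_lit 5) (nat_lit 102) (nat_lit 5) (nat_lit 361) (nat_lit 358) (nat_lit 181)) (XT.nd (nat_lit 78) (nat_lit 0) (nat_lit 76) (XT.lf (nat_lit 0) (nat_lit 49988368368) (nat_lit 760) (nat_lit 212299711552) (nat_lit 836) (nat_lit 153051258000) (nat_lit 92) (nat_lit 5) (nat_lit 102) (nat_lit 5) (nat_lit 103) (nat_lit 5) (nat_lit 362) (nat_lit 358) (nat_lit 180)) (XT.lf (nat_lit 0) (nat_lit 84467472654) (nat_lit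 760) (nat_lit 321407669480) (nat_lit 836) (nat_lit 27006248551) (nat_lit 93) (nat_lit 5) (nat_lit 103) (nat_lit 5) (nat_lit 104) (nat_lit 5) (nat_lit 363) (nat_lit 358) (nat_lit 179))))))) (XT.nd (nat_lit 858) (nat_lit 1064) (nat_lit 0) (XT.nd (nat_lit 390) (nat_lit 1596) (nat_lit 0) (XT.nd (nat_lit 156) (nat_lit 1292) (nat_lit 0) (XT.nd (nat_lit 78) (nat_lit 0) (nat_lit 76) (XT.lf (nat_lit 76) (nat_lit 13021728181) (nat_lit 0) (nat_lit 117067828968) (nat_lit 836) (nat_lit 321318018011) (nat_lit 94) (nat_lit 5) (nat_lit 93) (nat_lit 5) (nat_lit 104) (nat_lit 5) (nat_lit 364) (nat_lit 358) (nat_lit 178)) (XT.lf (nat_lit 0) (nat_lit 188093911651) (nat_lit 760) (nat_lit 88586970505) (nat_lit 76) (nat_lit 194298347151) (nat_lit 94) (nat_lit 5) (nat_lit 104) (nat_lit 5) (nat_lit 95) (nat_lit 5) (nat_lit 365) (nat_lit 358) (nat_lit 177))) (XT.nd (nat_lit 78) (nat_lit 684) (nat_lit 0) (XT.lf (nat_lit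 0) (nat_lit 257959880992) (nat_lit 760) (nat_lit 195682377212) (nat_lit 76) (nat_lit 38113294330) (nat_lit 85) (nat_lit 5) (nat_lit 95) (nat_lit 5) (nat_lit 86) (nat_lit 5) (nat_lit 366) (nat_lit 358) (nat_lit 176)) (XT.nd (nat_lit 78) (nat_lit 304) (nat_lit 0) (XT.lf (nat_lit 0) (nat_lit 202338114378) (nat_lit 380) (nat_lit 140469800739) (nat_lit 456) (nat_lit 170916427206) (nat_lit 80) (nat_lit 5) (nat_lit 85) (nat_lit 5) (nat_lit 86) (nat_lit 5) (nat_lit 367) (nat_lit 358) (nat_lit 175)) (XT.lf (nat_lit 0) (nat_lit 102029933858) (nat_lit 304) (nat_lit 340558859170) (nat_lit 380) (nat_lit 94454592277) (nat_lit 76) (nat_lit 5) (nat_lit 80) (nat_lit 5) (nat_lit 81) (nat_lit 5) (nat_lit 368) (nat_lit 358) (nat_lit 174))))) (XT.nd (nat_lit 234) (nat_lit 912) (nat_lit 0) (XT.nd (nat_lit 78) (nat_lit 684) (nat_lit 0) (XT.lf (nat_lit 0) (nat_lit 557191952401) (nat_lit 304) (nat_lit 914668133)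 (nat_lit 380) (nat_lit 3733607280) (nat_lit 76) (nat_lit 5) (nat_lit 80) (nat_lit 5) (nat_lit 81) (nat_lit 5) (nat_lit 369) (nat_lit 358) (nat_lit 173)) (XT.nd (nat_lit 78) (nat_lit 304) (nat_lit 0) (XT.lf (nat_lit 0) (nat_lit 104484705315) (nat_lit 380) (nat_lit 120194992782) (nat_lit 76) (nat_lit 363204744243) (nat_lit 71) (nat_lit 5) (nat_lit 76) (nat_lit 5) (nat_lit 72) (nat_lit 5) (nat_lit 370) (nat_lit 358) (nat_lit 172)) (XT.lf (nat_lit 0) (nat_lit 229456352497) (nat_lit 380) (nat_lit 244144506558) (nat_lit 76) (nat_lit 141996940836) (nat_lit 67) (nat_lit 5) (nat_lit 72) (nat_lit 5) (nat_lit 68) (nat_lit 5) (nat_lit 371) (nat_lit 358) (nat_lit 171)))) (XT.nd (nat_lit 78) (nat_lit 608) (nat_lit 0) (XT.lf (nat_lit 0) (nat_lit 265992574184) (nat_lit 304) (nat_lit 108502563802) (nat_lit 380) (nat_lit 270529617778) (nat_lit 63) (nat_lit 5) (nat_lit 67) (nat_lit 5) (nat_lit 68) (nat_lit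 5) (nat_lit 372) (nat_lit 358) (nat_lit 170)) (XT.nd (nat_lit 78) (nat_lit 380) (nat_lit 0) (XT.lf (nat_lit 0) (nat_lit 149312699559) (nat_lit 228) (nat_lit 392940236275) (nat_lit 304) (nat_lit 133997136836) (nat_lit 60) (nat_lit 5) (nat_lit 63) (nat_lit 5) (nat_lit 64) (nat_lit 5) (nat_lit 373) (nat_lit 358) (nat_lit 169)) (XT.lf (nat_lit 0) (nat_lit 21924273595) (nat_lit 380) (nat_lit 687140209386) (nat_lit 76) (nat_lit 453572710) (nat_lit 55) (nat_lit 5) (nat_lit 60) (nat_lit 5) (nat_lit 56) (nat_lit 5) (nat_lit 374) (nat_lit 358) (nat_lit 168)))))) (XT.nd (nat_lit 45630) (nat_lit 0) (nat_lit 3724) (XT.nd (nat_lit 234) (nat_lit 608) (nat_lit 0) (XT.nd (nat_lit 78) (nat_lit 456) (nat_lit 0) (XT.lf (nat_lit 0) (nat_lit 201642594419) (nat_lit 380) (nat_lit 119569126848) (nat_lit 76) (nat_lit 423325032177) (nat_lit 55) (nat_lit 5) (nat_lit 60) (nat_lit 5) (nat_lit 56) (nat_lit 5) (nat_lit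 375) (nat_lit 358) (nat_lit 167)) (XT.nd (nat_lit 78) (nat_lit 228) (nat_lit 0) (XT.lf (nat_lit 0) (nat_lit 405351892387) (nat_lit 304) (nat_lit 273892504158) (nat_lit 76) (nat_lit 102631874928) (nat_lit 52) (nat_lit 5) (nat_lit 56) (nat_lit 5) (nat_lit 53) (nat_lit 5) (nat_lit 376) (nat_lit 358) (nat_lit 166)) (XT.lf (nat_lit 0) (nat_lit 374446071951) (nat_lit 228) (nat_lit 264291165662) (nat_lit 304) (nat_lit 182796748187) (nat_lit 49) (nat_lit 5) (nat_lit 52) (nat_lit 5) (nat_lit 53) (nat_lit 5) (nat_lit 377) (nat_lit 358) (nat_lit 165)))) (XT.nd (nat_lit 78) (nat_lit 380) (nat_lit 0) (XT.lf (nat_lit 0) (nat_lit 36992755207) (nat_lit 228) (nat_lit 639855081149) (nat_lit 76) (nat_lit 186925371429) (nat_lit 46) (nat_lit 5) (nat_lit 49) (nat_lit 5) (nat_lit 47) (nat_lit 5) (nat_lit 378) (nat_lit 358) (nat_lit 164)) (XT.nd (nat_lit 156) (nat_lit 152) (nat_lit 0) (XT.lf (nat_lit 0) (nat_lit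 49485257166) (nat_lit 228) (nat_lit 231706138524) (nat_lit 304) (nat_lit 627388824240) (nat_lit 43) (nat_lit 5) (nat_lit 46) (nat_lit 5) (nat_lit 47) (nat_lit 5) (nat_lit 379) (nat_lit 358) (nat_lit 163)) (XT.lf (nat_lit 0) (nat_lit 645763434221) (nat_lit 152) (nat_lit 229636037331) (nat_lit 228) (nat_lit 131553208027) (nat_lit 41) (nat_lit 5) (nat_lit 43) (nat_lit 5) (nat_lit 44) (nat_lit 5) (nat_lit 381) (nat_lit 358) (nat_lit 161))))) (XT.nd (nat_lit 234) (nat_lit 0) (nat_lit 76) (XT.nd (nat_lit 78) (nat_lit 760) (nat_lit 0) (XT.lf (nat_lit 0) (nat_lit 94034532764) (nat_lit 0) (nat_lit 94034532764) (nat_lit 684) (nat_lit 3260956329) (nat_lit 100) (nat_lit 5) (nat_lit 100) (nat_lit 3) (nat_lit 109) (nat_lit 3) (nat_lit 359) (nat_lit 359) (nat_lit 182)) (XT.nd (nat_lit 78) (nat_lit 760) (nat_lit 0) (XT.lf (nat_lit 76) (nat_lit 90738620283) (nat_lit 0) (nat_lit 303363040774) (nat_lit 760)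 (nat_lit 3718883152) (nat_lit 101) (nat_lit 5) (nat_lit 100) (nat_lit 5) (nat_lit 110) (nat_lit 5) (nat_lit 360) (nat_lit 359) (nat_lit 181)) (XT.lf (nat_lit 0) (nat_lit 5946862381) (nat_lit 760) (nat_lit 11397033219) (nat_lit 836) (nat_lit 396519712247) (nat_lit 90) (nat_lit 5) (nat_lit 100) (nat_lit 5) (nat_lit 101) (nat_lit 5) (nat_lit 361) (nat_lit 359) (nat_lit 180)))) (XT.nd (nat_lit 78) (nat_lit 0) (nat_lit 76) (XT.lf (nat_lit 0) (nat_lit 25857513712) (nat_lit 760) (nat_lit 117513343619) (nat_lit 836) (nat_lit 287336114186) (nat_lit 91) (nat_lit 5) (nat_lit 101) (nat_lit 5) (nat_lit 102) (nat_lit 5) (nat_lit 362) (nat_lit 359) (nat_lit 179)) (XT.nd (nat_lit 78) (nat_lit 0) (nat_lit 76) (XT.lf (nat_lit 0) (nat_lit 53988578183) (nat_lit 760) (nat_lit 229282831406) (nat_lit 836) (nat_lit 165295016724) (nat_lit 92) (nat_lit 5) (nat_lit 102) (nat_lit 5) (nat_lit 103) (nat_lit 5) (nat_lit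 363) (nat_lit 359) (nat_lit 178)) (XT.lf (nat_lit 0) (nat_lit 91225935256) (nat_lit 760) (nat_lit 347119404393) (nat_lit 836) (nat_lit 29166507547) (nat_lit 93) (nat_lit 5) (nat_lit 103) (nat_lit 5) (nat_lit 104) (nat_lit 5) (nat_lit 364) (nat_lit 359) (nat_lit 177))))))))
noncomputable def xc124 : XT := (XT.nd (nat_lit 46956) (nat_lit 0) (nat_lit 0) (XT.nd (nat_lit 858) (nat_lit 912) (nat_lit 0) (XT.nd (nat_lit 390) (nat_lit 1596) (nat_lit 0) (XT.nd (nat_lit 156) (nat_lit 1292) (nat_lit 0) (XT.nd (nat_lit 78) (nat_lit 0) (nat_lit 76) (XT.lf (nat_lit 76) (nat_lit 14064306895) (nat_lit 0) (nat_lit 126433413864) (nat_lit 836) (nat_lit 347022409069) (nat_lit 94) (nat_lit 5) (nat_lit 93) (nat_lit 5) (nat_lit 104) (nat_lit 5) (nat_lit 365) (nat_lit 359) (nat_lit 176)) (XT.lf (nat_lit 0) (nat_lit 203142347326) (nat_lit 760) (nat_lit 95673100109) (nat_lit 76) (nat_lit 209842072790) (nat_lit 94)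 (nat_lit 5) (nat_lit 104) (nat_lit 5) (nat_lit 95) (nat_lit 5) (nat_lit 366) (nat_lit 359) (nat_lit 175))) (XT.nd (nat_lit 78) (nat_lit 684) (nat_lit 0) (XT.lf (nat_lit 0) (nat_lit 278597537063) (nat_lit 760) (nat_lit 211336129640) (nat_lit 76) (nat_lit 41162285561) (nat_lit 85) (nat_lit 5) (nat_lit 95) (nat_lit 5) (nat_lit 86) (nat_lit 5) (nat_lit 367) (nat_lit 359) (nat_lit 174)) (XT.nd (nat_lit 78) (nat_lit 304) (nat_lit 0) (XT.lf (nat_lit 0) (nat_lit 218525964869) (nat_lit 380) (nat_lit 151707397443) (nat_lit 456) (nat_lit 184588885594) (nat_lit 80) (nat_lit 5) (nat_lit 85) (nat_lit 5) (nat_lit 86) (nat_lit 5) (nat_lit 368) (nat_lit 359) (nat_lit 173)) (XT.lf (nat_lit 0) (nat_lit 110193135258) (nat_lit 304) (nat_lit 367803527314) (nat_lit 380) (nat_lit 102010154229) (nat_lit 76) (nat_lit 5) (nat_lit 80) (nat_lit 5) (nat_lit 81) (nat_lit 5) (nat_lit 369) (nat_lit 359) (nat_lit 172)))))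 (XT.nd (nat_lit 234) (nat_lit 912) (nat_lit 0) (XT.nd (nat_lit 78) (nat_lit 684) (nat_lit 0) (XT.lf (nat_lit 0) (nat_lit 601768055529) (nat_lit 304) (nat_lit 987804000) (nat_lit 380) (nat_lit 4031550094) (nat_lit 76) (nat_lit 5) (nat_lit 80) (nat_lit 5) (nat_lit 81) (nat_lit 5) (nat_lit 370) (nat_lit 359) (nat_lit 171)) (XT.nd (nat_lit 78) (nat_lit 304) (nat_lit 0) (XT.lf (nat_lit 0) (nat_lit 112844162599) (nat_lit 380) (nat_lit 129809820110) (nat_lit 76) (nat_lit 392261180139) (nat_lit 71) (nat_lit 5) (nat_lit 76) (nat_lit 5) (nat_lit 72) (nat_lit 5) (nat_lit 371) (nat_lit 359) (nat_lit 170)) (XT.lf (nat_lit 0) (nat_lit 247813504160) (nat_lit 380) (nat_lit 263675297180) (nat_lit 76) (nat_lit 153356789597) (nat_lit 67) (nat_lit 5) (nat_lit 72) (nat_lit 5) (nat_lit 68) (nat_lit 5) (nat_lit 372) (nat_lit 359) (nat_lit 169)))) (XT.nd (nat_lit 78) (nat_lit 608) (nat_lit 0) (XT.lf (nat_lit 0)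 (nat_lit 287272716563) (nat_lit 304) (nat_lit 117182639760) (nat_lit 380) (nat_lit 292171348821) (nat_lit 63) (nat_lit 5) (nat_lit 67) (nat_lit 5) (nat_lit 68) (nat_lit 5) (nat_lit 373) (nat_lit 359) (nat_lit 168)) (XT.nd (nat_lit 78) (nat_lit 380) (nat_lit 0) (XT.lf (nat_lit 0) (nat_lit 161258447764) (nat_lit 228) (nat_lit 424375298548) (nat_lit 304) (nat_lit 144716302727) (nat_lit 60) (nat_lit 5) (nat_lit 63) (nat_lit 5) (nat_lit 64) (nat_lit 5) (nat_lit 374) (nat_lit 359) (nat_lit 167)) (XT.lf (nat_lit 0) (nat_lit 23678771615) (nat_lit 380) (nat_lit 742110680921) (nat_lit 76) (nat_lit 490019221) (nat_lit 55) (nat_lit 5) (nat_lit 60) (nat_lit 5) (nat_lit 56) (nat_lit 5) (nat_lit 375) (nat_lit 359) (nat_lit 166)))))) (XT.nd (nat_lit 45630) (nat_lit 0) (nat_lit 3572) (XT.nd (nat_lit 156) (nat_lit 684) (nat_lit 0) (XT.nd (nat_lit 78) (nat_lit 228) (nat_lit 0) (XT.lf (nat_lit 0) (nat_lit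 217774516909) (nat_lit 380) (nat_lit 129133966981) (nat_lit 76) (nat_lit 457191183542) (nat_lit 55) (nat_lit 5) (nat_lit 60) (nat_lit 5) (nat_lit 56) (nat_lit 5) (nat_lit 376) (nat_lit 359) (nat_lit 165)) (XT.lf (nat_lit 0) (nat_lit 437780533576) (nat_lit 304) (nat_lit 295803222306) (nat_lit 76) (nat_lit 110842592318) (nat_lit 52) (nat_lit 5) (nat_lit 56) (nat_lit 5) (nat_lit 53) (nat_lit 5) (nat_lit 377) (nat_lit 359) (nat_lit 164))) (XT.nd (nat_lit 78) (nat_lit 456) (nat_lit 0) (XT.lf (nat_lit 0) (nat_lit 404402410244) (nat_lit 228) (nat_lit 285434270083) (nat_lit 304) (nat_lit 197420000688) (nat_lit 49) (nat_lit 5) (nat_lit 52) (nat_lit 5) (nat_lit 53) (nat_lit 5) (nat_lit 378) (nat_lit 359) (nat_lit 163)) (XT.nd (nat_lit 156) (nat_lit 228) (nat_lit 0) (XT.lf (nat_lit 0) (nat_lit 39952625428) (nat_lit 228) (nat_lit 691042828379) (nat_lit 76) (nat_lit 201879587701) (nat_lit 46) (nat_lit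 5) (nat_lit 49) (nat_lit 5) (nat_lit 47) (nat_lit 5) (nat_lit 379) (nat_lit 359) (nat_lit 162)) (XT.lf (nat_lit 0) (nat_lit 604954627521) (nat_lit 304) (nat_lit 155156231469) (nat_lit 76) (nat_lit 272596945874) (nat_lit 43) (nat_lit 5) (nat_lit 47) (nat_lit 5) (nat_lit 44) (nat_lit 5) (nat_lit 381) (nat_lit 359) (nat_lit 160))))) (XT.nd (nat_lit 234) (nat_lit 0) (nat_lit 76) (XT.nd (nat_lit 78) (nat_lit 760) (nat_lit 0) (XT.lf (nat_lit 0) (nat_lit 101557618534) (nat_lit 0) (nat_lit 101557618534) (nat_lit 684) (nat_lit 3521153230) (nat_lit 100) (nat_lit 5) (nat_lit 100) (nat_lit 3) (nat_lit 109) (nat_lit 3) (nat_lit 360) (nat_lit 360) (nat_lit 180)) (XT.nd (nat_lit 78) (nat_lit 760) (nat_lit 0) (XT.lf (nat_lit 76) (nat_lit 97998401489) (nat_lit 0) (nat_lit 327632590751) (nat_lit 760) (nat_lit 4015133749) (nat_lit 101) (nat_lit 5) (nat_lit 100) (nat_lit 5) (nat_lit 110) (nat_lit 5) (nat_lit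 361) (nat_lit 360) (nat_lit 179)) (XT.lf (nat_lit 0) (nat_lit 6423740747) (nat_lit 760) (nat_lit 12308116556) (nat_lit 836) (nat_lit 428240781080) (nat_lit 90) (nat_lit 5) (nat_lit 100) (nat_lit 5) (nat_lit 101) (nat_lit 5) (nat_lit 362) (nat_lit 360) (nat_lit 178)))) (XT.nd (nat_lit 78) (nat_lit 0) (nat_lit 76) (XT.lf (nat_lit 0) (nat_lit 27927164332) (nat_lit 760) (nat_lit 126913700675) (nat_lit 836) (nat_lit 310322610252) (nat_lit 91) (nat_lit 5) (nat_lit 101) (nat_lit 5) (nat_lit 102) (nat_lit 5) (nat_lit 363) (nat_lit 360) (nat_lit 177)) (XT.nd (nat_lit 78) (nat_lit 0) (nat_lit 76) (XT.lf (nat_lit 0) (nat_lit 58308642100) (nat_lit 760) (nat_lit 247624723120) (nat_lit 836) (nat_lit 178518324923) (nat_lit 92) (nat_lit 5) (nat_lit 102) (nat_lit 5) (nat_lit 103) (nat_lit 5) (nat_lit 364) (nat_lit 360) (nat_lit 176)) (XT.lf (nat_lit 0) (nat_lit 98524922962) (nat_lit 760) (nat_lit 374888203449)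 (nat_lit 836) (nat_lit 31499621628) (nat_lit 93) (nat_lit 5) (nat_lit 103) (nat_lit 5) (nat_lit 104) (nat_lit 5) (nat_lit 365) (nat_lit 360) (nat_lit 175))))))) (XT.nd (nat_lit 858) (nat_lit 912) (nat_lit 0) (XT.nd (nat_lit 390) (nat_lit 1596) (nat_lit 0) (XT.nd (nat_lit 156) (nat_lit 1292) (nat_lit 0) (XT.nd (nat_lit 78) (nat_lit 0) (nat_lit 76) (XT.lf (nat_lit 76) (nat_lit 15190172005) (nat_lit 0) (nat_lit 136548222929) (nat_lit 836) (nat_lit 374783301261) (nat_lit 94) (nat_lit 5) (nat_lit 93) (nat_lit 5) (nat_lit 104) (nat_lit 5) (nat_lit 366) (nat_lit 360) (nat_lit 174)) (XT.lf (nat_lit 0) (nat_lit 219394526216) (nat_lit 760) (nat_lit 103326238210) (nat_lit 76) (nat_lit 226629316757) (nat_lit 94) (nat_lit 5) (nat_lit 104) (nat_lit 5) (nat_lit 95) (nat_lit 5) (nat_lit 367) (nat_lit 360) (nat_lit 173))) (XT.nd (nat_lit 78) (nat_lit 684) (nat_lit 0) (XT.lf (nat_lit 0) (nat_lit 300886082133)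 (nat_lit 760) (nat_lit 228242301777) (nat_lit 76) (nat_lit 44455206406) (nat_lit 85) (nat_lit 5) (nat_lit 95) (nat_lit 5) (nat_lit 86) (nat_lit 5) (nat_lit 368) (nat_lit 360) (nat_lit 172)) (XT.nd (nat_lit 78) (nat_lit 304) (nat_lit 0) (XT.lf (nat_lit 0) (nat_lit 236008729079) (nat_lit 380) (nat_lit 163844000078) (nat_lit 456) (nat_lit 199355262740) (nat_lit 80) (nat_lit 5) (nat_lit 85) (nat_lit 5) (nat_lit 86) (nat_lit 5) (nat_lit 369) (nat_lit 360) (nat_lit 171)) (XT.lf (nat_lit 0) (nat_lit 119009277687) (nat_lit 304) (nat_lit 397227774699) (nat_lit 380) (nat_lit 110170276041) (nat_lit 76) (nat_lit 5) (nat_lit 80) (nat_lit 5) (nat_lit 81) (nat_lit 5) (nat_lit 370) (nat_lit 360) (nat_lit 170))))) (XT.nd (nat_lit 234) (nat_lit 912) (nat_lit 0) (XT.nd (nat_lit 78) (nat_lit 684) (nat_lit 0) (XT.lf (nat_lit 0) (nat_lit 649910140350) (nat_lit 304) (nat_lit 1066796098) (nat_lit 380) (nat_lit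 4353434725) (nat_lit 76) (nat_lit 5) (nat_lit 80) (nat_lit 5) (nat_lit 81) (nat_lit 5) (nat_lit 371) (nat_lit 360) (nat_lit 169)) (XT.nd (nat_lit 78) (nat_lit 304) (nat_lit 0) (XT.lf (nat_lit 0) (nat_lit 121872279334) (nat_lit 380) (nat_lit 140193943772) (nat_lit 76) (nat_lit 423642122868) (nat_lit 71) (nat_lit 5) (nat_lit 76) (nat_lit 5) (nat_lit 72) (nat_lit 5) (nat_lit 372) (nat_lit 360) (nat_lit 168)) (XT.lf (nat_lit 0) (nat_lit 267639136160) (nat_lit 380) (nat_lit 284768660886) (nat_lit 76) (nat_lit 165625412920) (nat_lit 67) (nat_lit 5) (nat_lit 72) (nat_lit 5) (nat_lit 68) (nat_lit 5) (nat_lit 373) (nat_lit 360) (nat_lit 167)))) (XT.nd (nat_lit 78) (nat_lit 608) (nat_lit 0) (XT.lf (nat_lit 0) (nat_lit 310255165271) (nat_lit 304) (nat_lit 126557140218) (nat_lit 380) (nat_lit 315544509420) (nat_lit 63) (nat_lit 5) (nat_lit 67) (nat_lit 5) (nat_lit 68) (nat_lit 5) (nat_lit 374) (nat_lit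 360) (nat_lit 166)) (XT.nd (nat_lit 78) (nat_lit 380) (nat_lit 0) (XT.lf (nat_lit 0) (nat_lit 174159751364) (nat_lit 228) (nat_lit 458325188148) (nat_lit 304) (nat_lit 156293088208) (nat_lit 60) (nat_lit 5) (nat_lit 63) (nat_lit 5) (nat_lit 64) (nat_lit 5) (nat_lit 375) (nat_lit 360) (nat_lit 165)) (XT.lf (nat_lit 0) (nat_lit 25573550137) (nat_lit 380) (nat_lit 801478896492) (nat_lit 76) (nat_lit 529358527) (nat_lit 55) (nat_lit 5) (nat_lit 60) (nat_lit 5) (nat_lit 56) (nat_lit 5) (nat_lit 376) (nat_lit 360) (nat_lit 164)))))) (XT.nd (nat_lit 45786) (nat_lit 0) (nat_lit 3572) (XT.nd (nat_lit 312) (nat_lit 456) (nat_lit 0) (XT.nd (nat_lit 78) (nat_lit 456) (nat_lit 0) (XT.lf (nat_lit 0) (nat_lit 235196919737) (nat_lit 380) (nat_lit 139464092763) (nat_lit 76) (nat_lit 493766605789) (nat_lit 55) (nat_lit 5) (nat_lit 60) (nat_lit 5) (nat_lit 56) (nat_lit 5) (nat_lit 377) (nat_lit 360) (nat_lit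 163)) (XT.nd (nat_lit 78) (nat_lit 228) (nat_lit 0) (XT.lf (nat_lit 0) (nat_lit 472803396185) (nat_lit 304) (nat_lit 319466895227) (nat_lit 76) (nat_lit 119710143218) (nat_lit 52) (nat_lit 5) (nat_lit 56) (nat_lit 5) (nat_lit 53) (nat_lit 5) (nat_lit 378) (nat_lit 360) (nat_lit 162)) (XT.lf (nat_lit 0) (nat_lit 436755162510) (nat_lit 228) (nat_lit 308268849795) (nat_lit 304) (nat_lit 213213182916) (nat_lit 49) (nat_lit 5) (nat_lit 52) (nat_lit 5) (nat_lit 53) (nat_lit 5) (nat_lit 379) (nat_lit 360) (nat_lit 161)))) (XT.nd (nat_lit 45318) (nat_lit 0) (nat_lit 4332) (XT.lf (nat_lit 0) (nat_lit 57720825667) (nat_lit 228) (nat_lit 270261644214) (nat_lit 304) (nat_lit 731785456614) (nat_lit 43) (nat_lit 5) (nat_lit 46) (nat_lit 5) (nat_lit 47) (nat_lit 5) (nat_lit 381) (nat_lit 360) (nat_lit 159)) (XT.nd (nat_lit 78) (nat_lit 0) (nat_lit 0) (XT.lf (nat_lit 0) (nat_lit 109682505064) (nat_lit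 0) (nat_lit 109682505064) (nat_lit 684) (nat_lit 3802262837) (nat_lit 100) (nat_lit 5) (nat_lit 100) (nat_lit 3) (nat_lit 109) (nat_lit 3) (nat_lit 361) (nat_lit 361) (nat_lit 178)) (XT.lf (nat_lit 76) (nat_lit 105838866530) (nat_lit 0) (nat_lit 353843632438) (nat_lit 760) (nat_lit 4335264155) (nat_lit 101) (nat_lit 5) (nat_lit 100) (nat_lit 5) (nat_lit 110) (nat_lit 5) (nat_lit 362) (nat_lit 361) (nat_lit 177))))) (XT.nd (nat_lit 234) (nat_lit 0) (nat_lit 228) (XT.nd (nat_lit 78) (nat_lit 0) (nat_lit 76) (XT.lf (nat_lit 0) (nat_lit 6938608264) (nat_lit 760) (nat_lit 13292183473) (nat_lit 836) (nat_lit 462499607913) (nat_lit 90) (nat_lit 5) (nat_lit 100) (nat_lit 5) (nat_lit 101) (nat_lit 5) (nat_lit 363) (nat_lit 361) (nat_lit 176)) (XT.nd (nat_lit 78) (nat_lit 0) (nat_lit 76) (XT.lf (nat_lit 0) (nat_lit 30162237276) (nat_lit 760) (nat_lit 137066187646) (nat_lit 836) (nat_lit 335148082080)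 (nat_lit 91) (nat_lit 5) (nat_lit 101) (nat_lit 5) (nat_lit 102) (nat_lit 5) (nat_lit 364) (nat_lit 361) (nat_lit 175)) (XT.lf (nat_lit 0) (nat_lit 62974171656) (nat_lit 760) (nat_lit 267434070998) (nat_lit 836) (nat_lit 192799539598) (nat_lit 92) (nat_lit 5) (nat_lit 102) (nat_lit 5) (nat_lit 103) (nat_lit 5) (nat_lit 365) (nat_lit 361) (nat_lit 174)))) (XT.nd (nat_lit 78) (nat_lit 0) (nat_lit 0) (XT.lf (nat_lit 0) (nat_lit 106407699452) (nat_lit 760) (nat_lit 404878613895) (nat_lit 836) (nat_lit 34019414298) (nat_lit 93) (nat_lit 5) (nat_lit 103) (nat_lit 5) (nat_lit 104) (nat_lit 5) (nat_lit 366) (nat_lit 361) (nat_lit 173)) (XT.nd (nat_lit 78) (nat_lit 0) (nat_lit 76) (XT.lf (nat_lit 76) (nat_lit 16406003529) (nat_lit 0) (nat_lit 147472197324) (nat_lit 836) (nat_lit 404765193300) (nat_lit 94) (nat_lit 5) (nat_lit 93) (nat_lit 5) (nat_lit 104) (nat_lit 5) (nat_lit 367) (nat_lit 361)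 (nat_lit 172)) (XT.lf (nat_lit 0) (nat_lit 236946766557) (nat_lit 760) (nat_lit 111591728636) (nat_lit 76) (nat_lit 244759557626) (nat_lit 94) (nat_lit 5) (nat_lit 104) (nat_lit 5) (nat_lit 95) (nat_lit 5) (nat_lit 368) (nat_lit 361) (nat_lit 171))))))))
noncomputable def xc125 : XT := (XT.nd (nat_lit 47346) (nat_lit 228) (nat_lit 0) (XT.nd (nat_lit 46410) (nat_lit 0) (nat_lit 1216) (XT.nd (nat_lit 390) (nat_lit 1216) (nat_lit 0) (XT.nd (nat_lit 156) (nat_lit 684) (nat_lit 0) (XT.nd (nat_lit 78) (nat_lit 380) (nat_lit 0) (XT.lf (nat_lit 0) (nat_lit 324957604940) (nat_lit 760) (nat_lit 246501070149) (nat_lit 76) (nat_lit 48011569764) (nat_lit 85) (nat_lit 5) (nat_lit 95) (nat_lit 5) (nat_lit 86) (nat_lit 5) (nat_lit 369) (nat_lit 361) (nat_lit 170)) (XT.lf (nat_lit 0) (nat_lit 254890016415) (nat_lit 380) (nat_lit 176951529378) (nat_lit 456) (nat_lit 215303054729) (nat_lit 80) (nat_lit 5)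 (nat_lit 85) (nat_lit 5) (nat_lit 86) (nat_lit 5) (nat_lit 370) (nat_lit 361) (nat_lit 169))) (XT.nd (nat_lit 78) (nat_lit 380) (nat_lit 0) (XT.lf (nat_lit 0) (nat_lit 128530612845) (nat_lit 304) (nat_lit 429005966840) (nat_lit 380) (nat_lit 118983306110) (nat_lit 76) (nat_lit 5) (nat_lit 80) (nat_lit 5) (nat_lit 81) (nat_lit 5) (nat_lit 371) (nat_lit 361) (nat_lit 168)) (XT.nd (nat_lit 78) (nat_lit 380) (nat_lit 0) (XT.lf (nat_lit 0) (nat_lit 701903500598) (nat_lit 304) (nat_lit 1152112161) (nat_lit 380) (nat_lit 4701161341) (nat_lit 76) (nat_lit 5) (nat_lit 80) (nat_lit 5) (nat_lit 81) (nat_lit 5) (nat_lit 372) (nat_lit 361) (nat_lit 167)) (XT.lf (nat_lit 0) (nat_lit 131622562132) (nat_lit 380) (nat_lit 151408891762) (nat_lit 76) (nat_lit 457533534121) (nat_lit 71) (nat_lit 5) (nat_lit 76) (nat_lit 5) (nat_lit 72) (nat_lit 5) (nat_lit 373) (nat_lit 361) (nat_lit 166))))) (XT.nd (nat_lit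 234) (nat_lit 380) (nat_lit 0) (XT.nd (nat_lit 78) (nat_lit 532) (nat_lit 0) (XT.lf (nat_lit 0) (nat_lit 289050740017) (nat_lit 380) (nat_lit 307549587855) (nat_lit 76) (nat_lit 178875514674) (nat_lit 67) (nat_lit 5) (nat_lit 72) (nat_lit 5) (nat_lit 68) (nat_lit 5) (nat_lit 374) (nat_lit 361) (nat_lit 165)) (XT.nd (nat_lit 78) (nat_lit 228) (nat_lit 0) (XT.lf (nat_lit 0) (nat_lit 335076119801) (nat_lit 304) (nat_lit 136681616509) (nat_lit 380) (nat_lit 340787600947) (nat_lit 63) (nat_lit 5) (nat_lit 67) (nat_lit 5) (nat_lit 68) (nat_lit 5) (nat_lit 375) (nat_lit 361) (nat_lit 164)) (XT.lf (nat_lit 0) (nat_lit 188093069692) (nat_lit 228) (nat_lit 494991088073) (nat_lit 304) (nat_lit 168796090531) (nat_lit 60) (nat_lit 5) (nat_lit 63) (nat_lit 5) (nat_lit 64) (nat_lit 5) (nat_lit 376) (nat_lit 361) (nat_lit 163)))) (XT.nd (nat_lit 78) (nat_lit 0) (nat_lit 0) (XT.lf (nat_lit 0) (nat_lit 27619842921)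 (nat_lit 380) (nat_lit 865596660455) (nat_lit 76) (nat_lit 571825324) (nat_lit 55) (nat_lit 5) (nat_lit 60) (nat_lit 5) (nat_lit 56) (nat_lit 5) (nat_lit 377) (nat_lit 361) (nat_lit 162)) (XT.nd (nat_lit 45630) (nat_lit 0) (nat_lit 3420) (XT.lf (nat_lit 0) (nat_lit 254013051810) (nat_lit 380) (nat_lit 150620713002) (nat_lit 76) (nat_lit 533268043618) (nat_lit 55) (nat_lit 5) (nat_lit 60) (nat_lit 5) (nat_lit 56) (nat_lit 5) (nat_lit 378) (nat_lit 361) (nat_lit 161)) (XT.lf (nat_lit 0) (nat_lit 118457342992) (nat_lit 0) (nat_lit 118457342992) (nat_lit 684) (nat_lit 4105944334) (nat_lit 100) (nat_lit 5) (nat_lit 100) (nat_lit 3) (nat_lit 109) (nat_lit 3) (nat_lit 362) (nat_lit 362) (nat_lit 176)))))) (XT.nd (nat_lit 468) (nat_lit 1444) (nat_lit 0) (XT.nd (nat_lit 234) (nat_lit 0) (nat_lit 152) (XT.nd (nat_lit 78) (nat_lit 760) (nat_lit 0) (XT.lf (nat_lit 76) (nat_lit 114306484186) (nat_lit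 0) (nat_lit 382151495485) (nat_lit 760) (nat_lit 4681159110) (nat_lit 101) (nat_lit 5) (nat_lit 100) (nat_lit 5) (nat_lit 110) (nat_lit 5) (nat_lit 363) (nat_lit 362) (nat_lit 175)) (XT.nd (nat_lit 78) (nat_lit 0) (nat_lit 76) (XT.lf (nat_lit 0) (nat_lit 7494527050) (nat_lit 760) (nat_lit 14355058829) (nat_lit 836) (nat_lit 499499203043) (nat_lit 90) (nat_lit 5) (nat_lit 100) (nat_lit 5) (nat_lit 101) (nat_lit 5) (nat_lit 364) (nat_lit 362) (nat_lit 174)) (XT.lf (nat_lit 0) (nat_lit 32575987689) (nat_lit 760) (nat_lit 148030960467) (nat_lit 836) (nat_lit 361959639730) (nat_lit 91) (nat_lit 5) (nat_lit 101) (nat_lit 5) (nat_lit 102) (nat_lit 5) (nat_lit 365) (nat_lit 362) (nat_lit 173)))) (XT.nd (nat_lit 78) (nat_lit 0) (nat_lit 76) (XT.lf (nat_lit 0) (nat_lit 68012823999) (nat_lit 760) (nat_lit 288828256579) (nat_lit 836) (nat_lit 208223287300) (nat_lit 92) (nat_lit 5) (nat_lit 102) (nat_lit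 5) (nat_lit 103) (nat_lit 5) (nat_lit 366) (nat_lit 362) (nat_lit 172)) (XT.nd (nat_lit 78) (nat_lit 0) (nat_lit 0) (XT.lf (nat_lit 0) (nat_lit 114920986406) (nat_lit 760) (nat_lit 437268349311) (nat_lit 836) (nat_lit 36740815642) (nat_lit 93) (nat_lit 5) (nat_lit 103) (nat_lit 5) (nat_lit 104) (nat_lit 5) (nat_lit 367) (nat_lit 362) (nat_lit 171)) (XT.lf (nat_lit 76) (nat_lit 17719013443) (nat_lit 0) (nat_lit 159270073041) (nat_lit 836) (nat_lit 437145746845) (nat_lit 94) (nat_lit 5) (nat_lit 93) (nat_lit 5) (nat_lit 104) (nat_lit 5) (nat_lit 368) (nat_lit 362) (nat_lit 170))))) (XT.nd (nat_lit 234) (nat_lit 684) (nat_lit 0) (XT.nd (nat_lit 78) (nat_lit 1064) (nat_lit 0) (XT.lf (nat_lit 0) (nat_lit 255903089367) (nat_lit 760) (nat_lit 120518545123) (nat_lit 76) (nat_lit 264340232668) (nat_lit 94) (nat_lit 5) (nat_lit 104) (nat_lit 5) (nat_lit 95) (nat_lit 5) (nat_lit 369) (nat_lit 362)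 (nat_lit 169)) (XT.nd (nat_lit 78) (nat_lit 380) (nat_lit 0) (XT.lf (nat_lit 0) (nat_lit 350954758804) (nat_lit 760) (nat_lit 266220627838) (nat_lit 76) (nat_lit 51852449774) (nat_lit 85) (nat_lit 5) (nat_lit 95) (nat_lit 5) (nat_lit 86) (nat_lit 5) (nat_lit 370) (nat_lit 362) (nat_lit 168)) (XT.lf (nat_lit 0) (nat_lit 275281722709) (nat_lit 380) (nat_lit 191107659697) (nat_lit 456) (nat_lit 232526759815) (nat_lit 80) (nat_lit 5) (nat_lit 85) (nat_lit 5) (nat_lit 86) (nat_lit 5) (nat_lit 371) (nat_lit 362) (nat_lit 167)))) (XT.nd (nat_lit 78) (nat_lit 380) (nat_lit 0) (XT.lf (nat_lit 0) (nat_lit 138813570225) (nat_lit 304) (nat_lit 463326418609) (nat_lit 380) (nat_lit 128501463041) (nat_lit 76) (nat_lit 5) (nat_lit 80) (nat_lit 5) (nat_lit 81) (nat_lit 5) (nat_lit 372) (nat_lit 362) (nat_lit 166)) (XT.nd (nat_lit 78) (nat_lit 380) (nat_lit 0) (XT.lf (nat_lit 0) (nat_lit 758056251343) (nat_lit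 304) (nat_lit 1244257450) (nat_lit 380) (nat_lit 5076784288) (nat_lit 76) (nat_lit 5) (nat_lit 80) (nat_lit 5) (nat_lit 81) (nat_lit 5) (nat_lit 373) (nat_lit 362) (nat_lit 165)) (XT.lf (nat_lit 0) (nat_lit 142152796160) (nat_lit 380) (nat_lit 163521116552) (nat_lit 76) (nat_lit 494136252366) (nat_lit 71) (nat_lit 5) (nat_lit 76) (nat_lit 5) (nat_lit 72) (nat_lit 5) (nat_lit 374) (nat_lit 362) (nat_lit 164))))))) (XT.nd (nat_lit 46410) (nat_lit 0) (nat_lit 228) (XT.nd (nat_lit 45942) (nat_lit 0) (nat_lit 2888) (XT.nd (nat_lit 156) (nat_lit 836) (nat_lit 0) (XT.nd (nat_lit 78) (nat_lit 304) (nat_lit 0) (XT.lf (nat_lit 0) (nat_lit 312175204710) (nat_lit 380) (nat_lit 332153069713) (nat_lit 76) (nat_lit 193185614764) (nat_lit 67) (nat_lit 5) (nat_lit 72) (nat_lit 5) (nat_lit 68) (nat_lit 5) (nat_lit 375) (nat_lit 362) (nat_lit 163)) (XT.lf (nat_lit 0) (nat_lit 361882673470) (nat_lit 304) (nat_lit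 147616064445) (nat_lit 380) (nat_lit 368050206736) (nat_lit 63) (nat_lit 5) (nat_lit 67) (nat_lit 5) (nat_lit 68) (nat_lit 5) (nat_lit 376) (nat_lit 362) (nat_lit 162))) (XT.nd (nat_lit 78) (nat_lit 608) (nat_lit 0) (XT.lf (nat_lit 0) (nat_lit 203140976703) (nat_lit 228) (nat_lit 534590276416) (nat_lit 304) (nat_lit 182299396486) (nat_lit 60) (nat_lit 5) (nat_lit 63) (nat_lit 5) (nat_lit 64) (nat_lit 5) (nat_lit 377) (nat_lit 362) (nat_lit 161)) (XT.nd (nat_lit 156) (nat_lit 228) (nat_lit 0) (XT.lf (nat_lit 0) (nat_lit 29829780812) (nat_lit 380) (nat_lit 934843923678) (nat_lit 76) (nat_lit 617672615) (nat_lit 55) (nat_lit 5) (nat_lit 60) (nat_lit 5) (nat_lit 56) (nat_lit 5) (nat_lit 378) (nat_lit 362) (nat_lit 160)) (XT.lf (nat_lit 0) (nat_lit 551478578783) (nat_lit 304) (nat_lit 372625215162) (nat_lit 76) (nat_lit 139630149420) (nat_lit 52) (nat_lit 5) (nat_lit 56) (nat_lit 5) (nat_lit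 53) (nat_lit 5) (nat_lit 380) (nat_lit 362) (nat_lit 158))))) (XT.nd (nat_lit 234) (nat_lit 0) (nat_lit 76) (XT.nd (nat_lit 78) (nat_lit 760) (nat_lit 0) (XT.lf (nat_lit 0) (nat_lit 127934134070) (nat_lit 0) (nat_lit 127934134070) (nat_lit 684) (nat_lit 4433991614) (nat_lit 100) (nat_lit 5) (nat_lit 100) (nat_lit 3) (nat_lit 109) (nat_lit 3) (nat_lit 363) (nat_lit 363) (nat_lit 174)) (XT.nd (nat_lit 78) (nat_lit 760) (nat_lit 0) (XT.lf (nat_lit 76) (nat_lit 123451438736) (nat_lit 0) (nat_lit 412723934440) (nat_lit 760) (nat_lit 5054857790) (nat_lit 101) (nat_lit 5) (nat_lit 100) (nat_lit 5) (nat_lit 110) (nat_lit 5) (nat_lit 364) (nat_lit 363) (nat_lit 173)) (XT.lf (nat_lit 0) (nat_lit 8094800912) (nat_lit 760) (nat_lit 15503035449) (nat_lit 836) (nat_lit 539458819068) (nat_lit 90) (nat_lit 5) (nat_lit 100) (nat_lit 5) (nat_lit 101) (nat_lit 5) (nat_lit 365) (nat_lit 363) (nat_lit 172))))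 (XT.nd (nat_lit 78) (nat_lit 0) (nat_lit 76) (XT.lf (nat_lit 0) (nat_lit 35182728082) (nat_lit 760) (nat_lit 159872989611) (nat_lit 836) (nat_lit 390916163208) (nat_lit 91) (nat_lit 5) (nat_lit 101) (nat_lit 5) (nat_lit 102) (nat_lit 5) (nat_lit 366) (nat_lit 363) (nat_lit 171)) (XT.nd (nat_lit 78) (nat_lit 0) (nat_lit 76) (XT.lf (nat_lit 0) (nat_lit 73454466013) (nat_lit 760) (nat_lit 311934054057) (nat_lit 836) (nat_lit 224880965557) (nat_lit 92) (nat_lit 5) (nat_lit 102) (nat_lit 5) (nat_lit 103) (nat_lit 5) (nat_lit 367) (nat_lit 363) (nat_lit 170)) (XT.lf (nat_lit 0) (nat_lit 124115240591) (nat_lit 760) (nat_lit 472249342552) (nat_lit 836) (nat_lit 39679950749) (nat_lit 93) (nat_lit 5) (nat_lit 103) (nat_lit 5) (nat_lit 104) (nat_lit 5) (nat_lit 368) (nat_lit 363) (nat_lit 169)))))) (XT.nd (nat_lit 468) (nat_lit 1596) (nat_lit 0) (XT.nd (nat_lit 234) (nat_lit 684) (nat_lit 0) (XT.nd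 (nat_lit 78) (nat_lit 608) (nat_lit 0) (XT.lf (nat_lit 76) (nat_lit 19136988593) (nat_lit 0) (nat_lit 172011764560) (nat_lit 836) (nat_lit 472116839104) (nat_lit 94) (nat_lit 5) (nat_lit 93) (nat_lit 5) (nat_lit 104) (nat_lit 5) (nat_lit 369) (nat_lit 363) (nat_lit 168)) (XT.nd (nat_lit 78) (nat_lit 684) (nat_lit 0) (XT.lf (nat_lit 0) (nat_lit 276375835046) (nat_lit 760) (nat_lit 130159581371) (nat_lit 76) (nat_lit 285487374492) (nat_lit 94) (nat_lit 5) (nat_lit 104) (nat_lit 5) (nat_lit 95) (nat_lit 5) (nat_lit 370) (nat_lit 363) (nat_lit 167)) (XT.lf (nat_lit 0) (nat_lit 379031607161) (nat_lit 760) (nat_lit 287517825456) (nat_lit 76) (nat_lit 56000606686) (nat_lit 85) (nat_lit 5) (nat_lit 95) (nat_lit 5) (nat_lit 86) (nat_lit 5) (nat_lit 371) (nat_lit 363) (nat_lit 166)))) (XT.nd (nat_lit 78) (nat_lit 304) (nat_lit 0) (XT.lf (nat_lit 0) (nat_lit 297304693465) (nat_lit 380) (nat_lit 206396279303)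 (nat_lit 456) (nat_lit 251128438244) (nat_lit 80) (nat_lit 5) (nat_lit 85) (nat_lit 5) (nat_lit 86) (nat_lit 5) (nat_lit 372) (nat_lit 363) (nat_lit 165)) (XT.nd (nat_lit 78) (nat_lit 0) (nat_lit 0) (XT.lf (nat_lit 0) (nat_lit 149919091673) (nat_lit 304) (nat_lit 500392510168) (nat_lit 380) (nat_lit 138781144936) (nat_lit 76) (nat_lit 5) (nat_lit 80) (nat_lit 5) (nat_lit 81) (nat_lit 5) (nat_lit 373) (nat_lit 363) (nat_lit 164)) (XT.lf (nat_lit 0) (nat_lit 818701154997) (nat_lit 304) (nat_lit 1343777741) (nat_lit 380) (nat_lit 5482524116) (nat_lit 76) (nat_lit 5) (nat_lit 80) (nat_lit 5) (nat_lit 81) (nat_lit 5) (nat_lit 374) (nat_lit 363) (nat_lit 163))))) (XT.nd (nat_lit 234) (nat_lit 608) (nat_lit 0) (XT.nd (nat_lit 78) (nat_lit 608) (nat_lit 0) (XT.lf (nat_lit 0) (nat_lit 153525387699) (nat_lit 380) (nat_lit 176602388738) (nat_lit 76) (nat_lit 533667183003) (nat_lit 71) (nat_lit 5)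 (nat_lit 76) (nat_lit 5) (nat_lit 72) (nat_lit 5) (nat_lit 375) (nat_lit 363) (nat_lit 162)) (XT.nd (nat_lit 78) (nat_lit 304) (nat_lit 0) (XT.lf (nat_lit 0) (nat_lit 337149568730) (nat_lit 380) (nat_lit 358724899336) (nat_lit 76) (nat_lit 208640514457) (nat_lit 67) (nat_lit 5) (nat_lit 72) (nat_lit 5) (nat_lit 68) (nat_lit 5) (nat_lit 376) (nat_lit 363) (nat_lit 161)) (XT.lf (nat_lit 0) (nat_lit 390833685225) (nat_lit 304) (nat_lit 159425279827) (nat_lit 380) (nat_lit 397493878379) (nat_lit 63) (nat_lit 5) (nat_lit 67) (nat_lit 5) (nat_lit 68) (nat_lit 5) (nat_lit 377) (nat_lit 363) (nat_lit 160)))) (XT.nd (nat_lit 156) (nat_lit 380) (nat_lit 0) (XT.lf (nat_lit 0) (nat_lit 219392650447) (nat_lit 228) (nat_lit 577357413908) (nat_lit 304) (nat_lit 196883021312) (nat_lit 60) (nat_lit 5) (nat_lit 63) (nat_lit 5) (nat_lit 64) (nat_lit 5) (nat_lit 378) (nat_lit 363) (nat_lit 159)) (XT.nd (nat_lit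 45630) (nat_lit 0) (nat_lit 3420) (XT.lf (nat_lit 0) (nat_lit 296281452292) (nat_lit 380) (nat_lit 175683157239) (nat_lit 76) (nat_lit 622004027727) (nat_lit 55) (nat_lit 5) (nat_lit 60) (nat_lit 5) (nat_lit 56) (nat_lit 5) (nat_lit 380) (nat_lit 363) (nat_lit 157)) (XT.lf (nat_lit 0) (nat_lit 138169039382) (nat_lit 0) (nat_lit 138169039382) (nat_lit 684) (nat_lit 4788343774) (nat_lit 100) (nat_lit 5) (nat_lit 100) (nat_lit 3) (nat_lit 109) (nat_lit 3) (nat_lit 364) (nat_lit 364) (nat_lit 172))))))))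
noncomputable def xc126 : XT := (XT.nd (nat_lit 47502) (nat_lit 0) (nat_lit 608) (XT.nd (nat_lit 858) (nat_lit 1596) (nat_lit 0) (XT.nd (nat_lit 390) (nat_lit 1064) (nat_lit 0) (XT.nd (nat_lit 156) (nat_lit 0) (nat_lit 76) (XT.nd (nat_lit 78) (nat_lit 760) (nat_lit 0) (XT.lf (nat_lit 76) (nat_lit 133327927476) (nat_lit 0) (nat_lit 445742122958) (nat_lit 760) (nat_lit 5458565645) (nat_lit 101) (nat_lit 5) (nat_lit 100) (nat_lit 5) (nat_lit 110) (nat_lit 5) (nat_lit 365) (nat_lit 364) (nat_lit 171)) (XT.lf (nat_lit 0) (nat_lit 8742995151) (nat_lit 760) (nat_lit 16742911269) (nat_lit 836) (nat_lit 582615250057) (nat_lit 90) (nat_lit 5) (nat_lit 100) (nat_lit 5) (nat_lit 101) (nat_lit 5) (nat_lit 366) (nat_lit 364) (nat_lit 170))) (XT.nd (nat_lit 78) (nat_lit 0) (nat_lit 76) (XT.lf (nat_lit 0) (nat_lit 37997913353) (nat_lit 760) (nat_lit 172662444954) (nat_lit 836) (nat_lit 422189243903) (nat_lit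 91) (nat_lit 5) (nat_lit 101) (nat_lit 5) (nat_lit 102) (nat_lit 5) (nat_lit 367) (nat_lit 364) (nat_lit 169)) (XT.nd (nat_lit 78) (nat_lit 0) (nat_lit 76) (XT.lf (nat_lit 0) (nat_lit 79331351494) (nat_lit 760) (nat_lit 336888381392) (nat_lit 836) (nat_lit 242871284429) (nat_lit 92) (nat_lit 5) (nat_lit 102) (nat_lit 5) (nat_lit 103) (nat_lit 5) (nat_lit 368) (nat_lit 364) (nat_lit 168)) (XT.lf (nat_lit 0) (nat_lit 134044953043) (nat_lit 760) (nat_lit 510028882974) (nat_lit 836) (nat_lit 42854235231) (nat_lit 93) (nat_lit 5) (nat_lit 103) (nat_lit 5) (nat_lit 104) (nat_lit 5) (nat_lit 369) (nat_lit 364) (nat_lit 167))))) (XT.nd (nat_lit 234) (nat_lit 684) (nat_lit 0) (XT.nd (nat_lit 78) (nat_lit 608) (nat_lit 0) (XT.lf (nat_lit 76) (nat_lit 20668336976) (nat_lit 0) (nat_lit 185772779177) (nat_lit 836) (nat_lit 509885699702) (nat_lit 94) (nat_lit 5) (nat_lit 93) (nat_lit 5) (nat_lit 104)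 (nat_lit 5) (nat_lit 370) (nat_lit 364) (nat_lit 166)) (XT.nd (nat_lit 78) (nat_lit 684) (nat_lit 0) (XT.lf (nat_lit 0) (nat_lit 298486329258) (nat_lit 760) (nat_lit 140571964340) (nat_lit 76) (nat_lit 308326298616) (nat_lit 94) (nat_lit 5) (nat_lit 104) (nat_lit 5) (nat_lit 95) (nat_lit 5) (nat_lit 371) (nat_lit 364) (nat_lit 165)) (XT.lf (nat_lit 0) (nat_lit 409354536670) (nat_lit 760) (nat_lit 310518863452) (nat_lit 76) (nat_lit 60480621725) (nat_lit 85) (nat_lit 5) (nat_lit 95) (nat_lit 5) (nat_lit 86) (nat_lit 5) (nat_lit 372) (nat_lit 364) (nat_lit 164)))) (XT.nd (nat_lit 78) (nat_lit 304) (nat_lit 0) (XT.lf (nat_lit 0) (nat_lit 321089440119) (nat_lit 380) (nat_lit 222907987504) (nat_lit 456) (nat_lit 271218316908) (nat_lit 80) (nat_lit 5) (nat_lit 85) (nat_lit 5) (nat_lit 86) (nat_lit 5) (nat_lit 373) (nat_lit 364) (nat_lit 163)) (XT.nd (nat_lit 78) (nat_lit 0) (nat_lit 0) (XT.lf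 (nat_lit 0) (nat_lit 161912992662) (nat_lit 304) (nat_lit 540423892181) (nat_lit 380) (nat_lit 149883263461) (nat_lit 76) (nat_lit 5) (nat_lit 80) (nat_lit 5) (nat_lit 81) (nat_lit 5) (nat_lit 374) (nat_lit 364) (nat_lit 162)) (XT.lf (nat_lit 0) (nat_lit 884197593374) (nat_lit 304) (nat_lit 1451262552) (nat_lit 380) (nat_lit 5920780610) (nat_lit 76) (nat_lit 5) (nat_lit 80) (nat_lit 5) (nat_lit 81) (nat_lit 5) (nat_lit 375) (nat_lit 364) (nat_lit 161)))))) (XT.nd (nat_lit 46176) (nat_lit 0) (nat_lit 2660) (XT.nd (nat_lit 312) (nat_lit 912) (nat_lit 0) (XT.nd (nat_lit 78) (nat_lit 304) (nat_lit 0) (XT.lf (nat_lit 0) (nat_lit 165807734085) (nat_lit 380) (nat_lit 190730222208) (nat_lit 76) (nat_lit 576360583748) (nat_lit 71) (nat_lit 5) (nat_lit 76) (nat_lit 5) (nat_lit 72) (nat_lit 5) (nat_lit 376) (nat_lit 364) (nat_lit 160)) (XT.lf (nat_lit 0) (nat_lit 364121832277) (nat_lit 380) (nat_lit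 387422534668) (nat_lit 76) (nat_lit 225331798919) (nat_lit 67) (nat_lit 5) (nat_lit 72) (nat_lit 5) (nat_lit 68) (nat_lit 5) (nat_lit 377) (nat_lit 364) (nat_lit 159))) (XT.nd (nat_lit 45708) (nat_lit 0) (nat_lit 3420) (XT.lf (nat_lit 0) (nat_lit 34794038433) (nat_lit 380) (nat_lit 1090401172572) (nat_lit 76) (nat_lit 720621533) (nat_lit 55) (nat_lit 5) (nat_lit 60) (nat_lit 5) (nat_lit 56) (nat_lit 5) (nat_lit 380) (nat_lit 364) (nat_lit 156)) (XT.nd (nat_lit 78) (nat_lit 0) (nat_lit 0) (XT.lf (nat_lit 0) (nat_lit 149222712213) (nat_lit 0) (nat_lit 149222712213) (nat_lit 684) (nat_lit 5171096487) (nat_lit 100) (nat_lit 5) (nat_lit 100) (nat_lit 3) (nat_lit 109) (nat_lit 3) (nat_lit 365) (nat_lit 365) (nat_lit 170)) (XT.lf (nat_lit 76) (nat_lit 143994482011) (nat_lit 0) (nat_lit 481401727502) (nat_lit 760) (nat_lit 5894667248) (nat_lit 101) (nat_lit 5) (nat_lit 100) (nat_lit 5) (nat_lit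 110) (nat_lit 5) (nat_lit 366) (nat_lit 365) (nat_lit 169))))) (XT.nd (nat_lit 234) (nat_lit 0) (nat_lit 228) (XT.nd (nat_lit 78) (nat_lit 0) (nat_lit 76) (XT.lf (nat_lit 0) (nat_lit 9442957883) (nat_lit 760) (nat_lit 18082029513) (nat_lit 836) (nat_lit 629224234692) (nat_lit 90) (nat_lit 5) (nat_lit 100) (nat_lit 5) (nat_lit 101) (nat_lit 5) (nat_lit 367) (nat_lit 365) (nat_lit 168)) (XT.nd (nat_lit 78) (nat_lit 0) (nat_lit 76) (XT.lf (nat_lit 0) (nat_lit 41038232554) (nat_lit 760) (nat_lit 186475111482) (nat_lit 836) (nat_lit 455964201348) (nat_lit 91) (nat_lit 5) (nat_lit 101) (nat_lit 5) (nat_lit 102) (nat_lit 5) (nat_lit 368) (nat_lit 365) (nat_lit 167)) (XT.lf (nat_lit 0) (nat_lit 85678312461) (nat_lit 760) (nat_lit 363839111550) (nat_lit 836) (nat_lit 262300851403) (nat_lit 92) (nat_lit 5) (nat_lit 102) (nat_lit 5) (nat_lit 103) (nat_lit 5) (nat_lit 369) (nat_lit 365) (nat_lit 166))))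 (XT.nd (nat_lit 78) (nat_lit 0) (nat_lit 0) (XT.lf (nat_lit 0) (nat_lit 144768972129) (nat_lit 760) (nat_lit 550830844690) (nat_lit 836) (nat_lit 46282478389) (nat_lit 93) (nat_lit 5) (nat_lit 103) (nat_lit 5) (nat_lit 104) (nat_lit 5) (nat_lit 370) (nat_lit 365) (nat_lit 165)) (XT.nd (nat_lit 78) (nat_lit 0) (nat_lit 76) (XT.lf (nat_lit 76) (nat_lit 22322137692) (nat_lit 0) (nat_lit 200634664485) (nat_lit 836) (nat_lit 550676138557) (nat_lit 94) (nat_lit 5) (nat_lit 93) (nat_lit 5) (nat_lit 104) (nat_lit 5) (nat_lit 371) (nat_lit 365) (nat_lit 164)) (XT.lf (nat_lit 0) (nat_lit 322365602033) (nat_lit 760) (nat_lit 151817392662) (nat_lit 76) (nat_lit 332992346063) (nat_lit 94) (nat_lit 5) (nat_lit 104) (nat_lit 5) (nat_lit 95) (nat_lit 5) (nat_lit 372) (nat_lit 365) (nat_lit 163))))))) (XT.nd (nat_lit 46722) (nat_lit 0) (nat_lit 304) (XT.nd (nat_lit 468) (nat_lit 608) (nat_lit 0) (XT.nd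 (nat_lit 156) (nat_lit 684) (nat_lit 0) (XT.nd (nat_lit 78) (nat_lit 380) (nat_lit 0) (XT.lf (nat_lit 0) (nat_lit 442103243342) (nat_lit 760) (nat_lit 335360039847) (nat_lit 76) (nat_lit 65319042745) (nat_lit 85) (nat_lit 5) (nat_lit 95) (nat_lit 5) (nat_lit 86) (nat_lit 5) (nat_lit 373) (nat_lit 365) (nat_lit 162)) (XT.lf (nat_lit 0) (nat_lit 346776913552) (nat_lit 380) (nat_lit 240740631526) (nat_lit 456) (nat_lit 292915442415) (nat_lit 80) (nat_lit 5) (nat_lit 85) (nat_lit 5) (nat_lit 86) (nat_lit 5) (nat_lit 374) (nat_lit 365) (nat_lit 161))) (XT.nd (nat_lit 78) (nat_lit 380) (nat_lit 0) (XT.lf (nat_lit 0) (nat_lit 174866352423) (nat_lit 304) (nat_lit 583657787436) (nat_lit 380) (nat_lit 161873604690) (nat_lit 76) (nat_lit 5) (nat_lit 80) (nat_lit 5) (nat_lit 81) (nat_lit 5) (nat_lit 375) (nat_lit 365) (nat_lit 160)) (XT.nd (nat_lit 78) (nat_lit 380) (nat_lit 0) (XT.lf (nat_lit 0) (nat_lit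 954933697462) (nat_lit 304) (nat_lit 1567348631) (nat_lit 380) (nat_lit 6394146904) (nat_lit 76) (nat_lit 5) (nat_lit 80) (nat_lit 5) (nat_lit 81) (nat_lit 5) (nat_lit 376) (nat_lit 365) (nat_lit 159)) (XT.lf (nat_lit 0) (nat_lit 179072623190) (nat_lit 380) (nat_lit 205988333375) (nat_lit 76) (nat_lit 622469452828) (nat_lit 71) (nat_lit 5) (nat_lit 76) (nat_lit 5) (nat_lit 72) (nat_lit 5) (nat_lit 377) (nat_lit 365) (nat_lit 158))))) (XT.nd (nat_lit 46020) (nat_lit 0) (nat_lit 2052) (XT.nd (nat_lit 45864) (nat_lit 0) (nat_lit 2812) (XT.lf (nat_lit 0) (nat_lit 455869071305) (nat_lit 304) (nat_lit 185953530499) (nat_lit 380) (nat_lit 463636286884) (nat_lit 63) (nat_lit 5) (nat_lit 67) (nat_lit 5) (nat_lit 68) (nat_lit 5) (nat_lit 379) (nat_lit 365) (nat_lit 156)) (XT.nd (nat_lit 78) (nat_lit 0) (nat_lit 0) (XT.lf (nat_lit 0) (nat_lit 161160657517) (nat_lit 0) (nat_lit 161160657517) (nat_lit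 684) (nat_lit 5584514326) (nat_lit 100) (nat_lit 5) (nat_lit 100) (nat_lit 3) (nat_lit 109) (nat_lit 3) (nat_lit 366) (nat_lit 366) (nat_lit 168)) (XT.lf (nat_lit 76) (nat_lit 155514315210) (nat_lit 0) (nat_lit 519914066926) (nat_lit 760) (nat_lit 6365740242) (nat_lit 101) (nat_lit 5) (nat_lit 100) (nat_lit 5) (nat_lit 110) (nat_lit 5) (nat_lit 367) (nat_lit 366) (nat_lit 167)))) (XT.nd (nat_lit 78) (nat_lit 0) (nat_lit 76) (XT.lf (nat_lit 0) (nat_lit 10198843004) (nat_lit 760) (nat_lit 19528322107) (nat_lit 836) (nat_lit 679561971675) (nat_lit 90) (nat_lit 5) (nat_lit 100) (nat_lit 5) (nat_lit 101) (nat_lit 5) (nat_lit 368) (nat_lit 366) (nat_lit 166)) (XT.nd (nat_lit 78) (nat_lit 0) (nat_lit 76) (XT.lf (nat_lit 0) (nat_lit 44321707938) (nat_lit 760) (nat_lit 201392838277) (nat_lit 836) (nat_lit 492441181363) (nat_lit 91) (nat_lit 5) (nat_lit 101) (nat_lit 5) (nat_lit 102) (nat_lit 5)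 (nat_lit 369) (nat_lit 366) (nat_lit 165)) (XT.lf (nat_lit 0) (nat_lit 92532965701) (nat_lit 760) (nat_lit 392945948675) (nat_lit 836) (nat_lit 283284803106) (nat_lit 92) (nat_lit 5) (nat_lit 102) (nat_lit 5) (nat_lit 103) (nat_lit 5) (nat_lit 370) (nat_lit 366) (nat_lit 164)))))) (XT.nd (nat_lit 468) (nat_lit 684) (nat_lit 0) (XT.nd (nat_lit 234) (nat_lit 1292) (nat_lit 0) (XT.nd (nat_lit 78) (nat_lit 0) (nat_lit 0) (XT.lf (nat_lit 0) (nat_lit 156350852419) (nat_lit 760) (nat_lit 594897013121) (nat_lit 836) (nat_lit 49984994647) (nat_lit 93) (nat_lit 5) (nat_lit 103) (nat_lit 5) (nat_lit 104) (nat_lit 5) (nat_lit 371) (nat_lit 366) (nat_lit 163)) (XT.nd (nat_lit 78) (nat_lit 0) (nat_lit 76) (XT.lf (nat_lit 76) (nat_lit 24108194851) (nat_lit 0) (nat_lit 216685491634) (nat_lit 836) (nat_lit 594729872027) (nat_lit 94) (nat_lit 5) (nat_lit 93) (nat_lit 5) (nat_lit 104) (nat_lit 5) (nat_lit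 372) (nat_lit 366) (nat_lit 162)) (XT.lf (nat_lit 0) (nat_lit 348155164353) (nat_lit 760) (nat_lit 163962502161) (nat_lit 76) (nat_lit 359631685357) (nat_lit 94) (nat_lit 5) (nat_lit 104) (nat_lit 5) (nat_lit 95) (nat_lit 5) (nat_lit 373) (nat_lit 366) (nat_lit 161)))) (XT.nd (nat_lit 78) (nat_lit 684) (nat_lit 0) (XT.lf (nat_lit 0) (nat_lit 477471797510) (nat_lit 760) (nat_lit 362188557814) (nat_lit 76) (nat_lit 70544541544) (nat_lit 85) (nat_lit 5) (nat_lit 95) (nat_lit 5) (nat_lit 86) (nat_lit 5) (nat_lit 374) (nat_lit 366) (nat_lit 160)) (XT.nd (nat_lit 78) (nat_lit 304) (nat_lit 0) (XT.lf (nat_lit 0) (nat_lit 374519339461) (nat_lit 380) (nat_lit 259999886353) (nat_lit 456) (nat_lit 316348386445) (nat_lit 80) (nat_lit 5) (nat_lit 85) (nat_lit 5) (nat_lit 86) (nat_lit 5) (nat_lit 375) (nat_lit 366) (nat_lit 159)) (XT.lf (nat_lit 0) (nat_lit 188855935264) (nat_lit 304) (nat_lit 630350396612)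 (nat_lit 380) (nat_lit 174823218848) (nat_lit 76) (nat_lit 5) (nat_lit 80) (nat_lit 5) (nat_lit 81) (nat_lit 5) (nat_lit 376) (nat_lit 366) (nat_lit 158))))) (XT.nd (nat_lit 46176) (nat_lit 0) (nat_lit 1748) (XT.nd (nat_lit 156) (nat_lit 684) (nat_lit 0) (XT.lf (nat_lit 0) (nat_lit 1031328647562) (nat_lit 304) (nat_lit 1692723726) (nat_lit 380) (nat_lit 6905424751) (nat_lit 76) (nat_lit 5) (nat_lit 80) (nat_lit 5) (nat_lit 81) (nat_lit 5) (nat_lit 377) (nat_lit 366) (nat_lit 157)) (XT.nd (nat_lit 45942) (nat_lit 0) (nat_lit 2508) (XT.lf (nat_lit 0) (nat_lit 424712200212) (nat_lit 380) (nat_lit 451889052117) (nat_lit 76) (nat_lit 262827082187) (nat_lit 67) (nat_lit 5) (nat_lit 72) (nat_lit 5) (nat_lit 68) (nat_lit 5) (nat_lit 379) (nat_lit 366) (nat_lit 155)) (XT.lf (nat_lit 0) (nat_lit 174053620137) (nat_lit 0) (nat_lit 174053620137) (nat_lit 684) (nat_lit 6031044093) (nat_lit 100) (nat_lit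 5) (nat_lit 100) (nat_lit 3) (nat_lit 109) (nat_lit 3) (nat_lit 367) (nat_lit 367) (nat_lit 166)))) (XT.nd (nat_lit 78) (nat_lit 760) (nat_lit 0) (XT.lf (nat_lit 76) (nat_lit 167955695884) (nat_lit 0) (nat_lit 561507364797) (nat_lit 760) (nat_lit 6874570462) (nat_lit 101) (nat_lit 5) (nat_lit 100) (nat_lit 5) (nat_lit 110) (nat_lit 5) (nat_lit 368) (nat_lit 367) (nat_lit 165)) (XT.nd (nat_lit 78) (nat_lit 0) (nat_lit 76) (XT.lf (nat_lit 0) (nat_lit 11015134953) (nat_lit 760) (nat_lit 21090356593) (nat_lit 836) (nat_lit 733926756405) (nat_lit 90) (nat_lit 5) (nat_lit 100) (nat_lit 5) (nat_lit 101) (nat_lit 5) (nat_lit 369) (nat_lit 367) (nat_lit 164)) (XT.lf (nat_lit 0) (nat_lit 47867801895) (nat_lit 760) (nat_lit 217504023464) (nat_lit 836) (nat_lit 531836342048) (nat_lit 91) (nat_lit 5) (nat_lit 101) (nat_lit 5) (nat_lit 102) (nat_lit 5) (nat_lit 370) (nat_lit 367) (nat_lit 163))))))))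
noncomputable def xc127 : XT := (XT.nd (nat_lit 94068) (nat_lit 0) (nat_lit 684) (XT.nd (nat_lit 46956) (nat_lit 0) (nat_lit 380) (XT.nd (nat_lit 390) (nat_lit 1064) (nat_lit 0) (XT.nd (nat_lit 156) (nat_lit 532) (nat_lit 0) (XT.nd (nat_lit 78) (nat_lit 0) (nat_lit 76) (XT.lf (nat_lit 0) (nat_lit 99935935813) (nat_lit 760) (nat_lit 424381374399) (nat_lit 836) (nat_lit 305947487552) (nat_lit 92) (nat_lit 5) (nat_lit 102) (nat_lit 5) (nat_lit 103) (nat_lit 5) (nat_lit 371) (nat_lit 367) (nat_lit 162)) (XT.lf (nat_lit 0) (nat_lit 168859231414) (nat_lit 760) (nat_lit 642488517703) (nat_lit 836) (nat_lit 53983723906) (nat_lit 93) (nat_lit 5) (nat_lit 103) (nat_lit 5) (nat_lit 104) (nat_lit 5) (nat_lit 372) (nat_lit 367) (nat_lit 161))) (XT.nd (nat_lit 78) (nat_lit 608) (nat_lit 0) (XT.lf (nat_lit 76) (nat_lit 26037095761) (nat_lit 0) (nat_lit 234020377252) (nat_lit 836) (nat_lit 642307955193)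 (nat_lit 94) (nat_lit 5) (nat_lit 93) (nat_lit 5) (nat_lit 104) (nat_lit 5) (nat_lit 373) (nat_lit 367) (nat_lit 160)) (XT.nd (nat_lit 78) (nat_lit 684) (nat_lit 0) (XT.lf (nat_lit 0) (nat_lit 376007846842) (nat_lit 760) (nat_lit 177079260638) (nat_lit 76) (nat_lit 388402178699) (nat_lit 94) (nat_lit 5) (nat_lit 104) (nat_lit 5) (nat_lit 95) (nat_lit 5) (nat_lit 374) (nat_lit 367) (nat_lit 159)) (XT.lf (nat_lit 0) (nat_lit 515669793969) (nat_lit 760) (nat_lit 391163397909) (nat_lit 76) (nat_lit 76188083759) (nat_lit 85) (nat_lit 5) (nat_lit 95) (nat_lit 5) (nat_lit 86) (nat_lit 5) (nat_lit 375) (nat_lit 367) (nat_lit 158))))) (XT.nd (nat_lit 46332) (nat_lit 0) (nat_lit 1444) (XT.nd (nat_lit 234) (nat_lit 684) (nat_lit 0) (XT.lf (nat_lit 0) (nat_lit 404481120522) (nat_lit 380) (nat_lit 280799880952) (nat_lit 456) (nat_lit 341656007564) (nat_lit 80) (nat_lit 5) (nat_lit 85) (nat_lit 5) (nat_lit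 86) (nat_lit 5) (nat_lit 376) (nat_lit 367) (nat_lit 157)) (XT.nd (nat_lit 46020) (nat_lit 0) (nat_lit 2204) (XT.lf (nat_lit 0) (nat_lit 208870756776) (nat_lit 380) (nat_lit 240264282785) (nat_lit 76) (nat_lit 726048406951) (nat_lit 71) (nat_lit 5) (nat_lit 76) (nat_lit 5) (nat_lit 72) (nat_lit 5) (nat_lit 379) (nat_lit 367) (nat_lit 154)) (XT.lf (nat_lit 0) (nat_lit 187978004072) (nat_lit 0) (nat_lit 187978004072) (nat_lit 684) (nat_lit 6513329250) (nat_lit 100) (nat_lit 5) (nat_lit 100) (nat_lit 3) (nat_lit 109) (nat_lit 3) (nat_lit 368) (nat_lit 368) (nat_lit 164)))) (XT.nd (nat_lit 78) (nat_lit 760) (nat_lit 0) (XT.lf (nat_lit 76) (nat_lit 181392353421) (nat_lit 0) (nat_lit 606428101887) (nat_lit 760) (nat_lit 7424168301) (nat_lit 101) (nat_lit 5) (nat_lit 100) (nat_lit 5) (nat_lit 110) (nat_lit 5) (nat_lit 369) (nat_lit 368) (nat_lit 163)) (XT.nd (nat_lit 78) (nat_lit 0) (nat_lit 76)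 (XT.lf (nat_lit 0) (nat_lit 11896675403) (nat_lit 760) (nat_lit 22777386834) (nat_lit 836) (nat_lit 792640748594) (nat_lit 90) (nat_lit 5) (nat_lit 100) (nat_lit 5) (nat_lit 101) (nat_lit 5) (nat_lit 370) (nat_lit 368) (nat_lit 162)) (XT.lf (nat_lit 0) (nat_lit 51697532393) (nat_lit 760) (nat_lit 234904137972) (nat_lit 836) (nat_lit 574383134679) (nat_lit 91) (nat_lit 5) (nat_lit 101) (nat_lit 5) (nat_lit 102) (nat_lit 5) (nat_lit 371) (nat_lit 368) (nat_lit 161)))))) (XT.nd (nat_lit 46644) (nat_lit 0) (nat_lit 1064) (XT.nd (nat_lit 234) (nat_lit 1216) (nat_lit 0) (XT.nd (nat_lit 78) (nat_lit 0) (nat_lit 76) (XT.lf (nat_lit 0) (nat_lit 107931096049) (nat_lit 760) (nat_lit 458331669870) (nat_lit 836) (nat_lit 330423200992) (nat_lit 92) (nat_lit 5) (nat_lit 102) (nat_lit 5) (nat_lit 103) (nat_lit 5) (nat_lit 372) (nat_lit 368) (nat_lit 160)) (XT.nd (nat_lit 78) (nat_lit 0) (nat_lit 0) (XT.lf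 (nat_lit 0) (nat_lit 182368236390) (nat_lit 760) (nat_lit 693887379239) (nat_lit 836) (nat_lit 58302361537) (nat_lit 93) (nat_lit 5) (nat_lit 103) (nat_lit 5) (nat_lit 104) (nat_lit 5) (nat_lit 373) (nat_lit 368) (nat_lit 159)) (XT.lf (nat_lit 76) (nat_lit 28120273747) (nat_lit 0) (nat_lit 252742047117) (nat_lit 836) (nat_lit 693692328751) (nat_lit 94) (nat_lit 5) (nat_lit 93) (nat_lit 5) (nat_lit 104) (nat_lit 5) (nat_lit 374) (nat_lit 368) (nat_lit 158)))) (XT.nd (nat_lit 78) (nat_lit 1368) (nat_lit 0) (XT.lf (nat_lit 0) (nat_lit 406088705505) (nat_lit 760) (nat_lit 191245394274) (nat_lit 76) (nat_lit 419474317426) (nat_lit 94) (nat_lit 5) (nat_lit 104) (nat_lit 5) (nat_lit 95) (nat_lit 5) (nat_lit 375) (nat_lit 368) (nat_lit 157)) (XT.nd (nat_lit 156) (nat_lit 684) (nat_lit 0) (XT.lf (nat_lit 0) (nat_lit 556923594100) (nat_lit 760) (nat_lit 422456260096) (nat_lit 76) (nat_lit 82283112363)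 (nat_lit 85) (nat_lit 5) (nat_lit 95) (nat_lit 5) (nat_lit 86) (nat_lit 5) (nat_lit 376) (nat_lit 368) (nat_lit 156)) (XT.lf (nat_lit 0) (nat_lit 220282019069) (nat_lit 304) (nat_lit 735240679655) (nat_lit 380) (nat_lit 203913347002) (nat_lit 76) (nat_lit 5) (nat_lit 80) (nat_lit 5) (nat_lit 81) (nat_lit 5) (nat_lit 378) (nat_lit 368) (nat_lit 154))))) (XT.nd (nat_lit 234) (nat_lit 0) (nat_lit 76) (XT.nd (nat_lit 78) (nat_lit 760) (nat_lit 0) (XT.lf (nat_lit 0) (nat_lit 203016325265) (nat_lit 0) (nat_lit 203016325265) (nat_lit 684) (nat_lit 7034225520) (nat_lit 100) (nat_lit 5) (nat_lit 100) (nat_lit 3) (nat_lit 109) (nat_lit 3) (nat_lit 369) (nat_lit 369) (nat_lit 162)) (XT.nd (nat_lit 78) (nat_lit 760) (nat_lit 0) (XT.lf (nat_lit 76) (nat_lit 195903914763) (nat_lit 0) (nat_lit 654942476843) (nat_lit 760) (nat_lit 8017786438) (nat_lit 101) (nat_lit 5) (nat_lit 100) (nat_lit 5) (nat_lit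 110) (nat_lit 5) (nat_lit 370) (nat_lit 369) (nat_lit 161)) (XT.lf (nat_lit 0) (nat_lit 12848692060) (nat_lit 760) (nat_lit 24599407781) (nat_lit 836) (nat_lit 856051881318) (nat_lit 90) (nat_lit 5) (nat_lit 100) (nat_lit 5) (nat_lit 101) (nat_lit 5) (nat_lit 371) (nat_lit 369) (nat_lit 160)))) (XT.nd (nat_lit 78) (nat_lit 0) (nat_lit 76) (XT.lf (nat_lit 0) (nat_lit 55833597626) (nat_lit 760) (nat_lit 253696291225) (nat_lit 836) (nat_lit 620333687088) (nat_lit 91) (nat_lit 5) (nat_lit 101) (nat_lit 5) (nat_lit 102) (nat_lit 5) (nat_lit 372) (nat_lit 369) (nat_lit 159)) (XT.nd (nat_lit 78) (nat_lit 0) (nat_lit 76) (XT.lf (nat_lit 0) (nat_lit 116565828392) (nat_lit 760) (nat_lit 494998019577) (nat_lit 836) (nat_lit 356856983714) (nat_lit 92) (nat_lit 5) (nat_lit 102) (nat_lit 5) (nat_lit 103) (nat_lit 5) (nat_lit 373) (nat_lit 369) (nat_lit 158)) (XT.lf (nat_lit 0) (nat_lit 196957923750)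 (nat_lit 760) (nat_lit 749398181067) (nat_lit 836) (nat_lit 62966498778) (nat_lit 93) (nat_lit 5) (nat_lit 103) (nat_lit 5) (nat_lit 104) (nat_lit 5) (nat_lit 374) (nat_lit 369) (nat_lit 157))))))) (XT.nd (nat_lit 93600) (nat_lit 0) (nat_lit 760) (XT.nd (nat_lit 46722) (nat_lit 0) (nat_lit 836) (XT.nd (nat_lit 46488) (nat_lit 0) (nat_lit 760) (XT.nd (nat_lit 234) (nat_lit 988) (nat_lit 0) (XT.lf (nat_lit 76) (nat_lit 30370075965) (nat_lit 0) (nat_lit 272961444909) (nat_lit 836) (nat_lit 749187489693) (nat_lit 94) (nat_lit 5) (nat_lit 93) (nat_lit 5) (nat_lit 104) (nat_lit 5) (nat_lit 375) (nat_lit 369) (nat_lit 156)) (XT.lf (nat_lit 0) (nat_lit 471787167480) (nat_lit 380) (nat_lit 327524987272) (nat_lit 456) (nat_lit 398507152322) (nat_lit 80) (nat_lit 5) (nat_lit 85) (nat_lit 5) (nat_lit 86) (nat_lit 5) (nat_lit 378) (nat_lit 369) (nat_lit 153))) (XT.nd (nat_lit 78) (nat_lit 760) (nat_lit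 0) (XT.lf (nat_lit 0) (nat_lit 219257700618) (nat_lit 0) (nat_lit 219257700618) (nat_lit 684) (nat_lit 7596817753) (nat_lit 100) (nat_lit 5) (nat_lit 100) (nat_lit 3) (nat_lit 109) (nat_lit 3) (nat_lit 370) (nat_lit 370) (nat_lit 160)) (XT.nd (nat_lit 78) (nat_lit 760) (nat_lit 0) (XT.lf (nat_lit 76) (nat_lit 211576376322) (nat_lit 0) (nat_lit 707337983705) (nat_lit 760) (nat_lit 8658939010) (nat_lit 101) (nat_lit 5) (nat_lit 100) (nat_lit 5) (nat_lit 110) (nat_lit 5) (nat_lit 371) (nat_lit 370) (nat_lit 159)) (XT.lf (nat_lit 0) (nat_lit 13876829730) (nat_lit 760) (nat_lit 26567214657) (nat_lit 836) (nat_lit 924535922802) (nat_lit 90) (nat_lit 5) (nat_lit 100) (nat_lit 5) (nat_lit 101) (nat_lit 5) (nat_lit 372) (nat_lit 370) (nat_lit 158))))) (XT.nd (nat_lit 312) (nat_lit 0) (nat_lit 228) (XT.nd (nat_lit 78) (nat_lit 0) (nat_lit 76) (XT.lf (nat_lit 0) (nat_lit 60300510610) (nat_lit 760)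 (nat_lit 273991842100) (nat_lit 836) (nat_lit 669960297723) (nat_lit 91) (nat_lit 5) (nat_lit 101) (nat_lit 5) (nat_lit 102) (nat_lit 5) (nat_lit 373) (nat_lit 370) (nat_lit 157)) (XT.nd (nat_lit 78) (nat_lit 0) (nat_lit 76) (XT.lf (nat_lit 0) (nat_lit 125891304419) (nat_lit 760) (nat_lit 534597703493) (nat_lit 836) (nat_lit 385405479519) (nat_lit 92) (nat_lit 5) (nat_lit 102) (nat_lit 5) (nat_lit 103) (nat_lit 5) (nat_lit 374) (nat_lit 370) (nat_lit 156)) (XT.lf (nat_lit 0) (nat_lit 212714753508) (nat_lit 760) (nat_lit 809349873934) (nat_lit 836) (nat_lit 68003774371) (nat_lit 93) (nat_lit 5) (nat_lit 103) (nat_lit 5) (nat_lit 104) (nat_lit 5) (nat_lit 375) (nat_lit 370) (nat_lit 155)))) (XT.nd (nat_lit 46410) (nat_lit 0) (nat_lit 456) (XT.lf (nat_lit 0) (nat_lit 473662249641) (nat_lit 760) (nat_lit 223068283706) (nat_lit 76) (nat_lit 489274784768) (nat_lit 94) (nat_lit 5) (nat_lit 104)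 (nat_lit 5) (nat_lit 95) (nat_lit 5) (nat_lit 377) (nat_lit 370) (nat_lit 153)) (XT.nd (nat_lit 78) (nat_lit 0) (nat_lit 0) (XT.lf (nat_lit 0) (nat_lit 236798376107) (nat_lit 0) (nat_lit 236798376107) (nat_lit 684) (nat_lit 8204438166) (nat_lit 100) (nat_lit 5) (nat_lit 100) (nat_lit 3) (nat_lit 109) (nat_lit 3) (nat_lit 371) (nat_lit 371) (nat_lit 158)) (XT.lf (nat_lit 76) (nat_lit 228502613638) (nat_lit 0) (nat_lit 763925115607) (nat_lit 760) (nat_lit 9351422356) (nat_lit 101) (nat_lit 5) (nat_lit 100) (nat_lit 5) (nat_lit 110) (nat_lit 5) (nat_lit 372) (nat_lit 371) (nat_lit 157)))))) (XT.nd (nat_lit 46956) (nat_lit 0) (nat_lit 0) (XT.nd (nat_lit 312) (nat_lit 0) (nat_lit 228) (XT.nd (nat_lit 78) (nat_lit 0) (nat_lit 76) (XT.lf (nat_lit 0) (nat_lit 14987183847) (nat_lit 760) (nat_lit 28692466875) (nat_lit 836) (nat_lit 998498703157) (nat_lit 90) (nat_lit 5) (nat_lit 100) (nat_lit 5)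 (nat_lit 101) (nat_lit 5) (nat_lit 373) (nat_lit 371) (nat_lit 156)) (XT.nd (nat_lit 156) (nat_lit 0) (nat_lit 152) (XT.lf (nat_lit 0) (nat_lit 65124744508) (nat_lit 760) (nat_lit 295911058791) (nat_lit 836) (nat_lit 723557049240) (nat_lit 91) (nat_lit 5) (nat_lit 101) (nat_lit 5) (nat_lit 102) (nat_lit 5) (nat_lit 374) (nat_lit 371) (nat_lit 155)) (XT.lf (nat_lit 0) (nat_lit 229732101706) (nat_lit 760) (nat_lit 874097725287) (nat_lit 836) (nat_lit 73444038333) (nat_lit 93) (nat_lit 5) (nat_lit 103) (nat_lit 5) (nat_lit 104) (nat_lit 5) (nat_lit 376) (nat_lit 371) (nat_lit 153)))) (XT.nd (nat_lit 46488) (nat_lit 0) (nat_lit 532) (XT.lf (nat_lit 76) (nat_lit 35423956108) (nat_lit 0) (nat_lit 318382285852) (nat_lit 836) (nat_lit 873851913669) (nat_lit 94) (nat_lit 5) (nat_lit 93) (nat_lit 5) (nat_lit 104) (nat_lit 5) (nat_lit 377) (nat_lit 371) (nat_lit 152)) (XT.nd (nat_lit 78) (nat_lit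 0) (nat_lit 0) (XT.lf (nat_lit 0) (nat_lit 255742297156) (nat_lit 0) (nat_lit 255742297156) (nat_lit 684) (nat_lit 8860686047) (nat_lit 100) (nat_lit 5) (nat_lit 100) (nat_lit 3) (nat_lit 109) (nat_lit 3) (nat_lit 372) (nat_lit 372) (nat_lit 156)) (XT.lf (nat_lit 76) (nat_lit 246782931791) (nat_lit 0) (nat_lit 825039204764) (nat_lit 760) (nat_lit 10099337435) (nat_lit 101) (nat_lit 5) (nat_lit 100) (nat_lit 5) (nat_lit 110) (nat_lit 5) (nat_lit 373) (nat_lit 372) (nat_lit 155))))) (XT.nd (nat_lit 46956) (nat_lit 0) (nat_lit 0) (XT.nd (nat_lit 156) (nat_lit 0) (nat_lit 152) (XT.lf (nat_lit 0) (nat_lit 16186336656) (nat_lit 760) (nat_lit 30987757096) (nat_lit 836) (nat_lit 1078378519275) (nat_lit 90) (nat_lit 5) (nat_lit 100) (nat_lit 5) (nat_lit 101) (nat_lit 5) (nat_lit 374) (nat_lit 372) (nat_lit 154)) (XT.nd (nat_lit 78) (nat_lit 0) (nat_lit 76) (XT.lf (nat_lit 0) (nat_lit 146839965869)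 (nat_lit 760) (nat_lit 623554499505) (nat_lit 836) (nat_lit 449536846849) (nat_lit 92) (nat_lit 5) (nat_lit 102) (nat_lit 5) (nat_lit 103) (nat_lit 5) (nat_lit 376) (nat_lit 372) (nat_lit 152)) (XT.lf (nat_lit 0) (nat_lit 248110813803) (nat_lit 760) (nat_lit 944025424515) (nat_lit 836) (nat_lit 79319528831) (nat_lit 93) (nat_lit 5) (nat_lit 103) (nat_lit 5) (nat_lit 104) (nat_lit 5) (nat_lit 377) (nat_lit 372) (nat_lit 151)))) (XT.nd (nat_lit 78) (nat_lit 0) (nat_lit 76) (XT.lf (nat_lit 0) (nat_lit 17481396282) (nat_lit 760) (nat_lit 33466685818) (nat_lit 836) (nat_lit 1164648732115) (nat_lit 90) (nat_lit 5) (nat_lit 100) (nat_lit 5) (nat_lit 101) (nat_lit 5) (nat_lit 375) (nat_lit 373) (nat_lit 152)) (XT.nd (nat_lit 46800) (nat_lit 0) (nat_lit 684) (XT.lf (nat_lit 0) (nat_lit 75961822642) (nat_lit 760) (nat_lit 345150441924) (nat_lit 836) (nat_lit 843956822145) (nat_lit 91) (nat_lit 5)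 (nat_lit 101) (nat_lit 5) (nat_lit 102) (nat_lit 5) (nat_lit 376) (nat_lit 373) (nat_lit 151)) (XT.lf (nat_lit 76) (nat_lit 287847792789) (nat_lit 0) (nat_lit 962325861162) (nat_lit 760) (nat_lit 11779537136) (nat_lit 101) (nat_lit 5) (nat_lit 100) (nat_lit 5) (nat_lit 110) (nat_lit 5) (nat_lit 375) (nat_lit 374) (nat_lit 151))))))))

set_option maxRecDepth 10000000 in
noncomputable def Tp : PT := (PT.nd (nat_lit 7183254) (PT.nd (nat_lit 6809244) (PT.nd (nat_lit 6434610) pc0 pc1) (PT.nd (nat_lit 233688) pc2 pc3)) (PT.nd (nat_lit 187590) (PT.nd (nat_lit 94146) pc4 pc5) (PT.nd (nat_lit 141960) pc6 pc7)))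

set_option maxRecDepth 10000000 in
noncomputable def Tx : XT := (XT.nd (nat_lit 11937588) (nat_lit 0) (nat_lit 76) XT.nil (XT.nd (nat_lit 5624112) (nat_lit 0) (nat_lit 0) (XT.nd (nat_lit 2529930) (nat_lit 0) (nat_lit 76) (XT.nd (nat_lit 1733394) (nat_lit 0) (nat_lit 0) (XT.nd (nat_lit 1216956) (nat_lit 0) (nat_lit 0) (XT.nd (nat_lit 842556) (nat_lit 0) (nat_lit 0) (XT.nd (nat_lit 562614) (nat_lit 0) (nat_lit 0) (XT.nd (nat_lit 420498) (nat_lit 0) (nat_lit 0) (XT.nd (nat_lit 280566) (nat_lit 0) (nat_lit 0) xc0 xc1) (XT.nd (nat_lit 93678) (nat_lit 0) (nat_lit 0) xc2 xc3)) (XT.nd (nat_lit 140634) (nat_lit 0) (nat_lit 0) (XT.nd (nat_lit 92742) (nat_lit 0) (nat_lit 0) xc4 xc5) (XT.nd (nat_lit 91806) (nat_lit 0) (nat_lit 0) xc6 xc7))) (XT.nd (nat_lit 188292) (nat_lit 0) (nat_lit 0) (XT.nd (nat_lit 94380) (nat_lit 0) (nat_lit 0) (XT.nd (nat_lit 47268) (nat_lit 0) (nat_lit 0) xc8 xc9) (XT.nd (nat_lit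 46956) (nat_lit 0) (nat_lit 0) xc10 xc11)) (XT.nd (nat_lit 93366) (nat_lit 0) (nat_lit 0) (XT.nd (nat_lit 46722) (nat_lit 0) (nat_lit 0) xc12 xc13) (XT.nd (nat_lit 46410) (nat_lit 0) (nat_lit 0) xc14 xc15)))) (XT.nd (nat_lit 281424) (nat_lit 0) (nat_lit 0) (XT.nd (nat_lit 141414) (nat_lit 0) (nat_lit 0) (XT.nd (nat_lit 92040) (nat_lit 0) (nat_lit 0) (XT.nd (nat_lit 46098) (nat_lit 0) (nat_lit 0) xc16 xc17) (XT.nd (nat_lit 3510) (nat_lit 0) (nat_lit 0) xc18 xc19)) (XT.nd (nat_lit 91104) (nat_lit 0) (nat_lit 0) (XT.nd (nat_lit 45630) (nat_lit 0) (nat_lit 0) xc20 xc21) (XT.nd (nat_lit 3510) (nat_lit 0) (nat_lit 0) xc22 xc23))) (XT.nd (nat_lit 138606) (nat_lit 0) (nat_lit 0) (XT.nd (nat_lit 90168) (nat_lit 0) (nat_lit 0) (XT.nd (nat_lit 45162) (nat_lit 0) (nat_lit 0) xc24 xc25) (XT.nd (nat_lit 3510) (nat_lit 76) (nat_lit 0) xc26 xc27)) (XT.nd (nat_lit 48282) (nat_lit 0) (nat_lit 0) (XT.nd (nat_lit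 3510) (nat_lit 76) (nat_lit 0) xc28 xc29) (XT.nd (nat_lit 44538) (nat_lit 0) (nat_lit 76) xc30 xc31))))) (XT.nd (nat_lit 419328) (nat_lit 0) (nat_lit 76) (XT.nd (nat_lit 231270) (nat_lit 0) (nat_lit 76) (XT.nd (nat_lit 136344) (nat_lit 0) (nat_lit 76) (XT.nd (nat_lit 47892) (nat_lit 0) (nat_lit 0) (XT.nd (nat_lit 44382) (nat_lit 0) (nat_lit 76) xc32 xc33) (XT.nd (nat_lit 44226) (nat_lit 0) (nat_lit 76) xc34 xc35)) (XT.nd (nat_lit 47502) (nat_lit 0) (nat_lit 0) (XT.nd (nat_lit 3510) (nat_lit 152) (nat_lit 0) xc36 xc37) (XT.nd (nat_lit 3510) (nat_lit 0) (nat_lit 0) xc38 xc39))) (XT.nd (nat_lit 94302) (nat_lit 0) (nat_lit 0) (XT.nd (nat_lit 47190) (nat_lit 0) (nat_lit 0) (XT.nd (nat_lit 3510) (nat_lit 0) (nat_lit 0) xc40 xc41) (XT.nd (nat_lit 3510) (nat_lit 0) (nat_lit 0) xc42 xc43)) (XT.nd (nat_lit 46956) (nat_lit 0) (nat_lit 0) (XT.nd (nat_lit 3510) (nat_lit 0) (nat_lit 0) xc44 xc45) (XT.nd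 (nat_lit 3510) (nat_lit 0) (nat_lit 0) xc46 xc47)))) (XT.nd (nat_lit 187824) (nat_lit 0) (nat_lit 0) (XT.nd (nat_lit 93756) (nat_lit 0) (nat_lit 0) (XT.nd (nat_lit 46800) (nat_lit 0) (nat_lit 0) (XT.nd (nat_lit 3510) (nat_lit 0) (nat_lit 0) xc48 xc49) (XT.nd (nat_lit 3510) (nat_lit 0) (nat_lit 0) xc50 xc51)) (XT.nd (nat_lit 46956) (nat_lit 0) (nat_lit 0) (XT.nd (nat_lit 3510) (nat_lit 0) (nat_lit 0) xc52 xc53) (XT.nd (nat_lit 3510) (nat_lit 0) (nat_lit 0) xc54 xc55))) (XT.nd (nat_lit 94458) (nat_lit 0) (nat_lit 0) (XT.nd (nat_lit 47112) (nat_lit 0) (nat_lit 0) (XT.nd (nat_lit 43602) (nat_lit 0) (nat_lit 836) xc56 xc57) (XT.nd (nat_lit 43758) (nat_lit 0) (nat_lit 608) xc58 xc59)) (XT.nd (nat_lit 47424) (nat_lit 0) (nat_lit 0) (XT.nd (nat_lit 43836) (nat_lit 0) (nat_lit 380) xc60 xc61) (XT.nd (nat_lit 43914) (nat_lit 0) (nat_lit 228) xc62 xc63)))))) (XT.nd (nat_lit 981162) (nat_lit 0) (nat_lit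 380) (XT.nd (nat_lit 465114) (nat_lit 0) (nat_lit 152) (XT.nd (nat_lit 231426) (nat_lit 0) (nat_lit 0) (XT.nd (nat_lit 135798) (nat_lit 0) (nat_lit 0) (XT.nd (nat_lit 47502) (nat_lit 0) (nat_lit 0) (XT.nd (nat_lit 43992) (nat_lit 0) (nat_lit 152) xc64 xc65) (XT.nd (nat_lit 44070) (nat_lit 0) (nat_lit 0) xc66 xc67)) (XT.nd (nat_lit 47736) (nat_lit 0) (nat_lit 0) (XT.nd (nat_lit 3510) (nat_lit 912) (nat_lit 0) xc68 xc69) (XT.nd (nat_lit 3510) (nat_lit 456) (nat_lit 0) xc70 xc71))) (XT.nd (nat_lit 95940) (nat_lit 0) (nat_lit 76) (XT.nd (nat_lit 47892) (nat_lit 0) (nat_lit 0) (XT.nd (nat_lit 3510) (nat_lit 152) (nat_lit 0) xc72 xc73) (XT.nd (nat_lit 44460) (nat_lit 0) (nat_lit 760) xc74 xc75)) (XT.nd (nat_lit 48204) (nat_lit 0) (nat_lit 76) (XT.nd (nat_lit 44616) (nat_lit 0) (nat_lit 152) xc76 xc77) (XT.nd (nat_lit 44694) (nat_lit 0) (nat_lit 0) xc78 xc79)))) (XT.nd (nat_lit 235716) (nat_lit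 0) (nat_lit 76) (XT.nd (nat_lit 96876) (nat_lit 0) (nat_lit 0) (XT.nd (nat_lit 48360) (nat_lit 0) (nat_lit 0) (XT.nd (nat_lit 3510) (nat_lit 380) (nat_lit 0) xc80 xc81) (XT.nd (nat_lit 44928) (nat_lit 0) (nat_lit 760) xc82 xc83)) (XT.nd (nat_lit 48516) (nat_lit 0) (nat_lit 0) (XT.nd (nat_lit 45006) (nat_lit 0) (nat_lit 76) xc84 xc85) (XT.nd (nat_lit 45084) (nat_lit 0) (nat_lit 0) xc86 xc87))) (XT.nd (nat_lit 139776) (nat_lit 0) (nat_lit 0) (XT.nd (nat_lit 48828) (nat_lit 0) (nat_lit 0) (XT.nd (nat_lit 3510) (nat_lit 0) (nat_lit 0) xc88 xc89) (XT.nd (nat_lit 45396) (nat_lit 0) (nat_lit 0) xc90 xc91)) (XT.nd (nat_lit 49140) (nat_lit 0) (nat_lit 0) (XT.nd (nat_lit 3510) (nat_lit 380) (nat_lit 0) xc92 xc93) (XT.nd (nat_lit 45630) (nat_lit 0) (nat_lit 76) xc94 xc95))))) (XT.nd (nat_lit 657228) (nat_lit 0) (nat_lit 608) (XT.nd (nat_lit 283452) (nat_lit 0) (nat_lit 152) (XT.nd (nat_lit 141336)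 (nat_lit 0) (nat_lit 76) (XT.nd (nat_lit 49296) (nat_lit 0) (nat_lit 0) (XT.nd (nat_lit 3510) (nat_lit 456) (nat_lit 0) xc96 xc97) (XT.nd (nat_lit 45942) (nat_lit 0) (nat_lit 76) xc98 xc99)) (XT.nd (nat_lit 49608) (nat_lit 0) (nat_lit 0) (XT.nd (nat_lit 3510) (nat_lit 76) (nat_lit 0) xc100 xc101) (XT.nd (nat_lit 46176) (nat_lit 0) (nat_lit 0) xc102 xc103))) (XT.nd (nat_lit 186108) (nat_lit 0) (nat_lit 228) (XT.nd (nat_lit 92820) (nat_lit 0) (nat_lit 152) (XT.nd (nat_lit 46332) (nat_lit 0) (nat_lit 76) xc104 xc105) (XT.nd (nat_lit 46566) (nat_lit 0) (nat_lit 0) xc106 xc107)) (XT.nd (nat_lit 50310) (nat_lit 0) (nat_lit 76) (XT.nd (nat_lit 3510) (nat_lit 76) (nat_lit 0) xc108 xc109) (XT.nd (nat_lit 46800) (nat_lit 0) (nat_lit 76) xc110 xc111)))) (XT.nd (nat_lit 424086) (nat_lit 0) (nat_lit 912) (XT.nd (nat_lit 189072) (nat_lit 0) (nat_lit 380) (XT.nd (nat_lit 94302) (nat_lit 0) (nat_lit 152)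 (XT.nd (nat_lit 47112) (nat_lit 0) (nat_lit 152) xc112 xc113) (XT.nd (nat_lit 47268) (nat_lit 0) (nat_lit 76) xc114 xc115)) (XT.nd (nat_lit 95082) (nat_lit 0) (nat_lit 76) (XT.nd (nat_lit 47502) (nat_lit 0) (nat_lit 76) xc116 xc117) (XT.nd (nat_lit 91962) (nat_lit 0) (nat_lit 304) xc118 xc119))) (XT.nd (nat_lit 327678) (nat_lit 0) (nat_lit 1216) (XT.nd (nat_lit 140790) (nat_lit 0) (nat_lit 456) (XT.nd (nat_lit 92508) (nat_lit 0) (nat_lit 304) xc120 xc121) (XT.nd (nat_lit 93210) (nat_lit 0) (nat_lit 228) xc122 xc123)) (XT.nd (nat_lit 234390) (nat_lit 0) (nat_lit 912) (XT.nd (nat_lit 94068) (nat_lit 0) (nat_lit 684) xc124 xc125) (XT.nd (nat_lit 141102) (nat_lit 0) (nat_lit 1216) xc126 xc127))))))) XT.nil))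

set_option maxRecDepth 10000000 in
noncomputable def Te : XT := XT.nil

set_option maxRecDepth 10000000 in
noncomputable def Tz : ZL := (ZL.cons (nat_lit 76) (nat_lit 6) (nat_lit 229355388335299677578) (ZL.cons (nat_lit 152) (nat_lit 6) (nat_lit 221645250803227873292) (ZL.cons (nat_lit 228) (nat_lit 3) (nat_lit 110501548903352529814) (ZL.cons (nat_lit 304) (nat_lit 6) (nat_lit 213318302268590324664) (ZL.cons (nat_lit 380) (nat_lit 6) (nat_lit 206255462191840718698) (ZL.cons (nat_lit 456) (nat_lit 3) (nat_lit 102830438041974612283) (ZL.cons (nat_lit 532) (nat_lit 6) (nat_lit 198627594908951144256) (ZL.cons (nat_lit 608) (nat_lit 6) (nat_lit 192176780040336835856) (ZL.cons (nat_lit 684) (nat_lit 3) (nat_lit 95813118673922355828) (ZL.cons (nat_lit 760) (nat_lit 6) (nat_lit 185209899982233382782) (ZL.cons (nat_lit 836) (nat_lit 6) (nat_lit 179340560072172794198) (ZL.cons (nat_lit 912) (nat_lit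 3) (nat_lit 89415399159932635897) (ZL.cons (nat_lit 988) (nat_lit 6) (nat_lit 173001672969307358530) (ZL.cons (nat_lit 1064) (nat_lit 6) (nat_lit 167687980965519299798) (ZL.cons (nat_lit 1140) (nat_lit 3) (nat_lit 83607989671506167304) (ZL.cons (nat_lit 1216) (nat_lit 6) (nat_lit 161949193601428196370) (ZL.cons (nat_lit 1292) (nat_lit 6) (nat_lit 157170105162382593364) (ZL.cons (nat_lit 1368) (nat_lit 3) (nat_lit 78366533311512146131) (ZL.cons (nat_lit 1444) (nat_lit 6) (nat_lit 152850393501792292390) (ZL.cons (nat_lit 1520) (nat_lit 6) (nat_lit 152008689648213342118) (ZL.cons (nat_lit 1596) (nat_lit 6) (nat_lit 147748066368996466234) (ZL.cons (nat_lit 1672) (nat_lit 3) (nat_lit 73671700527387908532) (ZL.cons (nat_lit 1748) (nat_lit 6) (nat_lit 143925948647422749786) (ZL.cons (nat_lit 1824) (nat_lit 6) (nat_lit 143146593227442240276) (ZL.cons (nat_lit 1900) (nat_lit 6) (nat_lit 139393396193902486856)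 (ZL.cons (nat_lit 1976) (nat_lit 3) (nat_lit 69509353044071313258) (ZL.cons (nat_lit 2052) (nat_lit 6) (nat_lit 136061568786550395298) (ZL.cons (nat_lit 2128) (nat_lit 6) (nat_lit 135339943397679553162) (ZL.cons (nat_lit 2204) (nat_lit 6) (nat_lit 133131366842972027286) (ZL.cons (nat_lit 2280) (nat_lit 6) (nat_lit 132088505080850276076) (ZL.cons (nat_lit 2356) (nat_lit 3) (nat_lit 65870784898869647140) (ZL.cons (nat_lit 2508) (nat_lit 6) (nat_lit 129245123355036547696) (ZL.cons (nat_lit 2584) (nat_lit 6) (nat_lit 128576951698674656826) (ZL.cons (nat_lit 2660) (nat_lit 6) (nat_lit 126792948550752064442) (ZL.cons (nat_lit 2736) (nat_lit 6) (nat_lit 125827335808046739248) (ZL.cons (nat_lit 2812) (nat_lit 3) (nat_lit 62753049717397915087) (ZL.cons (nat_lit 2888) (nat_lit 6) (nat_lit 124717449261749214560) (ZL.cons (nat_lit 2964) (nat_lit 6) (nat_lit 123476428105762931658) (ZL.cons (nat_lit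 3040) (nat_lit 6) (nat_lit 122857750646168588260) (ZL.cons (nat_lit 3116) (nat_lit 6) (nat_lit 123006326232982055240) (ZL.cons (nat_lit 3192) (nat_lit 6) (nat_lit 121510297286920811494) (ZL.cons (nat_lit 3268) (nat_lit 6) (nat_lit 120616211414045510388) (ZL.cons (nat_lit 3344) (nat_lit 3) (nat_lit 60159385163851038032) (ZL.cons (nat_lit 3420) (nat_lit 6) (nat_lit 121649439476131966276) (ZL.cons (nat_lit 3496) (nat_lit 6) (nat_lit 119917292205927240270) (ZL.cons (nat_lit 3572) (nat_lit 6) (nat_lit 118768198542976978320) (ZL.cons (nat_lit 3648) (nat_lit 6) (nat_lit 118195349043352586288) (ZL.cons (nat_lit 3724) (nat_lit 3) (nat_lit 58559904887605864442) (ZL.cons (nat_lit 3800) (nat_lit 6) (nat_lit 117293363792249457920) (ZL.cons (nat_lit 3876) (nat_lit 6) (nat_lit 117815054311611757506) (ZL.cons (nat_lit 3952) (nat_lit 6) (nat_lit 118687972832672626450) (ZL.cons (nat_lit 4028) (nat_lit 6)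 (nat_lit 117302760845578882240) (ZL.cons (nat_lit 4104) (nat_lit 6) (nat_lit 116474903555879529364) (ZL.cons (nat_lit 4180) (nat_lit 3) (nat_lit 58099747571299285828) (ZL.cons (nat_lit 4256) (nat_lit 6) (nat_lit 115126097966333798438) (ZL.cons (nat_lit 4332) (nat_lit 6) (nat_lit 115487090321772274838) (ZL.cons (nat_lit 4408) (nat_lit 6) (nat_lit 116211214246607381574) (ZL.cons (nat_lit 4484) (nat_lit 6) (nat_lit 115147238632764546438) (ZL.cons (nat_lit 4560) (nat_lit 6) (nat_lit 114616822429408627886) (ZL.cons (nat_lit 4636) (nat_lit 3) (nat_lit 56726811265353388533) (ZL.cons (nat_lit 4712) (nat_lit 6) (nat_lit 113641060869107524430) (ZL.cons (nat_lit 4788) (nat_lit 6) (nat_lit 114204486630018807980) (ZL.cons (nat_lit 4864) (nat_lit 6) (nat_lit 113437952102519407168) (ZL.cons (nat_lit 4940) (nat_lit 3) (nat_lit 56591472156222223162) (ZL.cons (nat_lit 5016) (nat_lit 6) (nat_lit 112266026519823937382)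 (ZL.cons (nat_lit 5092) (nat_lit 6) (nat_lit 112655898263697491896) (ZL.cons (nat_lit 5168) (nat_lit 6) (nat_lit 112164772149479048792) (ZL.cons (nat_lit 5244) (nat_lit 3) (nat_lit 55676919461111027703) (ZL.cons (nat_lit 5320) (nat_lit 6) (nat_lit 111556272327694862556) (ZL.cons (nat_lit 5396) (nat_lit 3) (nat_lit 55660077001775690148) (ZL.cons (nat_lit 5472) (nat_lit 6) (nat_lit 110899092520167941424) (ZL.cons (nat_lit 5548) (nat_lit 1) (nat_lit 18446744073709551617) ZL.nil))))))))))))))))))))))))))))))))))))))))))))))))))))))))))))))))))))))))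

noncomputable def vl : XL := ⟨(nat_lit 0), (nat_lit 76), (nat_lit 90553326), (nat_lit 152), (nat_lit 217363992), (nat_lit 152), (nat_lit 217363992), (nat_lit 1), (nat_lit 4), (nat_lit 2), (nat_lit 5), (nat_lit 2), (nat_lit 4), (nat_lit 0), (nat_lit 0), (nat_lit 0)⟩

noncomputable def cp0 : Nat := (nat_lit 54501371550184749351641164818054162563339768449644887440953984008448898234495239782026567259627647255744690380672961126428436152126526387905325919757297712054937320201212967026233606361417252001093900383875875646341939469402556340444467177096394031889605412992137042593617267453781770360064484627706762173077869376435624947379390903324856411312301151979768053639937018055572657677741008331563480113344354689020173673499250361404387691625726626096696845136219884880411615419820507442273459697022288335698440896513969953059247868311057340742850715812530432476820821292811611424892243033268211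8536422517166174064481895392978117594357231697575381017262009658176903422618830689521982788397838019184650667625312574721608988607640682763243673151637024915562678131426208632810106341905783267972004355118611077408534593426331988288383988597124748036871999002020771121398618056510552336191126032728540823410468647605518991065984300730218727712158853841825143366335058258779717650264670781882829779432207219017890858120196600421437540316213571648269874439527037395104462204498080544546977982462106589029470719050787697988042368286847907653296161088519815964389790131589471369149241860258945058682361964916528091091297692016461824125913399481536638508808326358896901444953820367046981251894197152078524241773347382541893775178312361504903142513153972022592370143271442741687717240731910978609719467514075744829342653405025790754592452069720128210004327381530731246143925666679785059712771614438096880077136006940158754173704220899146741340728846320866122627786918215412560023556001506806578365878337341765284784530702702649525262288494823964876423205093481157645747663837204435352290627269320211693568)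

noncomputable def cp1 : Nat := (nat_lit 28526730190858354906270248561065087643114848113460086613701229921459239532735094991437163687756214193580923741371256917761370620752902324357589973807667384427104268490283535775758540431080217980421575943881052367250034986596998788420776020540509363124204846394414141377006897308366213049106279506897986323637773918585210430901247138727801690588776531837469779841899854033478578440341195966417049321247895928918696009701416550343650969110373962331991903866700356191330812614630168877086418166890416703512914103187652694172791893692279369781191417075287668974663703797288640015056540015427286854561562036999693257498178548261947104369345371378389527161949259602604234529696141191206306358994449794336268332362749134138572717687063470401554547953797910206587354387999167472446298718402086827311490351347903916590975450022128020430353641637222564554815157778483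71377600913003095343857387517951477582221838306229693569476786134423620479495171667858056636180552147797168456449166524084919325007158252457379485362119702958501297181438718897445904695858198436794579439630225539073568428354614690437011898707032419775118646867259218359525548572368914818964325944566301144114890025829432820709577207733199307915339804297367964548743137266226646469227103889058367288875490984441742358569201510946719334785292827014401442321717111459411346191142812675347285013745461926583875749085354939998673470332617059315883220401638094997857253493212046536304971037679302026768055932738409785978974045363260944360754460505832638673621876958633485830898664736008336363062828979421192342780805551998771014128944113848242654861076411629395463716303480664041413911834860875151506659672453723864481967554374429832808040996384704183941710786369688077072234382090488924972399523872135405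54801119755367634724889421460494000376807122417626151343003830444738901248531905786590720083690236275178448720725581776902879772816330505900956904462580168241993766952557292210875678631455641078715718695002042315705188504623162862471598286699121378978578607779128669897719436674988659757684086117959033421043384030039259429441691754967427629306371988535657836582548701655603024508043194873359602032222509345631448083615256609410969927696208241972535791291842162152193056274928269374449257769408084520623772522406359065536323082802532555586268156068637972369648267463465634935885468862266008807609045174852189140791922620762490027081235396089114434327728118586261538980229174423158307364130377263778904808288995003673017227107395008046548405393019638750023073028020743595796501003585244720128870128805703404524215661340593819687694132906063025182093246249092050379083145398592566298193384340708222947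74632451672645736709831450400589618376976459112214166925793902502349734687831008964523897200132551163057235965879094944106643473519037850793788391907973033347101721961008087185202514179830663403560113168855744355850785848909993106183439563195922210783093689024216572570971494982324453436202765551476813913048075730410199666208250385657649611477135072961461766781028490179905512428604481002744118889496982338531877889523254620450343493492516567801172291919186055968908000206959661379527873834656665213389707570602637892044726430303616241315274086829136935047019480297560816638136277304330389977975878058766045205400605631623903584373244713823884768529631203432715261688713741054826696477051627991426739015937302938079070576860849988047705284851196098355616658483621761384448)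

noncomputable def rc0 : Nat := (nat_lit 28526730190858354906270248561065087643114848113460086613701229921459239532735094991437163687756214193580923741371256917761370620752902324357589973807667384427104268490283535775758540431080217980421575943881052367250034986596998788420776020540509363124204846394414141377006897308366213049106279506897986323637773918585210430901247138727801690588776531837469779841899854033478578440341195966417049321247895928918696009701416550343650969110373962331991903866700356191330812614630168877086418166890416703512914103187652694172791893692279369781191417075287668974663703797288640015056540015427286854561562036999693257498178548261947104369345371378389527161949259602604234529696141191206306358994449794336268332362749134138572717687063470401554547953797910206587354387999167472446298718402086827311490351347903916590975450022128020430353641637222564554815157778483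71377600913003095343857387517951477582221838306229693569476786134423620479495171667858056636180552147797168456449166524084919325007158252457379485362119702958501297181438718897445904695858198436794579439630225539073568428354614690437011898707032419775118646867259218359525548572368914818964325944566301144114890025829432820709577207733199307915339804297367964548743137266226646469227103889058367288875490984441742358569201510946719334785292827014401442321717111459411346191142812675347285013745461926583875749085354939998673470332617059315883220401638094997857253493212046536304971037679302026768055932738409785978974045363260944360754460505832638673621876958633485830898664736008336363062828979421192342780805551998771014128944113848242654861076411629395463716303480664041413911834860875151506659672453723864481967554374429832808040996384704183941710786369688077072234382090488924972399523872135405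54801119755367634724889421460494000376807122417626151343003830444738901248531905786590720083690236275178448720725581776902879772816330505900956904462580168241993766952557292210875678631455641078715718695002042315705188504623162862471598286699121378978578607779128669897719436674988659757684086117959033421043384030039259429441691754967427629306371988535657836582548701655603024508043194873359602032222509345631448083615256609410969927696208241972535791291842162152193056274928269374449257769408084520623772522406359065536323082802532555586268156068637972369648267463465634935885468862266008807609045174852189140791922620762490027081235396089114434327728118586261538980229174423158307364130377263778904808288995003673017227107395008046548405393019638750023073028020743595796501003585244720128870128805703404524215661340593819687694132906063025182093246249092050379083145398592566298193384340708222947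74632451672645736709831450400589618376976459112214166925793902502349734687831008964523897200132551163057235965879094944106643473519037850793788391907973033347101721961008087185202514179830663403560113168855744355850785848909993106183439563195922210783093689024216572570971494982324453436202765551476813913048075730410199666208250385657649611477135072961461766781028490179905512428604481002744118889496982338531877889523254620450343493492516567801172291919186055968908000206959661379527873834656665213389707570602637892044726430303616241315274086829136935047019480297560816638136277304330389977975878058766045205400605631623903584373244713823884768529631203432715261688713741054826696477051627991426739015937302938079070576860849988047705284851196098355616658483621761384448)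

end Vale.Agent.Lib.P154.PChain.BK.S3
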